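import Crest.Agent.R164.TransLab

/-!
Row 164: S0249 from S0248 (helper639).
-/

set_option autoImplicit false

namespace Crest.Agent.R164

open MeasureTheory Set Filter Topology
open Crest.ProbabilityR.InvariantGlass
open scoped ENNReal

/-- bound for the pressure of an orthogonal matrix -/
theorem abs_pressureFieldN_le {N : ℕ} (eig : Fin N → ℝ) {U : Matrix (Fin N) (Fin N) ℝ}
    (hU : U ∈ Matrix.orthogonalGroup (Fin N) ℝ) (c : Fin N → ℝ) :
    |pressureFieldN eig U c| ≤ (1 / (N : ℝ)) * ((1 / 2) * ((∑ i, |eig i|) * N) + ∑ r, |c r|) := by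
  set B : ℝ := (1 / 2) * ((∑ i, |eig i|) * N) + ∑ r, |c r| with hB
  have hterm : ∀ σ : Fin N → Bool, |(1 / 2) * (∑ i : Fin N, eig i * (U.mulVec (spinVec σ) i) ^ 2) +
      ∑ r : Fin N, c r * spinVec σ r| ≤ B := by
    intro σ
    have h1 : |∑ i : Fin N, eig i * (U.mulVec (spinVec σ) i) ^ 2| ≤ (∑ i, |eig i|) * N := by
      refine (Finset.abs_sum_le_sum_abs _ _).trans ?_
      rw [Finset.sum_mul]
      refine Finset.sum_le_sum fun i _ => ?_
      rw [abs_mul, abs_of_nonneg (sq_nonneg (U.mulVec (spinVec σ) i))]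
      refine mul_le_mul_of_nonneg_left ?_ (abs_nonneg _)
      calc (U.mulVec (spinVec σ) i) ^ 2 ≤ ∑ j, (U.mulVec (spinVec σ) j) ^ 2 :=
            Finset.single_le_sum (f := fun j => (U.mulVec (spinVec σ) j) ^ 2)
              (fun j _ => sq_nonneg _) (Finset.mem_univ i)
        _ = N := by
            rw [sq_sum_mulVec hU]
            have : ∀ r, spinVec σ r ^ 2 = 1 := fun r => by
              rw [← sq_abs, abs_spinVec, one_pow]
            simp [this]
    have h2 : |∑ r : Fin N, c r * spinVec σ r| ≤ ∑ r, |c r| := by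
      refine (Finset.abs_sum_le_sum_abs _ _).trans (Finset.sum_le_sum fun r _ => ?_)
      rw [abs_mul, abs_spinVec, mul_one]
    refine (abs_add_le _ _).trans ?_
    rw [abs_mul, abs_of_pos (by norm_num : (0 : ℝ) < 1 / 2), hB]
    linarith
  have hcard : (1 / 2 : ℝ) ^ N * ∑ _σ : Fin N → Bool, (1 : ℝ) = 1 := by
    rw [Finset.sum_const, Finset.card_univ, Fintype.card_fun, Fintype.card_bool, Fintype.card_fin,
      nsmul_eq_mul, mul_one]
    push_cast
    rw [← mul_pow]; norm_num
  have hup : (1 / 2 : ℝ) ^ N * ∑ σ : Fin N → Bool,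
      Real.exp ((1 / 2) * (∑ i : Fin N, eig i * (U.mulVec (spinVec σ) i) ^ 2) +
        ∑ r : Fin N, c r * spinVec σ r) ≤ Real.exp B := by
    calc _ ≤ (1 / 2 : ℝ) ^ N * ∑ _σ : Fin N → Bool, Real.exp B := by
          refine mul_le_mul_of_nonneg_left (Finset.sum_le_sum fun σ _ => ?_) (by positivity)
          exact Real.exp_le_exp.2 (abs_le.1 (hterm σ)).2
      _ = Real.exp B * ((1 / 2 : ℝ) ^ N * ∑ _σ : Fin N → Bool, (1 : ℝ)) := by
          simp only [Finset.sum_const, nsmul_eq_mul, mul_one]; ring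
      _ = Real.exp B := by rw [hcard, mul_one]
  have hlo : Real.exp (-B) ≤ (1 / 2 : ℝ) ^ N * ∑ σ : Fin N → Bool,
      Real.exp ((1 / 2) * (∑ i : Fin N, eig i * (U.mulVec (spinVec σ) i) ^ 2) +
        ∑ r : Fin N, c r * spinVec σ r) := by
    calc Real.exp (-B) = Real.exp (-B) * ((1 / 2 : ℝ) ^ N * ∑ _σ : Fin N → Bool, (1 : ℝ)) := by
          rw [hcard, mul_one]
      _ = (1 / 2 : ℝ) ^ N * ∑ _σ : Fin N → Bool, Real.exp (-B) := by
          simp only [Finset.sum_const, nsmul_eq_mul, mul_one]; ring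
      _ ≤ _ := by
          refine mul_le_mul_of_nonneg_left (Finset.sum_le_sum fun σ _ => ?_) (by positivity)
          exact Real.exp_le_exp.2 (abs_le.1 (hterm σ)).1
  unfold pressureFieldN
  rw [abs_mul, abs_of_nonneg (by positivity : (0 : ℝ) ≤ 1 / (N : ℝ))]
  refine mul_le_mul_of_nonneg_left ?_ (by positivity)
  rw [abs_le]
  constructor
  · have := Real.log_le_log (Real.exp_pos _) hlo
    rwa [Real.log_exp] at this
  · have := Real.log_le_log (lt_of_lt_of_le (Real.exp_pos _) hlo) hup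
    rwa [Real.log_exp] at this

/-- measurability of the pressure -/
theorem measurable_pressureFieldN {Ω : Type*} [MeasurableSpace Ω] {N : ℕ} (eig : Fin N → ℝ)
    {V : Ω → (Fin N → Fin N → ℝ)} (hV : Measurable V) (c : Fin N → ℝ) :
    Measurable (fun ω => pressureFieldN eig (Matrix.of (V ω)) c) := by
  unfold pressureFieldN
  refine measurable_const.mul (Real.measurable_log.comp (measurable_const.mul ?_))
  refine Finset.measurable_sum _ fun σ _ => ?_
  refine Real.measurable_exp.comp (Measurable.add_const (measurable_const.mul ?_) _)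
  refine Finset.measurable_sum _ fun i _ => measurable_const.mul ?_
  have : Measurable (fun ω => (Matrix.of (V ω)).mulVec (spinVec σ) i) := by
    unfold Matrix.mulVec dotProduct
    refine Finset.measurable_sum _ fun j _ => Measurable.mul_const ?_ _
    exact (measurable_pi_apply j).comp ((measurable_pi_apply i).comp hV)
  exact this.pow_const 2

theorem integrable_pressureFieldN {Ω : Type*} [MeasurableSpace Ω] (P : Measure Ω)
    [IsProbabilityMeasure P] {N : ℕ} (eig : Fin N → ℝ)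
    {V : Ω → (Fin N → Fin N → ℝ)} (hV : Measurable V)
    (horth : ∀ᵐ ω ∂P, Matrix.of (V ω) ∈ Matrix.orthogonalGroup (Fin N) ℝ) (c : Fin N → ℝ) :
    Integrable (fun ω => pressureFieldN eig (Matrix.of (V ω)) c) P := by
  refine Integrable.of_bound (measurable_pressureFieldN eig hV c).aestronglyMeasurable
    ((1 / (N : ℝ)) * ((1 / 2) * ((∑ i, |eig i|) * N) + ∑ r, |c r|)) ?_
  filter_upwards [horth] with ω hω
  rw [Real.norm_eq_abs]
  exact abs_pressureFieldN_le eig hω c

section main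

variable (μ : Measure ℝ) (lamPlus : ℝ) (eig : (N : ℕ) → Fin N → ℝ)
  {Ω : Type} [MeasurableSpace Ω] (P : Measure Ω) [IsProbabilityMeasure P]
  (Us : (N : ℕ) → Ω → (Fin N → Fin N → ℝ))

/-- the conclusion of S0248 for all finite alphabets and labels -/
def H248 : Prop :=
  ∀ (J : ℕ) (cval : Fin J → ℝ), Function.Injective cval →
    ∀ γ : Fin J → ℚ, (∀ j, 0 < γ j) → ∑ j, γ j = 1 →
    ∀ lab : (N : ℕ) → Fin N → Fin J,
    (∀ j : Fin J, Tendsto
      (fun N : ℕ => ((Finset.univ.filter fun r : Fin N => lab N r = j).card : ℝ) / (N : ℝ))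
      atTop (nhds ((γ j : ℚ) : ℝ))) →
    ∃ F : ℝ, magneticValue μ lamPlus cval γ = (F : EReal) ∧
      Tendsto (fun N : ℕ => ∫ ω, pressureFieldN (eig N) (Matrix.of (Us N ω))
          (fun r => cval (lab N r)) ∂P) atTop (nhds F) ∧
      ∀ᵐ ω ∂P, Tendsto (fun N : ℕ => pressureFieldN (eig N) (Matrix.of (Us N ω))
          (fun r => cval (lab N r))) atTop (nhds F)

variable {μ lamPlus eig P Us}

theorem law_finite {J : ℕ} (cq : Fin J → ℝ) (γ : Fin J → ℝ) :
    IsFiniteMeasure (∑ j : Fin J, ENNReal.ofReal (γ j) • Measure.dirac (cq j) : Measure ℝ) := by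
  constructor
  rw [Measure.finsetSum_apply]
  refine ENNReal.sum_lt_top.2 fun j _ => ?_
  rw [Measure.smul_apply, smul_eq_mul]
  exact ENNReal.mul_lt_top ENNReal.ofReal_lt_top (measure_lt_top _ _)

/-- comparison with one finite alphabet -/
theorem one_alphabet (hmeas : ∀ N, Measurable (Us N))
    (horth : ∀ N, ∀ᵐ ω ∂P, Matrix.of (Us N ω) ∈ Matrix.orthogonalGroup (Fin N) ℝ)
    (h248 : H248 μ lamPlus eig P Us)
    (ν : Measure ℝ) [IsProbabilityMeasure ν] (c : (N : ℕ) → Fin N → ℝ)
    (hW : Tendsto (fun N : ℕ => transportCost (empiricalLaw (c N)) ν) atTop (nhds 0))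
    {J : ℕ} (cq : Fin J → ℝ) (hinj : Function.Injective cq) (γ : Fin J → ℚ)
    (hγ : ∀ j, 0 < γ j) (hs : ∑ j, γ j = 1) :
    ∃ F : ℝ, magneticValue μ lamPlus cq γ = (F : EReal) ∧ ∀ ε : ℝ, 0 < ε →
      Dc (∑ j : Fin J, ENNReal.ofReal ((γ j : ℚ) : ℝ) • Measure.dirac (cq j)) ν <
        ENNReal.ofReal ε →
      (∀ᶠ N : ℕ in atTop, |∫ ω, pressureFieldN (eig N) (Matrix.of (Us N ω)) (c N) ∂P - F| ≤
        2 * ε) ∧
      ∀ᵐ ω ∂P, ∀ᶠ N : ℕ in atTop, |pressureFieldN (eig N) (Matrix.of (Us N ω)) (c N) - F| ≤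
        2 * ε := by
  obtain ⟨l, hl⟩ := exists_labels γ hγ hs
  choose e he using fun N => exists_matching (c N) cq (l N)
  set lab : (N : ℕ) → Fin N → Fin J := fun N r => l N (e N r) with hlab
  have hprop : ∀ j : Fin J, Tendsto
      (fun N : ℕ => ((Finset.univ.filter fun r : Fin N => lab N r = j).card : ℝ) / (N : ℝ))
      atTop (nhds ((γ j : ℚ) : ℝ)) := by
    intro j
    have hc : ∀ N, (Finset.univ.filter fun r : Fin N => lab N r = j).card =
        (Finset.univ.filter fun r : Fin N => l N r = j).card := by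
      intro N
      refine Finset.card_bij' (fun r _ => e N r) (fun r _ => (e N).symm r) ?_ ?_ ?_ ?_
      · intro r hr; simpa [hlab] using hr
      · intro r hr; simpa [hlab] using hr
      · intro r _; simp
      · intro r _; simp
    simp only [hc]
    exact hl j
  obtain ⟨F, hF, hE, has⟩ := h248 J cq hinj γ hγ hs lab hprop
  refine ⟨F, hF, fun ε hε hD => ?_⟩
  set law : Measure ℝ := ∑ j : Fin J, ENNReal.ofReal ((γ j : ℚ) : ℝ) • Measure.dirac (cq j)
    with hlaw
  have hlawfin : IsFiniteMeasure law := law_finite cq fun j => ((γ j : ℚ) : ℝ)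
  set δ : ℕ → ℝ := fun N => (1 / (N : ℝ)) * ∑ r, |c N r - cq (lab N r)| with hδ
  -- convergence of the three distances
  have hD1 : Tendsto (fun N => Dc (empiricalLaw (c N)) ν) atTop (nhds 0) :=
    tendsto_of_tendsto_of_tendsto_of_le_of_le tendsto_const_nhds hW (fun _ => zero_le)
      (fun N => Dc_le_transportCost _ _)
  obtain ⟨K, hK⟩ : ∃ K : ℝ, ∀ j, |cq j| ≤ K :=
    ⟨∑ j, |cq j|, fun j => Finset.single_le_sum (f := fun j => |cq j|) (fun j _ => abs_nonneg _)
      (Finset.mem_univ j)⟩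
  have hD3 : Tendsto (fun N => Dc law (empiricalLaw (fun r => cq (l N r)))) atTop (nhds 0) := by
    have h1 : Tendsto (fun N : ℕ => (2 * K) * ∑ j, |((γ j : ℚ) : ℝ) -
        ((Finset.univ.filter fun r : Fin N => l N r = j).card : ℝ) / (N : ℝ)|) atTop
        (nhds ((2 * K) * ∑ j : Fin J, |((γ j : ℚ) : ℝ) - ((γ j : ℚ) : ℝ)|)) := by
      refine Tendsto.const_mul _ (tendsto_finsetSum _ fun j _ => ?_)
      exact (tendsto_const_nhds.sub (hl j)).abs
    simp only [sub_self, abs_zero, Finset.sum_const_zero, mul_zero] at h1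
    have h2 := ENNReal.tendsto_ofReal h1
    rw [ENNReal.ofReal_zero] at h2
    refine tendsto_of_tendsto_of_tendsto_of_le_of_le' tendsto_const_nhds h2
      (Eventually.of_forall fun _ => zero_le) ?_
    filter_upwards [eventually_gt_atTop 0] with N hN
    exact Dc_labels_le hN cq (fun j => ((γ j : ℚ) : ℝ)) (fun j => by exact_mod_cast (hγ j).le)
      (by exact_mod_cast hs) (l N) K hK
  have hsum : Tendsto (fun N => Dc (empiricalLaw (c N)) ν + (Dc ν law +
      Dc law (empiricalLaw (fun r => cq (l N r))))) atTop (nhds (0 + (Dc ν law + 0))) :=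
    hD1.add (tendsto_const_nhds.add hD3)
  rw [zero_add, add_zero] at hsum
  have hδle : ∀ᶠ N in atTop, δ N ≤ ε := by
    rw [Dc_comm] at hD
    filter_upwards [hsum.eventually (gt_mem_nhds hD)] with N hN
    have h1 : ENNReal.ofReal (δ N) ≤ ENNReal.ofReal ε := by
      refine (he N).trans (le_trans ?_ hN.le)
      exact (Dc_triangle _ ν _).trans (add_le_add le_rfl (Dc_triangle _ law _))
    exact (ENNReal.ofReal_le_ofReal_iff hε.le).1 h1
  have hpath : ∀ N ω, |pressureFieldN (eig N) (Matrix.of (Us N ω)) (c N) -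
      pressureFieldN (eig N) (Matrix.of (Us N ω)) (fun r => cq (lab N r))| ≤ δ N :=
    fun N ω => pressureFieldN_lip _ _ _ _
  constructor
  · have hEv := hE.eventually (Metric.ball_mem_nhds F hε)
    filter_upwards [hδle, hEv] with N h1 h2
    have hi1 := integrable_pressureFieldN P (eig N) (hmeas N) (horth N) (c N)
    have hi2 := integrable_pressureFieldN P (eig N) (hmeas N) (horth N) (fun r => cq (lab N r))
    have h3 : |∫ ω, pressureFieldN (eig N) (Matrix.of (Us N ω)) (c N) ∂P -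
        ∫ ω, pressureFieldN (eig N) (Matrix.of (Us N ω)) (fun r => cq (lab N r)) ∂P| ≤ δ N := by
      rw [← integral_sub hi1 hi2]
      have := norm_integral_le_of_norm_le_const (μ := P) (C := δ N)
        (f := fun ω => pressureFieldN (eig N) (Matrix.of (Us N ω)) (c N) -
          pressureFieldN (eig N) (Matrix.of (Us N ω)) (fun r => cq (lab N r)))
        (Eventually.of_forall fun ω => by rw [Real.norm_eq_abs]; exact hpath N ω)
      simpa using this
    have h4 : |∫ ω, pressureFieldN (eig N) (Matrix.of (Us N ω)) (fun r => cq (lab N r)) ∂P - F| <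
        ε := by
      simpa [Metric.mem_ball, Real.dist_eq] using h2
    calc _ = |(∫ ω, pressureFieldN (eig N) (Matrix.of (Us N ω)) (c N) ∂P -
        ∫ ω, pressureFieldN (eig N) (Matrix.of (Us N ω)) (fun r => cq (lab N r)) ∂P) +
        (∫ ω, pressureFieldN (eig N) (Matrix.of (Us N ω)) (fun r => cq (lab N r)) ∂P - F)| := by
          congr 1; ring
      _ ≤ _ := (abs_add_le _ _).trans (by linarith)
  · filter_upwards [has] with ω hω
    have hEv := hω.eventually (Metric.ball_mem_nhds F hε)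
    filter_upwards [hδle, hEv] with N h1 h2
    have h3 := hpath N ω
    have h4 : |pressureFieldN (eig N) (Matrix.of (Us N ω)) (fun r => cq (lab N r)) - F| < ε := by
      simpa [Metric.mem_ball, Real.dist_eq] using h2
    calc _ = |(pressureFieldN (eig N) (Matrix.of (Us N ω)) (c N) -
        pressureFieldN (eig N) (Matrix.of (Us N ω)) (fun r => cq (lab N r))) +
        (pressureFieldN (eig N) (Matrix.of (Us N ω)) (fun r => cq (lab N r)) - F)| := by
          congr 1; ring
      _ ≤ _ := (abs_add_le _ _).trans (by linarith)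

/-- S0249 from S0248 -/
theorem s0249_of_s0248 (hmeas : ∀ N, Measurable (Us N))
    (horth : ∀ N, ∀ᵐ ω ∂P, Matrix.of (Us N ω) ∈ Matrix.orthogonalGroup (Fin N) ℝ)
    (h248 : H248 μ lamPlus eig P Us)
    (ν : Measure ℝ) [IsProbabilityMeasure ν] (c : (N : ℕ) → Fin N → ℝ)
    (hW : Tendsto (fun N : ℕ => transportCost (empiricalLaw (c N)) ν) atTop (nhds 0)) :
    ∃ F : ℝ,
      (∀ (Jq : ℕ → ℕ) (cq : (q : ℕ) → Fin (Jq q) → ℝ) (γq : (q : ℕ) → Fin (Jq q) → ℚ),
        (∀ q, Function.Injective (cq q) ∧ (∀ j, 0 < γq q j) ∧ ∑ j, γq q j = 1) →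
        Tendsto (fun q : ℕ => transportCost
            (∑ j : Fin (Jq q), ENNReal.ofReal ((γq q j : ℚ) : ℝ) • Measure.dirac (cq q j)) ν)
          atTop (nhds 0) →
        Tendsto (fun q : ℕ => magneticValue μ lamPlus (cq q) (γq q))
          atTop (nhds (F : EReal))) ∧
      Tendsto (fun N : ℕ => ∫ ω, pressureFieldN (eig N) (Matrix.of (Us N ω)) (c N) ∂P)
        atTop (nhds F) ∧
      ∀ᵐ ω ∂P, Tendsto (fun N : ℕ => pressureFieldN (eig N) (Matrix.of (Us N ω)) (c N))
        atTop (nhds F) := by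
  set a : ℕ → ℝ := fun N => ∫ ω, pressureFieldN (eig N) (Matrix.of (Us N ω)) (c N) ∂P with ha
  have hD1 : Tendsto (fun N => Dc (empiricalLaw (c N)) ν) atTop (nhds 0) :=
    tendsto_of_tendsto_of_tendsto_of_le_of_le tendsto_const_nhds hW (fun _ => zero_le)
      (fun N => Dc_le_transportCost _ _)
  -- for every precision a good alphabet
  have hgood : ∀ ε : ℝ, 0 < ε → ∃ F : ℝ, (∀ᶠ N : ℕ in atTop, |a N - F| ≤ 2 * ε) ∧
      ∀ᵐ ω ∂P, ∀ᶠ N : ℕ in atTop, |pressureFieldN (eig N) (Matrix.of (Us N ω)) (c N) - F| ≤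
        2 * ε := by
    intro ε hε
    have hev := hD1.eventually (gt_mem_nhds (ENNReal.ofReal_pos.2 hε))
    obtain ⟨N, hN1, hN⟩ := (hev.and (eventually_gt_atTop 0)).exists
    obtain ⟨J, cq, γ, hinj, hγ, hs, hcdf⟩ := exists_alphabet hN (c N)
    obtain ⟨F, -, hF⟩ := one_alphabet hmeas horth h248 ν c hW cq hinj γ hγ hs
    refine ⟨F, hF ε hε ?_⟩
    have : Dc (∑ j : Fin J, ENNReal.ofReal ((γ j : ℚ) : ℝ) • Measure.dirac (cq j)) ν =
        Dc (empiricalLaw (c N)) ν := by
      unfold Dc; congr 1; funext t; rw [hcdf t]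
    rw [this]; exact hN1
  have hcau : CauchySeq a := by
    rw [Metric.cauchySeq_iff']
    intro ε hε
    obtain ⟨F, hF, -⟩ := hgood (ε / 8) (by linarith)
    obtain ⟨M, hM⟩ := eventually_atTop.1 hF
    refine ⟨M, fun n hn => ?_⟩
    rw [Real.dist_eq]
    have h1 := hM n hn
    have h2 := hM M le_rfl
    calc |a n - a M| = |(a n - F) - (a M - F)| := by congr 1; ring
      _ ≤ |a n - F| + |a M - F| := abs_sub _ _
      _ < ε := by linarith
  obtain ⟨F, hF⟩ := cauchySeq_tendsto_of_complete hcau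
  -- closeness of the limit
  have hclose : ∀ (ε G : ℝ), (∀ᶠ N : ℕ in atTop, |a N - G| ≤ 2 * ε) → |F - G| ≤ 2 * ε := by
    intro ε G h
    exact le_of_tendsto ((hF.sub_const G).abs) h
  refine ⟨F, ?_, hF, ?_⟩
  · intro Jq cq γq hval hcost
    have h1 := fun q => one_alphabet hmeas horth h248 ν c hW (cq q) (hval q).1 (γq q)
      (hval q).2.1 (hval q).2.2
    choose G hG1 hG2 using h1
    have h3 : (fun q : ℕ => magneticValue μ lamPlus (cq q) (γq q)) = fun q => ((G q : ℝ) : EReal) := by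
      funext q; exact hG1 q
    rw [h3]
    refine (continuous_coe_real_ereal.tendsto F).comp ?_
    rw [Metric.tendsto_nhds]
    intro ε hε
    have hlt : Tendsto (fun q : ℕ => Dc (∑ j : Fin (Jq q), ENNReal.ofReal ((γq q j : ℚ) : ℝ) •
        Measure.dirac (cq q j)) ν) atTop (nhds 0) := by
      refine tendsto_of_tendsto_of_tendsto_of_le_of_le tendsto_const_nhds hcost (fun _ => zero_le)
        (fun q => ?_)
      have := law_finite (cq q) fun j => ((γq q j : ℚ) : ℝ)
      exact Dc_le_transportCost _ _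
    have hev := hlt.eventually (gt_mem_nhds (ENNReal.ofReal_pos.2 (by linarith : 0 < ε / 4)))
    filter_upwards [hev] with q hq
    have h4 := hclose (ε / 4) (G q) (hG2 q (ε / 4) (by linarith) hq).1
    rw [Real.dist_eq, abs_sub_comm]
    linarith
  · have h1 : ∀ k : ℕ, ∃ G : ℝ, (∀ᶠ N : ℕ in atTop, |a N - G| ≤ 2 * (1 / ((k : ℝ) + 1))) ∧
        ∀ᵐ ω ∂P, ∀ᶠ N : ℕ in atTop, |pressureFieldN (eig N) (Matrix.of (Us N ω)) (c N) - G| ≤
          2 * (1 / ((k : ℝ) + 1)) := fun k => hgood _ (by positivity)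
    choose G hG1 hG2 using h1
    filter_upwards [ae_all_iff.2 hG2] with ω hω
    rw [Metric.tendsto_nhds]
    intro ε hε
    obtain ⟨k, hk⟩ := exists_nat_one_div_lt (show 0 < ε / 4 by linarith)
    filter_upwards [hω k] with N hN
    have h2 := hclose _ _ (hG1 k)
    rw [Real.dist_eq]
    calc |pressureFieldN (eig N) (Matrix.of (Us N ω)) (c N) - F|
        = |(pressureFieldN (eig N) (Matrix.of (Us N ω)) (c N) - G k) - (F - G k)| := by
          congr 1; ring
      _ ≤ |pressureFieldN (eig N) (Matrix.of (Us N ω)) (c N) - G k| + |F - G k| := abs_sub _ _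
      _ < ε := by linarith

end main

end Crest.Agent.R164
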