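import Crest.Agent.R164.RTrans2

/-!
Row 164: reduction of S0247/S0248 to spectra with finitely many distinct eigenvalues, each of
positive limiting proportion.
-/

set_option autoImplicit false

namespace Crest.Agent.R164.Atomic

open MeasureTheory Crest.ProbabilityR.InvariantGlass Set Filter Topology
open Crest.Agent.R164.RTrans

/-! ### Labels by counting cuts -/

/-- number of cuts strictly below `x` -/
noncomputable def cidx {n : ℕ} (t : Fin n → ℝ) (x : ℝ) : Fin (n + 1) :=
  ⟨(Finset.univ.filter (fun k => t k < x)).card, by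
    have := Finset.card_filter_le (Finset.univ : Finset (Fin n)) (fun k => t k < x)
    simp only [Finset.card_univ, Fintype.card_fin] at this
    omega⟩

lemma cidx_le_iff {n : ℕ} {t : Fin n → ℝ} (ht : StrictMono t) (x : ℝ) (j : Fin n) :
    (cidx t x).val ≤ j.val ↔ x ≤ t j := by
  unfold cidx
  simp only
  constructor
  · intro h
    by_contra hc
    push Not at hc
    have : Finset.Iic j ⊆ Finset.univ.filter (fun k => t k < x) := by
      intro k hk
      simp only [Finset.mem_Iic] at hk
      simp only [Finset.mem_filter, Finset.mem_univ, true_and]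
      exact lt_of_le_of_lt (ht.monotone hk) hc
    have := Finset.card_le_card this
    rw [Fin.card_Iic] at this
    omega
  · intro h
    have : Finset.univ.filter (fun k => t k < x) ⊆ Finset.Iio j := by
      intro k hk
      simp only [Finset.mem_filter, Finset.mem_univ, true_and] at hk
      simp only [Finset.mem_Iio]
      by_contra hc
      push Not at hc
      have := ht.monotone hc
      linarith
    have := Finset.card_le_card this
    rwa [Fin.card_Iio] at this

lemma measurable_cidx {n : ℕ} {t : Fin n → ℝ} (ht : StrictMono t) : Measurable (cidx t) := by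
  refine measurable_to_countable' fun j => ?_
  have key : ∀ m : ℕ, MeasurableSet {x | (cidx t x).val ≤ m} := by
    intro m
    by_cases hm : m < n
    · have : {x | (cidx t x).val ≤ m} = Iic (t ⟨m, hm⟩) := by
        ext x; exact cidx_le_iff ht x ⟨m, hm⟩
      rw [this]; exact measurableSet_Iic
    · have : {x | (cidx t x).val ≤ m} = univ := by
        ext x; simp only [mem_ofPred_eq, mem_univ, iff_true]
        have := (cidx t x).isLt; omega
      rw [this]; exact MeasurableSet.univ
  rcases j with ⟨j, hj⟩
  cases j with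
  | zero =>
    have : cidx t ⁻¹' {⟨0, hj⟩} = {x | (cidx t x).val ≤ 0} := by
      ext x
      simp only [mem_preimage, mem_singleton_iff, mem_ofPred_eq, Fin.ext_iff]
      omega
    rw [this]; exact key 0
  | succ j =>
    have : cidx t ⁻¹' {⟨j + 1, hj⟩} = {x | (cidx t x).val ≤ j + 1} \ {x | (cidx t x).val ≤ j} := by
      ext x
      simp only [mem_preimage, mem_singleton_iff, mem_ofPred_eq, Fin.ext_iff, Set.mem_sdiff]
      omega
    rw [this]; exact (key (j + 1)).diff (key j)

/-! ### Empirical proportions -/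

variable {μ : Measure ℝ} [IsProbabilityMeasure μ] {lo hi : ℝ}

/-- empirical cdf converges at non-atoms -/
lemma tendsto_cdf (eig : (N : ℕ) → Fin N → ℝ)
    (hweak : ∀ φ : ℝ → ℝ, Continuous φ → (∃ C : ℝ, ∀ x, |φ x| ≤ C) →
      Tendsto (fun N : ℕ => (1 / (N : ℝ)) * ∑ i : Fin N, φ (eig N i)) atTop (𝓝 (∫ x, φ x ∂μ)))
    {c : ℝ} (hc : μ {c} = 0) :
    Tendsto (fun N : ℕ => ((Finset.univ.filter fun i : Fin N => eig N i ≤ c).card : ℝ) / (N : ℝ))
      atTop (𝓝 (μ.real (Iic c))) := by
  -- continuous bumps
  have hmain : ∀ (a : ℝ) (ε : ℝ), 0 < ε → ∃ φ : ℝ → ℝ, Continuous φ ∧ (∀ x, 0 ≤ φ x ∧ φ x ≤ 1) ∧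
      (∀ x, x ≤ a → φ x = 1) ∧ (∀ x, a + ε ≤ x → φ x = 0) := by
    intro a ε hε
    refine ⟨fun x => max 0 (min 1 (1 - (x - a) / ε)), by fun_prop, ?_, ?_, ?_⟩
    · intro x
      exact ⟨le_max_left _ _, max_le zero_le_one (min_le_left _ _)⟩
    · intro x hx
      have : 1 ≤ 1 - (x - a) / ε := by
        have : (x - a) / ε ≤ 0 := div_nonpos_of_nonpos_of_nonneg (by linarith) hε.le
        linarith
      simp only [min_eq_left this]
      norm_num
    · intro x hx
      have : 1 - (x - a) / ε ≤ 0 := by
        have : 1 ≤ (x - a) / ε := by rw [le_div_iff₀ hε]; linarith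
        linarith
      have h2 : min 1 (1 - (x - a) / ε) ≤ 0 := (min_le_right _ _).trans this
      simp only [max_eq_left h2]
  have hcard : ∀ (N : ℕ), ((Finset.univ.filter fun i : Fin N => eig N i ≤ c).card : ℝ) / (N : ℝ) =
      (1 / (N : ℝ)) * ∑ i : Fin N, (if eig N i ≤ c then (1:ℝ) else 0) := by
    intro N
    rw [Finset.sum_boole]; ring
  -- right and left limits of the cdf
  have hright : Tendsto (fun ε : ℝ => μ.real (Iic (c + ε))) (𝓝[>] 0) (𝓝 (μ.real (Iic c))) := by
    have h1 : Tendsto (fun x : ℝ => μ (Iic x)) (𝓝[>] c) (𝓝 (μ (Iic c))) := by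
      have h2 := (ProbabilityTheory.cdf μ).right_continuous c
      have h3 : ContinuousWithinAt (ProbabilityTheory.cdf μ) (Ioi c) c :=
        h2.mono Ioi_subset_Ici_self
      have h4 : Tendsto (fun x => ENNReal.ofReal (ProbabilityTheory.cdf μ x)) (𝓝[>] c)
          (𝓝 (ENNReal.ofReal (ProbabilityTheory.cdf μ c))) :=
        (ENNReal.continuous_ofReal.tendsto _).comp h3
      simpa only [ProbabilityTheory.ofReal_cdf] using h4
    have h2 : Tendsto (fun x : ℝ => μ.real (Iic x)) (𝓝[>] c) (𝓝 (μ.real (Iic c))) :=
      (ENNReal.tendsto_toReal (measure_ne_top μ _)).comp h1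
    refine h2.comp ?_
    refine tendsto_nhdsWithin_iff.2 ⟨?_, ?_⟩
    · have : Tendsto (fun ε : ℝ => c + ε) (𝓝 0) (𝓝 (c + 0)) := by
        apply Continuous.tendsto; fun_prop
      rw [add_zero] at this
      exact this.mono_left nhdsWithin_le_nhds
    · filter_upwards [self_mem_nhdsWithin] with ε hε
      have : 0 < ε := hε
      show c < c + ε
      linarith
  have hleft : Tendsto (fun n : ℕ => μ.real (Iic (c - 1 / ((n:ℝ) + 1)))) atTop
      (𝓝 (μ.real (Iic c))) := by
    have hU : ⋃ n : ℕ, Iic (c - 1 / ((n:ℝ) + 1)) = Iio c := by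
      ext x
      simp only [mem_iUnion, mem_Iic, mem_Iio]
      constructor
      · rintro ⟨n, hn⟩
        have : 0 < 1 / ((n:ℝ) + 1) := by positivity
        linarith
      · intro hx
        obtain ⟨n, hn⟩ := exists_nat_one_div_lt (sub_pos.2 hx)
        exact ⟨n, by linarith⟩
    have hmono : Monotone (fun n : ℕ => Iic (c - 1 / ((n:ℝ) + 1))) := by
      intro n m hnm
      apply Iic_subset_Iic.2
      have : 1 / ((m:ℝ) + 1) ≤ 1 / ((n:ℝ) + 1) := by
        apply one_div_le_one_div_of_le (by positivity)
        have : (n:ℝ) ≤ m := by exact_mod_cast hnm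
        linarith
      linarith
    have h1 := tendsto_measure_iUnion_atTop (μ := μ) hmono
    rw [hU] at h1
    have h2 : μ (Iio c) = μ (Iic c) := by
      refine le_antisymm (measure_mono Iio_subset_Iic_self) ?_
      calc μ (Iic c) = μ (Iio c ∪ {c}) := by rw [Iio_union_right]
        _ ≤ μ (Iio c) + μ {c} := measure_union_le _ _
        _ = μ (Iio c) := by rw [hc, add_zero]
    rw [h2] at h1
    exact (ENNReal.tendsto_toReal (measure_ne_top μ _)).comp h1
  simp only [hcard]
  rw [tendsto_order]
  constructor
  · intro a ha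
    have h1 := (tendsto_order.1 hleft).1 a ha
    obtain ⟨n, hn⟩ := h1.exists
    set ε : ℝ := 1 / ((n:ℝ) + 1) with hε
    have hε0 : 0 < ε := by positivity
    obtain ⟨φ, hφc, hφb, hφ1, hφ0⟩ := hmain (c - ε) ε hε0
    have h2 := hweak φ hφc ⟨1, fun x => by rw [abs_of_nonneg (hφb x).1]; exact (hφb x).2⟩
    have h3 : a < ∫ x, φ x ∂μ := by
      refine lt_of_lt_of_le hn ?_
      have : μ.real (Iic (c - ε)) = ∫ x, (Iic (c - ε)).indicator (fun _ => (1:ℝ)) x ∂μ := by
        rw [integral_indicator measurableSet_Iic]; simp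
      rw [this]
      refine integral_mono ((integrable_const (1:ℝ)).indicator measurableSet_Iic) ?_ ?_
      · refine Integrable.mono' (integrable_const (1:ℝ)) hφc.aestronglyMeasurable ?_
        exact Eventually.of_forall fun x => by
          rw [Real.norm_eq_abs, abs_of_nonneg (hφb x).1]; exact (hφb x).2
      · intro x
        by_cases hx : x ∈ Iic (c - ε)
        · simp only [indicator_of_mem hx]; rw [hφ1 x hx]
        · simp only [indicator_of_notMem hx]; exact (hφb x).1
    filter_upwards [(tendsto_order.1 h2).1 a h3] with N hN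
    refine lt_of_lt_of_le hN ?_
    refine mul_le_mul_of_nonneg_left (Finset.sum_le_sum fun i _ => ?_) (by positivity)
    split_ifs with hi'
    · exact (hφb _).2
    · push Not at hi'
      rw [hφ0 _ (by linarith)]
  · intro a ha
    have h1 := (tendsto_order.1 hright).2 a ha
    obtain ⟨ε, hε1, hε0⟩ := (h1.and self_mem_nhdsWithin).exists
    have hε0' : 0 < ε := hε0
    obtain ⟨φ, hφc, hφb, hφ1, hφ0⟩ := hmain c ε hε0'
    have h2 := hweak φ hφc ⟨1, fun x => by rw [abs_of_nonneg (hφb x).1]; exact (hφb x).2⟩
    have h3 : ∫ x, φ x ∂μ < a := by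
      refine lt_of_le_of_lt ?_ hε1
      have : μ.real (Iic (c + ε)) = ∫ x, (Iic (c + ε)).indicator (fun _ => (1:ℝ)) x ∂μ := by
        rw [integral_indicator measurableSet_Iic]; simp
      rw [this]
      refine integral_mono ?_ ((integrable_const (1:ℝ)).indicator measurableSet_Iic) ?_
      · refine Integrable.mono' (integrable_const (1:ℝ)) hφc.aestronglyMeasurable ?_
        exact Eventually.of_forall fun x => by
          rw [Real.norm_eq_abs, abs_of_nonneg (hφb x).1]; exact (hφb x).2
      · intro x
        by_cases hx : x ∈ Iic (c + ε)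
        · simp only [indicator_of_mem hx]; exact (hφb x).2
        · simp only [indicator_of_notMem hx]
          rw [hφ0 x]
          simp only [mem_Iic, not_le] at hx
          exact hx.le
    filter_upwards [(tendsto_order.1 h2).2 a h3] with N hN
    refine lt_of_le_of_lt ?_ hN
    refine mul_le_mul_of_nonneg_left (Finset.sum_le_sum fun i _ => ?_) (by positivity)
    split_ifs with hi'
    · rw [hφ1 _ hi']
    · exact (hφb _).1

/-- proportions of the counting labels converge -/
lemma tendsto_prop (eig : (N : ℕ) → Fin N → ℝ)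
    (hweak : ∀ φ : ℝ → ℝ, Continuous φ → (∃ C : ℝ, ∀ x, |φ x| ≤ C) →
      Tendsto (fun N : ℕ => (1 / (N : ℝ)) * ∑ i : Fin N, φ (eig N i)) atTop (𝓝 (∫ x, φ x ∂μ)))
    {n : ℕ} {t : Fin n → ℝ} (ht : StrictMono t) (hc : ∀ k, μ {t k} = 0) (j : Fin (n + 1)) :
    Tendsto (fun N : ℕ =>
      ((Finset.univ.filter fun i : Fin N => cidx t (eig N i) = j).card : ℝ) / (N : ℝ))
      atTop (𝓝 (μ.real (cidx t ⁻¹' {j}))) := by
  have key : ∀ m : ℕ, Tendsto (fun N : ℕ =>
      ((Finset.univ.filter fun i : Fin N => (cidx t (eig N i)).val ≤ m).card : ℝ) / (N : ℝ))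
      atTop (𝓝 (μ.real {x | (cidx t x).val ≤ m})) := by
    intro m
    by_cases hm : m < n
    · have e1 : {x | (cidx t x).val ≤ m} = Iic (t ⟨m, hm⟩) := by
        ext x; exact cidx_le_iff ht x ⟨m, hm⟩
      have e2 : ∀ N : ℕ, (Finset.univ.filter fun i : Fin N => (cidx t (eig N i)).val ≤ m) =
          Finset.univ.filter fun i : Fin N => eig N i ≤ t ⟨m, hm⟩ := by
        intro N
        ext i
        simp only [Finset.mem_filter, Finset.mem_univ, true_and]
        exact cidx_le_iff ht _ ⟨m, hm⟩
      rw [e1]
      simp only [e2]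
      exact tendsto_cdf eig hweak (hc _)
    · have e1 : {x | (cidx t x).val ≤ m} = univ := by
        ext x; simp only [mem_ofPred_eq, mem_univ, iff_true]
        have := (cidx t x).isLt; omega
      have e2 : ∀ N : ℕ, (Finset.univ.filter fun i : Fin N => (cidx t (eig N i)).val ≤ m) =
          Finset.univ := by
        intro N
        ext i
        simp only [Finset.mem_filter, Finset.mem_univ, true_and, iff_true]
        have := (cidx t (eig N i)).isLt; omega
      rw [e1]
      simp only [e2, Finset.card_univ, Fintype.card_fin]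
      have : μ.real (univ : Set ℝ) = 1 := by simp
      rw [this]
      refine tendsto_const_nhds.congr' ?_
      filter_upwards [eventually_gt_atTop 0] with N hN
      have : (N:ℝ) ≠ 0 := by exact_mod_cast hN.ne'
      field_simp
  have hms : ∀ m : ℕ, MeasurableSet {x | (cidx t x).val ≤ m} := fun m =>
    (measurable_cidx ht) (show MeasurableSet {y : Fin (n+1) | y.val ≤ m} from
      (Set.toFinite _).measurableSet)
  rcases j with ⟨j, hj⟩
  cases j with
  | zero =>
    have e1 : cidx t ⁻¹' {⟨0, hj⟩} = {x | (cidx t x).val ≤ 0} := by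
      ext x
      simp only [mem_preimage, mem_singleton_iff, mem_ofPred_eq, Fin.ext_iff]
      omega
    have e2 : ∀ N : ℕ, (Finset.univ.filter fun i : Fin N => cidx t (eig N i) = ⟨0, hj⟩) =
        Finset.univ.filter fun i : Fin N => (cidx t (eig N i)).val ≤ 0 := by
      intro N
      ext i
      simp only [Finset.mem_filter, Finset.mem_univ, true_and, Fin.ext_iff]
      omega
    rw [e1]
    simp only [e2]
    exact key 0
  | succ j =>
    have e1 : μ.real (cidx t ⁻¹' {⟨j + 1, hj⟩}) =
        μ.real {x | (cidx t x).val ≤ j + 1} - μ.real {x | (cidx t x).val ≤ j} := by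
      have : cidx t ⁻¹' {⟨j + 1, hj⟩} =
          {x | (cidx t x).val ≤ j + 1} \ {x | (cidx t x).val ≤ j} := by
        ext x
        simp only [mem_preimage, mem_singleton_iff, mem_ofPred_eq, Fin.ext_iff, Set.mem_sdiff]
        omega
      rw [this, measureReal_sdiff (by
        intro x hx
        simp only [mem_ofPred_eq] at hx ⊢
        omega) (hms j)]
    have e2 : ∀ N : ℕ,
        ((Finset.univ.filter fun i : Fin N => cidx t (eig N i) = ⟨j + 1, hj⟩).card : ℝ) =
        ((Finset.univ.filter fun i : Fin N => (cidx t (eig N i)).val ≤ j + 1).card : ℝ) -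
        ((Finset.univ.filter fun i : Fin N => (cidx t (eig N i)).val ≤ j).card : ℝ) := by
      intro N
      have h1 : (Finset.univ.filter fun i : Fin N => (cidx t (eig N i)).val ≤ j + 1) =
          (Finset.univ.filter fun i : Fin N => cidx t (eig N i) = ⟨j + 1, hj⟩) ∪
          (Finset.univ.filter fun i : Fin N => (cidx t (eig N i)).val ≤ j) := by
        ext i
        simp only [Finset.mem_filter, Finset.mem_univ, true_and, Finset.mem_union, Fin.ext_iff]
        omega
      rw [h1, Finset.card_union_of_disjoint]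
      · push_cast; ring
      · rw [Finset.disjoint_filter]
        intro i _ h2 h3
        rw [Fin.ext_iff] at h2
        simp only at h2
        omega
    rw [e1]
    simp only [e2, sub_div]
    exact (key (j + 1)).sub (key j)

end Crest.Agent.R164.Atomic
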