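import Crest.Agent.R164.Atomic

/-!
Row 164: reduction to finitely many eigenvalues, part 2: merging the cells of zero mass.
-/

set_option autoImplicit false

namespace Crest.Agent.R164.Atomic

open MeasureTheory Crest.ProbabilityR.InvariantGlass Set Filter Topology
open Crest.Agent.R164.RTrans

/-- Merging lemma: given weights on `Fin (n+1)` with positive first and last weights, the positive
ones are enumerated increasingly by `e`, with the rounding maps `f` (up) and `g` (down). -/
lemma exists_merge {n : ℕ} (w : Fin (n + 1) → ℝ) (hw : ∀ i, 0 ≤ w i) (h0 : 0 < w 0)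
    (hn : 0 < w (Fin.last n)) :
    ∃ (K : ℕ) (e : Fin (K + 1) → Fin (n + 1)) (f g : Fin (n + 1) → Fin (K + 1)),
      StrictMono e ∧ (∀ k, 0 < w (e k)) ∧ e (Fin.last K) = Fin.last n ∧ e 0 = 0 ∧
      (∀ i, i ≤ e (f i)) ∧ (∀ i, e (g i) ≤ i) ∧
      (∀ k, ∑ i, (if f i = k then w i else 0) = w (e k)) ∧
      (∀ k, ∑ i, (if g i = k then w i else 0) = w (e k)) ∧
      (∀ i, 0 < w i → e (f i) = i ∧ e (g i) = i) := by
  classical
  set J : Finset (Fin (n + 1)) := Finset.univ.filter (fun i => 0 < w i) with hJ
  have hJ0 : (0 : Fin (n + 1)) ∈ J := by simp [hJ, h0]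
  have hJn : Fin.last n ∈ J := by simp [hJ, hn]
  have hJne : J.Nonempty := ⟨_, hJ0⟩
  obtain ⟨K, hK⟩ : ∃ K, J.card = K + 1 := ⟨J.card - 1, by
    have := hJne.card_pos; omega⟩
  set e := J.orderEmbOfFin hK with he
  have heJ : ∀ k, e k ∈ J := fun k => J.orderEmbOfFin_mem hK k
  have hmono : StrictMono e := e.strictMono
  have hpos : ∀ k, 0 < w (e k) := fun k => by
    have := heJ k
    simpa [hJ] using this
  have hsurj : ∀ i, 0 < w i → ∃ k, e k = i := by
    intro i hi
    have : i ∈ J := by simp [hJ, hi]
    have h2 : (i : Fin (n+1)) ∈ Set.range e := by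
      rw [he, Finset.range_orderEmbOfFin]; exact this
    exact h2
  have hlast : e (Fin.last K) = Fin.last n := by
    obtain ⟨k, hk⟩ := hsurj _ hn
    refine le_antisymm (Fin.le_last _) ?_
    rw [← hk]
    exact hmono.monotone (Fin.le_last _)
  have hfirst : e 0 = 0 := by
    obtain ⟨k, hk⟩ := hsurj _ h0
    refine le_antisymm ?_ (Fin.zero_le _)
    rw [← hk]
    exact hmono.monotone (Fin.zero_le _)
  have hfex : ∀ i, (Finset.univ.filter (fun k => i ≤ e k)).Nonempty := fun i =>
    ⟨Fin.last K, by simp [hlast, Fin.le_last]⟩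
  have hgex : ∀ i, (Finset.univ.filter (fun k => e k ≤ i)).Nonempty := fun i =>
    ⟨0, by simp [hfirst]⟩
  set f : Fin (n + 1) → Fin (K + 1) := fun i => (Finset.univ.filter (fun k => i ≤ e k)).min' (hfex i)
    with hf
  set g : Fin (n + 1) → Fin (K + 1) := fun i => (Finset.univ.filter (fun k => e k ≤ i)).max' (hgex i)
    with hg
  have hf1 : ∀ i, i ≤ e (f i) := by
    intro i
    have := Finset.min'_mem _ (hfex i)
    simpa using this
  have hg1 : ∀ i, e (g i) ≤ i := by
    intro i
    have := Finset.max'_mem _ (hgex i)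
    simpa using this
  have hfe : ∀ k, f (e k) = k := by
    intro k
    refine le_antisymm ?_ ?_
    · exact Finset.min'_le _ _ (by simp)
    · have := hf1 (e k)
      exact hmono.le_iff_le.1 this
  have hge : ∀ k, g (e k) = k := by
    intro k
    refine le_antisymm ?_ ?_
    · have := hg1 (e k)
      exact hmono.le_iff_le.1 this
    · exact Finset.le_max' _ _ (by simp)
  refine ⟨K, e, f, g, hmono, hpos, hlast, hfirst, hf1, hg1, ?_, ?_, ?_⟩
  · intro k
    rw [Finset.sum_eq_single (e k)]
    · rw [if_pos (hfe k)]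
    · intro i _ hik
      split_ifs with h
      · by_contra hne
        have : 0 < w i := lt_of_le_of_ne (hw i) (Ne.symm hne)
        obtain ⟨k', hk'⟩ := hsurj i this
        rw [← hk', hfe] at h
        rw [← hk', h] at hik
        exact hik rfl
      · rfl
    · intro h; exact absurd (Finset.mem_univ _) h
  · intro k
    rw [Finset.sum_eq_single (e k)]
    · rw [if_pos (hge k)]
    · intro i _ hik
      split_ifs with h
      · by_contra hne
        have : 0 < w i := lt_of_le_of_ne (hw i) (Ne.symm hne)
        obtain ⟨k', hk'⟩ := hsurj i this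
        rw [← hk', hge] at h
        rw [← hk', h] at hik
        exact hik rfl
      · rfl
    · intro h; exact absurd (Finset.mem_univ _) h
  · intro i hi
    obtain ⟨k, hk⟩ := hsurj i hi
    rw [← hk, hfe, hge]
    exact ⟨rfl, rfl⟩

/-- proportions of merged labels -/
lemma tendsto_merge {m K : ℕ} (f : Fin m → Fin K) (lab : (N : ℕ) → Fin N → Fin m)
    (w : Fin m → ℝ)
    (h : ∀ j, Tendsto (fun N : ℕ =>
      ((Finset.univ.filter fun i : Fin N => lab N i = j).card : ℝ) / (N : ℝ)) atTop (𝓝 (w j)))
    (k : Fin K) :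
    Tendsto (fun N : ℕ =>
      ((Finset.univ.filter fun i : Fin N => f (lab N i) = k).card : ℝ) / (N : ℝ)) atTop
      (𝓝 (∑ j, if f j = k then w j else 0)) := by
  have e : ∀ N : ℕ, ((Finset.univ.filter fun i : Fin N => f (lab N i) = k).card : ℝ) / (N : ℝ) =
      ∑ j, if f j = k then
        ((Finset.univ.filter fun i : Fin N => lab N i = j).card : ℝ) / (N : ℝ) else 0 := by
    intro N
    have h1 : ((Finset.univ.filter fun i : Fin N => f (lab N i) = k).card : ℝ) =
        ∑ j, if f j = k then ((Finset.univ.filter fun i : Fin N => lab N i = j).card : ℝ) else 0 := by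
      have : ∀ i : Fin N, (if f (lab N i) = k then (1:ℝ) else 0) =
          ∑ j, (if f j = k then (if lab N i = j then (1:ℝ) else 0) else 0) := by
        intro i
        rw [Finset.sum_eq_single (lab N i)]
        · simp
        · intro j _ hj
          rw [if_neg (Ne.symm hj)]; simp
        · intro h; exact absurd (Finset.mem_univ _) h
      rw [← Finset.sum_boole]
      simp only [this]
      rw [Finset.sum_comm]
      refine Finset.sum_congr rfl fun j _ => ?_
      split_ifs with hj
      · rw [Finset.sum_boole]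
      · simp
    rw [h1, Finset.sum_div]
    refine Finset.sum_congr rfl fun j _ => ?_
    split_ifs <;> simp
  simp only [e]
  refine tendsto_finsetSum _ fun j _ => ?_
  split_ifs
  · exact h j
  · exact tendsto_const_nhds

/-- The atomic measure. -/
noncomputable def atomic {K : ℕ} (w val : Fin K → ℝ) : Measure ℝ :=
  ∑ k : Fin K, ENNReal.ofReal (w k) • Measure.dirac (val k)

lemma atomic_prob {K : ℕ} {w : Fin K → ℝ} (val : Fin K → ℝ) (hw : ∀ k, 0 ≤ w k)
    (hs : ∑ k, w k = 1) : IsProbabilityMeasure (atomic w val) := by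
  constructor
  unfold atomic
  rw [Measure.finsetSum_apply]
  simp only [Measure.smul_apply, measure_univ, smul_eq_mul, mul_one]
  rw [← ENNReal.ofReal_sum_of_nonneg (fun k _ => hw k), hs, ENNReal.ofReal_one]

lemma atomic_integral {K : ℕ} {w : Fin K → ℝ} (val : Fin K → ℝ) (hw : ∀ k, 0 ≤ w k)
    (g : ℝ → ℝ) : ∫ x, g x ∂(atomic w val) = ∑ k, w k * g (val k) := by
  unfold atomic
  rw [integral_finsetSum_measure]
  · refine Finset.sum_congr rfl fun k _ => ?_
    rw [integral_smul_measure, integral_dirac, ENNReal.toReal_ofReal (hw k), smul_eq_mul]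
  · intro k _
    refine Integrable.smul_measure ?_ ENNReal.ofReal_ne_top
    exact integrable_dirac (by simp)

lemma atomic_supp {K : ℕ} {w val : Fin K → ℝ} {lo hi : ℝ} (hw : ∀ k, 0 ≤ w k)
    (hs : ∑ k, w k = 1) (h : ∀ k, val k ∈ Icc lo hi) : (atomic w val) (Icc lo hi) = 1 := by
  unfold atomic
  rw [Measure.finsetSum_apply]
  have : ∀ k, (ENNReal.ofReal (w k) • Measure.dirac (val k) : Measure ℝ) (Icc lo hi) =
      ENNReal.ofReal (w k) := by
    intro k
    rw [Measure.smul_apply, Measure.dirac_apply' _ measurableSet_Icc, indicator_of_mem (h k)]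
    simp
  simp only [this]
  rw [← ENNReal.ofReal_sum_of_nonneg (fun k _ => hw k), hs, ENNReal.ofReal_one]

end Crest.Agent.R164.Atomic
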