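import Crest.Agent.R164.Atomic2
import Crest.Agent.R164.Trans249

/-!
Row 164: reduction to finitely many eigenvalues, part 3: assembly.
-/

set_option autoImplicit false

namespace Crest.Agent.R164.Atomic

open MeasureTheory Crest.ProbabilityR.InvariantGlass Set Filter Topology
open Crest.Agent.R164.RTrans

lemma cidx_grid {n : ℕ} {a d : ℝ} (hd : 0 < d) (x : ℝ) (hx1 : a < x)
    (hx2 : x ≤ a + ((n:ℝ) + 1) * d) :
    a + ((cidx (fun k : Fin n => a + ((k.val:ℝ) + 1) * d) x).val : ℝ) * d < x ∧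
    x ≤ a + (((cidx (fun k : Fin n => a + ((k.val:ℝ) + 1) * d) x).val : ℝ) + 1) * d := by
  set t : Fin n → ℝ := fun k => a + ((k.val:ℝ) + 1) * d with ht
  have hmono : StrictMono t := by
    intro i j hij
    have : (i.val : ℝ) < j.val := by exact_mod_cast hij
    simp only [ht]
    nlinarith
  set i := cidx t x with hi
  constructor
  · rcases Nat.eq_zero_or_pos i.val with h0 | h0
    · rw [h0]; simpa using hx1
    · have hlt : i.val - 1 < n := by have := i.isLt; omega
      have h1 : ¬ (i.val ≤ (⟨i.val - 1, hlt⟩ : Fin n).val) := by simp only; omega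
      have h3 := mt (cidx_le_iff hmono x ⟨i.val - 1, hlt⟩).2 h1
      push Not at h3
      simp only [ht] at h3
      have h2 : ((i.val - 1 : ℕ) : ℝ) + 1 = i.val := by
        have : i.val - 1 + 1 = i.val := by omega
        exact_mod_cast this
      rw [h2] at h3
      exact h3
  · rcases lt_or_ge i.val n with h0 | h0
    · exact (cidx_le_iff hmono x ⟨i.val, h0⟩).1 le_rfl
    · have : i.val = n := by have := i.isLt; omega
      rw [this]; exact hx2

variable {μ : Measure ℝ} [IsProbabilityMeasure μ] {lo hi : ℝ}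

/-- choice of the grid -/
lemma exists_grid (h : μ (Icc lo hi) = 1) {d : ℝ} (hd : 0 < d) :
    ∃ (a : ℝ) (n : ℕ), a < lo ∧ lo < a + d ∧ a + (n:ℝ) * d < hi ∧ hi < a + ((n:ℝ) + 1) * d ∧
      ∀ j : ℕ, μ {a + ((j:ℝ) + 1) * d} = 0 := by
  have hlh := lo_le_hi h
  -- bad set
  have hcount : {x : ℝ | 0 < μ {x}}.Countable := by
    have := Measure.countable_meas_level_set_pos (μ := μ) (g := (id : ℝ → ℝ)) measurable_id
    simpa using this
  set B : Set ℝ := {x : ℝ | 0 < μ {x}} ∪ {hi} with hB
  have hBc : B.Countable := hcount.union (countable_singleton _)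
  have hbad : (⋃ j : ℕ, (fun x => x - (j:ℝ) * d) '' B).Countable :=
    countable_iUnion fun j => hBc.image _
  have hdense := hbad.dense_compl ℝ
  obtain ⟨a, ha1, ha2⟩ := hdense.exists_mem_open isOpen_Ioo
    (nonempty_Ioo.2 (by linarith : lo - d < lo))
  have hgood : ∀ j : ℕ, a + (j:ℝ) * d ∉ B := by
    intro j hj
    apply ha1
    refine mem_iUnion.2 ⟨j, ⟨a + (j:ℝ) * d, hj, by ring⟩⟩
  -- n
  have hex : ∃ n : ℕ, hi < a + ((n:ℝ) + 1) * d := by
    obtain ⟨n, hn⟩ := exists_nat_gt ((hi - a) / d)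
    refine ⟨n, ?_⟩
    rw [div_lt_iff₀ hd] at hn
    nlinarith
  classical
  set n := Nat.find hex with hn
  have hn1 : hi < a + ((n:ℝ) + 1) * d := Nat.find_spec hex
  refine ⟨a, n, ha2.2, by linarith [ha2.1], ?_, hn1, ?_⟩
  · rcases Nat.eq_zero_or_pos n with h0 | h0
    · rw [h0]
      have := ha2.2
      simp only [Nat.cast_zero, zero_mul, add_zero]
      linarith
    · have hmin := Nat.find_min hex (m := n - 1) (by omega)
      push Not at hmin
      have h2 : ((n - 1 : ℕ) : ℝ) + 1 = n := by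
        have : n - 1 + 1 = n := by omega
        exact_mod_cast this
      rw [h2] at hmin
      refine lt_of_le_of_ne hmin ?_
      intro heq
      apply hgood n
      rw [heq]
      exact mem_union_right _ rfl
  · intro j
    have := hgood (j + 1)
    rw [hB, mem_union, not_or] at this
    have h1 := this.1
    simp only [mem_ofPred_eq, not_lt, nonpos_iff_eq_zero] at h1
    have e : a + ((j + 1 : ℕ) : ℝ) * d = a + ((j:ℝ) + 1) * d := by push_cast; ring
    rwa [e] at h1

/-- The rounding statement. -/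
theorem exists_rounding (h : μ (Icc lo hi) = 1)
    (hedge : ∀ ε : ℝ, 0 < ε → 0 < μ (Icc lo (lo + ε)) ∧ 0 < μ (Icc (hi - ε) hi))
    (eig : (N : ℕ) → Fin N → ℝ)
    (hweak : ∀ φ : ℝ → ℝ, Continuous φ → (∃ C : ℝ, ∀ x, |φ x| ≤ C) →
      Tendsto (fun N : ℕ => (1 / (N : ℝ)) * ∑ i : Fin N, φ (eig N i)) atTop (𝓝 (∫ x, φ x ∂μ)))
    (hext : ∀ ε : ℝ, 0 < ε → ∀ᶠ N : ℕ in atTop, ∀ i : Fin N, lo - ε ≤ eig N i ∧ eig N i ≤ hi + ε)
    {d : ℝ} (hd : 0 < d) :
    ∃ (K : ℕ) (w vl vu : Fin (K + 1) → ℝ) (labl labu : (N : ℕ) → Fin N → Fin (K + 1)),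
      StrictMono vl ∧ StrictMono vu ∧ (∀ k, 0 < w k) ∧ ∑ k, w k = 1 ∧
      (∀ k, Tendsto (fun N : ℕ =>
        ((Finset.univ.filter fun i : Fin N => labl N i = k).card : ℝ) / (N : ℝ)) atTop (𝓝 (w k))) ∧
      (∀ k, Tendsto (fun N : ℕ =>
        ((Finset.univ.filter fun i : Fin N => labu N i = k).card : ℝ) / (N : ℝ)) atTop (𝓝 (w k))) ∧
      (∀ᶠ N : ℕ in atTop, ∀ i : Fin N, vl (labl N i) ≤ eig N i ∧ eig N i ≤ vu (labu N i)) ∧
      (∀ x ∈ Icc (0:ℝ) 1, rTransform (atomic w vl) (vl (Fin.last K)) x ≤ rTransform μ hi x ∧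
        rTransform μ hi x ≤ rTransform (atomic w vl) (vl (Fin.last K)) x + d) ∧
      (∀ x ∈ Icc (0:ℝ) 1, rTransform μ hi x ≤ rTransform (atomic w vu) (vu (Fin.last K)) x ∧
        rTransform (atomic w vu) (vu (Fin.last K)) x ≤ rTransform μ hi x + d) := by
  have hlh := lo_le_hi h
  obtain ⟨a, n, ha, had, han, han1, hat⟩ := exists_grid h hd
  set t : Fin n → ℝ := fun k => a + ((k.val:ℝ) + 1) * d with ht
  have hmono : StrictMono t := by
    intro i j hij
    have : (i.val : ℝ) < j.val := by exact_mod_cast hij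
    simp only [ht]
    nlinarith
  have hgrid : ∀ x, x ∈ Icc lo hi → a + ((cidx t x).val : ℝ) * d < x ∧
      x ≤ a + (((cidx t x).val : ℝ) + 1) * d := by
    intro x hx
    exact cidx_grid hd x (by linarith [hx.1]) (by linarith [hx.2])
  set w : Fin (n + 1) → ℝ := fun i => μ.real (cidx t ⁻¹' {i}) with hw
  have hwnn : ∀ i, 0 ≤ w i := fun i => measureReal_nonneg
  have hmeas := measurable_cidx hmono
  have hint : ∀ (φ : Fin (n + 1) → ℝ), ∫ x, φ (cidx t x) ∂μ = ∑ i, w i * φ i := by
    intro φ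
    have h1 : ∫ x, φ (cidx t x) ∂μ = ∫ i, φ i ∂(μ.map (cidx t)) := by
      rw [integral_map hmeas.aemeasurable]
      exact (measurable_of_finite φ).aestronglyMeasurable
    have : IsProbabilityMeasure (μ.map (cidx t)) :=
      Measure.isProbabilityMeasure_map hmeas.aemeasurable
    rw [h1, integral_fintype (by
      refine Integrable.of_bound (C := ∑ i, |φ i|) (measurable_of_finite φ).aestronglyMeasurable ?_
      refine Eventually.of_forall fun i => ?_
      rw [Real.norm_eq_abs]
      exact Finset.single_le_sum (f := fun i => |φ i|) (fun i _ => abs_nonneg _) (Finset.mem_univ i))]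
    refine Finset.sum_congr rfl fun i _ => ?_
    rw [map_measureReal_apply hmeas (measurableSet_singleton i), smul_eq_mul]
  have hws : ∑ i, w i = 1 := by
    have := hint (fun _ => 1)
    simp only [mul_one] at this
    rw [← this]; simp
  have hw0 : 0 < w 0 := by
    simp only [hw]
    rw [measureReal_def, ENNReal.toReal_pos_iff]
    refine ⟨lt_of_lt_of_le (hedge (a + d - lo) (by linarith)).1 (measure_mono ?_),
      measure_lt_top _ _⟩
    intro x hx
    have hx2 : x ≤ a + d := by have := hx.2; linarith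
    rw [mem_preimage, mem_singleton_iff]
    rcases Nat.eq_zero_or_pos n with h0 | h0
    · ext
      have := (cidx t x).isLt
      simp only [Fin.val_zero]; omega
    · have h1 := (cidx_le_iff hmono x ⟨0, h0⟩).2 (by simp only [ht]; push_cast; linarith)
      ext
      simp only [Fin.val_zero] at h1 ⊢
      omega
  have hwn : 0 < w (Fin.last n) := by
    simp only [hw]
    rw [measureReal_def, ENNReal.toReal_pos_iff]
    refine ⟨lt_of_lt_of_le (hedge ((hi - (a + (n:ℝ) * d)) / 2) (by linarith)).2 (measure_mono ?_),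
      measure_lt_top _ _⟩
    intro x hx
    have hx1 : a + (n:ℝ) * d < x := by have := hx.1; linarith
    rw [mem_preimage, mem_singleton_iff]
    rcases Nat.eq_zero_or_pos n with h0 | h0
    · ext
      have := (cidx t x).isLt
      simp only [Fin.val_last]; omega
    · have hlt : n - 1 < n := by omega
      have h2 : ((n - 1 : ℕ) : ℝ) + 1 = n := by
        have : n - 1 + 1 = n := by omega
        exact_mod_cast this
      have h1 : ¬ ((cidx t x).val ≤ (⟨n - 1, hlt⟩ : Fin n).val) := by
        rw [cidx_le_iff hmono]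
        simp only [ht]
        rw [h2]
        push Not
        exact hx1
      ext
      simp only [Fin.val_last] at h1 ⊢
      have := (cidx t x).isLt
      omega
  obtain ⟨K, e, f, g, hemono, hepos, helast, hefirst, hf, hg, hfs, hgs, hfg⟩ :=
    exists_merge w hwnn hw0 hwn
  set w' : Fin (K + 1) → ℝ := fun k => w (e k) with hw'
  have hsum_merge : ∀ φ : Fin (n + 1) → ℝ, ∑ k, w (e k) * φ (e k) = ∑ i, w i * φ i := by
    intro φ
    have h1 : ∀ k, w (e k) * φ (e k) = ∑ i, if f i = k then w i * φ i else 0 := by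
      intro k
      rw [← hfs k, Finset.sum_mul]
      refine Finset.sum_congr rfl fun i _ => ?_
      split_ifs with hik
      · rcases (hwnn i).eq_or_lt with h0 | h0
        · rw [← h0]; simp
        · rw [← hik, (hfg i h0).1]
      · simp
    simp only [h1]
    rw [Finset.sum_comm]
    refine Finset.sum_congr rfl fun i _ => ?_
    simp
  have hw's : ∑ k, w' k = 1 := by
    have := hsum_merge (fun _ => 1)
    simp only [mul_one] at this
    rw [← hws, ← this]
  have hprop := tendsto_prop eig hweak hmono (fun k => hat k.val)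
  set vl : Fin (K + 1) → ℝ := fun k => a + ((e k).val : ℝ) * d with hvl
  set vu : Fin (K + 1) → ℝ := fun k => a + (((e k).val : ℝ) + 1) * d with hvu
  have hcast : ∀ i j : Fin (n + 1), i ≤ j → (i.val : ℝ) ≤ j.val := fun i j hij => by
    exact_mod_cast hij
  have hcast' : ∀ i j : Fin (n + 1), i < j → (i.val : ℝ) < j.val := fun i j hij => by
    exact_mod_cast hij
  have hvl_last : vl (Fin.last K) = a + (n:ℝ) * d := by simp only [hvl, helast, Fin.val_last]
  have hvu_last : vu (Fin.last K) = a + ((n:ℝ) + 1) * d := by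
    simp only [hvu, helast, Fin.val_last]
  -- supports
  have hval_le : ∀ k, (0:ℝ) ≤ ((e k).val : ℝ) ∧ ((e k).val : ℝ) ≤ n := by
    intro k
    refine ⟨Nat.cast_nonneg _, ?_⟩
    have : (e k).val ≤ n := by have := (e k).isLt; omega
    exact_mod_cast this
  have hpl := atomic_prob (w := w') vl (fun k => (hepos k).le) hw's
  have hpu := atomic_prob (w := w') vu (fun k => (hepos k).le) hw's
  have hsl : (atomic w' vl) (Icc a (vl (Fin.last K))) = 1 := by
    refine atomic_supp (fun k => (hepos k).le) hw's fun k => ?_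
    rw [hvl_last]
    obtain ⟨h1, h2⟩ := hval_le k
    simp only [hvl]
    constructor <;> nlinarith
  have hsu : (atomic w' vu) (Icc a (vu (Fin.last K))) = 1 := by
    refine atomic_supp (fun k => (hepos k).le) hw's fun k => ?_
    rw [hvu_last]
    obtain ⟨h1, h2⟩ := hval_le k
    simp only [hvu]
    constructor <;> nlinarith
  -- the resolvents
  have hGl : ∀ z, G (atomic w' vl) z = ∑ i : Fin (n+1), w i * (z - (a + (i.val:ℝ) * d))⁻¹ := by
    intro z
    unfold G
    rw [atomic_integral vl (fun k => (hepos k).le)]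
    exact hsum_merge (fun i => (z - (a + (i.val:ℝ) * d))⁻¹)
  have hGu : ∀ z, G (atomic w' vu) z =
      ∑ i : Fin (n+1), w i * (z - (a + ((i.val:ℝ) + 1) * d))⁻¹ := by
    intro z
    unfold G
    rw [atomic_integral vu (fun k => (hepos k).le)]
    exact hsum_merge (fun i => (z - (a + ((i.val:ℝ) + 1) * d))⁻¹)
  have hGshift : ∀ z, G (atomic w' vu) (z + d) = G (atomic w' vl) z := by
    intro z
    rw [hGl, hGu]
    refine Finset.sum_congr rfl fun i _ => ?_
    congr 2; ring
  have hivn : ∀ i : Fin (n + 1), (0:ℝ) ≤ (i.val : ℝ) ∧ (i.val : ℝ) ≤ n := by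
    intro i
    refine ⟨Nat.cast_nonneg _, ?_⟩
    have : i.val ≤ n := by have := i.isLt; omega
    exact_mod_cast this
  have hlow : ∀ z, hi < z → G (atomic w' vl) z ≤ G μ z := by
    intro z hz
    rw [hGl, ← hint (fun i => (z - (a + (i.val:ℝ) * d))⁻¹)]
    unfold G
    refine integral_mono_of h ?_ (integrable_inv h hz) ?_
    · refine integrable_of_bdd h ?_ (∑ i : Fin (n+1), |(z - (a + (i.val:ℝ) * d))⁻¹|) ?_
      · exact (measurable_of_finite (fun i : Fin (n+1) => (z - (a + (i.val:ℝ) * d))⁻¹)).comp hmeas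
      · intro x _
        exact Finset.single_le_sum (f := fun i : Fin (n+1) => |(z - (a + (i.val:ℝ) * d))⁻¹|)
          (fun i _ => abs_nonneg _) (Finset.mem_univ _)
    · intro x hx
      obtain ⟨h1, _⟩ := hgrid x hx
      have h3 : 0 < z - x := by linarith [hx.2]
      exact inv_anti₀ h3 (by linarith)
  have hup : ∀ z, vu (Fin.last K) < z → G μ z ≤ G (atomic w' vu) z := by
    intro z hz
    rw [hvu_last] at hz
    have hz' : hi < z := by linarith
    rw [hGu, ← hint (fun i => (z - (a + ((i.val:ℝ) + 1) * d))⁻¹)]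
    unfold G
    refine integral_mono_of h (integrable_inv h hz') ?_ ?_
    · refine integrable_of_bdd h ?_ (∑ i : Fin (n+1), |(z - (a + ((i.val:ℝ) + 1) * d))⁻¹|) ?_
      · exact (measurable_of_finite
          (fun i : Fin (n+1) => (z - (a + ((i.val:ℝ) + 1) * d))⁻¹)).comp hmeas
      · intro x _
        exact Finset.single_le_sum (f := fun i : Fin (n+1) => |(z - (a + ((i.val:ℝ) + 1) * d))⁻¹|)
          (fun i _ => abs_nonneg _) (Finset.mem_univ _)
    · intro x hx
      obtain ⟨_, h1⟩ := hgrid x hx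
      have h2 := (hivn (cidx t x)).2
      have h3 : 0 < z - (a + (((cidx t x).val:ℝ) + 1) * d) := by nlinarith
      exact inv_anti₀ h3 (by linarith)
  refine ⟨K, w', vl, vu, fun N i => g (cidx t (eig N i)), fun N i => f (cidx t (eig N i)),
    ?_, ?_, hepos, hw's, ?_, ?_, ?_, ?_, ?_⟩
  · intro i j hij
    have := hcast' _ _ (hemono hij)
    simp only [hvl]
    nlinarith
  · intro i j hij
    have := hcast' _ _ (hemono hij)
    simp only [hvu]
    nlinarith
  · intro k
    have := tendsto_merge g (fun N i => cidx t (eig N i)) w hprop k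
    rwa [hgs k] at this
  · intro k
    have := tendsto_merge f (fun N i => cidx t (eig N i)) w hprop k
    rwa [hfs k] at this
  · set δ : ℝ := min ((lo - a) / 2) ((a + ((n:ℝ) + 1) * d - hi) / 2) with hδ
    have hδ0 : 0 < δ := lt_min (by linarith) (by linarith)
    filter_upwards [hext δ hδ0] with N hN i
    obtain ⟨h1, h2⟩ := hN i
    have h3 : δ ≤ (lo - a) / 2 := min_le_left _ _
    have h4 : δ ≤ (a + ((n:ℝ) + 1) * d - hi) / 2 := min_le_right _ _
    obtain ⟨h5, h6⟩ := cidx_grid (n := n) hd (eig N i) (a := a) (by linarith) (by linarith)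
    constructor
    · have := hcast _ _ (hg (cidx t (eig N i)))
      simp only [hvl]
      nlinarith
    · have := hcast _ _ (hf (cidx t (eig N i)))
      simp only [hvu]
      nlinarith
  · intro x hx
    exact rT_compare hsl h (by rw [hvl_last]; linarith) (by rw [hvl_last]; linarith) hlow
      (by
        intro z hz
        rw [← hGshift]
        refine hup _ ?_
        rw [hvu_last]; rw [hvl_last] at hz; linarith) hx
  · intro x hx
    exact rT_compare h hsu (by rw [hvu_last]; linarith) (by rw [hvu_last]; linarith) hup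
      (by
        intro z hz
        rw [hGshift]
        exact hlow z hz) hx

/-! ### Monotonicity of the pressure in the eigenvalues -/

lemma pressureFieldN_mono {N : ℕ} {eig eig' : Fin N → ℝ} (h : ∀ i, eig i ≤ eig' i)
    (U : Matrix (Fin N) (Fin N) ℝ) (c : Fin N → ℝ) :
    pressureFieldN eig U c ≤ pressureFieldN eig' U c := by
  unfold pressureFieldN
  refine mul_le_mul_of_nonneg_left ?_ (by positivity)
  have hpos : 0 < (1 / 2 : ℝ) ^ N * ∑ σ : Fin N → Bool,
      Real.exp ((1 / 2) * (∑ i : Fin N, eig i * (U.mulVec (spinVec σ) i) ^ 2) +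
        ∑ r : Fin N, c r * spinVec σ r) := by positivity
  refine Real.log_le_log hpos ?_
  refine mul_le_mul_of_nonneg_left (Finset.sum_le_sum fun σ _ => Real.exp_le_exp.2 ?_)
    (by positivity)
  have : ∑ i : Fin N, eig i * (U.mulVec (spinVec σ) i) ^ 2 ≤
      ∑ i : Fin N, eig' i * (U.mulVec (spinVec σ) i) ^ 2 :=
    Finset.sum_le_sum fun i _ => mul_le_mul_of_nonneg_right (h i) (sq_nonneg _)
  linarith

/-- **Reduction of S0248 to spectra with finitely many distinct eigenvalues of positive limiting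
proportions.** -/
theorem h248_of_atomic {Ω : Type} [MeasurableSpace Ω] {P : Measure Ω} [IsProbabilityMeasure P]
    {Us : (N : ℕ) → Ω → (Fin N → Fin N → ℝ)} (hmeas : ∀ N, Measurable (Us N))
    (horth : ∀ N, ∀ᵐ ω ∂P, Matrix.of (Us N ω) ∈ Matrix.orthogonalGroup (Fin N) ℝ)
    (h : μ (Icc lo hi) = 1)
    (hedge : ∀ ε : ℝ, 0 < ε → 0 < μ (Icc lo (lo + ε)) ∧ 0 < μ (Icc (hi - ε) hi))
    (eig : (N : ℕ) → Fin N → ℝ)
    (hweak : ∀ φ : ℝ → ℝ, Continuous φ → (∃ C : ℝ, ∀ x, |φ x| ≤ C) →
      Tendsto (fun N : ℕ => (1 / (N : ℝ)) * ∑ i : Fin N, φ (eig N i)) atTop (𝓝 (∫ x, φ x ∂μ)))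
    (hext : ∀ ε : ℝ, 0 < ε → ∀ᶠ N : ℕ in atTop, ∀ i : Fin N, lo - ε ≤ eig N i ∧ eig N i ≤ hi + ε)
    (hat : ∀ (K : ℕ) (w val : Fin (K + 1) → ℝ), StrictMono val → (∀ k, 0 < w k) → ∑ k, w k = 1 →
      ∀ (lab : (N : ℕ) → Fin N → Fin (K + 1)),
      (∀ k, Tendsto (fun N : ℕ =>
        ((Finset.univ.filter fun i : Fin N => lab N i = k).card : ℝ) / (N : ℝ)) atTop (𝓝 (w k))) →
      H248 (atomic w val) (val (Fin.last K)) (fun N i => val (lab N i)) P Us) :
    H248 μ hi eig P Us := by
  intro J cval hinj γ hγ hγs flab hflab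
  -- for every d > 0 a two-sided approximation
  have key : ∀ d : ℝ, 0 < d → ∃ F : ℝ,
      ((F : ℝ) : EReal) ≤ magneticValue μ hi cval γ ∧
      magneticValue μ hi cval γ ≤ ((F + d / 2 : ℝ) : EReal) ∧
      (∀ᶠ N : ℕ in atTop, F - d ≤ ∫ ω, pressureFieldN (eig N) (Matrix.of (Us N ω))
          (fun r => cval (flab N r)) ∂P ∧
        ∫ ω, pressureFieldN (eig N) (Matrix.of (Us N ω)) (fun r => cval (flab N r)) ∂P
          ≤ F + 2 * d) ∧
      (∀ᵐ ω ∂P, ∀ᶠ N : ℕ in atTop, F - d ≤ pressureFieldN (eig N) (Matrix.of (Us N ω))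
          (fun r => cval (flab N r)) ∧
        pressureFieldN (eig N) (Matrix.of (Us N ω)) (fun r => cval (flab N r)) ≤ F + 2 * d) := by
    intro d hd
    obtain ⟨K, w, vl, vu, labl, labu, hvl, hvu, hw, hws, hpl, hpu, hsand, hRl, hRu⟩ :=
      exists_rounding h hedge eig hweak hext hd
    obtain ⟨Fl, hFl, hFlE, hFlas⟩ := hat K w vl hvl hw hws labl hpl J cval hinj γ hγ hγs flab hflab
    obtain ⟨Fu, hFu, hFuE, hFuas⟩ := hat K w vu hvu hw hws labu hpu J cval hinj γ hγ hγs flab hflab
    have := atomic_prob (w := w) vl (fun k => (hw k).le) hws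
    have := atomic_prob (w := w) vu (fun k => (hw k).le) hws
    have hsl : (atomic w vl) (Icc (vl 0) (vl (Fin.last K))) = 1 :=
      atomic_supp (fun k => (hw k).le) hws
        (fun k => ⟨hvl.monotone (Fin.zero_le _), hvl.monotone (Fin.le_last _)⟩)
    have hsu : (atomic w vu) (Icc (vu 0) (vu (Fin.last K))) = 1 :=
      atomic_supp (fun k => (hw k).le) hws
        (fun k => ⟨hvu.monotone (Fin.zero_le _), hvu.monotone (Fin.le_last _)⟩)
    obtain ⟨c1, c2⟩ := magneticValue_compare hsl h hRl cval γ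
    obtain ⟨c3, c4⟩ := magneticValue_compare h hsu hRu cval γ
    rw [hFl] at c1 c2
    rw [hFu] at c3 c4
    have hFuFl : Fu ≤ Fl + d := by
      have h1 : ((Fu : ℝ) : EReal) ≤ ((Fl : ℝ) : EReal) + ((d / 2 : ℝ) : EReal) +
          ((d / 2 : ℝ) : EReal) := c4.trans (add_le_add c2 le_rfl)
      rw [← EReal.coe_add, ← EReal.coe_add, EReal.coe_le_coe_iff] at h1
      linarith
    have hintg : ∀ (N : ℕ) (ei : Fin N → ℝ), Integrable (fun ω => pressureFieldN ei
        (Matrix.of (Us N ω)) (fun r => cval (flab N r))) P := fun N ei =>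
      integrable_pressureFieldN P ei (hmeas N) (horth N) _
    refine ⟨Fl, c1, ?_, ?_, ?_⟩
    · rw [EReal.coe_add]; exact c2
    · have e1 := (tendsto_order.1 hFlE).1 (Fl - d) (by linarith)
      have e2 := (tendsto_order.1 hFuE).2 (Fl + 2 * d) (by linarith)
      filter_upwards [hsand, e1, e2] with N hN h1 h2
      constructor
      · refine h1.le.trans ?_
        exact integral_mono (hintg N _) (hintg N _)
          (fun ω => pressureFieldN_mono (fun i => (hN i).1) _ _)
      · refine le_trans ?_ h2.le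
        exact integral_mono (hintg N _) (hintg N _)
          (fun ω => pressureFieldN_mono (fun i => (hN i).2) _ _)
    · filter_upwards [hFlas, hFuas] with ω h1 h2
      have e1 := (tendsto_order.1 h1).1 (Fl - d) (by linarith)
      have e2 := (tendsto_order.1 h2).2 (Fl + 2 * d) (by linarith)
      filter_upwards [hsand, e1, e2] with N hN h3 h4
      exact ⟨h3.le.trans (pressureFieldN_mono (fun i => (hN i).1) _ _),
        (pressureFieldN_mono (fun i => (hN i).2) _ _).trans h4.le⟩
  -- the value is real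
  obtain ⟨F1, hF1, hF1', _⟩ := key 1 one_pos
  have hne_bot : magneticValue μ hi cval γ ≠ ⊥ := by
    intro hb
    rw [hb] at hF1
    exact absurd (le_bot_iff.1 hF1) (EReal.coe_ne_bot _)
  have hne_top : magneticValue μ hi cval γ ≠ ⊤ := by
    intro hb
    rw [hb] at hF1'
    exact absurd (top_le_iff.1 hF1') (EReal.coe_ne_top _)
  set F := (magneticValue μ hi cval γ).toReal with hF
  have hFe : magneticValue μ hi cval γ = ((F : ℝ) : EReal) :=
    (EReal.coe_toReal hne_top hne_bot).symm
  refine ⟨F, hFe, ?_, ?_⟩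
  · rw [Metric.tendsto_atTop]
    intro ε hε
    obtain ⟨F', h1, h2, h3, _⟩ := key (ε / 4) (by linarith)
    rw [hFe, EReal.coe_le_coe_iff] at h1 h2
    obtain ⟨N0, hN0⟩ := eventually_atTop.1 h3
    refine ⟨N0, fun N hN => ?_⟩
    obtain ⟨h4, h5⟩ := hN0 N hN
    rw [Real.dist_eq, abs_lt]
    constructor <;> linarith
  · have hall : ∀ᵐ ω ∂P, ∀ q : ℕ, ∃ F' : ℝ, F' ≤ F ∧ F ≤ F' + (1 / ((q:ℝ) + 1)) / 2 ∧
        ∀ᶠ N : ℕ in atTop, F' - 1 / ((q:ℝ) + 1) ≤ pressureFieldN (eig N) (Matrix.of (Us N ω))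
          (fun r => cval (flab N r)) ∧
        pressureFieldN (eig N) (Matrix.of (Us N ω)) (fun r => cval (flab N r)) ≤
          F' + 2 * (1 / ((q:ℝ) + 1)) := by
      rw [ae_all_iff]
      intro q
      obtain ⟨F', h1, h2, _, h3⟩ := key (1 / ((q:ℝ) + 1)) (by positivity)
      rw [hFe, EReal.coe_le_coe_iff] at h1 h2
      filter_upwards [h3] with ω hω
      exact ⟨F', h1, h2, hω⟩
    filter_upwards [hall] with ω hω
    rw [Metric.tendsto_atTop]
    intro ε hε
    obtain ⟨q, hq⟩ := exists_nat_one_div_lt (show 0 < ε / 4 by linarith)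
    obtain ⟨F', h1, h2, h3⟩ := hω q
    obtain ⟨N0, hN0⟩ := eventually_atTop.1 h3
    refine ⟨N0, fun N hN => ?_⟩
    obtain ⟨h4, h5⟩ := hN0 N hN
    rw [Real.dist_eq, abs_lt]
    constructor <;> linarith

end Crest.Agent.R164.Atomic
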