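import Mathlib
import Crest.Agent.R141.HierA
import Crest.Agent.Lib.OrthPoinc.Moment

set_option autoImplicit false

/-!
Row 164: concentration over the orthogonal group of hierarchical free energies
`A P F x (fun ω => h ω U) k ω0` (nested power means) with log-weights `h ω` depending on the
orthogonal matrix `U`.
-/

namespace Crest.Agent.R164.ConcA

open MeasureTheory Filter
open Crest.Agent.Lib.OrthPoinc
open Crest.Agent.R141

variable {n : ℕ} {Ω : Type*} [Fintype Ω] {P : Ω → ℝ}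

/-- energy of a family of derivatives at a matrix -/
noncomputable def En (D : Fin n → Fin n → Mat n → ℝ) (U : Mat n) : ℝ :=
  ∑ i, ∑ j, (D i j U) ^ 2

/-- derivative of a power mean -/
noncomputable def Dpm (P : Ω → ℝ) (r : Setoid Ω) (x : ℝ) (f : Ω → Mat n → ℝ)
    (Df : Ω → Fin n → Fin n → Mat n → ℝ) (ω : Ω) (i j : Fin n) (U : Mat n) : ℝ :=
  cE P r (fun a => Real.exp (x * f a U) * Df a i j U) ω /
    cE P r (fun a => Real.exp (x * f a U)) ω

theorem C1cl_pm (hP : IsProb P) (r : Setoid Ω) {x : ℝ} (hx : 0 < x) {f : Ω → Mat n → ℝ}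
    {Df : Ω → Fin n → Fin n → Mat n → ℝ} (hf : ∀ a, C1cl (f a) (Df a)) (ω : Ω) :
    C1cl (fun U => pm P r x (fun a => f a U) ω) (Dpm P r x f Df ω) := by
  classical
  choose K hK0 hK using fun s => (hf s).bound
  set Z := ∑ ω' ∈ Finset.univ.filter (fun ω' => r ω ω'), P ω' with hZ
  have hZpos : 0 < Z := cls_pos hP r ω
  have hcE : ∀ g : Ω → ℝ, cE P r g ω =
      ∑ a ∈ Finset.univ.filter (fun a => r ω a), (P a / Z) * g a := by
    intro g
    unfold cE
    rw [← hZ, Finset.sum_div]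
    exact Finset.sum_congr rfl fun a _ => by ring
  have hfx : ∀ a, C1cl (fun U => x * f a U) (fun i j U => x * Df a i j U) := fun a =>
    (hf a).const_mul x
  have hexp : ∀ a, C1cl (fun U => Real.exp (x * f a U))
      (fun i j U => Real.exp (x * f a U) * (x * Df a i j U)) := by
    intro a
    refine (hfx a).comp (-(x * K a)) (x * K a) (fun U hU => ?_) Real.exp Real.exp
      (fun y _ => Real.hasDerivAt_exp y) Real.continuous_exp.continuousOn
    have h1 := abs_le.mp (hK a U hU).1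
    constructor
    · nlinarith [h1.1]
    · nlinarith [h1.2]
  have hw : ∀ a, C1cl (fun U => (P a / Z) * Real.exp (x * f a U))
      (fun i j U => (P a / Z) * (Real.exp (x * f a U) * (x * Df a i j U))) := fun a =>
    (hexp a).const_mul _
  have hsum := C1cl.sum (Finset.univ.filter (fun a => r ω a)) (fun a _ => hw a)
  have hne : (Finset.univ.filter (fun a => r ω a)).Nonempty := ⟨ω, by simpa using r.refl ω⟩
  set m := ∑ a ∈ Finset.univ.filter (fun a => r ω a), (P a / Z) * Real.exp (-(x * K a)) with hm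
  have hmpos : 0 < m := Finset.sum_pos
    (fun a _ => mul_pos (div_pos (hP.pos a) hZpos) (Real.exp_pos _)) hne
  have hlog := hsum.comp m
    (∑ a ∈ Finset.univ.filter (fun a => r ω a), (P a / Z) * Real.exp (x * K a))
    (fun U hU => by
      constructor
      · refine Finset.sum_le_sum fun a _ => ?_
        refine mul_le_mul_of_nonneg_left (Real.exp_le_exp.mpr ?_) (div_pos (hP.pos a) hZpos).le
        have h1 := abs_le.mp (hK a U hU).1
        nlinarith [h1.1]
      · refine Finset.sum_le_sum fun a _ => ?_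
        refine mul_le_mul_of_nonneg_left (Real.exp_le_exp.mpr ?_) (div_pos (hP.pos a) hZpos).le
        have h1 := abs_le.mp (hK a U hU).1
        nlinarith [h1.2]) Real.log (fun y => y⁻¹)
    (fun y hy => Real.hasDerivAt_log (hmpos.trans_le hy.1).ne')
    (ContinuousOn.inv₀ continuousOn_id fun y hy => (hmpos.trans_le hy.1).ne')
  have hfin := hlog.const_mul (1 / x)
  refine hfin.congr (fun U _ => ?_) (fun U _ i j => ?_)
  · unfold pm
    rw [hcE]
  · unfold Dpm
    rw [hcE, hcE, div_eq_inv_mul]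
    have e : ∑ a ∈ Finset.univ.filter (fun a => r ω a),
        (P a / Z) * (Real.exp (x * f a U) * (x * Df a i j U)) =
        x * ∑ a ∈ Finset.univ.filter (fun a => r ω a),
          (P a / Z) * (Real.exp (x * f a U) * Df a i j U) := by
      rw [Finset.mul_sum]
      exact Finset.sum_congr rfl fun a _ => by ring
    rw [e]
    field_simp

theorem En_Dpm_le (hP : IsProb P) (r : Setoid Ω) {x : ℝ} {f : Ω → Mat n → ℝ}
    {Df : Ω → Fin n → Fin n → Mat n → ℝ} (U : Mat n) (L : ℝ) (hL : ∀ a, En (Df a) U ≤ L)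
    (ω : Ω) : En (Dpm P r x f Df ω) U ≤ L := by
  set Z := cE P r (fun a => Real.exp (x * f a U)) ω with hZ
  have hZpos : 0 < Z := cE_pos hP (fun _ => Real.exp_pos _) ω
  have hcs : ∀ D : Ω → ℝ, (cE P r (fun a => Real.exp (x * f a U) * D a) ω / Z) ^ 2 ≤
      cE P r (fun a => Real.exp (x * f a U) * (D a) ^ 2) ω / Z := by
    intro D
    have h1 := cE_mul_sq_le hP r (fun a => Real.exp (x * f a U / 2))
      (fun a => Real.exp (x * f a U / 2) * D a) ω
    have e1 : (fun a => Real.exp (x * f a U / 2) * (Real.exp (x * f a U / 2) * D a)) =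
        fun a => Real.exp (x * f a U) * D a := by
      funext a
      rw [← mul_assoc, ← Real.exp_add, add_halves]
    have e2 : (fun a => Real.exp (x * f a U / 2) ^ 2) = fun a => Real.exp (x * f a U) := by
      funext a
      rw [pow_two, ← Real.exp_add, add_halves]
    have e3 : (fun a => (Real.exp (x * f a U / 2) * D a) ^ 2) =
        fun a => Real.exp (x * f a U) * (D a) ^ 2 := by
      funext a
      rw [mul_pow, pow_two (Real.exp _), ← Real.exp_add, add_halves]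
    rw [e1, e2, e3, ← hZ] at h1
    rw [div_pow, div_le_div_iff₀ (by positivity) hZpos]
    nlinarith
  unfold En
  calc ∑ i, ∑ j, (Dpm P r x f Df ω i j U) ^ 2
      ≤ ∑ i, ∑ j, cE P r (fun a => Real.exp (x * f a U) * (Df a i j U) ^ 2) ω / Z :=
        Finset.sum_le_sum fun i _ => Finset.sum_le_sum fun j _ => hcs fun a => Df a i j U
    _ = cE P r (fun a => ∑ i, ∑ j, Real.exp (x * f a U) * (Df a i j U) ^ 2) ω / Z := by
        simp only [cE_sum, Finset.sum_div]
    _ ≤ cE P r (fun a => Real.exp (x * f a U) * L) ω / Z := by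
        refine div_le_div_of_nonneg_right ?_ hZpos.le
        refine cE_mono' hP (fun a => ?_) ω
        have := hL a
        unfold En at this
        calc ∑ i, ∑ j, Real.exp (x * f a U) * (Df a i j U) ^ 2
            = Real.exp (x * f a U) * ∑ i, ∑ j, (Df a i j U) ^ 2 := by
              rw [Finset.mul_sum]
              exact Finset.sum_congr rfl fun i _ => by rw [Finset.mul_sum]
          _ ≤ _ := mul_le_mul_of_nonneg_left this (Real.exp_pos _).le
    _ = L := by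
        have : cE P r (fun a => Real.exp (x * f a U) * L) ω = L * Z := by
          rw [hZ, ← cE_smul]
          congr 1
          funext a; ring
        rw [this]
        field_simp

variable {𝓕 : Filt Ω} {x : ℕ → ℝ}

/-- the hierarchical functional is in the class, with energy bounded by the energy of the
log-weights -/
theorem C1cl_A (hP : IsProb P) (hx : ∀ k, 0 < x k) {h : Ω → Mat n → ℝ}
    {Dh : Ω → Fin n → Fin n → Mat n → ℝ} (hh : ∀ a, C1cl (h a) (Dh a)) (k : ℕ) :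
    ∃ DA : Ω → Fin n → Fin n → Mat n → ℝ,
      (∀ ω, C1cl (fun U => A P 𝓕 x (fun a => h a U) k ω) (DA ω)) ∧
      ∀ (U : Mat n) (L : ℝ), (∀ a, En (Dh a) U ≤ L) → ∀ ω, En (DA ω) U ≤ L := by
  have base : ∀ k, 𝓕.L ≤ k → ∃ DA : Ω → Fin n → Fin n → Mat n → ℝ,
      (∀ ω, C1cl (fun U => A P 𝓕 x (fun a => h a U) k ω) (DA ω)) ∧
      ∀ (U : Mat n) (L : ℝ), (∀ a, En (Dh a) U ≤ L) → ∀ ω, En (DA ω) U ≤ L := by
    intro k hk
    refine ⟨Dh, fun ω => ?_, fun U L hL ω => hL ω⟩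
    simp only [A_of_ge _ hk]
    exact hh ω
  have step : ∀ k, k < 𝓕.L → (∃ DA : Ω → Fin n → Fin n → Mat n → ℝ,
      (∀ ω, C1cl (fun U => A P 𝓕 x (fun a => h a U) (k + 1) ω) (DA ω)) ∧
      ∀ (U : Mat n) (L : ℝ), (∀ a, En (Dh a) U ≤ L) → ∀ ω, En (DA ω) U ≤ L) →
      ∃ DA : Ω → Fin n → Fin n → Mat n → ℝ,
      (∀ ω, C1cl (fun U => A P 𝓕 x (fun a => h a U) k ω) (DA ω)) ∧
      ∀ (U : Mat n) (L : ℝ), (∀ a, En (Dh a) U ≤ L) → ∀ ω, En (DA ω) U ≤ L := by
    rintro k hk ⟨DA, h1, h2⟩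
    refine ⟨fun ω => Dpm P (𝓕.F k) (x (k + 1)) (fun a U => A P 𝓕 x (fun b => h b U) (k + 1) a)
      DA ω, fun ω => ?_, fun U L hL ω => ?_⟩
    · simp only [A_step_lt _ hk]
      exact C1cl_pm hP (𝓕.F k) (hx (k + 1)) h1 ω
    · exact En_Dpm_le hP (𝓕.F k) U L (h2 U L hL) ω
  obtain ⟨j, hj⟩ : ∃ j, j = 𝓕.L - k := ⟨_, rfl⟩
  induction j generalizing k with
  | zero => exact base k (by omega)
  | succ j ih => exact step k (by omega) (ih (k + 1) (by omega))

/-- expectation (with fixed weights) of the hierarchical functional -/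
theorem C1cl_eE_A (hP : IsProb P) (hx : ∀ k, 0 < x k) {h : Ω → Mat n → ℝ}
    {Dh : Ω → Fin n → Fin n → Mat n → ℝ} (hh : ∀ a, C1cl (h a) (Dh a)) (k : ℕ) :
    ∃ DA : Fin n → Fin n → Mat n → ℝ,
      C1cl (fun U => eE P (A P 𝓕 x (fun a => h a U) k)) DA ∧
      ∀ (U : Mat n) (L : ℝ), (∀ a, En (Dh a) U ≤ L) → En DA U ≤ L := by
  obtain ⟨DA, h1, h2⟩ := C1cl_A (𝓕 := 𝓕) hP hx hh k
  have hs := C1cl.sum Finset.univ (fun ω _ => (h1 ω).const_mul (P ω))
  refine ⟨_, hs, fun U L hL => ?_⟩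
  have h3 := h2 U L hL
  unfold En at h3 ⊢
  have hcs : ∀ y : Ω → ℝ, (∑ ω, P ω * y ω) ^ 2 ≤ ∑ ω, P ω * (y ω) ^ 2 := by
    intro y
    have := Finset.sum_sq_le_sum_mul_sum_of_sq_le_mul (Finset.univ : Finset Ω)
      (r := fun ω => P ω * y ω) (f := P) (g := fun ω => P ω * (y ω) ^ 2)
      (fun ω _ => (hP.pos ω).le) (fun ω _ => mul_nonneg (hP.pos ω).le (sq_nonneg _))
      (fun ω _ => le_of_eq (by ring))
    rwa [hP.sum, one_mul] at this
  calc ∑ i, ∑ j, (∑ ω, P ω * DA ω i j U) ^ 2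
      ≤ ∑ i, ∑ j, ∑ ω, P ω * (DA ω i j U) ^ 2 :=
        Finset.sum_le_sum fun i _ => Finset.sum_le_sum fun j _ => hcs fun ω => DA ω i j U
    _ = ∑ ω, P ω * ∑ i, ∑ j, (DA ω i j U) ^ 2 := by
        calc ∑ i, ∑ j, ∑ ω, P ω * (DA ω i j U) ^ 2
            = ∑ i, ∑ ω, ∑ j, P ω * (DA ω i j U) ^ 2 :=
              Finset.sum_congr rfl fun i _ => Finset.sum_comm
          _ = ∑ ω, ∑ i, ∑ j, P ω * (DA ω i j U) ^ 2 := Finset.sum_comm
          _ = _ := by
              refine Finset.sum_congr rfl fun ω _ => ?_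
              rw [Finset.mul_sum]
              exact Finset.sum_congr rfl fun i _ => by rw [Finset.mul_sum]
    _ ≤ ∑ ω, P ω * L := Finset.sum_le_sum fun ω _ =>
        mul_le_mul_of_nonneg_left (h3 ω) (hP.pos ω).le
    _ = L := by rw [← Finset.sum_mul, hP.sum, one_mul]

variable {μ : Measure (Mat n)} [IsProbabilityMeasure μ]

/-- **Concentration over `SO(n)` of hierarchical free energies**: variance and fourth moment. -/
theorem A_concentration (hμ : SOInv μ) (hn : 2 < n) (hP : IsProb P) (hx : ∀ k, 0 < x k)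
    {h : Ω → Mat n → ℝ} {Dh : Ω → Fin n → Fin n → Mat n → ℝ} (hh : ∀ a, C1cl (h a) (Dh a))
    (L : ℝ) (hL : ∀ᵐ U ∂μ, ∀ a, En (Dh a) U ≤ L) (k : ℕ) :
    (∀ ω, ∫ U, (A P 𝓕 x (fun a => h a U) k ω - ∫ V, A P 𝓕 x (fun a => h a V) k ω ∂μ) ^ 2 ∂μ ≤
        L / ((n : ℝ) - 2) ∧
      ∫ U, (A P 𝓕 x (fun a => h a U) k ω - ∫ V, A P 𝓕 x (fun a => h a V) k ω ∂μ) ^ 4 ∂μ ≤
        5 * (L / ((n : ℝ) - 2)) ^ 2) ∧
    (∫ U, (eE P (A P 𝓕 x (fun a => h a U) k) -
        ∫ V, eE P (A P 𝓕 x (fun a => h a V) k) ∂μ) ^ 2 ∂μ ≤ L / ((n : ℝ) - 2) ∧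
      ∫ U, (eE P (A P 𝓕 x (fun a => h a U) k) -
        ∫ V, eE P (A P 𝓕 x (fun a => h a V) k) ∂μ) ^ 4 ∂μ ≤ 5 * (L / ((n : ℝ) - 2)) ^ 2) := by
  obtain ⟨DA, h1, h2⟩ := C1cl_A (𝓕 := 𝓕) hP hx hh k
  obtain ⟨DE, h3, h4⟩ := C1cl_eE_A (𝓕 := 𝓕) hP hx hh k
  refine ⟨fun ω => ?_, ?_⟩
  · have hb : ∀ᵐ U ∂μ, ∑ i, ∑ j, (DA ω i j U) ^ 2 ≤ L := by
      filter_upwards [hL] with U hU
      exact h2 U L hU ω
    exact ⟨(h1 ω).variance_le hμ hn L hb, (h1 ω).fourth_moment hμ hn L hb⟩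
  · have hb : ∀ᵐ U ∂μ, ∑ i, ∑ j, (DE i j U) ^ 2 ≤ L := by
      filter_upwards [hL] with U hU
      exact h4 U L hU
    exact ⟨h3.variance_le hμ hn L hb, h3.fourth_moment hμ hn L hb⟩

end Crest.Agent.R164.ConcA
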