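import Mathlib
import Crest.Agent.R164.ConcA

set_option autoImplicit false

/-!
Row 164: concentration over the orthogonal group of hierarchical free energies, AVERAGED energy
version: the derivative of `A_k` is the tilted conditional expectation of the derivative of the
log-weight, so only the tilted average of the energy has to be bounded.
-/

namespace Crest.Agent.R164.ConcA

open MeasureTheory Filter
open Crest.Agent.Lib.OrthPoinc
open Crest.Agent.R141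

variable {n : ℕ} {Ω : Type*} [Fintype Ω] {P : Ω → ℝ} {𝓕 : Filt Ω} {x : ℕ → ℝ}

/-- derivative of `A_k`: tilted conditional expectation -/
noncomputable def DAt (P : Ω → ℝ) (𝓕 : Filt Ω) (x : ℕ → ℝ) (h : Ω → Mat n → ℝ)
    (Dh : Ω → Fin n → Fin n → Mat n → ℝ) (k : ℕ) (ω : Ω) (i j : Fin n) (U : Mat n) : ℝ :=
  cE (tl P 𝓕 x (fun a => h a U)) (𝓕.F k) (fun a => Dh a i j U) ω

theorem C1cl_At (hP : IsProb P) (hx : ∀ k, 0 < x k) {h : Ω → Mat n → ℝ}
    {Dh : Ω → Fin n → Fin n → Mat n → ℝ} (hh : ∀ a, C1cl (h a) (Dh a)) (k : ℕ) (ω : Ω) :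
    C1cl (fun U => A P 𝓕 x (fun a => h a U) k ω) (DAt P 𝓕 x h Dh k ω) := by
  have base : ∀ k, 𝓕.L ≤ k → ∀ ω,
      C1cl (fun U => A P 𝓕 x (fun a => h a U) k ω) (DAt P 𝓕 x h Dh k ω) := by
    intro k hk ω
    refine (hh ω).congr (fun U _ => ?_) (fun U _ i j => ?_)
    · rw [A_of_ge _ hk]
    · unfold DAt
      rw [cE_of_meas (tl_isProb hP hx _) (rmeas_of_ge hk _)]
  have step : ∀ k, k < 𝓕.L → (∀ ω,
      C1cl (fun U => A P 𝓕 x (fun a => h a U) (k + 1) ω) (DAt P 𝓕 x h Dh (k + 1) ω)) →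
      ∀ ω, C1cl (fun U => A P 𝓕 x (fun a => h a U) k ω) (DAt P 𝓕 x h Dh k ω) := by
    intro k hk ih ω
    refine (C1cl_pm hP (𝓕.F k) (hx (k + 1)) ih ω).congr (fun U _ => ?_) (fun U _ i j => ?_)
    · simp only [A_step_lt _ hk]
    · unfold Dpm
      rw [← exp_A_step hP hx]
      have hQ := tl_isProb (𝓕 := 𝓕) hP hx (fun a => h a U)
      have hmeas : RMeas (𝓕.F (k + 1)) (fun a => DAt P 𝓕 x h Dh (k + 1) a i j U) :=
        cE_meas _ _ _
      have h1 : DAt P 𝓕 x h Dh k ω i j U =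
          cE (tl P 𝓕 x (fun a => h a U)) (𝓕.F k) (fun a => DAt P 𝓕 x h Dh (k + 1) a i j U) ω := by
        unfold DAt
        exact (cE_tower hQ (𝓕.anti' (Nat.le_succ k)) _ ω).symm
      rw [h1, cE_tl_meas hP hx _ (Nat.le_succ k) hmeas]
      have e : (fun w => Real.exp (S P 𝓕 x (fun a => h a U) k (k + 1) w) *
          DAt P 𝓕 x h Dh (k + 1) w i j U) = fun w =>
          Real.exp (-(x (k + 1) * A P 𝓕 x (fun a => h a U) k w)) *
            (Real.exp (x (k + 1) * A P 𝓕 x (fun a => h a U) (k + 1) w) *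
              DAt P 𝓕 x h Dh (k + 1) w i j U) := by
        funext w
        rw [S_succ _ le_rfl, S_self, ← mul_assoc, ← Real.exp_add]
        ring_nf
      have hm2 : RMeas (𝓕.F k) (fun w =>
          Real.exp (-(x (k + 1) * A P 𝓕 x (fun a => h a U) k w))) := by
        intro a b hab
        simp only [A_meas hP hx _ k a b hab]
      rw [e, cE_mul_left hm2, Real.exp_neg, div_eq_inv_mul]
  obtain ⟨j, hj⟩ : ∃ j, j = 𝓕.L - k := ⟨_, rfl⟩
  induction j generalizing k ω with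
  | zero => exact base k (by omega) ω
  | succ j ih => exact step k (by omega) (fun ω' => ih (k + 1) ω' (by omega)) ω

theorem En_DAt_le (hP : IsProb P) (hx : ∀ k, 0 < x k) (h : Ω → Mat n → ℝ)
    (Dh : Ω → Fin n → Fin n → Mat n → ℝ) (k : ℕ) (ω : Ω) (U : Mat n) :
    En (DAt P 𝓕 x h Dh k ω) U ≤
      cE (tl P 𝓕 x (fun a => h a U)) (𝓕.F k) (fun a => En (Dh a) U) ω := by
  have hQ := tl_isProb (𝓕 := 𝓕) hP hx (fun a => h a U)
  unfold En DAt
  simp only [cE_sum]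
  exact Finset.sum_le_sum fun i _ => Finset.sum_le_sum fun j _ => cE_sq_le hQ _ _ _

/-- derivative of the averaged functional -/
noncomputable def DE (P : Ω → ℝ) (𝓕 : Filt Ω) (x : ℕ → ℝ) (h : Ω → Mat n → ℝ)
    (Dh : Ω → Fin n → Fin n → Mat n → ℝ) (k : ℕ) (i j : Fin n) (U : Mat n) : ℝ :=
  eE P (fun ω => DAt P 𝓕 x h Dh k ω i j U)

theorem C1cl_eE_At (hP : IsProb P) (hx : ∀ k, 0 < x k) {h : Ω → Mat n → ℝ}
    {Dh : Ω → Fin n → Fin n → Mat n → ℝ} (hh : ∀ a, C1cl (h a) (Dh a)) (k : ℕ) :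
    C1cl (fun U => eE P (A P 𝓕 x (fun a => h a U) k)) (DE P 𝓕 x h Dh k) :=
  C1cl.sum Finset.univ (fun ω _ => (C1cl_At (𝓕 := 𝓕) hP hx hh k ω).const_mul (P ω))

theorem En_DE_le (hP : IsProb P) (hx : ∀ k, 0 < x k) (h : Ω → Mat n → ℝ)
    (Dh : Ω → Fin n → Fin n → Mat n → ℝ) (k : ℕ) (U : Mat n) :
    En (DE P 𝓕 x h Dh k) U ≤
      eE P (cE (tl P 𝓕 x (fun a => h a U)) (𝓕.F k) (fun a => En (Dh a) U)) := by
  have hcs : ∀ y : Ω → ℝ, (eE P y) ^ 2 ≤ eE P (fun ω => (y ω) ^ 2) := by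
    intro y
    have := Finset.sum_sq_le_sum_mul_sum_of_sq_le_mul (Finset.univ : Finset Ω)
      (r := fun ω => P ω * y ω) (f := P) (g := fun ω => P ω * (y ω) ^ 2)
      (fun ω _ => (hP.pos ω).le) (fun ω _ => mul_nonneg (hP.pos ω).le (sq_nonneg _))
      (fun ω _ => le_of_eq (by ring))
    rw [hP.sum, one_mul] at this
    exact this
  calc En (DE P 𝓕 x h Dh k) U ≤ ∑ i, ∑ j, eE P (fun ω => (DAt P 𝓕 x h Dh k ω i j U) ^ 2) :=
        Finset.sum_le_sum fun i _ => Finset.sum_le_sum fun j _ => hcs _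
    _ = eE P (fun ω => En (DAt P 𝓕 x h Dh k ω) U) := by
        unfold eE En
        calc ∑ i, ∑ j, ∑ ω, P ω * (DAt P 𝓕 x h Dh k ω i j U) ^ 2
            = ∑ i, ∑ ω, ∑ j, P ω * (DAt P 𝓕 x h Dh k ω i j U) ^ 2 :=
              Finset.sum_congr rfl fun i _ => Finset.sum_comm
          _ = ∑ ω, ∑ i, ∑ j, P ω * (DAt P 𝓕 x h Dh k ω i j U) ^ 2 := Finset.sum_comm
          _ = _ := by
              refine Finset.sum_congr rfl fun ω _ => ?_
              rw [Finset.mul_sum]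
              exact Finset.sum_congr rfl fun i _ => by rw [Finset.mul_sum]
    _ ≤ _ := eE_mono hP fun ω => En_DAt_le hP hx h Dh k ω U

variable {μ : Measure (Mat n)} [IsProbabilityMeasure μ]

/-- **Concentration over `SO(n)`**, averaged energy version. -/
theorem eE_A_concentration (hμ : SOInv μ) (hn : 2 < n) (hP : IsProb P) (hx : ∀ k, 0 < x k)
    {h : Ω → Mat n → ℝ} {Dh : Ω → Fin n → Fin n → Mat n → ℝ} (hh : ∀ a, C1cl (h a) (Dh a))
    (L : ℝ) (k : ℕ) (hL : ∀ᵐ U ∂μ,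
      eE P (cE (tl P 𝓕 x (fun a => h a U)) (𝓕.F k) (fun a => En (Dh a) U)) ≤ L) :
    ∫ U, (eE P (A P 𝓕 x (fun a => h a U) k) -
        ∫ V, eE P (A P 𝓕 x (fun a => h a V) k) ∂μ) ^ 2 ∂μ ≤ L / ((n : ℝ) - 2) ∧
      ∫ U, (eE P (A P 𝓕 x (fun a => h a U) k) -
        ∫ V, eE P (A P 𝓕 x (fun a => h a V) k) ∂μ) ^ 4 ∂μ ≤ 5 * (L / ((n : ℝ) - 2)) ^ 2 := by
  have h3 := C1cl_eE_At (𝓕 := 𝓕) hP hx hh k
  have hb : ∀ᵐ U ∂μ, ∑ i, ∑ j, (DE P 𝓕 x h Dh k i j U) ^ 2 ≤ L := by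
    filter_upwards [hL] with U hU
    exact (En_DE_le hP hx h Dh k U).trans hU
  exact ⟨h3.variance_le hμ hn L hb, h3.fourth_moment hμ hn L hb⟩

/-! ### exponential-moment bound for tilted expectations -/

/-- tilted expectation of `V` is at most `A[U+V] - A[U]` (from the top) -/
theorem cE_tl_le_A_sub (hP : IsProb P) (hx : ∀ k, 0 < x k) (U V : Ω → ℝ) (k : ℕ) (ω : Ω) :
    cE (tl P 𝓕 x U) (𝓕.F k) V ω ≤
      A P 𝓕 x (fun w => U w + V w) k ω - A P 𝓕 x U k ω := by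
  have hQ := tl_isProb (𝓕 := 𝓕) hP hx U
  rw [A_cocycle hP hx U V k ω, add_sub_cancel_left]
  exact cE_le_A hQ hx V k ω

end Crest.Agent.R164.ConcA
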