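import Mathlib

set_option autoImplicit false

/-!
Row 164: convexity + contact from above: concentration of derivatives.
-/

namespace Crest.Agent.R164.ConvConc

open MeasureTheory

/-- pointwise form: `D` is a subgradient at the middle point of a convex random function with values
`Xm, X0, Xp` at `-y, 0, y`, whose means satisfy the one-sided quadratic bound with slope `d`. -/
theorem abs_sub_le_of_contact {Xm X0 Xp D φm φ0 φp d c y : ℝ} (hy : 0 < y)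
    (h1 : y * D ≤ Xp - X0) (h2 : X0 - Xm ≤ y * D)
    (h3 : φp ≤ φ0 + y * d + c * y ^ 2) (h4 : φm ≤ φ0 - y * d + c * y ^ 2) :
    |D - d| ≤ (|Xm - φm| + |X0 - φ0| + |Xp - φp|) / y + c * y := by
  have e1 := le_abs_self (Xp - φp)
  have e2 := neg_abs_le (X0 - φ0)
  have e3 := le_abs_self (Xm - φm)
  have e4 := abs_nonneg (Xm - φm)
  have e5 := abs_nonneg (Xp - φp)
  have hA : y * (D - d) ≤ (|Xm - φm| + |X0 - φ0| + |Xp - φp|) + c * y ^ 2 := by
    nlinarith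
  have hB : -((|Xm - φm| + |X0 - φ0| + |Xp - φp|) + c * y ^ 2) ≤ y * (D - d) := by
    nlinarith [le_abs_self (X0 - φ0), neg_abs_le (X0 - φ0)]
  rw [abs_le]
  have hk : (|Xm - φm| + |X0 - φ0| + |Xp - φp|) / y + c * y =
      ((|Xm - φm| + |X0 - φ0| + |Xp - φp|) + c * y ^ 2) / y := by
    field_simp
  rw [hk]
  constructor
  · rw [← neg_div, div_le_iff₀ hy]
    linarith
  · rw [le_div_iff₀ hy]
    linarith

/-- integrated form. -/
theorem integral_abs_sub_le_of_contact {Ω : Type*} [MeasurableSpace Ω] {ν : Measure Ω}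
    [IsProbabilityMeasure ν] {Xm X0 Xp D : Ω → ℝ} {φm φ0 φp d c y v : ℝ} (hy : 0 < y)
    (h1 : ∀ᵐ ω ∂ν, y * D ω ≤ Xp ω - X0 ω) (h2 : ∀ᵐ ω ∂ν, X0 ω - Xm ω ≤ y * D ω)
    (h3 : φp ≤ φ0 + y * d + c * y ^ 2) (h4 : φm ≤ φ0 - y * d + c * y ^ 2)
    (i1 : MemLp (fun ω => Xm ω - φm) 2 ν) (i2 : MemLp (fun ω => X0 ω - φ0) 2 ν)
    (i3 : MemLp (fun ω => Xp ω - φp) 2 ν)
    (v1 : ∫ ω, (Xm ω - φm) ^ 2 ∂ν ≤ v) (v2 : ∫ ω, (X0 ω - φ0) ^ 2 ∂ν ≤ v)
    (v3 : ∫ ω, (Xp ω - φp) ^ 2 ∂ν ≤ v) :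
    ∫ ω, |D ω - d| ∂ν ≤ 3 * Real.sqrt v / y + c * y := by
  have key : ∀ f : Ω → ℝ, MemLp f 2 ν → ∫ ω, (f ω) ^ 2 ∂ν ≤ v →
      Integrable (fun ω => |f ω|) ν ∧ ∫ ω, |f ω| ∂ν ≤ Real.sqrt v := by
    intro f hf hv
    have hi : Integrable f ν := hf.integrable one_le_two
    have hi2 : Integrable (fun ω => (f ω) ^ 2) ν := hf.integrable_sq
    refine ⟨hi.abs, ?_⟩
    apply Real.le_sqrt_of_sq_le
    refine le_trans ?_ hv
    have h0 : 0 ≤ ∫ ω, (|f ω| - ∫ ω', |f ω'| ∂ν) ^ 2 ∂ν := integral_nonneg fun _ => sq_nonneg _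
    have e : ∀ ω, (|f ω| - ∫ ω', |f ω'| ∂ν) ^ 2 =
        (f ω) ^ 2 - 2 * (∫ ω', |f ω'| ∂ν) * |f ω| + (∫ ω', |f ω'| ∂ν) ^ 2 := by
      intro ω
      rw [← sq_abs (f ω)]; ring
    simp only [e] at h0
    rw [integral_add (f := fun ω => (f ω) ^ 2 - 2 * (∫ ω', |f ω'| ∂ν) * |f ω|)
      (g := fun _ => (∫ ω', |f ω'| ∂ν) ^ 2) (hi2.sub (hi.abs.const_mul _)) (integrable_const _),
      integral_sub (f := fun ω => (f ω) ^ 2) (g := fun ω => 2 * (∫ ω', |f ω'| ∂ν) * |f ω|) hi2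
        (hi.abs.const_mul _), integral_const_mul] at h0
    simp only [integral_const, probReal_univ, smul_eq_mul, one_mul] at h0
    nlinarith
  obtain ⟨j1, k1⟩ := key _ i1 v1
  obtain ⟨j2, k2⟩ := key _ i2 v2
  obtain ⟨j3, k3⟩ := key _ i3 v3
  have hb : ∫ ω, |D ω - d| ∂ν ≤
      ∫ ω, ((|Xm ω - φm| + |X0 ω - φ0| + |Xp ω - φp|) / y + c * y) ∂ν := by
    refine integral_mono_of_nonneg (Filter.Eventually.of_forall fun ω => abs_nonneg _) ?_ ?_
    · exact (((j1.add j2).add j3).div_const y).add (integrable_const _)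
    · filter_upwards [h1, h2] with ω a1 a2
      exact abs_sub_le_of_contact hy a1 a2 h3 h4
  refine hb.trans ?_
  have j12 : Integrable (fun ω => |Xm ω - φm| + |X0 ω - φ0|) ν := j1.add j2
  have j123 : Integrable (fun ω => |Xm ω - φm| + |X0 ω - φ0| + |Xp ω - φp|) ν := j12.add j3
  rw [integral_add (f := fun ω => (|Xm ω - φm| + |X0 ω - φ0| + |Xp ω - φp|) / y)
      (g := fun _ => c * y) (j123.div_const y) (integrable_const _),
    integral_div, integral_add (f := fun ω => |Xm ω - φm| + |X0 ω - φ0|)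
      (g := fun ω => |Xp ω - φp|) j12 j3,
    integral_add (f := fun ω => |Xm ω - φm|) (g := fun ω => |X0 ω - φ0|) j1 j2]
  simp only [integral_const, probReal_univ, smul_eq_mul, one_mul]
  have : (∫ ω, |Xm ω - φm| ∂ν + ∫ ω, |X0 ω - φ0| ∂ν + ∫ ω, |Xp ω - φp| ∂ν) / y ≤
      3 * Real.sqrt v / y := by
    apply div_le_div_of_nonneg_right _ hy.le
    linarith
  linarith

end Crest.Agent.R164.ConvConc
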