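import Crest.Agent.R141.Psd

/-!
Row 164: response calculus for the hierarchical functional `A` of `R141.HierA`.

For a differentiable family `U ε` of log-weights with derivative `V`:
* `∂ A_k[U] = E^{P^U}_k V`;
* `∂ log P^U = ∑_{l>0} x_l D_l V`;
* `∂ E^{P^U}[f] = E^{P^U}[∂f] + E^{P^U}[f ∑_l x_l D_l V] = E[∂f] + E[Y_0(f,V)]`;
* `∂ E^{P^U}_k[f] = E^{P^U}_k[∂f] + Y_k(f,V)`.
-/

set_option autoImplicit false

namespace Crest.Agent.R164.Resp

open Finset Crest.Agent.R141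

noncomputable section

variable {Ω : Type*} [Fintype Ω] {P : Ω → ℝ} {𝓕 : Filt Ω} {x : ℕ → ℝ}

/-- conditional expectations are differentiable in the integrand -/
theorem hasDerivAt_cE {f : ℝ → Ω → ℝ} {f' : Ω → ℝ} {e : ℝ} (P : Ω → ℝ) (r : Setoid Ω) (ω : Ω)
    (h : ∀ a, r ω a → HasDerivAt (fun t => f t a) (f' a) e) :
    HasDerivAt (fun t => cE P r (f t) ω) (cE P r f' ω) e := by
  classical
  unfold cE
  refine HasDerivAt.div_const ?_ _
  refine HasDerivAt.fun_sum fun i hi => ?_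
  exact (h i (by simpa using hi)).const_mul _

/-- finite expectations are differentiable in weights and integrand -/
theorem hasDerivAt_eE {p : ℝ → Ω → ℝ} {p' : Ω → ℝ} {f : ℝ → Ω → ℝ} {f' : Ω → ℝ} {e : ℝ}
    (hp : ∀ a, HasDerivAt (fun t => p t a) (p' a) e)
    (h : ∀ a, HasDerivAt (fun t => f t a) (f' a) e) :
    HasDerivAt (fun t => eE (p t) (f t)) (eE p' (f e) + eE (p e) f') e := by
  unfold eE
  rw [← Finset.sum_add_distrib]
  exact HasDerivAt.fun_sum fun i _ => (hp i).mul (h i)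

/-- derivative of the log power mean -/
theorem hasDerivAt_pm (hP : IsProb P) {r : Setoid Ω} {y : ℝ} (hy : 0 < y) {f : ℝ → Ω → ℝ}
    {f' : Ω → ℝ} {e : ℝ} (ω : Ω) (h : ∀ a, r ω a → HasDerivAt (fun t => f t a) (f' a) e) :
    HasDerivAt (fun t => pm P r y (f t) ω)
      (cE P r (fun a => Real.exp (y * (f e a - pm P r y (f e) ω)) * f' a) ω) e := by
  have hpos : 0 < cE P r (fun a => Real.exp (y * f e a)) ω := cE_pos hP (fun _ => Real.exp_pos _) ω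
  have h1 : HasDerivAt (fun t => cE P r (fun a => Real.exp (y * f t a)) ω)
      (cE P r (fun a => Real.exp (y * f e a) * (y * f' a)) ω) e :=
    hasDerivAt_cE P r ω fun a ha => (((h a ha).const_mul y).exp)
  have h2 := (h1.log hpos.ne').const_mul (1 / y)
  unfold pm at h2 ⊢
  refine h2.congr_deriv ?_
  have e1 : (fun a => Real.exp (y * f e a) * (y * f' a)) =
      fun a => y * (Real.exp (y * f e a) * f' a) := by funext a; ring
  rw [e1, cE_smul]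
  have e2 : (fun a => Real.exp (y * (f e a - 1 / y *
      Real.log (cE P r (fun a => Real.exp (y * f e a)) ω))) * f' a) = fun a =>
      (cE P r (fun a => Real.exp (y * f e a)) ω)⁻¹ * (Real.exp (y * f e a) * f' a) := by
    funext a
    have : y * (f e a - 1 / y * Real.log (cE P r (fun a => Real.exp (y * f e a)) ω)) =
        y * f e a - Real.log (cE P r (fun a => Real.exp (y * f e a)) ω) := by
      field_simp
    rw [this, Real.exp_sub, Real.exp_log hpos]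
    field_simp
  rw [e2, cE_smul]
  field_simp

/-- **Derivative of `A_k`**: `∂ A_k[U] = E^{P^U}_k V`. -/
theorem hasDerivAt_A (hP : IsProb P) (hx : ∀ k, 0 < x k) {U : ℝ → Ω → ℝ} {V : Ω → ℝ} {e : ℝ}
    (h : ∀ a, HasDerivAt (fun t => U t a) (V a) e) (k : ℕ) :
    ∀ ω, HasDerivAt (fun t => A P 𝓕 x (U t) k ω) (cE (tl P 𝓕 x (U e)) (𝓕.F k) V ω) e := by
  have hQ := tl_isProb (𝓕 := 𝓕) hP hx (U e)
  refine back_induction 𝓕 (Q := fun k => ∀ ω, HasDerivAt (fun t => A P 𝓕 x (U t) k ω)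
    (cE (tl P 𝓕 x (U e)) (𝓕.F k) V ω) e) ?_ ?_ k
  · intro k hk ω
    simp only [A_of_ge _ hk]
    rw [cE_of_meas hQ (rmeas_of_ge hk V)]
    exact h ω
  · intro k ih ω
    have hf : (fun t => A P 𝓕 x (U t) k ω) = fun t => pm P (𝓕.F k) (x (k + 1))
        (A P 𝓕 x (U t) (k + 1)) ω := by
      funext t; rw [A_step hP hx (U t) k]
    rw [hf]
    refine (hasDerivAt_pm hP (hx (k + 1)) ω (fun a _ => ih a)).congr_deriv ?_
    rw [← A_step hP hx (U e) k]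
    have hmeas : RMeas (𝓕.F (k + 1)) (cE (tl P 𝓕 x (U e)) (𝓕.F (k + 1)) V) := cE_meas _ _ _
    have h2 := cE_tl_meas hP hx (U e) (Nat.le_succ k) hmeas ω
    rw [cE_tower hQ (𝓕.anti k)] at h2
    rw [h2]
    refine cE_congr ω fun a ha => ?_
    rw [S_succ (U e) le_rfl, S_self, A_meas hP hx (U e) k _ _ ha]
    simp

/-- derivative of the path sum. -/
theorem hasDerivAt_S (hP : IsProb P) (hx : ∀ k, 0 < x k) {U : ℝ → Ω → ℝ} {V : Ω → ℝ} {e : ℝ}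
    (h : ∀ a, HasDerivAt (fun t => U t a) (V a) e) (k m : ℕ) (ω : Ω) :
    HasDerivAt (fun t => S P 𝓕 x (U t) k m ω)
      (∑ l ∈ Ioc k m, x l * Dl (tl P 𝓕 x (U e)) 𝓕.F l V ω) e := by
  unfold S
  have e1 : ∑ l ∈ Ioc k m, x l * Dl (tl P 𝓕 x (U e)) 𝓕.F l V ω =
      ∑ l ∈ Ico k m, x (l + 1) * (cE (tl P 𝓕 x (U e)) (𝓕.F (l + 1)) V ω -
        cE (tl P 𝓕 x (U e)) (𝓕.F l) V ω) := by
    rw [← Finset.Ico_add_one_add_one_eq_Ioc, ← Finset.sum_Ico_add' (fun l => x l *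
      Dl (tl P 𝓕 x (U e)) 𝓕.F l V ω) k m 1]
    rfl
  rw [e1]
  exact HasDerivAt.fun_sum fun l _ =>
    ((hasDerivAt_A hP hx h (l + 1) ω).sub (hasDerivAt_A hP hx h l ω)).const_mul _

/-- the score `∑_{k<l≤L} x_l D_l V` under the law `Q`. -/
def score (Q : Ω → ℝ) (𝓕 : Filt Ω) (x : ℕ → ℝ) (k : ℕ) (V : Ω → ℝ) (ω : Ω) : ℝ :=
  ∑ l ∈ Ioc k 𝓕.L, x l * Dl Q 𝓕.F l V ω

/-- derivative of the tilted weights. -/
theorem hasDerivAt_tl (hP : IsProb P) (hx : ∀ k, 0 < x k) {U : ℝ → Ω → ℝ} {V : Ω → ℝ} {e : ℝ}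
    (h : ∀ a, HasDerivAt (fun t => U t a) (V a) e) (ω : Ω) :
    HasDerivAt (fun t => tl P 𝓕 x (U t) ω)
      (tl P 𝓕 x (U e) ω * score (tl P 𝓕 x (U e)) 𝓕 x 0 V ω) e := by
  unfold tl
  refine ((hasDerivAt_S (𝓕 := 𝓕) hP hx h 0 𝓕.L ω).exp.const_mul (P ω)).congr_deriv ?_
  unfold score tl
  ring

/-- **Response formula** for expectations under the tilted law. -/
theorem hasDerivAt_eE_tl (hP : IsProb P) (hx : ∀ k, 0 < x k) {U : ℝ → Ω → ℝ} {V : Ω → ℝ} {e : ℝ}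
    (h : ∀ a, HasDerivAt (fun t => U t a) (V a) e) {f : ℝ → Ω → ℝ} {f' : Ω → ℝ}
    (hf : ∀ a, HasDerivAt (fun t => f t a) (f' a) e) :
    HasDerivAt (fun t => eE (tl P 𝓕 x (U t)) (f t))
      (eE (tl P 𝓕 x (U e)) f' +
        eE (tl P 𝓕 x (U e)) (fun w => f e w * score (tl P 𝓕 x (U e)) 𝓕 x 0 V w)) e := by
  refine (hasDerivAt_eE (fun a => hasDerivAt_tl (𝓕 := 𝓕) hP hx h a) hf).congr_deriv ?_
  unfold eE
  rw [add_comm]
  congr 1
  exact Finset.sum_congr rfl fun i _ => by ring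

/-- **Response formula** for conditional expectations under the tilted law:
`∂ E^{P^U}_k[f] = E^{P^U}_k[∂f] + E^{P^U}_k[f ∑_{l>k} x_l D_l V]`. -/
theorem hasDerivAt_cE_tl (hP : IsProb P) (hx : ∀ k, 0 < x k) {U : ℝ → Ω → ℝ} {V : Ω → ℝ} {e : ℝ}
    (h : ∀ a, HasDerivAt (fun t => U t a) (V a) e) {f : ℝ → Ω → ℝ} {f' : Ω → ℝ}
    (hf : ∀ a, HasDerivAt (fun t => f t a) (f' a) e) (k : ℕ) (ω : Ω) :
    HasDerivAt (fun t => cE (tl P 𝓕 x (U t)) (𝓕.F k) (f t) ω)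
      (cE (tl P 𝓕 x (U e)) (𝓕.F k) f' ω +
        cE (tl P 𝓕 x (U e)) (𝓕.F k) (fun w => f e w * score (tl P 𝓕 x (U e)) 𝓕 x k V w) ω) e := by
  have e0 : (fun t => cE (tl P 𝓕 x (U t)) (𝓕.F k) (f t) ω) = fun t =>
      cE P (𝓕.F k) (fun w => Real.exp (S P 𝓕 x (U t) k 𝓕.L w) * f t w) ω := by
    funext t; exact cE_tl hP hx (U t) (f t) k ω
  rw [e0]
  refine (hasDerivAt_cE P (𝓕.F k) ω fun a _ =>
    ((hasDerivAt_S (𝓕 := 𝓕) hP hx h k 𝓕.L a).exp.mul (hf a))).congr_deriv ?_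
  rw [cE_tl hP hx, cE_tl hP hx, ← cE_add]
  refine cE_congr ω fun a _ => ?_
  unfold score
  ring

theorem cE_score_mul (hQ : IsProb P) (k : ℕ) (f V : Ω → ℝ) (ω : Ω) :
    cE P (𝓕.F k) (fun w => f w * score P 𝓕 x k V w) ω = Yf P 𝓕.F x 𝓕.L k f V ω :=
  (Yf_eq hQ 𝓕.antitone x 𝓕.L k f V ω).symm

/-- response formula in terms of the form `Y_k` -/
theorem hasDerivAt_cE_tl' (hP : IsProb P) (hx : ∀ k, 0 < x k) {U : ℝ → Ω → ℝ} {V : Ω → ℝ}
    {e : ℝ} (h : ∀ a, HasDerivAt (fun t => U t a) (V a) e) {f : ℝ → Ω → ℝ} {f' : Ω → ℝ}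
    (hf : ∀ a, HasDerivAt (fun t => f t a) (f' a) e) (k : ℕ) (ω : Ω) :
    HasDerivAt (fun t => cE (tl P 𝓕 x (U t)) (𝓕.F k) (f t) ω)
      (cE (tl P 𝓕 x (U e)) (𝓕.F k) f' ω +
        Yf (tl P 𝓕 x (U e)) 𝓕.F x 𝓕.L k (f e) V ω) e := by
  rw [← cE_score_mul (tl_isProb hP hx (U e))]
  exact hasDerivAt_cE_tl hP hx h hf k ω

theorem eE_score_mul (hQ : IsProb P) (f V : Ω → ℝ) :
    eE P (fun w => f w * score P 𝓕 x 0 V w) = eE P (Yf P 𝓕.F x 𝓕.L 0 f V) := by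
  rw [← eE_cE hQ (𝓕.F 0)]
  congr 1
  funext ω
  exact cE_score_mul hQ 0 f V ω

/-- response formula for expectations in terms of `Y_0` -/
theorem hasDerivAt_eE_tl' (hP : IsProb P) (hx : ∀ k, 0 < x k) {U : ℝ → Ω → ℝ} {V : Ω → ℝ}
    {e : ℝ} (h : ∀ a, HasDerivAt (fun t => U t a) (V a) e) {f : ℝ → Ω → ℝ} {f' : Ω → ℝ}
    (hf : ∀ a, HasDerivAt (fun t => f t a) (f' a) e) :
    HasDerivAt (fun t => eE (tl P 𝓕 x (U t)) (f t))
      (eE (tl P 𝓕 x (U e)) f' +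
        eE (tl P 𝓕 x (U e)) (Yf (tl P 𝓕 x (U e)) 𝓕.F x 𝓕.L 0 (f e) V)) e := by
  rw [← eE_score_mul (tl_isProb hP hx (U e))]
  exact hasDerivAt_eE_tl hP hx h hf

/-- derivative of `A` along a line `U + t V` -/
theorem hasDerivAt_A_line (hP : IsProb P) (hx : ∀ k, 0 < x k) (U V : Ω → ℝ) (e : ℝ) (k : ℕ)
    (ω : Ω) : HasDerivAt (fun t => A P 𝓕 x (fun w => U w + t * V w) k ω)
      (cE (tl P 𝓕 x (fun w => U w + e * V w)) (𝓕.F k) V ω) e := by
  refine hasDerivAt_A hP hx (U := fun t w => U w + t * V w) (fun a => ?_) k ω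
  simpa using ((hasDerivAt_id e).mul_const (V a)).const_add (U a)

/-- second derivative of `A` along a line: `Y_k(V,V)` under the tilted law -/
theorem hasDerivAt_A_line_two (hP : IsProb P) (hx : ∀ k, 0 < x k) (U V : Ω → ℝ) (e : ℝ) (k : ℕ)
    (ω : Ω) : HasDerivAt (fun t => cE (tl P 𝓕 x (fun w => U w + t * V w)) (𝓕.F k) V ω)
      (Yf (tl P 𝓕 x (fun w => U w + e * V w)) 𝓕.F x 𝓕.L k V V ω) e := by
  have h0 : ∀ a, HasDerivAt (fun t => U a + t * V a) (V a) e := fun a => by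
    simpa using ((hasDerivAt_id e).mul_const (V a)).const_add (U a)
  have := hasDerivAt_cE_tl' (𝓕 := 𝓕) hP hx (U := fun t w => U w + t * V w) h0
    (f := fun _ => V) (f' := fun _ => 0) (fun a => hasDerivAt_const e (V a)) k ω
  rwa [cE_const (tl_isProb hP hx _), zero_add] at this

end

end Crest.Agent.R164.Resp
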