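import Mathlib
import Crest.Agent.R164.Resp
import Crest.Agent.R164.Rot
import Crest.Agent.R164.ConvConc

set_option autoImplicit false

/-!
Row 164, module (Conc): concentration of observables `V` under the tilted hierarchical law,
from a one-sided quadratic bound of the mean free energy in the direction `V` (contact), or for
generic values of the field strength.

`u : 𝒰` is the disorder (orthogonal matrix and outer randomness), `H u`, `V u` the log-weights.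
-/

namespace Crest.Agent.R164.ObsConc

open MeasureTheory Filter Topology Finset
open Crest.Agent.R141
open Crest.Agent.R164.Resp Crest.Agent.R164.Rot

noncomputable section

variable {Ω : Type*} [Fintype Ω] {P : Ω → ℝ} {𝓕 : Filt Ω} {x : ℕ → ℝ}

/-! ### trivial first sigma-algebra -/

theorem cE_top {r : Setoid Ω} (hr : r = ⊤) {Q : Ω → ℝ} (hQ : IsProb Q) (f : Ω → ℝ) (ω : Ω) :
    cE Q r f ω = eE Q f := by
  classical
  subst hr
  unfold cE eE
  have : Finset.univ.filter (fun ω' => (⊤ : Setoid Ω) ω ω') = Finset.univ := by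
    ext a; simp only [Finset.mem_filter, Finset.mem_univ, true_and, iff_true]; trivial
  rw [this, hQ.sum, div_one]

/-- variance under weights -/
def Var (Q : Ω → ℝ) (f : Ω → ℝ) : ℝ := eE Q (fun w => (f w) ^ 2) - (eE Q f) ^ 2

theorem Var_eq (Q : Ω → ℝ) (hQ : IsProb Q) (f : Ω → ℝ) :
    Var Q f = eE Q (fun w => (f w - eE Q f) ^ 2) := by
  unfold Var
  have h : ∀ w, (f w - eE Q f) ^ 2 = (f w) ^ 2 - 2 * eE Q f * f w + (eE Q f) ^ 2 := fun w => by ring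
  simp only [h]
  have e : eE Q (fun w => (f w) ^ 2 - 2 * eE Q f * f w + (eE Q f) ^ 2) =
      eE Q (fun w => (f w) ^ 2) - 2 * eE Q f * eE Q f + (eE Q f) ^ 2 := by
    have h1 : eE Q (fun w => (f w) ^ 2 - 2 * eE Q f * f w + (eE Q f) ^ 2) =
        eE Q (fun w => (f w) ^ 2) - 2 * eE Q f * (∑ w, Q w * f w) + (eE Q f) ^ 2 * ∑ w, Q w := by
      unfold eE
      simp only [mul_add, mul_sub, Finset.sum_add_distrib, Finset.sum_sub_distrib, Finset.mul_sum]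
      congr 1
      · congr 1
        exact Finset.sum_congr rfl fun w _ => by ring
      · exact Finset.sum_congr rfl fun w _ => by ring
    rw [h1, hQ.sum]
    unfold eE; ring
  rw [e]; ring

theorem Var_nonneg (Q : Ω → ℝ) (hQ : IsProb Q) (f : Ω → ℝ) : 0 ≤ Var Q f := by
  rw [Var_eq Q hQ]
  exact Finset.sum_nonneg fun w _ => mul_nonneg (hQ.pos w).le (sq_nonneg _)

/-- lower bound of the second derivative: `x_min Var(V) ≤ Y_0(V,V)`. -/
theorem var_le_Yf {Q : Ω → ℝ} (hQ : IsProb Q) (hF0 : 𝓕.F 0 = ⊤) {xm : ℝ}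
    (hxm : ∀ l, xm ≤ x l) (V : Ω → ℝ) (ω : Ω) :
    xm * Var Q V ≤ Yf Q 𝓕.F x 𝓕.L 0 V V ω := by
  have h1 := covR_cE_eq_sum hQ 𝓕.antitone (Nat.zero_le 𝓕.L) V V ω
  have h2 : cE Q (𝓕.F 𝓕.L) V = V := by
    funext a; exact cE_of_meas hQ (rmeas_of_ge le_rfl V) a
  rw [h2] at h1
  have h3 : covR Q (𝓕.F 0) V V ω = Var Q V := by
    unfold covR Var
    rw [cE_top hF0 hQ, cE_top hF0 hQ]
    congr 1
    · congr 1; funext a; ring
    · ring
  rw [← h3, h1]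
  unfold Yf
  rw [Finset.mul_sum]
  refine Finset.sum_le_sum fun l _ => ?_
  exact mul_le_mul_of_nonneg_right (hxm l) (cE_nonneg hQ (fun a => mul_self_nonneg _) ω)

/-! ### one-parameter family -/

/-- the free energy in the direction `V` -/
def gA (P : Ω → ℝ) (𝓕 : Filt Ω) (x : ℕ → ℝ) (H V : Ω → ℝ) (s : ℝ) : ℝ :=
  eE P (A P 𝓕 x (fun w => H w + s * V w) 0)

/-- the tilted law at `s` -/
def tQ (P : Ω → ℝ) (𝓕 : Filt Ω) (x : ℕ → ℝ) (H V : Ω → ℝ) (s : ℝ) : Ω → ℝ :=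
  tl P 𝓕 x (fun w => H w + s * V w)

theorem tQ_isProb (hP : IsProb P) (hx : ∀ k, 0 < x k) (H V : Ω → ℝ) (s : ℝ) :
    IsProb (tQ P 𝓕 x H V s) := tl_isProb hP hx _

theorem hasDerivAt_gA (hP : IsProb P) (hx : ∀ k, 0 < x k) (hF0 : 𝓕.F 0 = ⊤) (H V : Ω → ℝ)
    (s : ℝ) : HasDerivAt (gA P 𝓕 x H V) (eE (tQ P 𝓕 x H V s) V) s := by
  have h1 : ∀ ω, HasDerivAt (fun t => A P 𝓕 x (fun w => H w + t * V w) 0 ω)
      (eE (tQ P 𝓕 x H V s) V) s := by
    intro ω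
    have := hasDerivAt_A_line (𝓕 := 𝓕) hP hx H V s 0 ω
    rwa [cE_top hF0 (tl_isProb hP hx _)] at this
  have h2 : HasDerivAt (fun t => ∑ ω, P ω * A P 𝓕 x (fun w => H w + t * V w) 0 ω)
      (∑ ω, P ω * eE (tQ P 𝓕 x H V s) V) s :=
    HasDerivAt.fun_sum fun ω _ => (h1 ω).const_mul (P ω)
  rw [← Finset.sum_mul, hP.sum, one_mul] at h2
  exact h2

/-- second derivative -/
def gA2 (P : Ω → ℝ) (𝓕 : Filt Ω) (x : ℕ → ℝ) (H V : Ω → ℝ) (s : ℝ) : ℝ :=
  eE P (Yf (tQ P 𝓕 x H V s) 𝓕.F x 𝓕.L 0 V V)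

theorem hasDerivAt_gA1 (hP : IsProb P) (hx : ∀ k, 0 < x k) (hF0 : 𝓕.F 0 = ⊤) (H V : Ω → ℝ)
    (s : ℝ) : HasDerivAt (fun t => eE (tQ P 𝓕 x H V t) V) (gA2 P 𝓕 x H V s) s := by
  have h1 : ∀ ω, HasDerivAt (fun t => eE (tQ P 𝓕 x H V t) V)
      (Yf (tQ P 𝓕 x H V s) 𝓕.F x 𝓕.L 0 V V ω) s := by
    intro ω
    have := hasDerivAt_A_line_two (𝓕 := 𝓕) hP hx H V s 0 ω
    refine this.congr_of_eventuallyEq (Eventually.of_forall fun t => ?_)
    exact (cE_top hF0 (tl_isProb hP hx _) V ω).symm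
  have h2 : HasDerivAt (fun t => ∑ ω, P ω * eE (tQ P 𝓕 x H V t) V) (gA2 P 𝓕 x H V s) s :=
    HasDerivAt.fun_sum fun ω _ => (h1 ω).const_mul (P ω)
  refine h2.congr_of_eventuallyEq (Eventually.of_forall fun t => ?_)
  simp only [← Finset.sum_mul, hP.sum, one_mul]

theorem gA2_ge (hP : IsProb P) (hx : ∀ k, 0 < x k) (hF0 : 𝓕.F 0 = ⊤) {xm : ℝ}
    (hxm : ∀ l, xm ≤ x l) (H V : Ω → ℝ) (s : ℝ) :
    xm * Var (tQ P 𝓕 x H V s) V ≤ gA2 P 𝓕 x H V s := by
  unfold gA2 eE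
  calc xm * Var (tQ P 𝓕 x H V s) V = ∑ ω, P ω * (xm * Var (tQ P 𝓕 x H V s) V) := by
        rw [← Finset.sum_mul, hP.sum, one_mul]
    _ ≤ _ := Finset.sum_le_sum fun ω _ => mul_le_mul_of_nonneg_left
        (var_le_Yf (tQ_isProb hP hx H V s) hF0 hxm V ω) (hP.pos ω).le

theorem gA2_nonneg (hP : IsProb P) (hx : ∀ k, 0 < x k) (H V : Ω → ℝ) (s : ℝ) :
    0 ≤ gA2 P 𝓕 x H V s :=
  Finset.sum_nonneg fun ω _ => mul_nonneg (hP.pos ω).le
    (Yf_self_nonneg (tQ_isProb hP hx H V s) (fun l _ => (hx l).le) V ω)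

theorem convexOn_gA (hP : IsProb P) (hx : ∀ k, 0 < x k) (hF0 : 𝓕.F 0 = ⊤) (H V : Ω → ℝ) :
    ConvexOn ℝ Set.univ (gA P 𝓕 x H V) := by
  refine convexOn_of_deriv2_nonneg convex_univ ?_ ?_ ?_ ?_
  · exact (continuous_iff_continuousAt.mpr fun s =>
      (hasDerivAt_gA hP hx hF0 H V s).continuousAt).continuousOn
  · intro s _
    exact (hasDerivAt_gA hP hx hF0 H V s).differentiableAt.differentiableWithinAt
  · have : deriv (gA P 𝓕 x H V) = fun t => eE (tQ P 𝓕 x H V t) V := by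
      funext t; exact (hasDerivAt_gA hP hx hF0 H V t).deriv
    rw [this]
    intro s _
    exact (hasDerivAt_gA1 hP hx hF0 H V s).differentiableAt.differentiableWithinAt
  · intro s _
    have : deriv (gA P 𝓕 x H V) = fun t => eE (tQ P 𝓕 x H V t) V := by
      funext t; exact (hasDerivAt_gA hP hx hF0 H V t).deriv
    rw [show deriv^[2] (gA P 𝓕 x H V) s = deriv (deriv (gA P 𝓕 x H V)) s from rfl, this,
      (hasDerivAt_gA1 hP hx hF0 H V s).deriv]
    exact gA2_nonneg hP hx H V s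

/-- subgradient inequalities -/
theorem gA_sub (hP : IsProb P) (hx : ∀ k, 0 < x k) (hF0 : 𝓕.F 0 = ⊤) (H V : Ω → ℝ) (s y : ℝ)
    (hy : 0 < y) :
    y * eE (tQ P 𝓕 x H V s) V ≤ gA P 𝓕 x H V (s + y) - gA P 𝓕 x H V s ∧
    gA P 𝓕 x H V s - gA P 𝓕 x H V (s - y) ≤ y * eE (tQ P 𝓕 x H V s) V := by
  have hc := convexOn_gA (𝓕 := 𝓕) hP hx hF0 H V
  have hd := hasDerivAt_gA (𝓕 := 𝓕) hP hx hF0 H V s
  constructor
  · have := hc.le_slope_of_hasDerivAt (Set.mem_univ s) (Set.mem_univ (s + y)) (by linarith) hd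
    rw [slope_def_field, le_div_iff₀ (by linarith)] at this
    linarith
  · have := hc.slope_le_of_hasDerivAt (Set.mem_univ (s - y)) (Set.mem_univ s) (by linarith) hd
    rw [slope_def_field, div_le_iff₀ (by linarith)] at this
    linarith

end

end Crest.Agent.R164.ObsConc
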