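import Mathlib
import Crest.Agent.R164.ObsConc

set_option autoImplicit false

/-!
Row 164, module (Conc): concentration of an observable under the tilted law from FINITE second
differences of the free energy in the field strength (no derivatives).
-/

namespace Crest.Agent.R164.ObsConc

open Finset
open Crest.Agent.R141

noncomputable section

variable {Ω : Type*} [Fintype Ω] {P : Ω → ℝ} {𝓕 : Filt Ω} {x : ℕ → ℝ}

/-- the iterated mean is at least the mean with the smallest exponent. -/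
theorem pm_le_A (hP : IsProb P) (hx : ∀ k, 0 < x k) {y : ℝ} (hy : 0 < y) (hyx : ∀ l, y ≤ x l)
    (V : Ω → ℝ) (k : ℕ) (ω : Ω) : pm P (𝓕.F k) y V ω ≤ A P 𝓕 x V k ω := by
  have key : ∀ n, ∀ k, 𝓕.L - k = n → ∀ ω, pm P (𝓕.F k) y V ω ≤ A P 𝓕 x V k ω := by
    intro n
    induction n with
    | zero =>
      intro k hk ω
      rw [A_of_ge _ (by omega), pm_of_meas hP hy (rmeas_of_ge (by omega) V)]
    | succ n ih =>
      intro k hk ω
      rw [A_step_lt _ (by omega)]
      rw [← pm_tower hP (𝓕.anti' (Nat.le_succ k)) hy]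
      refine (pm_mono hP hy ω (fun a _ => ih (k + 1) (by omega) a)).trans ?_
      exact pm_le_pm hP _ hy (hyx _) _ ω
  exact key _ k rfl ω

theorem eE_eq_cE_top {r : Setoid Ω} (hr : r = ⊤) {Q : Ω → ℝ} (hQ : IsProb Q) (f : Ω → ℝ) (ω : Ω) :
    eE Q f = cE Q r f ω := (cE_top hr hQ f ω).symm

/-- exponential moment at the smallest exponent -/
theorem eE_exp_le (hP : IsProb P) (hx : ∀ k, 0 < x k) (hF0 : 𝓕.F 0 = ⊤) {y : ℝ} (hy : 0 < y)
    (hyx : ∀ l, y ≤ x l) (V : Ω → ℝ) :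
    eE P (fun w => Real.exp (y * V w)) ≤ Real.exp (y * eE P (A P 𝓕 x V 0)) := by
  have hne : Nonempty Ω := by
    by_contra h
    rw [not_nonempty_iff] at h
    have := hP.sum
    simp at this
  obtain ⟨ω⟩ := hne
  have h1 := pm_le_A (𝓕 := 𝓕) hP hx hy hyx V 0 ω
  have h2 : eE P (A P 𝓕 x V 0) = A P 𝓕 x V 0 ω := by
    rw [eE_eq_cE_top hF0 hP _ ω, cE_of_meas hP (A_meas hP hx V 0)]
  rw [h2, ← cE_top hF0 hP _ ω, ← exp_pm hP _ hy]
  exact Real.exp_le_exp.mpr (mul_le_mul_of_nonneg_left h1 hy.le)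

theorem eE_le_A0 (hP : IsProb P) (hx : ∀ k, 0 < x k) (V : Ω → ℝ) :
    eE P V ≤ eE P (A P 𝓕 x V 0) := by
  have h := fun ω => cE_le_A (𝓕 := 𝓕) hP hx V 0 ω
  calc eE P V = eE P (cE P (𝓕.F 0) V) := (eE_cE hP _ _).symm
    _ ≤ _ := eE_mono hP h

/-- concentration around the mean from the two one-sided exponential functionals. -/
theorem abs_dev_le (hP : IsProb P) (hx : ∀ k, 0 < x k) (hF0 : 𝓕.F 0 = ⊤) {y : ℝ} (hy : 0 < y)
    (hyx : ∀ l, y ≤ x l) (V : Ω → ℝ) :
    eE P (fun w => |V w - eE P V|) ≤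
      (eE P (A P 𝓕 x V 0) + eE P (A P 𝓕 x (fun w => - V w) 0)) + Real.log 2 / y := by
  set a := eE P (A P 𝓕 x V 0) with ha
  set b := eE P (A P 𝓕 x (fun w => - V w) 0) with hb
  set m := eE P V with hm
  have h1 := eE_exp_le (𝓕 := 𝓕) hP hx hF0 hy hyx V
  have h2 := eE_exp_le (𝓕 := 𝓕) hP hx hF0 hy hyx (fun w => - V w)
  have h3 : m ≤ a := eE_le_A0 hP hx V
  have h4 : -m ≤ b := by
    have := eE_le_A0 (𝓕 := 𝓕) hP hx (fun w => - V w)
    have e : eE P (fun w => - V w) = - m := by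
      rw [hm]; unfold eE; rw [← Finset.sum_neg_distrib]
      exact Finset.sum_congr rfl fun w _ => by ring
    rw [e] at this; exact this
  have h5 : eE P (fun w => Real.exp (y * |V w - m|)) ≤ 2 * Real.exp (y * (a + b)) := by
    have e1 : ∀ w, Real.exp (y * |V w - m|) ≤
        Real.exp (-(y * m)) * Real.exp (y * V w) + Real.exp (y * m) * Real.exp (y * (- V w)) := by
      intro w
      rw [← Real.exp_add, ← Real.exp_add]
      rcases abs_cases (V w - m) with h | h
      · rw [h.1]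
        have : Real.exp (y * (V w - m)) = Real.exp (-(y * m) + y * V w) := by ring_nf
        rw [this]
        linarith [Real.exp_pos (y * m + y * (- V w))]
      · rw [h.1]
        have : Real.exp (y * (-(V w - m))) = Real.exp (y * m + y * (- V w)) := by ring_nf
        rw [this]
        linarith [Real.exp_pos (-(y * m) + y * V w)]
    refine (eE_mono hP e1).trans ?_
    rw [eE_add, eE_smul, eE_smul]
    have t1 : Real.exp (-(y * m)) * eE P (fun w => Real.exp (y * V w)) ≤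
        Real.exp (y * (a + b)) := by
      refine (mul_le_mul_of_nonneg_left h1 (Real.exp_pos _).le).trans ?_
      rw [← Real.exp_add]
      apply Real.exp_le_exp.mpr
      nlinarith
    have t2 : Real.exp (y * m) * eE P (fun w => Real.exp (y * (- V w))) ≤
        Real.exp (y * (a + b)) := by
      refine (mul_le_mul_of_nonneg_left h2 (Real.exp_pos _).le).trans ?_
      rw [← Real.exp_add]
      apply Real.exp_le_exp.mpr
      nlinarith
    linarith
  -- Jensen
  have h6 : Real.exp (y * eE P (fun w => |V w - m|)) ≤ eE P (fun w => Real.exp (y * |V w - m|)) := by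
    have hne : Nonempty Ω := by
      by_contra h
      rw [not_nonempty_iff] at h
      have := hP.sum
      simp at this
    obtain ⟨ω⟩ := hne
    have := exp_cE_le hP (⊤ : Setoid Ω) (fun w => y * |V w - m|) ω
    rw [eE_top hP, eE_top hP, eE_smul] at this
    exact this
  have h7 := h6.trans h5
  have h8 : y * eE P (fun w => |V w - m|) ≤ Real.log 2 + y * (a + b) := by
    have := Real.log_le_log (Real.exp_pos _) h7
    rw [Real.log_exp, Real.log_mul (by norm_num) (Real.exp_pos _).ne', Real.log_exp] at this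
    exact this
  have h9 : eE P (fun w => |V w - m|) ≤ (Real.log 2 + y * (a + b)) / y := by
    rw [le_div_iff₀ hy]; linarith
  refine h9.trans (le_of_eq ?_)
  field_simp
  ring

/-- **pointwise concentration**: `r₊, r₋` are reference values for the one-sided functionals,
`c` any centre compatible with them. -/
theorem abs_dev_center_le (hP : IsProb P) (hx : ∀ k, 0 < x k) (hF0 : 𝓕.F 0 = ⊤) {y : ℝ}
    (hy : 0 < y) (hyx : ∀ l, y ≤ x l) (V : Ω → ℝ) {rp rm c : ℝ} (hc1 : c ≤ rp) (hc2 : -c ≤ rm) :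
    eE P (fun w => |V w - c|) ≤
      2 * (rp + rm) + 2 * |eE P (A P 𝓕 x V 0) - rp| +
        2 * |eE P (A P 𝓕 x (fun w => - V w) 0) - rm| + Real.log 2 / y := by
  have h0 := abs_dev_le (𝓕 := 𝓕) hP hx hF0 hy hyx V
  set a := eE P (A P 𝓕 x V 0) with ha
  set b := eE P (A P 𝓕 x (fun w => - V w) 0) with hb
  set m := eE P V with hm
  have h3 : m ≤ a := eE_le_A0 hP hx V
  have h4 : -m ≤ b := by
    have := eE_le_A0 (𝓕 := 𝓕) hP hx (fun w => - V w)
    have e : eE P (fun w => - V w) = - m := by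
      rw [hm]; unfold eE; rw [← Finset.sum_neg_distrib]
      exact Finset.sum_congr rfl fun w _ => by ring
    rw [e] at this; exact this
  have ha1 := le_abs_self (a - rp)
  have hb1 := le_abs_self (b - rm)
  have h5 : |m - c| ≤ (rp + rm) + |a - rp| + |b - rm| := by
    rw [abs_le]
    constructor
    · linarith [abs_nonneg (a - rp)]
    · linarith [abs_nonneg (b - rm)]
  have h6 : eE P (fun w => |V w - c|) ≤ eE P (fun w => |V w - m|) + |m - c| := by
    have e : ∀ w, |V w - c| ≤ |V w - m| + |m - c| := fun w => abs_sub_le _ _ _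
    refine (eE_mono hP e).trans ?_
    rw [eE_add, eE_const hP]
  linarith

/-- the difference of free energies is the functional of the tilted law -/
theorem gA_diff (hP : IsProb P) (hx : ∀ k, 0 < x k) (hF0 : 𝓕.F 0 = ⊤) (H V : Ω → ℝ) (s : ℝ) :
    eE (tl P 𝓕 x H) (A (tl P 𝓕 x H) 𝓕 x (fun w => s * V w) 0) =
      gA P 𝓕 x H V s - eE P (A P 𝓕 x H 0) := by
  have hne : Nonempty Ω := by
    by_contra h
    rw [not_nonempty_iff] at h
    have := hP.sum
    simp at this
  obtain ⟨ω⟩ := hne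
  have hQ := tl_isProb (𝓕 := 𝓕) hP hx H
  have e : ∀ {Q : Ω → ℝ} (_ : IsProb Q) (W : Ω → ℝ), eE Q (A Q 𝓕 x W 0) = A Q 𝓕 x W 0 ω := by
    intro Q hQ W
    rw [eE_eq_cE_top hF0 hQ _ ω, cE_of_meas hQ (A_meas hQ hx W 0)]
  unfold gA
  rw [e hQ, e hP, e hP, A_cocycle hP hx H (fun w => s * V w) 0 ω]
  ring

/-- **Main pointwise theorem**: `f0, fp, fm` are reference values of the free energy at strengths
`0, y, -y`; centre `c` with `f0 - fm ≤ y c ≤ fp - f0`. -/
theorem obs_pt (hP : IsProb P) (hx : ∀ k, 0 < x k) (hF0 : 𝓕.F 0 = ⊤) {xm : ℝ}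
    (hxm0 : 0 < xm) (hxm : ∀ l, xm ≤ x l) (H V : Ω → ℝ) {y : ℝ} (hy : 0 < y) {f0 fp fm c : ℝ}
    (hc1 : y * c ≤ fp - f0) (hc2 : f0 - fm ≤ y * c) :
    y * eE (tl P 𝓕 x H) (fun w => |V w - c|) ≤
      2 * (fp + fm - 2 * f0) + 2 * |gA P 𝓕 x H V y - fp| + 2 * |gA P 𝓕 x H V (-y) - fm| +
        4 * |eE P (A P 𝓕 x H 0) - f0| + Real.log 2 / xm := by
  have hQ := tl_isProb (𝓕 := 𝓕) hP hx H
  have h := abs_dev_center_le (𝓕 := 𝓕) hQ hx hF0 hxm0 hxm (fun w => y * V w)
    (rp := fp - f0) (rm := fm - f0) (c := y * c) hc1 (by linarith)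
  have e1 : eE (tl P 𝓕 x H) (fun w => |y * V w - y * c|) =
      y * eE (tl P 𝓕 x H) (fun w => |V w - c|) := by
    rw [← eE_smul]
    congr 1; funext w
    rw [← mul_sub, abs_mul, abs_of_pos hy]
  have e2 : (fun w => - (y * V w)) = fun w => (-y) * V w := by funext w; ring
  rw [e1, e2, gA_diff hP hx hF0, gA_diff hP hx hF0] at h
  have t1 : |gA P 𝓕 x H V y - eE P (A P 𝓕 x H 0) - (fp - f0)| ≤
      |gA P 𝓕 x H V y - fp| + |eE P (A P 𝓕 x H 0) - f0| := by
    have : gA P 𝓕 x H V y - eE P (A P 𝓕 x H 0) - (fp - f0) =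
      (gA P 𝓕 x H V y - fp) - (eE P (A P 𝓕 x H 0) - f0) := by ring
    rw [this]; exact abs_sub _ _
  have t2 : |gA P 𝓕 x H V (-y) - eE P (A P 𝓕 x H 0) - (fm - f0)| ≤
      |gA P 𝓕 x H V (-y) - fm| + |eE P (A P 𝓕 x H 0) - f0| := by
    have : gA P 𝓕 x H V (-y) - eE P (A P 𝓕 x H 0) - (fm - f0) =
      (gA P 𝓕 x H V (-y) - fm) - (eE P (A P 𝓕 x H 0) - f0) := by ring
    rw [this]; exact abs_sub _ _
  linarith

/-- the centre condition, pointwise: mean of `V` under the tilted law against differences. -/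
theorem gA_sub_pt (hP : IsProb P) (hx : ∀ k, 0 < x k) (hF0 : 𝓕.F 0 = ⊤) (H V : Ω → ℝ) (y : ℝ) :
    y * eE (tl P 𝓕 x H) V ≤ gA P 𝓕 x H V y - eE P (A P 𝓕 x H 0) := by
  have hQ := tl_isProb (𝓕 := 𝓕) hP hx H
  rw [← gA_diff hP hx hF0, ← eE_smul]
  exact eE_le_A0 hQ hx _

end

end Crest.Agent.R164.ObsConc
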