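import Crest.Agent.R164.Exp248

/-!
Row 164 (helper552): generalised pressures (restricted configurations, extra weight).
-/

set_option autoImplicit false

namespace Crest.Agent.R164.Mag

open MeasureTheory Set Filter Topology
open Crest.ProbabilityR.InvariantGlass
open Crest.Agent.Lib.OrthPoinc

/-- quadratic part of the exponent -/
noncomputable def qd {N : ℕ} (eig : Fin N → ℝ) (U : Matrix (Fin N) (Fin N) ℝ)
    (σ : Fin N → Bool) : ℝ :=
  (1 / 2) * (∑ i : Fin N, eig i * (U.mulVec (spinVec σ) i) ^ 2)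

/-- generalised partition function: configurations in `A`, extra log-weight `V` -/
noncomputable def ZG {N : ℕ} (eig : Fin N → ℝ) (U : Matrix (Fin N) (Fin N) ℝ)
    (A : Finset (Fin N → Bool)) (V : (Fin N → Bool) → ℝ) : ℝ :=
  (1 / 2) ^ N * ∑ σ ∈ A, Real.exp (qd eig U σ + V σ)

/-- generalised pressure: configurations in `A`, extra log-weight `V` -/
noncomputable def pressG {N : ℕ} (eig : Fin N → ℝ) (U : Matrix (Fin N) (Fin N) ℝ)
    (A : Finset (Fin N → Bool)) (V : (Fin N → Bool) → ℝ) : ℝ :=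
  (1 / (N : ℝ)) * Real.log (ZG eig U A V)

theorem pressG_univ {N : ℕ} (eig : Fin N → ℝ) (U : Matrix (Fin N) (Fin N) ℝ) (c : Fin N → ℝ) :
    pressG eig U Finset.univ (fun σ => ∑ r : Fin N, c r * spinVec σ r) =
      pressureFieldN eig U c := rfl

theorem ZG_pos {N : ℕ} (eig : Fin N → ℝ) (U : Matrix (Fin N) (Fin N) ℝ)
    {A : Finset (Fin N → Bool)} (hA : A.Nonempty) (V : (Fin N → Bool) → ℝ) :
    0 < ZG eig U A V :=
  mul_pos (by positivity) (Finset.sum_pos (fun _ _ => Real.exp_pos _) hA)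

theorem spin_sq_sum {N : ℕ} (σ : Fin N → Bool) : ∑ r, spinVec σ r ^ 2 = N := by
  have h3 : ∀ r, spinVec σ r ^ 2 = 1 := fun r => by
    rw [← sq_abs, abs_spinVec, one_pow]
  simp [h3]

theorem abs_qd_le {N : ℕ} {eig : Fin N → ℝ} {Λ : ℝ} (hΛ : ∀ i, |eig i| ≤ Λ)
    {U : Matrix (Fin N) (Fin N) ℝ} (hU : U ∈ Matrix.orthogonalGroup (Fin N) ℝ)
    (σ : Fin N → Bool) : |qd eig U σ| ≤ Λ / 2 * N := by
  unfold qd
  rw [abs_mul, abs_of_pos (by norm_num : (0 : ℝ) < 1 / 2)]
  have h1 : |∑ i : Fin N, eig i * (U.mulVec (spinVec σ) i) ^ 2| ≤ Λ * N := by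
    refine (Finset.abs_sum_le_sum_abs _ _).trans ?_
    calc ∑ i, |eig i * (U.mulVec (spinVec σ) i) ^ 2| ≤
        ∑ i, Λ * (U.mulVec (spinVec σ) i) ^ 2 := by
          refine Finset.sum_le_sum fun i _ => ?_
          rw [abs_mul, abs_of_nonneg (sq_nonneg (U.mulVec (spinVec σ) i))]
          exact mul_le_mul_of_nonneg_right (hΛ i) (sq_nonneg _)
      _ = Λ * N := by rw [← Finset.mul_sum, sq_sum_mulVec hU, spin_sq_sum]
  linarith

/-- monotonicity in the set and in the extra weight -/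
theorem pressG_mono {N : ℕ} {eig : Fin N → ℝ} {U : Matrix (Fin N) (Fin N) ℝ}
    {A A' : Finset (Fin N → Bool)} (hA : A.Nonempty) (hAA : A ⊆ A') {V V' : (Fin N → Bool) → ℝ}
    {d : ℝ} (hd : 0 ≤ d) (hV : ∀ σ ∈ A, V σ ≤ V' σ + d * N) :
    pressG eig U A V ≤ pressG eig U A' V' + d := by
  rcases Nat.eq_zero_or_pos N with h0 | h0
  · subst h0
    simp only [pressG, Nat.cast_zero, div_zero, zero_mul, zero_add]
    exact hd
  have hN : (0:ℝ) < N := by exact_mod_cast h0
  have h1 : ZG eig U A V ≤ Real.exp (d * N) * ZG eig U A' V' := by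
    unfold ZG
    rw [← mul_left_comm]
    refine mul_le_mul_of_nonneg_left ?_ (by positivity)
    calc ∑ σ ∈ A, Real.exp (qd eig U σ + V σ) ≤
        ∑ σ ∈ A, Real.exp (d * N) * Real.exp (qd eig U σ + V' σ) := by
          refine Finset.sum_le_sum fun σ hσ => ?_
          rw [← Real.exp_add]
          exact Real.exp_le_exp.2 (by linarith [hV σ hσ])
      _ = Real.exp (d * N) * ∑ σ ∈ A, Real.exp (qd eig U σ + V' σ) := by rw [Finset.mul_sum]
      _ ≤ _ := mul_le_mul_of_nonneg_left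
          (Finset.sum_le_sum_of_subset_of_nonneg hAA fun _ _ _ => (Real.exp_pos _).le)
          (Real.exp_pos _).le
  have h2 := Real.log_le_log (ZG_pos eig U hA V) h1
  rw [Real.log_mul (Real.exp_pos _).ne' (ZG_pos eig U (hA.mono hAA) V').ne', Real.log_exp] at h2
  have h3 := mul_le_mul_of_nonneg_left h2 (by positivity : (0:ℝ) ≤ 1 / (N:ℝ))
  rw [mul_add] at h3
  have e : 1 / (N:ℝ) * (d * N) = d := by field_simp
  rw [e] at h3
  unfold pressG
  linarith

theorem abs_pressG_le {N : ℕ} {eig : Fin N → ℝ} {Λ : ℝ} (hΛ : ∀ i, |eig i| ≤ Λ) (hΛ0 : 0 ≤ Λ)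
    {U : Matrix (Fin N) (Fin N) ℝ} (hU : U ∈ Matrix.orthogonalGroup (Fin N) ℝ)
    {A : Finset (Fin N → Bool)} (hA : A.Nonempty) {V : (Fin N → Bool) → ℝ} {C : ℝ} (hC : 0 ≤ C)
    (hV : ∀ σ ∈ A, |V σ| ≤ C * N) : |pressG eig U A V| ≤ Λ / 2 + C + Real.log 2 := by
  have hl2 : 0 < Real.log 2 := Real.log_pos (by norm_num)
  rcases Nat.eq_zero_or_pos N with h0 | h0
  · subst h0
    simp only [pressG, Nat.cast_zero, div_zero, zero_mul, abs_zero]
    linarith
  have hN : (0:ℝ) < N := by exact_mod_cast h0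
  set B := (Λ / 2 + C) * N with hB
  have hterm : ∀ σ ∈ A, |qd eig U σ + V σ| ≤ B := fun σ hσ => by
    have := abs_qd_le hΛ hU σ
    have := hV σ hσ
    refine (abs_add_le _ _).trans ?_
    rw [hB]; linarith
  have hZ := ZG_pos eig U hA V
  have hup : ZG eig U A V ≤ Real.exp B := by
    unfold ZG
    calc (1 / 2 : ℝ) ^ N * ∑ σ ∈ A, Real.exp (qd eig U σ + V σ) ≤
        (1 / 2 : ℝ) ^ N * ∑ _σ : Fin N → Bool, Real.exp B := by
          refine mul_le_mul_of_nonneg_left ?_ (by positivity)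
          refine (Finset.sum_le_sum fun σ hσ =>
            Real.exp_le_exp.2 (abs_le.1 (hterm σ hσ)).2).trans ?_
          exact Finset.sum_le_sum_of_subset_of_nonneg (Finset.subset_univ _)
            fun _ _ _ => (Real.exp_pos _).le
      _ = Real.exp B := by
          rw [Finset.sum_const, Finset.card_univ, Fintype.card_fun, Fintype.card_bool,
            Fintype.card_fin, nsmul_eq_mul, ← mul_assoc]
          push_cast
          rw [← mul_pow]; norm_num
  have hlo : (1 / 2 : ℝ) ^ N * Real.exp (-B) ≤ ZG eig U A V := by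
    unfold ZG
    refine mul_le_mul_of_nonneg_left ?_ (by positivity)
    obtain ⟨σ, hσ⟩ := hA
    refine (Real.exp_le_exp.2 (abs_le.1 (hterm σ hσ)).1).trans ?_
    exact Finset.single_le_sum (f := fun σ => Real.exp (qd eig U σ + V σ))
      (fun _ _ => (Real.exp_pos _).le) hσ
  have h1 := Real.log_le_log hZ hup
  have h2 := Real.log_le_log (by positivity) hlo
  rw [Real.log_mul (by positivity) (Real.exp_pos _).ne', Real.log_exp, Real.log_pow] at h2
  rw [Real.log_exp] at h1
  have h3 : Real.log (1 / 2) = - Real.log 2 := by rw [one_div, Real.log_inv]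
  rw [h3] at h2
  unfold pressG
  have e1 : (1 / (N:ℝ)) * B = Λ / 2 + C := by rw [hB]; field_simp
  have h1' := mul_le_mul_of_nonneg_left h1 (by positivity : (0:ℝ) ≤ 1 / (N:ℝ))
  have h2' := mul_le_mul_of_nonneg_left h2 (by positivity : (0:ℝ) ≤ 1 / (N:ℝ))
  have e2 : (1 / (N:ℝ)) * ((N:ℝ) * - Real.log 2 + - B) = - Real.log 2 - (Λ / 2 + C) := by
    rw [hB]; field_simp; ring
  rw [e2] at h2'
  rw [e1] at h1'
  rw [abs_le]
  constructor <;> linarith

theorem measurable_pressG {Ω : Type*} [MeasurableSpace Ω] {N : ℕ} (eig : Fin N → ℝ)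
    {W : Ω → (Fin N → Fin N → ℝ)} (hW : Measurable W) (A : Finset (Fin N → Bool))
    (V : (Fin N → Bool) → ℝ) :
    Measurable (fun ω => pressG eig (Matrix.of (W ω)) A V) := by
  unfold pressG ZG qd
  refine measurable_const.mul (Real.measurable_log.comp (measurable_const.mul ?_))
  refine Finset.measurable_sum _ fun σ _ => ?_
  refine Real.measurable_exp.comp (Measurable.add_const (measurable_const.mul ?_) _)
  refine Finset.measurable_sum _ fun i _ => measurable_const.mul ?_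
  have : Measurable (fun ω => (Matrix.of (W ω)).mulVec (spinVec σ) i) := by
    unfold Matrix.mulVec dotProduct
    refine Finset.measurable_sum _ fun j _ => Measurable.mul_const ?_ _
    exact (measurable_pi_apply j).comp ((measurable_pi_apply i).comp hW)
  exact this.pow_const 2

theorem integrable_pressG {Ω : Type*} [MeasurableSpace Ω] (P : Measure Ω)
    [IsProbabilityMeasure P] {N : ℕ} (eig : Fin N → ℝ)
    {W : Ω → (Fin N → Fin N → ℝ)} (hW : Measurable W)
    (horth : ∀ᵐ ω ∂P, Matrix.of (W ω) ∈ Matrix.orthogonalGroup (Fin N) ℝ)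
    {A : Finset (Fin N → Bool)} (hA : A.Nonempty) (V : (Fin N → Bool) → ℝ) :
    Integrable (fun ω => pressG eig (Matrix.of (W ω)) A V) P := by
  set Λ := ∑ i, |eig i| with hΛ
  have h1 : ∀ i, |eig i| ≤ Λ := fun i =>
    Finset.single_le_sum (f := fun i => |eig i|) (fun _ _ => abs_nonneg _) (Finset.mem_univ i)
  have h0 : 0 ≤ Λ := Finset.sum_nonneg fun _ _ => abs_nonneg _
  rcases Nat.eq_zero_or_pos N with hN | hN
  · subst hN
    have : (fun ω => pressG eig (Matrix.of (W ω)) A V) = fun _ => 0 := by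
      funext ω; simp [pressG]
    rw [this]
    exact integrable_zero _ _ _
  have hN' : (1:ℝ) ≤ N := by exact_mod_cast hN
  set C := ∑ σ : Fin N → Bool, |V σ| with hC
  have hC0 : 0 ≤ C := Finset.sum_nonneg fun _ _ => abs_nonneg _
  have h2 : ∀ σ ∈ A, |V σ| ≤ C * N := fun σ _ => by
    have : |V σ| ≤ C :=
      Finset.single_le_sum (f := fun σ => |V σ|) (fun _ _ => abs_nonneg _) (Finset.mem_univ σ)
    nlinarith
  refine Integrable.of_bound (measurable_pressG eig hW A V).aestronglyMeasurable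
    (Λ / 2 + C + Real.log 2) ?_
  filter_upwards [horth] with ω hω
  rw [Real.norm_eq_abs]
  exact abs_pressG_le h1 h0 hω hA hC0 h2

/-! ### Concentration -/

section conc

variable {n : ℕ}

noncomputable def vPoly (eig : Fin n → ℝ) (V : (Fin n → Bool) → ℝ) (σ : Fin n → Bool) :
    PolyM n :=
  AsConc.qPoly eig 0 σ + MvPolynomial.C (V σ)

theorem ev_vPoly (eig : Fin n → ℝ) (V : (Fin n → Bool) → ℝ) (σ : Fin n → Bool) (U : Mat n) :
    ev (vPoly eig V σ) U = qd eig (Matrix.of U) σ + V σ := by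
  rw [vPoly, ev_add, ev_C, AsConc.ev_qPoly]
  simp [qd]

theorem energy_vPoly {eig : Fin n → ℝ} {Λ : ℝ} (hΛ : ∀ i, |eig i| ≤ Λ)
    (V : (Fin n → Bool) → ℝ) (σ : Fin n → Bool) {U : Mat n}
    (hU : Matrix.of U ∈ Matrix.specialOrthogonalGroup (Fin n) ℝ) :
    ∑ i, ∑ j, (ev (Xd i j (vPoly eig V σ)) U) ^ 2 ≤ 2 * Λ ^ 2 * (n : ℝ) ^ 2 := by
  have h : ∀ i j, Xd i j (vPoly eig V σ) = Xd i j (AsConc.qPoly eig 0 σ) := fun i j => by
    rw [vPoly, map_add, MvPolynomial.derivation_C, add_zero]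
  simp only [h]
  exact AsConc.energy_qPoly hΛ 0 σ hU

/-- derivative data -/
noncomputable def DG (eig : Fin n → ℝ) (A : Finset (Fin n → Bool)) (V : (Fin n → Bool) → ℝ)
    (i j : Fin n) (U : Mat n) : ℝ :=
  (1 / (n : ℝ)) * ((∑ σ : A, Real.exp (ev (vPoly eig V σ) U) *
    ev (Xd i j (vPoly eig V σ)) U) / ∑ σ : A, Real.exp (ev (vPoly eig V σ) U))

theorem pressG_eq (hn : 0 < n) (eig : Fin n → ℝ) {A : Finset (Fin n → Bool)} (hA : A.Nonempty)
    (V : (Fin n → Bool) → ℝ) (U : Mat n) :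
    pressG eig (Matrix.of U) A V = (1 / (n : ℝ)) * (n * Real.log (1 / 2)) +
      (1 / (n : ℝ)) * Real.log (∑ σ : A, Real.exp (ev (vPoly eig V σ) U)) := by
  unfold pressG ZG
  rw [← mul_add]
  congr 1
  have hpos : 0 < ∑ σ ∈ A, Real.exp (qd eig (Matrix.of U) σ + V σ) :=
    Finset.sum_pos (fun s _ => Real.exp_pos _) hA
  rw [Real.log_mul (by positivity) hpos.ne', Real.log_pow]
  congr 2
  rw [← Finset.sum_coe_sort A]
  simp only [ev_vPoly]

theorem C1cl_pressG (hn : 0 < n) (eig : Fin n → ℝ) {A : Finset (Fin n → Bool)}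
    (hA : A.Nonempty) (V : (Fin n → Bool) → ℝ) :
    C1cl (fun U : Mat n => pressG eig (Matrix.of U) A V) (fun i j U => DG eig A V i j U) := by
  haveI : Nonempty A := hA.to_subtype
  have h1 := C1cl.lse (S := A) (fun σ => C1cl.poly (vPoly eig V σ))
  have h2 := (C1cl.const (n := n) ((1 / (n : ℝ)) * (n * Real.log (1 / 2)))).add
    (h1.const_mul (1 / (n : ℝ)))
  refine h2.congr (fun U _ => (pressG_eq hn eig hA V U).symm) (fun U _ i j => ?_)
  rw [zero_add]
  rfl

theorem energy_pressG (hn : 0 < n) {eig : Fin n → ℝ} {Λ : ℝ} (hΛ : ∀ i, |eig i| ≤ Λ)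
    {A : Finset (Fin n → Bool)} (hA : A.Nonempty) (V : (Fin n → Bool) → ℝ) {U : Mat n}
    (hU : Matrix.of U ∈ Matrix.specialOrthogonalGroup (Fin n) ℝ) :
    ∑ i, ∑ j, (DG eig A V i j U) ^ 2 ≤ 2 * Λ ^ 2 := by
  haveI : Nonempty A := hA.to_subtype
  have h := lse_energy (S := A) (fun σ => ev (vPoly eig V σ) U)
    (fun σ i j => ev (Xd i j (vPoly eig V σ)) U) (2 * Λ ^ 2 * (n : ℝ) ^ 2)
    (fun σ => energy_vPoly hΛ V σ hU)
  have hn' : (0 : ℝ) < n := by exact_mod_cast hn
  simp only [DG, mul_pow, ← Finset.mul_sum]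
  calc (1 / (n : ℝ)) ^ 2 * _ ≤ (1 / (n : ℝ)) ^ 2 * (2 * Λ ^ 2 * (n : ℝ) ^ 2) := by gcongr
    _ = 2 * Λ ^ 2 := by field_simp

theorem pressG_flip (eig : Fin n → ℝ) (A : Finset (Fin n → Bool)) (V : (Fin n → Bool) → ℝ)
    (U : Mat n) :
    pressG eig (Matrix.of (flipR U)) A V = pressG eig (Matrix.of U) A V := by
  unfold pressG ZG qd
  have h : ∀ (σ : Fin n → Bool) (i : Fin n), ((Matrix.of (flipR U)).mulVec (spinVec σ) i) ^ 2 =
      ((Matrix.of U).mulVec (spinVec σ) i) ^ 2 := by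
    intro σ i
    simp only [Matrix.mulVec, dotProduct, Matrix.of_apply, flipR]
    split_ifs
    · simp only [neg_mul, Finset.sum_neg_distrib, neg_sq]
    · rfl
  simp only [h]

theorem pressG_toSO (eig : Fin n → ℝ) (A : Finset (Fin n → Bool)) (V : (Fin n → Bool) → ℝ)
    (U : Mat n) :
    pressG eig (Matrix.of (toSO U)) A V = pressG eig (Matrix.of U) A V := by
  unfold toSO
  split_ifs
  · rfl
  · exact pressG_flip eig A V U

variable {Ω : Type*} [MeasurableSpace Ω] {P : Measure Ω} [IsProbabilityMeasure P]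
variable {W : Ω → (Fin n → Fin n → ℝ)} (hW : Measurable W)
  (horth : ∀ᵐ ω ∂P, Matrix.of (W ω) ∈ Matrix.orthogonalGroup (Fin n) ℝ)
  (hHaar : ∀ O : Matrix (Fin n) (Fin n) ℝ, O ∈ Matrix.orthogonalGroup (Fin n) ℝ →
      P.map (fun ω => fun i j => (Matrix.of (W ω) * O) i j) = P.map W)
include hW horth hHaar

theorem integral_transferG (hn : 0 < n) (eig : Fin n → ℝ) (A : Finset (Fin n → Bool))
    (V : (Fin n → Bool) → ℝ) (g : ℝ → ℝ) (hg : Continuous g) :
    ∫ ω, g (pressG eig (Matrix.of (W ω)) A V) ∂P =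
      ∫ U, g (pressG eig (Matrix.of U) A V) ∂((P.map W).map toSO) := by
  have hmeas : Measurable fun U : Mat n => g (pressG eig (Matrix.of U) A V) :=
    hg.measurable.comp (measurable_pressG eig measurable_id A V)
  rw [integral_map measurable_toSO.aemeasurable hmeas.aestronglyMeasurable]
  simp only [pressG_toSO]
  rw [integral_map hW.aemeasurable hmeas.aestronglyMeasurable]

theorem variance_leG (hn : 2 < n) {eig : Fin n → ℝ} {Λ : ℝ} (hΛ : ∀ i, |eig i| ≤ Λ)
    {A : Finset (Fin n → Bool)} (hA : A.Nonempty) (V : (Fin n → Bool) → ℝ) :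
    ∫ ω, (pressG eig (Matrix.of (W ω)) A V -
      ∫ ω', pressG eig (Matrix.of (W ω')) A V ∂P) ^ 2 ∂P ≤ 2 * Λ ^ 2 / ((n : ℝ) - 2) := by
  have hn0 : 0 < n := by omega
  have hO := AsConc.oInv_of_haar hW horth hHaar
  have hSO := hO.toSOInv hn0
  haveI : IsProbabilityMeasure (P.map W) := Measure.isProbabilityMeasure_map hW.aemeasurable
  haveI : IsProbabilityMeasure ((P.map W).map toSO) :=
    Measure.isProbabilityMeasure_map measurable_toSO.aemeasurable
  have hmean := integral_transferG hW horth hHaar hn0 eig A V id continuous_id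
  simp only [id] at hmean
  rw [hmean, integral_transferG hW horth hHaar hn0 eig A V
    (fun x => (x - ∫ U, pressG eig (Matrix.of U) A V ∂((P.map W).map toSO)) ^ 2)
    (by fun_prop)]
  refine (C1cl_pressG hn0 eig hA V).variance_le hSO hn (2 * Λ ^ 2) ?_
  filter_upwards [hSO.mem] with U hU
  exact energy_pressG hn0 hΛ hA V hU

/-- first absolute moment -/
theorem abs_dev_leG (hn : 2 < n) {eig : Fin n → ℝ} {Λ : ℝ} (hΛ : ∀ i, |eig i| ≤ Λ)
    {A : Finset (Fin n → Bool)} (hA : A.Nonempty) (V : (Fin n → Bool) → ℝ) :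
    ∫ ω, |pressG eig (Matrix.of (W ω)) A V -
      ∫ ω', pressG eig (Matrix.of (W ω')) A V ∂P| ∂P ≤
      Real.sqrt (2 * Λ ^ 2 / ((n : ℝ) - 2)) := by
  set m := ∫ ω', pressG eig (Matrix.of (W ω')) A V ∂P with hm
  have hn' : (0:ℝ) < (n:ℝ) - 2 := by
    have : (2:ℝ) < n := by exact_mod_cast hn
    linarith
  have hint := integrable_pressG P eig hW horth hA V
  have hv := variance_leG hW horth hHaar hn hΛ hA V
  rw [← hm] at hv
  set v := 2 * Λ ^ 2 / ((n : ℝ) - 2) with hvd
  have hv0 : 0 ≤ v := by positivity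
  have hmd : Integrable (fun ω => pressG eig (Matrix.of (W ω)) A V - m) P :=
    hint.sub (integrable_const _)
  rcases Nat.eq_zero_or_pos n with h0 | h0
  · omega
  -- boundedness for square integrability
  have hsq : Integrable (fun ω => (pressG eig (Matrix.of (W ω)) A V - m) ^ 2) P := by
    set Λ' := ∑ i, |eig i| with hΛ'
    have h1 : ∀ i, |eig i| ≤ Λ' := fun i =>
      Finset.single_le_sum (f := fun i => |eig i|) (fun _ _ => abs_nonneg _) (Finset.mem_univ i)
    have h0' : 0 ≤ Λ' := Finset.sum_nonneg fun _ _ => abs_nonneg _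
    have hN' : (1:ℝ) ≤ n := by exact_mod_cast h0
    set C := ∑ σ : Fin n → Bool, |V σ| with hC
    have hC0 : 0 ≤ C := Finset.sum_nonneg fun _ _ => abs_nonneg _
    have h2 : ∀ σ ∈ A, |V σ| ≤ C * n := fun σ _ => by
      have : |V σ| ≤ C :=
        Finset.single_le_sum (f := fun σ => |V σ|) (fun _ _ => abs_nonneg _) (Finset.mem_univ σ)
      nlinarith
    refine Integrable.of_bound
      (((measurable_pressG eig hW A V).sub_const m).pow_const 2).aestronglyMeasurable
      ((Λ' / 2 + C + Real.log 2 + |m|) ^ 2) ?_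
    filter_upwards [horth] with ω hω
    rw [Real.norm_eq_abs, abs_pow]
    refine pow_le_pow_left₀ (abs_nonneg _) ?_ 2
    refine (abs_sub _ _).trans ?_
    have := abs_pressG_le h1 h0' hω hA hC0 h2
    linarith
  rcases hv0.eq_or_lt with hz | hpos
  · -- zero variance
    have h3 : ∫ ω, (pressG eig (Matrix.of (W ω)) A V - m) ^ 2 ∂P = 0 :=
      le_antisymm (by rw [hz]; exact hv) (integral_nonneg fun _ => sq_nonneg _)
    have h4 := (integral_eq_zero_iff_of_nonneg (fun _ => sq_nonneg _) hsq).1 h3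
    have h5 : ∫ ω, |pressG eig (Matrix.of (W ω)) A V - m| ∂P = 0 := by
      rw [integral_eq_zero_of_ae]
      filter_upwards [h4] with ω hω
      have : (pressG eig (Matrix.of (W ω)) A V - m) ^ 2 = 0 := hω
      rw [sq_eq_zero_iff] at this
      simp [this]
    rw [h5]; exact Real.sqrt_nonneg _
  · set s := Real.sqrt v with hs
    have hs0 : 0 < s := Real.sqrt_pos.2 hpos
    have hss : s * s = v := Real.mul_self_sqrt hv0
    have h6 : ∀ x : ℝ, |x| ≤ (x ^ 2 / s + s) / 2 := by
      intro x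
      have h7 : 0 ≤ (|x| - s) ^ 2 / s := by positivity
      have h8 : (|x| - s) ^ 2 / s = x ^ 2 / s - 2 * |x| + s := by
        have : |x| ^ 2 = x ^ 2 := sq_abs x
        field_simp
        nlinarith
      linarith
    calc ∫ ω, |pressG eig (Matrix.of (W ω)) A V - m| ∂P ≤
        ∫ ω, ((pressG eig (Matrix.of (W ω)) A V - m) ^ 2 / s + s) / 2 ∂P := by
          refine integral_mono hmd.abs (((hsq.div_const s).add (integrable_const _)).div_const 2) ?_
          intro ω; exact h6 _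
      _ = ((∫ ω, (pressG eig (Matrix.of (W ω)) A V - m) ^ 2 ∂P) / s + s) / 2 := by
          rw [integral_div, integral_add (hsq.div_const s) (integrable_const _), integral_div]
          simp
      _ ≤ (v / s + s) / 2 := by
          have := div_le_div_of_nonneg_right hv hs0.le
          linarith
      _ = s := by rw [← hss]; field_simp; ring

end conc

end Crest.Agent.R164.Mag
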