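import Crest.Agent.R164.GCoin
import Crest.Agent.R164.Mag0

/-!
Row 164 (helper552): the finite base system with Rademacher-sum fields.

Base configurations: a spin configuration in the set `A`, the coins of the main fields, the coins of
the small fields.  The coins of cell `g` are revealed at step `p.mt g`, the spins at step `p.L`.
Every field is `z = n^{-1/2} * (sum of n signs)`; `n` is a parameter.
-/

set_option autoImplicit false

namespace Crest.Agent.R164.SY

open Finset Crest.Agent.R141 Crest.Agent.R164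

noncomputable section

/-- field coins -/
abbrev FC (p : Par) (N n : ℕ) : Type := Fin p.nc → Fin N → Fin n → Bool

/-- base configurations: spins, main coins, small coins -/
abbrev SS (p : Par) {N : ℕ} (n : ℕ) (A : Finset (Fin N → Bool)) : Type :=
  {σ : Fin N → Bool // σ ∈ A} × FC p N n × FC p N n

variable {p : Par} {N n : ℕ} {A : Finset (Fin N → Bool)}

/-- the field of cell `g` at site `i` -/
def zf (c : FC p N n) (g : Fin p.nc) (i : Fin N) : ℝ :=
  (Real.sqrt n)⁻¹ * ∑ t : Fin n, sv (c g i t)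

/-- agreement of all base coordinates revealed at steps `≤ k` -/
def srel (k : ℕ) (s s' : SS p n A) : Prop :=
  (∀ g : Fin p.nc, p.mt g ≤ k → s.2.1 g = s'.2.1 g) ∧
  (∀ g : Fin p.nc, p.mt g ≤ k → s.2.2 g = s'.2.2 g) ∧
  (p.L ≤ k → s.1 = s'.1)

theorem srel_equiv (k : ℕ) : Equivalence (srel (p := p) (n := n) (A := A) k) where
  refl _ := ⟨fun _ _ => rfl, fun _ _ => rfl, fun _ => rfl⟩
  symm h := ⟨fun g hg => (h.1 g hg).symm, fun g hg => (h.2.1 g hg).symm,
    fun hL => (h.2.2 hL).symm⟩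
  trans h h' := ⟨fun g hg => (h.1 g hg).trans (h'.1 g hg),
    fun g hg => (h.2.1 g hg).trans (h'.2.1 g hg), fun hL => (h.2.2 hL).trans (h'.2.2 hL)⟩

/-- the base filtration -/
def sfil (p : Par) {N : ℕ} (n : ℕ) (A : Finset (Fin N → Bool)) (k : ℕ) : Setoid (SS p n A) :=
  ⟨srel k, srel_equiv k⟩

theorem SS_nonempty (p : Par) {N : ℕ} (n : ℕ) {A : Finset (Fin N → Bool)} (hA : A.Nonempty) :
    Nonempty (SS p n A) :=
  ⟨(⟨hA.choose, hA.choose_spec⟩, fun _ _ _ => true, fun _ _ _ => true)⟩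

/-- the base system -/
def base (p : Par) {N : ℕ} (n : ℕ) (A : Finset (Fin N → Bool)) (hA : A.Nonempty) :
    G.Base p N where
  S := SS p n A
  fS := inferInstance
  nS := SS_nonempty p n hA
  q := fun _ => (Fintype.card (SS p n A) : ℝ)⁻¹
  hq := by
    haveI := SS_nonempty p n hA
    have h : (0 : ℝ) < (Fintype.card (SS p n A) : ℝ) := by exact_mod_cast Fintype.card_pos
    constructor
    · intro _; exact inv_pos.2 h
    · simp only [Finset.sum_const, Finset.card_univ, nsmul_eq_mul]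
      exact mul_inv_cancel₀ h.ne'
  SF := sfil p n A
  anti k := by
    intro s s' h
    have h : srel (k + 1) s s' := h
    exact ⟨fun g hg => h.1 g (by omega), fun g hg => h.2.1 g (by omega),
      fun hL => h.2.2 (by omega)⟩
  bot k hk := by
    ext s s'
    constructor
    · intro h
      have h : srel k s s' := h
      have h1 : s.1 = s'.1 := h.2.2 hk
      have h2 : s.2.1 = s'.2.1 := by
        funext g
        exact h.1 g (((p.mt_lt_L g.2).le).trans hk)
      have h3 : s.2.2 = s'.2.2 := by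
        funext g
        exact h.2.1 g (((p.mt_lt_L g.2).le).trans hk)
      exact Prod.ext h1 (Prod.ext h2 h3)
    · intro h
      have h : s = s' := h
      subst h
      exact (srel_equiv k).refl s
  f i s := sv (s.1.1 i)
  hf i s := (sv_abs _).le

variable (hA : A.Nonempty)

theorem base_SF (k : ℕ) : (base p n A hA).SF k = sfil p n A k := rfl

theorem sfil_iff {k : ℕ} {s s' : SS p n A} : sfil p n A k s s' ↔ srel k s s' := Iff.rfl

theorem mt_pos (g : ℕ) : 0 < p.mt g := by unfold Par.mt; positivity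

theorem L_pos : 0 < p.L := by unfold Par.L; omega

theorem base_SF_zero : (base p n A hA).SF 0 = ⊤ := by
  ext s s'
  constructor
  · intro _; trivial
  · intro _
    refine ⟨fun g hg => ?_, fun g hg => ?_, fun hL => ?_⟩
    · have := mt_pos (p := p) (g : ℕ); omega
    · have := mt_pos (p := p) (g : ℕ); omega
    · have := L_pos (p := p); omega

theorem fil_zero : (G.fil (base p n A hA)).F 0 = ⊤ := G.fil_zero _ (base_SF_zero hA)

/-- The Hamiltonian: `h0` arbitrary (quadratic part, penalty, linear terms), main fields of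
strengths `a g`, small fields of strengths `lam i g` acting on `x`. -/
def HH (h0 : (Fin N → Bool) → ℝ) (a : Fin p.nc → ℝ) (lam : Fin N → Fin p.nc → ℝ)
    (x : (Fin N → Bool) → Fin N → ℝ) (s : SS p n A) : ℝ :=
  h0 s.1.1 + (∑ g, a g * ∑ i, zf s.2.1 g i * sv (s.1.1 i)) +
    ∑ g, ∑ i, lam i g * (zf s.2.2 g i * x s.1.1 i)

/-! ### Coins -/

/-- flip of a coin -/
def cupd (c : FC p N n) (g : Fin p.nc) (i : Fin N) (t : Fin n) : FC p N n :=
  fun g' i' t' => if g' = g ∧ i' = i ∧ t' = t then !(c g' i' t') else c g' i' t'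

theorem cupd_cupd (c : FC p N n) (g : Fin p.nc) (i : Fin N) (t : Fin n) :
    cupd (cupd c g i t) g i t = c := by
  funext g' i' t'
  unfold cupd
  split_ifs <;> simp

theorem cupd_self (c : FC p N n) (g : Fin p.nc) (i : Fin N) (t : Fin n) :
    cupd c g i t g i t = !(c g i t) := by
  unfold cupd; simp

theorem cupd_ne (c : FC p N n) {g g' : Fin p.nc} (h : g' ≠ g) (i : Fin N) (t : Fin n) :
    cupd c g i t g' = c g' := by
  funext i' t'
  unfold cupd
  rw [if_neg]
  intro hh; exact h hh.1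

theorem cupd_congr {c c' : FC p N n} {g' : Fin p.nc} (h : c g' = c' g') (g : Fin p.nc)
    (i : Fin N) (t : Fin n) : cupd c g i t g' = cupd c' g i t g' := by
  funext i' t'
  unfold cupd
  rw [h]

/-- the field of the cell `g` at site `i` after a flip -/
theorem zf_cupd (c : FC p N n) (g : Fin p.nc) (i : Fin N) (t : Fin n) (g' : Fin p.nc)
    (i' : Fin N) :
    zf (cupd c g i t) g' i' = zf c g' i' -
      if g' = g ∧ i' = i then 2 * (Real.sqrt n)⁻¹ * sv (c g i t) else 0 := by
  unfold zf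
  by_cases h : g' = g ∧ i' = i
  · obtain ⟨rfl, rfl⟩ := h
    rw [if_pos ⟨rfl, rfl⟩]
    have h1 : ∀ t', sv (cupd c g' i' t g' i' t') =
        sv (c g' i' t') - if t' = t then 2 * sv (c g' i' t) else 0 := by
      intro t'
      unfold cupd
      by_cases ht : t' = t
      · subst ht
        simp only [and_self, if_true]
        cases c g' i' t' <;> simp [sv] <;> norm_num
      · rw [if_neg (by tauto), if_neg ht, sub_zero]
    simp only [h1, Finset.sum_sub_distrib, Finset.sum_ite_eq', Finset.mem_univ, if_true]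
    ring
  · rw [if_neg h, sub_zero]
    congr 1
    refine Finset.sum_congr rfl fun t' _ => ?_
    unfold cupd
    rw [if_neg (by tauto)]

/-- flip of a main coin -/
def mflip (g : Fin p.nc) (i : Fin N) (t : Fin n) (ω : G.Om (base p n A hA)) :
    G.Om (base p n A hA) :=
  ((ω.1.1, cupd ω.1.2.1 g i t, ω.1.2.2), ω.2)

/-- flip of a small coin -/
def sflip (g : Fin p.nc) (i : Fin N) (t : Fin n) (ω : G.Om (base p n A hA)) :
    G.Om (base p n A hA) :=
  ((ω.1.1, ω.1.2.1, cupd ω.1.2.2 g i t), ω.2)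

/-- value of a main coin -/
def mval (g : Fin p.nc) (i : Fin N) (t : Fin n) (ω : G.Om (base p n A hA)) : ℝ :=
  if ω.1.2.1 g i t = true then 1 else 0

/-- value of a small coin -/
def sval (g : Fin p.nc) (i : Fin N) (t : Fin n) (ω : G.Om (base p n A hA)) : ℝ :=
  if ω.1.2.2 g i t = true then 1 else 0

theorem mt_inj {g g' : Fin p.nc} (h : p.mt g' ≤ p.mt g - 1) : g' ≠ g := by
  rintro rfl
  have := mt_pos (p := p) (g' : ℕ)
  omega

theorem mcoin (g : Fin p.nc) (i : Fin N) (t : Fin n) :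
    Coin (G.prior (base p n A hA)) (G.fil (base p n A hA)) (p.mt g) (mval hA g i t)
      (mflip hA g i t) where
  invol ω := by
    unfold mflip
    refine Prod.ext (Prod.ext rfl (Prod.ext ?_ rfl)) rfl
    exact cupd_cupd _ _ _ _
  P_flip ω := rfl
  s01 ω := by unfold mval; split_ifs <;> simp
  s_flip ω := by
    show (if cupd ω.1.2.1 g i t g i t = true then (1:ℝ) else 0) =
      1 - (if ω.1.2.1 g i t = true then (1:ℝ) else 0)
    rw [cupd_self]
    cases ω.1.2.1 g i t <;> simp
  s_meas := by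
    intro ω ω' h
    have h : G.frel (base p n A hA) _ ω ω' := h
    have h1 : ω.1.2.1 g = ω'.1.2.1 g := h.2.2.1 g le_rfl
    show (if ω.1.2.1 g i t = true then (1:ℝ) else 0) = (if ω'.1.2.1 g i t = true then (1:ℝ) else 0)
    rw [h1]
  flip_rel l _ a b h := by
    have h : G.frel (base p n A hA) l a b := h
    show G.frel (base p n A hA) l _ _
    refine ⟨h.1, h.2.1, ?_, ?_, ?_⟩
    · intro g' hg'
      exact cupd_congr (h.2.2.1 g' hg') g i t
    · intro g' hg'
      exact h.2.2.2.1 g' hg'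
    · exact h.2.2.2.2
  rel_flip ω := by
    show G.frel (base p n A hA) _ _ _
    refine ⟨fun _ _ _ _ => rfl, fun _ _ _ => rfl, ?_, fun _ _ => rfl, fun _ => rfl⟩
    intro g' hg'
    exact (cupd_ne _ (mt_inj hg') i t).symm

theorem scoin (g : Fin p.nc) (i : Fin N) (t : Fin n) :
    Coin (G.prior (base p n A hA)) (G.fil (base p n A hA)) (p.mt g) (sval hA g i t)
      (sflip hA g i t) where
  invol ω := by
    unfold sflip
    refine Prod.ext (Prod.ext rfl (Prod.ext rfl ?_)) rfl
    exact cupd_cupd _ _ _ _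
  P_flip ω := rfl
  s01 ω := by unfold sval; split_ifs <;> simp
  s_flip ω := by
    show (if cupd ω.1.2.2 g i t g i t = true then (1:ℝ) else 0) =
      1 - (if ω.1.2.2 g i t = true then (1:ℝ) else 0)
    rw [cupd_self]
    cases ω.1.2.2 g i t <;> simp
  s_meas := by
    intro ω ω' h
    have h : G.frel (base p n A hA) _ ω ω' := h
    have h1 : ω.1.2.2 g = ω'.1.2.2 g := h.2.2.2.1 g le_rfl
    show (if ω.1.2.2 g i t = true then (1:ℝ) else 0) = (if ω'.1.2.2 g i t = true then (1:ℝ) else 0)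
    rw [h1]
  flip_rel l _ a b h := by
    have h : G.frel (base p n A hA) l a b := h
    show G.frel (base p n A hA) l _ _
    refine ⟨h.1, h.2.1, ?_, ?_, ?_⟩
    · intro g' hg'
      exact h.2.2.1 g' hg'
    · intro g' hg'
      exact cupd_congr (h.2.2.2.1 g' hg') g i t
    · exact h.2.2.2.2
  rel_flip ω := by
    show G.frel (base p n A hA) _ _ _
    refine ⟨fun _ _ _ _ => rfl, fun _ _ _ => rfl, fun _ _ => rfl, ?_, fun _ => rfl⟩
    intro g' hg'
    exact (cupd_ne _ (mt_inj hg') i t).symm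

/-! ### The Hamiltonian under a flip -/

/-- the Hamiltonian after the flip of a main coin -/
theorem HH_mflip (h0 : (Fin N → Bool) → ℝ) (a : Fin p.nc → ℝ) (lam : Fin N → Fin p.nc → ℝ)
    (x : (Fin N → Bool) → Fin N → ℝ) (s : SS p n A) (g : Fin p.nc) (i : Fin N) (t : Fin n) :
    HH h0 a lam x (s.1, cupd s.2.1 g i t, s.2.2) =
      HH h0 a lam x s - 2 * ((Real.sqrt n)⁻¹ * a g) * sv (s.2.1 g i t) * sv (s.1.1 i) := by
  unfold HH
  simp only [zf_cupd, sub_mul, Finset.sum_sub_distrib, mul_sub]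
  have h1 : ∑ g', a g' * ∑ i', (if g' = g ∧ i' = i then
      2 * (Real.sqrt n)⁻¹ * sv (s.2.1 g i t) else 0) * sv (s.1.1 i') =
      2 * ((Real.sqrt n)⁻¹ * a g) * sv (s.2.1 g i t) * sv (s.1.1 i) := by
    rw [Finset.sum_eq_single g, Finset.sum_eq_single i]
    · rw [if_pos ⟨rfl, rfl⟩]; ring
    · intro i' _ hi; rw [if_neg (by tauto), zero_mul]
    · intro h; exact absurd (Finset.mem_univ _) h
    · intro g' _ hg
      have : ∀ i', (if g' = g ∧ i' = i then
        2 * (Real.sqrt n)⁻¹ * sv (s.2.1 g i t) else 0) * sv (s.1.1 i') = 0 := by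
        intro i'; rw [if_neg (by tauto), zero_mul]
      simp only [this, Finset.sum_const_zero, mul_zero]
    · intro h; exact absurd (Finset.mem_univ _) h
  rw [h1]
  ring

/-- the Hamiltonian after the flip of a small coin -/
theorem HH_sflip (h0 : (Fin N → Bool) → ℝ) (a : Fin p.nc → ℝ) (lam : Fin N → Fin p.nc → ℝ)
    (x : (Fin N → Bool) → Fin N → ℝ) (s : SS p n A) (g : Fin p.nc) (i : Fin N) (t : Fin n) :
    HH h0 a lam x (s.1, s.2.1, cupd s.2.2 g i t) =
      HH h0 a lam x s - 2 * ((Real.sqrt n)⁻¹ * lam i g) * sv (s.2.2 g i t) * x s.1.1 i := by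
  unfold HH
  simp only [zf_cupd, sub_mul, Finset.sum_sub_distrib, mul_sub]
  have h1 : ∑ g', ∑ i', lam i' g' * ((if g' = g ∧ i' = i then
      2 * (Real.sqrt n)⁻¹ * sv (s.2.2 g i t) else 0) * x s.1.1 i') =
      2 * ((Real.sqrt n)⁻¹ * lam i g) * sv (s.2.2 g i t) * x s.1.1 i := by
    rw [Finset.sum_eq_single g, Finset.sum_eq_single i]
    · rw [if_pos ⟨rfl, rfl⟩]; ring
    · intro i' _ hi; rw [if_neg (by tauto), zero_mul, mul_zero]
    · intro h; exact absurd (Finset.mem_univ _) h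
    · intro g' _ hg
      have : ∀ i', lam i' g' * ((if g' = g ∧ i' = i then
        2 * (Real.sqrt n)⁻¹ * sv (s.2.2 g i t) else 0) * x s.1.1 i') = 0 := by
        intro i'; rw [if_neg (by tauto), zero_mul, mul_zero]
      simp only [this, Finset.sum_const_zero]
    · intro h; exact absurd (Finset.mem_univ _) h
  rw [h1]
  ring

theorem sv_not (b : Bool) : sv (!b) = - sv b := by cases b <;> simp [sv]

/-- the part of the Hamiltonian which does not depend on the main coin `(g,i,t)` -/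
def HHm (h0 : (Fin N → Bool) → ℝ) (a : Fin p.nc → ℝ) (lam : Fin N → Fin p.nc → ℝ)
    (x : (Fin N → Bool) → Fin N → ℝ) (g : Fin p.nc) (i : Fin N) (t : Fin n) (s : SS p n A) : ℝ :=
  HH h0 a lam x s - ((Real.sqrt n)⁻¹ * a g) * sv (s.2.1 g i t) * sv (s.1.1 i)

theorem HHm_flip (h0 : (Fin N → Bool) → ℝ) (a : Fin p.nc → ℝ) (lam : Fin N → Fin p.nc → ℝ)
    (x : (Fin N → Bool) → Fin N → ℝ) (s : SS p n A) (g : Fin p.nc) (i : Fin N) (t : Fin n) :
    HHm h0 a lam x g i t (s.1, cupd s.2.1 g i t, s.2.2) = HHm h0 a lam x g i t s := by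
  unfold HHm
  rw [HH_mflip]
  simp only [cupd_self, sv_not]
  ring

/-- the part of the Hamiltonian which does not depend on the small coin `(g,i,t)` -/
def HHs (h0 : (Fin N → Bool) → ℝ) (a : Fin p.nc → ℝ) (lam : Fin N → Fin p.nc → ℝ)
    (x : (Fin N → Bool) → Fin N → ℝ) (g : Fin p.nc) (i : Fin N) (t : Fin n) (s : SS p n A) : ℝ :=
  HH h0 a lam x s - ((Real.sqrt n)⁻¹ * lam i g) * sv (s.2.2 g i t) * x s.1.1 i

theorem HHs_flip (h0 : (Fin N → Bool) → ℝ) (a : Fin p.nc → ℝ) (lam : Fin N → Fin p.nc → ℝ)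
    (x : (Fin N → Bool) → Fin N → ℝ) (s : SS p n A) (g : Fin p.nc) (i : Fin N) (t : Fin n) :
    HHs h0 a lam x g i t (s.1, s.2.1, cupd s.2.2 g i t) = HHs h0 a lam x g i t s := by
  unfold HHs
  rw [HH_sflip]
  simp only [cupd_self, sv_not]
  ring

/-- spin values -/
theorem sv_eq_spinVec (σ : Fin N → Bool) (i : Fin N) :
    sv (σ i) = Crest.ProbabilityR.InvariantGlass.spinVec σ i := rfl

/-- the application: quadratic part of strength `t`, extra weight `V` -/
def h0q (eig : Fin N → ℝ) (U : Matrix (Fin N) (Fin N) ℝ) (t : ℝ) (V : (Fin N → Bool) → ℝ)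
    (σ : Fin N → Bool) : ℝ :=
  t * Mag.qd eig U σ + V σ

/-- the application: `x = U σ` -/
def xU (U : Matrix (Fin N) (Fin N) ℝ) (σ : Fin N → Bool) (i : Fin N) : ℝ :=
  U.mulVec (Crest.ProbabilityR.InvariantGlass.spinVec σ) i

/-! ### Site-dependent main strengths -/

/-- The Hamiltonian with SITE-DEPENDENT main strengths `a i g` (same index order as `lam`). -/
def HS (h0 : (Fin N → Bool) → ℝ) (a : Fin N → Fin p.nc → ℝ) (lam : Fin N → Fin p.nc → ℝ)
    (x : (Fin N → Bool) → Fin N → ℝ) (s : SS p n A) : ℝ :=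
  h0 s.1.1 + (∑ g, ∑ i, a i g * (zf s.2.1 g i * sv (s.1.1 i))) +
    ∑ g, ∑ i, lam i g * (zf s.2.2 g i * x s.1.1 i)

/-- `HH` is the site-independent case of `HS`. -/
theorem HH_eq_HS (h0 : (Fin N → Bool) → ℝ) (a : Fin p.nc → ℝ) (lam : Fin N → Fin p.nc → ℝ)
    (x : (Fin N → Bool) → Fin N → ℝ) :
    (HH h0 a lam x : SS p n A → ℝ) = HS h0 (fun _ => a) lam x := by
  funext s
  unfold HH HS
  simp only [Finset.mul_sum]

/-- the Hamiltonian after the flip of a main coin -/
theorem HS_mflip (h0 : (Fin N → Bool) → ℝ) (a lam : Fin N → Fin p.nc → ℝ)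
    (x : (Fin N → Bool) → Fin N → ℝ) (s : SS p n A) (g : Fin p.nc) (i : Fin N) (t : Fin n) :
    HS h0 a lam x (s.1, cupd s.2.1 g i t, s.2.2) =
      HS h0 a lam x s - 2 * ((Real.sqrt n)⁻¹ * a i g) * sv (s.2.1 g i t) * sv (s.1.1 i) := by
  unfold HS
  simp only [zf_cupd, sub_mul, Finset.sum_sub_distrib, mul_sub]
  have h1 : ∑ g', ∑ i', a i' g' * ((if g' = g ∧ i' = i then
      2 * (Real.sqrt n)⁻¹ * sv (s.2.1 g i t) else 0) * sv (s.1.1 i')) =
      2 * ((Real.sqrt n)⁻¹ * a i g) * sv (s.2.1 g i t) * sv (s.1.1 i) := by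
    rw [Finset.sum_eq_single g, Finset.sum_eq_single i]
    · rw [if_pos ⟨rfl, rfl⟩]; ring
    · intro i' _ hi; rw [if_neg (by tauto), zero_mul, mul_zero]
    · intro h; exact absurd (Finset.mem_univ _) h
    · intro g' _ hg
      have : ∀ i', a i' g' * ((if g' = g ∧ i' = i then
        2 * (Real.sqrt n)⁻¹ * sv (s.2.1 g i t) else 0) * sv (s.1.1 i')) = 0 := by
        intro i'; rw [if_neg (by tauto), zero_mul, mul_zero]
      simp only [this, Finset.sum_const_zero]
    · intro h; exact absurd (Finset.mem_univ _) h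
  rw [h1]
  ring

/-- the Hamiltonian after the flip of a small coin -/
theorem HS_sflip (h0 : (Fin N → Bool) → ℝ) (a lam : Fin N → Fin p.nc → ℝ)
    (x : (Fin N → Bool) → Fin N → ℝ) (s : SS p n A) (g : Fin p.nc) (i : Fin N) (t : Fin n) :
    HS h0 a lam x (s.1, s.2.1, cupd s.2.2 g i t) =
      HS h0 a lam x s - 2 * ((Real.sqrt n)⁻¹ * lam i g) * sv (s.2.2 g i t) * x s.1.1 i := by
  unfold HS
  simp only [zf_cupd, sub_mul, Finset.sum_sub_distrib, mul_sub]
  have h1 : ∑ g', ∑ i', lam i' g' * ((if g' = g ∧ i' = i then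
      2 * (Real.sqrt n)⁻¹ * sv (s.2.2 g i t) else 0) * x s.1.1 i') =
      2 * ((Real.sqrt n)⁻¹ * lam i g) * sv (s.2.2 g i t) * x s.1.1 i := by
    rw [Finset.sum_eq_single g, Finset.sum_eq_single i]
    · rw [if_pos ⟨rfl, rfl⟩]; ring
    · intro i' _ hi; rw [if_neg (by tauto), zero_mul, mul_zero]
    · intro h; exact absurd (Finset.mem_univ _) h
    · intro g' _ hg
      have : ∀ i', lam i' g' * ((if g' = g ∧ i' = i then
        2 * (Real.sqrt n)⁻¹ * sv (s.2.2 g i t) else 0) * x s.1.1 i') = 0 := by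
        intro i'; rw [if_neg (by tauto), zero_mul, mul_zero]
      simp only [this, Finset.sum_const_zero]
    · intro h; exact absurd (Finset.mem_univ _) h
  rw [h1]
  ring

/-- the part of `HS` which does not depend on the main coin `(g,i,t)` -/
def HSm (h0 : (Fin N → Bool) → ℝ) (a lam : Fin N → Fin p.nc → ℝ)
    (x : (Fin N → Bool) → Fin N → ℝ) (g : Fin p.nc) (i : Fin N) (t : Fin n) (s : SS p n A) : ℝ :=
  HS h0 a lam x s - ((Real.sqrt n)⁻¹ * a i g) * sv (s.2.1 g i t) * sv (s.1.1 i)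

theorem HSm_flip (h0 : (Fin N → Bool) → ℝ) (a lam : Fin N → Fin p.nc → ℝ)
    (x : (Fin N → Bool) → Fin N → ℝ) (s : SS p n A) (g : Fin p.nc) (i : Fin N) (t : Fin n) :
    HSm h0 a lam x g i t (s.1, cupd s.2.1 g i t, s.2.2) = HSm h0 a lam x g i t s := by
  unfold HSm
  rw [HS_mflip]
  simp only [cupd_self, sv_not]
  ring

/-- the part of `HS` which does not depend on the small coin `(g,i,t)` -/
def HSs (h0 : (Fin N → Bool) → ℝ) (a lam : Fin N → Fin p.nc → ℝ)
    (x : (Fin N → Bool) → Fin N → ℝ) (g : Fin p.nc) (i : Fin N) (t : Fin n) (s : SS p n A) : ℝ :=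
  HS h0 a lam x s - ((Real.sqrt n)⁻¹ * lam i g) * sv (s.2.2 g i t) * x s.1.1 i

theorem HSs_flip (h0 : (Fin N → Bool) → ℝ) (a lam : Fin N → Fin p.nc → ℝ)
    (x : (Fin N → Bool) → Fin N → ℝ) (s : SS p n A) (g : Fin p.nc) (i : Fin N) (t : Fin n) :
    HSs h0 a lam x g i t (s.1, s.2.1, cupd s.2.2 g i t) = HSs h0 a lam x g i t s := by
  unfold HSs
  rw [HS_sflip]
  simp only [cupd_self, sv_not]
  ring

end

end Crest.Agent.R164.SY
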