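import Crest.Agent.R141.OuterSys2
import Crest.Agent.R164.GPurD

/-!
Row 164: linear purity (spin coordinates only, no gadgets) of the general enriched system, in squared
form, with observation steps that do not depend on the disorder `θ`.
-/

set_option autoImplicit false

namespace Crest.Agent.R164.G

open Finset Crest.Agent.R141 Crest.Agent.R141.Pur MeasureTheory

noncomputable section

/-! ### Measurability in a parameter -/

section meas

variable {Θ : Type*} [MeasurableSpace Θ] {Ω : Type*} [Fintype Ω]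

theorem meas_eE {P f : Θ → Ω → ℝ} (hP : ∀ ω, Measurable fun θ => P θ ω)
    (hf : ∀ ω, Measurable fun θ => f θ ω) : Measurable fun θ => eE (P θ) (f θ) := by
  unfold eE
  exact Finset.measurable_sum _ fun ω _ => (hP ω).mul (hf ω)

theorem meas_cE {P f : Θ → Ω → ℝ} (hP : ∀ ω, Measurable fun θ => P θ ω)
    (hf : ∀ ω, Measurable fun θ => f θ ω) (r : Setoid Ω) (ω : Ω) :
    Measurable fun θ => cE (P θ) r (f θ) ω := by
  unfold cE
  exact (Finset.measurable_sum _ fun a _ => (hP a).mul (hf a)).div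
    (Finset.measurable_sum _ fun a _ => hP a)

theorem meas_A {P : Ω → ℝ} (hP : IsProb P) {𝓕 : Filt Ω} {x : ℕ → ℝ} (hx : ∀ k, 0 < x k)
    {U : Θ → Ω → ℝ} (hU : ∀ ω, Measurable fun θ => U θ ω) (k : ℕ) :
    ∀ ω, Measurable fun θ => A P 𝓕 x (U θ) k ω := by
  induction k using back_induction 𝓕 with
  | h0 k hk =>
    intro ω
    simp only [A_of_ge _ hk]
    exact hU ω
  | h1 k ih =>
    intro ω
    have h : (fun θ => A P 𝓕 x (U θ) k ω) =
        fun θ => pm P (𝓕.F k) (x (k + 1)) (A P 𝓕 x (U θ) (k + 1)) ω := by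
      funext θ
      rw [A_step hP hx (U θ) k]
    rw [h]
    unfold pm
    have h2 : Measurable fun θ => cE P (𝓕.F k)
        (fun w => Real.exp (x (k + 1) * A P 𝓕 x (U θ) (k + 1) w)) ω :=
      meas_cE (P := fun _ => P) (fun _ => measurable_const)
        (fun w => (Real.measurable_exp.comp ((ih w).const_mul _))) (𝓕.F k) ω
    exact (Real.measurable_log.comp h2).const_mul _

theorem meas_S {P : Ω → ℝ} (hP : IsProb P) {𝓕 : Filt Ω} {x : ℕ → ℝ} (hx : ∀ k, 0 < x k)
    {U : Θ → Ω → ℝ} (hU : ∀ ω, Measurable fun θ => U θ ω) (k m : ℕ) (ω : Ω) :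
    Measurable fun θ => S P 𝓕 x (U θ) k m ω := by
  unfold S
  exact Finset.measurable_sum _ fun l _ =>
    ((meas_A hP hx hU _ ω).sub (meas_A hP hx hU _ ω)).const_mul _

theorem meas_tl {P : Ω → ℝ} (hP : IsProb P) {𝓕 : Filt Ω} {x : ℕ → ℝ} (hx : ∀ k, 0 < x k)
    {U : Θ → Ω → ℝ} (hU : ∀ ω, Measurable fun θ => U θ ω) (ω : Ω) :
    Measurable fun θ => tl P 𝓕 x (U θ) ω := by
  unfold tl
  exact (Real.measurable_exp.comp (meas_S hP hx hU _ _ ω)).const_mul _

theorem meas_Dl {P f : Θ → Ω → ℝ} (hP : ∀ ω, Measurable fun θ => P θ ω)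
    (hf : ∀ ω, Measurable fun θ => f θ ω) (F : ℕ → Setoid Ω) (l : ℕ) (ω : Ω) :
    Measurable fun θ => Dl (P θ) F l (f θ) ω := by
  unfold Dl
  exact (meas_cE hP hf _ ω).sub (meas_cE hP hf _ ω)

theorem meas_Yf {P f g : Θ → Ω → ℝ} (hP : ∀ ω, Measurable fun θ => P θ ω)
    (hf : ∀ ω, Measurable fun θ => f θ ω) (hg : ∀ ω, Measurable fun θ => g θ ω)
    (F : ℕ → Setoid Ω) (x : ℕ → ℝ) (L k : ℕ) (ω : Ω) :
    Measurable fun θ => Yf (P θ) F x L k (f θ) (g θ) ω := by
  unfold Yf
  exact Finset.measurable_sum _ fun l _ => (meas_cE hP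
    (fun a => (meas_Dl hP hf F l a).mul (meas_Dl hP hg F l a)) _ ω).const_mul _

theorem meas_covR {P f g : Θ → Ω → ℝ} (hP : ∀ ω, Measurable fun θ => P θ ω)
    (hf : ∀ ω, Measurable fun θ => f θ ω) (hg : ∀ ω, Measurable fun θ => g θ ω)
    (r : Setoid Ω) (ω : Ω) :
    Measurable fun θ => covR (P θ) r (f θ) (g θ) ω := by
  unfold covR
  exact (meas_cE hP (fun a => (hf a).mul (hg a)) r ω).sub
    ((meas_cE hP hf r ω).mul (meas_cE hP hg r ω))

end meas

/-! ### Linear purity -/

variable {p : Par} {N : ℕ} (B : Base p N)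

theorem RMeas_L (f : Om B → ℝ) : RMeas ((fil B).F p.L) f := by
  intro a b h
  rw [(fil B).bot p.L le_rfl] at h
  have h : a = b := h
  rw [h]

/-- the spin coordinates. -/
theorem badSum_none (hτ : p.τ ≤ 1 / 3) (hN : 0 < N) (H : B.S → ℝ)
    (g : Fin p.nc) :
    ∑ t : Fin p.T, Ed p N (fun d => if d (g, t) = none then bad B H (g, t) none none d else 0) ≤
      16 / p.τ ^ 2 * (((p.nb : ℝ) + 1) * 1 ^ 2) + p.T * (242 * p.τ ^ 2 * 1 ^ 4) := by
  refine badSum B hN H g none none ?_ ?_
  · intro d t i j hd hij hi hj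
    have h := noise_sys B hτ H d (g, t) hd (i, none) (j, none) (m := p.L) (RMeas_L B _)
      (κc := 1) (κd := 1) zero_le_one zero_le_one le_rfl
      (fun l _ _ ω => cE_le_of_le (PP_isProb B H d) (cv_le_one B _) ω)
      (fun ω => cE_le_of_le (PP_isProb B H d) (fun a =>
        mul_le_mul (cv_le_one B _ a) (cv_le_one B _ a) (cv_nonneg B _ a) zero_le_one) ω)
      (fun ω => cE_le_of_le (PP_isProb B H d) (cv_le_one B _) ω)
    unfold eE Wv
    refine h.trans (le_of_eq ?_)
    unfold eE
    norm_num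
  · intro d i _ ω
    refine abs_cE_le_of_le (PP_isProb B H d) (fun a => ?_) ω
    rw [abs_of_nonneg (cv_nonneg B _ a)]
    exact cv_le_one B _ a

/-- average over the pairs of sites of the squared conditional covariance of the `F m`-martingale
values of the site functions. -/
def avc2 (P : Om B → ℝ) (k m : ℕ) : ℝ :=
  ((N : ℝ) ^ 2)⁻¹ * ∑ i, ∑ j, eE P (fun ω => (covR P ((fil B).F k)
    (cE P ((fil B).F m) (fun ω => B.f i ω.1)) (cE P ((fil B).F m) (fun ω => B.f j ω.1)) ω) ^ 2)

theorem avc2_nonneg {P : Om B → ℝ} (hP : IsProb P) (k m : ℕ) : 0 ≤ avc2 B P k m := by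
  unfold avc2
  apply mul_nonneg (by positivity)
  apply Finset.sum_nonneg; intro i _
  apply Finset.sum_nonneg; intro j _
  exact eE_nonneg hP (fun _ => sq_nonneg _)

/-- deterministic bound. -/
theorem avc2_le (hN : 0 < N) (H : B.S → ℝ) (d : DD p N) (k : Stp p) {m : ℕ}
    (hkm : p.ct k.1 k.2 ≤ m) (hmL : m ≤ p.L) :
    avc2 B (PP B H d) (p.ct k.1 k.2) m ≤
      16 * ((p.nc : ℝ) + 1) ^ 2 * (bad B H k none none d + 1 / N) + 8 * (p.nc * p.T) / N := by
  classical
  have hN' : (0 : ℝ) < N := by exact_mod_cast hN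
  have hP := PP_isProb B H d
  set P := PP B H d with hPdef
  set F := (fil B).F with hF
  set k0 := p.ct k.1 k.2 with hk0
  set g : Fin N → Fin N → ℝ := fun i j => eE P (fun ω => (covR P (F k0)
    (cE P (F m) (fun ω => B.f i ω.1)) (cE P (F m) (fun ω => B.f j ω.1)) ω) ^ 2) with hg
  have hfabs : ∀ i ω, |cE P (F m) (fun ω => B.f i ω.1) ω| ≤ 1 := fun i ω =>
    abs_cE_le_of_le hP (fun a => B.hf i a.1) ω
  have hg0 : ∀ i j, 0 ≤ g i j := fun i j => eE_nonneg hP (fun _ => sq_nonneg _)
  have hg4 : ∀ i j, g i j ≤ 4 := fun i j => by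
    apply eE_le_of_le hP
    intro ω
    have h := covR_abs_le hP (F k0) (hfabs i) (hfabs j) ω
    rw [← sq_abs]
    nlinarith [abs_nonneg (covR P (F k0) (cE P (F m) (fun ω => B.f i ω.1))
      (cE P (F m) (fun ω => B.f j ω.1)) ω)]
  -- untouched pairs
  have hβ : ∀ b b' : Unit, ∑ i ∈ Un p N d, ∑ j ∈ (Un p N d).erase i,
      eE P (fun ω => (Yf P F p.xs p.L k0 (cv B (i, none)) (cv B (j, none)) ω) ^ 2) ≤
        (N : ℝ) ^ 2 * bad B H k none none d := by
    intro _ _
    unfold bad
    rw [← mul_assoc, mul_inv_cancel₀ (by positivity), one_mul]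
  have hcombo := combo (P := P) hP (fil B).antitone (x := p.xs) (L := p.L) hkm hmL
    (y0 := ((p.nc : ℝ) + 1)⁻¹) (by positivity) (fun l _ => xs_ge p l)
    (fun l _ => p.xs_expo.le_one l) (Un p N d) (fun i (_ : Unit) => cv B (i, none))
    (fun i _ ω => cv_abs B _ ω) (fun _ => 1) (Q := 1) zero_le_one (Un_card_le p N d) hβ
  have hid : ∀ i : Fin N, (fun ω : Om B => B.f i ω.1) =
      fun ω => 2 * cv B (i, none) ω + (-1) := by
    intro i; funext ω; rw [cv_none]; ring
  have hcE : ∀ i : Fin N, cE P (F m) (fun ω => B.f i ω.1) =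
      fun ω => 2 * cE P (F m) (cv B (i, none)) ω + (-1) := by
    intro i
    funext ω
    rw [hid i, cE_add P (F m) (fun ω => 2 * cv B (i, none) ω) (fun _ => (-1 : ℝ)),
      cE_const hP, cE_smul]
  have hcov : ∀ (i j : Fin N) (ω : Om B), covR P (F k0)
      (cE P (F m) (fun ω => B.f i ω.1)) (cE P (F m) (fun ω => B.f j ω.1)) ω =
      2 ^ 2 * covR P (F k0) (cE P (F m) (cv B (i, none))) (cE P (F m) (cv B (j, none))) ω := by
    intro i j ω
    rw [hcE i, hcE j]
    exact (covR_affine hP (F k0) 2 (-1) (cE P (F m) (cv B (i, none)))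
      (cE P (F m) (cv B (j, none))) ω).trans (covR_scale (F k0) 2 _ _ ω)
  have e : ∀ i : Fin N, (fun a => ∑ _b : Unit, ((1 : ℝ) * 1) * cv B (i, none) a) =
      cv B (i, none) := by
    intro i; funext a; simp
  simp only [e] at hcombo
  have hgc : ∀ i j, g i j = 16 * eE P (fun ω => (covR P (F k0)
      (cE P (F m) (cv B (i, none))) (cE P (F m) (cv B (j, none))) ω) ^ 2) := by
    intro i j
    simp only [hg]
    rw [← eE_smul]
    congr 1
    funext ω
    rw [hcov i j ω]
    ring
  have hUn : ∑ i ∈ Un p N d, ∑ j ∈ Un p N d, g i j ≤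
      16 * ((((p.nc : ℝ) + 1) ^ 2) * ((N : ℝ) ^ 2 * bad B H k none none d + N)) := by
    simp only [hgc, ← Finset.mul_sum]
    apply mul_le_mul_of_nonneg_left _ (by norm_num)
    refine hcombo.trans (le_of_eq ?_)
    rw [inv_pow, inv_inv]
    simp
  -- all pairs
  have h1 : ∀ i j, g i j ≤ (if i ∈ Un p N d then (if j ∈ Un p N d then g i j else 0) else 0) +
      ((if i ∈ (Un p N d)ᶜ then (4:ℝ) else 0) + (if j ∈ (Un p N d)ᶜ then (4:ℝ) else 0)) := by
    intro i j
    have := hg0 i j
    have := hg4 i j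
    by_cases hi : i ∈ Un p N d <;> by_cases hj : j ∈ Un p N d <;> simp [hi, hj] <;> linarith
  have h2 : ∑ i, ∑ j, g i j ≤ (∑ i ∈ Un p N d, ∑ j ∈ Un p N d, g i j) +
      8 * (N * (p.nc * p.T)) := by
    calc ∑ i, ∑ j, g i j ≤ ∑ i, ∑ j, ((if i ∈ Un p N d then
          (if j ∈ Un p N d then g i j else 0) else 0) +
          ((if i ∈ (Un p N d)ᶜ then (4:ℝ) else 0) + (if j ∈ (Un p N d)ᶜ then (4:ℝ) else 0))) :=
          Finset.sum_le_sum fun i _ => Finset.sum_le_sum fun j _ => h1 i j
      _ = (∑ i ∈ Un p N d, ∑ j ∈ Un p N d, g i j) + 8 * (N * ((Un p N d)ᶜ).card) := by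
          simp only [Finset.sum_add_distrib]
          congr 1
          · rw [← Finset.sum_subset (Finset.subset_univ (Un p N d))]
            · apply Finset.sum_congr rfl; intro i hi
              rw [← Finset.sum_subset (Finset.subset_univ (Un p N d))]
              · apply Finset.sum_congr rfl; intro j hj
                rw [if_pos hi, if_pos hj]
              · intro j _ hj
                rw [if_pos hi, if_neg hj]
            · intro i _ hi
              apply Finset.sum_eq_zero; intro j _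
              rw [if_neg hi]
          · have e1 : ∑ i : Fin N, ∑ j : Fin N, (if i ∈ (Un p N d)ᶜ then (4:ℝ) else 0) =
                N * (4 * ((Un p N d)ᶜ).card) := by
              simp only [Finset.sum_const, Finset.card_univ, Fintype.card_fin, nsmul_eq_mul]
              rw [← Finset.mul_sum, Finset.sum_ite_mem, Finset.univ_inter, Finset.sum_const,
                nsmul_eq_mul]
              ring
            have e2 : ∑ i : Fin N, ∑ j : Fin N, (if j ∈ (Un p N d)ᶜ then (4:ℝ) else 0) =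
                N * (4 * ((Un p N d)ᶜ).card) := by
              rw [Finset.sum_const, Finset.card_univ, Fintype.card_fin, nsmul_eq_mul,
                Finset.sum_ite_mem, Finset.univ_inter, Finset.sum_const, nsmul_eq_mul]
              ring
            rw [e1, e2]; ring
      _ ≤ _ := by
          have := card_touched p N d
          gcongr
  unfold avc2
  calc ((N : ℝ) ^ 2)⁻¹ * ∑ i, ∑ j, g i j ≤ ((N : ℝ) ^ 2)⁻¹ *
        (16 * ((((p.nc : ℝ) + 1) ^ 2) * ((N : ℝ) ^ 2 * bad B H k none none d + N)) +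
          8 * (N * (p.nc * p.T))) :=
        mul_le_mul_of_nonneg_left (h2.trans (add_le_add_left hUn _)) (by positivity)
    _ = _ := by field_simp

/-! ### Selection of the observation steps, uniformly in the disorder -/

section select

variable {Θ : Type*} [MeasurableSpace Θ] (ν : Measure Θ) [IsProbabilityMeasure ν]
  {H : Θ → B.S → ℝ}

theorem meas_UU (hH : ∀ s, Measurable fun θ => H θ s) (d : DD p N) (ω : Om B) :
    Measurable fun θ => UU B (H θ) d ω := by
  unfold UU
  exact (hH ω.1).add_const _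

theorem meas_PP (hH : ∀ s, Measurable fun θ => H θ s) (d : DD p N) (ω : Om B) :
    Measurable fun θ => PP B (H θ) d ω := by
  unfold PP
  exact meas_tl (prior_isProb B) p.xs_expo.pos (fun ω => meas_UU B hH d ω) ω

theorem meas_bad (hH : ∀ s, Measurable fun θ => H θ s) (k : Stp p) (o o' : Option (Fin p.nb))
    (d : DD p N) : Measurable fun θ => bad B (H θ) k o o' d := by
  unfold bad
  refine Measurable.const_mul (Finset.measurable_sum _ fun i _ =>
    Finset.measurable_sum _ fun j _ => ?_) _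
  exact meas_eE (fun ω => meas_PP B hH d ω) (fun ω => (meas_Yf (fun ω => meas_PP B hH d ω)
    (f := fun _ => cv B (i, o)) (g := fun _ => cv B (j, o')) (fun _ => measurable_const)
    (fun _ => measurable_const) _ _ _ _ ω).pow_const 2)

theorem integrable_bad (hN : 0 < N) (hH : ∀ s, Measurable fun θ => H θ s) (k : Stp p)
    (o o' : Option (Fin p.nb)) (d : DD p N) : Integrable (fun θ => bad B (H θ) k o o' d) ν := by
  refine Integrable.of_bound (meas_bad B hH k o o' d).aestronglyMeasurable 1 ?_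
  filter_upwards with θ
  rw [Real.norm_eq_abs, abs_of_nonneg (bad_nonneg B _ _ _ _ _)]
  exact bad_le_one B hN _ _ _ _ _

theorem meas_avc2' {P : Θ → Om B → ℝ} (hP : ∀ ω, Measurable fun θ => P θ ω) (k m : ℕ) :
    Measurable fun θ => avc2 B (P θ) k m := by
  have hc : ∀ (i : Fin N) (a : Om B), Measurable fun θ =>
      cE (P θ) ((fil B).F m) (fun ω => B.f i ω.1) a := fun i a =>
    meas_cE (P := P) (f := fun _ ω => B.f i ω.1) hP (fun _ => measurable_const) _ a
  have h2 : ∀ (i j : Fin N) (ω : Om B), Measurable fun θ => (covR (P θ) ((fil B).F k)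
      (cE (P θ) ((fil B).F m) (fun ω => B.f i ω.1))
      (cE (P θ) ((fil B).F m) (fun ω => B.f j ω.1)) ω) ^ 2 := fun i j ω =>
    (meas_covR (P := P) (f := fun θ => cE (P θ) ((fil B).F m) (fun ω => B.f i ω.1))
      (g := fun θ => cE (P θ) ((fil B).F m) (fun ω => B.f j ω.1)) hP (hc i) (hc j)
      _ ω).pow_const 2
  unfold avc2
  exact Measurable.const_mul (Finset.measurable_sum _ fun i _ =>
    Finset.measurable_sum _ fun j _ => meas_eE (P := P) hP (h2 i j)) _

theorem meas_avc2 (hH : ∀ s, Measurable fun θ => H θ s) (d : DD p N) (k m : ℕ) :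
    Measurable fun θ => avc2 B (PP B (H θ) d) k m :=
  meas_avc2' B (fun ω => meas_PP B hH d ω) k m

theorem selSpin (hτ : p.τ ≤ 1 / 3) (hN : 0 < N) (hT : 0 < p.T)
    (hH : ∀ s, Measurable fun θ => H θ s) :
    ∃ sel : Fin p.nc → DD p N → Fin p.T, ∀ g,
      Ed p N (fun d => ∫ θ, bad B (H θ) (g, sel g d) none none d ∂ν) ≤
        4 / p.T * (16 / p.τ ^ 2 * ((p.nb : ℝ) + 1) + 1) + 4 * (242 * p.τ ^ 2) := by
  classical
  have hT0 : (0 : ℝ) < p.T := by exact_mod_cast hT
  have hτ0 := p.hτ0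
  set S : ℝ := 16 / p.τ ^ 2 * (((p.nb : ℝ) + 1) * 1 ^ 2) + p.T * (242 * p.τ ^ 2 * 1 ^ 4) with hS
  have hsum : ∀ g : Fin p.nc, ∑ t : Fin p.T, Ed p N (fun d => if d (g, t) = none then
      ∫ θ, bad B (H θ) (g, t) none none d ∂ν else 0) ≤ S := by
    intro g
    have e1 : ∀ (t : Fin p.T), Ed p N (fun d => if d (g, t) = none then
        ∫ θ, bad B (H θ) (g, t) none none d ∂ν else 0) =
        ∫ θ, Ed p N (fun d => if d (g, t) = none then
          bad B (H θ) (g, t) none none d else 0) ∂ν := by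
      intro t
      unfold Ed
      rw [integral_finsetSum]
      · apply Finset.sum_congr rfl; intro d _
        by_cases h : d (g, t) = none
        · simp only [if_pos h]
          rw [integral_const_mul]
        · simp only [if_neg h, mul_zero, integral_zero]
      · intro d _
        by_cases h : d (g, t) = none
        · simp only [if_pos h]
          exact (integrable_bad B ν hN hH _ _ _ d).const_mul _
        · simp only [if_neg h, mul_zero]
          exact integrable_zero _ _ _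
    have hint : ∀ (t : Fin p.T), Integrable (fun θ => Ed p N (fun d => if d (g, t) = none then
          bad B (H θ) (g, t) none none d else 0)) ν := by
      intro t
      unfold Ed
      refine integrable_finsetSum _ fun d _ => ?_
      by_cases h : d (g, t) = none
      · simp only [if_pos h]
        exact (integrable_bad B ν hN hH _ _ _ d).const_mul _
      · simp only [if_neg h, mul_zero]
        exact integrable_zero _ _ _
    simp only [e1]
    rw [← integral_finsetSum _ (fun t _ => hint t)]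
    calc ∫ θ, ∑ t : Fin p.T, Ed p N (fun d => if d (g, t) = none then
          bad B (H θ) (g, t) none none d else 0) ∂ν ≤ ∫ _, S ∂ν := by
          apply integral_mono (integrable_finsetSum _ fun t _ => hint t) (integrable_const _)
          intro θ
          exact badSum_none B hτ hN (H θ) g
      _ = S := by simp
  obtain ⟨sel, hsel⟩ := selection_cell p hN hT (M := 1) (S := S)
    (fun k d => ∫ θ, bad B (H θ) k none none d ∂ν)
    (fun k d => integral_nonneg fun θ => bad_nonneg B _ _ _ _ _)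
    (fun k d => by
      calc ∫ θ, bad B (H θ) k none none d ∂ν ≤ ∫ _, (1 : ℝ) ∂ν :=
            integral_mono (integrable_bad B ν hN hH _ _ _ d) (integrable_const _)
              (fun θ => bad_le_one B hN _ _ _ _ _)
        _ = 1 := by simp) hsum
  refine ⟨sel, fun g => ?_⟩
  have h1 : Ed p N (fun d => ∫ θ, bad B (H θ) (g, sel g d) none none d ∂ν) ≤
      Ed p N (fun d => if d (g, sel g d) = none then
        ∫ θ, bad B (H θ) (g, sel g d) none none d ∂ν else 1) := by
    apply Ed_mono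
    intro d
    split_ifs
    · exact le_rfl
    · calc ∫ θ, bad B (H θ) (g, sel g d) none none d ∂ν ≤ ∫ _, (1 : ℝ) ∂ν :=
            integral_mono (integrable_bad B ν hN hH _ _ _ d) (integrable_const _)
              (fun θ => bad_le_one B hN _ _ _ _ _)
        _ = 1 := by simp
  refine h1.trans ((hsel g).trans (le_of_eq ?_))
  rw [hS]
  field_simp
  ring

/-- The purity number of the cell `g`: bounds `avc2` at the observation step for all `m`. -/
def purNum (H : B.S → ℝ) (k : Stp p) (d : DD p N) : ℝ :=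
  16 * ((p.nc : ℝ) + 1) ^ 2 * (bad B H k none none d + 1 / N) + 8 * (p.nc * p.T) / N

theorem avc2_le_purNum (hN : 0 < N) (H : B.S → ℝ) (d : DD p N) (k : Stp p) {m : ℕ}
    (hkm : p.ct k.1 k.2 ≤ m) (hmL : m ≤ p.L) :
    avc2 B (PP B H d) (p.ct k.1 k.2) m ≤ purNum B H k d := avc2_le B hN H d k hkm hmL

theorem integrable_purNum (hN : 0 < N) (hH : ∀ s, Measurable fun θ => H θ s) (k : Stp p)
    (d : DD p N) : Integrable (fun θ => purNum B (H θ) k d) ν := by
  unfold purNum
  exact (((integrable_bad B ν hN hH _ _ _ d).add (integrable_const _)).const_mul _).add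
    (integrable_const _)

end select

/-- parameters without gadgets. -/
def pSpin (nc T : ℕ) (hnc : 0 < nc) (τ : ℝ) (hτ0 : 0 < τ) (hτ1 : τ ≤ 1 / 2) : Par where
  nc := nc
  T := T
  nb := 0
  Q := 2
  lev := fun b => b.elim0
  tree := fun b => b.elim0
  good := fun b => b.elim0
  τ := τ
  hnc := hnc
  hQ := le_rfl
  hτ0 := hτ0
  hτ1 := hτ1

/-- **Linear purity** with steps independent of the disorder: for every number of cells and every
accuracy there are parameters WITHOUT gadgets such that for all large `N`, all bases `B`, all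
measurable families of Hamiltonians, there are steps `sel g d` with small averaged purity numbers. -/
theorem spin_purity (nc : ℕ) (hnc : 0 < nc) {eta : ℝ} (heta : 0 < eta) :
    ∃ p : Par, p.nc = nc ∧ p.nb = 0 ∧ ∃ N0 : ℕ, ∀ N, N0 ≤ N → ∀ (B : Base p N) (Θ : Type)
      [MeasurableSpace Θ] (ν : Measure Θ) [IsProbabilityMeasure ν] (H : Θ → B.S → ℝ),
      (∀ s, Measurable fun θ => H θ s) →
        ∃ sel : Fin p.nc → DD p N → Fin p.T, ∀ g,
          Ed p N (fun d => ∫ θ, purNum B (H θ) (g, sel g d) d ∂ν) ≤ eta := by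
  obtain ⟨K, hK⟩ : ∃ K : ℝ, K = 16 * ((nc : ℝ) + 1) ^ 2 := ⟨_, rfl⟩
  have hK0 : 0 < K := by rw [hK]; positivity
  obtain ⟨τ, hτ⟩ : ∃ τ : ℝ, τ = min (1 / 3) (eta / (K * 4 * 242 * 4)) := ⟨_, rfl⟩
  have hτ0 : 0 < τ := by rw [hτ]; positivity
  have hτ3 : τ ≤ 1 / 3 := by rw [hτ]; exact min_le_left _ _
  have h1 : K * (4 * (242 * τ ^ 2)) ≤ eta / 4 := by
    have h2 : τ ^ 2 ≤ τ := by nlinarith
    have h3 : τ ≤ eta / (K * 4 * 242 * 4) := by rw [hτ]; exact min_le_right _ _
    have h4 : 0 < K * 4 * 242 * 4 := by positivity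
    rw [le_div_iff₀ h4] at h3
    have h5 : τ ^ 2 * (K * 4 * 242 * 4) ≤ τ * (K * 4 * 242 * 4) :=
      mul_le_mul_of_nonneg_right h2 h4.le
    linarith
  obtain ⟨X, hX⟩ : ∃ X : ℝ, X = 16 / τ ^ 2 + 1 := ⟨_, rfl⟩
  have hX0 : 0 < X := by rw [hX]; positivity
  obtain ⟨T, hT⟩ := exists_nat_gt (16 * K * X / eta)
  have hT0 : (0 : ℝ) < T := lt_of_le_of_lt (by positivity) hT
  have hT0' : 0 < T := by exact_mod_cast hT0
  have h2 : K * (4 / T * X) ≤ eta / 4 := by
    rw [div_lt_iff₀ heta] at hT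
    rw [mul_comm (4 / (T : ℝ)), mul_div_assoc', ← mul_div_assoc, div_le_div_iff₀ hT0 (by norm_num)]
    linarith
  obtain ⟨N0, hN0⟩ := exists_nat_gt (max (4 * K / eta) (4 * (8 * ((nc : ℝ) * T)) / eta))
  refine ⟨pSpin nc T hnc τ hτ0 (by linarith), rfl, rfl, N0 + 1, ?_⟩
  intro N hNN B Θ _ ν _ H hH
  have hN : 0 < N := by omega
  have hN' : (0 : ℝ) < N := by exact_mod_cast hN
  have hNN0 : (N0 : ℝ) ≤ N := by exact_mod_cast (by omega : N0 ≤ N)
  have h3 : K * (1 / N) ≤ eta / 4 := by
    have h5 := (lt_of_le_of_lt (le_max_left _ _) hN0).le.trans hNN0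
    rw [div_le_iff₀ heta] at h5
    rw [mul_one_div, div_le_div_iff₀ hN' (by norm_num)]
    linarith
  have h4 : 8 * ((nc : ℝ) * T) / N ≤ eta / 4 := by
    have h5 := (lt_of_le_of_lt (le_max_right _ _) hN0).le.trans hNN0
    rw [div_le_iff₀ heta] at h5
    rw [div_le_div_iff₀ hN' (by norm_num)]
    linarith
  obtain ⟨sel, hsel⟩ := selSpin B ν hτ3 hN hT0' hH
  refine ⟨sel, fun g => ?_⟩
  have h5 : ∀ d, ∫ θ, purNum B (H θ) (g, sel g d) d ∂ν =
      K * (∫ θ, bad B (H θ) (g, sel g d) none none d ∂ν) +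
        (K * (1 / N) + 8 * ((nc : ℝ) * T) / N) := by
    intro d
    have hb := integrable_bad B ν hN hH (g, sel g d) none none d
    have e : ∀ θ, purNum B (H θ) (g, sel g d) d =
        K * bad B (H θ) (g, sel g d) none none d + (K * (1 / N) + 8 * ((nc : ℝ) * T) / N) := by
      intro θ
      unfold purNum
      rw [hK]
      show 16 * ((nc : ℝ) + 1) ^ 2 * (_ + 1 / N) + 8 * ((nc : ℝ) * T) / N = _
      ring
    simp only [e]
    rw [integral_add (hb.const_mul _) (integrable_const _), integral_const_mul]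
    simp
  simp only [h5]
  rw [Ed_add, Ed_smul, Ed_const _ hN]
  have h6 := mul_le_mul_of_nonneg_left (hsel g) hK0.le
  have h7 : K * (4 / ((pSpin nc T hnc τ hτ0 (by linarith)).T : ℝ) *
      (16 / (pSpin nc T hnc τ hτ0 (by linarith)).τ ^ 2 *
        (((pSpin nc T hnc τ hτ0 (by linarith)).nb : ℝ) + 1) + 1) +
      4 * (242 * (pSpin nc T hnc τ hτ0 (by linarith)).τ ^ 2)) =
      K * (4 / T * X) + K * (4 * (242 * τ ^ 2)) := by
    show K * (4 / (T : ℝ) * (16 / τ ^ 2 * (((0 : ℕ) : ℝ) + 1) + 1) + 4 * (242 * τ ^ 2)) = _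
    rw [hX]
    push_cast
    ring
  rw [h7] at h6
  linarith

end

end Crest.Agent.R164.G
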