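import Mathlib
import Crest.Agent.R164.ConcSys2
import Crest.Agent.R164.AsConc
import Crest.Agent.R164.GSpin
import Crest.Agent.R141.SysSym

set_option autoImplicit false

/-!
Row 164, module (Conc): concentration over the orthogonal group of the free energy of `Sys164`
(`E|Φ - EΦ| ≤ C √N`).
-/

namespace Crest.Agent.R164.CSys

open Finset MeasureTheory
open Crest.Agent.R141
open Crest.Agent.R164 SY
open Crest.Agent.Lib.OrthPoinc
open Crest.ProbabilityR.InvariantGlass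
open Crest.Agent.R164.AsConc

noncomputable section

/-! ### polynomials -/

section Poly

variable {n : ℕ}

/-- linear form of the coordinates `(U σ)_a` -/
def lPoly (c : Fin n → ℝ) (σ : Fin n → Bool) : PolyM n :=
  ∑ a : Fin n, c a • (∑ k : Fin n, spinVec σ k • (MvPolynomial.X (a, k) : PolyM n))

theorem ev_lPoly (c : Fin n → ℝ) (σ : Fin n → Bool) (U : Mat n) :
    ev (lPoly c σ) U = ∑ a, c a * (Matrix.of U).mulVec (spinVec σ) a := by
  rw [lPoly, ev_sum]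
  exact Finset.sum_congr rfl fun a _ => by rw [ev_smul, ev_row]

theorem ev_Xd_lPoly (c : Fin n → ℝ) (σ : Fin n → Bool) (i j : Fin n) (U : Mat n) :
    ev (Xd i j (lPoly c σ)) U = spinVec σ j * (∑ a, c a * U a i) -
      spinVec σ i * (∑ a, c a * U a j) := by
  rw [lPoly, map_sum, ev_sum, Finset.mul_sum, Finset.mul_sum, ← Finset.sum_sub_distrib]
  refine Finset.sum_congr rfl fun a _ => ?_
  rw [Derivation.map_smul, ev_smul, Xd_row, ev_sub, ev_smul, ev_smul, ev_X, ev_X]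
  ring

/-- energy of an antisymmetric form -/
theorem energy_asym (s w : Fin n → ℝ) (hss : ∀ r, s r * s r = 1) :
    ∑ i, ∑ j, (s j * w i - s i * w j) ^ 2 ≤ 2 * n * ∑ i, (w i) ^ 2 := by
  have e1 : ∀ i j, (s j * w i - s i * w j) ^ 2 =
      (w i) ^ 2 + (w j) ^ 2 - 2 * ((s i * w i) * (s j * w j)) := by
    intro i j
    have h1 := hss i
    have h2 := hss j
    linear_combination (w i) ^ 2 * h2 + (w j) ^ 2 * h1
  simp only [e1, Finset.sum_sub_distrib, Finset.sum_add_distrib, ← Finset.mul_sum,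
    ← Finset.sum_mul]
  simp only [Finset.sum_const, Finset.card_univ, Fintype.card_fin, nsmul_eq_mul, ← Finset.mul_sum]
  have h0 : 0 ≤ (∑ i, s i * w i) * (∑ j, s j * w j) := mul_self_nonneg _
  nlinarith

/-- `w = Uᵀ y` has the norm of `y` -/
theorem sum_tr_sq {U : Mat n} (hU : Matrix.of U ∈ Matrix.specialOrthogonalGroup (Fin n) ℝ)
    (y : Fin n → ℝ) : ∑ i, (∑ a, y a * U a i) ^ 2 = ∑ a, (y a) ^ 2 := by
  have hUt := transpose_mem_so hU
  have h1 : ∀ i, ∑ a, y a * U a i = (Matrix.of (fun i j => U j i : Mat n)).mulVec y i := by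
    intro i
    simp only [Matrix.mulVec, dotProduct, Matrix.of_apply]
    exact Finset.sum_congr rfl fun a _ => by ring
  have h2 : Matrix.of (fun i j => U j i : Mat n) ∈ Matrix.specialOrthogonalGroup (Fin n) ℝ := by
    have : Matrix.of (fun i j => U j i : Mat n) = (Matrix.of U).transpose := by ext; rfl
    rw [this]; exact hUt
  simp only [h1]
  exact sum_mulVec_sq h2 y

/-- energy of the sum of a quadratic and a linear form -/
theorem energy_ql {eig : Fin n → ℝ} {Λ : ℝ} (hΛ : ∀ i, |eig i| ≤ Λ) (c : Fin n → ℝ)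
    (σ : Fin n → Bool) {U : Mat n}
    (hU : Matrix.of U ∈ Matrix.specialOrthogonalGroup (Fin n) ℝ) :
    ∑ i, ∑ j, (ev (Xd i j (qPoly eig 0 σ + lPoly c σ)) U) ^ 2 ≤
      4 * n * (Λ ^ 2 * n + ∑ a, (c a) ^ 2) := by
  set s := spinVec σ with hs
  set x := (Matrix.of U).mulVec s with hx
  have hss : ∀ r, s r * s r = 1 := fun r => spin_sq σ r
  have e1 : ∀ i j, ev (Xd i j (qPoly eig 0 σ + lPoly c σ)) U =
      s j * (∑ a, (eig a * x a + c a) * U a i) - s i * (∑ a, (eig a * x a + c a) * U a j) := by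
    intro i j
    rw [map_add, ev_add, ev_Xd_qPoly, ev_Xd_lPoly]
    simp only [wv, add_mul, Finset.sum_add_distrib]
    ring
  simp only [e1]
  refine (energy_asym s (fun i => ∑ a, (eig a * x a + c a) * U a i) hss).trans ?_
  rw [sum_tr_sq hU]
  have h2 : ∑ a, (eig a * x a + c a) ^ 2 ≤ 2 * (Λ ^ 2 * n) + 2 * ∑ a, (c a) ^ 2 := by
    have h3 : ∑ a, (x a) ^ 2 = n := by
      rw [hx, sum_mulVec_sq hU]
      have : ∀ r, s r ^ 2 = 1 := fun r => by rw [pow_two]; exact hss r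
      simp [this]
    calc ∑ a, (eig a * x a + c a) ^ 2 ≤ ∑ a, (2 * (Λ ^ 2 * (x a) ^ 2) + 2 * (c a) ^ 2) := by
          refine Finset.sum_le_sum fun a _ => ?_
          have h4 : eig a ^ 2 ≤ Λ ^ 2 := by
            rw [← sq_abs]; exact pow_le_pow_left₀ (abs_nonneg _) (hΛ a) 2
          have h5 := mul_le_mul_of_nonneg_right h4 (sq_nonneg (x a))
          nlinarith [sq_nonneg (eig a * x a - c a)]
      _ = 2 * (Λ ^ 2 * n) + 2 * ∑ a, (c a) ^ 2 := by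
          rw [Finset.sum_add_distrib, ← Finset.mul_sum, ← Finset.mul_sum, ← Finset.mul_sum, h3]
  have hn : (0 : ℝ) ≤ n := Nat.cast_nonneg n
  nlinarith [mul_le_mul_of_nonneg_left h2 (by linarith : (0:ℝ) ≤ 2 * n)]

end Poly

variable {p : Par} {N n : ℕ} {A : Finset (Fin N → Bool)} (hA : A.Nonempty)
  (eig : Fin N → ℝ) (t : ℝ) (V : (Fin N → Bool) → ℝ) (a lam : Fin N → Fin p.nc → ℝ) (d : DD p N)

/-- the Hamiltonian as a function of the matrix -/
def HU (U : Mat N) : SS p n A → ℝ := HS (h0q eig (Matrix.of U) t V) a lam (xU (Matrix.of U))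

/-- the strengths of the linear form -/
def cl (ω : G.Om (base p n A hA)) (i : Fin N) : ℝ := ∑ g, lam i g * zf ω.1.2.2 g i

/-- the log-weight as a polynomial -/
def pP (ω : G.Om (base p n A hA)) : PolyM N :=
  (qPoly (fun i => t * eig i) 0 ω.1.1.1 + lPoly (cl hA lam ω) ω.1.1.1) +
    MvPolynomial.C (V ω.1.1.1 + (∑ g, ∑ i, a i g * (zf ω.1.2.1 g i * sv (ω.1.1.1 i))) +
      G.WW (base p n A hA) d ω)

theorem ev_pP (ω : G.Om (base p n A hA)) (U : Mat N) :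
    ev (pP hA eig t V a lam d ω) U = G.UU (base p n A hA) (HU eig t V a lam U) d ω := by
  rw [pP, ev_add, ev_add, ev_C, ev_qPoly, ev_lPoly]
  have h1 : ∑ a, cl hA lam ω a * (Matrix.of U).mulVec (spinVec ω.1.1.1) a =
      ∑ g, ∑ i, lam i g * (zf ω.1.2.2 g i * xU (Matrix.of U) ω.1.1.1 i) := by
    rw [Finset.sum_comm]
    refine Finset.sum_congr rfl fun i _ => ?_
    unfold cl xU
    rw [Finset.sum_mul]
    exact Finset.sum_congr rfl fun g _ => by ring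
  have h2 : (1 / 2 : ℝ) * ∑ i : Fin N, t * eig i * ((Matrix.of U).mulVec (spinVec ω.1.1.1) i) ^ 2 +
      ∑ r : Fin N, (0 : Fin N → ℝ) r * spinVec ω.1.1.1 r = t * Mag.qd eig (Matrix.of U) ω.1.1.1 := by
    simp only [Pi.zero_apply, zero_mul, Finset.sum_const_zero, add_zero]
    unfold Mag.qd
    rw [Finset.mul_sum, Finset.mul_sum, Finset.mul_sum]
    exact Finset.sum_congr rfl fun i _ => by ring
  rw [h1, h2]
  have h3 : G.UU (base p n A hA) (HU eig t V a lam U) d ω =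
    HS (h0q eig (Matrix.of U) t V) a lam (xU (Matrix.of U)) ω.1 + G.WW (base p n A hA) d ω := rfl
  rw [h3]
  unfold HS h0q
  ring

theorem sum_cl_sq_le {Λ : ℝ} (hΛ : ∀ i g, |lam i g| ≤ Λ) (ω : G.Om (base p n A hA)) :
    ∑ i, (cl hA lam ω i) ^ 2 ≤ p.nc * Λ ^ 2 * Ts ω.1 := by
  have h1 : ∀ i, (cl hA lam ω i) ^ 2 ≤ p.nc * Λ ^ 2 * ∑ g, (zf ω.1.2.2 g i) ^ 2 := by
    intro i
    unfold cl
    have h2 := sq_sum_le_card_mul_sum_sq (s := (Finset.univ : Finset (Fin p.nc)))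
      (f := fun g => lam i g * zf ω.1.2.2 g i)
    rw [Finset.card_univ, Fintype.card_fin] at h2
    refine h2.trans ?_
    rw [mul_assoc]
    refine mul_le_mul_of_nonneg_left ?_ (Nat.cast_nonneg _)
    rw [Finset.mul_sum]
    refine Finset.sum_le_sum fun g _ => ?_
    rw [mul_pow]
    refine mul_le_mul_of_nonneg_right ?_ (sq_nonneg _)
    rw [← sq_abs]; exact pow_le_pow_left₀ (abs_nonneg _) (hΛ i g) 2
  calc ∑ i, (cl hA lam ω i) ^ 2 ≤ ∑ i, p.nc * Λ ^ 2 * ∑ g, (zf ω.1.2.2 g i) ^ 2 :=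
        Finset.sum_le_sum fun i _ => h1 i
    _ = p.nc * Λ ^ 2 * Tc ω.1.2.2 := by
        rw [← Finset.mul_sum]
        congr 1
        unfold Tc
        exact Finset.sum_comm
    _ ≤ p.nc * Λ ^ 2 * Ts ω.1 := by
        refine mul_le_mul_of_nonneg_left ?_ (by positivity)
        unfold Ts
        linarith [Tc_nonneg ω.1.2.1]

/-- pointwise energy bound -/
theorem energy_pP {Λ0 Λ : ℝ} (hΛ0 : ∀ i, |eig i| ≤ Λ0) (ht : |t| ≤ 1)
    (hΛ : ∀ i g, |lam i g| ≤ Λ) (ω : G.Om (base p n A hA)) {U : Mat N}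
    (hU : Matrix.of U ∈ Matrix.specialOrthogonalGroup (Fin N) ℝ) :
    ∑ i, ∑ j, (ev (Xd i j (pP hA eig t V a lam d ω)) U) ^ 2 ≤
      4 * N * (Λ0 ^ 2 * N + p.nc * Λ ^ 2 * Ts ω.1) := by
  have h1 : ∀ i j, ev (Xd i j (pP hA eig t V a lam d ω)) U =
      ev (Xd i j (qPoly (fun i => t * eig i) 0 ω.1.1.1 + lPoly (cl hA lam ω) ω.1.1.1)) U := by
    intro i j
    rw [pP, map_add, MvPolynomial.derivation_C, add_zero]
  simp only [h1]
  refine (energy_ql (Λ := Λ0) (fun i => ?_) _ _ hU).trans ?_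
  · rw [abs_mul]
    calc |t| * |eig i| ≤ 1 * Λ0 := mul_le_mul ht (hΛ0 i) (abs_nonneg _) one_pos.le
      _ = Λ0 := one_mul _
  · have := sum_cl_sq_le hA lam hΛ ω
    gcongr

/-- bound of the Hamiltonian -/
theorem abs_HU_le {Λ0 Λ Λa BV : ℝ} (hΛ0 : ∀ i, |eig i| ≤ Λ0) (ht : |t| ≤ 1)
    (hΛ : ∀ i g, |lam i g| ≤ Λ) (ha : ∀ i g, |a i g| ≤ Λa) (hV : ∀ σ, |V σ| ≤ BV * N)
    {U : Mat N} (hU : Matrix.of U ∈ Matrix.orthogonalGroup (Fin N) ℝ) (s : SS p n A) :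
    |HU eig t V a lam U s| ≤
      (Λ0 / 2 + BV + 2 * p.nc * Λa ^ 2 + 2 * p.nc * Λ ^ 2) * N + 1 / 8 * Ts s := by
  have h1 : |t * Mag.qd eig (Matrix.of U) s.1.1| ≤ Λ0 / 2 * N := by
    rw [abs_mul]
    have := Mag.abs_qd_le hΛ0 hU s.1.1
    calc |t| * |Mag.qd eig (Matrix.of U) s.1.1| ≤ 1 * (Λ0 / 2 * N) :=
          mul_le_mul ht this (abs_nonneg _) one_pos.le
      _ = _ := one_mul _
  have h2 := abs_small_le s.2.1 a ha (fun i => sv (s.1.1 i))
  have h3 := abs_small_le s.2.2 lam hΛ (fun i => xU (Matrix.of U) s.1.1 i)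
  have h4 : ∑ i, (sv (s.1.1 i)) ^ 2 = (N : ℝ) := by
    have : ∀ i, (sv (s.1.1 i)) ^ 2 = 1 := fun i => by rw [← sq_abs, sv_abs, one_pow]
    simp [this]
  have h5 : ∑ i, (xU (Matrix.of U) s.1.1 i) ^ 2 = (N : ℝ) := by
    unfold xU
    rw [sq_sum_mulVec hU, Mag.spin_sq_sum]
  rw [h4] at h2
  rw [h5] at h3
  have h6 := hV s.1.1
  have e : HU eig t V a lam U s = t * Mag.qd eig (Matrix.of U) s.1.1 + V s.1.1 +
      (∑ g, ∑ i, a i g * (zf s.2.1 g i * sv (s.1.1 i))) +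
      ∑ g, ∑ i, lam i g * (zf s.2.2 g i * xU (Matrix.of U) s.1.1 i) := by
    unfold HU HS h0q
    ring
  rw [e]
  unfold Ts
  rw [abs_le] at h1 h2 h3 h6 ⊢
  constructor <;> nlinarith [h1.1, h1.2, h2.1, h2.2, h3.1, h3.2, h6.1, h6.2]

/-- the constant of the second moment of the fields -/
def CT (p : Par) (Λ0 Λ Λa BV : ℝ) : ℝ :=
  16 * (Λ0 / 2 + BV + 2 * p.nc * Λa ^ 2 + 2 * p.nc * Λ ^ 2) + 8 * (p.nc * p.T * p.τ) + 32 * p.nc

theorem eE_Ts_HU (hnb : p.nb = 0) (hN : 0 < N) {Λ0 Λ Λa BV : ℝ} (hΛ0 : ∀ i, |eig i| ≤ Λ0)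
    (ht : |t| ≤ 1) (hΛ : ∀ i g, |lam i g| ≤ Λ) (ha : ∀ i g, |a i g| ≤ Λa)
    (hV : ∀ σ, |V σ| ≤ BV * N) {U : Mat N}
    (hU : Matrix.of U ∈ Matrix.orthogonalGroup (Fin N) ℝ) :
    eE (G.PP (base p n A hA) (HU eig t V a lam U) d) (fun ω => Ts ω.1) ≤
      CT p Λ0 Λ Λa BV * N := by
  refine (eE_Ts_le hA hnb _ (fun s => abs_HU_le eig t V a lam hΛ0 ht hΛ ha hV hU s) d).trans ?_
  unfold CT
  have h1 : (1 : ℝ) ≤ N := by exact_mod_cast hN
  have h2 : (0 : ℝ) ≤ p.nc * p.T * p.τ := by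
    have := p.hτ0
    positivity
  nlinarith

/-- averaged energy bound -/
theorem avg_energy (hnb : p.nb = 0) (hN : 0 < N) {Λ0 Λ Λa BV : ℝ} (hΛ0 : ∀ i, |eig i| ≤ Λ0)
    (ht : |t| ≤ 1) (hΛ : ∀ i g, |lam i g| ≤ Λ) (ha : ∀ i g, |a i g| ≤ Λa)
    (hV : ∀ σ, |V σ| ≤ BV * N) {U : Mat N}
    (hU : Matrix.of U ∈ Matrix.specialOrthogonalGroup (Fin N) ℝ) :
    eE (G.PP (base p n A hA) (HU eig t V a lam U) d)
      (fun ω => ∑ i, ∑ j, (ev (Xd i j (pP hA eig t V a lam d ω)) U) ^ 2) ≤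
      4 * (Λ0 ^ 2 + p.nc * Λ ^ 2 * CT p Λ0 Λ Λa BV) * (N : ℝ) ^ 2 := by
  have hP := G.PP_isProb (base p n A hA) (HU eig t V a lam U) d
  have hUo : Matrix.of U ∈ Matrix.orthogonalGroup (Fin N) ℝ :=
    (Matrix.mem_specialOrthogonalGroup_iff.mp hU).1
  refine (eE_mono hP (fun ω => energy_pP hA eig t V a lam d hΛ0 ht hΛ ω hU)).trans ?_
  have e : (fun ω : G.Om (base p n A hA) => 4 * (N : ℝ) * (Λ0 ^ 2 * N + p.nc * Λ ^ 2 * Ts ω.1)) =
      fun ω => 4 * (N : ℝ) * (Λ0 ^ 2 * N) + (4 * N * (p.nc * Λ ^ 2)) * Ts ω.1 := by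
    funext ω; ring
  rw [e, eE_add, eE_const hP, eE_smul]
  have h1 := eE_Ts_HU (n := n) hA eig t V a lam d hnb hN hΛ0 ht hΛ ha hV hUo
  have h2 : (0 : ℝ) ≤ 4 * N * (p.nc * Λ ^ 2) := by positivity
  have h3 := mul_le_mul_of_nonneg_left h1 h2
  nlinarith

/-- the free energy -/
def PhU (n : ℕ) (U : Mat N) : ℝ := G.Phi (base p n A hA) (HU eig t V a lam U) d

theorem C1cl_PhU : C1cl (PhU hA eig t V a lam d n) (ConcA.DE (G.prior (base p n A hA))
    (G.fil (base p n A hA)) p.xs (fun ω U => ev (pP hA eig t V a lam d ω) U)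
      (fun ω i j => ev (Xd i j (pP hA eig t V a lam d ω))) 0) := by
  have h := ConcA.C1cl_eE_At (𝓕 := G.fil (base p n A hA)) (G.prior_isProb (base p n A hA))
    p.xs_expo.pos (h := fun ω U => ev (pP hA eig t V a lam d ω) U)
    (Dh := fun ω i j => ev (Xd i j (pP hA eig t V a lam d ω)))
    (fun ω => C1cl.poly (pP hA eig t V a lam d ω)) 0
  refine h.congr (fun U _ => ?_) (fun U _ i j => rfl)
  unfold PhU G.Phi
  congr 2
  funext ω
  exact ev_pP hA eig t V a lam d ω U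

theorem variance_SO (hnb : p.nb = 0) (hN : 2 < N) {Λ0 Λ Λa BV : ℝ} (hΛ0 : ∀ i, |eig i| ≤ Λ0)
    (ht : |t| ≤ 1) (hΛ : ∀ i g, |lam i g| ≤ Λ) (ha : ∀ i g, |a i g| ≤ Λa)
    (hV : ∀ σ, |V σ| ≤ BV * N) {μ : Measure (Mat N)} [IsProbabilityMeasure μ] (hμ : SOInv μ) :
    ∫ U, (PhU hA eig t V a lam d n U - ∫ V', PhU hA eig t V a lam d n V' ∂μ) ^ 2 ∂μ ≤
      4 * (Λ0 ^ 2 + p.nc * Λ ^ 2 * CT p Λ0 Λ Λa BV) * (N : ℝ) ^ 2 / ((N : ℝ) - 2) := by
  refine (C1cl_PhU (n := n) hA eig t V a lam d).variance_le hμ hN _ ?_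
  filter_upwards [hμ.mem] with U hU
  have h1 := ConcA.En_DE_le (𝓕 := G.fil (base p n A hA)) (G.prior_isProb (base p n A hA))
    p.xs_expo.pos (fun ω U => ev (pP hA eig t V a lam d ω) U)
    (fun ω i j => ev (Xd i j (pP hA eig t V a lam d ω))) 0 U
  refine h1.trans ?_
  have e0 : (fun ω => ev (pP hA eig t V a lam d ω) U) =
      G.UU (base p n A hA) (HU eig t V a lam U) d := by
    funext ω; exact ev_pP hA eig t V a lam d ω U
  rw [e0]
  have hF0 : (G.fil (base p n A hA)).F 0 = ⊤ := SY.fil_zero hA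
  have hPP : tl (G.prior (base p n A hA)) (G.fil (base p n A hA)) p.xs
      (G.UU (base p n A hA) (HU eig t V a lam U) d) =
      G.PP (base p n A hA) (HU eig t V a lam U) d := rfl
  rw [hPP]
  have hQ := G.PP_isProb (base p n A hA) (HU eig t V a lam U) d
  have e1 : cE (G.PP (base p n A hA) (HU eig t V a lam U) d) ((G.fil (base p n A hA)).F 0)
      (fun ω => ConcA.En (fun i j => ev (Xd i j (pP hA eig t V a lam d ω))) U) =
      fun _ => eE (G.PP (base p n A hA) (HU eig t V a lam U) d)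
        (fun ω => ConcA.En (fun i j => ev (Xd i j (pP hA eig t V a lam d ω))) U) := by
    funext ω
    exact ObsConc.cE_top hF0 hQ _ ω
  rw [e1, eE_const (G.prior_isProb _)]
  exact avg_energy (n := n) hA eig t V a lam d hnb (by omega) hΛ0 ht hΛ ha hV hU

end

end Crest.Agent.R164.CSys
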