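import Mathlib
import Crest.Agent.R164.ConcSys3

set_option autoImplicit false

/-!
Row 164, module (Conc): concentration over `O(N)` of the free energy of `Sys164`.
-/

namespace Crest.Agent.R164.CSys

open Finset MeasureTheory
open Crest.Agent.R141
open Crest.Agent.R164 SY
open Crest.Agent.Lib.OrthPoinc
open Crest.ProbabilityR.InvariantGlass
open Crest.Agent.R164.AsConc

noncomputable section

variable {p : Par} {N n : ℕ} {A : Finset (Fin N → Bool)} (hA : A.Nonempty)
  (eig : Fin N → ℝ) (t : ℝ) (V : (Fin N → Bool) → ℝ) (a lam : Fin N → Fin p.nc → ℝ) (d : DD p N)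

/-- flip of all small coins of the first site -/
def kc (c : FC p N n) : FC p N n := fun g i s => if i.val = 0 then !(c g i s) else c g i s

theorem kc_kc (c : FC p N n) : kc (kc c) = c := by
  funext g i s
  unfold kc
  split_ifs <;> simp

theorem zf_kc (c : FC p N n) (g : Fin p.nc) (i : Fin N) :
    zf (kc c) g i = (if i.val = 0 then -1 else 1) * zf c g i := by
  unfold zf kc
  split_ifs with h
  · simp only [sv_not, Finset.sum_neg_distrib]
    ring
  · simp

/-- the symmetry -/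
def kE : G.Om (base p n A hA) ≃ G.Om (base p n A hA) where
  toFun ω := ((ω.1.1, ω.1.2.1, kc ω.1.2.2), ω.2)
  invFun ω := ((ω.1.1, ω.1.2.1, kc ω.1.2.2), ω.2)
  left_inv ω := by
    refine Prod.ext (Prod.ext rfl (Prod.ext rfl ?_)) rfl
    exact kc_kc _
  right_inv ω := by
    refine Prod.ext (Prod.ext rfl (Prod.ext rfl ?_)) rfl
    exact kc_kc _

theorem kc_rel (c c' : FC p N n) (g : Fin p.nc) : kc c g = kc c' g ↔ c g = c' g := by
  constructor
  · intro h
    have h1 := congrArg (fun r : Fin N → Fin n → Bool => fun i s =>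
      if i.val = 0 then !(r i s) else r i s) h
    have e : ∀ c : FC p N n, (fun i s => if (i : Fin N).val = 0 then !(kc c g i s) else kc c g i s) =
        c g := fun c => congrFun (kc_kc c) g
    simp only [e] at h1
    exact h1
  · intro h
    funext i s
    unfold kc
    rw [h]

theorem kE_sym : Sym.IsSym (G.prior (base p n A hA)) (G.fil (base p n A hA)) (kE hA) where
  law ω := rfl
  rel k ω ω' := by
    show G.frel (base p n A hA) k _ _ ↔ G.frel (base p n A hA) k _ _
    constructor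
    · intro h
      refine ⟨h.1, h.2.1, h.2.2.1, fun g hg => ?_, h.2.2.2.2⟩
      exact (kc_rel _ _ g).mp (h.2.2.2.1 g hg)
    · intro h
      refine ⟨h.1, h.2.1, h.2.2.1, fun g hg => ?_, h.2.2.2.2⟩
      exact (kc_rel _ _ g).mpr (h.2.2.2.1 g hg)

theorem xU_flipR (U : Mat N) (σ : Fin N → Bool) (i : Fin N) :
    xU (Matrix.of (flipR U)) σ i = (if i.val = 0 then -1 else 1) * xU (Matrix.of U) σ i := by
  unfold xU
  simp only [Matrix.mulVec, dotProduct, Matrix.of_apply, flipR]
  split_ifs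
  · simp only [neg_mul, Finset.sum_neg_distrib, one_mul]
  · simp

theorem HU_flipR (U : Mat N) (s : SS p n A) :
    HU eig t V a lam (flipR U) s = HU eig t V a lam U (s.1, s.2.1, kc s.2.2) := by
  have hsq : ∀ i : Fin N, ((if i.val = 0 then (-1 : ℝ) else 1)) *
      (if i.val = 0 then (-1 : ℝ) else 1) = 1 := by
    intro i; split_ifs <;> norm_num
  have h1 : Mag.qd eig (Matrix.of (flipR U)) s.1.1 = Mag.qd eig (Matrix.of U) s.1.1 := by
    unfold Mag.qd
    congr 1
    refine Finset.sum_congr rfl fun i _ => ?_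
    have := xU_flipR U s.1.1 i
    unfold xU at this
    rw [this, mul_pow]
    have h2 : ((if i.val = 0 then (-1 : ℝ) else 1)) ^ 2 = 1 := by rw [pow_two]; exact hsq i
    rw [h2, one_mul]
  unfold HU HS h0q
  simp only [h1, xU_flipR, zf_kc]
  congr 1
  refine Finset.sum_congr rfl fun g _ => Finset.sum_congr rfl fun i _ => ?_
  ring

theorem UU_flipR (U : Mat N) (ω : G.Om (base p n A hA)) :
    G.UU (base p n A hA) (HU eig t V a lam (flipR U)) d ω =
      G.UU (base p n A hA) (HU eig t V a lam U) d (kE hA ω) := by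
  have h := HU_flipR eig t V a lam U (n := n) (A := A) ω.1
  show HU eig t V a lam (flipR U) ω.1 + G.WW (base p n A hA) d ω =
    HU eig t V a lam U (ω.1.1, ω.1.2.1, kc ω.1.2.2) + G.WW (base p n A hA) d ω
  exact congrArg (fun z => z + G.WW (base p n A hA) d ω) h

theorem PhU_flipR (U : Mat N) : PhU hA eig t V a lam d n (flipR U) = PhU hA eig t V a lam d n U := by
  unfold PhU G.Phi
  have h1 : R141.A (G.prior (base p n A hA)) (G.fil (base p n A hA)) p.xs
      (G.UU (base p n A hA) (HU eig t V a lam (flipR U)) d) 0 = fun ω =>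
      R141.A (G.prior (base p n A hA)) (G.fil (base p n A hA)) p.xs
      (G.UU (base p n A hA) (HU eig t V a lam U) d) 0 (kE hA ω) := by
    funext ω
    rw [← Sym.A_comp (G.prior_isProb _) p.xs_expo.pos (kE_sym hA)]
    congr 1
    funext ω'
    exact UU_flipR hA eig t V a lam d U ω'
  rw [h1]
  unfold eE
  refine Fintype.sum_bijective (kE hA) (kE hA).bijective _ _ fun ω => ?_
  rw [(kE_sym hA).law]

theorem PhU_toSO (U : Mat N) : PhU hA eig t V a lam d n (toSO U) = PhU hA eig t V a lam d n U := by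
  unfold toSO
  split_ifs
  · rfl
  · exact PhU_flipR hA eig t V a lam d U

theorem measurable_HU (s : SS p n A) : Measurable fun U : Mat N => HU eig t V a lam U s := by
  unfold HU HS h0q xU Mag.qd
  simp only [Matrix.mulVec, dotProduct, Matrix.of_apply]
  fun_prop

theorem continuous_HU (s : SS p n A) : Continuous fun U : Mat N => HU eig t V a lam U s := by
  unfold HU HS h0q xU Mag.qd
  simp only [Matrix.mulVec, dotProduct, Matrix.of_apply]
  fun_prop

theorem measurable_PhU : Measurable (PhU hA eig t V a lam d n) := by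
  unfold PhU G.Phi
  exact G.meas_eE (P := fun _ => G.prior (base p n A hA)) (fun _ => measurable_const)
    (fun ω => G.meas_A (G.prior_isProb _) p.xs_expo.pos
      (fun ω => G.meas_UU (base p n A hA) (H := fun U => HU eig t V a lam U)
        (fun s => measurable_HU eig t V a lam s) d ω) 0 ω)

/-- entries of an orthogonal matrix -/
theorem orth_entries {U : Mat N} (hU : Matrix.of U ∈ Matrix.orthogonalGroup (Fin N) ℝ) :
    ∀ a b, |U a b| ≤ 1 := by
  have h : ∀ a : Fin N, ∑ k, U a k * U a k = 1 := by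
    intro a
    have := congrFun (congrFun ((Matrix.mem_orthogonalGroup_iff (Fin N) ℝ).mp hU) a) a
    simpa [Matrix.mul_apply] using this
  exact abs_le_one_of_rows h

theorem integrable_PhU {ν : Measure (Mat N)} [IsProbabilityMeasure ν]
    (hν : ∀ᵐ U ∂ν, Matrix.of U ∈ Matrix.orthogonalGroup (Fin N) ℝ) :
    Integrable (PhU hA eig t V a lam d n) ν := by
  refine (C1cl_PhU (n := n) hA eig t V a lam d).integrable ?_
  filter_upwards [hν] with U hU
  exact orth_entries hU

/-- the variance constant -/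
def CV (p : Par) (Λ0 Λ Λa BV : ℝ) : ℝ :=
  12 * (Λ0 ^ 2 + p.nc * Λ ^ 2 * CT p Λ0 Λ Λa BV) + 1

variable {ν : Measure (Mat N)} [IsProbabilityMeasure ν]

theorem CT_nonneg {Λ0 Λ Λa BV : ℝ} (h0 : 0 ≤ Λ0) (hB : 0 ≤ BV) : 0 ≤ CT p Λ0 Λ Λa BV := by
  unfold CT
  have := p.hτ0
  positivity

theorem variance_O (hnb : p.nb = 0) (hN : 2 < N) {Λ0 Λ Λa BV : ℝ} (hΛ0 : ∀ i, |eig i| ≤ Λ0)
    (ht : |t| ≤ 1) (hΛ : ∀ i g, |lam i g| ≤ Λ) (ha : ∀ i g, |a i g| ≤ Λa)
    (hV : ∀ σ, |V σ| ≤ BV * N) (hν : OInv ν) :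
    ∫ U, (PhU hA eig t V a lam d n U - ∫ V', PhU hA eig t V a lam d n V' ∂ν) ^ 2 ∂ν ≤
      CV p Λ0 Λ Λa BV * N := by
  have hSO := hν.toSOInv (by omega)
  haveI : IsProbabilityMeasure (ν.map toSO) :=
    Measure.isProbabilityMeasure_map measurable_toSO.aemeasurable
  have hm := measurable_PhU (n := n) hA eig t V a lam d
  have e1 : ∫ V', PhU hA eig t V a lam d n V' ∂ν = ∫ V', PhU hA eig t V a lam d n V' ∂(ν.map toSO) := by
    rw [integral_map measurable_toSO.aemeasurable hm.aestronglyMeasurable]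
    simp only [PhU_toSO]
  have e2 : ∀ c : ℝ, ∫ U, (PhU hA eig t V a lam d n U - c) ^ 2 ∂ν =
      ∫ U, (PhU hA eig t V a lam d n U - c) ^ 2 ∂(ν.map toSO) := by
    intro c
    rw [integral_map measurable_toSO.aemeasurable
      ((hm.sub_const c).pow_const 2).aestronglyMeasurable]
    simp only [PhU_toSO]
  rw [e1, e2]
  refine (variance_SO hA eig t V a lam d hnb hN hΛ0 ht hΛ ha hV hSO).trans ?_
  have hN3 : (3 : ℝ) ≤ N := by exact_mod_cast hN
  have hN2 : (0 : ℝ) < (N : ℝ) - 2 := by linarith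
  have hΛ00 : 0 ≤ Λ0 := (abs_nonneg _).trans (hΛ0 ⟨0, by omega⟩)
  have hBV : 0 ≤ BV := by
    have h1 := (abs_nonneg _).trans (hV (fun _ => true))
    have h2 : (0 : ℝ) < N := by linarith
    by_contra hneg
    push Not at hneg
    nlinarith
  have hCT := CT_nonneg (p := p) (Λ := Λ) (Λa := Λa) hΛ00 hBV
  set c := Λ0 ^ 2 + p.nc * Λ ^ 2 * CT p Λ0 Λ Λa BV with hc
  have hc0 : 0 ≤ c := by positivity
  rw [div_le_iff₀ hN2]
  unfold CV
  rw [← hc]
  nlinarith [mul_nonneg hc0 (by linarith : (0:ℝ) ≤ (N:ℝ)), mul_nonneg (mul_nonneg hc0 (by linarith : (0:ℝ) ≤ (N:ℝ))) (by linarith : (0:ℝ) ≤ (N:ℝ) - 3)]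

theorem CV_pos {Λ0 Λ Λa BV : ℝ} (h0 : 0 ≤ Λ0) (hB : 0 ≤ BV) : 0 < CV p Λ0 Λ Λa BV := by
  have hCT := CT_nonneg (p := p) (Λ := Λ) (Λa := Λa) h0 hB
  unfold CV
  positivity

/-- **Concentration of the free energy over `O(N)`**, first moment. -/
theorem dev_O (hnb : p.nb = 0) (hN : 2 < N) {Λ0 Λ Λa BV : ℝ} (hΛ0 : ∀ i, |eig i| ≤ Λ0)
    (ht : |t| ≤ 1) (hΛ : ∀ i g, |lam i g| ≤ Λ) (ha : ∀ i g, |a i g| ≤ Λa)
    (hV : ∀ σ, |V σ| ≤ BV * N) (hν : OInv ν) :
    ∫ U, |PhU hA eig t V a lam d n U - ∫ V', PhU hA eig t V a lam d n V' ∂ν| ∂ν ≤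
      Real.sqrt (CV p Λ0 Λ Λa BV * N) := by
  have hvar := variance_O (n := n) hA eig t V a lam d hnb hN hΛ0 ht hΛ ha hV hν
  have hN3 : (3 : ℝ) ≤ N := by exact_mod_cast hN
  have hΛ00 : 0 ≤ Λ0 := (abs_nonneg _).trans (hΛ0 ⟨0, by omega⟩)
  have hBV : 0 ≤ BV := by
    have h1 := (abs_nonneg _).trans (hV (fun _ => true))
    have h2 : (0 : ℝ) < N := by linarith
    by_contra hneg
    push Not at hneg
    nlinarith
  have hCV := CV_pos (p := p) (Λ := Λ) (Λa := Λa) hΛ00 hBV
  set m := ∫ V', PhU hA eig t V a lam d n V' ∂ν with hm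
  set s := Real.sqrt (CV p Λ0 Λ Λa BV * N) with hs
  have hspos : 0 < s := Real.sqrt_pos.mpr (by positivity)
  have hss : s * s = CV p Λ0 Λ Λa BV * N := Real.mul_self_sqrt (by positivity)
  have hae : ∀ᵐ U ∂ν, ∀ a b, |U a b| ≤ 1 := by
    filter_upwards [hν.mem] with U hU
    exact orth_entries hU
  have hint2 : Integrable (fun U => (PhU hA eig t V a lam d n U - m) ^ 2) ν :=
    ((C1cl_PhU (n := n) hA eig t V a lam d).sq_sub m).integrable hae
  have hint := integrable_PhU (n := n) hA eig t V a lam d hν.mem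
  have hint1 : Integrable (fun U => |PhU hA eig t V a lam d n U - m|) ν :=
    (hint.sub (integrable_const m)).abs
  have hpt : ∀ U, |PhU hA eig t V a lam d n U - m| ≤
      (1 / (2 * s)) * (PhU hA eig t V a lam d n U - m) ^ 2 + s / 2 := by
    intro U
    set z := PhU hA eig t V a lam d n U - m
    have h1 : 0 ≤ (|z| - s) ^ 2 := sq_nonneg _
    have h2 : |z| ^ 2 = z ^ 2 := sq_abs z
    have h3 : (1 / (2 * s)) * z ^ 2 + s / 2 - |z| = (1 / (2 * s)) * (|z| - s) ^ 2 := by
      field_simp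
      nlinarith [h2]
    have h4 : 0 ≤ (1 / (2 * s)) * (|z| - s) ^ 2 := by positivity
    linarith
  calc ∫ U, |PhU hA eig t V a lam d n U - m| ∂ν ≤
      ∫ U, ((1 / (2 * s)) * (PhU hA eig t V a lam d n U - m) ^ 2 + s / 2) ∂ν :=
        integral_mono hint1 ((hint2.const_mul _).add (integrable_const _)) hpt
    _ = (1 / (2 * s)) * ∫ U, (PhU hA eig t V a lam d n U - m) ^ 2 ∂ν + s / 2 := by
        rw [integral_add (hint2.const_mul _) (integrable_const _), integral_const_mul,
          integral_const]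
        simp
    _ ≤ (1 / (2 * s)) * (s * s) + s / 2 := by
        rw [hss]
        gcongr
    _ = s := by field_simp; ring

end

end Crest.Agent.R164.CSys
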