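import Mathlib

/-!
# Row 164: elementary Haar measure tools on the orthogonal group (helper562)

`Mat ι = ι → ι → ℝ`.  `RHaar μ`: the law `μ` is carried by the orthogonal matrices and is invariant
under right multiplication.  Then it is also left and transpose invariant, and unique.
-/

set_option autoImplicit false

namespace Crest.Agent.R164.Haar

open MeasureTheory Matrix

variable {ι : Type*} [Fintype ι] [DecidableEq ι]

/-- square matrices as functions -/
abbrev Mat (ι : Type*) := ι → ι → ℝ

/-- right multiplication -/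
noncomputable def rmul (O : Matrix ι ι ℝ) (U : Mat ι) : Mat ι := fun i j => (Matrix.of U * O) i j

/-- left multiplication -/
noncomputable def lmul (O : Matrix ι ι ℝ) (U : Mat ι) : Mat ι := fun i j => (O * Matrix.of U) i j

/-- transposition -/
def tr (U : Mat ι) : Mat ι := fun i j => U j i

/-- right-invariant law on the orthogonal group -/
structure RHaar (μ : Measure (Mat ι)) : Prop where
  mem : ∀ᵐ U ∂μ, Matrix.of U ∈ Matrix.orthogonalGroup ι ℝ
  inv : ∀ O ∈ Matrix.orthogonalGroup ι ℝ, μ.map (rmul O) = μ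

/-- left-invariant law on the orthogonal group -/
structure LHaar (μ : Measure (Mat ι)) : Prop where
  mem : ∀ᵐ U ∂μ, Matrix.of U ∈ Matrix.orthogonalGroup ι ℝ
  inv : ∀ O ∈ Matrix.orthogonalGroup ι ℝ, μ.map (lmul O) = μ

omit [DecidableEq ι] in
theorem rmul_apply (O : Matrix ι ι ℝ) (U : Mat ι) (i j : ι) :
    rmul O U i j = ∑ k, U i k * O k j := rfl

omit [DecidableEq ι] in
theorem lmul_apply (O : Matrix ι ι ℝ) (U : Mat ι) (i j : ι) :
    lmul O U i j = ∑ k, O i k * U k j := rfl

omit [DecidableEq ι] in
theorem continuous_rmul (O : Matrix ι ι ℝ) : Continuous (rmul O) := by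
  refine continuous_pi fun i => continuous_pi fun j => ?_
  simp only [rmul_apply]
  fun_prop

omit [DecidableEq ι] in
theorem continuous_lmul (O : Matrix ι ι ℝ) : Continuous (lmul O) := by
  refine continuous_pi fun i => continuous_pi fun j => ?_
  simp only [lmul_apply]
  fun_prop

omit [DecidableEq ι] [Fintype ι] in
theorem continuous_tr : Continuous (tr : Mat ι → Mat ι) := by
  refine continuous_pi fun i => continuous_pi fun j => ?_
  simp only [tr]
  fun_prop

omit [DecidableEq ι] in
/-- joint multiplication -/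
theorem continuous_mul2 : Continuous (fun p : Mat ι × Mat ι => rmul (Matrix.of p.2) p.1) := by
  refine continuous_pi fun i => continuous_pi fun j => ?_
  simp only [rmul_apply, Matrix.of_apply]
  fun_prop

omit [DecidableEq ι] [Fintype ι] in
@[simp] theorem tr_tr (U : Mat ι) : tr (tr U) = U := rfl

omit [DecidableEq ι] in
theorem tr_rmul (O : Matrix ι ι ℝ) (U : Mat ι) : tr (rmul O U) = lmul Oᵀ (tr U) := by
  funext i j
  simp only [tr, rmul_apply, lmul_apply, Matrix.transpose_apply]
  exact Finset.sum_congr rfl fun k _ => mul_comm _ _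

omit [DecidableEq ι] in
theorem tr_lmul (O : Matrix ι ι ℝ) (U : Mat ι) : tr (lmul O U) = rmul Oᵀ (tr U) := by
  funext i j
  simp only [tr, rmul_apply, lmul_apply, Matrix.transpose_apply]
  exact Finset.sum_congr rfl fun k _ => mul_comm _ _

omit [DecidableEq ι] in
theorem rmul_eq_lmul (U V : Mat ι) : rmul (Matrix.of V) U = lmul (Matrix.of U) V := rfl

theorem transpose_mem {O : Matrix ι ι ℝ} (hO : O ∈ Matrix.orthogonalGroup ι ℝ) :
    Oᵀ ∈ Matrix.orthogonalGroup ι ℝ := by
  rw [Matrix.mem_orthogonalGroup_iff'] at hO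
  rw [Matrix.mem_orthogonalGroup_iff]
  simpa [Matrix.star_eq_conjTranspose] using hO

theorem of_tr_mem {U : Mat ι} (hU : Matrix.of U ∈ Matrix.orthogonalGroup ι ℝ) :
    Matrix.of (tr U) ∈ Matrix.orthogonalGroup ι ℝ := by
  have : Matrix.of (tr U) = (Matrix.of U)ᵀ := rfl
  rw [this]; exact transpose_mem hU

theorem measurableSet_orth : MeasurableSet {U : Mat ι | Matrix.of U ∈ Matrix.orthogonalGroup ι ℝ} := by
  have : IsClosed {U : Mat ι | Matrix.of U ∈ Matrix.orthogonalGroup ι ℝ} := by
    have h1 : {U : Mat ι | Matrix.of U ∈ Matrix.orthogonalGroup ι ℝ} =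
        {U : Mat ι | ∀ i j, ∑ k, U i k * U j k = (1 : Matrix ι ι ℝ) i j} := by
      ext U
      simp only [Set.mem_ofPred_eq, Matrix.mem_orthogonalGroup_iff, ← Matrix.ext_iff]
      rfl
    rw [h1]
    simp only [Set.ofPred_forall]
    refine isClosed_iInter fun i => isClosed_iInter fun j => isClosed_eq ?_ continuous_const
    fun_prop
  exact this.measurableSet

theorem RHaar.tr {μ : Measure (Mat ι)} (h : RHaar μ) : LHaar (μ.map Haar.tr) where
  mem := by
    rw [ae_map_iff continuous_tr.aemeasurable]
    · filter_upwards [h.mem] with U hU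
      exact of_tr_mem hU
    · exact measurableSet_orth
  inv O hO := by
    rw [Measure.map_map (continuous_lmul O).measurable continuous_tr.measurable]
    have : lmul O ∘ Haar.tr = Haar.tr ∘ rmul (Oᵀ) := by
      funext U
      simp only [Function.comp_apply, tr_rmul, Matrix.transpose_transpose]
    rw [this, ← Measure.map_map continuous_tr.measurable (continuous_rmul _).measurable,
      h.inv _ (transpose_mem hO)]

/-- a right-invariant and a left-invariant law coincide -/
theorem unique_aux {μ ν : Measure (Mat ι)} [IsProbabilityMeasure μ] [IsProbabilityMeasure ν]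
    (hμ : RHaar μ) (hν : LHaar ν) : μ = ν := by
  ext A hA
  have hS : MeasurableSet ((fun p : Mat ι × Mat ι => rmul (Matrix.of p.2) p.1) ⁻¹' A) :=
    continuous_mul2.measurable hA
  have h1 : (μ.prod ν) ((fun p : Mat ι × Mat ι => rmul (Matrix.of p.2) p.1) ⁻¹' A) = μ A := by
    rw [Measure.prod_apply_symm hS]
    have : ∀ᵐ V ∂ν, μ ((fun x => (x, V)) ⁻¹'
        ((fun p : Mat ι × Mat ι => rmul (Matrix.of p.2) p.1) ⁻¹' A)) = μ A := by
      filter_upwards [hν.mem] with V hV
      conv_rhs => rw [← hμ.inv _ hV]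
      rw [Measure.map_apply (continuous_rmul _).measurable hA]
      rfl
    rw [lintegral_congr_ae this]
    simp
  have h2 : (μ.prod ν) ((fun p : Mat ι × Mat ι => rmul (Matrix.of p.2) p.1) ⁻¹' A) = ν A := by
    rw [Measure.prod_apply hS]
    have : ∀ᵐ U ∂μ, ν (Prod.mk U ⁻¹'
        ((fun p : Mat ι × Mat ι => rmul (Matrix.of p.2) p.1) ⁻¹' A)) = ν A := by
      filter_upwards [hμ.mem] with U hU
      conv_rhs => rw [← hν.inv _ hU]
      rw [Measure.map_apply (continuous_lmul _).measurable hA]
      rfl
    rw [lintegral_congr_ae this]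
    simp
  rw [← h1, h2]

variable {μ ν : Measure (Mat ι)} [IsProbabilityMeasure μ] [IsProbabilityMeasure ν]

instance : IsProbabilityMeasure (μ.map (tr : Mat ι → Mat ι)) :=
  Measure.isProbabilityMeasure_map continuous_tr.aemeasurable

/-- **transpose invariance** -/
theorem RHaar.map_tr (hμ : RHaar μ) : μ.map Haar.tr = μ := (unique_aux hμ hμ.tr).symm

/-- **left invariance** -/
theorem RHaar.left (hμ : RHaar μ) : LHaar μ := by
  have := hμ.tr
  rwa [hμ.map_tr] at this

/-- **uniqueness** -/
theorem RHaar.unique (hμ : RHaar μ) (hν : RHaar ν) : μ = ν := unique_aux hμ hν.left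

theorem LHaar.right (hμ : LHaar μ) : RHaar μ := by
  have h1 : RHaar (μ.map Haar.tr) := by
    refine ⟨?_, ?_⟩
    · rw [ae_map_iff continuous_tr.aemeasurable measurableSet_orth]
      filter_upwards [hμ.mem] with U hU
      exact of_tr_mem hU
    · intro O hO
      rw [Measure.map_map (continuous_rmul O).measurable continuous_tr.measurable]
      have : rmul O ∘ Haar.tr = Haar.tr ∘ lmul (Oᵀ) := by
        funext U
        simp only [Function.comp_apply, tr_lmul, Matrix.transpose_transpose]
      rw [this, ← Measure.map_map continuous_tr.measurable (continuous_lmul _).measurable,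
        hμ.inv _ (transpose_mem hO)]
  have h2 := unique_aux h1 hμ
  rwa [h2] at h1

/-- two-sided invariance -/
theorem RHaar.map_both (hμ : RHaar μ) {O O' : Matrix ι ι ℝ}
    (hO : O ∈ Matrix.orthogonalGroup ι ℝ) (hO' : O' ∈ Matrix.orthogonalGroup ι ℝ) :
    μ.map (fun U => lmul O (rmul O' U)) = μ := by
  have : (fun U => lmul O (rmul O' U)) = lmul O ∘ rmul O' := rfl
  rw [this, ← Measure.map_map (continuous_lmul _).measurable (continuous_rmul _).measurable,
    hμ.inv _ hO', hμ.left.inv _ hO]

/-! ### integrals -/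

theorem RHaar.integral_lmul {E : Type*} [NormedAddCommGroup E] [NormedSpace ℝ E]
    (hμ : RHaar μ) {O : Matrix ι ι ℝ} (hO : O ∈ Matrix.orthogonalGroup ι ℝ)
    (f : Mat ι → E) (hf : AEStronglyMeasurable f μ) : ∫ U, f (lmul O U) ∂μ = ∫ U, f U ∂μ := by
  have h := hμ.left.inv O hO
  have hf' : AEStronglyMeasurable f (μ.map (lmul O)) := by rw [h]; exact hf
  have := integral_map (continuous_lmul O).aemeasurable hf'
  rw [h] at this
  exact this.symm

theorem RHaar.integral_rmul {E : Type*} [NormedAddCommGroup E] [NormedSpace ℝ E]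
    (hμ : RHaar μ) {O : Matrix ι ι ℝ} (hO : O ∈ Matrix.orthogonalGroup ι ℝ)
    (f : Mat ι → E) (hf : AEStronglyMeasurable f μ) : ∫ U, f (rmul O U) ∂μ = ∫ U, f U ∂μ := by
  have h := hμ.inv O hO
  have hf' : AEStronglyMeasurable f (μ.map (rmul O)) := by rw [h]; exact hf
  have := integral_map (continuous_rmul O).aemeasurable hf'
  rw [h] at this
  exact this.symm

theorem abs_le_one_of_orth {U : Mat ι} (hU : Matrix.of U ∈ Matrix.orthogonalGroup ι ℝ) (a b : ι) :
    |U a b| ≤ 1 := by
  rw [Matrix.mem_orthogonalGroup_iff] at hU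
  have h1 : ∑ k, U a k * U a k = 1 := by
    have := congrFun (congrFun hU a) a
    simpa [Matrix.mul_apply] using this
  have h2 : U a b * U a b ≤ ∑ k, U a k * U a k :=
    Finset.single_le_sum (f := fun k => U a k * U a k) (fun k _ => mul_self_nonneg _)
      (Finset.mem_univ b)
  rw [h1] at h2
  rw [abs_le_one_iff_mul_self_le_one]
  exact h2


/-! ### left rotations of two rows -/

/-- Rotation by the angle `t` of the rows `k`, `l`: `U_k ↦ cos t U_k + sin t U_l`,
`U_l ↦ cos t U_l - sin t U_k`. -/
noncomputable def lrot (k l : ι) (t : ℝ) (U : Mat ι) : Mat ι := fun a b =>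
  if a = k then Real.cos t * U k b + Real.sin t * U l b
  else if a = l then Real.cos t * U l b - Real.sin t * U k b else U a b

/-- the rotation matrix -/
noncomputable def LR (k l : ι) (t : ℝ) : Matrix ι ι ℝ := fun a b =>
  if a = k then Real.cos t * (if k = b then 1 else 0) + Real.sin t * (if l = b then 1 else 0)
  else if a = l then Real.cos t * (if l = b then 1 else 0) - Real.sin t * (if k = b then 1 else 0)
  else if a = b then 1 else 0

theorem lrot_eq_lmul (k l : ι) (t : ℝ) (U : Mat ι) : lrot k l t U = lmul (LR k l t) U := by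
  funext a b
  rw [lmul_apply]
  unfold lrot LR
  split_ifs with h1 h2
  · simp [add_mul, Finset.sum_add_distrib]
  · simp [sub_mul, Finset.sum_sub_distrib]
  · simp

omit [Fintype ι] in
theorem lrot_zero (k l : ι) (U : Mat ι) : lrot k l 0 U = U := by
  funext a b
  unfold lrot
  split_ifs with h1 h2 <;> simp [*]

omit [Fintype ι] in
theorem lrot_lrot (k l : ι) (hkl : k ≠ l) (s t : ℝ) (U : Mat ι) :
    lrot k l s (lrot k l t U) = lrot k l (s + t) U := by
  funext a b
  unfold lrot
  by_cases h1 : a = k
  · simp only [h1, if_true, if_neg hkl.symm]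
    rw [Real.cos_add, Real.sin_add]; ring
  · by_cases h2 : a = l
    · subst h2
      simp only [if_neg h1, if_true]
      rw [Real.cos_add, Real.sin_add]; ring
    · simp [h1, h2]

omit [Fintype ι] in
theorem LR_transpose (k l : ι) (hkl : k ≠ l) (t : ℝ) : (LR k l t)ᵀ = LR k l (-t) := by
  ext a b
  rw [Matrix.transpose_apply]
  unfold LR
  rw [Real.cos_neg, Real.sin_neg]
  have hlk : l ≠ k := hkl.symm
  by_cases ha : a = k
  · subst ha
    by_cases hb : b = a
    · subst hb; simp [hlk]
    · by_cases hb2 : b = l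
      · subst hb2; simp [hb, hkl]
      · simp [hb, hb2, Ne.symm hb, Ne.symm hb2]
  · by_cases ha2 : a = l
    · subst ha2
      by_cases hb : b = k
      · subst hb; simp [hkl, hlk]
      · by_cases hb2 : b = a
        · subst hb2; simp [hkl, hlk]
        · simp [hb, hb2, hlk, Ne.symm hb2, Ne.symm hb]
    · by_cases hb : b = k
      · subst hb; simp [ha, ha2, Ne.symm ha, Ne.symm ha2]
      · by_cases hb2 : b = l
        · subst hb2; simp [ha, ha2, Ne.symm ha2, Ne.symm ha, hb]
        · simp [ha, ha2, hb, hb2, eq_comm]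

theorem LR_mul (k l : ι) (hkl : k ≠ l) (s t : ℝ) : LR k l s * LR k l t = LR k l (s + t) := by
  have h1 : ∀ t, (LR k l t : Matrix ι ι ℝ) =
      Matrix.of (lrot k l t (fun a b => if a = b then 1 else 0)) := by
    intro t; rfl
  have h2 : LR k l s * LR k l t =
      Matrix.of (lmul (LR k l s) (lrot k l t (fun a b => if a = b then 1 else 0))) := by
    rw [h1 t]; rfl
  rw [h2, ← lrot_eq_lmul, lrot_lrot k l hkl, ← h1]

omit [Fintype ι] in
theorem LR_zero (k l : ι) : LR k l 0 = (1 : Matrix ι ι ℝ) := by
  ext a b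
  have := congrFun (congrFun (lrot_zero k l (fun a b : ι => if a = b then (1 : ℝ) else 0)) a) b
  exact this

theorem LR_mem (k l : ι) (hkl : k ≠ l) (t : ℝ) : LR k l t ∈ Matrix.orthogonalGroup ι ℝ := by
  rw [Matrix.mem_orthogonalGroup_iff', LR_transpose k l hkl, LR_mul k l hkl, neg_add_cancel,
    LR_zero]

theorem RHaar.integral_lrot {E : Type*} [NormedAddCommGroup E] [NormedSpace ℝ E]
    (hμ : RHaar μ) {k l : ι} (hkl : k ≠ l) (t : ℝ) (f : Mat ι → E)
    (hf : AEStronglyMeasurable f μ) : ∫ U, f (lrot k l t U) ∂μ = ∫ U, f U ∂μ := by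
  simp only [lrot_eq_lmul]
  exact hμ.integral_lmul (LR_mem k l hkl t) f hf

theorem lrot_mem {k l : ι} (hkl : k ≠ l) (t : ℝ) {U : Mat ι}
    (hU : Matrix.of U ∈ Matrix.orthogonalGroup ι ℝ) :
    Matrix.of (lrot k l t U) ∈ Matrix.orthogonalGroup ι ℝ := by
  rw [lrot_eq_lmul]
  exact mul_mem (LR_mem k l hkl t) hU

/-- **Integration by parts along left rotations.**  `Df` is the derivative of `f` along the
rotation of the rows `k`, `l` at every orthogonal matrix. -/
theorem RHaar.ibp (hμ : RHaar μ) {k l : ι} (hkl : k ≠ l) (f Df : Mat ι → ℝ)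
    (hf : Measurable f) (K C : ℝ)
    (hK : ∀ U : Mat ι, Matrix.of U ∈ Matrix.orthogonalGroup ι ℝ → |f U| ≤ K)
    (hD : ∀ U : Mat ι, Matrix.of U ∈ Matrix.orthogonalGroup ι ℝ →
      HasDerivAt (fun t => f (lrot k l t U)) (Df U) 0)
    (hC : ∀ U : Mat ι, Matrix.of U ∈ Matrix.orthogonalGroup ι ℝ → |Df U| ≤ C) :
    ∫ U, Df U ∂μ = 0 := by
  -- derivative at every time
  have hDt : ∀ U : Mat ι, Matrix.of U ∈ Matrix.orthogonalGroup ι ℝ → ∀ t : ℝ,
      HasDerivAt (fun t => f (lrot k l t U)) (Df (lrot k l t U)) t := by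
    intro U hU t
    have h1 := hD (lrot k l t U) (lrot_mem hkl t hU)
    have h2 : (fun s => f (lrot k l s (lrot k l t U))) = fun s => f (lrot k l (s + t) U) := by
      funext s; rw [lrot_lrot k l hkl]
    rw [h2] at h1
    have h3 := HasDerivAt.comp_sub_const t t (f := fun s => f (lrot k l (s + t) U))
      (f' := Df (lrot k l t U)) (by simpa using h1)
    simpa using h3
  have hLip : ∀ U : Mat ι, Matrix.of U ∈ Matrix.orthogonalGroup ι ℝ → ∀ t : ℝ,
      |f (lrot k l t U) - f U| ≤ C * |t| := by
    intro U hU t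
    have h1 := Convex.norm_image_sub_le_of_norm_hasDerivWithin_le (s := Set.univ)
      (f := fun t => f (lrot k l t U)) (f' := fun t => Df (lrot k l t U)) (C := C)
      (fun x _ => (hDt U hU x).hasDerivWithinAt)
      (fun x _ => by rw [Real.norm_eq_abs]; exact hC _ (lrot_mem hkl x hU)) convex_univ
      (Set.mem_univ 0) (Set.mem_univ t)
    simpa [lrot_zero] using h1
  let tn : ℕ → ℝ := fun n => 1 / ((n : ℝ) + 1)
  have htn : ∀ n, 0 < tn n := fun n => by positivity
  have hlim0 : Filter.Tendsto tn Filter.atTop (nhds 0) := tendsto_one_div_add_atTop_nhds_zero_nat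
  let F : ℕ → Mat ι → ℝ := fun n U => (f (lrot k l (tn n) U) - f U) / tn n
  have hmeas : ∀ t, Measurable (fun U => f (lrot k l t U)) := by
    intro t
    have h1 : (fun U => f (lrot k l t U)) = f ∘ lmul (LR k l t) := by
      funext U; simp [lrot_eq_lmul]
    rw [h1]
    exact hf.comp (continuous_lmul _).measurable
  have hFmeas : ∀ n, Measurable (F n) := fun n => ((hmeas _).sub hf).div_const _
  have hint : ∀ t, Integrable (fun U => f (lrot k l t U)) μ := by
    intro t
    refine Integrable.of_bound (hmeas t).aestronglyMeasurable K ?_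
    filter_upwards [hμ.mem] with U hU
    rw [Real.norm_eq_abs]
    exact hK _ (lrot_mem hkl t hU)
  have hint0 : Integrable f μ := by
    have := hint 0
    simpa [lrot_zero] using this
  have hF0 : ∀ n, ∫ U, F n U ∂μ = 0 := by
    intro n
    have h1 : ∫ U, F n U ∂μ = (∫ U, (f (lrot k l (tn n) U) - f U) ∂μ) / tn n :=
      integral_div _ _
    rw [h1, integral_sub (hint _) hint0, hμ.integral_lrot hkl _ f hf.aestronglyMeasurable, sub_self,
      zero_div]
  have hlim : Filter.Tendsto (fun n => ∫ U, F n U ∂μ) Filter.atTop (nhds (∫ U, Df U ∂μ)) := by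
    refine tendsto_integral_of_dominated_convergence (fun _ => C)
      (fun n => (hFmeas n).aestronglyMeasurable) (integrable_const _) ?_ ?_
    · intro n
      filter_upwards [hμ.mem] with U hU
      have h1 := hLip U hU (tn n)
      rw [abs_of_pos (htn n)] at h1
      rw [Real.norm_eq_abs]
      change |(f (lrot k l (tn n) U) - f U) / tn n| ≤ C
      rw [abs_div, abs_of_pos (htn n), div_le_iff₀ (htn n)]
      exact h1
    · filter_upwards [hμ.mem] with U hU
      have h1 := (hD U hU)
      rw [hasDerivAt_iff_tendsto_slope] at h1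
      have h2 : Filter.Tendsto tn Filter.atTop (nhdsWithin 0 {(0 : ℝ)}ᶜ) := by
        rw [tendsto_nhdsWithin_iff]
        exact ⟨hlim0, Filter.Eventually.of_forall fun n => (htn n).ne'⟩
      have h3 := h1.comp h2
      refine h3.congr fun n => ?_
      simp only [Function.comp_apply, slope_def_field, lrot_zero, sub_zero, F]
  have h0 : (fun n => ∫ U, F n U ∂μ) = fun _ => (0 : ℝ) := funext hF0
  rw [h0] at hlim
  exact (tendsto_nhds_unique hlim tendsto_const_nhds)

omit [Fintype ι] in
/-- derivative of an entry along the left rotation -/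
theorem hasDerivAt_lrot_entry {k l : ι} (hkl : k ≠ l) (U : Mat ι) (a b : ι) :
    HasDerivAt (fun t => lrot k l t U a b)
      ((if a = k then U l b else 0) - (if a = l then U k b else 0)) 0 := by
  unfold lrot
  by_cases h1 : a = k
  · subst h1
    simp only [if_true, if_neg hkl]
    have := ((Real.hasDerivAt_cos 0).mul_const (U a b)).add
      ((Real.hasDerivAt_sin 0).mul_const (U l b))
    exact this.congr_deriv (by simp)
  · by_cases h2 : a = l
    · subst h2
      simp only [if_neg h1, if_true]
      have := ((Real.hasDerivAt_cos 0).mul_const (U a b)).sub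
        ((Real.hasDerivAt_sin 0).mul_const (U k b))
      exact this.congr_deriv (by simp)
    · simp only [if_neg h1, if_neg h2]
      simpa using hasDerivAt_const (0 : ℝ) (U a b)

/-- the rotated vector: `x = U s`, `dx_k = x_l`, `dx_l = - x_k` -/
theorem hasDerivAt_lrot_mulVec {k l : ι} (hkl : k ≠ l) (U : Mat ι) (s : ι → ℝ) (a : ι) :
    HasDerivAt (fun t => (Matrix.of (lrot k l t U)).mulVec s a)
      ((if a = k then (Matrix.of U).mulVec s l else 0) -
        (if a = l then (Matrix.of U).mulVec s k else 0)) 0 := by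
  have h1 : (fun t => (Matrix.of (lrot k l t U)).mulVec s a) =
      fun t => ∑ b, lrot k l t U a b * s b := rfl
  rw [h1]
  have h2 : HasDerivAt (fun t => ∑ b, lrot k l t U a b * s b)
      (∑ b, ((if a = k then U l b else 0) - (if a = l then U k b else 0)) * s b) 0 := by
    have := HasDerivAt.fun_sum (u := Finset.univ) (A := fun b t => lrot k l t U a b * s b)
      (A' := fun b => ((if a = k then U l b else 0) - (if a = l then U k b else 0)) * s b)
      (x := (0 : ℝ)) (fun b _ => (hasDerivAt_lrot_entry hkl U a b).mul_const (s b))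
    exact this
  refine h2.congr_deriv ?_
  simp only [sub_mul, Finset.sum_sub_distrib, ite_mul, zero_mul]
  congr 1
  · by_cases h : a = k
    · simp only [h, if_true]; rfl
    · simp only [h, if_false, Finset.sum_const_zero]
  · by_cases h : a = l
    · simp only [h, if_true]; rfl
    · simp only [h, if_false, Finset.sum_const_zero]

/-- the energy `½ Σ_i e_i (U s)_i²` changes at rate `(e_k - e_l) x_k x_l` -/
theorem hasDerivAt_lrot_energy {k l : ι} (hkl : k ≠ l) (e : ι → ℝ) (U : Mat ι) (s : ι → ℝ) :
    HasDerivAt (fun t => (1 / 2) * ∑ i, e i * ((Matrix.of (lrot k l t U)).mulVec s i) ^ 2)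
      ((e k - e l) * ((Matrix.of U).mulVec s k * (Matrix.of U).mulVec s l)) 0 := by
  have h1 : HasDerivAt (fun t => ∑ i, e i * ((Matrix.of (lrot k l t U)).mulVec s i) ^ 2)
      (∑ i, e i * (2 * (Matrix.of U).mulVec s i * ((if i = k then (Matrix.of U).mulVec s l else 0) -
        (if i = l then (Matrix.of U).mulVec s k else 0)))) 0 := by
    have := HasDerivAt.fun_sum (u := Finset.univ)
      (A := fun i t => e i * ((Matrix.of (lrot k l t U)).mulVec s i) ^ 2)
      (A' := fun i => e i * (2 * (Matrix.of U).mulVec s i *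
        ((if i = k then (Matrix.of U).mulVec s l else 0) -
        (if i = l then (Matrix.of U).mulVec s k else 0))))
      (x := (0 : ℝ)) (fun i _ => by
        have h := (hasDerivAt_lrot_mulVec hkl U s i).pow 2
        have h2 := h.const_mul (e i)
        refine h2.congr_deriv ?_
        rw [lrot_zero]
        push_cast
        ring)
    exact this
  refine (h1.const_mul (1 / 2)).congr_deriv ?_
  simp only [mul_sub, mul_ite, mul_zero, Finset.sum_sub_distrib, Finset.sum_ite_eq',
    Finset.mem_univ, if_true]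
  ring

end Crest.Agent.R164.Haar
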