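import Crest.Agent.R164.LPen2
import Crest.Agent.R164.Sys164
import Crest.Agent.R164.Haar

/-!
Row 164, L side (helper893): DEFINITION OF THE L SYSTEM (note 7486 (0)).

Labels: `kap` (eigenvalue label of the row `i`), `lab` (group of the site `i`).  Parameters `θ`:
linear fields `el j`, main strengths `am j g` (zero on the inactive cells), small strengths `lm k g`
(including the factor `sqrt η`).  Penalty: `Mag.PEN c t Kp lab` of helper552.
-/

set_option autoImplicit false

namespace Crest.Agent.R164.LD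

open Finset MeasureTheory Crest.Agent.R141 Crest.Agent.R164 Crest.Agent.R164.Haar
open Crest.ProbabilityR.InvariantGlass (spinVec)

noncomputable section

/-- parameters of the L system -/
structure Prm (p : Par) (K J : ℕ) where
  /-- linear fields of the groups -/
  el : Fin J → ℝ
  /-- main strengths of the groups -/
  am : Fin J → Fin p.nc → ℝ
  /-- small strengths of the blocks -/
  lm : Fin (K + 1) → Fin p.nc → ℝ

variable {p : Par} {N K J : ℕ}

theorem univ_ne (N : ℕ) : (Finset.univ : Finset (Fin N → Bool)).Nonempty := Finset.univ_nonempty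

/-- the base system: all spin configurations, `n` coins per field -/
abbrev B (p : Par) (N n : ℕ) : G.Base p N := SY.base p n Finset.univ (univ_ne N)

/-- penalty plus linear fields -/
def VL (c t : Fin J → ℝ) (Kp : ℝ) (el : Fin J → ℝ) (lab : Fin N → Fin J)
    (σ : Fin N → Bool) : ℝ :=
  Mag.PEN c t Kp lab σ + ∑ i, el (lab i) * spinVec σ i

/-- The Hamiltonian of the L system. -/
def HL (n : ℕ) (val : Fin (K + 1) → ℝ) (c t : Fin J → ℝ) (Kp : ℝ) (θ : Prm p K J)
    (kap : Fin N → Fin (K + 1)) (lab : Fin N → Fin J) (U : Mat (Fin N)) :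
    SY.SS p n (Finset.univ : Finset (Fin N → Bool)) → ℝ :=
  SY.HS (SY.h0q (fun i => val (kap i)) (Matrix.of U) 1 (VL c t Kp θ.el lab))
    (fun i g => θ.am (lab i) g) (fun i g => θ.lm (kap i) g) (SY.xU (Matrix.of U))

/-- enriched free energy at a given matrix `U`, averaged over the pointers `d`
(not divided by `N`) -/
def PhU (n : ℕ) (val : Fin (K + 1) → ℝ) (c t : Fin J → ℝ) (Kp : ℝ) (θ : Prm p K J)
    (kap : Fin N → Fin (K + 1)) (lab : Fin N → Fin J) (U : Mat (Fin N)) : ℝ :=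
  G.EPhi (B p N n) (HL n val c t Kp θ kap lab U)

/-- averaged enriched free energy (not divided by `N`) -/
def EPh (mu : Measure (Mat (Fin N))) (n : ℕ) (val : Fin (K + 1) → ℝ) (c t : Fin J → ℝ) (Kp : ℝ)
    (θ : Prm p K J) (kap : Fin N → Fin (K + 1)) (lab : Fin N → Fin J) : ℝ :=
  ∫ U, PhU n val c t Kp θ kap lab U ∂mu

/-- the tilted law -/
def PL (n : ℕ) (val : Fin (K + 1) → ℝ) (c t : Fin J → ℝ) (Kp : ℝ) (θ : Prm p K J)
    (kap : Fin N → Fin (K + 1)) (lab : Fin N → Fin J) (U : Mat (Fin N)) (d : DD p N) :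
    G.Om (B p N n) → ℝ :=
  G.PP (B p N n) (HL n val c t Kp θ kap lab U) d

/-- average of an observable over `U`, `d` and the tilted law -/
def EO (mu : Measure (Mat (Fin N))) (n : ℕ) (val : Fin (K + 1) → ℝ) (c t : Fin J → ℝ) (Kp : ℝ)
    (θ : Prm p K J) (kap : Fin N → Fin (K + 1)) (lab : Fin N → Fin J)
    (O : Mat (Fin N) → DD p N → G.Om (B p N n) → ℝ) : ℝ :=
  ∫ U, Ed p N (fun d => eE (PL n val c t Kp θ kap lab U d) (O U d)) ∂mu

/-- group average of the main field observable: `r_j⁻¹ Σ_{i ∈ j} z_{g,i} s_i` -/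
def TO (n : ℕ) (lab : Fin N → Fin J) (j : Fin J) (g : Fin p.nc) (ω : G.Om (B p N n)) : ℝ :=
  (Mag.rJ lab j)⁻¹ * ∑ i, if lab i = j then SY.zf ω.1.2.1 g i * sv (ω.1.1.1 i) else 0

/-- the group overlap at level `l`: `r_j⁻¹ Σ_{i ∈ j} (E_l s_i)^2` -/
def RJ (n : ℕ) (P : G.Om (B p N n) → ℝ) (lab : Fin N → Fin J) (j : Fin J) (l : ℕ)
    (ω : G.Om (B p N n)) : ℝ :=
  (Mag.rJ lab j)⁻¹ * ∑ i, if lab i = j then
    (cE P ((G.fil (B p N n)).F l) (fun ω => sv (ω.1.1.1 i)) ω) ^ 2 else 0

/-- magnetisation of the group `j` -/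
def MO (n : ℕ) (lab : Fin N → Fin J) (j : Fin J) (ω : G.Om (B p N n)) : ℝ :=
  Mag.mag lab ω.1.1.1 j

end

end Crest.Agent.R164.LD
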