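import Mathlib
import Crest.Agent.R141.CoinSys

set_option autoImplicit false

/-!
Row 164, module (Conc): integration by parts for one fair coin under the tilted hierarchical law.
-/

namespace Crest.Agent.R164.CoinIBP

open Finset
open Crest.Agent.R141

noncomputable section

variable {Ω : Type*} [Fintype Ω] {P Q : Ω → ℝ} {𝓕 : Filt Ω} {x : ℕ → ℝ} {k : ℕ}
  {s : Ω → ℝ} {ι : Ω → Ω}

/-- the total weight of the coin branch: `x_k A_k[w] + S_{k,L}[w]` -/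
def bw (Q : Ω → ℝ) (𝓕 : Filt Ω) (x : ℕ → ℝ) (k : ℕ) (w : Ω → ℝ) (ω : Ω) : ℝ :=
  x k * A Q 𝓕 x w k ω + S Q 𝓕 x w k 𝓕.L ω

/-- `th b = tanh (b/2)` -/
def th (b : ℝ) : ℝ := (Real.exp b - 1) / (Real.exp b + 1)

theorem th_mul (b : ℝ) : th b * (1 + Real.exp b) = Real.exp b - 1 := by
  unfold th
  have : Real.exp b + 1 ≠ 0 := by positivity
  field_simp
  ring

theorem abs_th_sub_le {b : ℝ} (hb : |b| ≤ 1) : |th b - b / 2| ≤ 2 * b ^ 2 := by
  have h1 := Real.abs_exp_sub_one_sub_id_le hb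
  set r := Real.exp b - 1 - b with hr
  have he : Real.exp b = 1 + b + r := by rw [hr]; ring
  have hpos := Real.exp_pos b
  have e1 : th b - b / 2 = (2 * r - b ^ 2 - b * r) / (2 * (Real.exp b + 1)) := by
    unfold th
    have : Real.exp b + 1 ≠ 0 := by positivity
    rw [eq_div_iff (by positivity)]
    field_simp
    rw [he]; ring
  rw [e1, abs_div, abs_of_pos (by positivity : 0 < 2 * (Real.exp b + 1)),
    div_le_iff₀ (by positivity)]
  have h2 : |2 * r - b ^ 2 - b * r| ≤ 4 * b ^ 2 := by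
    have hbr : |b * r| ≤ b ^ 2 := by
      rw [abs_mul]
      calc |b| * |r| ≤ 1 * b ^ 2 := mul_le_mul hb h1 (abs_nonneg _) one_pos.le
        _ = b ^ 2 := one_mul _
    rw [abs_le] at h1 hbr ⊢
    constructor
    · linarith [h1.1, h1.2, hbr.1, hbr.2, sq_nonneg b]
    · linarith [h1.1, h1.2, hbr.1, hbr.2, sq_nonneg b]
  refine h2.trans ?_
  nlinarith [sq_nonneg b, mul_nonneg (sq_nonneg b) hpos.le]

/-- the flip preserves low classes. -/
theorem cE_flip_low (C : Coin Q 𝓕 k s ι) {l : ℕ} (hl : l + 1 ≤ k) (g : Ω → ℝ) (ω : Ω) :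
    cE Q (𝓕.F l) (fun a => g (ι a)) ω = cE Q (𝓕.F l) g ω := by
  classical
  have hlow : ∀ a, 𝓕.F l a (ι a) := fun a => 𝓕.anti' (by omega : l ≤ k - 1) (C.rel_flip a)
  have hrel : ∀ a, 𝓕.F l ω (ι a) ↔ 𝓕.F l ω a := by
    intro a
    constructor
    · intro h; exact (𝓕.F l).trans h ((𝓕.F l).symm (hlow a))
    · intro h; exact (𝓕.F l).trans h (hlow a)
  unfold cE
  have h1 : ∀ g : Ω → ℝ, ∑ w ∈ univ.filter (fun w => 𝓕.F l ω w), Q w * g (ι w) =
      ∑ w ∈ univ.filter (fun w => 𝓕.F l ω w), Q w * g w := by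
    intro g
    rw [Finset.sum_filter, Finset.sum_filter,
      ← C.sum_flip (fun w => if 𝓕.F l ω w then Q w * g w else 0)]
    apply Finset.sum_congr rfl
    intro a _
    by_cases h : 𝓕.F l ω a
    · rw [if_pos h, if_pos ((hrel a).mpr h), C.P_flip]
    · rw [if_neg h, if_neg (fun h' => h ((hrel a).mp h'))]
  rw [h1 g]

theorem cE_sym (C : Coin Q 𝓕 k s ι) {l : ℕ} (hl : l + 1 ≤ k) (g : Ω → ℝ) (ω : Ω) :
    cE Q (𝓕.F l) g ω = cE Q (𝓕.F l) (fun a => (1 / 2) * (g a + g (ι a))) ω := by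
  rw [cE_smul, cE_add, cE_flip_low C hl g ω]; ring

theorem bw_inv (C : Coin Q 𝓕 k s ι) (hQ : IsProb Q) (hx : ∀ k, 0 < x k) {w : Ω → ℝ}
    (hw : ∀ ω, w (ι ω) = w ω) (ω : Ω) : bw Q 𝓕 x k w (ι ω) = bw Q 𝓕 x k w ω := by
  unfold bw S
  rw [C.A_inv_all hQ hx hw]
  congr 1
  refine Finset.sum_congr rfl fun l _ => ?_
  rw [C.A_inv_all hQ hx hw, C.A_inv_all hQ hx hw]

/-- decomposition of the path sum of `s w`: constant under the flip plus `s * bw`. -/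
theorem S_decomp (C : Coin Q 𝓕 k s ι) (hQ : IsProb Q) (hx : IsExpo x) (hkL : k ≤ 𝓕.L)
    (w : Ω → ℝ) {l : ℕ} (hl : l + 1 ≤ k) :
    ∃ c : Ω → ℝ, (∀ ω, c (ι ω) = c ω) ∧ ∀ ω, S Q 𝓕 x (fun a => s a * w a) l 𝓕.L ω =
      c ω + s ω * bw Q 𝓕 x k w ω := by
  obtain ⟨k', rfl⟩ : ∃ k', k = k' + 1 := ⟨k - 1, by omega⟩
  refine ⟨fun ω => S Q 𝓕 x (fun a => s a * w a) l k' ω -
    x (k' + 1) * A Q 𝓕 x (fun a => s a * w a) k' ω, fun ω => ?_, fun ω => ?_⟩
  · have h := C.rel_flip ω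
    rw [Nat.add_sub_cancel] at h
    have h1 := S_meas (𝓕 := 𝓕) hQ hx.pos (fun a => s a * w a) l k' ω (ι ω) h
    have h2 := A_meas (𝓕 := 𝓕) hQ hx.pos (fun a => s a * w a) k' ω (ι ω) h
    simp only [h1, h2]
  · rw [← S_add _ (by omega : l ≤ k' + 1) hkL, S_succ _ (by omega : l ≤ k'),
      C.S_mul hQ hx w le_rfl, C.A_mul hQ hx w le_rfl]
    unfold bw
    ring

/-- exact identity: `E_l[(2s-1) f] = E_l[f tanh(b/2)]`. -/
theorem tanh_identity (C : Coin Q 𝓕 k s ι) (hQ : IsProb Q) (hx : IsExpo x) (hkL : k ≤ 𝓕.L)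
    {w f : Ω → ℝ} (hw : ∀ ω, w (ι ω) = w ω) (hf : ∀ ω, f (ι ω) = f ω) {l : ℕ} (hl : l + 1 ≤ k)
    (ω : Ω) :
    cE (tl Q 𝓕 x (fun a => s a * w a)) (𝓕.F l) (fun a => (2 * s a - 1) * f a) ω =
      cE (tl Q 𝓕 x (fun a => s a * w a)) (𝓕.F l) (fun a => f a * th (bw Q 𝓕 x k w a)) ω := by
  obtain ⟨c, hc, hS⟩ := S_decomp C hQ hx hkL w hl
  rw [cE_tl hQ hx.pos, cE_tl hQ hx.pos, cE_sym C hl, cE_sym C hl (fun a => Real.exp
    (S Q 𝓕 x (fun a => s a * w a) l 𝓕.L a) * (f a * th (bw Q 𝓕 x k w a)))]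
  congr 1
  funext a
  rw [hS, hS, hc, hf, bw_inv C hQ hx.pos hw, C.s_flip]
  set b := bw Q 𝓕 x k w a with hb
  have hth := th_mul b
  rcases C.s01 a with h | h
  · rw [h]
    simp only [sub_zero, zero_mul, mul_zero, add_zero, one_mul, Real.exp_add]
    linear_combination (-(1 / 2) * f a * Real.exp (c a)) * hth
  · rw [h]
    simp only [sub_self, zero_mul, mul_one, add_zero, one_mul, Real.exp_add]
    linear_combination (-(1 / 2) * f a * Real.exp (c a)) * hth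

/-- telescoping -/
theorem tele (x a : ℕ → ℝ) {k L : ℕ} (hkL : k ≤ L) :
    x k * a k + ∑ j ∈ Ico k L, x (j + 1) * (a (j + 1) - a j) =
      x L * a L - ∑ j ∈ Ico k L, (x (j + 1) - x j) * a j := by
  induction L, hkL using Nat.le_induction with
  | base => simp
  | succ n hn ih =>
    rw [Finset.sum_Ico_succ_top hn, Finset.sum_Ico_succ_top hn]
    linear_combination ih

theorem sum_incr (x : ℕ → ℝ) {k L : ℕ} (hkL : k ≤ L) :
    ∑ j ∈ Ico k L, (x (j + 1) - x j) = x L - x k := by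
  induction L, hkL using Nat.le_induction with
  | base => simp
  | succ n hn ih => rw [Finset.sum_Ico_succ_top hn, ih]; ring

/-- stability of the telescoped sum -/
theorem tele_stab (hx : IsExpo x) {a b : ℕ → ℝ} {k L : ℕ} (hkL : k ≤ L) {e : ℝ} (he : 0 ≤ e)
    (h : ∀ j, k ≤ j → |a j - b j| ≤ e) :
    |(x L * a L - ∑ j ∈ Ico k L, (x (j + 1) - x j) * a j) -
      (x L * b L - ∑ j ∈ Ico k L, (x (j + 1) - x j) * b j)| ≤ 2 * e := by
  have e1 : (x L * a L - ∑ j ∈ Ico k L, (x (j + 1) - x j) * a j) -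
      (x L * b L - ∑ j ∈ Ico k L, (x (j + 1) - x j) * b j) =
      x L * (a L - b L) - ∑ j ∈ Ico k L, (x (j + 1) - x j) * (a j - b j) := by
    simp only [mul_sub, Finset.sum_sub_distrib]; ring
  rw [e1]
  have h1 : |x L * (a L - b L)| ≤ 1 * e := by
    rw [abs_mul, abs_of_pos (hx.pos L)]
    exact mul_le_mul (hx.le_one L) (h L hkL) (abs_nonneg _) one_pos.le
  have h2 : |∑ j ∈ Ico k L, (x (j + 1) - x j) * (a j - b j)| ≤ 1 * e := by
    refine (Finset.abs_sum_le_sum_abs _ _).trans ?_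
    calc ∑ j ∈ Ico k L, |(x (j + 1) - x j) * (a j - b j)|
        ≤ ∑ j ∈ Ico k L, (x (j + 1) - x j) * e := by
          refine Finset.sum_le_sum fun j hj => ?_
          have hj' := (Finset.mem_Ico.mp hj).1
          have h0 : 0 ≤ x (j + 1) - x j := by
            have := hx.mono (Nat.le_succ j); simp only [Nat.succ_eq_add_one] at this; linarith
          rw [abs_mul, abs_of_nonneg h0]
          exact mul_le_mul_of_nonneg_left (h j hj') h0
      _ = (x L - x k) * e := by rw [← Finset.sum_mul, sum_incr x hkL]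
      _ ≤ 1 * e := by
          refine mul_le_mul_of_nonneg_right ?_ he
          linarith [hx.le_one L, hx.pos k]
  have := abs_sub (x L * (a L - b L)) (∑ j ∈ Ico k L, (x (j + 1) - x j) * (a j - b j))
  linarith

theorem bw_eq (hkL : k ≤ 𝓕.L) (w : Ω → ℝ) (ω : Ω) :
    bw Q 𝓕 x k w ω = x 𝓕.L * A Q 𝓕 x w 𝓕.L ω -
      ∑ j ∈ Ico k 𝓕.L, (x (j + 1) - x j) * A Q 𝓕 x w j ω := by
  unfold bw S
  exact tele x (fun j => A Q 𝓕 x w j ω) hkL

/-- `A_j[w]` is close to `E_j w` for small `w`. -/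
theorem abs_A_sub_cE_le (hQ : IsProb Q) (hx : IsExpo x) {w : Ω → ℝ} {a : ℝ}
    (hw : ∀ ω, |w ω| ≤ a) (ha : a ≤ 1) (j : ℕ) (ω : Ω) :
    |A Q 𝓕 x w j ω - cE Q (𝓕.F j) w ω| ≤ a ^ 2 := by
  have h1 := cE_le_A (𝓕 := 𝓕) hQ hx.pos w j ω
  have h2 := A_le_log (𝓕 := 𝓕) hQ hx w j ω
  have h3 : cE Q (𝓕.F j) (fun w' => Real.exp (w w')) ω ≤ 1 + cE Q (𝓕.F j) w ω + a ^ 2 := by
    have e : ∀ w', Real.exp (w w') ≤ (1 + a ^ 2) + w w' := by
      intro w'
      have := Real.abs_exp_sub_one_sub_id_le ((hw w').trans ha)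
      have h4 := (abs_le.mp this).2
      have h5 : (w w') ^ 2 ≤ a ^ 2 := by
        rw [← sq_abs]; exact pow_le_pow_left₀ (abs_nonneg _) (hw w') 2
      linarith
    refine (cE_mono' hQ e ω).trans (le_of_eq ?_)
    rw [cE_add, cE_const hQ]; ring
  have h6 : 0 < cE Q (𝓕.F j) (fun w' => Real.exp (w w')) ω :=
    cE_pos hQ (fun _ => Real.exp_pos _) ω
  have h7 : Real.log (cE Q (𝓕.F j) (fun w' => Real.exp (w w')) ω) ≤
      cE Q (𝓕.F j) w ω + a ^ 2 := by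
    have := Real.log_le_sub_one_of_pos h6
    linarith
  rw [abs_le]
  constructor
  · nlinarith [sq_nonneg a]
  · linarith

/-- conditional expectations of the tilted and untilted laws at levels above the coin -/
theorem abs_cE_tl_sub_le (hQ : IsProb Q) (hx : IsExpo x) {U w : Ω → ℝ} {a : ℝ}
    (hU : ∀ ω, |U ω| ≤ a) (hw : ∀ ω, |w ω| ≤ a) (ha : a ≤ 1 / 2) (j : ℕ) (ω : Ω) :
    |cE (tl Q 𝓕 x U) (𝓕.F j) w ω - cE Q (𝓕.F j) w ω| ≤ 4 * a ^ 2 := by
  have ha0 : 0 ≤ a := (abs_nonneg _).trans (hw ω)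
  rw [cE_tl hQ hx.pos, ← cE_sub]
  refine abs_cE_le_of_le hQ (fun b => ?_) ω
  have e : Real.exp (S Q 𝓕 x U j 𝓕.L b) * w b - w b = (Real.exp (S Q 𝓕 x U j 𝓕.L b) - 1) * w b := by
    ring
  rw [e, abs_mul]
  have h1 : |S Q 𝓕 x U j 𝓕.L b| ≤ 2 * a := by
    rcases le_or_gt j 𝓕.L with h | h
    · exact S_abs_le hQ hx hU h b
    · rw [S_of_ge U h.le]; simp; exact ha0
  have h2 : |Real.exp (S Q 𝓕 x U j 𝓕.L b) - 1| ≤ 4 * a := by
    have := Real.abs_exp_sub_one_le (x := S Q 𝓕 x U j 𝓕.L b) (h1.trans (by linarith))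
    linarith
  calc |Real.exp (S Q 𝓕 x U j 𝓕.L b) - 1| * |w b| ≤ (4 * a) * a :=
        mul_le_mul h2 (hw b) (abs_nonneg _) (by linarith)
    _ = 4 * a ^ 2 := by ring

/-- **Integration by parts for one coin.** -/
theorem ibp (C : Coin P 𝓕 k s ι) (hP : IsProb P) (hx : IsExpo x) (hkL : k ≤ 𝓕.L)
    {G v f : Ω → ℝ} (hG : ∀ ω, G (ι ω) = G ω) (hv : ∀ ω, v (ι ω) = v ω)
    (hf : ∀ ω, f (ι ω) = f ω) {δ K Kf : ℝ} (hvK : ∀ ω, |v ω| ≤ K) (hfK : ∀ ω, |f ω| ≤ Kf)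
    (hδ : |δ| * K ≤ 1 / 8) {l : ℕ} (hl : l + 1 ≤ k) (ω : Ω) :
    |cE (tl P 𝓕 x (fun a => G a + δ * (2 * s a - 1) * v a)) (𝓕.F l)
        (fun a => (2 * s a - 1) * f a) ω -
      δ * cE (tl P 𝓕 x (fun a => G a + δ * (2 * s a - 1) * v a)) (𝓕.F l)
        (fun a => f a * (x 𝓕.L * v a - ∑ j ∈ Ico k 𝓕.L, (x (j + 1) - x j) *
          cE (tl P 𝓕 x (fun a => G a + δ * (2 * s a - 1) * v a)) (𝓕.F j) v a)) ω| ≤
      52 * (δ * K) ^ 2 * Kf := by
  have hK0 : 0 ≤ K := (abs_nonneg _).trans (hvK ω)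
  have hKf0 : 0 ≤ Kf := (abs_nonneg _).trans (hfK ω)
  set Q := tl P 𝓕 x (fun a => G a - δ * v a) with hQdef
  have hQ : IsProb Q := tl_isProb hP hx.pos _
  have CQ : Coin Q 𝓕 k s ι := C.tilt hP hx.pos (fun a => by rw [hG, hv])
  set w : Ω → ℝ := fun a => 2 * δ * v a with hwdef
  have hT : tl P 𝓕 x (fun a => G a + δ * (2 * s a - 1) * v a) = tl Q 𝓕 x (fun a => s a * w a) := by
    rw [hQdef, ← tl_add hP hx.pos]
    congr 1
    funext a
    simp only [hwdef]; ring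
  rw [hT]
  set T := tl Q 𝓕 x (fun a => s a * w a) with hTdef
  have hTp : IsProb T := tl_isProb hQ hx.pos _
  have hwinv : ∀ ω, w (ι ω) = w ω := fun a => by simp only [hwdef, hv]
  rw [tanh_identity CQ hQ hx hkL hwinv hf hl]
  set a := 2 * (|δ| * K) with ha
  have ha0 : 0 ≤ a := by positivity
  have ha1 : a ≤ 1 / 4 := by rw [ha]; linarith
  have hwa : ∀ ω, |w ω| ≤ a := by
    intro b
    simp only [hwdef]
    rw [abs_mul, abs_mul, abs_two, ha]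
    have := mul_le_mul_of_nonneg_left (hvK b) (abs_nonneg δ)
    nlinarith
  have hswa : ∀ ω, |s ω * w ω| ≤ a := by
    intro b
    rcases C.s01 b with h | h
    · rw [h, zero_mul, abs_zero]; exact ha0
    · rw [h, one_mul]; exact hwa b
  -- the difference as one conditional expectation
  rw [← cE_smul, ← cE_sub]
  have hkey : ∀ b, |f b * th (bw Q 𝓕 x k w b) - δ * (f b * (x 𝓕.L * v b -
      ∑ j ∈ Ico k 𝓕.L, (x (j + 1) - x j) * cE T (𝓕.F j) v b))| ≤ 52 * (δ * K) ^ 2 * Kf := by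
    intro b
    have hbw := bw_eq (Q := Q) (x := x) hkL w b
    have hA : ∀ j, |A Q 𝓕 x w j b - cE T (𝓕.F j) w b| ≤ 5 * a ^ 2 := by
      intro j
      have h1 := abs_A_sub_cE_le (𝓕 := 𝓕) hQ hx hwa (by linarith) j b
      have h2 := abs_cE_tl_sub_le (𝓕 := 𝓕) hQ hx hswa hwa (by linarith) j b
      rw [← hTdef, abs_sub_comm] at h2
      have := abs_sub_le (A Q 𝓕 x w j b) (cE Q (𝓕.F j) w b) (cE T (𝓕.F j) w b)
      linarith
    have hbabs : |bw Q 𝓕 x k w b| ≤ 2 * a := by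
      have := tele_stab (x := x) hx hkL ha0 (a := fun j => A Q 𝓕 x w j b) (b := fun _ => 0)
        (fun j _ => by simpa using A_abs_le hQ hx.pos hwa j b)
      simp only [mul_zero, Finset.sum_const_zero, sub_zero] at this
      rw [hbw]; exact this
    have hth := abs_th_sub_le (b := bw Q 𝓕 x k w b) (by linarith)
    have hb2 : (bw Q 𝓕 x k w b) ^ 2 ≤ (2 * a) ^ 2 := by
      rw [← sq_abs]; exact pow_le_pow_left₀ (abs_nonneg _) hbabs 2
    have hst := tele_stab (x := x) hx hkL (by positivity : 0 ≤ 5 * a ^ 2)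
      (a := fun j => A Q 𝓕 x w j b) (b := fun j => cE T (𝓕.F j) w b) (fun j _ => hA j)
    rw [← hbw] at hst
    -- identify the target
    have hcw : ∀ j, cE T (𝓕.F j) w b = 2 * δ * cE T (𝓕.F j) v b := fun j => by
      simp only [hwdef]; rw [cE_smul]
    have hLw : cE T (𝓕.F 𝓕.L) v b = v b := cE_of_meas hTp (rmeas_of_ge le_rfl v) b
    have htar : x 𝓕.L * cE T (𝓕.F 𝓕.L) w b - ∑ j ∈ Ico k 𝓕.L, (x (j + 1) - x j) *
        cE T (𝓕.F j) w b = 2 * (δ * (x 𝓕.L * v b - ∑ j ∈ Ico k 𝓕.L, (x (j + 1) - x j) *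
        cE T (𝓕.F j) v b)) := by
      simp only [hcw, hLw]
      have : ∑ j ∈ Ico k 𝓕.L, (x (j + 1) - x j) * (2 * δ * cE T (𝓕.F j) v b) =
          2 * δ * ∑ j ∈ Ico k 𝓕.L, (x (j + 1) - x j) * cE T (𝓕.F j) v b := by
        rw [Finset.mul_sum]; exact Finset.sum_congr rfl fun j _ => by ring
      rw [this]; ring
    rw [htar] at hst
    set τ := δ * (x 𝓕.L * v b - ∑ j ∈ Ico k 𝓕.L, (x (j + 1) - x j) * cE T (𝓕.F j) v b) with hτ
    have e1 : f b * th (bw Q 𝓕 x k w b) - δ * (f b * (x 𝓕.L * v b -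
        ∑ j ∈ Ico k 𝓕.L, (x (j + 1) - x j) * cE T (𝓕.F j) v b)) =
        f b * (th (bw Q 𝓕 x k w b) - τ) := by rw [hτ]; ring
    rw [e1, abs_mul]
    have h3 : |th (bw Q 𝓕 x k w b) - τ| ≤ 13 * a ^ 2 := by
      have h4 : |bw Q 𝓕 x k w b / 2 - τ| ≤ 5 * a ^ 2 := by
        have : bw Q 𝓕 x k w b / 2 - τ = (1 / 2) * (bw Q 𝓕 x k w b - 2 * τ) := by ring
        rw [this, abs_mul, abs_of_pos (by norm_num : (0:ℝ) < 1 / 2)]
        linarith
      have := abs_sub_le (th (bw Q 𝓕 x k w b)) (bw Q 𝓕 x k w b / 2) τ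
      nlinarith
    calc |f b| * |th (bw Q 𝓕 x k w b) - τ| ≤ Kf * (13 * a ^ 2) :=
          mul_le_mul (hfK b) h3 (abs_nonneg _) hKf0
      _ = 52 * (δ * K) ^ 2 * Kf := by
          rw [ha]
          have : (2 * (|δ| * K)) ^ 2 = 4 * (δ * K) ^ 2 := by
            rw [mul_pow, mul_pow, sq_abs, mul_pow]; ring
          rw [this]; ring
  exact abs_cE_le_of_le hTp hkey ω

end

end Crest.Agent.R164.CoinIBP
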