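import Mathlib
import Crest.Agent.R164.CoinIBP
import Crest.Agent.R164.Sys164

set_option autoImplicit false

/-!
Row 164, module (Conc): summed integration by parts for the coin fields of `Sys164`.
-/

namespace Crest.Agent.R164.CSys

open Finset
open Crest.Agent.R141
open Crest.Agent.R164 Crest.Agent.R164.CoinIBP

noncomputable section

/-! ### exponents -/

theorem xs_mt (p : Par) {g : ℕ} (hg : g < p.nc) : p.xs (p.mt g) = p.xi g :=
  p.xs_cell hg (by unfold Par.mt; nlinarith) le_rfl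

theorem xs_mt_succ (p : Par) {g : ℕ} (hg : g + 1 < p.nc) : p.xs (p.mt g + 1) = p.xi (g + 1) :=
  p.xs_cell hg (by unfold Par.mt; omega) (by unfold Par.mt; nlinarith)

theorem xi_succ_sub (p : Par) (g : ℕ) : p.xi (g + 1) - p.xi g = ((p.nc : ℝ) + 1)⁻¹ := by
  unfold Par.xi
  have : ((p.nc : ℝ) + 1) ≠ 0 := by positivity
  field_simp
  push_cast
  ring

theorem mt_last (p : Par) : p.mt (p.nc - 1) + 1 = p.L := by
  unfold Par.mt Par.L
  have := p.hnc
  have h : p.nc - 1 + 1 = p.nc := by omega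
  rw [h]

/-- the weighted increments of the exponents -/
theorem sum_incr_xs (p : Par) (a : ℕ → ℝ) {g : ℕ} (hg : g < p.nc) :
    ∑ j ∈ Ico (p.mt g) p.L, (p.xs (j + 1) - p.xs j) * a j =
      ((p.nc : ℝ) + 1)⁻¹ * ∑ g' ∈ Ico g p.nc, a (p.mt g') := by
  have key : ∀ m g : ℕ, g < p.nc → p.nc - 1 - g = m →
      ∑ j ∈ Ico (p.mt g) p.L, (p.xs (j + 1) - p.xs j) * a j =
      ((p.nc : ℝ) + 1)⁻¹ * ∑ g' ∈ Ico g p.nc, a (p.mt g') := by
    intro m
    induction m with
    | zero =>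
      intro g hg hm
      have hg' : g = p.nc - 1 := by omega
      subst hg'
      have hL := mt_last p
      have h1 : Ico (p.mt (p.nc - 1)) p.L = {p.mt (p.nc - 1)} := by
        ext j; simp only [mem_Ico, mem_singleton]; omega
      have h2 : Ico (p.nc - 1) p.nc = {p.nc - 1} := by
        ext j; simp only [mem_Ico, mem_singleton]; omega
      rw [h1, h2, Finset.sum_singleton, Finset.sum_singleton, hL, p.xs_last le_rfl, xs_mt p hg]
      congr 1
      unfold Par.xi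
      have h3 : ((p.nc - 1 : ℕ) : ℝ) + 1 = p.nc := by
        have := p.hnc
        exact_mod_cast (by omega : p.nc - 1 + 1 = p.nc)
      rw [h3]
      have : ((p.nc : ℝ) + 1) ≠ 0 := by positivity
      field_simp
      ring
    | succ m ih =>
      intro g hg hm
      have hg1 : g + 1 < p.nc := by omega
      have hle1 : p.mt g ≤ p.mt (g + 1) := by unfold Par.mt; nlinarith
      have hle2 : p.mt (g + 1) ≤ p.L := (p.mt_lt_L hg1).le
      rw [← Finset.sum_Ico_consecutive _ hle1 hle2, ih (g + 1) hg1 (by omega),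
        Finset.sum_eq_sum_Ico_succ_bot hg, mul_add]
      congr 1
      rw [Finset.sum_eq_single (p.mt g)]
      · rw [xs_mt_succ p hg1, xs_mt p hg, xi_succ_sub]
      · intro j hj hjne
        rw [mem_Ico] at hj
        have h1 : p.xs j = p.xi (g + 1) := by
          refine p.xs_cell hg1 ?_ hj.2.le
          have : p.mt g < j := lt_of_le_of_ne hj.1 (Ne.symm hjne)
          unfold Par.mt at this
          exact this
        have h2 : p.xs (j + 1) = p.xi (g + 1) := by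
          refine p.xs_cell hg1 ?_ hj.2
          have : p.mt g ≤ j := hj.1
          unfold Par.mt at this
          omega
        rw [h1, h2]; ring
      · intro h
        exfalso
        apply h
        rw [mem_Ico]
        refine ⟨le_rfl, ?_⟩
        unfold Par.mt
        nlinarith
  exact key _ g hg rfl

/-! ### one field made of `n` coins -/

section Field

variable {Ω : Type*} [Fintype Ω] {P : Ω → ℝ} {𝓕 : Filt Ω} {x : ℕ → ℝ} {k : ℕ}

theorem ibp_field (hP : IsProb P) (hx : IsExpo x) (hkL : k ≤ 𝓕.L) {n : ℕ} (hn : 0 < n)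
    {s : Fin n → Ω → ℝ} {ι : Fin n → Ω → Ω} (C : ∀ t, Coin P 𝓕 k (s t) (ι t))
    {U v f : Ω → ℝ} {c K Kf : ℝ}
    (hU : ∀ t ω, U (ι t ω) = U ω - 2 * ((Real.sqrt n)⁻¹ * c) * (2 * s t ω - 1) * v ω)
    (hv : ∀ t ω, v (ι t ω) = v ω) (hf : ∀ t ω, f (ι t ω) = f ω)
    (hvK : ∀ ω, |v ω| ≤ K) (hfK : ∀ ω, |f ω| ≤ Kf) (hc : |c| * K ≤ Real.sqrt n / 8)
    {l : ℕ} (hl : l + 1 ≤ k) (ω : Ω) :
    |cE (tl P 𝓕 x U) (𝓕.F l) (fun a => ((Real.sqrt n)⁻¹ * ∑ t, (2 * s t a - 1)) * f a) ω -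
      c * cE (tl P 𝓕 x U) (𝓕.F l) (fun a => f a * (x 𝓕.L * v a - ∑ j ∈ Ico k 𝓕.L,
        (x (j + 1) - x j) * cE (tl P 𝓕 x U) (𝓕.F j) v a)) ω| ≤
      52 * c ^ 2 * K ^ 2 * Kf / Real.sqrt n := by
  have hn0 : (0 : ℝ) < n := by exact_mod_cast hn
  have hsn : 0 < Real.sqrt n := Real.sqrt_pos.mpr hn0
  have hss : Real.sqrt n * Real.sqrt n = n := Real.mul_self_sqrt hn0.le
  set δ := (Real.sqrt n)⁻¹ * c with hδ
  set R := cE (tl P 𝓕 x U) (𝓕.F l) (fun a => f a * (x 𝓕.L * v a - ∑ j ∈ Ico k 𝓕.L,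
        (x (j + 1) - x j) * cE (tl P 𝓕 x U) (𝓕.F j) v a)) ω with hR
  have hδK : |δ| * K ≤ 1 / 8 := by
    rw [hδ, abs_mul, abs_of_pos (inv_pos.mpr hsn), mul_assoc]
    calc (Real.sqrt n)⁻¹ * (|c| * K) ≤ (Real.sqrt n)⁻¹ * (Real.sqrt n / 8) :=
          mul_le_mul_of_nonneg_left hc (inv_pos.mpr hsn).le
      _ = 1 / 8 := by field_simp
  have h1 : ∀ t, |cE (tl P 𝓕 x U) (𝓕.F l) (fun a => (2 * s t a - 1) * f a) ω - δ * R| ≤
      52 * (δ * K) ^ 2 * Kf := by
    intro t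
    have hG : ∀ ω, (fun a => U a - δ * (2 * s t a - 1) * v a) (ι t ω) =
        (fun a => U a - δ * (2 * s t a - 1) * v a) ω := by
      intro a
      simp only [hU, hv, (C t).s_flip]
      ring
    have := ibp (G := fun a => U a - δ * (2 * s t a - 1) * v a) (C t) hP hx hkL hG (hv t) (hf t)
      hvK hfK hδK hl ω
    simp only [sub_add_cancel] at this
    exact this
  have e1 : cE (tl P 𝓕 x U) (𝓕.F l) (fun a => ((Real.sqrt n)⁻¹ * ∑ t, (2 * s t a - 1)) * f a) ω =
      (Real.sqrt n)⁻¹ * ∑ t, cE (tl P 𝓕 x U) (𝓕.F l) (fun a => (2 * s t a - 1) * f a) ω := by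
    rw [← cE_sum, ← cE_smul]
    congr 1; funext a
    rw [mul_assoc, Finset.sum_mul]
  have e2 : c * R = (Real.sqrt n)⁻¹ * ∑ _t : Fin n, δ * R := by
    rw [Finset.sum_const, Finset.card_univ, Fintype.card_fin, nsmul_eq_mul, hδ]
    have e3 : (n : ℝ) * ((Real.sqrt n)⁻¹ * c * R) =
        (Real.sqrt n * Real.sqrt n) * ((Real.sqrt n)⁻¹ * c * R) := by rw [hss]
    rw [e3]
    field_simp
  rw [e1, e2, ← mul_sub, ← Finset.sum_sub_distrib, abs_mul, abs_of_pos (inv_pos.mpr hsn)]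
  calc (Real.sqrt n)⁻¹ * |∑ t, (cE (tl P 𝓕 x U) (𝓕.F l) (fun a => (2 * s t a - 1) * f a) ω -
        δ * R)| ≤ (Real.sqrt n)⁻¹ * ∑ _t : Fin n, 52 * (δ * K) ^ 2 * Kf := by
        refine mul_le_mul_of_nonneg_left ?_ (inv_pos.mpr hsn).le
        exact (Finset.abs_sum_le_sum_abs _ _).trans (Finset.sum_le_sum fun t _ => h1 t)
    _ = 52 * c ^ 2 * K ^ 2 * Kf / Real.sqrt n := by
        rw [Finset.sum_const, Finset.card_univ, Fintype.card_fin, nsmul_eq_mul, hδ]
        have e3 : (n : ℝ) * (52 * ((Real.sqrt n)⁻¹ * c * K) ^ 2 * Kf) =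
            (Real.sqrt n * Real.sqrt n) * (52 * ((Real.sqrt n)⁻¹ * c * K) ^ 2 * Kf) := by rw [hss]
        rw [e3]
        field_simp

end Field

/-! ### the system -/

open SY

variable {p : Par} {N n : ℕ} {A : Finset (Fin N → Bool)} (hA : A.Nonempty)
  (h0 : (Fin N → Bool) → ℝ) (a lam : Fin N → Fin p.nc → ℝ)
  (X : (Fin N → Bool) → Fin N → ℝ) (d : DD p N)

/-- the law of the system -/
abbrev PS : G.Om (base p n A hA) → ℝ := G.PP (base p n A hA) (HS h0 a lam X) d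

theorem WW_sflip (g : Fin p.nc) (i : Fin N) (t : Fin n) (ω : G.Om (base p n A hA)) :
    G.WW (base p n A hA) d (sflip hA g i t ω) = G.WW (base p n A hA) d ω := rfl

theorem WW_mflip (g : Fin p.nc) (i : Fin N) (t : Fin n) (ω : G.Om (base p n A hA)) :
    G.WW (base p n A hA) d (mflip hA g i t ω) = G.WW (base p n A hA) d ω := rfl

theorem two_sval (g : Fin p.nc) (i : Fin N) (t : Fin n) (ω : G.Om (base p n A hA)) :
    2 * sval hA g i t ω - 1 = sv (ω.1.2.2 g i t) := by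
  unfold sval sv
  split_ifs <;> norm_num

theorem two_mval (g : Fin p.nc) (i : Fin N) (t : Fin n) (ω : G.Om (base p n A hA)) :
    2 * mval hA g i t ω - 1 = sv (ω.1.2.1 g i t) := by
  unfold mval sv
  split_ifs <;> norm_num

theorem UU_sflip (g : Fin p.nc) (i : Fin N) (t : Fin n) (ω : G.Om (base p n A hA)) :
    G.UU (base p n A hA) (HS h0 a lam X) d (sflip hA g i t ω) =
      G.UU (base p n A hA) (HS h0 a lam X) d ω -
        2 * ((Real.sqrt n)⁻¹ * lam i g) * (2 * sval hA g i t ω - 1) * X ω.1.1.1 i := by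
  unfold G.UU
  rw [WW_sflip, two_sval]
  have := HS_sflip h0 a lam X ω.1 g i t
  have e : HS h0 a lam X (sflip hA g i t ω).1 = HS h0 a lam X (ω.1.1, ω.1.2.1, cupd ω.1.2.2 g i t) :=
    rfl
  rw [e, this]
  ring

theorem UU_mflip (g : Fin p.nc) (i : Fin N) (t : Fin n) (ω : G.Om (base p n A hA)) :
    G.UU (base p n A hA) (HS h0 a lam X) d (mflip hA g i t ω) =
      G.UU (base p n A hA) (HS h0 a lam X) d ω -
        2 * ((Real.sqrt n)⁻¹ * a i g) * (2 * mval hA g i t ω - 1) * sv (ω.1.1.1 i) := by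
  unfold G.UU
  rw [WW_mflip, two_mval]
  have := HS_mflip h0 a lam X ω.1 g i t
  have e : HS h0 a lam X (mflip hA g i t ω).1 = HS h0 a lam X (ω.1.1, cupd ω.1.2.1 g i t, ω.1.2.2) :=
    rfl
  rw [e, this]
  ring

/-- the part `v - w ∑_{g' ≥ g} E_{mt g'} v` -/
def scr (P : G.Om (base p n A hA) → ℝ) (g : Fin p.nc) (v : G.Om (base p n A hA) → ℝ)
    (ω : G.Om (base p n A hA)) : ℝ :=
  v ω - ((p.nc : ℝ) + 1)⁻¹ * ∑ g' ∈ Ico (g : ℕ) p.nc,
    cE P ((G.fil (base p n A hA)).F (p.mt g')) v ω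

/-- integration by parts for the small field `(g,i)`. -/
theorem ibp_small (hn : 0 < n) (g : Fin p.nc) (i : Fin N) {f : G.Om (base p n A hA) → ℝ}
    (hf : ∀ t ω, f (sflip hA g i t ω) = f ω) {K Kf : ℝ} (hXK : ∀ σ, |X σ i| ≤ K)
    (hfK : ∀ ω, |f ω| ≤ Kf) (hc : |lam i g| * K ≤ Real.sqrt n / 8) {l : ℕ} (hl : l < p.mt g)
    (ω : G.Om (base p n A hA)) :
    |cE (PS hA h0 a lam X d) ((G.fil (base p n A hA)).F l) (fun w => zf w.1.2.2 g i * f w) ω -
      lam i g * cE (PS hA h0 a lam X d) ((G.fil (base p n A hA)).F l)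
        (fun w => f w * scr hA (PS hA h0 a lam X d) g (fun w => X w.1.1.1 i) w) ω| ≤
      52 * (lam i g) ^ 2 * K ^ 2 * Kf / Real.sqrt n := by
  have h := ibp_field (𝓕 := G.fil (base p n A hA)) (G.prior_isProb (base p n A hA)) p.xs_expo
    (p.mt_lt_L g.2).le hn (fun t => scoin hA g i t)
    (U := G.UU (base p n A hA) (HS h0 a lam X) d) (v := fun w => X w.1.1.1 i) (f := f)
    (c := lam i g) (K := K) (Kf := Kf) (fun t ω => UU_sflip hA h0 a lam X d g i t ω)
    (fun t ω => rfl) hf (fun ω => hXK _) hfK hc hl ω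
  have hL : (G.fil (base p n A hA)).L = p.L := rfl
  simp only [two_sval, hL, p.xs_last le_rfl, one_mul] at h
  have e : ∀ w : G.Om (base p n A hA), X w.1.1.1 i - ∑ j ∈ Ico (p.mt g) p.L, (p.xs (j + 1) - p.xs j) *
      cE (PS hA h0 a lam X d) ((G.fil (base p n A hA)).F j) (fun w => X w.1.1.1 i) w =
      scr hA (PS hA h0 a lam X d) g (fun w => X w.1.1.1 i) w := by
    intro w
    unfold scr
    rw [sum_incr_xs p _ g.2]
  have e2 : tl (G.prior (base p n A hA)) (G.fil (base p n A hA)) p.xs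
      (G.UU (base p n A hA) (HS h0 a lam X) d) = PS hA h0 a lam X d := rfl
  rw [e2] at h
  simp only [e] at h
  exact h

/-- integration by parts for the main field `(g,i)`. -/
theorem ibp_main (hn : 0 < n) (g : Fin p.nc) (i : Fin N) {f : G.Om (base p n A hA) → ℝ}
    (hf : ∀ t ω, f (mflip hA g i t ω) = f ω) {Kf : ℝ}
    (hfK : ∀ ω, |f ω| ≤ Kf) (hc : |a i g| ≤ Real.sqrt n / 8) {l : ℕ} (hl : l < p.mt g)
    (ω : G.Om (base p n A hA)) :
    |cE (PS hA h0 a lam X d) ((G.fil (base p n A hA)).F l) (fun w => zf w.1.2.1 g i * f w) ω -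
      a i g * cE (PS hA h0 a lam X d) ((G.fil (base p n A hA)).F l)
        (fun w => f w * scr hA (PS hA h0 a lam X d) g (fun w => sv (w.1.1.1 i)) w) ω| ≤
      52 * (a i g) ^ 2 * Kf / Real.sqrt n := by
  have h := ibp_field (𝓕 := G.fil (base p n A hA)) (G.prior_isProb (base p n A hA)) p.xs_expo
    (p.mt_lt_L g.2).le hn (fun t => mcoin hA g i t)
    (U := G.UU (base p n A hA) (HS h0 a lam X) d) (v := fun w => sv (w.1.1.1 i)) (f := f)
    (c := a i g) (K := 1) (Kf := Kf) (fun t ω => UU_mflip hA h0 a lam X d g i t ω)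
    (fun t ω => rfl) hf (fun ω => (sv_abs _).le) hfK (by rwa [mul_one]) hl ω
  have hL : (G.fil (base p n A hA)).L = p.L := rfl
  simp only [two_mval, hL, p.xs_last le_rfl, one_mul, one_pow, mul_one] at h
  have e : ∀ w : G.Om (base p n A hA), sv (w.1.1.1 i) - ∑ j ∈ Ico (p.mt g) p.L,
      (p.xs (j + 1) - p.xs j) *
      cE (PS hA h0 a lam X d) ((G.fil (base p n A hA)).F j) (fun w => sv (w.1.1.1 i)) w =
      scr hA (PS hA h0 a lam X d) g (fun w => sv (w.1.1.1 i)) w := by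
    intro w
    unfold scr
    rw [sum_incr_xs p _ g.2]
  have e2 : tl (G.prior (base p n A hA)) (G.fil (base p n A hA)) p.xs
      (G.UU (base p n A hA) (HS h0 a lam X) d) = PS hA h0 a lam X d := rfl
  rw [e2] at h
  simp only [e] at h
  exact h

/-- sum over the sites of `I`, small fields; `F` is invariant under the small coins. -/
theorem ibp_small_sum (hn : 0 < n) (g : Fin p.nc) (I : Finset (Fin N))
    {f : G.Om (base p n A hA) → ℝ}
    (hf : ∀ i t ω, f (sflip hA g i t ω) = f ω) {K Λ : ℝ} (hXK : ∀ σ i, |X σ i| ≤ K)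
    (hfK : ∀ ω, |f ω| ≤ 1) (hΛ : ∀ i ∈ I, |lam i g| ≤ Λ) (hc : Λ * K ≤ Real.sqrt n / 8) {l : ℕ}
    (hl : l < p.mt g) (ω : G.Om (base p n A hA)) :
    |cE (PS hA h0 a lam X d) ((G.fil (base p n A hA)).F l)
        (fun w => (∑ i ∈ I, zf w.1.2.2 g i * X w.1.1.1 i) * f w) ω -
      cE (PS hA h0 a lam X d) ((G.fil (base p n A hA)).F l)
        (fun w => f w * ∑ i ∈ I, lam i g * (X w.1.1.1 i *
          scr hA (PS hA h0 a lam X d) g (fun w => X w.1.1.1 i) w)) ω| ≤
      I.card * (52 * Λ ^ 2 * K ^ 3 / Real.sqrt n) := by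
  have hsn : 0 < Real.sqrt n := Real.sqrt_pos.mpr (by exact_mod_cast hn)
  have h1 : ∀ i ∈ I, |cE (PS hA h0 a lam X d) ((G.fil (base p n A hA)).F l)
        (fun w => zf w.1.2.2 g i * (X w.1.1.1 i * f w)) ω -
      lam i g * cE (PS hA h0 a lam X d) ((G.fil (base p n A hA)).F l)
        (fun w => (X w.1.1.1 i * f w) *
          scr hA (PS hA h0 a lam X d) g (fun w => X w.1.1.1 i) w) ω| ≤
      52 * Λ ^ 2 * K ^ 3 / Real.sqrt n := by
    intro i hi
    have hK0 : 0 ≤ K := (abs_nonneg _).trans (hXK (fun _ => true) i)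
    have hΛ0 : 0 ≤ Λ := (abs_nonneg _).trans (hΛ i hi)
    have := ibp_small hA h0 a lam X d hn g i (f := fun w => X w.1.1.1 i * f w)
      (fun t ω => by
        have : X (sflip hA g i t ω).1.1.1 i = X ω.1.1.1 i := rfl
        simp only [this, hf]) (K := K) (Kf := K)
      (fun σ => hXK σ i) (fun ω => by
        rw [abs_mul]
        calc |X ω.1.1.1 i| * |f ω| ≤ K * 1 :=
              mul_le_mul (hXK _ i) (hfK ω) (abs_nonneg _) hK0
          _ = K := mul_one _)
      ((mul_le_mul_of_nonneg_right (hΛ i hi) hK0).trans hc) hl ω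
    refine this.trans ?_
    have h2 : (lam i g) ^ 2 ≤ Λ ^ 2 := by
      rw [← sq_abs]; exact pow_le_pow_left₀ (abs_nonneg _) (hΛ i hi) 2
    have h3 : 52 * (lam i g) ^ 2 * K ^ 2 * K ≤ 52 * Λ ^ 2 * K ^ 3 := by
      have : 52 * (lam i g) ^ 2 * K ^ 2 * K = 52 * (lam i g) ^ 2 * K ^ 3 := by ring
      rw [this]
      gcongr
    exact div_le_div_of_nonneg_right h3 hsn.le
  have e1 : cE (PS hA h0 a lam X d) ((G.fil (base p n A hA)).F l)
        (fun w => (∑ i ∈ I, zf w.1.2.2 g i * X w.1.1.1 i) * f w) ω =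
      ∑ i ∈ I, cE (PS hA h0 a lam X d) ((G.fil (base p n A hA)).F l)
        (fun w => zf w.1.2.2 g i * (X w.1.1.1 i * f w)) ω := by
    rw [← cE_sum]
    congr 1; funext w
    rw [Finset.sum_mul]
    exact Finset.sum_congr rfl fun i _ => by ring
  have e2 : cE (PS hA h0 a lam X d) ((G.fil (base p n A hA)).F l)
        (fun w => f w * ∑ i ∈ I, lam i g * (X w.1.1.1 i *
          scr hA (PS hA h0 a lam X d) g (fun w => X w.1.1.1 i) w)) ω =
      ∑ i ∈ I, lam i g * cE (PS hA h0 a lam X d) ((G.fil (base p n A hA)).F l)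
        (fun w => (X w.1.1.1 i * f w) *
          scr hA (PS hA h0 a lam X d) g (fun w => X w.1.1.1 i) w) ω := by
    simp only [← cE_smul]
    rw [← cE_sum]
    congr 1; funext w
    rw [Finset.mul_sum]
    exact Finset.sum_congr rfl fun i _ => by ring
  rw [e1, e2, ← Finset.sum_sub_distrib]
  refine (Finset.abs_sum_le_sum_abs _ _).trans ?_
  refine (Finset.sum_le_sum h1).trans ?_
  rw [Finset.sum_const, nsmul_eq_mul]

/-- sum over the sites of `I`, main fields. -/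
theorem ibp_main_sum (hn : 0 < n) (g : Fin p.nc) (I : Finset (Fin N))
    {f : G.Om (base p n A hA) → ℝ}
    (hf : ∀ i t ω, f (mflip hA g i t ω) = f ω) {Λ : ℝ}
    (hfK : ∀ ω, |f ω| ≤ 1) (hΛ : ∀ i ∈ I, |a i g| ≤ Λ) (hc : Λ ≤ Real.sqrt n / 8) {l : ℕ}
    (hl : l < p.mt g) (ω : G.Om (base p n A hA)) :
    |cE (PS hA h0 a lam X d) ((G.fil (base p n A hA)).F l)
        (fun w => (∑ i ∈ I, zf w.1.2.1 g i * sv (w.1.1.1 i)) * f w) ω -
      cE (PS hA h0 a lam X d) ((G.fil (base p n A hA)).F l)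
        (fun w => f w * ∑ i ∈ I, a i g * (sv (w.1.1.1 i) *
          scr hA (PS hA h0 a lam X d) g (fun w => sv (w.1.1.1 i)) w)) ω| ≤
      I.card * (52 * Λ ^ 2 / Real.sqrt n) := by
  have hsn : 0 < Real.sqrt n := Real.sqrt_pos.mpr (by exact_mod_cast hn)
  have h1 : ∀ i ∈ I, |cE (PS hA h0 a lam X d) ((G.fil (base p n A hA)).F l)
        (fun w => zf w.1.2.1 g i * (sv (w.1.1.1 i) * f w)) ω -
      a i g * cE (PS hA h0 a lam X d) ((G.fil (base p n A hA)).F l)
        (fun w => (sv (w.1.1.1 i) * f w) *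
          scr hA (PS hA h0 a lam X d) g (fun w => sv (w.1.1.1 i)) w) ω| ≤
      52 * Λ ^ 2 / Real.sqrt n := by
    intro i hi
    have := ibp_main hA h0 a lam X d hn g i (f := fun w => sv (w.1.1.1 i) * f w)
      (fun t ω => by
        have : sv ((mflip hA g i t ω).1.1.1 i) = sv (ω.1.1.1 i) := rfl
        simp only [this, hf]) (Kf := 1)
      (fun ω => by
        rw [abs_mul, sv_abs, one_mul]; exact hfK ω) ((hΛ i hi).trans hc) hl ω
    rw [mul_one] at this
    refine this.trans ?_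
    have h2 : (a i g) ^ 2 ≤ Λ ^ 2 := by
      rw [← sq_abs]; exact pow_le_pow_left₀ (abs_nonneg _) (hΛ i hi) 2
    exact div_le_div_of_nonneg_right (by linarith) hsn.le
  have e1 : cE (PS hA h0 a lam X d) ((G.fil (base p n A hA)).F l)
        (fun w => (∑ i ∈ I, zf w.1.2.1 g i * sv (w.1.1.1 i)) * f w) ω =
      ∑ i ∈ I, cE (PS hA h0 a lam X d) ((G.fil (base p n A hA)).F l)
        (fun w => zf w.1.2.1 g i * (sv (w.1.1.1 i) * f w)) ω := by
    rw [← cE_sum]
    congr 1; funext w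
    rw [Finset.sum_mul]
    exact Finset.sum_congr rfl fun i _ => by ring
  have e2 : cE (PS hA h0 a lam X d) ((G.fil (base p n A hA)).F l)
        (fun w => f w * ∑ i ∈ I, a i g * (sv (w.1.1.1 i) *
          scr hA (PS hA h0 a lam X d) g (fun w => sv (w.1.1.1 i)) w)) ω =
      ∑ i ∈ I, a i g * cE (PS hA h0 a lam X d) ((G.fil (base p n A hA)).F l)
        (fun w => (sv (w.1.1.1 i) * f w) *
          scr hA (PS hA h0 a lam X d) g (fun w => sv (w.1.1.1 i)) w) ω := by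
    simp only [← cE_smul]
    rw [← cE_sum]
    congr 1; funext w
    rw [Finset.mul_sum]
    exact Finset.sum_congr rfl fun i _ => by ring
  rw [e1, e2, ← Finset.sum_sub_distrib]
  refine (Finset.abs_sum_le_sum_abs _ _).trans ?_
  refine (Finset.sum_le_sum h1).trans ?_
  rw [Finset.sum_const, nsmul_eq_mul]

end

end Crest.Agent.R164.CSys
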