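import Crest.Agent.R164.LStruct2B
import Crest.Agent.R164.LDef
import Crest.Agent.R164.ConcSys4
import Crest.Agent.R164.OvSys

/-!
# Row 164, module LSTRUCT-2, part C

The L system `LD.HL` as a family with linear parameters: coordinates `el j`, `am j g` (`g` active),
`lm k g`.  Fluctuations of its free energy and bounds for the means of the directions.
-/

set_option autoImplicit false
set_option linter.unusedSectionVars false
set_option linter.unusedVariables false

namespace Crest.Agent.R164.LS2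

open Finset MeasureTheory Crest.Agent.R141 Crest.Agent.R164 Crest.Agent.R164.ObsConc
open Crest.Agent.R164.G (Base prior_isProb)
open Crest.Agent.R164.LGrid (gavg pt sh SD)
open Crest.Agent.R164.Haar (Mat RHaar)
open Crest.ProbabilityR.InvariantGlass (spinVec)

noncomputable section

variable {p : Par} {N K J : ℕ} (act : Finset (Fin p.nc))

/-- coordinates: linear fields, active main strengths, small strengths. -/
abbrev Cd (K J : ℕ) (act : Finset (Fin p.nc)) : Type :=
  Fin J ⊕ ((Fin J × act) ⊕ (Fin (K + 1) × Fin p.nc))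

/-- the parameters. -/
def prm (θ : Cd K J act → ℝ) : LD.Prm p K J where
  el j := θ (Sum.inl j)
  am j g := if h : g ∈ act then θ (Sum.inr (Sum.inl (j, ⟨g, h⟩))) else 0
  lm k g := θ (Sum.inr (Sum.inr (k, g)))

variable {act}

/-- the directions. -/
def Vd (n : ℕ) (kap : Fin N → Fin (K + 1)) (lab : Fin N → Fin J) : Cd K J act → Mat (Fin N) →
    SY.SS p n (Finset.univ : Finset (Fin N → Bool)) → ℝ :=
  Sum.elim (fun j _ s => ∑ i, if lab i = j then sv (s.1.1 i) else 0)
    (Sum.elim (fun jg _ s => ∑ i, if lab i = jg.1 then SY.zf s.2.1 jg.2.1 i * sv (s.1.1 i) else 0)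
      (fun kg U s => ∑ i, if kap i = kg.1 then
        SY.zf s.2.2 kg.2 i * SY.xU (Matrix.of U) s.1.1 i else 0))

variable (n : ℕ) (val : Fin (K + 1) → ℝ) (c t : Fin J → ℝ) (Kp : ℝ)
  (kap : Fin N → Fin (K + 1)) (lab : Fin N → Fin J)

/-- the part without parameters -/
def H00 (U : Mat (Fin N)) (s : SY.SS p n (Finset.univ : Finset (Fin N → Bool))) : ℝ :=
  1 * Mag.qd (fun i => val (kap i)) (Matrix.of U) s.1.1 + Mag.PEN c t Kp lab s.1.1

theorem sum_lab {M : ℕ} (l : Fin N → Fin M) (f : Fin M → ℝ) (g : Fin N → ℝ) :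
    ∑ i, f (l i) * g i = ∑ j, f j * ∑ i, if l i = j then g i else 0 := by
  simp only [Finset.mul_sum]
  rw [Finset.sum_comm]
  refine Finset.sum_congr rfl fun i _ => ?_
  rw [Finset.sum_eq_single (l i)]
  · rw [if_pos rfl]
  · intro j _ hj; rw [if_neg (Ne.symm hj), mul_zero]
  · intro h; exact absurd (Finset.mem_univ _) h

theorem sum_act (f : act → ℝ) :
    ∑ g : act, f g = ∑ g : Fin p.nc, if h : g ∈ act then f ⟨g, h⟩ else 0 := by
  rw [← Finset.sum_subset (Finset.subset_univ act) (fun g _ hg => by rw [dif_neg hg]),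
    ← Finset.sum_coe_sort act]
  refine Finset.sum_congr rfl fun g _ => ?_
  rw [dif_pos g.2]

/-- **the Hamiltonian is affine in the parameters.** -/
theorem HL_eq (θ : Cd K J act → ℝ) (U : Mat (Fin N))
    (s : SY.SS p n (Finset.univ : Finset (Fin N → Bool))) :
    LD.HL n val c t Kp (prm act θ) kap lab U s =
      H00 n val c t Kp kap lab U s + ∑ x, θ x * Vd n kap lab x U s := by
  rw [Fintype.sum_sum_type, Fintype.sum_sum_type, Fintype.sum_prod_type, Fintype.sum_prod_type]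
  unfold LD.HL SY.HS SY.h0q LD.VL H00 Vd prm
  simp only [Sum.elim_inl, Sum.elim_inr]
  have e1 : ∑ i, θ (Sum.inl (lab i)) * spinVec s.1.1 i =
      ∑ j, θ (Sum.inl j) * ∑ i, if lab i = j then sv (s.1.1 i) else 0 :=
    sum_lab lab (fun j => θ (Sum.inl j)) (fun i => sv (s.1.1 i))
  have e2 : ∑ g : Fin p.nc, ∑ i, (if h : g ∈ act then θ (Sum.inr (Sum.inl (lab i, ⟨g, h⟩))) else 0) *
      (SY.zf s.2.1 g i * sv (s.1.1 i)) = ∑ j, ∑ g : act, θ (Sum.inr (Sum.inl (j, g))) *
        ∑ i, if lab i = j then SY.zf s.2.1 g.1 i * sv (s.1.1 i) else 0 := by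
    rw [Finset.sum_comm (s := (Finset.univ : Finset (Fin J)))]
    rw [sum_act (fun g : act => ∑ j, θ (Sum.inr (Sum.inl (j, g))) *
        ∑ i, if lab i = j then SY.zf s.2.1 g.1 i * sv (s.1.1 i) else 0)]
    refine Finset.sum_congr rfl fun g _ => ?_
    by_cases h : g ∈ act
    · simp only [dif_pos h]
      exact sum_lab lab (fun j => θ (Sum.inr (Sum.inl (j, ⟨g, h⟩))))
        (fun i => SY.zf s.2.1 g i * sv (s.1.1 i))
    · simp only [dif_neg h, zero_mul, Finset.sum_const_zero]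
  have e3 : ∑ g : Fin p.nc, ∑ i, θ (Sum.inr (Sum.inr (kap i, g))) *
      (SY.zf s.2.2 g i * SY.xU (Matrix.of U) s.1.1 i) =
      ∑ k, ∑ g, θ (Sum.inr (Sum.inr (k, g))) *
        ∑ i, if kap i = k then SY.zf s.2.2 g i * SY.xU (Matrix.of U) s.1.1 i else 0 := by
    rw [Finset.sum_comm (s := (Finset.univ : Finset (Fin (K + 1))))]
    refine Finset.sum_congr rfl fun g _ => ?_
    exact sum_lab kap (fun k => θ (Sum.inr (Sum.inr (k, g))))
      (fun i => SY.zf s.2.2 g i * SY.xU (Matrix.of U) s.1.1 i)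
  rw [e2, e3, e1]
  ring

/-- the Hamiltonians as a family. -/
def HF (θ : Cd K J act → ℝ) (U : Mat (Fin N)) :
    SY.SS p n (Finset.univ : Finset (Fin N → Bool)) → ℝ :=
  LD.HL n val c t Kp (prm act θ) kap lab U

theorem HF_eq_HU (θ : Cd K J act → ℝ) :
    (HF n val c t Kp kap lab θ : Mat (Fin N) → _) =
      CSys.HU (n := n) (A := (Finset.univ : Finset (Fin N → Bool))) (fun i => val (kap i)) 1
        (LD.VL c t Kp (prm act θ).el lab) (fun i g => (prm act θ).am (lab i) g)
        (fun i g => (prm act θ).lm (kap i) g) := rfl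

theorem HF_shift (θ : Cd K J act → ℝ) (x : Cd K J act) (u : ℝ) :
    HF n val c t Kp kap lab (sh θ x u) = hs (LD.B p N n) (HF n val c t Kp kap lab θ)
      (Vd n kap lab x) u := by
  funext U s
  have h1 := HL_eq n val c t Kp kap lab (sh θ x u) U s
  have h2 := HL_eq n val c t Kp kap lab θ U s
  unfold hs HF
  rw [h1, h2, add_assoc]
  congr 1
  have e : ∀ z, sh θ x u z * Vd n kap lab z U s =
      θ z * Vd n kap lab z U s + if z = x then u * Vd n kap lab z U s else 0 := by
    intro z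
    by_cases hz : z = x
    · subst hz; rw [if_pos rfl, LGrid.sh_self]; ring
    · rw [if_neg hz, LGrid.sh_other θ u hz]; ring
  rw [Finset.sum_congr rfl fun z _ => e z, Finset.sum_add_distrib]
  simp

/-! ### Bounds of the directions -/

variable {n kap lab}

theorem ite_sum_le {M : ℕ} (l : Fin N → Fin M) (j : Fin M) (a b : Fin N → ℝ) :
    |∑ i, if l i = j then a i * b i else 0| ≤ 1 / 2 * ∑ i, (a i) ^ 2 + 1 / 2 * ∑ i, (b i) ^ 2 := by
  refine (Finset.abs_sum_le_sum_abs _ _).trans ?_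
  rw [Finset.mul_sum, Finset.mul_sum, ← Finset.sum_add_distrib]
  refine Finset.sum_le_sum fun i _ => ?_
  split_ifs
  · rw [abs_mul]
    nlinarith [sq_nonneg (|a i| - |b i|), sq_abs (a i), sq_abs (b i)]
  · rw [abs_zero]; positivity

theorem sum_zf_le (cc : SY.FC p N n) (g : Fin p.nc) :
    ∑ i, (SY.zf cc g i) ^ 2 ≤ CSys.Tc cc := by
  unfold CSys.Tc
  exact Finset.single_le_sum (f := fun g => ∑ i, (SY.zf cc g i) ^ 2)
    (fun g _ => Finset.sum_nonneg fun i _ => sq_nonneg _) (Finset.mem_univ g)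


theorem sv_sq (b : Bool) : (sv b) ^ 2 = 1 := by cases b <;> simp [sv]

theorem Vd_le (x : Cd K J act) {U : Mat (Fin N)}
    (hU : Matrix.of U ∈ Matrix.orthogonalGroup (Fin N) ℝ)
    (s : SY.SS p n (Finset.univ : Finset (Fin N → Bool))) :
    |Vd n kap lab x U s| ≤ N + CSys.Ts s := by
  have hN : (0 : ℝ) ≤ N := Nat.cast_nonneg N
  have hT1 := CSys.Tc_nonneg s.2.1
  have hT2 := CSys.Tc_nonneg s.2.2
  have hs : ∑ i, (sv (s.1.1 i)) ^ 2 = N := by
    simp only [sv_sq, Finset.sum_const, Finset.card_univ, Fintype.card_fin, nsmul_eq_mul, mul_one]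
  rcases x with j | ⟨j, g⟩ | ⟨k, g⟩
  · show |∑ i, if lab i = j then sv (s.1.1 i) else 0| ≤ N + CSys.Ts s
    have h1 : |∑ i, if lab i = j then sv (s.1.1 i) else 0| ≤ N := by
      refine (Finset.abs_sum_le_sum_abs _ _).trans ?_
      calc ∑ i, |if lab i = j then sv (s.1.1 i) else 0| ≤ ∑ _i : Fin N, (1 : ℝ) := by
            refine Finset.sum_le_sum fun i _ => ?_
            split_ifs
            · exact (sv_abs _).le
            · rw [abs_zero]; exact zero_le_one
        _ = N := by simp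
    unfold CSys.Ts
    linarith
  · show |∑ i, if lab i = j then SY.zf s.2.1 g.1 i * sv (s.1.1 i) else 0| ≤ N + CSys.Ts s
    have h1 := ite_sum_le lab j (fun i => SY.zf s.2.1 g.1 i) (fun i => sv (s.1.1 i))
    have h2 := sum_zf_le s.2.1 g.1
    rw [hs] at h1
    unfold CSys.Ts
    linarith
  · show |∑ i, if kap i = k then SY.zf s.2.2 g i * SY.xU (Matrix.of U) s.1.1 i else 0| ≤
      N + CSys.Ts s
    have h1 := ite_sum_le kap k (fun i => SY.zf s.2.2 g i)
      (fun i => SY.xU (Matrix.of U) s.1.1 i)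
    have h2 := sum_zf_le s.2.2 g
    have h3 : ∑ i, (SY.xU (Matrix.of U) s.1.1 i) ^ 2 = N := OvC.sum_xM_sq hU s.1.1
    rw [h3] at h1
    unfold CSys.Ts
    linarith

theorem Ts_le_sum (s : SY.SS p n (Finset.univ : Finset (Fin N → Bool))) :
    CSys.Ts s ≤ ∑ s' : SY.SS p n (Finset.univ : Finset (Fin N → Bool)), CSys.Ts s' :=
  Finset.single_le_sum (f := fun s' : SY.SS p n (Finset.univ : Finset (Fin N → Bool)) =>
    CSys.Ts s') (fun s' _ => CSys.Ts_nonneg s') (Finset.mem_univ s)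

theorem meas_Vd (x : Cd K J act) (s : SY.SS p n (Finset.univ : Finset (Fin N → Bool))) :
    Measurable fun U : Mat (Fin N) => Vd n kap lab x U s := by
  rcases x with j | ⟨j, g⟩ | ⟨k, g⟩
  · exact measurable_const
  · exact measurable_const
  · show Measurable fun U : Mat (Fin N) => ∑ i, if kap i = k then
      SY.zf s.2.2 g i * SY.xU (Matrix.of U) s.1.1 i else 0
    refine Finset.measurable_sum _ fun i _ => ?_
    split_ifs
    · refine Measurable.const_mul ?_ _
      unfold SY.xU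
      simp only [Matrix.mulVec, dotProduct, Matrix.of_apply]
      fun_prop
    · exact measurable_const

variable {ν : Measure (Mat (Fin N))} [IsProbabilityMeasure ν]

theorem adm_Vd (hν : ∀ᵐ U ∂ν, Matrix.of U ∈ Matrix.orthogonalGroup (Fin N) ℝ) (x : Cd K J act) :
    Adm (LD.B p N n) ν (Vd n kap lab x) where
  meas s := meas_Vd x s
  bdd := by
    refine ⟨N + ∑ s' : SY.SS p n (Finset.univ : Finset (Fin N → Bool)), CSys.Ts s', ?_⟩
    filter_upwards [hν] with U hU s
    exact (Vd_le x hU s).trans (add_le_add le_rfl (Ts_le_sum s))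

theorem abs_VL_le (ht : ∀ j, |t j| ≤ 1) (hKp : 0 ≤ Kp) {el : Fin J → ℝ} {R : ℝ}
    (hR : ∀ j, |el j| ≤ R) (σ : Fin N → Bool) :
    |LD.VL c t Kp el lab σ| ≤ (∑ j, |c j| + 4 * Kp + R) * N := by
  unfold LD.VL
  have h1 := Mag.abs_PEN_le c ht hKp lab σ
  have h2 : |∑ i, el (lab i) * spinVec σ i| ≤ R * N := by
    refine (Finset.abs_sum_le_sum_abs _ _).trans ?_
    calc ∑ i, |el (lab i) * spinVec σ i| ≤ ∑ _i : Fin N, R := by
          refine Finset.sum_le_sum fun i _ => ?_
          rw [abs_mul]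
          have h3 : |spinVec σ i| = 1 := sv_abs (σ i)
          rw [h3, mul_one]; exact hR _
      _ = R * N := by simp [mul_comm]
  refine (abs_add_le _ _).trans ?_
  linarith

/-- parameters bounded by `R`. -/
theorem prm_bdd {θ : Cd K J act → ℝ} {R : ℝ} (hR0 : 0 ≤ R) (hR : ∀ x, |θ x| ≤ R) :
    (∀ j, |(prm act θ).el j| ≤ R) ∧ (∀ j g, |(prm act θ).am j g| ≤ R) ∧
      ∀ k g, |(prm act θ).lm k g| ≤ R := by
  refine ⟨fun j => hR _, fun j g => ?_, fun k g => hR _⟩
  show |if h : g ∈ act then θ (Sum.inr (Sum.inl (j, ⟨g, h⟩))) else 0| ≤ R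
  split_ifs
  · exact hR _
  · rw [abs_zero]; exact hR0

theorem adm_HF (ht : ∀ j, |t j| ≤ 1) (hKp : 0 ≤ Kp) (n : ℕ) (kap : Fin N → Fin (K + 1))
    (lab : Fin N → Fin J)
    (hν : ∀ᵐ U ∂ν, Matrix.of U ∈ Matrix.orthogonalGroup (Fin N) ℝ) (θ : Cd K J act → ℝ) :
    Adm (LD.B p N n) ν (HF n val c t Kp kap lab θ) where
  meas s := by
    rw [HF_eq_HU]
    exact CSys.measurable_HU _ _ _ _ _ s
  bdd := by
    obtain ⟨R, hR0, hR⟩ : ∃ R : ℝ, 0 ≤ R ∧ ∀ x, |θ x| ≤ R :=
      ⟨∑ x, |θ x|, Finset.sum_nonneg fun _ _ => abs_nonneg _, fun x =>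
        Finset.single_le_sum (f := fun x => |θ x|) (fun _ _ => abs_nonneg _) (Finset.mem_univ x)⟩
    obtain ⟨Λ0, hΛ0⟩ : ∃ Λ0 : ℝ, ∀ k, |val k| ≤ Λ0 :=
      ⟨∑ x, |val x|, fun x =>
        Finset.single_le_sum (f := fun x => |val x|) (fun _ _ => abs_nonneg _) (Finset.mem_univ x)⟩
    have hp := prm_bdd hR0 hR
    refine ⟨(Λ0 / 2 + (∑ j, |c j| + 4 * Kp + R) + 2 * p.nc * R ^ 2 + 2 * p.nc * R ^ 2) * N +
      1 / 8 * ∑ s' : SY.SS p n (Finset.univ : Finset (Fin N → Bool)), CSys.Ts s', ?_⟩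
    filter_upwards [hν] with U hU s
    rw [HF_eq_HU]
    refine (CSys.abs_HU_le (n := n) (A := (Finset.univ : Finset (Fin N → Bool)))
      (fun i => val (kap i)) 1 _ _ _ (Λ0 := Λ0) (Λ := R) (Λa := R)
      (BV := ∑ j, |c j| + 4 * Kp + R) (fun i => hΛ0 _) (by norm_num) (fun i g => hp.2.2 _ _)
      (fun i g => hp.2.1 _ _) (fun σ => abs_VL_le c t Kp ht hKp hp.1 σ) hU s).trans ?_
    have := Ts_le_sum s
    linarith

/-- **The L system is a family with linear parameters.** -/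
theorem fam_L (ht : ∀ j, |t j| ≤ 1) (hKp : 0 ≤ Kp) (n : ℕ) (kap : Fin N → Fin (K + 1))
    (lab : Fin N → Fin J)
    (hν : ∀ᵐ U ∂ν, Matrix.of U ∈ Matrix.orthogonalGroup (Fin N) ℝ) :
    Fam (LD.B p N n) ν (C := Cd K J act) (HF n val c t Kp kap lab) (Vd n kap lab) where
  zero := SY.base_SF_zero _
  shift θ x u := HF_shift n val c t Kp kap lab θ x u
  admH θ := adm_HF val c t Kp ht hKp n kap lab hν θ
  admV x := adm_Vd hν x

/-! ### Means of the directions -/

/-- the constant of the second moments of the fields. -/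
def CTR (p : Par) (val : Fin (K + 1) → ℝ) (c : Fin J → ℝ) (Kp R : ℝ) : ℝ :=
  CSys.CT p (∑ k, |val k|) R R (∑ j, |c j| + 4 * Kp + R)

theorem val_le (k : Fin (K + 1)) : |val k| ≤ ∑ k, |val k| :=
  Finset.single_le_sum (f := fun x => |val x|) (fun _ _ => abs_nonneg _) (Finset.mem_univ k)

theorem eE_Ts_HF (hnb : p.nb = 0) (hN : 0 < N) (ht : ∀ j, |t j| ≤ 1) (hKp : 0 ≤ Kp)
    {θ : Cd K J act → ℝ} {R : ℝ} (hR0 : 0 ≤ R) (hR : ∀ x, |θ x| ≤ R) {U : Mat (Fin N)}
    (hU : Matrix.of U ∈ Matrix.orthogonalGroup (Fin N) ℝ) (d : DD p N) :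
    eE (G.PP (LD.B p N n) (HF n val c t Kp kap lab θ U) d) (fun ω => CSys.Ts ω.1) ≤
      CTR p val c Kp R * N := by
  have hp := prm_bdd hR0 hR
  rw [HF_eq_HU]
  exact CSys.eE_Ts_HU (n := n) (A := (Finset.univ : Finset (Fin N → Bool))) _
    (fun i => val (kap i)) 1 _ _ _ d hnb hN (fun i => val_le val _) (by norm_num)
    (fun i g => hp.2.2 _ _) (fun i g => hp.2.1 _ _)
    (fun σ => abs_VL_le c t Kp ht hKp hp.1 σ) hU

omit [IsProbabilityMeasure ν] in
theorem dv_mono_ae {f g : DD p N → Mat (Fin N) → ℝ} (hf : ∀ d, Integrable (f d) ν)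
    (hg : ∀ d, Integrable (g d) ν) (h : ∀ d, ∀ᵐ U ∂ν, f d U ≤ g d U) : dv ν f ≤ dv ν g := by
  unfold dv Ed
  exact Finset.sum_le_sum fun d _ => mul_le_mul_of_nonneg_left
    (integral_mono_ae (hf d) (hg d) (h d)) (dw_nonneg p N d)

theorem mN_le (hnb : p.nb = 0) (hN : 0 < N) (ht : ∀ j, |t j| ≤ 1) (hKp : 0 ≤ Kp)
    (hν : ∀ᵐ U ∂ν, Matrix.of U ∈ Matrix.orthogonalGroup (Fin N) ℝ)
    {θ : Cd K J act → ℝ} {R : ℝ} (hR0 : 0 ≤ R) (hR : ∀ x, |θ x| ≤ R) (x : Cd K J act) :
    |mN (LD.B p N n) ν (HF n val c t Kp kap lab θ) (Vd n kap lab x)| ≤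
      1 + CTR p val c Kp R := by
  have hN' : (0 : ℝ) < N := by exact_mod_cast hN
  have hH := adm_HF (act := act) val c t Kp ht hKp n kap lab hν θ
  have hV := adm_Vd (n := n) (kap := kap) (lab := lab) hν x
  have key : ∀ d, ∀ᵐ U ∂ν, |eE (G.PP (LD.B p N n) (HF n val c t Kp kap lab θ U) d)
      (fun ω => Vd n kap lab x U ω.1)| ≤ (1 + CTR p val c Kp R) * N := by
    intro d
    filter_upwards [hν] with U hU
    have hP := G.PP_isProb (LD.B p N n) (HF n val c t Kp kap lab θ U) d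
    refine (eE_abs_le hP _).trans ?_
    have h1 : eE (G.PP (LD.B p N n) (HF n val c t Kp kap lab θ U) d)
        (fun ω => |Vd n kap lab x U ω.1|) ≤
        eE (G.PP (LD.B p N n) (HF n val c t Kp kap lab θ U) d) (fun ω => (N : ℝ) + CSys.Ts ω.1) :=
      eE_mono hP fun ω => Vd_le x hU ω.1
    rw [eE_add, eE_const hP] at h1
    have h2 := eE_Ts_HF (n := n) (kap := kap) (lab := lab) val c t Kp hnb hN ht hKp hR0 hR hU d
    linarith
  have h1 : mV (B := LD.B p N n) ν (HF n val c t Kp kap lab θ) (Vd n kap lab x) ≤ (1 + CTR p val c Kp R) * N := by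
    unfold mV
    refine (dv_mono_ae (fun d => hH.int_obs hV d) (fun d => integrable_const _)
      (fun d => (key d).mono fun U h => (le_abs_self _).trans h)).trans_eq ?_
    exact dv_const hN _
  have h2 : -((1 + CTR p val c Kp R) * N) ≤ mV (B := LD.B p N n) ν (HF n val c t Kp kap lab θ) (Vd n kap lab x) := by
    unfold mV
    refine le_trans (le_of_eq ?_) (dv_mono_ae (f := fun _ _ => -((1 + CTR p val c Kp R) * N))
      (fun d => integrable_const _) (fun d => hH.int_obs hV d)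
      (fun d => (key d).mono fun U h => by
        have := (abs_le.1 h).1
        linarith))
    exact (dv_const hN _).symm
  unfold mN
  rw [abs_mul, abs_of_nonneg (by positivity : (0 : ℝ) ≤ (N : ℝ)⁻¹), inv_mul_le_iff₀ hN']
  rw [abs_le]
  constructor
  · linarith
  · linarith

/-! ### Fluctuations -/

/-- the variance constant -/
def CVR (p : Par) (val : Fin (K + 1) → ℝ) (c : Fin J → ℝ) (Kp R : ℝ) : ℝ :=
  CSys.CV p (∑ k, |val k|) R R (∑ j, |c j| + 4 * Kp + R)

/-- **Fluctuations of the free energy of the L system.** -/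
theorem fluc_le (hnb : p.nb = 0) (hN : 2 < N) (ht : ∀ j, |t j| ≤ 1) (hKp : 0 ≤ Kp)
    (hν : RHaar ν) {θ : Cd K J act → ℝ} {R : ℝ} (hR0 : 0 ≤ R) (hR : ∀ x, |θ x| ≤ R) :
    fluc (B := LD.B p N n) ν (HF n val c t Kp kap lab θ) ≤
      Real.sqrt (CVR p val c Kp R * N) + p.nc * p.T * p.τ := by
  have hN0 : 0 < N := by omega
  have hp := prm_bdd hR0 hR
  have hH := adm_HF (act := act) val c t Kp ht hKp n kap lab hν.mem θ
  set H := HF (p := p) n val c t Kp kap lab θ with hHdef
  set B := LD.B p N n with hB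
  -- pointwise dependence on `d`
  have hd : ∀ (d d' : DD p N) (U : Mat (Fin N)),
      G.Phi B (H U) d - G.Phi B (H U) d' ≤ p.nc * p.T * p.τ := by
    intro d d' U
    have h1 : ∀ ω, |G.UU B (H U) d ω - G.UU B (H U) d' ω| ≤ p.nc * p.T * p.τ := by
      intro ω
      have b1 := CSys.WW_bounds (n := n) (A := (Finset.univ : Finset (Fin N → Bool)))
        (LD.univ_ne N) hnb d ω
      have b2 := CSys.WW_bounds (n := n) (A := (Finset.univ : Finset (Fin N → Bool)))
        (LD.univ_ne N) hnb d' ω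
      unfold G.UU
      rw [abs_le]
      constructor <;> linarith [b1.1, b1.2, b2.1, b2.2]
    unfold G.Phi
    rw [← eE_sub]
    refine (le_abs_self _).trans (abs_eE_le (prior_isProb B) fun ω => ?_)
    exact A_sub_abs_le (prior_isProb B) p.xs_expo.pos h1 0 ω
  have hint : ∀ d : DD p N, Integrable (fun U => G.Phi B (H U) d) ν := fun d => hH.int_Phi d
  -- the mean over `U` at fixed `d`
  set m : DD p N → ℝ := fun d => ∫ U, G.Phi B (H U) d ∂ν with hm
  have hmd : ∀ d d', m d - m d' ≤ p.nc * p.T * p.τ := by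
    intro d d'
    have e : m d - m d' = ∫ U, (G.Phi B (H U) d - G.Phi B (H U) d') ∂ν := by
      rw [integral_sub (hint d) (hint d')]
    rw [e]
    calc ∫ U, (G.Phi B (H U) d - G.Phi B (H U) d') ∂ν
        ≤ ∫ _U : Mat (Fin N), (p.nc * p.T * p.τ : ℝ) ∂ν :=
          integral_mono ((hint d).sub (hint d')) (integrable_const _) fun U => hd d d' U
      _ = _ := by simp
  have hFF : FF B ν H = ∑ d, dw p N d * m d := rfl
  have hs := dw_sum p hN0
  have hmF : ∀ d, |m d - FF B ν H| ≤ p.nc * p.T * p.τ := by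
    intro d
    have e1 : m d - FF B ν H = ∑ d', dw p N d' * (m d - m d') := by
      simp only [mul_sub, Finset.sum_sub_distrib, ← Finset.sum_mul, hs, one_mul, hFF]
    have e2 : FF B ν H - m d = ∑ d', dw p N d' * (m d' - m d) := by
      simp only [mul_sub, Finset.sum_sub_distrib, ← Finset.sum_mul, hs, one_mul, hFF]
    have b1 : m d - FF B ν H ≤ p.nc * p.T * p.τ := by
      rw [e1]
      calc ∑ d', dw p N d' * (m d - m d') ≤ ∑ d', dw p N d' * (p.nc * p.T * p.τ) :=
            Finset.sum_le_sum fun d' _ => mul_le_mul_of_nonneg_left (hmd d d') (dw_nonneg p N d')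
        _ = _ := by rw [← Finset.sum_mul, hs, one_mul]
    have b2 : FF B ν H - m d ≤ p.nc * p.T * p.τ := by
      rw [e2]
      calc ∑ d', dw p N d' * (m d' - m d) ≤ ∑ d', dw p N d' * (p.nc * p.T * p.τ) :=
            Finset.sum_le_sum fun d' _ => mul_le_mul_of_nonneg_left (hmd d' d) (dw_nonneg p N d')
        _ = _ := by rw [← Finset.sum_mul, hs, one_mul]
    rw [abs_le]
    constructor <;> linarith
  have hdev : ∀ d : DD p N, ∫ U, |G.Phi B (H U) d - m d| ∂ν ≤
      Real.sqrt (CVR p val c Kp R * N) := by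
    intro d
    have h := CSys.dev_O (n := n) (A := (Finset.univ : Finset (Fin N → Bool))) (LD.univ_ne N)
      (fun i => val (kap i)) 1 (LD.VL c t Kp (prm act θ).el lab)
      (fun i g => (prm act θ).am (lab i) g) (fun i g => (prm act θ).lm (kap i) g) d hnb hN
      (fun i => val_le val _) (by norm_num) (fun i g => hp.2.2 _ _) (fun i g => hp.2.1 _ _)
      (fun σ => abs_VL_le c t Kp ht hKp hp.1 σ) (ν := ν) ⟨hν.mem, hν.inv⟩
    exact h
  unfold fluc dv Ed
  calc ∑ d, dw p N d * ∫ U, |G.Phi B (H U) d - FF B ν H| ∂ν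
      ≤ ∑ d, dw p N d * (Real.sqrt (CVR p val c Kp R * N) + p.nc * p.T * p.τ) := by
        refine Finset.sum_le_sum fun d _ => mul_le_mul_of_nonneg_left ?_ (dw_nonneg p N d)
        have ia : Integrable (fun U => |G.Phi B (H U) d - m d|) ν :=
          ((hint d).sub (integrable_const _)).abs
        have ib : Integrable (fun _ : Mat (Fin N) => (p.nc * p.T * p.τ : ℝ)) ν :=
          integrable_const _
        have hab := integral_add ia ib
        have hc : ∫ _U : Mat (Fin N), (p.nc * p.T * p.τ : ℝ) ∂ν = p.nc * p.T * p.τ := by simp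
        have hle : ∫ U, |G.Phi B (H U) d - FF B ν H| ∂ν ≤
            ∫ U, (|G.Phi B (H U) d - m d| + p.nc * p.T * p.τ) ∂ν := by
          refine integral_mono ((hint d).sub (integrable_const _)).abs (ia.add ib) fun U => ?_
          show |G.Phi B (H U) d - FF B ν H| ≤ |G.Phi B (H U) d - m d| + p.nc * p.T * p.τ
          have := abs_sub_le (G.Phi B (H U) d) (m d) (FF B ν H)
          linarith [hmF d]
        have h3 := hdev d
        linarith
    _ = _ := by rw [← Finset.sum_mul, hs, one_mul]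

end

end Crest.Agent.R164.LS2
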