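import Crest.Agent.R164.UObs2
import Crest.Agent.R164.LStruct2C

/-!
Row 164, L side, module (GL4) (helper494): integration by parts and concentration on the L system.

* `TO_ibp`   : pointwise `|E^P T_{j,g} - a_{jg}(1 - w ∑_{g' ≥ g} E^P R_j(mt g'))| ≤ 52 a_{jg}²/√n`,
* `EO_TO`    : the same for the averages `EO`,
* `EO_MO`    : `E|MO_j - mb_j| ≤ (N / r_j) cerr` in the form of LSTRUCT-2,
* `sum_RJ`   : `∑_j (r_j/N) RJ_j(l) = N⁻¹ ∑_i (E_l s_i)²`.
-/

set_option autoImplicit false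
set_option linter.unusedSectionVars false

namespace Crest.Agent.R164.LD

open Finset MeasureTheory Crest.Agent.R141 Crest.Agent.R164 Crest.Agent.R164.Haar
open Crest.ProbabilityR.InvariantGlass (spinVec)

noncomputable section

variable {p : Par} {N K J : ℕ}

/-! ### Algebra of the group averages -/

theorem rJ_nonneg (lab : Fin N → Fin J) (j : Fin J) : 0 ≤ Mag.rJ lab j := by
  unfold Mag.rJ; positivity

theorem sum_ite_const (lab : Fin N → Fin J) (j : Fin J) (x : ℝ) :
    ∑ i, (if lab i = j then x else 0) = Mag.rJ lab j * x := by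
  rw [← Finset.sum_filter, Finset.sum_const, nsmul_eq_mul]
  rfl

theorem MO_eq (n : ℕ) (lab : Fin N → Fin J) (j : Fin J) (ω : G.Om (B p N n)) :
    MO n lab j ω = (Mag.rJ lab j)⁻¹ * ∑ i, if lab i = j then sv (ω.1.1.1 i) else 0 := by
  unfold MO Mag.mag Mag.rJ
  rw [Finset.sum_filter, div_eq_inv_mul]
  rfl

/-- a group average of the spin overlaps at level `l`: the average over all the groups. -/
theorem sum_RJ (n : ℕ) (P : G.Om (B p N n) → ℝ) (lab : Fin N → Fin J) (l : ℕ)
    (ω : G.Om (B p N n)) :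
    ∑ j, (Mag.rJ lab j / (N : ℝ)) * RJ n P lab j l ω =
      (N : ℝ)⁻¹ * ∑ i, (cE P ((G.fil (B p N n)).F l) (fun ω => sv (ω.1.1.1 i)) ω) ^ 2 := by
  have h1 : ∀ j, (Mag.rJ lab j / (N : ℝ)) * RJ n P lab j l ω =
      (N : ℝ)⁻¹ * ∑ i, if lab i = j then
        (cE P ((G.fil (B p N n)).F l) (fun ω => sv (ω.1.1.1 i)) ω) ^ 2 else 0 := by
    intro j
    unfold RJ
    rcases (rJ_nonneg lab j).eq_or_lt with h | h
    · have h0 : ((Finset.univ.filter fun r => lab r = j).card : ℝ) = 0 := h.symm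
      have h2 : (Finset.univ.filter fun r => lab r = j) = ∅ := by
        rw [Nat.cast_eq_zero, Finset.card_eq_zero] at h0
        exact h0
      have h3 : ∀ i, lab i ≠ j := by
        intro i hi
        have : i ∈ (Finset.univ.filter fun r => lab r = j) := by simp [hi]
        rw [h2] at this
        exact absurd this (Finset.notMem_empty _)
      rw [← h]
      simp [h3]
    · field_simp
  simp only [h1]
  rw [← Finset.mul_sum, Finset.sum_comm]
  congr 1
  refine Finset.sum_congr rfl fun i _ => ?_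
  rw [Finset.sum_ite_eq]
  simp

theorem RJ_nonneg (n : ℕ) (P : G.Om (B p N n) → ℝ) (lab : Fin N → Fin J) (j : Fin J) (l : ℕ)
    (ω : G.Om (B p N n)) : 0 ≤ RJ n P lab j l ω := by
  unfold RJ
  refine mul_nonneg (inv_nonneg.mpr (rJ_nonneg lab j)) (Finset.sum_nonneg fun i _ => ?_)
  split_ifs
  · exact sq_nonneg _
  · exact le_rfl

theorem cE_sv_sq_le {n : ℕ} {P : G.Om (B p N n) → ℝ} (hP : IsProb P) (i : Fin N)
    (r : Setoid (G.Om (B p N n))) (ω : G.Om (B p N n)) :
    (cE P r (fun ω => sv (ω.1.1.1 i)) ω) ^ 2 ≤ 1 := by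
  have h := cE_sq_le hP r (fun w : G.Om (B p N n) => sv (w.1.1.1 i)) ω
  have e : (fun a : G.Om (B p N n) => sv (a.1.1.1 i) ^ 2) = fun _ => 1 := by
    funext w
    rw [← sq_abs, sv_abs, one_pow]
  rw [e, cE_const hP] at h
  exact h

theorem RJ_le_one {n : ℕ} {P : G.Om (B p N n) → ℝ} (hP : IsProb P) (lab : Fin N → Fin J)
    (j : Fin J) (l : ℕ) (ω : G.Om (B p N n)) : RJ n P lab j l ω ≤ 1 := by
  unfold RJ
  have h1 : ∑ i, (if lab i = j then
      (cE P ((G.fil (B p N n)).F l) (fun ω => sv (ω.1.1.1 i)) ω) ^ 2 else 0) ≤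
      ∑ i, (if lab i = j then (1 : ℝ) else 0) := by
    refine Finset.sum_le_sum fun i _ => ?_
    split_ifs
    · exact cE_sv_sq_le hP i _ ω
    · exact le_rfl
  rw [sum_ite_const, mul_one] at h1
  rcases (rJ_nonneg lab j).eq_or_lt with h | h
  · rw [← h]; simp
  · rw [inv_mul_le_iff₀ h, mul_one]; exact h1

/-! ### Integration by parts -/

section ibp

variable {n : ℕ} (val : Fin (K + 1) → ℝ) (c t : Fin J → ℝ) (Kp : ℝ) (θ : Prm p K J)
  (kap : Fin N → Fin (K + 1)) (lab : Fin N → Fin J) (U : Mat (Fin N)) (d : DD p N)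

theorem PL_isProb : IsProb (PL n val c t Kp θ kap lab U d) := G.PP_isProb (B p N n) _ d

theorem PL_eq : PL n val c t Kp θ kap lab U d = CSys.PS (univ_ne N)
    (SY.h0q (fun i => val (kap i)) (Matrix.of U) 1 (VL c t Kp θ.el lab))
    (fun i g => θ.am (lab i) g) (fun i g => θ.lm (kap i) g) (SY.xU (Matrix.of U)) d := rfl

/-- **(GL4), pointwise.** -/
theorem TO_ibp (hn : 0 < n) (j : Fin J) (g : Fin p.nc) (hr : 0 < Mag.rJ lab j)
    (hc : |θ.am j g| ≤ Real.sqrt n / 8) :
    |eE (PL n val c t Kp θ kap lab U d) (TO n lab j g) -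
      θ.am j g * (1 - ((p.nc : ℝ) + 1)⁻¹ * ∑ g' ∈ Ico (g : ℕ) p.nc,
        eE (PL n val c t Kp θ kap lab U d)
          (RJ n (PL n val c t Kp θ kap lab U d) lab j (p.mt g')))| ≤
      52 * (θ.am j g) ^ 2 / Real.sqrt n := by
  set P := PL n val c t Kp θ kap lab U d with hPdef
  have hP : IsProb P := PL_isProb val c t Kp θ kap lab U d
  obtain ⟨ω0⟩ := G.omNonempty (B p N n)
  set I : Finset (Fin N) := Finset.univ.filter fun i => lab i = j with hI
  have h := CSys.ibp_main_sum (univ_ne N)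
    (SY.h0q (fun i => val (kap i)) (Matrix.of U) 1 (VL c t Kp θ.el lab))
    (fun i g => θ.am (lab i) g) (fun i g => θ.lm (kap i) g) (SY.xU (Matrix.of U))
    d hn g I (f := fun _ => 1) (fun _ _ _ => rfl) (Λ := |θ.am j g|)
    (fun _ => by simp) (fun i hi => by
      have : lab i = j := (Finset.mem_filter.1 hi).2
      rw [this]) hc (l := 0) (SY.mt_pos (p := p) (g : ℕ)) ω0
  rw [← PL_eq, ← hPdef, ObsConc.cE_top (SY.fil_zero (univ_ne N)) hP,
    ObsConc.cE_top (SY.fil_zero (univ_ne N)) hP] at h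
  simp only [mul_one, one_mul] at h
  have hcard : ((I.card : ℕ) : ℝ) = Mag.rJ lab j := rfl
  have e1 : eE P (fun w => ∑ i ∈ I, θ.am (lab i) g * (sv (w.1.1.1 i) *
      CSys.scr (univ_ne N) P g (fun w => sv (w.1.1.1 i)) w)) =
      Mag.rJ lab j * (θ.am j g * (1 - ((p.nc : ℝ) + 1)⁻¹ * ∑ g' ∈ Ico (g : ℕ) p.nc,
        eE P (RJ n P lab j (p.mt g')))) := by
    rw [eE_sum]
    have e2 : ∀ i ∈ I, eE P (fun w => θ.am (lab i) g * (sv (w.1.1.1 i) *
        CSys.scr (univ_ne N) P g (fun w => sv (w.1.1.1 i)) w)) =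
        θ.am j g * (1 - ((p.nc : ℝ) + 1)⁻¹ * ∑ g' ∈ Ico (g : ℕ) p.nc,
          eE P (fun w => (cE P ((G.fil (B p N n)).F (p.mt g'))
            (fun w => sv (w.1.1.1 i)) w) ^ 2)) := by
      intro i hi
      have hij : lab i = j := (Finset.mem_filter.1 hi).2
      rw [eE_smul, US.eE_mul_scr (univ_ne N) hP g (fun w => sv (w.1.1.1 i)), hij]
      have e3 : eE P (fun w => sv (w.1.1.1 i) ^ 2) = 1 := by
        have : (fun w : G.Om (B p N n) => sv (w.1.1.1 i) ^ 2) = fun _ => 1 := by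
          funext w
          rw [← sq_abs, sv_abs, one_pow]
        rw [this, eE_const hP]
      rw [e3]
    rw [Finset.sum_congr rfl e2, ← Finset.mul_sum, Finset.sum_sub_distrib, Finset.sum_const,
      nsmul_eq_mul, mul_one, hcard, ← Finset.mul_sum, Finset.sum_comm]
    have e4 : ∀ g' : ℕ, Mag.rJ lab j * eE P (RJ n P lab j (p.mt g')) =
        ∑ i ∈ I, eE P (fun w => (cE P ((G.fil (B p N n)).F (p.mt g'))
            (fun w => sv (w.1.1.1 i)) w) ^ 2) := by
      intro g'
      unfold RJ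
      rw [eE_smul, mul_inv_cancel_left₀ hr.ne', ← eE_sum]
      congr 1
      funext w
      rw [hI, Finset.sum_filter]
    simp only [← e4]
    rw [← Finset.mul_sum]
    ring
  rw [e1, hcard] at h
  have e5 : eE P (TO n lab j g) =
      (Mag.rJ lab j)⁻¹ * eE P (fun w => ∑ i ∈ I, SY.zf w.1.2.1 g i * sv (w.1.1.1 i)) := by
    rw [← eE_smul]
    congr 1
    funext w
    unfold TO
    rw [hI, Finset.sum_filter]
  rw [e5]
  set X := eE P (fun w => ∑ i ∈ I, SY.zf w.1.2.1 g i * sv (w.1.1.1 i))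
  set Y := θ.am j g * (1 - ((p.nc : ℝ) + 1)⁻¹ * ∑ g' ∈ Ico (g : ℕ) p.nc,
        eE P (RJ n P lab j (p.mt g')))
  have e6 : (Mag.rJ lab j)⁻¹ * X - Y = (Mag.rJ lab j)⁻¹ * (X - Mag.rJ lab j * Y) := by
    field_simp
  rw [e6, abs_mul, abs_of_pos (inv_pos.mpr hr), inv_mul_le_iff₀ hr]
  refine h.trans (le_of_eq ?_)
  rw [sq_abs]

end ibp

/-! ### Averages of bounded observables -/

section avg

variable {mu : Measure (Mat (Fin N))} {n : ℕ} (val : Fin (K + 1) → ℝ) (c t : Fin J → ℝ)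
  (Kp : ℝ) (θ : Prm p K J) (kap : Fin N → Fin (K + 1)) (lab : Fin N → Fin J)

/-- bounded measurable observables -/
structure OAdm (mu : Measure (Mat (Fin N))) (O : Mat (Fin N) → DD p N → G.Om (B p N n) → ℝ) :
    Prop where
  meas : ∀ d ω, Measurable fun U => O U d ω
  bdd : ∀ d, ∃ C, ∀ᵐ U ∂mu, ∀ ω, |O U d ω| ≤ C

theorem OAdm.const (f : DD p N → G.Om (B p N n) → ℝ) : OAdm mu (fun _ d ω => f d ω) where
  meas _ _ := measurable_const
  bdd d := ⟨∑ ω, |f d ω|, Filter.Eventually.of_forall fun _ ω =>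
    Finset.single_le_sum (f := fun ω => |f d ω|) (fun _ _ => abs_nonneg _) (Finset.mem_univ ω)⟩

theorem OAdm.add {O O' : Mat (Fin N) → DD p N → G.Om (B p N n) → ℝ} (h : OAdm mu O)
    (h' : OAdm mu O') : OAdm mu (fun U d ω => O U d ω + O' U d ω) where
  meas d ω := (h.meas d ω).add (h'.meas d ω)
  bdd d := by
    obtain ⟨C, hC⟩ := h.bdd d
    obtain ⟨C', hC'⟩ := h'.bdd d
    refine ⟨C + C', ?_⟩
    filter_upwards [hC, hC'] with U h1 h2 ω
    exact (abs_add_le _ _).trans (add_le_add (h1 ω) (h2 ω))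

theorem OAdm.smul {O : Mat (Fin N) → DD p N → G.Om (B p N n) → ℝ} (h : OAdm mu O) (a : ℝ) :
    OAdm mu (fun U d ω => a * O U d ω) where
  meas d ω := (h.meas d ω).const_mul a
  bdd d := by
    obtain ⟨C, hC⟩ := h.bdd d
    refine ⟨|a| * C, ?_⟩
    filter_upwards [hC] with U h1 ω
    rw [abs_mul]
    exact mul_le_mul_of_nonneg_left (h1 ω) (abs_nonneg a)

theorem OAdm.sub {O O' : Mat (Fin N) → DD p N → G.Om (B p N n) → ℝ} (h : OAdm mu O)
    (h' : OAdm mu O') : OAdm mu (fun U d ω => O U d ω - O' U d ω) where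
  meas d ω := (h.meas d ω).sub (h'.meas d ω)
  bdd d := by
    obtain ⟨C, hC⟩ := h.bdd d
    obtain ⟨C', hC'⟩ := h'.bdd d
    refine ⟨C + C', ?_⟩
    filter_upwards [hC, hC'] with U h1 h2 ω
    exact (abs_sub _ _).trans (add_le_add (h1 ω) (h2 ω))

theorem OAdm.abs {O : Mat (Fin N) → DD p N → G.Om (B p N n) → ℝ} (h : OAdm mu O) :
    OAdm mu (fun U d ω => |O U d ω|) where
  meas d ω := (h.meas d ω).abs
  bdd d := by
    obtain ⟨C, hC⟩ := h.bdd d
    refine ⟨C, ?_⟩
    filter_upwards [hC] with U h1 ω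
    rw [abs_abs]; exact h1 ω

theorem OAdm.mul {O O' : Mat (Fin N) → DD p N → G.Om (B p N n) → ℝ} (h : OAdm mu O)
    (h' : OAdm mu O') : OAdm mu (fun U d ω => O U d ω * O' U d ω) where
  meas d ω := (h.meas d ω).mul (h'.meas d ω)
  bdd d := by
    obtain ⟨C, hC⟩ := h.bdd d
    obtain ⟨C', hC'⟩ := h'.bdd d
    refine ⟨C * C', ?_⟩
    filter_upwards [hC, hC'] with U h1 h2 ω
    rw [abs_mul]
    exact mul_le_mul (h1 ω) (h2 ω) (abs_nonneg _) ((abs_nonneg _).trans (h1 ω))

theorem OAdm.sum {ι : Type*} (I : Finset ι)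
    {O : ι → Mat (Fin N) → DD p N → G.Om (B p N n) → ℝ} (h : ∀ i ∈ I, OAdm mu (O i)) :
    OAdm mu (fun U d ω => ∑ i ∈ I, O i U d ω) := by
  classical
  induction I using Finset.induction_on with
  | empty => simpa using OAdm.const (mu := mu) (n := n) (fun (_ : DD p N) _ => (0 : ℝ))
  | insert a I ha ih =>
    simp only [Finset.sum_insert ha]
    exact (h a (Finset.mem_insert_self _ _)).add
      (ih fun i hi => h i (Finset.mem_insert_of_mem hi))

theorem measurable_HL (s : SY.SS p n (Finset.univ : Finset (Fin N → Bool))) :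
    Measurable fun U => HL n val c t Kp θ kap lab U s :=
  CSys.measurable_HU (fun i => val (kap i)) 1 (VL c t Kp θ.el lab)
    (fun i g => θ.am (lab i) g) (fun i g => θ.lm (kap i) g) s

theorem meas_PL (d : DD p N) (ω : G.Om (B p N n)) :
    Measurable fun U => PL n val c t Kp θ kap lab U d ω :=
  G.meas_PP (B p N n) (H := HL n val c t Kp θ kap lab)
    (fun s => measurable_HL val c t Kp θ kap lab s) d ω

variable [IsProbabilityMeasure mu]

theorem OAdm.integrable {O : Mat (Fin N) → DD p N → G.Om (B p N n) → ℝ} (h : OAdm mu O)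
    (d : DD p N) : Integrable (fun U => eE (PL n val c t Kp θ kap lab U d) (O U d)) mu := by
  obtain ⟨C, hC⟩ := h.bdd d
  refine Integrable.of_bound (G.meas_eE (fun ω => meas_PL val c t Kp θ kap lab d ω)
    (fun ω => h.meas d ω)).aestronglyMeasurable C ?_
  filter_upwards [hC] with U h1
  rw [Real.norm_eq_abs]
  exact LS2.abs_eE_le (PL_isProb val c t Kp θ kap lab U d) h1

theorem EO_eq {O : Mat (Fin N) → DD p N → G.Om (B p N n) → ℝ} (h : OAdm mu O) :
    EO mu n val c t Kp θ kap lab O =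
      Ed p N (fun d => ∫ U, eE (PL n val c t Kp θ kap lab U d) (O U d) ∂mu) := by
  unfold EO Ed
  rw [integral_finsetSum _ fun d _ => ((h.integrable val c t Kp θ kap lab d).const_mul _)]
  refine Finset.sum_congr rfl fun d _ => ?_
  exact integral_const_mul _ _

theorem EO_eq_dv {O : Mat (Fin N) → DD p N → G.Om (B p N n) → ℝ} (h : OAdm mu O) :
    EO mu n val c t Kp θ kap lab O =
      LS2.dv mu (fun d U => eE (PL n val c t Kp θ kap lab U d) (O U d)) :=
  EO_eq val c t Kp θ kap lab h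

theorem EO_add {O O' : Mat (Fin N) → DD p N → G.Om (B p N n) → ℝ} (h : OAdm mu O)
    (h' : OAdm mu O') : EO mu n val c t Kp θ kap lab (fun U d ω => O U d ω + O' U d ω) =
      EO mu n val c t Kp θ kap lab O + EO mu n val c t Kp θ kap lab O' := by
  rw [EO_eq_dv val c t Kp θ kap lab h, EO_eq_dv val c t Kp θ kap lab h',
    EO_eq_dv val c t Kp θ kap lab (h.add h'),
    ← LS2.dv_add (fun d => h.integrable val c t Kp θ kap lab d)
      (fun d => h'.integrable val c t Kp θ kap lab d)]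
  congr 1
  funext d U
  exact eE_add _ _ _

theorem EO_smul {O : Mat (Fin N) → DD p N → G.Om (B p N n) → ℝ} (h : OAdm mu O) (a : ℝ) :
    EO mu n val c t Kp θ kap lab (fun U d ω => a * O U d ω) =
      a * EO mu n val c t Kp θ kap lab O := by
  rw [EO_eq_dv val c t Kp θ kap lab h, EO_eq_dv val c t Kp θ kap lab (h.smul a), ← LS2.dv_smul]
  congr 1
  funext d U
  exact eE_smul _ _ _

theorem EO_sub {O O' : Mat (Fin N) → DD p N → G.Om (B p N n) → ℝ} (h : OAdm mu O)
    (h' : OAdm mu O') : EO mu n val c t Kp θ kap lab (fun U d ω => O U d ω - O' U d ω) =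
      EO mu n val c t Kp θ kap lab O - EO mu n val c t Kp θ kap lab O' := by
  have h1 := EO_add val c t Kp θ kap lab h (h'.smul (-1))
  rw [EO_smul val c t Kp θ kap lab h'] at h1
  have e : (fun U d ω => O U d ω - O' U d ω) = fun U d ω => O U d ω + -1 * O' U d ω := by
    funext U d ω; ring
  rw [e, h1]; ring

theorem EO_sum {ι : Type*} (I : Finset ι)
    {O : ι → Mat (Fin N) → DD p N → G.Om (B p N n) → ℝ} (h : ∀ i ∈ I, OAdm mu (O i)) :
    EO mu n val c t Kp θ kap lab (fun U d ω => ∑ i ∈ I, O i U d ω) =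
      ∑ i ∈ I, EO mu n val c t Kp θ kap lab (O i) := by
  classical
  induction I using Finset.induction_on with
  | empty =>
    simp only [Finset.sum_empty]
    rw [EO_eq_dv val c t Kp θ kap lab (OAdm.const (mu := mu) (n := n) (fun (_ : DD p N) _ => (0 : ℝ)))]
    have e : (fun (d : DD p N) U => eE (PL n val c t Kp θ kap lab U d) (fun _ => (0 : ℝ))) =
      fun (d : DD p N) U => 0 * eE (PL n val c t Kp θ kap lab U d) (fun _ => (0 : ℝ)) := by
      funext d U
      simp [eE]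
    rw [e, LS2.dv_smul, zero_mul]
  | insert a I ha ih =>
    simp only [Finset.sum_insert ha]
    rw [EO_add val c t Kp θ kap lab (h a (Finset.mem_insert_self _ _))
      (OAdm.sum I fun i hi => h i (Finset.mem_insert_of_mem hi)),
      ih fun i hi => h i (Finset.mem_insert_of_mem hi)]

theorem EO_const (hN : 0 < N) (a : ℝ) :
    EO mu n val c t Kp θ kap lab (fun _ _ _ => a) = a := by
  rw [EO_eq_dv val c t Kp θ kap lab (OAdm.const (mu := mu) (n := n) (fun (_ : DD p N) _ => a))]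
  have e : (fun (d : DD p N) U => eE (PL n val c t Kp θ kap lab U d) (fun _ => a)) =
      fun (d : DD p N) U => a := by
    funext d U
    exact eE_const (PL_isProb val c t Kp θ kap lab U d) a
  rw [e]
  exact LS2.dv_const hN a

theorem EO_mono {O O' : Mat (Fin N) → DD p N → G.Om (B p N n) → ℝ} (h : OAdm mu O)
    (h' : OAdm mu O') (hle : ∀ d, ∀ᵐ U ∂mu, eE (PL n val c t Kp θ kap lab U d) (O U d) ≤
      eE (PL n val c t Kp θ kap lab U d) (O' U d)) :
    EO mu n val c t Kp θ kap lab O ≤ EO mu n val c t Kp θ kap lab O' := by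
  rw [EO_eq_dv val c t Kp θ kap lab h, EO_eq_dv val c t Kp θ kap lab h']
  exact LS2.dv_mono_ae (fun d => h.integrable val c t Kp θ kap lab d)
    (fun d => h'.integrable val c t Kp θ kap lab d) hle

theorem EO_mono' {O O' : Mat (Fin N) → DD p N → G.Om (B p N n) → ℝ} (h : OAdm mu O)
    (h' : OAdm mu O') (hle : ∀ d, ∀ᵐ U ∂mu, ∀ ω, O U d ω ≤ O' U d ω) :
    EO mu n val c t Kp θ kap lab O ≤ EO mu n val c t Kp θ kap lab O' :=
  EO_mono val c t Kp θ kap lab h h' fun d => (hle d).mono fun U hU =>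
    eE_mono (PL_isProb val c t Kp θ kap lab U d) hU

/-- pointwise bounds of the means give bounds of the averages. -/
theorem abs_EO_le (hN : 0 < N) {O : Mat (Fin N) → DD p N → G.Om (B p N n) → ℝ}
    (h : OAdm mu O) {ε : ℝ}
    (hle : ∀ d, ∀ᵐ U ∂mu, |eE (PL n val c t Kp θ kap lab U d) (O U d)| ≤ ε) :
    |EO mu n val c t Kp θ kap lab O| ≤ ε := by
  have hc : ∀ a : ℝ, OAdm mu (fun (_ : Mat (Fin N)) (_ : DD p N) (_ : G.Om (B p N n)) => a) :=
    fun a => OAdm.const (fun _ _ => a)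
  rw [abs_le]
  constructor
  · have := EO_mono val c t Kp θ kap lab (hc (-ε)) h (fun d => (hle d).mono fun U hU => by
      rw [eE_const (PL_isProb val c t Kp θ kap lab U d)]
      exact (abs_le.1 hU).1)
    rwa [EO_const val c t Kp θ kap lab hN] at this
  · have := EO_mono val c t Kp θ kap lab h (hc ε) (fun d => (hle d).mono fun U hU => by
      rw [eE_const (PL_isProb val c t Kp θ kap lab U d)]
      exact (abs_le.1 hU).2)
    rwa [EO_const val c t Kp θ kap lab hN] at this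

theorem adm_TO (j : Fin J) (g : Fin p.nc) :
    OAdm (n := n) mu (fun _ _ ω => TO n lab j g ω) := OAdm.const fun _ ω => TO n lab j g ω

theorem adm_MO (j : Fin J) :
    OAdm (p := p) (n := n) mu (fun _ _ ω => MO n lab j ω) := OAdm.const fun _ ω => MO n lab j ω

theorem adm_RJ (j : Fin J) (l : ℕ) :
    OAdm (n := n) mu (fun U d ω => RJ n (PL n val c t Kp θ kap lab U d) lab j l ω) where
  meas d ω := by
    unfold RJ
    refine Measurable.const_mul (Finset.measurable_sum _ fun i _ => ?_) _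
    split_ifs
    · exact (G.meas_cE (P := fun U => PL n val c t Kp θ kap lab U d)
        (f := fun _ w => sv (w.1.1.1 i)) (fun ω => meas_PL val c t Kp θ kap lab d ω)
        (fun _ => measurable_const) _ ω).pow_const 2
    · exact measurable_const
  bdd d := ⟨1, Filter.Eventually.of_forall fun U ω => by
    rw [abs_of_nonneg (RJ_nonneg n _ lab j l ω)]
    exact RJ_le_one (PL_isProb val c t Kp θ kap lab U d) lab j l ω⟩

/-- **(GL4), averaged.** -/
theorem EO_TO (hN : 0 < N) (hn : 0 < n) (j : Fin J) (g : Fin p.nc) (hr : 0 < Mag.rJ lab j)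
    (hc : |θ.am j g| ≤ Real.sqrt n / 8) :
    |EO mu n val c t Kp θ kap lab (fun _ _ ω => TO n lab j g ω) -
      θ.am j g * (1 - ((p.nc : ℝ) + 1)⁻¹ * ∑ g' ∈ Ico (g : ℕ) p.nc,
        EO mu n val c t Kp θ kap lab
          (fun U d ω => RJ n (PL n val c t Kp θ kap lab U d) lab j (p.mt g') ω))| ≤
      52 * (θ.am j g) ^ 2 / Real.sqrt n := by
  have hR : ∀ g' ∈ Ico (g : ℕ) p.nc, OAdm (n := n) mu
      (fun U d ω => RJ n (PL n val c t Kp θ kap lab U d) lab j (p.mt g') ω) :=
    fun g' _ => adm_RJ val c t Kp θ kap lab j _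
  have h1 : OAdm (p := p) (n := n) mu (fun (_ : Mat (Fin N)) (_ : DD p N) _ => (1 : ℝ)) :=
    OAdm.const fun _ _ => 1
  have hS := (OAdm.sum (Ico (g : ℕ) p.nc) hR).smul ((p.nc : ℝ) + 1)⁻¹
  have hD := (h1.sub hS).smul (θ.am j g)
  have e : EO mu n val c t Kp θ kap lab (fun U d ω => TO n lab j g ω - θ.am j g * (1 -
      ((p.nc : ℝ) + 1)⁻¹ * ∑ g' ∈ Ico (g : ℕ) p.nc,
        RJ n (PL n val c t Kp θ kap lab U d) lab j (p.mt g') ω)) =
      EO mu n val c t Kp θ kap lab (fun _ _ ω => TO n lab j g ω) -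
      θ.am j g * (1 - ((p.nc : ℝ) + 1)⁻¹ * ∑ g' ∈ Ico (g : ℕ) p.nc,
        EO mu n val c t Kp θ kap lab
          (fun U d ω => RJ n (PL n val c t Kp θ kap lab U d) lab j (p.mt g') ω)) := by
    rw [EO_sub val c t Kp θ kap lab (adm_TO lab j g) hD,
      EO_smul val c t Kp θ kap lab (h1.sub hS), EO_sub val c t Kp θ kap lab h1 hS,
      EO_smul val c t Kp θ kap lab (OAdm.sum (Ico (g : ℕ) p.nc) hR),
      EO_sum val c t Kp θ kap lab _ hR, EO_const val c t Kp θ kap lab hN]
  rw [← e]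
  refine abs_EO_le val c t Kp θ kap lab hN ((adm_TO lab j g).sub hD) fun d => ?_
  refine Filter.Eventually.of_forall fun U => ?_
  have hP := PL_isProb (n := n) val c t Kp θ kap lab U d
  have h := TO_ibp val c t Kp θ kap lab U d hn j g hr hc
  rw [eE_sub, eE_smul, eE_sub, eE_smul, eE_sum, eE_const hP]
  exact h

end avg

end

end Crest.Agent.R164.LD
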