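import Crest.Agent.R164.CavW2

/-!
Row 164: the central limit hypothesis `Clt` for the label variable `labY b = ∑ g, b g * zz g`.
-/

set_option autoImplicit false

namespace Crest.Agent.R164.CavG

open MeasureTheory ProbabilityTheory Finset Crest.Agent.R141
open Crest.Agent.R164.ED (uQ uQ_isProb eE_uQ zz eE_exp_zz_sq)

noncomputable section

section label

variable {κ : Type*} [Fintype κ] [DecidableEq κ] {n : ℕ}

/-- the label variable. -/
def labY (b : κ → ℝ) (c : κ → Fin n → Bool) : ℝ := ∑ g, b g * zz g c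

/-- cells still present at depth `m`: all cells for the leaf, the revealed cells `S (m-1)` at depth
`m ≥ 1`. -/
def RS (S : ℕ → Finset κ) : ℕ → Finset κ
  | 0 => univ
  | m + 1 => S m

/-- label variances. -/
def labV (J : ℕ) (S : ℕ → Finset κ) (b : κ → ℝ) (m : ℕ) : ℝ :=
  if m ≤ J then ∑ g ∈ RS S m \ RS S (m + 1), b g ^ 2 else ∑ g ∈ RS S m, b g ^ 2

omit [Fintype κ] in
theorem zz_mix (S : Finset κ) (c c' : κ → Fin n → Bool) (g : κ) :
    zz g (mix S c c') = if g ∈ S then zz g c else zz g c' := by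
  unfold zz mix
  by_cases h : g ∈ S
  · simp only [h, if_true]
  · simp only [h, if_false]

theorem eE_zz (g : κ) : eE (uQ (κ → Fin n → Bool)) (fun c => zz g c) = 0 := by
  have hinv : Function.Involutive fun c : κ → Fin n → Bool => fun k t => !(c k t) := by
    intro c
    funext k t
    simp
  have e2 := Equiv.sum_comp (hinv.toPerm : Equiv.Perm (κ → Fin n → Bool)) (fun c => zz g c)
  have e3 : ∑ c : κ → Fin n → Bool, zz g (fun k t => !(c k t)) =
      ∑ c : κ → Fin n → Bool, zz g c := e2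
  have e4 : ∀ c : κ → Fin n → Bool, zz g (fun k t => !(c k t)) = - zz g c := by
    intro c
    unfold zz
    rw [← mul_neg, ← Finset.sum_neg_distrib]
    congr 1
    refine Finset.sum_congr rfl fun t _ => ?_
    have hb : ∀ b : Bool, sv (!b) = -sv b := by
      intro b; cases b <;> simp [sv]
    exact hb _
  simp only [e4, Finset.sum_neg_distrib] at e3
  have e5 : ∑ c : κ → Fin n → Bool, zz g c = 0 := by linarith
  rw [eE_uQ, e5, mul_zero]

theorem YY_label {J : ℕ} {S : ℕ → Finset κ} {s : ℕ → Setoid (κ → Fin n → Bool)}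
    (hs : ∀ m ≤ J, s m = agr (S m)) (b : κ → ℝ) {m : ℕ} (hm : m ≤ J + 1)
    (c : κ → Fin n → Bool) :
    YY (uQ (κ → Fin n → Bool)) s (labY b) m c = ∑ g ∈ RS S m, b g * zz g c := by
  have hP : IsProb (uQ (κ → Fin n → Bool)) := uQ_isProb
  cases m with
  | zero => rfl
  | succ m =>
    show cE (uQ (κ → Fin n → Bool)) (s m) (labY b) c = ∑ g ∈ S m, b g * zz g c
    rw [hs m (by omega), cE_agr]
    have e1 : (fun c' => labY b (mix (S m) c c')) = fun c' : κ → Fin n → Bool =>
        (∑ g ∈ S m, b g * zz g c) + ∑ g ∈ (S m)ᶜ, b g * zz g c' := by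
      funext c'
      unfold labY
      rw [← Finset.sum_add_sum_compl (S m)]
      congr 1
      · refine Finset.sum_congr rfl fun g hg => ?_
        rw [zz_mix, if_pos hg]
      · refine Finset.sum_congr rfl fun g hg => ?_
        rw [zz_mix, if_neg (Finset.mem_compl.1 hg)]
    rw [e1, eE_add _ (fun _ => ∑ g ∈ S m, b g * zz g c), eE_const hP, eE_sum]
    have e2 : ∀ g, eE (uQ (κ → Fin n → Bool)) (fun c' => b g * zz g c') = 0 := by
      intro g
      rw [eE_smul, eE_zz, mul_zero]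
    simp [e2]

/-- **The central limit hypothesis holds for coin labels.** -/
theorem clt_label {J : ℕ} {ε B1 : ℝ} (hn : W1 n ε) (hε : 0 ≤ ε) {S : ℕ → Finset κ}
    (hS : ∀ m, m < J → S (m + 1) ⊆ S m) {s : ℕ → Setoid (κ → Fin n → Bool)}
    (hs : ∀ m ≤ J, s m = agr (S m)) {b : κ → ℝ} (hb : ∑ g, |b g| ≤ B1) :
    Clt (uQ (κ → Fin n → Bool)) s J (labY b) (labV J S b) (B1 * ε) := by
  have hB : ∀ T : Finset κ, ∑ g ∈ T, |b g| ≤ B1 := fun T =>
    (Finset.sum_le_sum_of_subset_of_nonneg (Finset.subset_univ T)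
      (fun g _ _ => abs_nonneg _)).trans hb
  have hRS : ∀ m ≤ J, RS S (m + 1) ⊆ RS S m := by
    intro m hm
    cases m with
    | zero => exact Finset.subset_univ _
    | succ m => exact hS m (by omega)
  constructor
  · intro m hm L h hL hh l
    rw [hs m hm, cE_agr, YY_label hs b (by omega) l]
    have e1 : ∀ c' : κ → Fin n → Bool,
        YY (uQ (κ → Fin n → Bool)) s (labY b) m (mix (S m) l c') =
        (∑ g ∈ RS S (m + 1), b g * zz g l) + ∑ g ∈ RS S m \ RS S (m + 1), b g * zz g c' := by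
      intro c'
      rw [YY_label hs b (by omega), ← Finset.sum_sdiff (hRS m hm), add_comm]
      congr 1
      · refine Finset.sum_congr rfl fun g hg => ?_
        have hg' : g ∈ S m := hg
        rw [zz_mix, if_pos hg']
      · refine Finset.sum_congr rfl fun g hg => ?_
        have hg' : g ∉ S m := (Finset.mem_sdiff.1 hg).2
        rw [zz_mix, if_neg hg']
    simp_rw [e1]
    have e2 : labV J S b m = ∑ g ∈ RS S m \ RS S (m + 1), b g ^ 2 := if_pos hm
    rw [e2]
    refine (coin_clt hn b _ hL hh _).trans ?_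
    exact mul_le_mul_of_nonneg_left (mul_le_mul_of_nonneg_right (hB _) hε) hL
  · intro L h hL hh
    have e1 : ∀ c' : κ → Fin n → Bool, YY (uQ (κ → Fin n → Bool)) s (labY b) (J + 1) c' =
        0 + ∑ g ∈ RS S (J + 1), b g * zz g c' := by
      intro c'
      rw [YY_label hs b le_rfl, zero_add]
    simp_rw [e1]
    have e2 : labV J S b (J + 1) = ∑ g ∈ RS S (J + 1), b g ^ 2 := if_neg (by omega)
    rw [e2]
    have h1 := coin_clt hn b (RS S (J + 1)) hL hh 0
    have e3 : (fun s => h (0 + Real.sqrt (∑ g ∈ RS S (J + 1), b g ^ 2) * s)) =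
        fun s => h (Real.sqrt (∑ g ∈ RS S (J + 1), b g ^ 2) * s) := by
      funext s; rw [zero_add]
    rw [e3] at h1
    refine h1.trans ?_
    exact mul_le_mul_of_nonneg_left (mul_le_mul_of_nonneg_right (hB _) hε) hL

theorem labV_nonneg (J : ℕ) (S : ℕ → Finset κ) (b : κ → ℝ) (m : ℕ) : 0 ≤ labV J S b m := by
  unfold labV
  split_ifs <;> exact Finset.sum_nonneg fun _ _ => sq_nonneg _

theorem labV_le (J : ℕ) (S : ℕ → Finset κ) (b : κ → ℝ) (m : ℕ) :
    labV J S b m ≤ ∑ g, b g ^ 2 := by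
  unfold labV
  split_ifs <;> exact Finset.sum_le_sum_of_subset_of_nonneg (Finset.subset_univ _)
    (fun g _ _ => sq_nonneg _)

theorem eE_zz_sq_le (g : κ) : eE (uQ (κ → Fin n → Bool)) (fun c => zz g c ^ 2) ≤ 4 := by
  have hP : IsProb (uQ (κ → Fin n → Bool)) := uQ_isProb
  have h1 := eE_exp_zz_sq (n := n) g
  have h2 : eE (uQ (κ → Fin n → Bool)) (fun c => 1 + 1 / 4 * zz g c ^ 2) ≤
      eE (uQ (κ → Fin n → Bool)) (fun c => Real.exp (1 / 4 * zz g c ^ 2)) :=
    eE_mono hP fun c => by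
      have := Real.add_one_le_exp (1 / 4 * zz g c ^ 2)
      linarith
  rw [eE_add _ (fun _ => (1 : ℝ)), eE_const hP, eE_smul] at h2
  linarith

/-- second moment of the label variable. -/
theorem eE_labY_sq_le (b : κ → ℝ) :
    eE (uQ (κ → Fin n → Bool)) (fun c => labY b c ^ 2) ≤ 4 * (∑ g, |b g|) ^ 2 := by
  have hP : IsProb (uQ (κ → Fin n → Bool)) := uQ_isProb
  have h1 : ∀ c : κ → Fin n → Bool, labY b c ^ 2 ≤ (∑ g, |b g|) * ∑ g, |b g| * zz g c ^ 2 := by
    intro c
    have h2 := Finset.sum_mul_sq_le_sq_mul_sq univ (fun g => Real.sqrt |b g|)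
      (fun g => Real.sqrt |b g| * |zz g c|)
    have e1 : ∀ g, Real.sqrt |b g| * (Real.sqrt |b g| * |zz g c|) = |b g * zz g c| := by
      intro g
      rw [← mul_assoc, Real.mul_self_sqrt (abs_nonneg _), abs_mul]
    have e2 : ∀ g, Real.sqrt |b g| ^ 2 = |b g| := fun g => Real.sq_sqrt (abs_nonneg _)
    have e3 : ∀ g, (Real.sqrt |b g| * |zz g c|) ^ 2 = |b g| * zz g c ^ 2 := fun g => by
      rw [mul_pow, e2, sq_abs]
    simp only [e1, e2, e3] at h2
    refine le_trans ?_ h2
    unfold labY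
    rw [← sq_abs]
    exact pow_le_pow_left₀ (abs_nonneg _) (Finset.abs_sum_le_sum_abs _ _) 2
  refine (eE_mono hP h1).trans ?_
  rw [eE_smul, eE_sum]
  have h3 : ∀ g, eE (uQ (κ → Fin n → Bool)) (fun c => |b g| * zz g c ^ 2) ≤ |b g| * 4 := by
    intro g
    rw [eE_smul]
    exact mul_le_mul_of_nonneg_left (eE_zz_sq_le g) (abs_nonneg _)
  have h4 : 0 ≤ ∑ g, |b g| := Finset.sum_nonneg fun _ _ => abs_nonneg _
  refine (mul_le_mul_of_nonneg_left (Finset.sum_le_sum fun g _ => h3 g) h4).trans (le_of_eq ?_)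
  rw [← Finset.sum_mul]
  ring

end label

end

end Crest.Agent.R164.CavG
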