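import Crest.Agent.R164.CavG8
import Crest.Agent.R164.EDa
import Crest.Agent.R141.Skel31

/-!
Row 164, Gaussian cavity limit, part 9: the limit theorem for the functional `aE` of the full
filtration (system × label coins).
-/

set_option autoImplicit false

namespace Crest.Agent.R164.CavG

open MeasureTheory ProbabilityTheory Finset Crest.Agent.R141 Crest.Agent.R141.Fact
open Crest.Agent.R164.ED (aE)

noncomputable section

/-- exponents adapted to the skeleton levels. -/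
structure Levels (xe : ℕ → ℝ) (J : ℕ) (t : ℕ → ℕ) (L : ℕ) (δ : ℝ) : Prop where
  expo : IsExpo xe
  nonneg : 0 ≤ δ
  mono : Monotone t
  le : t J ≤ L
  low : ∀ l, l ≤ t 0 → xe l ≤ δ
  mid : ∀ j, 1 ≤ j → j ≤ J → ∀ l, t (j - 1) < l → l ≤ t j →
      |xe l - (j : ℝ) / ((J : ℝ) + 1)| ≤ δ
  top : ∀ l, t J < l → l ≤ L → 1 - xe l ≤ δ

set_option maxHeartbeats 1000000 in
/-- **The Gaussian cavity limit**, final form. -/
theorem cavity_limit (β : Type) [Fintype β] [DecidableEq β] (J : ℕ) (c C B V : ℝ)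
    (LR : ℝ → ℝ) (hc0 : 0 ≤ c) (hC0 : 0 ≤ C) (hB0 : 0 ≤ B) (hV0 : 0 ≤ V)
    {ε : ℝ} (hε : 0 < ε) :
    ∃ d > 0, ∀ {Ω Λ κ : Type} [Fintype Ω] [Fintype Λ] [Fintype κ] (P : Ω → ℝ) (P2 : Λ → ℝ)
      (𝓕 : Filt Ω) (𝓖 : Filt Λ) (𝓗 : Filt (Ω × Λ)) (xe : ℕ → ℝ) (t : ℕ → ℕ) (δx : ℝ)
      (kap : κ → β) (x : Ω → κ → ℝ) (Q : ℕ → β → ℝ) (Y : Λ → ℝ) (bv : ℕ → ℝ)
      (w : (Unit ⊕ β → ℝ) → ℝ),
      IsProb P → IsProb P2 → (∀ l, 𝓗.F l = (𝓕.F l).prod (𝓖.F l)) → 𝓗.F 0 = ⊤ →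
      Levels xe J t 𝓗.L δx →
      (∀ ω, ∑ i, x ω i ^ 2 ≤ C) → (∀ n k, n ≤ J + 1 → 0 ≤ Q n k) →
      (∀ n k, n ≤ J → Q (n + 1) k ≤ Q n k) → ∑ k, Q 0 k ≤ V →
      (∀ n ≤ J + 1, 0 ≤ bv n) → (∀ n ≤ J + 1, bv n ≤ V) →
      Clt P2 (fun n => 𝓖.F (t (J - n))) J Y bv d → eE P2 (fun b => Y b ^ 2) ≤ B →
      LocLip LR w → (∀ z, |w z| ≤ c) →
      |∫ ζ, aE (pP P P2) 𝓗 xe (fun q => w (cmb (Y q.2) (zf kap (x q.1) ζ))) ∂(gm κ) -
        gval J (ySk J) (vC J Q bv) w| ≤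
        ε + 2 * c / d * Dev P (fun n => 𝓕.F (t (J - n))) J kap x Q +
          15 * c ^ 2 * Real.exp (4 * c) * δx := by
  obtain ⟨d, hd, hmain⟩ := cavity_skel β J c C B V (ySk J J) LR hc0 hC0 hB0 hV0
    (ySk_pos le_rfl) hε
  refine ⟨d, hd, ?_⟩
  intro Ω Λ κ _ _ _ P P2 𝓕 𝓖 𝓗 xe t δx kap x Q Y bv w hP hP2 h𝓗 h0 hlev hC Q0 Qm QV bv0 bvV
    clt hY hw hc
  have hPP := pP_isProb hP hP2
  have hm := hmain P P2 (fun n => 𝓕.F (t (J - n))) (fun n => 𝓖.F (t (J - n))) (ySk J) kap x Q Y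
    bv w hP hP2 (fun n _ => Filt.anti' 𝓕 (hlev.mono (by omega)))
    (fun n hn => by
      unfold ySk
      have : (n : ℝ) ≤ J := by exact_mod_cast hn
      gcongr)
    (fun n _ => ySk_le_one J n) hC Q0 Qm QV bv0 bvV clt hY hw hc
  have hwm := hw.measurable
  have hms : ∀ p : Ω × Λ, Measurable fun ζ : κ → ℝ =>
      (cmb (Y p.2) (zf kap (x p.1) ζ) : Unit ⊕ β → ℝ) := by
    intro p
    refine measurable_pi_lambda _ fun k => ?_
    rcases k with k | k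
    · exact measurable_const
    · exact (measurable_pi_apply k).comp (measurable_zf kap (x p.1))
  have er : (fun n => 𝓗.F (t (J - n))) = fun n => (𝓕.F (t (J - n))).prod (𝓖.F (t (J - n))) :=
    funext fun n => h𝓗 _
  -- skeleton value
  have hsk : ∀ ζ : κ → ℝ, |aE (pP P P2) 𝓗 xe (fun q => w (cmb (Y q.2) (zf kap (x q.1) ζ))) -
      eE (pP P P2) (skelA (pP P P2) (fun n => (𝓕.F (t (J - n))).prod (𝓖.F (t (J - n)))) (ySk J)
        (fun q => w (cmb (Y q.2) (zf kap (x q.1) ζ))) (J + 1))| ≤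
      15 * c ^ 2 * Real.exp (4 * c) * δx := by
    intro ζ
    have h1 := fun ω => Skel31.skeleton_value (𝓕 := 𝓗) hPP hlev.expo
      (U := fun q : Ω × Λ => w (cmb (Y q.2) (zf kap (x q.1) ζ))) (fun ω => hc _) hlev.nonneg h0
      hlev.mono hlev.le hlev.low hlev.mid hlev.top ω
    rw [er] at h1
    have e1 : eE (pP P P2) (skelA (pP P P2)
        (fun n => (𝓕.F (t (J - n))).prod (𝓖.F (t (J - n)))) (ySk J)
        (fun q => w (cmb (Y q.2) (zf kap (x q.1) ζ))) (J + 1)) =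
        eE (pP P P2) (fun _ => eE (pP P P2) (skelA (pP P P2)
        (fun n => (𝓕.F (t (J - n))).prod (𝓖.F (t (J - n)))) (ySk J)
        (fun q => w (cmb (Y q.2) (zf kap (x q.1) ζ))) (J + 1))) := (eE_const hPP _).symm
    unfold aE
    rw [e1, ← eE_sub]
    exact (eE_abs_le hPP _).trans (eE_le_of_le hPP h1)
  have hi1 : ∀ p, Integrable (fun ζ : κ → ℝ => skelA (pP P P2)
        (fun n => (𝓕.F (t (J - n))).prod (𝓖.F (t (J - n)))) (ySk J)
        (fun q => w (cmb (Y q.2) (zf kap (x q.1) ζ))) (J + 1) p) (gm κ) := fun p =>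
      Integrable.of_bound (C := c) (measurable_skelA (fun a => hwm.comp (hms a)) (J + 1)
        p).aestronglyMeasurable (ae_of_all _ fun ζ => by
          rw [Real.norm_eq_abs]
          exact Cav.skelA_bound (J := J) hPP _ (fun n hn => ySk_pos hn) (fun q => hc _) (J + 1)
            le_rfl p)
  have hmA : ∀ (k : ℕ) (p : Ω × Λ), Measurable (fun ζ : κ → ℝ => A (pP P P2) 𝓗 xe
      (fun q => w (cmb (Y q.2) (zf kap (x q.1) ζ))) k p) := by
    intro k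
    refine back_induction 𝓗 (Q := fun k => ∀ p : Ω × Λ, Measurable (fun ζ : κ → ℝ =>
      A (pP P P2) 𝓗 xe (fun q => w (cmb (Y q.2) (zf kap (x q.1) ζ))) k p)) ?_ ?_ k
    · intro k hk p
      have : (fun ζ : κ → ℝ => A (pP P P2) 𝓗 xe
        (fun q => w (cmb (Y q.2) (zf kap (x q.1) ζ))) k p) =
        fun ζ => w (cmb (Y p.2) (zf kap (x p.1) ζ)) := by
        funext ζ; rw [A_of_ge _ hk]
      rw [this]
      exact hwm.comp (hms p)
    · intro k ih p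
      have : (fun ζ : κ → ℝ => A (pP P P2) 𝓗 xe
        (fun q => w (cmb (Y q.2) (zf kap (x q.1) ζ))) k p) =
        fun ζ => pm (pP P P2) (𝓗.F k) (xe (k + 1)) (A (pP P P2) 𝓗 xe
          (fun q => w (cmb (Y q.2) (zf kap (x q.1) ζ))) (k + 1)) p := by
        funext ζ; exact congrFun (A_step hPP hlev.expo.pos _ k) p
      rw [this]
      exact measurable_pm (fun a => ih a) _ _
  have hi2 : ∀ p, Integrable (fun ζ : κ → ℝ => A (pP P P2) 𝓗 xe
      (fun q => w (cmb (Y q.2) (zf kap (x q.1) ζ))) 0 p) (gm κ) := fun p =>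
      Integrable.of_bound (C := c) (hmA 0 p).aestronglyMeasurable (ae_of_all _ fun ζ => by
          rw [Real.norm_eq_abs]
          exact A_abs_le hPP hlev.expo.pos (fun q => hc _) 0 p)
  have h2 : |∫ ζ, aE (pP P P2) 𝓗 xe (fun q => w (cmb (Y q.2) (zf kap (x q.1) ζ))) ∂(gm κ) -
      ∫ ζ, eE (pP P P2) (skelA (pP P P2)
        (fun n => (𝓕.F (t (J - n))).prod (𝓖.F (t (J - n)))) (ySk J)
        (fun q => w (cmb (Y q.2) (zf kap (x q.1) ζ))) (J + 1)) ∂(gm κ)| ≤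
        15 * c ^ 2 * Real.exp (4 * c) * δx := by
    have hi3 : Integrable (fun ζ : κ → ℝ =>
        aE (pP P P2) 𝓗 xe (fun q => w (cmb (Y q.2) (zf kap (x q.1) ζ)))) (gm κ) :=
      integrable_eE hi2
    have hi4 := integrable_eE (P := pP P P2) hi1
    rw [← integral_sub hi3 hi4]
    refine abs_integral_le_integral_abs.trans ?_
    refine (integral_mono (hi3.sub hi4).abs (integrable_const _) hsk).trans ?_
    simp
  have h3 := abs_le.1 hm
  have h4 := abs_le.1 h2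
  rw [abs_le]
  constructor <;> linarith

end

end Crest.Agent.R164.CavG
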