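import Crest.Agent.R164.ExactG4
import Crest.Agent.R164.CavG9

/-!
Row 164, L side (GL6, helper639), part 0: the truncated weight is Lipschitz on boxes.
-/

set_option autoImplicit false

namespace Crest.Agent.R164.CavG

open MeasureTheory ProbabilityTheory Finset
open Crest.Agent.R164.EG (WF Fr Qf m1 oc0 oc1 ocy dot dot_oc0 dot_oc1 dot_ocy)
open Crest.Agent.R164.ED (psi psi_lipschitz abs_psi_le)

noncomputable section

/-- arguments: label variable and block fields. -/
def toOpt {β : Type*} (z : Unit ⊕ β → ℝ) : Option β → ℝ :=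
  fun o => o.elim (z (.inl ())) fun k => z (.inr k)

/-- the weight in the variables `Unit ⊕ β`. -/
def WU {K : ℕ} (w val : Fin (K + 1) → ℝ) (b : ℝ) (l : Fin (K + 1)) (cs : ℝ)
    (z : Unit ⊕ Fin (K + 1) → ℝ) : ℝ := cs + WF w val b l (toOpt z)

/-- size parameter of the spectrum. -/
def aW {K : ℕ} (w val : Fin (K + 1) → ℝ) : ℝ := |m1 w val| + ∑ k, |val k|

/-- Lipschitz constants on boxes. -/
def LW {K : ℕ} (w val : Fin (K + 1) → ℝ) (R : ℝ) : ℝ :=
  3 * aW w val * ((K : ℝ) + 1) * R + aW w val + 1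

theorem aW_nonneg {K : ℕ} (w val : Fin (K + 1) → ℝ) : 0 ≤ aW w val :=
  add_nonneg (abs_nonneg _) (Finset.sum_nonneg fun _ _ => abs_nonneg _)

theorem abs_val_sub_le {K : ℕ} (w val : Fin (K + 1) → ℝ) (l : Fin (K + 1)) :
    |val l - m1 w val| ≤ aW w val := by
  have h1 := Finset.single_le_sum (f := fun k => |val k|) (fun k _ => abs_nonneg _)
    (Finset.mem_univ l)
  have h2 := abs_sub (val l) (m1 w val)
  unfold aW
  have h3 : |val l| ≤ ∑ k, |val k| := h1
  linarith

theorem WU_eq {K : ℕ} (w val : Fin (K + 1) → ℝ) (b : ℝ) (l : Fin (K + 1)) (cs : ℝ)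
    (z : Unit ⊕ Fin (K + 1) → ℝ) : WU w val b l cs z = cs + m1 w val / 2 -
      ((m1 w val - val l) * (∑ k, z (.inr k)) ^ 2 +
        2 * (∑ k, z (.inr k)) * (∑ k, (val k - m1 w val) * z (.inr k))) / 2 +
      Real.log (Real.cosh (∑ k, (val k - m1 w val) * z (.inr k) + z (.inl ()) + b)) := by
  unfold WU WF Fr
  rw [dot_oc0, dot_oc1, dot_ocy]
  have e1 : ∀ k : Fin (K + 1), toOpt z (some k) = z (.inr k) := fun _ => rfl
  have e2 : toOpt z none = z (.inl ()) := rfl
  simp only [e1, e2]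
  have e3 : ∑ k, (val k - m1 w val) * z (.inr k) =
      ∑ k, val k * z (.inr k) - m1 w val * ∑ k, z (.inr k) := by
    rw [Finset.mul_sum, ← Finset.sum_sub_distrib]
    exact Finset.sum_congr rfl fun k _ => by ring
  rw [e3]
  unfold Qf
  ring_nf

theorem log_cosh_sub_le (x y : ℝ) :
    |Real.log (Real.cosh x) - Real.log (Real.cosh y)| ≤ |x - y| := by
  have := Crest.Agent.R164.GTilt.lip_log_cosh x y
  exact this

theorem WU_lip {K : ℕ} (w val : Fin (K + 1) → ℝ) (b : ℝ) (l : Fin (K + 1)) (cs : ℝ) {R : ℝ}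
    (hR : 0 ≤ R) (z z' : Unit ⊕ Fin (K + 1) → ℝ) (hz : ∀ k, |z k| ≤ R) (hz' : ∀ k, |z' k| ≤ R) :
    |WU w val b l cs z - WU w val b l cs z'| ≤ LW w val R * ∑ k, |z k - z' k| := by
  set a := aW w val with ha
  have ha0 : 0 ≤ a := aW_nonneg w val
  set S : ℝ := ∑ k : Fin (K + 1), |z (.inr k) - z' (.inr k)| with hS
  have hS0 : 0 ≤ S := Finset.sum_nonneg fun _ _ => abs_nonneg _
  have hsum : ∑ k, |z k - z' k| = |z (.inl ()) - z' (.inl ())| + S := by
    rw [Fintype.sum_sum_type]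
    simp [hS]
  rw [WU_eq, WU_eq, hsum]
  set x := ∑ k : Fin (K + 1), z (.inr k) with hx
  set x' := ∑ k : Fin (K + 1), z' (.inr k) with hx'
  set u := ∑ k : Fin (K + 1), (val k - m1 w val) * z (.inr k) with hu
  set u' := ∑ k : Fin (K + 1), (val k - m1 w val) * z' (.inr k) with hu'
  have bx : ∀ y : Unit ⊕ Fin (K + 1) → ℝ, (∀ k, |y k| ≤ R) →
      |∑ k : Fin (K + 1), y (.inr k)| ≤ ((K : ℝ) + 1) * R := by
    intro y hy
    refine (Finset.abs_sum_le_sum_abs _ _).trans ?_
    refine (Finset.sum_le_sum fun k _ => hy (.inr k)).trans (le_of_eq ?_)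
    simp
  have bu : ∀ y : Unit ⊕ Fin (K + 1) → ℝ, (∀ k, |y k| ≤ R) →
      |∑ k : Fin (K + 1), (val k - m1 w val) * y (.inr k)| ≤ a * (((K : ℝ) + 1) * R) := by
    intro y hy
    refine (Finset.abs_sum_le_sum_abs _ _).trans ?_
    refine (Finset.sum_le_sum (g := fun _ => a * R) fun k _ => ?_).trans (le_of_eq ?_)
    · rw [abs_mul]
      exact mul_le_mul (abs_val_sub_le w val k) (hy _) (abs_nonneg _) ha0
    · simp; ring
  have dx : |x - x'| ≤ S := by
    rw [hx, hx', ← Finset.sum_sub_distrib]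
    exact Finset.abs_sum_le_sum_abs _ _
  have du : |u - u'| ≤ a * S := by
    rw [hu, hu', ← Finset.sum_sub_distrib, hS, Finset.mul_sum]
    refine (Finset.abs_sum_le_sum_abs _ _).trans (Finset.sum_le_sum fun k _ => ?_)
    rw [← mul_sub, abs_mul]
    exact mul_le_mul_of_nonneg_right (abs_val_sub_le w val k) (abs_nonneg _)
  have b1 := bx z hz
  have b2 := bx z' hz'
  have b3 := bu z hz
  have b4 := bu z' hz'
  rw [← hx] at b1
  rw [← hx'] at b2
  rw [← hu] at b3
  rw [← hu'] at b4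
  set n := ((K : ℝ) + 1) with hn
  have hn0 : 0 ≤ n := by positivity
  have hnR : 0 ≤ n * R := by positivity
  have t1 : |(m1 w val - val l) * x ^ 2 - (m1 w val - val l) * x' ^ 2| ≤ a * (2 * (n * R)) * S := by
    have e : (m1 w val - val l) * x ^ 2 - (m1 w val - val l) * x' ^ 2 =
        (m1 w val - val l) * ((x + x') * (x - x')) := by ring
    rw [e, abs_mul, abs_mul, mul_assoc]
    have h1 : |m1 w val - val l| ≤ a := by rw [abs_sub_comm]; exact abs_val_sub_le w val l
    have h2 : |x + x'| ≤ 2 * (n * R) := (abs_add_le _ _).trans (by linarith)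
    exact mul_le_mul h1 (mul_le_mul h2 dx (abs_nonneg _) (by positivity)) (by positivity) ha0
  have t2 : |x * u - x' * u'| ≤ 2 * (a * (n * R)) * S := by
    have e : x * u - x' * u' = (x - x') * u + x' * (u - u') := by ring
    rw [e]
    refine (abs_add_le _ _).trans ?_
    rw [abs_mul, abs_mul]
    have h1 := mul_le_mul dx b3 (abs_nonneg _) hS0
    have h2 := mul_le_mul b2 du (abs_nonneg _) hnR
    refine (add_le_add h1 h2).trans (le_of_eq (by ring))
  have t3 := log_cosh_sub_le (u + z (.inl ()) + b) (u' + z' (.inl ()) + b)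
  have t4 : |u + z (.inl ()) + b - (u' + z' (.inl ()) + b)| ≤
      a * S + |z (.inl ()) - z' (.inl ())| := by
    have e : u + z (.inl ()) + b - (u' + z' (.inl ()) + b) =
        (u - u') + (z (.inl ()) - z' (.inl ())) := by ring
    rw [e]
    exact (abs_add_le _ _).trans (by linarith)
  have t5 := t3.trans t4
  set D := |z (.inl ()) - z' (.inl ())| with hD
  have hD0 : 0 ≤ D := abs_nonneg _
  unfold LW
  rw [← ha, ← hn]
  have g1 := abs_le.1 t1
  have g2 := abs_le.1 t2
  have g3 := abs_le.1 t5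
  have hrhs : (3 * a * n * R + a + 1) * (D + S) =
      a * (2 * (n * R)) * S / 2 + 2 * (a * (n * R)) * S + a * S + D + S +
        (3 * a * n * R + a) * D := by ring
  have hpos : 0 ≤ (3 * a * n * R + a) * D := by positivity
  rw [hrhs, abs_le]
  have e0 : cs + m1 w val / 2 - ((m1 w val - val l) * x ^ 2 + 2 * x * u) / 2 +
      Real.log (Real.cosh (u + z (.inl ()) + b)) -
      (cs + m1 w val / 2 - ((m1 w val - val l) * x' ^ 2 + 2 * x' * u') / 2 +
      Real.log (Real.cosh (u' + z' (.inl ()) + b))) =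
      -(((m1 w val - val l) * x ^ 2 - (m1 w val - val l) * x' ^ 2) / 2) - (x * u - x' * u') +
      (Real.log (Real.cosh (u + z (.inl ()) + b)) -
        Real.log (Real.cosh (u' + z' (.inl ()) + b))) := by ring
  rw [e0]
  obtain ⟨g1a, g1b⟩ := g1
  obtain ⟨g2a, g2b⟩ := g2
  obtain ⟨g3a, g3b⟩ := g3
  generalize (m1 w val - val l) * x ^ 2 - (m1 w val - val l) * x' ^ 2 = T1 at *
  generalize x * u - x' * u' = T2 at *
  generalize Real.log (Real.cosh (u + z (.inl ()) + b)) -
    Real.log (Real.cosh (u' + z' (.inl ()) + b)) = T3 at *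
  generalize a * (2 * (n * R)) * S = A1 at *
  generalize 2 * (a * (n * R)) * S = A2 at *
  generalize (3 * a * n * R + a) * D = A3 at *
  generalize a * S = A4 at *
  constructor <;> linarith

/-- **the truncated weight is Lipschitz on boxes.** -/
theorem psiW_locLip {K : ℕ} (w val : Fin (K + 1) → ℝ) (b : ℝ) (l : Fin (K + 1)) (cs : ℝ)
    {Kt : ℝ} (hKt : 0 ≤ Kt) : LocLip (LW w val) (fun z => psi Kt (WU w val b l cs z)) where
  nonneg R hR := by
    have := aW_nonneg w val
    unfold LW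
    positivity
  lip R hR z z' hz hz' := (psi_lipschitz hKt _ _).trans
    (WU_lip w val b l cs hR z z' hz hz')

theorem psiW_bound {K : ℕ} (w val : Fin (K + 1) → ℝ) (b : ℝ) (l : Fin (K + 1)) (cs : ℝ)
    {Kt : ℝ} (hKt : 0 ≤ Kt) (z : Unit ⊕ Fin (K + 1) → ℝ) :
    |psi Kt (WU w val b l cs z)| ≤ Kt + 1 := abs_psi_le hKt _

end

end Crest.Agent.R164.CavG
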