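import Crest.Agent.R164.CavG9

/-!
Row 164, L side (GL6, helper639), part 1: measurability in parameters; the cavity limit averaged over
the frozen randomness.
-/

set_option autoImplicit false

namespace Crest.Agent.R164.CavG

open MeasureTheory ProbabilityTheory Finset Crest.Agent.R141
open Crest.Agent.R164.ED (aE)

noncomputable section

section meas

variable {Z : Type*} [MeasurableSpace Z] {Ω : Type*} [Fintype Ω]

theorem measurable_cEp {P f : Z → Ω → ℝ} (hP : ∀ a, Measurable fun z => P z a)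
    (hf : ∀ a, Measurable fun z => f z a) (r : Setoid Ω) (ω : Ω) :
    Measurable fun z => cE (P z) r (f z) ω := by
  unfold cE
  refine Measurable.div (Finset.measurable_fun_sum _ fun a _ => (hP a).mul (hf a))
    (Finset.measurable_fun_sum _ fun a _ => hP a)

theorem measurable_eEp {P f : Z → Ω → ℝ} (hP : ∀ a, Measurable fun z => P z a)
    (hf : ∀ a, Measurable fun z => f z a) : Measurable fun z => eE (P z) (f z) := by
  unfold eE
  exact Finset.measurable_fun_sum _ fun a _ => (hP a).mul (hf a)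

theorem measurable_pmp {P f : Z → Ω → ℝ} (hP : ∀ a, Measurable fun z => P z a)
    (hf : ∀ a, Measurable fun z => f z a) (r : Setoid Ω) (x : ℝ) (ω : Ω) :
    Measurable fun z => pm (P z) r x (f z) ω := by
  unfold pm
  refine Measurable.const_mul (Real.measurable_log.comp ?_) _
  exact measurable_cEp hP (fun a => Real.measurable_exp.comp ((hf a).const_mul _)) r ω

theorem measurable_Ap {P U : Z → Ω → ℝ} (𝓕 : Filt Ω) (x : ℕ → ℝ)
    (hP : ∀ a, Measurable fun z => P z a) (hU : ∀ a, Measurable fun z => U z a) (k : ℕ) :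
    ∀ ω, Measurable fun z => A (P z) 𝓕 x (U z) k ω := by
  refine back_induction 𝓕 (Q := fun k => ∀ ω, Measurable fun z => A (P z) 𝓕 x (U z) k ω) ?_ ?_ k
  · intro k hk ω
    have : (fun z => A (P z) 𝓕 x (U z) k ω) = fun z => U z ω := by
      funext z; rw [A_of_ge _ hk]
    rw [this]
    exact hU ω
  · intro k ih ω
    by_cases hk : 𝓕.L ≤ k
    · have : (fun z => A (P z) 𝓕 x (U z) k ω) = fun z => U z ω := by
        funext z; rw [A_of_ge _ hk]
      rw [this]
      exact hU ω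
    · have : (fun z => A (P z) 𝓕 x (U z) k ω) =
          fun z => pm (P z) (𝓕.F k) (x (k + 1)) (A (P z) 𝓕 x (U z) (k + 1)) ω := by
        funext z; rw [A_step_lt _ (not_le.1 hk)]
      rw [this]
      exact measurable_pmp hP ih _ _ _

theorem measurable_aEp {P U : Z → Ω → ℝ} (𝓕 : Filt Ω) (x : ℕ → ℝ)
    (hP : ∀ a, Measurable fun z => P z a) (hU : ∀ a, Measurable fun z => U z a) :
    Measurable fun z => aE (P z) 𝓕 x (U z) := by
  unfold aE
  exact measurable_eEp hP (fun a => measurable_Ap 𝓕 x hP hU 0 a)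

variable {κ β : Type*} [Fintype κ] [Fintype β] [DecidableEq β]

omit [Fintype κ] in
theorem measurable_XX {P : Z → Ω → ℝ} {x : Z → Ω → κ → ℝ} (hP : ∀ a, Measurable fun z => P z a)
    (hx : ∀ a i, Measurable fun z => x z a i) (r : ℕ → Setoid Ω) (n : ℕ) (ω : Ω) (i : κ) :
    Measurable fun z => XX (P z) r (x z) n ω i := by
  cases n with
  | zero => exact hx ω i
  | succ n => exact measurable_cEp hP (fun a => hx a i) (r n) ω

theorem measurable_Dev {P : Z → Ω → ℝ} {x : Z → Ω → κ → ℝ} (hP : ∀ a, Measurable fun z => P z a)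
    (hx : ∀ a i, Measurable fun z => x z a i) (r : ℕ → Setoid Ω) (J : ℕ) (kap : κ → β)
    (Q : ℕ → β → ℝ) : Measurable fun z => Dev (P z) r J kap (x z) Q := by
  unfold Dev
  refine Measurable.add ?_ ?_
  · refine Finset.measurable_fun_sum _ fun n _ => Finset.measurable_fun_sum _ fun k _ => ?_
    refine measurable_eEp hP fun ω => ?_
    have h : Measurable fun z => ip kap k (XX (P z) r (x z) n ω) (XX (P z) r (x z) n ω) := by
      unfold ip
      refine Finset.measurable_fun_sum _ fun i _ => ?_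
      split_ifs
      · exact (measurable_XX hP hx r n ω i).mul (measurable_XX hP hx r n ω i)
      · exact measurable_const
    exact continuous_abs.measurable.comp (h.sub_const (Q n k))
  · refine Finset.measurable_fun_sum _ fun n _ => ?_
    unfold pur
    refine measurable_eEp hP fun ω => ?_
    refine Finset.measurable_fun_sum _ fun i _ => Finset.measurable_fun_sum _ fun j _ => ?_
    refine Measurable.pow_const ?_ 2
    unfold cvr dv cEv
    refine measurable_cEp hP (fun a => ?_) (r n) ω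
    exact ((hx a i).sub (measurable_cEp hP (fun a => hx a i) (r n) ω)).mul
      ((hx a j).sub (measurable_cEp hP (fun a => hx a j) (r n) ω))

end meas

section bounds

variable {Ω κ β : Type*} [Fintype Ω] [Fintype κ] [Fintype β] [DecidableEq β]
  {P : Ω → ℝ} {r : ℕ → Setoid Ω} {J : ℕ} {kap : κ → β} {x : Ω → κ → ℝ} {Q : ℕ → β → ℝ}

theorem pur_le (hP : IsProb P) (r : Setoid Ω) {C : ℝ} (hC : ∀ ω, ∑ i, x ω i ^ 2 ≤ C) :
    pur P r x ≤ C ^ 2 := by
  unfold pur
  refine eE_le_of_le hP fun ω => ?_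
  have h1 : ∀ i j, cvr P r x i j ω ^ 2 ≤
      cE P r (fun a => dv P r x ω a i ^ 2) ω * cE P r (fun a => dv P r x ω a j ^ 2) ω :=
    fun i j => cE_mul_sq_le hP r _ _ ω
  have h2 : ∑ i, cE P r (fun a => dv P r x ω a i ^ 2) ω ≤ C := by
    rw [← cE_sum]
    have e1 : ∀ i, cE P r (fun a => dv P r x ω a i ^ 2) ω ≤ cE P r (fun a => x a i ^ 2) ω := by
      intro i
      have e2 : (fun a => dv P r x ω a i ^ 2) =
          fun a => (x a i ^ 2 - 2 * cEv P r x ω i * x a i) + cEv P r x ω i ^ 2 := by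
        funext a; unfold dv; ring
      rw [e2, cE_add P r (fun a => x a i ^ 2 - 2 * cEv P r x ω i * x a i)
        (fun _ => cEv P r x ω i ^ 2), cE_sub P r (fun a => x a i ^ 2)
        (fun a => 2 * cEv P r x ω i * x a i), cE_smul, cE_const hP]
      have e3 : cE P r (fun a => x a i) ω = cEv P r x ω i := rfl
      rw [e3]
      nlinarith [sq_nonneg (cEv P r x ω i)]
    rw [cE_sum]
    refine (Finset.sum_le_sum fun i _ => e1 i).trans ?_
    rw [← cE_sum]
    exact cE_le_of_le hP hC ω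
  have h3 : 0 ≤ ∑ i, cE P r (fun a => dv P r x ω a i ^ 2) ω :=
    Finset.sum_nonneg fun i _ => cE_nonneg hP (fun a => sq_nonneg _) ω
  calc ∑ i, ∑ j, cvr P r x i j ω ^ 2
      ≤ ∑ i, ∑ j, cE P r (fun a => dv P r x ω a i ^ 2) ω *
          cE P r (fun a => dv P r x ω a j ^ 2) ω :=
        Finset.sum_le_sum fun i _ => Finset.sum_le_sum fun j _ => h1 i j
    _ = (∑ i, cE P r (fun a => dv P r x ω a i ^ 2) ω) ^ 2 := by
        rw [sq, Finset.sum_mul_sum]
    _ ≤ C ^ 2 := pow_le_pow_left₀ h3 h2 2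

omit [Fintype β] in
theorem ip_self_le (kap : κ → β) (k : β) (y : κ → ℝ) : ip kap k y y ≤ ∑ i, y i ^ 2 := by
  unfold ip
  refine Finset.sum_le_sum fun i _ => ?_
  split_ifs
  · rw [sq]
  · exact sq_nonneg _

theorem Dev_le (hP : IsProb P) {C V : ℝ} (hC : ∀ ω, ∑ i, x ω i ^ 2 ≤ C)
    (hQ : ∀ n k, n ≤ J + 1 → |Q n k| ≤ V) :
    Dev P r J kap x Q ≤ ((J : ℝ) + 2) * (Fintype.card β * (C + V)) + ((J : ℝ) + 1) * C ^ 2 := by
  unfold Dev
  have h1 : ∀ n ∈ range (J + 2), ∑ k, eE P (fun ω =>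
      |ip kap k (XX P r x n ω) (XX P r x n ω) - Q n k|) ≤ Fintype.card β * (C + V) := by
    intro n hn
    have hn' : n ≤ J + 1 := by have := Finset.mem_range.1 hn; omega
    have h2 : ∀ k, eE P (fun ω => |ip kap k (XX P r x n ω) (XX P r x n ω) - Q n k|) ≤ C + V := by
      intro k
      refine eE_le_of_le hP fun ω => ?_
      have h3 : ∑ i, XX P r x n ω i ^ 2 ≤ C := by
        cases n with
        | zero => exact hC ω
        | succ n => exact sum_sq_cEv_le hP hC ω
      have h4 := (ip_self_le kap k (XX P r x n ω)).trans h3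
      have h5 := ip_self_nonneg kap k (XX P r x n ω)
      have h6 := hQ n k hn'
      refine (abs_sub _ _).trans ?_
      rw [abs_of_nonneg h5]
      linarith
    refine (Finset.sum_le_sum fun k _ => h2 k).trans (le_of_eq ?_)
    rw [Finset.sum_const, Finset.card_univ, nsmul_eq_mul]
  have h2 : ∀ n ∈ range (J + 1), pur P (r n) x ≤ C ^ 2 := fun n _ => pur_le hP (r n) hC
  refine (add_le_add (Finset.sum_le_sum h1) (Finset.sum_le_sum h2)).trans (le_of_eq ?_)
  rw [Finset.sum_const, Finset.sum_const, Finset.card_range, Finset.card_range, nsmul_eq_mul,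
    nsmul_eq_mul]
  push_cast
  ring

end bounds

theorem measurable_field {Z : Type*} [MeasurableSpace Z] {Ω Λ κ β : Type*} [Fintype κ]
    [Fintype β] [DecidableEq β] {kap : κ → β} {x : Z → Ω → κ → ℝ} {Y : Λ → ℝ}
    (hx : ∀ a i, Measurable fun z => x z a i) {w : (Unit ⊕ β → ℝ) → ℝ} (hw : Measurable w)
    (u : Ω × Λ) : Measurable fun p : Z × (κ → ℝ) =>
      w (cmb (Y u.2) (zf kap (x p.1 u.1) p.2)) := by
  refine hw.comp (measurable_pi_lambda _ fun k => ?_)
  rcases k with k | k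
  · exact measurable_const
  · show Measurable fun p : Z × (κ → ℝ) => ∑ i, (if kap i = k then x p.1 u.1 i else 0) * p.2 i
    refine Finset.measurable_fun_sum _ fun i _ => Measurable.mul ?_ ?_
    · split_ifs
      · exact (hx u.1 i).comp measurable_fst
      · exact measurable_const
    · exact (measurable_pi_apply i).comp measurable_snd

set_option maxHeartbeats 1000000 in
/-- **The Gaussian cavity limit averaged over the frozen randomness.** -/
theorem cavity_avg (β : Type) [Fintype β] [DecidableEq β] (J : ℕ) (c C B V : ℝ)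
    (LR : ℝ → ℝ) (hc0 : 0 ≤ c) (hC0 : 0 ≤ C) (hB0 : 0 ≤ B) (hV0 : 0 ≤ V)
    {ε : ℝ} (hε : 0 < ε) :
    ∃ d > 0, ∀ {Ω Λ κ : Type} [Fintype Ω] [Fintype Λ] [Fintype κ] {Z : Type}
      [MeasurableSpace Z] (μ : Measure Z) [IsProbabilityMeasure μ] {D : Type} [Fintype D]
      (q : D → ℝ) (P : D → Z → Ω → ℝ) (P2 : Λ → ℝ)
      (𝓕 : Filt Ω) (𝓖 : Filt Λ) (𝓗 : Filt (Ω × Λ)) (xe : ℕ → ℝ) (t : D → ℕ → ℕ) (δx : ℝ)
      (kap : κ → β) (x : Z → Ω → κ → ℝ) (Q : ℕ → β → ℝ) (Y : Λ → ℝ) (bv : ℕ → ℝ)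
      (w : (Unit ⊕ β → ℝ) → ℝ),
      (∀ e, 0 ≤ q e) → ∑ e, q e = 1 → (∀ᵐ z ∂μ, ∀ ω, ∑ i, x z ω i ^ 2 ≤ C) →
      (∀ e z, IsProb (P e z)) → (∀ e ω, Measurable fun z => P e z ω) →
      (∀ ω i, Measurable fun z => x z ω i) → IsProb P2 →
      (∀ l, 𝓗.F l = (𝓕.F l).prod (𝓖.F l)) → 𝓗.F 0 = ⊤ → (∀ e, Levels xe J (t e) 𝓗.L δx) →
      (∀ n k, n ≤ J + 1 → 0 ≤ Q n k) →
      (∀ n k, n ≤ J → Q (n + 1) k ≤ Q n k) → ∑ k, Q 0 k ≤ V →
      (∀ n ≤ J + 1, 0 ≤ bv n) → (∀ n ≤ J + 1, bv n ≤ V) →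
      (∀ e, Clt P2 (fun n => 𝓖.F (t e (J - n))) J Y bv d) → eE P2 (fun b => Y b ^ 2) ≤ B →
      LocLip LR w → (∀ z, |w z| ≤ c) →
      |∫ z, ∑ e, q e * ∫ ζ, aE (pP (P e z) P2) 𝓗 xe
          (fun u => w (cmb (Y u.2) (zf kap (x z u.1) ζ))) ∂(gm κ) ∂μ -
        gval J (Fact.ySk J) (vC J Q bv) w| ≤
        ε + 15 * c ^ 2 * Real.exp (4 * c) * δx + 2 * c / d *
          ∫ z, ∑ e, q e * Dev (P e z) (fun n => 𝓕.F (t e (J - n))) J kap (x z) Q ∂μ := by
  obtain ⟨d, hd, hmain⟩ := cavity_limit β J c C B V LR hc0 hC0 hB0 hV0 hε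
  refine ⟨d, hd, ?_⟩
  intro Ω Λ κ _ _ _ Z _ μ _ D _ q P P2 𝓕 𝓖 𝓗 xe t δx kap x Q Y bv w hq0 hq1 hC hP hPm hxm hP2
    h𝓗 h0 hlev Q0 Qm QV bv0 bvV clt hY hw hc
  have hwm := hw.measurable
  set g := gval J (Fact.ySk J) (vC J Q bv) w with hg
  set F : D → Z → ℝ := fun e z => ∫ ζ, aE (pP (P e z) P2) 𝓗 xe
    (fun u => w (cmb (Y u.2) (zf kap (x z u.1) ζ))) ∂(gm κ) with hF
  set DV : D → Z → ℝ := fun e z =>
    Dev (P e z) (fun n => 𝓕.F (t e (J - n))) J kap (x z) Q with hDV
  have hFm : ∀ e, Measurable (F e) := by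
    intro e
    have h1 : Measurable (Function.uncurry fun (z : Z) (ζ : κ → ℝ) =>
        aE (pP (P e z) P2) 𝓗 xe (fun u => w (cmb (Y u.2) (zf kap (x z u.1) ζ)))) := by
      refine measurable_aEp (Z := Z × (κ → ℝ)) (P := fun p => pP (P e p.1) P2)
        (U := fun p u => w (cmb (Y u.2) (zf kap (x p.1 u.1) p.2))) 𝓗 xe (fun a => ?_)
        (fun a => measurable_field hxm hwm a)
      exact ((hPm e a.1).comp measurable_fst).mul_const _
    exact h1.stronglyMeasurable.integral_prod_right.measurable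
  have hFb : ∀ e z, |F e z| ≤ c := by
    intro e z
    have hPP := pP_isProb (hP e z) hP2
    have h1 : ∀ ζ : κ → ℝ, |aE (pP (P e z) P2) 𝓗 xe
        (fun u => w (cmb (Y u.2) (zf kap (x z u.1) ζ)))| ≤ c := by
      intro ζ
      unfold aE
      refine (eE_abs_le hPP _).trans (eE_le_of_le hPP fun p => ?_)
      exact A_abs_le hPP (hlev e).expo.pos (fun q => hc _) 0 p
    have := norm_integral_le_of_norm_le_const (μ := gm κ)
      (f := fun ζ => aE (pP (P e z) P2) 𝓗 xe (fun u => w (cmb (Y u.2) (zf kap (x z u.1) ζ))))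
      (C := c) (ae_of_all _ fun ζ => by rw [Real.norm_eq_abs]; exact h1 ζ)
    simpa using this
  have hDm : ∀ e, Measurable (DV e) := fun e =>
    measurable_Dev (hPm e) hxm (fun n => 𝓕.F (t e (J - n))) J kap Q
  have hQV : ∀ n k, n ≤ J + 1 → |Q n k| ≤ V := by
    intro n k hn
    rw [abs_of_nonneg (Q0 n k hn)]
    have h1 : Q n k ≤ Q 0 k := by
      induction n with
      | zero => exact le_rfl
      | succ n ih => exact (Qm n k (by omega)).trans (ih (by omega))
    exact h1.trans ((Finset.single_le_sum (f := fun k => Q 0 k)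
      (fun k _ => Q0 0 k (by omega)) (Finset.mem_univ k)).trans QV)
  set DB : ℝ := ((J : ℝ) + 2) * (Fintype.card β * (C + V)) + ((J : ℝ) + 1) * C ^ 2 with hDB
  have hDb : ∀ e, ∀ᵐ z ∂μ, |DV e z| ≤ DB := by
    intro e
    filter_upwards [hC] with z hz
    rw [abs_of_nonneg (Dev_nonneg (hP e z))]
    exact Dev_le (hP e z) hz hQV
  have hiF : ∀ e, Integrable (F e) μ := fun e =>
    Integrable.of_bound (C := c) (hFm e).aestronglyMeasurable
      (ae_of_all _ fun z => by rw [Real.norm_eq_abs]; exact hFb e z)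
  have hiD : ∀ e, Integrable (DV e) μ := fun e =>
    Integrable.of_bound (C := DB) (hDm e).aestronglyMeasurable (by
      filter_upwards [hDb e] with z hz
      rw [Real.norm_eq_abs]; exact hz)
  -- pointwise
  have hpt : ∀ᵐ z ∂μ, ∀ e, |F e z - g| ≤
      ε + 2 * c / d * DV e z + 15 * c ^ 2 * Real.exp (4 * c) * δx := by
    filter_upwards [hC] with z hz
    intro e
    exact hmain (P e z) P2 𝓕 𝓖 𝓗 xe (t e) δx kap (x z) Q Y bv w (hP e z) hP2 h𝓗 h0 (hlev e) hz
      Q0 Qm QV bv0 bvV (clt e) hY hw hc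
  have hi1 : Integrable (fun z => ∑ e, q e * F e z) μ :=
    integrable_finsetSum _ fun e _ => (hiF e).const_mul _
  have hi2 : Integrable (fun z => ∑ e, q e * DV e z) μ :=
    integrable_finsetSum _ fun e _ => (hiD e).const_mul _
  have e1 : ∫ z, ∑ e, q e * F e z ∂μ - g = ∫ z, (∑ e, q e * F e z - g) ∂μ := by
    rw [integral_sub hi1 (integrable_const _)]
    simp
  show |∫ z, ∑ e, q e * F e z ∂μ - g| ≤ _
  rw [e1]
  refine abs_integral_le_integral_abs.trans ?_
  have h1 : ∫ z, |∑ e, q e * F e z - g| ∂μ ≤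
      ∫ z, ((ε + 15 * c ^ 2 * Real.exp (4 * c) * δx) + 2 * c / d * ∑ e, q e * DV e z) ∂μ := by
    refine integral_mono_ae (hi1.sub (integrable_const _)).abs
      ((integrable_const _).add (hi2.const_mul _)) ?_
    filter_upwards [hpt] with z hz
    have e2 : ∑ e, q e * F e z - g = ∑ e, q e * (F e z - g) := by
      simp only [mul_sub, Finset.sum_sub_distrib]
      rw [← Finset.sum_mul, hq1, one_mul]
    rw [e2]
    refine (Finset.abs_sum_le_sum_abs _ _).trans ?_
    have h2 : ∀ e, |q e * (F e z - g)| ≤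
        q e * (ε + 2 * c / d * DV e z + 15 * c ^ 2 * Real.exp (4 * c) * δx) := by
      intro e
      rw [abs_mul, abs_of_nonneg (hq0 e)]
      exact mul_le_mul_of_nonneg_left (hz e) (hq0 e)
    refine (Finset.sum_le_sum fun e _ => h2 e).trans (le_of_eq ?_)
    have e3 : ∀ e, q e * (ε + 2 * c / d * DV e z + 15 * c ^ 2 * Real.exp (4 * c) * δx) =
        (ε + 15 * c ^ 2 * Real.exp (4 * c) * δx) * q e + 2 * c / d * (q e * DV e z) := by
      intro e; ring
    simp only [e3, Finset.sum_add_distrib, ← Finset.mul_sum]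
    rw [hq1, mul_one]
  refine h1.trans (le_of_eq ?_)
  have e4 : ∫ z, ((ε + 15 * c ^ 2 * Real.exp (4 * c) * δx) + 2 * c / d * ∑ e, q e * DV e z) ∂μ =
      ∫ _z, (ε + 15 * c ^ 2 * Real.exp (4 * c) * δx) ∂μ +
        ∫ z, 2 * c / d * ∑ e, q e * DV e z ∂μ :=
    integral_add (integrable_const _) (hi2.const_mul _)
  have e5 : ∫ _z, (ε + 15 * c ^ 2 * Real.exp (4 * c) * δx) ∂μ =
      ε + 15 * c ^ 2 * Real.exp (4 * c) * δx := by simp
  rw [e4, integral_const_mul, e5]

end

end Crest.Agent.R164.CavG
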