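import Crest.Agent.R164.EDb
import Crest.Agent.R164.CavW3
import Crest.Agent.R164.LLimA1
import Crest.Agent.R164.LLimA0

/-!
Row 164, L side (GL6, helper639), part 2: the coins of one site (`LS`, `lsF`, `lsP` of `EDb`) satisfy
the central limit hypothesis.
-/

set_option autoImplicit false

namespace Crest.Agent.R164.CavG

open MeasureTheory ProbabilityTheory Finset Crest.Agent.R141
open Crest.Agent.R164.ED (uQ uQ_isProb eE_uQ zz LC LS lsF lsP lsr zl lsP_isProb aE)

noncomputable section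

section transport

variable {Λ Λ' : Type*} [Fintype Λ] [Fintype Λ'] {P2 : Λ → ℝ} {Q2 : Λ' → ℝ} {s : ℕ → Setoid Λ}
  {s' : ℕ → Setoid Λ'} {J : ℕ} {Y : Λ → ℝ} {bv : ℕ → ℝ} {dl : ℝ}

theorem YY_prod (hQ2 : IsProb Q2) (m : ℕ) (u : Λ × Λ') :
    YY (pP P2 Q2) (fun n => (s n).prod (s' n)) (fun u => Y u.1) m u = YY P2 s Y m u.1 := by
  cases m with
  | zero => rfl
  | succ m => exact PF.cE_prod_fst hQ2 Y u.1 u.2

/-- an irrelevant independent factor. -/
theorem Clt.prod_fst (hQ2 : IsProb Q2) (h : Clt P2 s J Y bv dl) :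
    Clt (pP P2 Q2) (fun n => (s n).prod (s' n)) J (fun u => Y u.1) bv dl where
  step m hm L f hL hf u := by
    have e1 : (fun b : Λ × Λ' => f (YY (pP P2 Q2) (fun n => (s n).prod (s' n))
        (fun u => Y u.1) m b)) = fun b => (fun a => f (YY P2 s Y m a)) b.1 := by
      funext b; rw [YY_prod hQ2]
    rw [e1, YY_prod hQ2]
    have e2 : cE (pP P2 Q2) ((s m).prod (s' m)) (fun b => (fun a => f (YY P2 s Y m a)) b.1) u =
        cE P2 (s m) (fun a => f (YY P2 s Y m a)) u.1 :=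
      PF.cE_prod_fst (P := P2) hQ2 (fun a => f (YY P2 s Y m a)) u.1 u.2
    rw [e2]
    exact h.step m hm L f hL hf u.1
  bot L f hL hf := by
    have e1 : (fun b : Λ × Λ' => f (YY (pP P2 Q2) (fun n => (s n).prod (s' n))
        (fun u => Y u.1) (J + 1) b)) = fun b => (fun a => f (YY P2 s Y (J + 1) a)) b.1 := by
      funext b; rw [YY_prod hQ2]
    rw [e1]
    have e2 : eE (pP P2 Q2) (fun b => (fun a => f (YY P2 s Y (J + 1) a)) b.1) =
        eE P2 (fun a => f (YY P2 s Y (J + 1) a)) :=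
      PF.eE_prod_fst (P := P2) hQ2 (fun a => f (YY P2 s Y (J + 1) a))
    rw [e2]
    exact h.bot L f hL hf

theorem Clt.mono {dl' : ℝ} (h : Clt P2 s J Y bv dl) (hd : dl ≤ dl') : Clt P2 s J Y bv dl' where
  step m hm L f hL hf u := (h.step m hm L f hL hf u).trans (mul_le_mul_of_nonneg_left hd hL)
  bot L f hL hf := (h.bot L f hL hf).trans (mul_le_mul_of_nonneg_left hd hL)

end transport

section site

variable {p : Par} {n : ℕ}

/-- the cells revealed at level `k`. -/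
def Sk (p : Par) (k : ℕ) : Finset (Fin p.nc) := univ.filter fun g => p.mt g ≤ k

theorem Sk_mono {k k' : ℕ} (h : k ≤ k') : Sk p k ⊆ Sk p k' := by
  intro g hg
  rw [Sk, Finset.mem_filter] at hg ⊢
  exact ⟨hg.1, hg.2.trans h⟩

theorem lsF_F (k : ℕ) : (lsF p n).F k = (agr (Sk p k)).prod (agr (Sk p k)) := by
  ext a b
  constructor
  · intro h
    have h : lsr p n k a b := h
    exact ⟨fun g hg => h.1 g (Finset.mem_filter.1 hg).2,
      fun g hg => h.2 g (Finset.mem_filter.1 hg).2⟩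
  · intro h
    show lsr p n k a b
    exact ⟨fun g hg => h.1 g (Finset.mem_filter.2 ⟨Finset.mem_univ _, hg⟩),
      fun g hg => h.2 g (Finset.mem_filter.2 ⟨Finset.mem_univ _, hg⟩)⟩

theorem lsP_eq : lsP p n = pP (uQ (LC p n)) (uQ (LC p n)) := by
  funext u
  unfold lsP pP uQ
  rw [Fintype.card_prod]
  push_cast
  rw [mul_inv]

/-- variances of the label increments along the levels `t`. -/
def lsV (p : Par) (J : ℕ) (t : ℕ → ℕ) (b : Fin p.nc → ℝ) : ℕ → ℝ :=
  labV J (fun m => Sk p (t (J - m))) b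

theorem labY_eq (b : Fin p.nc → ℝ) (c : LC p n) : labY b c = ∑ g, b g * zl c g := rfl

/-- **The central limit hypothesis for the coins of the new site.** -/
theorem clt_ls {J : ℕ} {ε B1 : ℝ} (hn : W1 n ε) (hε : 0 ≤ ε) {t : ℕ → ℕ} (ht : Monotone t)
    {b : Fin p.nc → ℝ} (hb : ∑ g, |b g| ≤ B1) :
    Clt (lsP p n) (fun m => (lsF p n).F (t (J - m))) J (fun l => ∑ g, b g * zl l.1 g)
      (lsV p J t b) (B1 * ε) := by
  have h1 := clt_label (J := J) hn hε (S := fun m => Sk p (t (J - m)))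
    (fun m hm => Sk_mono (ht (by omega))) (s := fun m => agr (Sk p (t (J - m))))
    (fun m _ => rfl) hb
  have h2 := Clt.prod_fst (Q2 := uQ (LC p n)) (s' := fun m => agr (Sk p (t (J - m))))
    uQ_isProb h1
  rw [← lsP_eq] at h2
  have e : (fun m => (lsF p n).F (t (J - m))) =
      fun m => (agr (Sk p (t (J - m)))).prod (agr (Sk p (t (J - m)))) :=
    funext fun m => lsF_F _
  rw [e]
  exact h2

theorem eE_ls_sq_le (b : Fin p.nc → ℝ) :
    eE (lsP p n) (fun l => (∑ g, b g * zl l.1 g) ^ 2) ≤ 4 * (∑ g, |b g|) ^ 2 := by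
  rw [lsP_eq]
  have h : eE (pP (uQ (LC p n)) (uQ (LC p n))) (fun l => (∑ g, b g * zl l.1 g) ^ 2) =
      eE (uQ (LC p n)) (fun c => labY b c ^ 2) :=
    PF.eE_prod_fst uQ_isProb (fun c : LC p n => labY b c ^ 2)
  rw [h]
  exact eE_labY_sq_le b

/-- label variances in terms of the levels -/
theorem lsV_mid {J : ℕ} {t : ℕ → ℕ} (b : Fin p.nc → ℝ) {m : ℕ} (h0 : m ≠ 0)
    (hm : m ≤ J) : lsV p J t b m =
      ∑ g : Fin p.nc, if t (J - m) < p.mt g ∧ p.mt g ≤ t (J - m + 1) then b g ^ 2 else 0 := by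
  obtain ⟨m, rfl⟩ : ∃ k, m = k + 1 := ⟨m - 1, by omega⟩
  unfold lsV labV
  rw [if_pos hm, ← Finset.sum_filter]
  refine Finset.sum_congr ?_ fun _ _ => rfl
  ext g
  have e1 : J - (m + 1) + 1 = J - m := by omega
  simp only [RS, Sk, Finset.mem_sdiff, Finset.mem_filter, Finset.mem_univ, true_and, not_le, e1]
  tauto

theorem lsV_zero {J : ℕ} {t : ℕ → ℕ} (b : Fin p.nc → ℝ) :
    lsV p J t b 0 = ∑ g : Fin p.nc, if t J < p.mt g then b g ^ 2 else 0 := by
  unfold lsV labV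
  rw [if_pos (Nat.zero_le J), ← Finset.sum_filter]
  refine Finset.sum_congr ?_ fun _ _ => rfl
  ext g
  simp only [RS, Sk, Finset.mem_sdiff, Finset.mem_filter, Finset.mem_univ, true_and, not_le,
    Nat.sub_zero]

theorem lsV_bot {J : ℕ} {t : ℕ → ℕ} (b : Fin p.nc → ℝ) :
    lsV p J t b (J + 1) = ∑ g : Fin p.nc, if p.mt g ≤ t 0 then b g ^ 2 else 0 := by
  unfold lsV labV
  rw [if_neg (by omega), ← Finset.sum_filter]
  refine Finset.sum_congr ?_ fun _ _ => rfl
  ext g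
  simp only [RS, Sk, Finset.mem_filter, Finset.mem_univ, true_and, Nat.sub_self]

end site

end

end Crest.Agent.R164.CavG
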