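import Crest.Agent.R164.CavF
import Crest.Agent.R164.OvSys
import Crest.Agent.R164.LLimA2

/-!
Row 164, L side (GL6, helper639), part 3: `cavF` versus the nested Gaussian functional.
-/

set_option autoImplicit false

namespace Crest.Agent.R164.CavG

open MeasureTheory ProbabilityTheory Finset Crest.Agent.R141
open Crest.Agent.R164.ED (LC LS lsF lsP lsr zl lsP_isProb aE wid wx Z0 Z1 yb zc psi stP stF cavW cavF
  BU OU psi_lipschitz abs_psi_le)
open Crest.Agent.R164.EG (WF WF_eq m1)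
open Crest.Agent.R164.Haar (gam)

noncomputable section

theorem wid_WU {K : ℕ} (w val : Fin (K + 1) → ℝ) (bb : ℝ) (l : Fin (K + 1)) (cs : ℝ)
    (z : Unit ⊕ Fin (K + 1) → ℝ) :
    wid (m1 w val) (val l) (∑ k, z (.inr k)) (∑ k, val k * z (.inr k)) (bb + z (.inl ()))
      (fun _ => cs) = WU w val bb l cs z := by
  unfold WU
  rw [WF_eq]
  have e1 : ∀ k : Fin (K + 1), toOpt z (some k) = z (.inr k) := fun _ => rfl
  have e2 : toOpt z none = z (.inl ()) := rfl
  simp only [e1, e2]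
  unfold wid wx
  set z0 := ∑ k : Fin (K + 1), z (.inr k)
  set z1 := ∑ k : Fin (K + 1), val k * z (.inr k)
  set y := z (.inl ())
  have s1 : sv true = 1 := rfl
  have s2 : sv false = -1 := rfl
  rw [s1, s2]
  have a1 : (1 - z0) * z1 + 1 / 2 * m1 w val * (1 - z0) ^ 2 + 1 / 2 * val l * z0 ^ 2 + cs +
      1 * (bb + y) = cs + ((1 - z0) * z1 + 1 / 2 * (1 - z0) ^ 2 * m1 w val +
        1 / 2 * val l * z0 ^ 2 + bb + y) := by ring
  have a2 : (-1 - z0) * z1 + 1 / 2 * m1 w val * (-1 - z0) ^ 2 + 1 / 2 * val l * z0 ^ 2 + cs +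
      -1 * (bb + y) = cs + ((-1 - z0) * z1 + 1 / 2 * (-1 - z0) ^ 2 * m1 w val +
        1 / 2 * val l * z0 ^ 2 - bb - y) := by ring
  rw [a1, a2, Real.exp_add cs, Real.exp_add cs, ← mul_add, mul_div_assoc,
    Real.log_mul (Real.exp_pos _).ne' (by positivity), Real.log_exp]
  congr 2
  ring

/-- the last coordinate does not matter. -/
theorem integral_castSucc {N : ℕ} {F : (Fin N → ℝ) → ℝ} (hF : Measurable F) :
    ∫ G, F (fun i => G i.castSucc) ∂(gam (Fin (N + 1))) = ∫ ζ, F ζ ∂(gm (Fin N)) := by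
  have h := integral_lin (ι := Fin N) (κ := Fin (N + 1)) (κ' := Fin N)
    (fun a i => if i = a.castSucc then 1 else 0) (fun a i => if i = a then 1 else 0)
    (fun a b => by
      simp only [mul_ite, mul_one, mul_zero]
      rw [Finset.sum_ite_eq' univ b.castSucc, Finset.sum_ite_eq' univ b]
      simp only [Finset.mem_univ, if_true]
      by_cases hab : b = a
      · subst hab; simp
      · rw [if_neg (fun h => hab (Fin.castSucc_injective N h)), if_neg hab]) hF
  have e1 : ∀ G : Fin (N + 1) → ℝ, lin (fun (a : Fin N) (i : Fin (N + 1)) =>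
      if i = a.castSucc then (1 : ℝ) else 0) G = fun a => G a.castSucc := by
    intro G
    funext a
    simp [lin]
  have e2 : ∀ ζ : Fin N → ℝ, lin (fun (a : Fin N) (i : Fin N) =>
      if i = a then (1 : ℝ) else 0) ζ = ζ := by
    intro ζ
    funext a
    simp [lin]
  simp only [e1, e2] at h
  exact h

section fields

variable {N K : ℕ} (kap : Fin N → Fin (K + 1)) (x ζ : Fin N → ℝ)

theorem sum_zf : ∑ k, zf kap x ζ k = ∑ i, x i * ζ i := by
  unfold zf
  rw [Finset.sum_comm]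
  refine Finset.sum_congr rfl fun i _ => ?_
  rw [← Finset.sum_mul]
  congr 1
  rw [Finset.sum_ite_eq univ (kap i) (fun _ => x i)]
  simp

theorem sum_val_zf (val : Fin (K + 1) → ℝ) :
    ∑ k, val k * zf kap x ζ k = ∑ i, val (kap i) * x i * ζ i := by
  unfold zf
  simp only [Finset.mul_sum]
  rw [Finset.sum_comm]
  refine Finset.sum_congr rfl fun i _ => ?_
  have : ∀ k, val k * ((if kap i = k then x i else 0) * ζ i) =
      if kap i = k then val k * x i * ζ i else 0 := by
    intro k; split_ifs <;> ring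
  simp only [this]
  rw [Finset.sum_ite_eq univ (kap i) (fun k => val k * x i * ζ i)]
  simp

end fields

variable {p : Par} {N : ℕ}

/-- the normalised rows `N^{-1/2} U s`. -/
def xN {n : ℕ} (V : Haar.Mat (Fin N)) (ω : OU p N n) (i : Fin N) : ℝ :=
  (Real.sqrt N)⁻¹ * SY.xU (Matrix.of V) ω.1.1.1 i

theorem cavW_eq {K n : ℕ} (w val : Fin (K + 1) → ℝ) {eig : Fin (N + 1) → ℝ}
    {kap : Fin N → Fin (K + 1)} {l : Fin (K + 1)} (h1 : ∀ i, eig (Fin.castSucc i) = val (kap i))
    (h2 : eig (Fin.last N) = val l) (b : Fin p.nc → ℝ) (bb cs Kt : ℝ)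
    (q : Haar.Mat (Fin N) × (Fin (N + 1) → ℝ)) (u : OU p N n × LS p n) :
    cavW eig (m1 w val) b bb cs Kt q u = psi Kt (WU w val bb l cs
      (cmb (∑ g, b g * zl u.2.1 g) (zf kap (xN q.1 u.1) (fun i => q.2 i.castSucc)))) := by
  unfold cavW
  rw [← wid_WU, h2]
  congr 1
  have e1 : Z0 q.1 q.2 u.1.1.1.1 = ∑ k : Fin (K + 1),
      (cmb (∑ g, b g * zl u.2.1 g) (zf kap (xN q.1 u.1) (fun i => q.2 i.castSucc)) :
        Unit ⊕ Fin (K + 1) → ℝ) (.inr k) := by
    show Z0 q.1 q.2 u.1.1.1.1 = ∑ k : Fin (K + 1), zf kap (xN q.1 u.1) (fun i => q.2 i.castSucc) k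
    rw [sum_zf]
    unfold Z0 zc xN
    rw [Finset.mul_sum]
    exact Finset.sum_congr rfl fun i _ => by ring
  have e2 : Z1 eig q.1 q.2 u.1.1.1.1 = ∑ k : Fin (K + 1), val k *
      (cmb (∑ g, b g * zl u.2.1 g) (zf kap (xN q.1 u.1) (fun i => q.2 i.castSucc)) :
        Unit ⊕ Fin (K + 1) → ℝ) (.inr k) := by
    show Z1 eig q.1 q.2 u.1.1.1.1 = ∑ k : Fin (K + 1), val k *
      zf kap (xN q.1 u.1) (fun i => q.2 i.castSucc) k
    rw [sum_val_zf]
    unfold Z1 zc xN
    rw [Finset.mul_sum]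
    refine Finset.sum_congr rfl fun i _ => ?_
    simp only [h1 i]
    ring
  rw [e1, e2]
  rfl

theorem stF_zero (n : ℕ) : (stF p N n).F 0 = ⊤ := by
  have h1 : (G.fil (BU p N n)).F 0 = ⊤ := SY.fil_zero _
  have h2 : (lsF p n).F 0 = ⊤ := by
    ext a b
    constructor
    · intro _; trivial
    · intro _
      show lsr p n 0 a b
      have hm : ∀ g : Fin p.nc, ¬ p.mt g ≤ 0 := by
        intro g hg
        unfold Par.mt at hg
        have : 0 < ((g : ℕ) + 1) * (p.T + 1) := by positivity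
        omega
      exact ⟨fun g hg => absurd hg (hm g), fun g hg => absurd hg (hm g)⟩
  show ((G.fil (BU p N n)).F 0).prod ((lsF p n).F 0) = ⊤
  rw [h1, h2]
  ext a b
  constructor
  · intro _; trivial
  · intro _; exact ⟨trivial, trivial⟩

theorem Clt.congr {Λ : Type*} [Fintype Λ] {P2 : Λ → ℝ} {s : ℕ → Setoid Λ} {J : ℕ} {Y : Λ → ℝ}
    {bv bv' : ℕ → ℝ} {dl : ℝ} (h : Clt P2 s J Y bv dl) (hb : ∀ m ≤ J + 1, bv m = bv' m) :
    Clt P2 s J Y bv' dl where
  step m hm L f hL hf u := by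
    rw [← hb m (by omega)]
    exact h.step m hm L f hL hf u
  bot L f hL hf := by
    rw [← hb (J + 1) le_rfl]
    exact h.bot L f hL hf

theorem measurable_xN {n : ℕ} (ω : OU p N n) (i : Fin N) :
    Measurable fun V : Haar.Mat (Fin N) => xN V ω i := by
  unfold xN
  exact ((OvC.continuous_xM ω.1.1.1 i).measurable).const_mul _

theorem sum_xN_sq {n : ℕ} (hN : 0 < N) {V : Haar.Mat (Fin N)} (hV : V ∈ Rot.OK N)
    (ω : OU p N n) : ∑ i, xN V ω i ^ 2 = 1 := by
  have hN' : (0 : ℝ) < N := by exact_mod_cast hN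
  have h := OvC.sum_xM_sq hV ω.1.1.1
  unfold xN
  simp only [mul_pow]
  rw [← Finset.mul_sum]
  have h2 : ∑ i, SY.xU (Matrix.of V) ω.1.1.1 i ^ 2 = (N : ℝ) := h
  rw [h2, inv_pow, Real.sq_sqrt hN'.le]
  exact inv_mul_cancel₀ hN'.ne'

set_option maxHeartbeats 1000000 in
/-- **GL6**: the truncated ideal one-site functional versus the nested Gaussian functional. -/
theorem cavF_limit {K : ℕ} (w val : Fin (K + 1) → ℝ) (J : ℕ) {Kt B1 ε : ℝ} (hKt : 0 ≤ Kt)
    (hB1 : 0 ≤ B1) (hε : 0 < ε) :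
    ∃ d > 0, ∃ n0 : ℕ, ∀ (p : Par) (N n : ℕ) (mu : Measure (Haar.Mat (Fin N)))
      [IsProbabilityMeasure mu]
      (H0 : Haar.Mat (Fin N) → SY.SS p n (univ : Finset (Fin N → Bool)) → ℝ)
      (eig : Fin (N + 1) → ℝ) (kap : Fin N → Fin (K + 1)) (l : Fin (K + 1))
      (b : Fin p.nc → ℝ) (bb cs : ℝ) (t : DD p N → ℕ → ℕ) (Q : ℕ → Fin (K + 1) → ℝ)
      (bv : ℕ → ℝ) (δx : ℝ),
      0 < N → n0 ≤ n → (∀ᵐ V ∂mu, V ∈ Rot.OK N) → (∀ s, Measurable fun V => H0 V s) →
      (∀ i, eig (Fin.castSucc i) = val (kap i)) → eig (Fin.last N) = val l →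
      ∑ g, |b g| ≤ B1 → (∀ e, Levels p.xs J (t e) p.L δx) →
      (∀ i k, i ≤ J + 1 → 0 ≤ Q i k) → (∀ i k, i ≤ J → Q (i + 1) k ≤ Q i k) →
      ∑ k, Q 0 k ≤ 1 → (∀ e m, m ≤ J + 1 → lsV p J (t e) b m = bv m) →
      |cavF mu n H0 eig (m1 w val) b bb cs Kt - gval J (Fact.ySk J) (vC J Q bv)
          (fun z => psi Kt (WU w val bb l cs z))| ≤
        ε + 15 * (Kt + 1) ^ 2 * Real.exp (4 * (Kt + 1)) * δx + 2 * (Kt + 1) / d *
          ∫ V, Ed p N (fun e => Dev (G.PP (BU p N n) (H0 V) e)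
            (fun m => (G.fil (BU p N n)).F (t e (J - m))) J kap (xN V) Q) ∂mu := by
  obtain ⟨d, hd, hmain⟩ := cavity_avg (Fin (K + 1)) J (Kt + 1) 1 (4 * B1 ^ 2) (1 + B1 ^ 2)
    (LW w val) (by positivity) zero_le_one (by positivity) (by positivity) hε
  obtain ⟨n0, hn0⟩ := bavg_W1 (ε := d / (B1 + 1)) (by positivity)
  refine ⟨d, hd, n0, ?_⟩
  intro p N n mu _ H0 eig kap l b bb cs t Q bv δx hN hn hmu hH0 h1 h2 hb hlev Q0 Qm Q1 hbv
  have hW1 : W1 n (d / (B1 + 1)) := hn0 n hn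
  set wf : (Unit ⊕ Fin (K + 1) → ℝ) → ℝ := fun z => psi Kt (WU w val bb l cs z) with hwf
  have hsq : ∑ g, b g ^ 2 ≤ B1 ^ 2 := by
    have h3 : ∑ g, b g ^ 2 ≤ (∑ g, |b g|) ^ 2 := by
      have := Finset.sum_sq_le_sq_sum_of_nonneg (s := univ) (f := fun g => |b g|)
        (fun g _ => abs_nonneg _)
      simpa using this
    exact h3.trans (pow_le_pow_left₀ (Finset.sum_nonneg fun _ _ => abs_nonneg _) hb 2)
  have hNN : Nonempty (DD p N) := ⟨fun _ => none⟩
  have e0 : DD p N := hNN.some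
  have hclt : ∀ e, Clt (lsP p n) (fun m => (lsF p n).F (t e (J - m))) J
      (fun l => ∑ g, b g * zl l.1 g) bv d := by
    intro e
    have h3 := clt_ls (n := n) (b := b) (J := J) hW1 (by positivity) (hlev e).mono hb
    refine (h3.congr (hbv e)).mono ?_
    rw [mul_div_assoc', div_le_iff₀ (by positivity)]
    nlinarith
  have hav := hmain (Ω := OU p N n) (Λ := LS p n) (κ := Fin N) (Z := Haar.Mat (Fin N)) mu
    (D := DD p N) (dw p N) (fun e V => G.PP (BU p N n) (H0 V) e) (lsP p n)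
    (G.fil (BU p N n)) (lsF p n) (stF p N n) p.xs t δx kap (fun V ω => xN V ω) Q
    (fun l => ∑ g, b g * zl l.1 g) bv wf (dw_nonneg p N) (dw_sum p hN)
    (by
      filter_upwards [hmu] with V hV
      intro ω
      exact (sum_xN_sq hN hV ω).le)
    (fun e V => G.PP_isProb _ _ _) (fun e ω => G.meas_PP _ hH0 e ω)
    (fun ω i => measurable_xN ω i) lsP_isProb (fun l => rfl) (stF_zero n) hlev Q0 Qm
    (Q1.trans (by nlinarith [sq_nonneg B1]))
    (fun m hm => by rw [← hbv e0 m hm]; exact labV_nonneg _ _ _ _)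
    (fun m hm => by
      rw [← hbv e0 m hm]
      exact (labV_le _ _ _ _).trans (by linarith))
    hclt ((eE_ls_sq_le b).trans (by
      have := pow_le_pow_left₀ (Finset.sum_nonneg fun g _ => abs_nonneg (b g)) hb 2
      linarith))
    (psiW_locLip w val bb l cs hKt) (psiW_bound w val bb l cs hKt)
  have key : cavF mu n H0 eig (m1 w val) b bb cs Kt =
      ∫ V, ∑ e, dw p N e * ∫ ζ, aE (pP (G.PP (BU p N n) (H0 V) e) (lsP p n)) (stF p N n) p.xs
        (fun u => wf (cmb (∑ g, b g * zl u.2.1 g) (zf kap (xN V u.1) ζ))) ∂(gm (Fin N)) ∂mu := by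
    have hwm : Measurable wf := (psiW_locLip w val bb l cs hKt).measurable
    have hwc := psiW_bound w val bb l cs hKt
    set Hf : DD p N → Haar.Mat (Fin N) × (Fin N → ℝ) → ℝ := fun e q =>
      aE (pP (G.PP (BU p N n) (H0 q.1) e) (lsP p n)) (stF p N n) p.xs
        (fun u => wf (cmb (∑ g, b g * zl u.2.1 g) (zf kap (xN q.1 u.1) q.2))) with hHf
    have hHm : ∀ e, Measurable (Hf e) := by
      intro e
      refine measurable_aEp (Z := Haar.Mat (Fin N) × (Fin N → ℝ))
        (P := fun q => pP (G.PP (BU p N n) (H0 q.1) e) (lsP p n))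
        (U := fun q u => wf (cmb (∑ g, b g * zl u.2.1 g) (zf kap (xN q.1 u.1) q.2)))
        (stF p N n) p.xs (fun a => ?_) (fun a => ?_)
      · exact ((G.meas_PP _ hH0 e a.1).comp measurable_fst).mul_const _
      · exact measurable_field (Y := fun l : LS p n => ∑ g, b g * zl l.1 g)
          (fun ω i => measurable_xN ω i) hwm a
    have hHb : ∀ e q, |Hf e q| ≤ Kt + 1 := by
      intro e q
      have hPP := pP_isProb (G.PP_isProb (BU p N n) (H0 q.1) e) (lsP_isProb (p := p) (n := n))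
      show |aE _ _ _ _| ≤ _
      unfold aE
      refine (eE_abs_le hPP _).trans (eE_le_of_le hPP fun u => ?_)
      exact A_abs_le hPP (hlev e).expo.pos (fun q => hwc _) 0 u
    have hcs : Measurable fun G : Fin (N + 1) → ℝ => fun i : Fin N => G i.castSucc := by fun_prop
    have e1 : cavF mu n H0 eig (m1 w val) b bb cs Kt = ∫ q : Haar.Mat (Fin N) × (Fin (N + 1) → ℝ),
        ∑ e, dw p N e * Hf e (q.1, fun i => q.2 i.castSucc) ∂(mu.prod (gam (Fin (N + 1)))) := by
      unfold cavF Ed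
      congr 1
      funext q
      refine Finset.sum_congr rfl fun e _ => ?_
      congr 1
      have e2 : cavW eig (m1 w val) b bb cs Kt q = fun u : OU p N n × LS p n =>
          wf (cmb (∑ g, b g * zl u.2.1 g) (zf kap (xN q.1 u.1) (fun i => q.2 i.castSucc))) :=
        funext fun u => cavW_eq w val h1 h2 b bb cs Kt q u
      rw [e2]
      rfl
    have hint : Integrable (fun q : Haar.Mat (Fin N) × (Fin (N + 1) → ℝ) =>
        ∑ e, dw p N e * Hf e (q.1, fun i => q.2 i.castSucc)) (mu.prod (gam (Fin (N + 1)))) := by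
      refine integrable_finsetSum _ fun e _ => Integrable.const_mul ?_ _
      refine Integrable.of_bound (C := Kt + 1) ((hHm e).comp (measurable_fst.prodMk
        (hcs.comp measurable_snd))).aestronglyMeasurable (ae_of_all _ fun q => ?_)
      rw [Real.norm_eq_abs]
      exact hHb e _
    rw [e1, integral_prod _ hint]
    congr 1
    funext V
    have hiG : ∀ e, Integrable (fun G : Fin (N + 1) → ℝ => Hf e (V, fun i => G i.castSucc))
        (gam (Fin (N + 1))) := fun e =>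
      Integrable.of_bound (C := Kt + 1) ((hHm e).comp (measurable_const.prodMk
        hcs)).aestronglyMeasurable (ae_of_all _ fun q => by
          rw [Real.norm_eq_abs]; exact hHb e _)
    rw [integral_finsetSum _ fun e _ => (hiG e).const_mul _]
    refine Finset.sum_congr rfl fun e _ => ?_
    rw [integral_const_mul]
    congr 1
    exact integral_castSucc (F := fun ζ => Hf e (V, ζ))
      ((hHm e).comp (measurable_const.prodMk measurable_id))
  rw [key]
  exact hav

end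

end Crest.Agent.R164.CavG
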