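import Crest.Agent.R164.LGDef
import Crest.Agent.R164.LLimA3
import Crest.Agent.R164.LIbp

/-!
Row 164, L side (helper716): the bridge between helper893's truncated cavity functional `LG.cavF`
and helper639's `ED.cavF`.
-/

set_option autoImplicit false

namespace Crest.Agent.R164.CavG

open MeasureTheory ProbabilityTheory Finset Crest.Agent.R141
open Crest.Agent.R164.ED (LC LS lsF lsP lsr zl lsP_isProb aE wid wx Z0 Z1 yb zc psi stP stF cavW cavF
  BU OU psi_lipschitz abs_psi_le)
open Crest.Agent.R164.EG (WF WF_eq m1)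
open Crest.Agent.R164.Haar (gam)

noncomputable section

variable {p : Par} {N : ℕ}

set_option maxHeartbeats 1000000 in
/-- `ED.cavF` as an iterated integral over the Haar matrix and the Gaussian vector of the new row -/
theorem cavF_iter {K n : ℕ} (w val : Fin (K + 1) → ℝ) {Kt : ℝ} (hKt : 0 ≤ Kt)
    {mu : Measure (Haar.Mat (Fin N))} [IsProbabilityMeasure mu]
    {H0 : Haar.Mat (Fin N) → SY.SS p n (univ : Finset (Fin N → Bool)) → ℝ}
    (hH0 : ∀ s, Measurable fun V => H0 V s) {eig : Fin (N + 1) → ℝ} {kap : Fin N → Fin (K + 1)}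
    {l : Fin (K + 1)} (h1 : ∀ i, eig (Fin.castSucc i) = val (kap i))
    (h2 : eig (Fin.last N) = val l) (b : Fin p.nc → ℝ) (bb cs : ℝ) :
    cavF mu n H0 eig (m1 w val) b bb cs Kt =
      ∫ V, Ed p N (fun e => ∫ ζ, aE (stP p N n (H0 V) e) (stF p N n) p.xs
        (fun u => psi Kt (WU w val bb l cs (cmb (∑ g, b g * zl u.2.1 g)
          (zf kap (xN V u.1) ζ)))) ∂(gm (Fin N))) ∂mu := by
  set wf : (Unit ⊕ Fin (K + 1) → ℝ) → ℝ := fun z => psi Kt (WU w val bb l cs z) with hwf
  have hwm : Measurable wf := (psiW_locLip w val bb l cs hKt).measurable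
  have hwc := psiW_bound w val bb l cs hKt
  set Hf : DD p N → Haar.Mat (Fin N) × (Fin N → ℝ) → ℝ := fun e q =>
    aE (pP (G.PP (BU p N n) (H0 q.1) e) (lsP p n)) (stF p N n) p.xs
      (fun u => wf (cmb (∑ g, b g * zl u.2.1 g) (zf kap (xN q.1 u.1) q.2))) with hHf
  have hHm : ∀ e, Measurable (Hf e) := by
    intro e
    refine measurable_aEp (Z := Haar.Mat (Fin N) × (Fin N → ℝ))
      (P := fun q => pP (G.PP (BU p N n) (H0 q.1) e) (lsP p n))
      (U := fun q u => wf (cmb (∑ g, b g * zl u.2.1 g) (zf kap (xN q.1 u.1) q.2)))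
      (stF p N n) p.xs (fun a => ?_) (fun a => ?_)
    · exact ((G.meas_PP _ hH0 e a.1).comp measurable_fst).mul_const _
    · exact measurable_field (Y := fun l : LS p n => ∑ g, b g * zl l.1 g)
        (fun ω i => measurable_xN ω i) hwm a
  have hHb : ∀ e q, |Hf e q| ≤ Kt + 1 := by
    intro e q
    have hPP := pP_isProb (G.PP_isProb (BU p N n) (H0 q.1) e) (lsP_isProb (p := p) (n := n))
    show |aE _ _ _ _| ≤ _
    unfold aE
    refine (eE_abs_le hPP _).trans (eE_le_of_le hPP fun u => ?_)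
    exact A_abs_le hPP p.xs_expo.pos (fun q => hwc _) 0 u
  have hcs : Measurable fun G : Fin (N + 1) → ℝ => fun i : Fin N => G i.castSucc := by fun_prop
  have e1 : cavF mu n H0 eig (m1 w val) b bb cs Kt = ∫ q : Haar.Mat (Fin N) × (Fin (N + 1) → ℝ),
      ∑ e, dw p N e * Hf e (q.1, fun i => q.2 i.castSucc) ∂(mu.prod (gam (Fin (N + 1)))) := by
    unfold cavF Ed
    congr 1
    funext q
    refine Finset.sum_congr rfl fun e _ => ?_
    congr 1
    have e2 : cavW eig (m1 w val) b bb cs Kt q = fun u : OU p N n × LS p n =>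
        wf (cmb (∑ g, b g * zl u.2.1 g) (zf kap (xN q.1 u.1) (fun i => q.2 i.castSucc))) :=
      funext fun u => cavW_eq w val h1 h2 b bb cs Kt q u
    rw [e2]
    rfl
  have hint : Integrable (fun q : Haar.Mat (Fin N) × (Fin (N + 1) → ℝ) =>
      ∑ e, dw p N e * Hf e (q.1, fun i => q.2 i.castSucc)) (mu.prod (gam (Fin (N + 1)))) := by
    refine integrable_finsetSum _ fun e _ => Integrable.const_mul ?_ _
    refine Integrable.of_bound (C := Kt + 1) ((hHm e).comp (measurable_fst.prodMk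
      (hcs.comp measurable_snd))).aestronglyMeasurable (ae_of_all _ fun q => ?_)
    rw [Real.norm_eq_abs]
    exact hHb e _
  rw [e1, integral_prod _ hint]
  congr 1
  funext V
  have hiG : ∀ e, Integrable (fun G : Fin (N + 1) → ℝ => Hf e (V, fun i => G i.castSucc))
      (gam (Fin (N + 1))) := fun e =>
    Integrable.of_bound (C := Kt + 1) ((hHm e).comp (measurable_const.prodMk
      hcs)).aestronglyMeasurable (ae_of_all _ fun q => by
        rw [Real.norm_eq_abs]; exact hHb e _)
  rw [integral_finsetSum _ fun e _ => (hiG e).const_mul _]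
  refine Finset.sum_congr rfl fun e _ => ?_
  rw [integral_const_mul]
  congr 1
  exact integral_castSucc (F := fun ζ => Hf e (V, ζ))
    ((hHm e).comp (measurable_const.prodMk measurable_id))

/-- the weight of `LG.cavF` -/
theorem WU_zero {K : ℕ} (w val : Fin (K + 1) → ℝ) (b : ℝ) (l : Fin (K + 1))
    (z : Unit ⊕ Fin (K + 1) → ℝ) : WU w val b l 0 z = LLimB.WS w val b l z := by
  unfold WU LLimB.WS
  rw [zero_add]
  congr 1
  funext o
  rcases o with _ | o <;> rfl

/-- **bridge**: `LG.cavF` is `ED.cavF` -/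
theorem lgCavF_eq (X : LG.Glob) (n : ℕ) (Kp : ℝ) (θ : LD.Prm p X.K X.J) (L : Fin N → X.LB) {tr : ℝ}
    (htr : 0 ≤ tr) (k : Fin (X.K + 1)) (b : ℝ) (a : Fin p.nc → ℝ) {eig : Fin (N + 1) → ℝ}
    (h1 : ∀ i : Fin N, eig i.castSucc = X.val (LG.Glob.kap L i))
    (h2 : eig (Fin.last N) = X.val k) :
    LG.cavF X n Kp θ L tr k b a =
      ED.cavF (X.nu N) n (fun V => LG.Hm X n Kp θ L V) eig (m1 X.w X.val) a b 0 tr := by
  have := X.hnu N
  have hm : ∀ s : SY.SS p n (univ : Finset (Fin N → Bool)),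
      Measurable fun V => LG.Hm X n Kp θ L V s := fun s =>
    LD.measurable_HL X.val X.c X.t Kp θ (LG.Glob.kap L) (LG.Glob.lab L) s
  have h := cavF_iter (mu := X.nu N) (H0 := fun V => LG.Hm X n Kp θ L V) X.w X.val htr hm h1 h2
    a b 0
  simp only [WU_zero] at h
  exact h.symm

end

end Crest.Agent.R164.CavG
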