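import Crest.Agent.R164.EDc

/-!
Row 164, L side: DEFINITION of the truncated ideal one-site functional `cavF` (input of the Gaussian
cavity limit GL6, output of E-DIFF GL7).  `q = (V, G)`, `V ~ mu` (Haar law of the `N`-system), `G`
the Gaussian vector of the Householder coupling; the last row has eigenvalue `eig (Fin.last N)`,
the last site has main strengths `b`, linear field `bb`, additive constant `cs`.
-/

set_option autoImplicit false

namespace Crest.Agent.R164.ED

open Finset MeasureTheory Crest.Agent.R141 Crest.Agent.R164 Crest.Agent.R164.PF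
open Crest.Agent.R164.Haar

noncomputable section

variable {p : Par} {N : ℕ}

/-- truncated ideal weight on the step space -/
def cavW {n : ℕ} (eig : Fin (N + 1) → ℝ) (m1 : ℝ) (b : Fin p.nc → ℝ) (bb cs Kt : ℝ)
    (q : Mat (Fin N) × (Fin (N + 1) → ℝ)) (w : OU p N n × LS p n) : ℝ :=
  psi Kt (wid m1 (eig (Fin.last N)) (Z0 q.1 q.2 w.1.1.1.1) (Z1 eig q.1 q.2 w.1.1.1.1)
    (bb + yb b w.2) (fun _ => cs))

/-- the truncated ideal one-site functional -/
def cavF (mu : Measure (Mat (Fin N))) (n : ℕ)
    (H0 : Mat (Fin N) → SY.SS p n (univ : Finset (Fin N → Bool)) → ℝ) (eig : Fin (N + 1) → ℝ)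
    (m1 : ℝ) (b : Fin p.nc → ℝ) (bb cs Kt : ℝ) : ℝ :=
  ∫ q, Ed p N (fun d => aE (stP p N n (H0 q.1) d) (stF p N n) p.xs
    (cavW eig m1 b bb cs Kt q)) ∂(mu.prod (gam (Fin (N + 1))))

end

end Crest.Agent.R164.ED
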