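import Crest.Agent.R141.HierA
import Crest.Agent.R164.CavG1

/-!
Row 164, Gaussian cavity limit, part 2: conditional second moments of Gaussian fields over a finite
filtered probability space.
-/

set_option autoImplicit false

namespace Crest.Agent.R164.CavG

open MeasureTheory ProbabilityTheory Finset Crest.Agent.R141

noncomputable section

section cond

variable {Ω : Type*} [Fintype Ω] {P : Ω → ℝ} {r s : Setoid Ω}

theorem eE_sq_le (hP : IsProb P) [Nonempty Ω] (f : Ω → ℝ) :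
    (eE P f) ^ 2 ≤ eE P (fun a => f a ^ 2) := by
  obtain ⟨ω⟩ := ‹Nonempty Ω›
  have h := cE_sq_le hP ⊤ f ω
  rwa [eE_top hP, eE_top hP] at h

theorem nonempty_of_isProb (hP : IsProb P) : Nonempty Ω := by
  by_contra h
  rw [not_nonempty_iff] at h
  have := hP.sum
  simp at this

/-- expectation over two conditionally independent copies given `r`. -/
def E3 (P : Ω → ℝ) (r : Setoid Ω) (h : Ω → Ω → Ω → ℝ) : ℝ :=
  eE P fun ω => cE P r (fun a => cE P r (fun b => h ω a b) ω) ω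

theorem E3_mono (hP : IsProb P) {h h' : Ω → Ω → Ω → ℝ}
    (H : ∀ ω a b, r ω a → r ω b → h ω a b ≤ h' ω a b) : E3 P r h ≤ E3 P r h' :=
  eE_mono hP fun ω => cE_mono hP ω fun a ha => cE_mono hP ω fun b hb => H ω a b ha hb

theorem E3_congr (hP : IsProb P) {h h' : Ω → Ω → Ω → ℝ}
    (H : ∀ ω a b, r ω a → r ω b → h ω a b = h' ω a b) : E3 P r h = E3 P r h' :=
  le_antisymm (E3_mono hP fun ω a b ha hb => (H ω a b ha hb).le)
    (E3_mono hP fun ω a b ha hb => (H ω a b ha hb).ge)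

theorem E3_add (h h' : Ω → Ω → Ω → ℝ) :
    E3 P r (fun ω a b => h ω a b + h' ω a b) = E3 P r h + E3 P r h' := by
  unfold E3
  simp_rw [cE_add]
  rw [eE_add]

theorem E3_smul (c : ℝ) (h : Ω → Ω → Ω → ℝ) :
    E3 P r (fun ω a b => c * h ω a b) = c * E3 P r h := by
  unfold E3
  simp_rw [cE_smul]
  rw [eE_smul]

theorem E3_const (hP : IsProb P) (c : ℝ) : E3 P r (fun _ _ _ => c) = c := by
  unfold E3
  simp_rw [cE_const hP]
  rw [eE_const hP]

theorem E3_sum {ι : Type*} (t : Finset ι) (h : ι → Ω → Ω → Ω → ℝ) :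
    E3 P r (fun ω a b => ∑ i ∈ t, h i ω a b) = ∑ i ∈ t, E3 P r (h i) := by
  unfold E3
  simp_rw [cE_sum]
  rw [eE_sum]

theorem E3_nonneg (hP : IsProb P) {h : Ω → Ω → Ω → ℝ} (H : ∀ ω a b, 0 ≤ h ω a b) :
    0 ≤ E3 P r h :=
  eE_nonneg hP fun ω => cE_nonneg hP (fun a => cE_nonneg hP (fun b => H ω a b) ω) ω

theorem E3_sq_le (hP : IsProb P) (h : Ω → Ω → Ω → ℝ) :
    (E3 P r h) ^ 2 ≤ E3 P r (fun ω a b => h ω a b ^ 2) := by
  have := nonempty_of_isProb hP
  unfold E3
  refine (eE_sq_le hP _).trans (eE_mono hP fun ω => ?_)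
  refine (cE_sq_le hP r _ ω).trans (cE_mono hP ω fun a _ => ?_)
  exact cE_sq_le hP r _ ω

theorem E3_sqrt_le (hP : IsProb P) {h : Ω → Ω → Ω → ℝ} (H : ∀ ω a b, 0 ≤ h ω a b) :
    E3 P r (fun ω a b => Real.sqrt (h ω a b)) ≤ Real.sqrt (E3 P r h) := by
  apply Real.le_sqrt_of_sq_le
  refine (E3_sq_le hP _).trans (le_of_eq ?_)
  congr 1
  funext ω a b
  exact Real.sq_sqrt (H ω a b)

theorem E3_abs_le (hP : IsProb P) (h : Ω → Ω → Ω → ℝ) :
    E3 P r (fun ω a b => |h ω a b|) ≤ Real.sqrt (E3 P r fun ω a b => h ω a b ^ 2) := by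
  apply Real.le_sqrt_of_sq_le
  refine (E3_sq_le hP _).trans (le_of_eq ?_)
  congr 1
  funext ω a b
  exact sq_abs _

/-- function of the base point only -/
theorem E3_base (hP : IsProb P) (h : Ω → ℝ) : E3 P r (fun ω _ _ => h ω) = eE P h := by
  unfold E3
  simp_rw [cE_const hP]

/-- function of the first copy only -/
theorem E3_fst (hP : IsProb P) (h : Ω → ℝ) : E3 P r (fun _ a _ => h a) = eE P h := by
  unfold E3
  simp_rw [cE_const hP]
  exact eE_cE hP r h

/-- function of the second copy only -/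
theorem E3_snd (hP : IsProb P) (h : Ω → ℝ) : E3 P r (fun _ _ b => h b) = eE P h := by
  unfold E3
  have : ∀ ω, cE P r (fun _ => cE P r (fun b => h b) ω) ω = cE P r h ω := fun ω =>
    cE_const hP r _ ω
  simp_rw [this]
  exact eE_cE hP r h

/-- symmetry of the two copies -/
theorem E3_swap (hP : IsProb P) (h : Ω → Ω → Ω → ℝ) :
    E3 P r (fun ω a b => h ω b a) = E3 P r h := by
  classical
  unfold E3 eE
  refine Finset.sum_congr rfl fun ω _ => ?_
  congr 1
  obtain ⟨t, w, -, -, -, hw⟩ := cE_weights hP r ω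
  simp_rw [hw, Finset.mul_sum]
  rw [Finset.sum_comm]
  refine Finset.sum_congr rfl fun a _ => Finset.sum_congr rfl fun b _ => ?_
  ring

/-- vector-valued conditional expectation. -/
def cEv {κ : Type*} (P : Ω → ℝ) (r : Setoid Ω) (x : Ω → κ → ℝ) (ω : Ω) (i : κ) : ℝ :=
  cE P r (fun a => x a i) ω

theorem cEv_meas {κ : Type*} (x : Ω → κ → ℝ) {ω a : Ω} (h : r ω a) :
    cEv P r x ω = cEv P r x a := by
  funext i
  exact cE_meas P r _ ω a h

theorem cEv_tower {κ : Type*} (hP : IsProb P) (h : s ≤ r) (x : Ω → κ → ℝ) :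
    cEv P r (cEv P s x) = cEv P r x := by
  funext ω i
  exact cE_tower hP h _ ω

theorem integrable_cE {Z : Type*} [MeasurableSpace Z] {μ : Measure Z} {f : Z → Ω → ℝ}
    (hf : ∀ a, Integrable (fun z => f z a) μ) (ω : Ω) : Integrable (fun z => cE P r (f z) ω) μ := by
  unfold cE
  exact (integrable_finsetSum _ fun a _ => (hf a).const_mul _).div_const _

theorem integral_cE {Z : Type*} [MeasurableSpace Z] {μ : Measure Z} {f : Z → Ω → ℝ}
    (hf : ∀ a, Integrable (fun z => f z a) μ) (ω : Ω) :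
    ∫ z, cE P r (f z) ω ∂μ = cE P r (fun a => ∫ z, f z a ∂μ) ω := by
  unfold cE
  rw [integral_div, integral_finsetSum _ fun a _ => (hf a).const_mul _]
  congr 1
  exact Finset.sum_congr rfl fun a _ => integral_const_mul _ _

theorem integrable_eE {Z : Type*} [MeasurableSpace Z] {μ : Measure Z} {f : Z → Ω → ℝ}
    (hf : ∀ a, Integrable (fun z => f z a) μ) : Integrable (fun z => eE P (f z)) μ := by
  unfold eE
  exact integrable_finsetSum _ fun a _ => (hf a).const_mul _

theorem integral_eE {Z : Type*} [MeasurableSpace Z] {μ : Measure Z} {f : Z → Ω → ℝ}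
    (hf : ∀ a, Integrable (fun z => f z a) μ) :
    ∫ z, eE P (f z) ∂μ = eE P (fun a => ∫ z, f z a ∂μ) := by
  unfold eE
  rw [integral_finsetSum _ fun a _ => (hf a).const_mul _]
  exact Finset.sum_congr rfl fun a _ => integral_const_mul _ _

theorem integral_E3 {Z : Type*} [MeasurableSpace Z] {μ : Measure Z} {f : Z → Ω → Ω → Ω → ℝ}
    (hf : ∀ ω a b, Integrable (fun z => f z ω a b) μ) :
    ∫ z, E3 P r (f z) ∂μ = E3 P r (fun ω a b => ∫ z, f z ω a b ∂μ) := by
  unfold E3
  rw [integral_eE fun ω => integrable_cE (fun a => integrable_cE (fun b => hf ω a b) ω) ω]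
  congr 1
  funext ω
  rw [integral_cE fun a => integrable_cE (fun b => hf ω a b) ω]
  congr 1
  funext a
  rw [integral_cE fun b => hf ω a b]

/-- the square of a conditional expectation as a double conditional expectation. -/
theorem eE_sq_cE (hP : IsProb P) (f c : Ω → ℝ) :
    eE P (fun ω => (cE P r f ω - c ω) ^ 2) = E3 P r (fun ω a b => (f a - c ω) * (f b - c ω)) := by
  unfold E3
  congr 1
  funext ω
  have h1 : cE P r f ω - c ω = cE P r (fun a => f a - c ω) ω := by
    rw [cE_sub, cE_const hP]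
  rw [h1, sq]
  have h2 : ∀ a, cE P r (fun b => (f a - c ω) * (f b - c ω)) ω =
      (f a - c ω) * cE P r (fun b => f b - c ω) ω := fun a => cE_smul _ _ _ _ _
  simp_rw [h2]
  have h3 : cE P r (fun a => (f a - c ω) * cE P r (fun b => f b - c ω) ω) ω =
      cE P r (fun b => f b - c ω) ω * cE P r (fun a => f a - c ω) ω := by
    rw [← cE_smul]
    congr 1
    funext a
    ring
  rw [h3]

end cond

section fields

variable {κ β : Type*} [Fintype κ] [Fintype β] [DecidableEq β]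

/-- block field of a vector. -/
def zf (kap : κ → β) (x ζ : κ → ℝ) (k : β) : ℝ := ∑ i, (if kap i = k then x i else 0) * ζ i

/-- block inner product. -/
def ip (kap : κ → β) (k : β) (x y : κ → ℝ) : ℝ := ∑ i, if kap i = k then x i * y i else 0

omit [Fintype β] in
theorem zf_add (kap : κ → β) (x y ζ : κ → ℝ) (k : β) :
    zf kap (fun i => x i + y i) ζ k = zf kap x ζ k + zf kap y ζ k := by
  unfold zf
  rw [← Finset.sum_add_distrib]
  refine Finset.sum_congr rfl fun i _ => ?_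
  split_ifs <;> ring

omit [Fintype β] in
theorem sum_block (kap : κ → β) (k l : β) (x y : κ → ℝ) :
    ∑ i, (if kap i = k then x i else 0) * (if kap i = l then y i else 0) =
      if k = l then ip kap k x y else 0 := by
  by_cases h : k = l
  · subst h
    rw [if_pos rfl]
    unfold ip
    refine Finset.sum_congr rfl fun i _ => ?_
    split_ifs <;> simp
  · rw [if_neg h]
    refine Finset.sum_eq_zero fun i _ => ?_
    by_cases h1 : kap i = k
    · rw [if_pos h1, if_neg (fun h2 => h (h1.symm.trans h2)), mul_zero]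
    · rw [if_neg h1, zero_mul]

omit [Fintype β] in
theorem ip_comm (kap : κ → β) (k : β) (x y : κ → ℝ) : ip kap k x y = ip kap k y x := by
  unfold ip
  refine Finset.sum_congr rfl fun i _ => ?_
  split_ifs
  · ring
  · rfl

omit [Fintype β] in
theorem ip_self_nonneg (kap : κ → β) (k : β) (x : κ → ℝ) : 0 ≤ ip kap k x x := by
  unfold ip
  refine Finset.sum_nonneg fun i _ => ?_
  split_ifs
  · exact mul_self_nonneg _
  · exact le_rfl

/-- the three families of vectors. -/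
def uu (kap : κ → β) (v0 v1 v2 : κ → ℝ) : β ⊕ (β ⊕ β) → κ → ℝ :=
  Sum.elim (fun k i => if kap i = k then v0 i else 0)
    (Sum.elim (fun k i => if kap i = k then v1 i else 0)
      (fun k i => if kap i = k then v2 i else 0))

/-- deviation of the Gram matrices from the ideal one. -/
def gdev (kap : κ → β) (Qb v : β → ℝ) (v0 v1 v2 : κ → ℝ) : ℝ :=
  ∑ k, (|ip kap k v0 v0 - Qb k| + |ip kap k v0 v1| + |ip kap k v0 v2| + |ip kap k v1 v1 - v k| +
    |ip kap k v2 v2 - v k| + |ip kap k v1 v2|)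

theorem gdev_nonneg (kap : κ → β) (Qb v : β → ℝ) (v0 v1 v2 : κ → ℝ) :
    0 ≤ gdev kap Qb v v0 v1 v2 := by
  unfold gdev
  positivity

theorem gram_le (kap : κ → β) (Qb v : β → ℝ) (v0 v1 v2 : κ → ℝ) (a b : β ⊕ (β ⊕ β)) :
    |∑ i, uu kap v0 v1 v2 a i * uu kap v0 v1 v2 b i -
      (if a = b then Sum.elim Qb (Sum.elim v v) a else 0)| ≤ gdev kap Qb v v0 v1 v2 := by
  have h0 := gdev_nonneg kap Qb v v0 v1 v2
  have hk : ∀ k : β, |ip kap k v0 v0 - Qb k| + |ip kap k v0 v1| + |ip kap k v0 v2| +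
      |ip kap k v1 v1 - v k| + |ip kap k v2 v2 - v k| + |ip kap k v1 v2| ≤
        gdev kap Qb v v0 v1 v2 := by
    intro k
    unfold gdev
    exact Finset.single_le_sum (f := fun k => |ip kap k v0 v0 - Qb k| + |ip kap k v0 v1| +
      |ip kap k v0 v2| + |ip kap k v1 v1 - v k| + |ip kap k v2 v2 - v k| + |ip kap k v1 v2|)
      (fun _ _ => by positivity) (Finset.mem_univ k)
  have key : ∀ (k l : β) (x y : κ → ℝ) (c : ℝ), (k = l → |ip kap k x y - c| ≤
      gdev kap Qb v v0 v1 v2) →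
      |(if k = l then ip kap k x y else 0) - (if k = l then c else 0)| ≤
        gdev kap Qb v v0 v1 v2 := by
    intro k l x y c h
    by_cases hkl : k = l
    · rw [if_pos hkl, if_pos hkl]; exact h hkl
    · rw [if_neg hkl, if_neg hkl, sub_zero, abs_zero]; exact h0
  have key0 : ∀ (k l : β) (x y : κ → ℝ), (k = l → |ip kap k x y| ≤
      gdev kap Qb v v0 v1 v2) →
      |(if k = l then ip kap k x y else 0) - 0| ≤ gdev kap Qb v v0 v1 v2 := by
    intro k l x y h
    by_cases hkl : k = l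
    · rw [if_pos hkl, sub_zero]; exact h hkl
    · rw [if_neg hkl, sub_zero, abs_zero]; exact h0
  have a1 : ∀ k, 0 ≤ |ip kap k v0 v0 - Qb k| := fun k => abs_nonneg _
  have a2 : ∀ k, 0 ≤ |ip kap k v0 v1| := fun k => abs_nonneg _
  have a3 : ∀ k, 0 ≤ |ip kap k v0 v2| := fun k => abs_nonneg _
  have a4 : ∀ k, 0 ≤ |ip kap k v1 v1 - v k| := fun k => abs_nonneg _
  have a5 : ∀ k, 0 ≤ |ip kap k v2 v2 - v k| := fun k => abs_nonneg _
  have a6 : ∀ k, 0 ≤ |ip kap k v1 v2| := fun k => abs_nonneg _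
  rcases a with k | k | k <;> rcases b with l | l | l <;>
    simp only [uu, Sum.elim_inl, Sum.elim_inr, sum_block, Sum.inl.injEq, Sum.inr.injEq,
      reduceCtorEq, if_false]
  · exact key k l _ _ _ fun _ => by linarith [hk k, a1 k, a2 k, a3 k, a4 k, a5 k, a6 k]
  · exact key0 k l _ _ fun _ => by linarith [hk k, a1 k, a2 k, a3 k, a4 k, a5 k, a6 k]
  · exact key0 k l _ _ fun _ => by linarith [hk k, a1 k, a2 k, a3 k, a4 k, a5 k, a6 k]
  · exact key0 k l _ _ fun _ => by
      rw [ip_comm]; linarith [hk k, a1 k, a2 k, a3 k, a4 k, a5 k, a6 k]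
  · exact key k l _ _ _ fun _ => by linarith [hk k, a1 k, a2 k, a3 k, a4 k, a5 k, a6 k]
  · exact key0 k l _ _ fun _ => by linarith [hk k, a1 k, a2 k, a3 k, a4 k, a5 k, a6 k]
  · exact key0 k l _ _ fun _ => by
      rw [ip_comm]; linarith [hk k, a1 k, a2 k, a3 k, a4 k, a5 k, a6 k]
  · exact key0 k l _ _ fun _ => by
      rw [ip_comm]; linarith [hk k, a1 k, a2 k, a3 k, a4 k, a5 k, a6 k]
  · exact key k l _ _ _ fun _ => by linarith [hk k, a1 k, a2 k, a3 k, a4 k, a5 k, a6 k]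

/-- the test function. -/
def FF (φ ψ : (β → ℝ) → ℝ) (y : β ⊕ (β ⊕ β) → ℝ) : ℝ :=
  (φ (fun k => y (.inl k) + y (.inr (.inl k))) - ψ (fun k => y (.inl k))) *
    (φ (fun k => y (.inl k) + y (.inr (.inr k))) - ψ (fun k => y (.inl k)))

omit [DecidableEq β] in
theorem FF_lip {b L : ℝ} (hL : 0 ≤ L) (hb : 0 ≤ b) {φ ψ : (β → ℝ) → ℝ} (hφ : Lip L φ)
    (hψ : Lip L ψ) (hφb : ∀ y, |φ y| ≤ b) (hψb : ∀ y, |ψ y| ≤ b) : Lip (8 * b * L) (FF φ ψ) := by
  intro y y'
  set S0 := ∑ k, |y (.inl k) - y' (.inl k)| with hS0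
  set S1 := ∑ k, |y (.inr (.inl k)) - y' (.inr (.inl k))| with hS1
  set S2 := ∑ k, |y (.inr (.inr k)) - y' (.inr (.inr k))| with hS2
  have n0 : 0 ≤ S0 := Finset.sum_nonneg fun _ _ => abs_nonneg _
  have n1 : 0 ≤ S1 := Finset.sum_nonneg fun _ _ => abs_nonneg _
  have n2 : 0 ≤ S2 := Finset.sum_nonneg fun _ _ => abs_nonneg _
  have hS : ∑ a, |y a - y' a| = S0 + (S1 + S2) := by
    rw [Fintype.sum_sum_type, Fintype.sum_sum_type]
  have h1 : |φ (fun k => y (.inl k) + y (.inr (.inl k))) -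
      φ (fun k => y' (.inl k) + y' (.inr (.inl k)))| ≤ L * (S0 + S1) := by
    refine (hφ _ _).trans (mul_le_mul_of_nonneg_left ?_ hL)
    rw [hS0, hS1, ← Finset.sum_add_distrib]
    refine Finset.sum_le_sum fun k _ => ?_
    have : y (.inl k) + y (.inr (.inl k)) - (y' (.inl k) + y' (.inr (.inl k))) =
      (y (.inl k) - y' (.inl k)) + (y (.inr (.inl k)) - y' (.inr (.inl k))) := by ring
    rw [this]
    exact abs_add_le _ _
  have h2 : |φ (fun k => y (.inl k) + y (.inr (.inr k))) -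
      φ (fun k => y' (.inl k) + y' (.inr (.inr k)))| ≤ L * (S0 + S2) := by
    refine (hφ _ _).trans (mul_le_mul_of_nonneg_left ?_ hL)
    rw [hS0, hS2, ← Finset.sum_add_distrib]
    refine Finset.sum_le_sum fun k _ => ?_
    have : y (.inl k) + y (.inr (.inr k)) - (y' (.inl k) + y' (.inr (.inr k))) =
      (y (.inl k) - y' (.inl k)) + (y (.inr (.inr k)) - y' (.inr (.inr k))) := by ring
    rw [this]
    exact abs_add_le _ _
  have h3 : |ψ (fun k => y (.inl k)) - ψ (fun k => y' (.inl k))| ≤ L * S0 := hψ _ _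
  unfold FF
  set A := φ (fun k => y (.inl k) + y (.inr (.inl k)))
  set A' := φ (fun k => y' (.inl k) + y' (.inr (.inl k)))
  set B := φ (fun k => y (.inl k) + y (.inr (.inr k)))
  set B' := φ (fun k => y' (.inl k) + y' (.inr (.inr k)))
  set D := ψ (fun k => y (.inl k))
  set D' := ψ (fun k => y' (.inl k))
  have bA : |A - D| ≤ 2 * b := by
    have := abs_sub A D
    linarith [hφb (fun k => y (.inl k) + y (.inr (.inl k))), hψb (fun k => y (.inl k))]
  have bB : |B' - D'| ≤ 2 * b := by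
    have := abs_sub B' D'
    linarith [hφb (fun k => y' (.inl k) + y' (.inr (.inr k))), hψb (fun k => y' (.inl k))]
  have e1 : (A - D) * (B - D) - (A' - D') * (B' - D') =
      (A - D) * ((B - B') - (D - D')) + ((A - A') - (D - D')) * (B' - D') := by ring
  rw [e1]
  have e2 : |(B - B') - (D - D')| ≤ L * (S0 + S2) + L * S0 :=
    (abs_sub _ _).trans (add_le_add h2 h3)
  have e3 : |(A - A') - (D - D')| ≤ L * (S0 + S1) + L * S0 :=
    (abs_sub _ _).trans (add_le_add h1 h3)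
  refine (abs_add_le _ _).trans ?_
  rw [abs_mul, abs_mul, hS]
  have e4 : |A - D| * |(B - B') - (D - D')| ≤ 2 * b * (L * (S0 + S2) + L * S0) :=
    mul_le_mul bA e2 (abs_nonneg _) (by positivity)
  have e5 : |(A - A') - (D - D')| * |B' - D'| ≤ (L * (S0 + S1) + L * S0) * (2 * b) :=
    mul_le_mul e3 bB (abs_nonneg _) (by positivity)
  have p0 : 0 ≤ b * L * S1 := by positivity
  have p1 : 0 ≤ b * L * S2 := by positivity
  have p2 : 0 ≤ b * L * S0 := by positivity
  nlinarith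

/-- Gaussian smoothing with variances `v`. -/
def sm (v : β → ℝ) (φ : (β → ℝ) → ℝ) (z : β → ℝ) : ℝ :=
  ∫ g, φ (fun k => z k + Real.sqrt (v k) * g k) ∂(gm β)

omit [DecidableEq β] in
theorem integrable_shift (v : β → ℝ) {L : ℝ} {φ : (β → ℝ) → ℝ} (h : Lip L φ) (z : β → ℝ) :
    Integrable (fun g => φ (fun k => z k + Real.sqrt (v k) * g k)) (gm β) := by
  refine h.integrable (T := fun (g : β → ℝ) k => z k + Real.sqrt (v k) * g k) ?_ fun k => ?_
  · fun_prop
  · refine (integrable_const _).add (Integrable.const_mul ?_ _)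
    exact integrable_eval_gm k (f := fun g : ℝ => g)
      ((memLp_id_gaussianReal (μ := 0) (v := 1) 1).integrable le_rfl)

omit [DecidableEq β] in
theorem sm_lip (v : β → ℝ) {L : ℝ} {φ : (β → ℝ) → ℝ} (h : Lip L φ) : Lip L (sm v φ) := by
  intro z z'
  unfold sm
  rw [← integral_sub (integrable_shift v h z) (integrable_shift v h z')]
  refine abs_integral_le_integral_abs.trans ?_
  have : ∀ g : β → ℝ, |φ (fun k => z k + Real.sqrt (v k) * g k) -
      φ (fun k => z' k + Real.sqrt (v k) * g k)| ≤ L * ∑ a, |z a - z' a| := by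
    intro g
    refine (h _ _).trans (le_of_eq ?_)
    congr 1
    refine Finset.sum_congr rfl fun k _ => ?_
    congr 1
    ring
  calc ∫ g, |φ (fun k => z k + Real.sqrt (v k) * g k) -
      φ (fun k => z' k + Real.sqrt (v k) * g k)| ∂(gm β)
      ≤ ∫ _g, L * ∑ a, |z a - z' a| ∂(gm β) :=
        integral_mono ((integrable_shift v h z).sub (integrable_shift v h z')).abs
          (integrable_const _) this
    _ = L * ∑ a, |z a - z' a| := by simp

omit [DecidableEq β] in
theorem sm_bound (v : β → ℝ) {b : ℝ} {φ : (β → ℝ) → ℝ} (h : ∀ y, |φ y| ≤ b) (z : β → ℝ) :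
    |sm v φ z| ≤ b := by
  unfold sm
  have := norm_integral_le_of_norm_le_const (μ := gm β)
    (f := fun g => φ (fun k => z k + Real.sqrt (v k) * g k)) (C := b)
    (ae_of_all _ fun g => by rw [Real.norm_eq_abs]; exact h _)
  simpa using this

omit [DecidableEq β] in
theorem FF_measurable {L : ℝ} {φ ψ : (β → ℝ) → ℝ} (hφ : Lip L φ) (hψ : Lip L ψ) :
    Measurable (FF φ ψ) := by
  unfold FF
  have h1 := hφ.measurable
  have h2 := hψ.measurable
  refine Measurable.mul (Measurable.sub (h1.comp ?_) (h2.comp ?_))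
    (Measurable.sub (h1.comp ?_) (h2.comp ?_)) <;> fun_prop

omit [DecidableEq β] in
theorem integral_sum_gm {γ : Type*} [Fintype γ] {h : (β ⊕ γ → ℝ) → ℝ}
    (hi : Integrable h (gm (β ⊕ γ))) :
    ∫ y, h y ∂(gm (β ⊕ γ)) = ∫ g0, ∫ g1, h (Sum.elim g0 g1) ∂(gm γ) ∂(gm β) := by
  have mp := measurePreserving_sumPiEquivProdPi_symm (X := fun _ : β ⊕ γ => ℝ)
    (fun _ => gaussianReal 0 1)
  have e1 : ∀ p : (β → ℝ) × (γ → ℝ),
      (MeasurableEquiv.sumPiEquivProdPi (fun _ : β ⊕ γ => ℝ)).symm p = Sum.elim p.1 p.2 := by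
    intro p
    funext a
    rcases a with a | a <;> rfl
  rw [← mp.integral_comp' h]
  simp_rw [e1]
  rw [integral_prod (fun p : (β → ℝ) × (γ → ℝ) => h (Sum.elim p.1 p.2))]
  have h2 := (mp.integrable_comp_emb
    (MeasurableEquiv.sumPiEquivProdPi (fun _ : β ⊕ γ => ℝ)).symm.measurableEmbedding).2 hi
  refine h2.congr (ae_of_all _ fun p => ?_)
  simp only [Function.comp_apply, e1]

omit [Fintype β] [DecidableEq β] in
theorem FF_bound {b : ℝ} {φ ψ : (β → ℝ) → ℝ} (hφb : ∀ y, |φ y| ≤ b) (hψb : ∀ y, |ψ y| ≤ b)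
    (y : β ⊕ (β ⊕ β) → ℝ) : |FF φ ψ y| ≤ 4 * b ^ 2 := by
  unfold FF
  rw [abs_mul]
  have h1 : ∀ z z', |φ z - ψ z'| ≤ 2 * b := fun z z' => by
    have := abs_sub (φ z) (ψ z')
    linarith [hφb z, hψb z']
  have h2 := mul_le_mul (h1 (fun k => y (.inl k) + y (.inr (.inl k))) (fun k => y (.inl k)))
    (h1 (fun k => y (.inl k) + y (.inr (.inr k))) (fun k => y (.inl k))) (abs_nonneg _)
    ((abs_nonneg _).trans (h1 (fun k => y (.inl k)) (fun k => y (.inl k))))
  refine h2.trans (le_of_eq (by ring))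

omit [DecidableEq β] in
/-- the test function integrates to zero in the ideal model. -/
theorem ideal_zero (Qb v : β → ℝ) {L b : ℝ} {φ : (β → ℝ) → ℝ} (hφ : Lip L φ)
    (hφb : ∀ y, |φ y| ≤ b) :
    ∫ g, FF φ (sm v φ) (fun a => Real.sqrt (Sum.elim Qb (Sum.elim v v) a) * g a)
      ∂(gm (β ⊕ (β ⊕ β))) = 0 := by
  have hmF := FF_measurable hφ (sm_lip v hφ)
  have hi : Integrable (fun g : β ⊕ (β ⊕ β) → ℝ =>
      FF φ (sm v φ) (fun a => Real.sqrt (Sum.elim Qb (Sum.elim v v) a) * g a))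
      (gm (β ⊕ (β ⊕ β))) := by
    refine Integrable.of_bound (C := 4 * b ^ 2) (hmF.comp ?_).aestronglyMeasurable
      (ae_of_all _ fun g => ?_)
    · exact measurable_pi_lambda _ fun a => (measurable_pi_apply a).const_mul _
    · rw [Real.norm_eq_abs]; exact FF_bound hφb (sm_bound v hφb) _
  rw [integral_sum_gm hi]
  have hz : ∀ g0 : β → ℝ, ∫ g1 : β ⊕ β → ℝ, FF φ (sm v φ) (fun a =>
      Real.sqrt (Sum.elim Qb (Sum.elim v v) a) * (Sum.elim g0 g1 : β ⊕ (β ⊕ β) → ℝ) a)
      ∂(gm (β ⊕ β)) = 0 := by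
    intro g0
    set z : β → ℝ := fun k => Real.sqrt (Qb k) * g0 k with hz
    have e1 : ∀ g1 : β ⊕ β → ℝ, FF φ (sm v φ) (fun a =>
        Real.sqrt (Sum.elim Qb (Sum.elim v v) a) * (Sum.elim g0 g1 : β ⊕ (β ⊕ β) → ℝ) a) =
        (φ (fun k => z k + Real.sqrt (v k) * g1 (.inl k)) - sm v φ z) *
          (φ (fun k => z k + Real.sqrt (v k) * g1 (.inr k)) - sm v φ z) := fun g1 => rfl
    simp_rw [e1]
    have hi1 : Integrable (fun g1 : β ⊕ β → ℝ =>
        (φ (fun k => z k + Real.sqrt (v k) * g1 (.inl k)) - sm v φ z) *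
          (φ (fun k => z k + Real.sqrt (v k) * g1 (.inr k)) - sm v φ z)) (gm (β ⊕ β)) := by
      have hm := hφ.measurable
      refine Integrable.of_bound (C := 4 * b ^ 2) ?_ (ae_of_all _ fun g => ?_)
      · refine Measurable.aestronglyMeasurable (Measurable.mul (Measurable.sub (hm.comp ?_)
          measurable_const) (Measurable.sub (hm.comp ?_) measurable_const)) <;> fun_prop
      · rw [Real.norm_eq_abs, ← e1]; exact FF_bound hφb (sm_bound v hφb) _
    rw [integral_sum_gm hi1]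
    have e2 : ∀ g1 : β → ℝ, ∫ g2 : β → ℝ,
        (φ (fun k => z k + Real.sqrt (v k) * (Sum.elim g1 g2 : β ⊕ β → ℝ) (.inl k)) - sm v φ z) *
          (φ (fun k => z k + Real.sqrt (v k) * (Sum.elim g1 g2 : β ⊕ β → ℝ) (.inr k)) - sm v φ z)
          ∂(gm β) = 0 := by
      intro g1
      simp only [Sum.elim_inl, Sum.elim_inr]
      rw [integral_const_mul, integral_sub (integrable_shift v hφ z) (integrable_const _)]
      have : ∫ g2, φ (fun k => z k + Real.sqrt (v k) * g2 k) ∂(gm β) = sm v φ z := rfl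
      rw [this]
      simp
    simp_rw [e2]
    simp
  simp_rw [hz]
  simp

/-- Gaussian test of the three vectors. -/
theorem test_le (kap : κ → β) {Qb v : β → ℝ} (hQb : ∀ k, 0 ≤ Qb k) (hv : ∀ k, 0 ≤ v k)
    {L b : ℝ} (hL : 0 ≤ L) (hb : 0 ≤ b) {φ : (β → ℝ) → ℝ} (hφ : Lip L φ)
    (hφb : ∀ y, |φ y| ≤ b) (v0 v1 v2 : κ → ℝ) :
    |∫ ζ, FF φ (sm v φ) (lin (uu kap v0 v1 v2) ζ) ∂(gm κ)| ≤
      16 * b * L * (Fintype.card (β ⊕ (β ⊕ β))) *
        Real.sqrt ((Fintype.card (β ⊕ (β ⊕ β)) + 1) * gdev kap Qb v v0 v1 v2) := by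
  have h := gauss_compare (uu kap v0 v1 v2) (Sum.elim Qb (Sum.elim v v))
    (by
      intro a
      rcases a with k | k | k
      · exact hQb k
      · exact hv k
      · exact hv k) (gdev_nonneg kap Qb v v0 v1 v2) (gram_le kap Qb v v0 v1 v2)
    (L := 8 * b * L) (by positivity) (FF_lip hL hb hφ (sm_lip v hφ) hφb (sm_bound v hφb))
  rw [ideal_zero Qb v hφ hφb, sub_zero] at h
  refine h.trans (le_of_eq (by ring))

end fields

section second

variable {Ω κ β : Type*} [Fintype Ω] [Fintype κ] [Fintype β] [DecidableEq β] {P : Ω → ℝ}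
  {r s : Setoid Ω}

/-- centred vector. -/
def dv (P : Ω → ℝ) (r : Setoid Ω) (x : Ω → κ → ℝ) (ω a : Ω) (i : κ) : ℝ := x a i - cEv P r x ω i

/-- conditional covariances. -/
def cvr (P : Ω → ℝ) (r : Setoid Ω) (x : Ω → κ → ℝ) (i j : κ) (ω : Ω) : ℝ :=
  cE P r (fun a => dv P r x ω a i * dv P r x ω a j) ω

/-- total squared conditional covariance. -/
def pur (P : Ω → ℝ) (r : Setoid Ω) (x : Ω → κ → ℝ) : ℝ :=
  eE P (fun ω => ∑ i, ∑ j, cvr P r x i j ω ^ 2)

theorem pur_nonneg (hP : IsProb P) (x : Ω → κ → ℝ) : 0 ≤ pur P r x :=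
  eE_nonneg hP fun _ => Finset.sum_nonneg fun _ _ => Finset.sum_nonneg fun _ _ => sq_nonneg _

/-- the weighted inner product of two independent centred copies -/
theorem cE2_sq (x : Ω → κ → ℝ) (c : κ → ℝ) (ω : Ω) :
    cE P r (fun a => cE P r (fun b =>
      (∑ i, c i * (dv P r x ω a i * dv P r x ω b i)) ^ 2) ω) ω =
        ∑ i, ∑ j, c i * c j * cvr P r x i j ω ^ 2 := by
  have h1 : ∀ a b, (∑ i, c i * (dv P r x ω a i * dv P r x ω b i)) ^ 2 =
      ∑ i, ∑ j, (c i * c j * (dv P r x ω a i * dv P r x ω a j)) *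
        (dv P r x ω b i * dv P r x ω b j) := by
    intro a b
    rw [sq, Finset.sum_mul_sum]
    exact Finset.sum_congr rfl fun i _ => Finset.sum_congr rfl fun j _ => by ring
  simp_rw [h1, cE_sum, cE_smul]
  refine Finset.sum_congr rfl fun i _ => Finset.sum_congr rfl fun j _ => ?_
  have h2 : ∀ a, c i * c j * (dv P r x ω a i * dv P r x ω a j) *
      cE P r (fun b => dv P r x ω b i * dv P r x ω b j) ω =
      (c i * c j * cvr P r x i j ω) * (dv P r x ω a i * dv P r x ω a j) := by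
    intro a
    unfold cvr
    ring
  simp_rw [h2]
  rw [cE_smul]
  unfold cvr
  ring

omit [Fintype β] in
theorem E3_ip_dv (hP : IsProb P) (kap : κ → β) (k : β) (x : Ω → κ → ℝ) :
    E3 P r (fun ω a b => (ip kap k (dv P r x ω a) (dv P r x ω b)) ^ 2) ≤ pur P r x := by
  unfold E3 pur
  refine eE_mono hP fun ω => ?_
  set c : κ → ℝ := fun i => if kap i = k then 1 else 0 with hc
  have h1 : ∀ a b, ip kap k (dv P r x ω a) (dv P r x ω b) =
      ∑ i, c i * (dv P r x ω a i * dv P r x ω b i) := by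
    intro a b
    unfold ip
    refine Finset.sum_congr rfl fun i _ => ?_
    simp only [hc]
    split_ifs <;> ring
  simp_rw [h1]
  rw [cE2_sq x c ω]
  refine Finset.sum_le_sum fun i _ => Finset.sum_le_sum fun j _ => ?_
  have h2 : c i * c j ≤ 1 := by
    simp only [hc]
    split_ifs <;> norm_num
  nlinarith [sq_nonneg (cvr P r x i j ω)]

theorem quad_le (w : κ → ℝ) (M : κ → κ → ℝ) :
    ∑ i, ∑ j, w i * w j * M i j ≤ (∑ i, w i ^ 2) * Real.sqrt (∑ i, ∑ j, M i j ^ 2) := by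
  have h := Finset.sum_mul_sq_le_sq_mul_sq (Finset.univ : Finset (κ × κ))
    (fun p => w p.1 * w p.2) (fun p => M p.1 p.2)
  rw [Fintype.sum_prod_type, Fintype.sum_prod_type, Fintype.sum_prod_type] at h
  have h1 : ∑ i, ∑ j, (w i * w j) ^ 2 = (∑ i, w i ^ 2) ^ 2 := by
    rw [sq (∑ i, w i ^ 2), Finset.sum_mul_sum]
    exact Finset.sum_congr rfl fun i _ => Finset.sum_congr rfl fun j _ => by ring
  simp only at h
  rw [h1] at h
  have h0 : 0 ≤ ∑ i, w i ^ 2 := Finset.sum_nonneg fun _ _ => sq_nonneg _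
  have h2 := Real.abs_le_sqrt h
  rw [Real.sqrt_mul (sq_nonneg _), Real.sqrt_sq h0] at h2
  exact (le_abs_self _).trans h2

omit [Fintype β] in
theorem E3_ip_mean (hP : IsProb P) (kap : κ → β) (k : β) (x : Ω → κ → ℝ) {C : ℝ}
    (hC : ∀ ω, ∑ i, cEv P r x ω i ^ 2 ≤ C) :
    E3 P r (fun ω a _ => (ip kap k (cEv P r x ω) (dv P r x ω a)) ^ 2) ≤
      C * Real.sqrt (pur P r x) := by
  have hne := nonempty_of_isProb hP
  have hC0 : 0 ≤ C := by
    obtain ⟨ω⟩ := hne
    exact (Finset.sum_nonneg fun _ _ => sq_nonneg _).trans (hC ω)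
  have h1 : ∀ ω, cE P r (fun a => cE P r (fun _ =>
      (ip kap k (cEv P r x ω) (dv P r x ω a)) ^ 2) ω) ω ≤
        C * Real.sqrt (∑ i, ∑ j, cvr P r x i j ω ^ 2) := by
    intro ω
    set w : κ → ℝ := fun i => if kap i = k then cEv P r x ω i else 0 with hw
    have e1 : ∀ a, (ip kap k (cEv P r x ω) (dv P r x ω a)) ^ 2 =
        ∑ i, ∑ j, w i * w j * (dv P r x ω a i * dv P r x ω a j) := by
      intro a
      have : ip kap k (cEv P r x ω) (dv P r x ω a) = ∑ i, w i * dv P r x ω a i := by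
        unfold ip
        refine Finset.sum_congr rfl fun i _ => ?_
        simp only [hw]
        split_ifs <;> ring
      rw [this, sq, Finset.sum_mul_sum]
      exact Finset.sum_congr rfl fun i _ => Finset.sum_congr rfl fun j _ => by ring
    simp_rw [cE_const hP, e1, cE_sum, cE_smul]
    refine (quad_le w fun i j => cvr P r x i j ω).trans ?_
    refine mul_le_mul_of_nonneg_right ((Finset.sum_le_sum fun i _ => ?_).trans (hC ω))
      (Real.sqrt_nonneg _)
    simp only [hw]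
    split_ifs
    · exact le_rfl
    · simpa using sq_nonneg (cEv P r x ω i)
  refine (eE_mono hP h1).trans ?_
  rw [eE_smul]
  refine mul_le_mul_of_nonneg_left ?_ hC0
  apply Real.le_sqrt_of_sq_le
  refine (eE_sq_le hP _).trans (le_of_eq ?_)
  unfold pur
  congr 1
  funext ω
  exact Real.sq_sqrt (Finset.sum_nonneg fun _ _ => Finset.sum_nonneg fun _ _ => sq_nonneg _)

omit [Fintype β] in
theorem ip_decomp (kap : κ → β) (k : β) (x : Ω → κ → ℝ) (ω a : Ω) :
    ip kap k (x a) (x a) = ip kap k (cEv P r x ω) (cEv P r x ω) +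
      2 * ip kap k (cEv P r x ω) (dv P r x ω a) + ip kap k (dv P r x ω a) (dv P r x ω a) := by
  unfold ip
  rw [Finset.mul_sum, ← Finset.sum_add_distrib, ← Finset.sum_add_distrib]
  refine Finset.sum_congr rfl fun i _ => ?_
  split_ifs
  · unfold dv; ring
  · ring

/-- the mean deviation of the Gram matrices. -/
theorem E3_gdev_le (hP : IsProb P) (kap : κ → β) (x : Ω → κ → ℝ) {C : ℝ}
    (hC : ∀ ω, ∑ i, cEv P r x ω i ^ 2 ≤ C) (Q Qb : β → ℝ) :
    E3 P r (fun ω a b => gdev kap Qb (fun k => Q k - Qb k) (cEv P r x ω) (dv P r x ω a)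
      (dv P r x ω b)) ≤
      3 * ∑ k, eE P (fun ω => |ip kap k (cEv P r x ω) (cEv P r x ω) - Qb k|) +
      2 * ∑ k, eE P (fun ω => |ip kap k (x ω) (x ω) - Q k|) +
      (Fintype.card β) * (6 * Real.sqrt (C * Real.sqrt (pur P r x)) + Real.sqrt (pur P r x)) := by
  unfold gdev
  rw [E3_sum]
  have hk : ∀ k, E3 P r (fun ω a b =>
      |ip kap k (cEv P r x ω) (cEv P r x ω) - Qb k| + |ip kap k (cEv P r x ω) (dv P r x ω a)| +
        |ip kap k (cEv P r x ω) (dv P r x ω b)| +
        |ip kap k (dv P r x ω a) (dv P r x ω a) - (Q k - Qb k)| +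
        |ip kap k (dv P r x ω b) (dv P r x ω b) - (Q k - Qb k)| +
        |ip kap k (dv P r x ω a) (dv P r x ω b)|) ≤
      3 * eE P (fun ω => |ip kap k (cEv P r x ω) (cEv P r x ω) - Qb k|) +
      2 * eE P (fun ω => |ip kap k (x ω) (x ω) - Q k|) +
      (6 * Real.sqrt (C * Real.sqrt (pur P r x)) + Real.sqrt (pur P r x)) := by
    intro k
    have hmono : E3 P r (fun ω a b =>
      |ip kap k (cEv P r x ω) (cEv P r x ω) - Qb k| + |ip kap k (cEv P r x ω) (dv P r x ω a)| +
        |ip kap k (cEv P r x ω) (dv P r x ω b)| +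
        |ip kap k (dv P r x ω a) (dv P r x ω a) - (Q k - Qb k)| +
        |ip kap k (dv P r x ω b) (dv P r x ω b) - (Q k - Qb k)| +
        |ip kap k (dv P r x ω a) (dv P r x ω b)|) ≤ E3 P r (fun ω a b =>
          3 * |ip kap k (cEv P r x ω) (cEv P r x ω) - Qb k| +
          (|ip kap k (x a) (x a) - Q k| + (|ip kap k (x b) (x b) - Q k| +
          (3 * |ip kap k (cEv P r x ω) (dv P r x ω a)| +
          (3 * |ip kap k (cEv P r x ω) (dv P r x ω b)| +
          |ip kap k (dv P r x ω a) (dv P r x ω b)|))))) := by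
      refine E3_mono hP fun ω a b _ _ => ?_
      have key : ∀ c, |ip kap k (dv P r x ω c) (dv P r x ω c) - (Q k - Qb k)| ≤
          |ip kap k (x c) (x c) - Q k| + 2 * |ip kap k (cEv P r x ω) (dv P r x ω c)| +
            |ip kap k (cEv P r x ω) (cEv P r x ω) - Qb k| := by
        intro c
        have hd := ip_decomp (P := P) (r := r) kap k x ω c
        have e : ip kap k (dv P r x ω c) (dv P r x ω c) - (Q k - Qb k) =
            (ip kap k (x c) (x c) - Q k) - 2 * ip kap k (cEv P r x ω) (dv P r x ω c) -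
            (ip kap k (cEv P r x ω) (cEv P r x ω) - Qb k) := by rw [hd]; ring
        rw [e]
        refine (abs_sub _ _).trans (add_le_add ((abs_sub _ _).trans ?_) le_rfl)
        rw [abs_mul, abs_of_pos (by norm_num : (0 : ℝ) < 2)]
      have h1 := key a
      have h2 := key b
      linarith
    refine hmono.trans ?_
    rw [E3_add, E3_add, E3_add, E3_add, E3_add, E3_smul, E3_smul, E3_smul,
      E3_base hP (fun ω => |ip kap k (cEv P r x ω) (cEv P r x ω) - Qb k|),
      E3_fst hP (fun a => |ip kap k (x a) (x a) - Q k|),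
      E3_snd hP (fun b => |ip kap k (x b) (x b) - Q k|)]
    have h1 : E3 P r (fun ω a _ => |ip kap k (cEv P r x ω) (dv P r x ω a)|) ≤
        Real.sqrt (C * Real.sqrt (pur P r x)) :=
      (E3_abs_le hP _).trans (Real.sqrt_le_sqrt (E3_ip_mean hP kap k x hC))
    have h2 : E3 P r (fun ω _ b => |ip kap k (cEv P r x ω) (dv P r x ω b)|) ≤
        Real.sqrt (C * Real.sqrt (pur P r x)) := by
      rw [← E3_swap hP] at h1
      exact h1
    have h3 : E3 P r (fun ω a b => |ip kap k (dv P r x ω a) (dv P r x ω b)|) ≤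
        Real.sqrt (pur P r x) :=
      (E3_abs_le hP _).trans (Real.sqrt_le_sqrt (E3_ip_dv hP kap k x))
    linarith
  refine (Finset.sum_le_sum fun k _ => hk k).trans (le_of_eq ?_)
  rw [Finset.sum_add_distrib, Finset.sum_add_distrib, ← Finset.mul_sum, ← Finset.mul_sum,
    Finset.sum_const, Finset.card_univ, nsmul_eq_mul]

/-- **Second moment lemma.** -/
theorem second_moment (hP : IsProb P) (kap : κ → β) (x : Ω → κ → ℝ) {Q Qb : β → ℝ}
    (hQb : ∀ k, 0 ≤ Qb k) (hQ : ∀ k, Qb k ≤ Q k) {L b : ℝ} (hL : 0 ≤ L) (hb : 0 ≤ b)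
    {φ : (β → ℝ) → ℝ} (hφ : Lip L φ) (hφb : ∀ y, |φ y| ≤ b) {η : ℝ}
    (hη : E3 P r (fun ω a b => gdev kap Qb (fun k => Q k - Qb k) (cEv P r x ω) (dv P r x ω a)
      (dv P r x ω b)) ≤ η) :
    ∫ ζ, eE P (fun ω => (cE P r (fun a => φ (zf kap (x a) ζ)) ω -
      sm (fun k => Q k - Qb k) φ (zf kap (cEv P r x ω) ζ)) ^ 2) ∂(gm κ) ≤
      16 * b * L * (Fintype.card (β ⊕ (β ⊕ β))) *
        Real.sqrt ((Fintype.card (β ⊕ (β ⊕ β)) + 1) * η) := by
  set v : β → ℝ := fun k => Q k - Qb k with hv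
  have hv0 : ∀ k, 0 ≤ v k := fun k => sub_nonneg.2 (hQ k)
  have e1 : ∀ ζ : κ → ℝ, eE P (fun ω => (cE P r (fun a => φ (zf kap (x a) ζ)) ω -
      sm v φ (zf kap (cEv P r x ω) ζ)) ^ 2) =
      E3 P r (fun ω a b => FF φ (sm v φ)
        (lin (uu kap (cEv P r x ω) (dv P r x ω a) (dv P r x ω b)) ζ)) := by
    intro ζ
    rw [eE_sq_cE hP]
    refine E3_congr hP fun ω a b _ _ => ?_
    have h0 : ∀ c, (fun k => zf kap (cEv P r x ω) ζ k + zf kap (dv P r x ω c) ζ k) =
        zf kap (x c) ζ := by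
      intro c
      funext k
      rw [← zf_add]
      congr 1
      funext i
      unfold dv
      ring
    show _ = (φ (fun k => zf kap (cEv P r x ω) ζ k + zf kap (dv P r x ω a) ζ k) -
        sm v φ (fun k => zf kap (cEv P r x ω) ζ k)) *
      (φ (fun k => zf kap (cEv P r x ω) ζ k + zf kap (dv P r x ω b) ζ k) -
        sm v φ (fun k => zf kap (cEv P r x ω) ζ k))
    rw [h0 a, h0 b]
  simp_rw [e1]
  have hint : ∀ ω a b, Integrable (fun ζ => FF φ (sm v φ)
      (lin (uu kap (cEv P r x ω) (dv P r x ω a) (dv P r x ω b)) ζ)) (gm κ) := fun ω a b =>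
    integrable_lin _ (FF_lip hL hb hφ (sm_lip v hφ) hφb (sm_bound v hφb))
  rw [integral_E3 hint]
  set M : ℝ := 16 * b * L * (Fintype.card (β ⊕ (β ⊕ β))) with hM
  have hM0 : 0 ≤ M := by positivity
  refine (E3_mono hP (h' := fun ω a b => M * Real.sqrt ((Fintype.card (β ⊕ (β ⊕ β)) + 1) *
    gdev kap Qb v (cEv P r x ω) (dv P r x ω a) (dv P r x ω b))) fun ω a b _ _ =>
      (le_abs_self _).trans (test_le kap hQb hv0 hL hb hφ hφb _ _ _)).trans ?_
  rw [E3_smul]
  refine mul_le_mul_of_nonneg_left ?_ hM0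
  refine (E3_sqrt_le hP fun ω a b => mul_nonneg (by positivity)
    (gdev_nonneg kap Qb v _ _ _)).trans (Real.sqrt_le_sqrt ?_)
  rw [E3_smul]
  exact mul_le_mul_of_nonneg_left hη (by positivity)

end second

end

end Crest.Agent.R164.CavG
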