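import Crest.Agent.R164.CavG1

/-!
Row 164, Gaussian cavity limit: DEFINITION of the nested Gaussian functional.

Depth convention (as `skelA` of row 141): `n = 0` is the leaf, exponent `y 0` (`= 1`) acts at the
innermost step; `v n i` is the variance of the increment of the coordinate `i` between the depths
`n` and `n + 1`; the variances `v (J + 1)` are those of the bottom (plain expectation).
For the cavity: `ι = Option β`, `some k` = block field `z_k`, `none` = label field,
`y = ySk J` (`y n = (J + 1 - n)/(J + 1)`), `v n (some k) = Q n k - Q (n + 1) k` for `n ≤ J`,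
`v (J + 1) (some k) = Q (J + 1) k`.
-/

set_option autoImplicit false

namespace Crest.Agent.R164.CavG

open MeasureTheory ProbabilityTheory Finset

noncomputable section

variable {ι : Type*} [Fintype ι]

/-- one step: `(1/y) log E exp (y f (z + sqrt v g))`. -/
def gstep (y : ℝ) (v : ι → ℝ) (f : (ι → ℝ) → ℝ) (z : ι → ℝ) : ℝ :=
  (1 / y) * Real.log (∫ g, Real.exp (y * f (fun k => z k + Real.sqrt (v k) * g k)) ∂(gm ι))

/-- nested functional of depth `n`. -/
def th (y : ℕ → ℝ) (v : ℕ → ι → ℝ) (w : (ι → ℝ) → ℝ) : ℕ → (ι → ℝ) → ℝ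
  | 0 => w
  | n + 1 => gstep (y n) (v n) (th y v w n)

/-- value of the nested functional with `J + 1` steps and a final plain expectation. -/
def gval (J : ℕ) (y : ℕ → ℝ) (v : ℕ → ι → ℝ) (w : (ι → ℝ) → ℝ) : ℝ :=
  ∫ g, th y v w (J + 1) (fun k => Real.sqrt (v (J + 1) k) * g k) ∂(gm ι)

theorem th_zero (y : ℕ → ℝ) (v : ℕ → ι → ℝ) (w : (ι → ℝ) → ℝ) : th y v w 0 = w := rfl

theorem th_succ (y : ℕ → ℝ) (v : ℕ → ι → ℝ) (w : (ι → ℝ) → ℝ) (n : ℕ) :
    th y v w (n + 1) = gstep (y n) (v n) (th y v w n) := rfl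

end

end Crest.Agent.R164.CavG
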