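import Crest.Agent.R141.Skel31
import Crest.Agent.R164.CavG2
import Crest.Agent.R164.CavGDef

/-!
Row 164, Gaussian cavity limit, part 3: the nested functional, one step and the chain.
-/

set_option autoImplicit false

namespace Crest.Agent.R164.CavG

open MeasureTheory ProbabilityTheory Finset Crest.Agent.R141 Crest.Agent.R141.Fact

noncomputable section

/-! ### properties of the nested functional -/

section nested

variable {ι : Type*} [Fintype ι]

theorem exp_lip {c y L : ℝ} (hy0 : 0 ≤ y) (hy1 : y ≤ 1) (_hL : 0 ≤ L) {f : (ι → ℝ) → ℝ}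
    (hf : Lip L f) (hc : ∀ z, |f z| ≤ c) : Lip (Real.exp c * L) (fun z => Real.exp (y * f z)) := by
  intro z z'
  have key : ∀ a b : ℝ, |a| ≤ c → |b| ≤ c → Real.exp (y * a) - Real.exp (y * b) ≤
      Real.exp c * |a - b| := by
    intro a b ha hb
    by_cases hab : a ≤ b
    · have : Real.exp (y * a) ≤ Real.exp (y * b) :=
        Real.exp_le_exp.2 (mul_le_mul_of_nonneg_left hab hy0)
      have h2 : 0 ≤ Real.exp c * |a - b| := by positivity
      linarith
    · have hab : b ≤ a := le_of_lt (not_le.1 hab)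
      have h1 : 1 + (y * b - y * a) ≤ Real.exp (y * b - y * a) := by
        have := Real.add_one_le_exp (y * b - y * a); linarith
      have h2 : Real.exp (y * b) = Real.exp (y * a) * Real.exp (y * b - y * a) := by
        rw [← Real.exp_add]; congr 1; ring
      have h3 : Real.exp (y * a) ≤ Real.exp c := by
        apply Real.exp_le_exp.2
        have := abs_le.1 ha
        have hc0 : 0 ≤ c := (abs_nonneg _).trans ha
        nlinarith
      have h4 : 0 < Real.exp (y * a) := Real.exp_pos _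
      rw [abs_of_nonneg (sub_nonneg.2 hab)]
      have h5 : Real.exp (y * a) - Real.exp (y * b) ≤ Real.exp (y * a) * (y * a - y * b) := by
        rw [h2]; nlinarith
      refine h5.trans ?_
      have h6 : y * a - y * b ≤ a - b := by nlinarith
      have h7 : 0 ≤ y * a - y * b := by nlinarith
      nlinarith
  have h1 := key _ _ (hc z) (hc z')
  have h2 := key _ _ (hc z') (hc z)
  have h3 := hf z z'
  have h4 : |f z' - f z| = |f z - f z'| := abs_sub_comm _ _
  rw [h4] at h2
  have h5 : Real.exp c * |f z - f z'| ≤ Real.exp c * (L * ∑ a, |z a - z' a|) :=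
    mul_le_mul_of_nonneg_left h3 (Real.exp_pos _).le
  show |Real.exp (y * f z) - Real.exp (y * f z')| ≤ Real.exp c * L * ∑ a, |z a - z' a|
  rw [abs_le]
  constructor <;> linarith

theorem exp_bounds {c y : ℝ} (hy0 : 0 ≤ y) (hy1 : y ≤ 1) {a : ℝ} (ha : |a| ≤ c) :
    Real.exp (-c) ≤ Real.exp (y * a) ∧ Real.exp (y * a) ≤ Real.exp c := by
  have h := abs_le.1 ha
  have hc0 : 0 ≤ c := (abs_nonneg _).trans ha
  constructor <;> apply Real.exp_le_exp.2 <;> nlinarith

theorem abs_log_sub_le' {c A B : ℝ} (hA : Real.exp (-c) ≤ A) (hB : Real.exp (-c) ≤ B) :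
    |Real.log A - Real.log B| ≤ Real.exp c * |A - B| := by
  have key : ∀ A B : ℝ, Real.exp (-c) ≤ A → Real.exp (-c) ≤ B →
      Real.log A - Real.log B ≤ Real.exp c * |A - B| := by
    intro A B hA hB
    have hA0 : 0 < A := lt_of_lt_of_le (Real.exp_pos _) hA
    have hB0 : 0 < B := lt_of_lt_of_le (Real.exp_pos _) hB
    have h1 : Real.log A - Real.log B ≤ A / B - 1 := by
      rw [← Real.log_div hA0.ne' hB0.ne']
      have := Real.log_le_sub_one_of_pos (div_pos hA0 hB0)
      exact this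
    have h2 : A / B - 1 = (A - B) * B⁻¹ := by field_simp
    rw [h2] at h1
    refine h1.trans ?_
    have h3 : B⁻¹ ≤ Real.exp c := by
      rw [inv_le_comm₀ hB0 (Real.exp_pos _), ← Real.exp_neg]
      exact hB
    have h4 : (A - B) * B⁻¹ ≤ |A - B| * B⁻¹ :=
      mul_le_mul_of_nonneg_right (le_abs_self _) (inv_nonneg.2 hB0.le)
    have h5 : |A - B| * B⁻¹ ≤ |A - B| * Real.exp c :=
      mul_le_mul_of_nonneg_left h3 (abs_nonneg _)
    linarith [mul_comm (|A - B|) (Real.exp c)]
  rw [abs_le]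
  have h1 := key A B hA hB
  have h2 := key B A hB hA
  rw [abs_sub_comm B A] at h2
  constructor <;> linarith

theorem gstep_eq_sm (y : ℝ) (v : ι → ℝ) (f : (ι → ℝ) → ℝ) (z : ι → ℝ) :
    gstep y v f z = (1 / y) * Real.log (sm v (fun z => Real.exp (y * f z)) z) := rfl

theorem sm_exp_bounds {c y L : ℝ} (hy0 : 0 ≤ y) (hy1 : y ≤ 1) (hL : 0 ≤ L) {f : (ι → ℝ) → ℝ}
    (hf : Lip L f) (hc : ∀ z, |f z| ≤ c) (v : ι → ℝ) (z : ι → ℝ) :
    Real.exp (-c) ≤ sm v (fun z => Real.exp (y * f z)) z ∧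
      sm v (fun z => Real.exp (y * f z)) z ≤ Real.exp c := by
  have hi := integrable_shift v (exp_lip hy0 hy1 hL hf hc) z
  unfold sm
  constructor
  · have : ∫ _g : ι → ℝ, Real.exp (-c) ∂(gm ι) ≤ ∫ g : ι → ℝ,
        Real.exp (y * f (fun k => z k + Real.sqrt (v k) * g k)) ∂(gm ι) :=
      integral_mono (integrable_const _) hi fun g => (exp_bounds hy0 hy1 (hc _)).1
    simpa using this
  · have : ∫ g : ι → ℝ, Real.exp (y * f (fun k => z k + Real.sqrt (v k) * g k)) ∂(gm ι) ≤
        ∫ _g : ι → ℝ, Real.exp c ∂(gm ι) :=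
      integral_mono hi (integrable_const _) fun g => (exp_bounds hy0 hy1 (hc _)).2
    simpa using this

theorem gstep_bound {c y L : ℝ} (hy0 : 0 < y) (hL : 0 ≤ L) {f : (ι → ℝ) → ℝ}
    (hf : Lip L f) (hc : ∀ z, |f z| ≤ c) (v : ι → ℝ) (hy1 : y ≤ 1) (z : ι → ℝ) :
    |gstep y v f z| ≤ c := by
  have hi := integrable_shift v (exp_lip hy0.le hy1 hL hf hc) z
  have h1 : Real.exp (-(y * c)) ≤ sm v (fun z => Real.exp (y * f z)) z := by
    have : ∫ _g : ι → ℝ, Real.exp (-(y * c)) ∂(gm ι) ≤ ∫ g : ι → ℝ,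
        Real.exp (y * f (fun k => z k + Real.sqrt (v k) * g k)) ∂(gm ι) :=
      integral_mono (integrable_const _) hi fun g => Real.exp_le_exp.2 (by
        have := (abs_le.1 (hc (fun k => z k + Real.sqrt (v k) * g k))).1
        nlinarith)
    simpa [sm] using this
  have h2 : sm v (fun z => Real.exp (y * f z)) z ≤ Real.exp (y * c) := by
    have : ∫ g : ι → ℝ, Real.exp (y * f (fun k => z k + Real.sqrt (v k) * g k)) ∂(gm ι) ≤
        ∫ _g : ι → ℝ, Real.exp (y * c) ∂(gm ι) :=
      integral_mono hi (integrable_const _) fun g => Real.exp_le_exp.2 (by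
        have := (abs_le.1 (hc (fun k => z k + Real.sqrt (v k) * g k))).2
        nlinarith)
    simpa [sm] using this
  have h0 : 0 < sm v (fun z => Real.exp (y * f z)) z := lt_of_lt_of_le (Real.exp_pos _) h1
  have h3 := Real.log_le_log (Real.exp_pos _) h1
  have h4 := Real.log_le_log h0 h2
  rw [Real.log_exp] at h3 h4
  rw [gstep_eq_sm, abs_le]
  have hinv : 0 < 1 / y := by positivity
  constructor
  · have := mul_le_mul_of_nonneg_left h3 hinv.le
    have e : 1 / y * -(y * c) = -c := by field_simp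
    linarith
  · have := mul_le_mul_of_nonneg_left h4 hinv.le
    have e : 1 / y * (y * c) = c := by field_simp
    linarith

/-- a step preserves the Lipschitz constant. -/
theorem gstep_lip {c y L : ℝ} (hy0 : 0 < y) (hy1 : y ≤ 1) (hL : 0 ≤ L) {f : (ι → ℝ) → ℝ}
    (hf : Lip L f) (hc : ∀ z, |f z| ≤ c) (v : ι → ℝ) : Lip L (gstep y v f) := by
  have key : ∀ z z', gstep y v f z - gstep y v f z' ≤ L * ∑ a, |z a - z' a| := by
    intro z z'
    have hi := integrable_shift v (exp_lip hy0.le hy1 hL hf hc)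
    have h1 : sm v (fun z => Real.exp (y * f z)) z ≤
        Real.exp (y * (L * ∑ a, |z a - z' a|)) * sm v (fun z => Real.exp (y * f z)) z' := by
      unfold sm
      rw [← integral_const_mul]
      refine integral_mono (hi z) ((hi z').const_mul _) fun g => ?_
      show Real.exp _ ≤ _ * Real.exp _
      rw [← Real.exp_add]
      apply Real.exp_le_exp.2
      have h2 := hf (fun k => z k + Real.sqrt (v k) * g k) (fun k => z' k + Real.sqrt (v k) * g k)
      have h3 : ∑ a, |(z a + Real.sqrt (v a) * g a) - (z' a + Real.sqrt (v a) * g a)| =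
          ∑ a, |z a - z' a| := Finset.sum_congr rfl fun a _ => by congr 1; ring
      rw [h3] at h2
      have h4 := (abs_le.1 h2).2
      nlinarith
    have hp := sm_exp_bounds hy0.le hy1 hL hf hc v
    have h0 : 0 < sm v (fun z => Real.exp (y * f z)) z := lt_of_lt_of_le (Real.exp_pos _) (hp z).1
    have h0' : 0 < sm v (fun z => Real.exp (y * f z)) z' :=
      lt_of_lt_of_le (Real.exp_pos _) (hp z').1
    have h5 := Real.log_le_log h0 h1
    rw [Real.log_mul (Real.exp_pos _).ne' h0'.ne', Real.log_exp] at h5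
    rw [gstep_eq_sm, gstep_eq_sm]
    have hinv : 0 < 1 / y := by positivity
    have h6 := mul_le_mul_of_nonneg_left h5 hinv.le
    have e : 1 / y * (y * (L * ∑ a, |z a - z' a|) + Real.log (sm v (fun z => Real.exp (y * f z)) z'))
        = L * ∑ a, |z a - z' a| + 1 / y * Real.log (sm v (fun z => Real.exp (y * f z)) z') := by
      field_simp
    linarith
  intro z z'
  rw [abs_le]
  have h1 := key z z'
  have h2 := key z' z
  have h3 : ∑ a, |z' a - z a| = ∑ a, |z a - z' a| :=
    Finset.sum_congr rfl fun a _ => abs_sub_comm _ _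
  rw [h3] at h2
  constructor <;> linarith

theorem th_lip_bound {c L : ℝ} {y : ℕ → ℝ} {J : ℕ} (hy0 : ∀ n ≤ J, 0 < y n)
    (hy1 : ∀ n ≤ J, y n ≤ 1) (hL : 0 ≤ L) {w : (ι → ℝ) → ℝ} (hw : Lip L w)
    (hc : ∀ z, |w z| ≤ c) (v : ℕ → ι → ℝ) :
    ∀ n ≤ J + 1, Lip L (th y v w n) ∧ ∀ z, |th y v w n z| ≤ c := by
  intro n
  induction n with
  | zero => exact fun _ => ⟨hw, hc⟩
  | succ n ih =>
    intro hn
    obtain ⟨h1, h2⟩ := ih (by omega)
    rw [th_succ]
    exact ⟨gstep_lip (hy0 n (by omega)) (hy1 n (by omega)) hL h1 h2 _,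
      gstep_bound (hy0 n (by omega)) hL h1 h2 _ (hy1 n (by omega))⟩

end nested

/-! ### purity of conditional expectations -/

section purity

variable {Ω κ : Type*} [Fintype Ω] [Fintype κ] {P : Ω → ℝ} {r s : Setoid Ω}

theorem cE_comm (hP : IsProb P) (F : Ω → Ω → ℝ) (ω a : Ω) :
    cE P r (fun b => cE P s (fun a' => F a' b) a) ω =
      cE P s (fun a' => cE P r (fun b => F a' b) ω) a := by
  classical
  obtain ⟨t, w, -, -, -, hw⟩ := cE_weights hP r ω
  obtain ⟨t', w', -, -, -, hw'⟩ := cE_weights hP s a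
  simp_rw [hw, hw', Finset.mul_sum]
  rw [Finset.sum_comm]
  refine Finset.sum_congr rfl fun a _ => Finset.sum_congr rfl fun b _ => ?_
  ring

theorem pur_cEv_le (hP : IsProb P) (h : s ≤ r) (x : Ω → κ → ℝ) :
    pur P r (cEv P s x) ≤ pur P r x := by
  unfold pur
  refine eE_mono hP fun ω => ?_
  have e1 := cE2_sq (P := P) (r := r) (cEv P s x) (fun _ => 1) ω
  have e2 := cE2_sq (P := P) (r := r) x (fun _ => 1) ω
  simp only [one_mul] at e1 e2
  rw [← e1, ← e2]
  set D : Ω → Ω → ℝ := fun a b => ∑ i, dv P r x ω a i * dv P r x ω b i with hD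
  have hdv : ∀ a i, dv P r (cEv P s x) ω a i = cE P s (fun a' => dv P r x ω a' i) a := by
    intro a i
    unfold dv
    rw [cE_sub, cE_const hP, cEv_tower hP h]
    rfl
  have h1 : ∀ a b, ∑ i, dv P r (cEv P s x) ω a i * dv P r (cEv P s x) ω b i =
      cE P s (fun a' => cE P s (fun b' => D a' b') b) a := by
    intro a b
    have e3 : ∀ a', cE P s (fun b' => D a' b') b =
        ∑ i, dv P r x ω a' i * cE P s (fun b' => dv P r x ω b' i) b := by
      intro a'
      simp only [hD]
      rw [cE_sum]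
      exact Finset.sum_congr rfl fun i _ => cE_smul _ _ _ _ _
    simp_rw [e3]
    rw [cE_sum]
    refine Finset.sum_congr rfl fun i _ => ?_
    rw [hdv, hdv]
    have e4 : ∀ a', dv P r x ω a' i * cE P s (fun b' => dv P r x ω b' i) b =
        cE P s (fun b' => dv P r x ω b' i) b * dv P r x ω a' i := fun a' => mul_comm _ _
    simp_rw [e4]
    rw [cE_smul, mul_comm]
  have h2 : ∀ a b, (∑ i, dv P r (cEv P s x) ω a i * dv P r (cEv P s x) ω b i) ^ 2 ≤
      cE P s (fun a' => cE P s (fun b' => D a' b' ^ 2) b) a := by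
    intro a b
    rw [h1]
    refine (cE_sq_le hP s _ a).trans (cE_mono hP a fun a' _ => ?_)
    exact cE_sq_le hP s _ b
  refine (cE_mono (r := r) hP ω fun a _ => cE_mono (r := r) hP ω fun b _ => h2 a b).trans
    (le_of_eq ?_)
  have h3 : ∀ a, cE P r (fun b => cE P s (fun a' => cE P s (fun b' => D a' b' ^ 2) b) a) ω =
      cE P s (fun a' => cE P r (fun b' => D a' b' ^ 2) ω) a := by
    intro a
    rw [cE_comm hP (fun a' b => cE P s (fun b' => D a' b' ^ 2) b) ω a]
    congr 1
    funext a'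
    exact cE_tower hP h _ ω
  simp_rw [h3]
  exact cE_tower hP h _ ω

theorem sum_sq_cEv_le (hP : IsProb P) {x : Ω → κ → ℝ} {C : ℝ} (hC : ∀ ω, ∑ i, x ω i ^ 2 ≤ C)
    (ω : Ω) : ∑ i, cEv P r x ω i ^ 2 ≤ C := by
  have h1 : ∑ i, cEv P r x ω i ^ 2 ≤ ∑ i, cE P r (fun a => x a i ^ 2) ω :=
    Finset.sum_le_sum fun i _ => cE_sq_le hP r _ ω
  refine h1.trans ?_
  rw [← cE_sum]
  exact cE_le_of_le hP hC ω

end purity

end

end Crest.Agent.R164.CavG
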