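import Crest.Agent.R141.HierM
import Crest.Agent.R164.CavG3

/-!
Row 164, Gaussian cavity limit, part 4: product with an independent label space, one step.
-/

set_option autoImplicit false

namespace Crest.Agent.R164.CavG

open MeasureTheory ProbabilityTheory Finset Crest.Agent.R141 Crest.Agent.R141.Fact

noncomputable section

section prod

variable {Ω Λ : Type*} [Fintype Ω] [Fintype Λ] {P : Ω → ℝ} {P2 : Λ → ℝ}

/-- product law. -/
def pP (P : Ω → ℝ) (P2 : Λ → ℝ) : Ω × Λ → ℝ := fun p => P p.1 * P2 p.2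

theorem pP_isProb (hP : IsProb P) (hP2 : IsProb P2) : IsProb (pP P P2) := by
  constructor
  · intro p; exact mul_pos (hP.pos _) (hP2.pos _)
  · unfold pP
    rw [Fintype.sum_prod_type]
    simp_rw [← Finset.mul_sum, hP2.sum, mul_one]
    exact hP.sum

theorem eE_pP (f : Ω × Λ → ℝ) :
    eE (pP P P2) f = eE P (fun a => eE P2 (fun b => f (a, b))) := by
  unfold eE pP
  rw [Fintype.sum_prod_type]
  refine Finset.sum_congr rfl fun a _ => ?_
  rw [Finset.mul_sum]
  exact Finset.sum_congr rfl fun b _ => by ring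

theorem eE_comm (f : Ω → Λ → ℝ) :
    eE P (fun a => eE P2 (fun b => f a b)) = eE P2 (fun b => eE P (fun a => f a b)) := by
  unfold eE
  simp_rw [Finset.mul_sum]
  rw [Finset.sum_comm]
  exact Finset.sum_congr rfl fun a _ => Finset.sum_congr rfl fun b _ => by ring

theorem cE_pP (r : Setoid Ω) (s : Setoid Λ) (f : Ω × Λ → ℝ) (p : Ω × Λ) :
    cE (pP P P2) (r.prod s) f p =
      cE P r (fun a => cE P2 s (fun b => f (a, b)) p.2) p.1 := by
  classical
  simp only [cE_eq_ite]
  have h1 : ∀ q : Ω × Λ, (r.prod s) p q ↔ r p.1 q.1 ∧ s p.2 q.2 := fun q => Iff.rfl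
  simp only [h1, pP]
  rw [Fintype.sum_prod_type, Fintype.sum_prod_type]
  set B := ∑ b, if s p.2 b then P2 b else 0 with hB
  set A := ∑ a, if r p.1 a then P a else 0 with hA
  have e1 : ∀ a, (∑ b, if r p.1 a ∧ s p.2 b then P a * P2 b else 0) =
      if r p.1 a then P a * B else 0 := by
    intro a
    by_cases h : r p.1 a
    · simp only [h, true_and, if_true]
      rw [hB, Finset.mul_sum]
      refine Finset.sum_congr rfl fun b _ => ?_
      split_ifs <;> simp
    · simp [h]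
  have e2 : ∀ a, (∑ b, if r p.1 a ∧ s p.2 b then P a * P2 b * f (a, b) else 0) =
      if r p.1 a then P a * (∑ b, if s p.2 b then P2 b * f (a, b) else 0) else 0 := by
    intro a
    by_cases h : r p.1 a
    · simp only [h, true_and, if_true]
      rw [Finset.mul_sum]
      refine Finset.sum_congr rfl fun b _ => ?_
      split_ifs <;> ring
    · simp [h]
  simp_rw [e1, e2]
  have e3 : (∑ a, if r p.1 a then P a * B else 0) = A * B := by
    rw [hA, Finset.sum_mul]
    refine Finset.sum_congr rfl fun a _ => ?_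
    split_ifs <;> simp
  have e4 : (∑ a, if r p.1 a then P a * ((∑ b, if s p.2 b then P2 b * f (a, b) else 0) / B)
      else 0) = (∑ a, if r p.1 a then P a * (∑ b, if s p.2 b then P2 b * f (a, b) else 0) else 0) /
        B := by
    rw [Finset.sum_div]
    refine Finset.sum_congr rfl fun a _ => ?_
    split_ifs
    · ring
    · simp
  rw [e3, e4, div_div, mul_comm B A]

theorem cE_pP' (r : Setoid Ω) (s : Setoid Λ) (f : Ω × Λ → ℝ) (p : Ω × Λ) :
    cE (pP P P2) (r.prod s) f p =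
      cE P2 s (fun b => cE P r (fun a => f (a, b)) p.1) p.2 := by
  rw [cE_pP]
  classical
  simp only [cE_eq_ite]
  simp_rw [Finset.sum_div, div_eq_mul_inv]
  have e1 : ∀ a, (if r p.1 a then P a * ∑ b, (if s p.2 b then P2 b * f (a, b) else 0) *
      (∑ b, if s p.2 b then P2 b else 0)⁻¹ else 0) * (∑ a, if r p.1 a then P a else 0)⁻¹ =
      ∑ b, if r p.1 a ∧ s p.2 b then P a * P2 b * f (a, b) *
        ((∑ b, if s p.2 b then P2 b else 0)⁻¹ * (∑ a, if r p.1 a then P a else 0)⁻¹) else 0 := by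
    intro a
    by_cases h : r p.1 a
    · simp only [h, true_and, if_true]
      rw [Finset.mul_sum, Finset.sum_mul]
      refine Finset.sum_congr rfl fun b _ => ?_
      split_ifs <;> ring
    · simp [h]
  have e2 : ∀ b, (if s p.2 b then P2 b * ∑ a, (if r p.1 a then P a * f (a, b) else 0) *
      (∑ a, if r p.1 a then P a else 0)⁻¹ else 0) * (∑ b, if s p.2 b then P2 b else 0)⁻¹ =
      ∑ a, if r p.1 a ∧ s p.2 b then P a * P2 b * f (a, b) *
        ((∑ b, if s p.2 b then P2 b else 0)⁻¹ * (∑ a, if r p.1 a then P a else 0)⁻¹) else 0 := by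
    intro b
    by_cases h : s p.2 b
    · simp only [h, and_true, if_true]
      rw [Finset.mul_sum, Finset.sum_mul]
      refine Finset.sum_congr rfl fun a _ => ?_
      split_ifs <;> ring
    · simp [h]
  simp_rw [e1, e2]
  rw [Finset.sum_comm]

end prod

theorem le_sqrt_of_forall {a S : ℝ} (hS : 0 ≤ S) (h : ∀ t : ℝ, 0 < t → a ≤ (t + S / t) / 2) :
    a ≤ Real.sqrt S := by
  rcases hS.eq_or_lt with h0 | h0
  · rw [← h0, Real.sqrt_zero]
    refine le_of_forall_pos_le_add fun ε hε => ?_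
    have := h (2 * ε) (by positivity)
    rw [← h0, zero_div] at this
    linarith
  · have hs := Real.sqrt_pos.2 h0
    have := h _ hs
    have e : S / Real.sqrt S = Real.sqrt S := by
      rw [div_eq_iff hs.ne', Real.mul_self_sqrt hS]
    rw [e] at this
    linarith

section meas

variable {Ω : Type*} [Fintype Ω] {P : Ω → ℝ} {r : Setoid Ω} {Z : Type*} [MeasurableSpace Z]

theorem measurable_cE {f : Z → Ω → ℝ} (hf : ∀ a, Measurable fun z => f z a) (ω : Ω) :
    Measurable fun z => cE P r (f z) ω := by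
  unfold cE
  exact (Finset.measurable_sum _ fun a _ => (hf a).const_mul _).div_const _

theorem measurable_eE {f : Z → Ω → ℝ} (hf : ∀ a, Measurable fun z => f z a) :
    Measurable fun z => eE P (f z) := by
  unfold eE
  exact Finset.measurable_sum _ fun a _ => (hf a).const_mul _

theorem measurable_pm {f : Z → Ω → ℝ} (hf : ∀ a, Measurable fun z => f z a) (y : ℝ) (ω : Ω) :
    Measurable fun z => pm P r y (f z) ω := by
  unfold pm
  refine Measurable.const_mul (Real.measurable_log.comp ?_) _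
  exact measurable_cE (fun a => Real.measurable_exp.comp ((hf a).const_mul _)) ω

theorem measurable_skelA {Ω : Type} [Fintype Ω] {P : Ω → ℝ} {r : ℕ → Setoid Ω} {y : ℕ → ℝ} {f : Z → Ω → ℝ}
    (hf : ∀ a, Measurable fun z => f z a) (n : ℕ) (ω : Ω) :
    Measurable fun z => skelA P r y (f z) n ω := by
  induction n generalizing ω with
  | zero => exact hf ω
  | succ n ih => exact measurable_pm (fun a => ih a) (y n) ω

end meas

section fieldmeas

variable {κ β : Type*} [Fintype κ] [DecidableEq β]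

theorem measurable_zf (kap : κ → β) (x : κ → ℝ) : Measurable (zf kap x) := by
  refine measurable_pi_lambda _ fun k => ?_
  unfold zf
  fun_prop

variable [Fintype β]

theorem integrable_zf (kap : κ → β) (x : κ → ℝ) {L : ℝ} {F : (β → ℝ) → ℝ} (hF : Lip L F) :
    Integrable (fun ζ => F (zf kap x ζ)) (gm κ) :=
  integrable_lin (fun k i => if kap i = k then x i else 0) hF

end fieldmeas

section onestep

variable {Ω Λ κ β : Type*} [Fintype Ω] [Fintype Λ] [Fintype κ] [Fintype β] [DecidableEq β]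
  {P : Ω → ℝ} {P2 : Λ → ℝ} {r : Setoid Ω} {s : Setoid Λ}

/-- combined argument: label coordinate and block coordinates. -/
def cmb (t : ℝ) (z : β → ℝ) : Unit ⊕ β → ℝ := Sum.elim (fun _ => t) z

omit [DecidableEq β] in
theorem lip_fst {L : ℝ} {f : (Unit ⊕ β → ℝ) → ℝ} (hf : Lip L f) (z : β → ℝ) (t t' : ℝ) :
    |f (cmb t z) - f (cmb t' z)| ≤ L * |t - t'| := by
  refine (hf _ _).trans (le_of_eq ?_)
  rw [Fintype.sum_sum_type]
  simp [cmb]

omit [DecidableEq β] in
theorem lip_snd {L : ℝ} {f : (Unit ⊕ β → ℝ) → ℝ} (hf : Lip L f) (t : ℝ) :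
    Lip L (fun z : β → ℝ => f (cmb t z)) := by
  intro z z'
  refine (hf _ _).trans (le_of_eq ?_)
  rw [Fintype.sum_sum_type]
  simp [cmb]

/-- variances. -/
def vv (bv : ℝ) (v : β → ℝ) : Unit ⊕ β → ℝ := Sum.elim (fun _ => bv) v

theorem cont_of_lip1 {L : ℝ} {f : ℝ → ℝ} (h : ∀ a b, |f a - f b| ≤ L * |a - b|) :
    Continuous f := by
  have h0 : 0 ≤ L := by
    have := h 1 0
    have h1 := abs_nonneg (f 1 - f 0)
    have : |f 1 - f 0| ≤ L := by simpa using this
    linarith
  refine LipschitzWith.continuous (K := ⟨L, h0⟩) (LipschitzWith.of_dist_le_mul fun a b => ?_)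
  rw [Real.dist_eq, Real.dist_eq]
  exact h a b

omit [DecidableEq β] in
theorem sm_lip_fst {L : ℝ} {F : (Unit ⊕ β → ℝ) → ℝ} (hF : Lip L F) (v : β → ℝ) (z : β → ℝ)
    (t t' : ℝ) : |sm v (fun z => F (cmb t z)) z - sm v (fun z => F (cmb t' z)) z| ≤
      L * |t - t'| := by
  unfold sm
  have h1 := integrable_shift v (lip_snd hF t) z
  have h2 := integrable_shift v (lip_snd hF t') z
  rw [← integral_sub h1 h2]
  refine abs_integral_le_integral_abs.trans ?_
  calc _ ≤ ∫ _g, L * |t - t'| ∂(gm β) :=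
        integral_mono (h1.sub h2).abs (integrable_const _) fun g => lip_fst hF _ _ _
    _ = _ := by simp

omit [DecidableEq β] in
/-- smoothing in both groups of variables. -/
theorem sm_vv {L : ℝ} {F : (Unit ⊕ β → ℝ) → ℝ} (hF : Lip L F) (bv : ℝ) (v : β → ℝ)
    (t : ℝ) (z : β → ℝ) :
    sm (vv bv v) F (cmb t z) =
      ∫ g, sm v (fun z => F (cmb (t + Real.sqrt bv * g) z)) z ∂(gaussianReal 0 1) := by
  have hi := integrable_shift (vv bv v) hF (cmb t z)
  have hc : Continuous fun t' : ℝ => sm v (fun z => F (cmb t' z)) z :=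
    cont_of_lip1 (sm_lip_fst hF v z)
  have hm : Measurable fun g : ℝ => sm v (fun z => F (cmb (t + Real.sqrt bv * g) z)) z :=
    (hc.comp (by fun_prop : Continuous fun g : ℝ => t + Real.sqrt bv * g)).measurable
  have h3 := integral_eval_gm (κ := Unit) () hm
  rw [← h3]
  show ∫ g, F (fun k => (cmb t z : Unit ⊕ β → ℝ) k + Real.sqrt (vv bv v k) * g k)
    ∂(gm (Unit ⊕ β)) = _
  rw [integral_sum_gm hi]
  have e1 : ∀ (g0 : Unit → ℝ) (g1 : β → ℝ),
      (fun k => (cmb t z : Unit ⊕ β → ℝ) k + Real.sqrt (vv bv v k) *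
        (Sum.elim g0 g1 : Unit ⊕ β → ℝ) k) =
      cmb (t + Real.sqrt bv * g0 ()) (fun k => z k + Real.sqrt (v k) * g1 k) := by
    intro g0 g1
    funext k
    rcases k with k | k <;> rfl
  simp_rw [e1]
  rfl

/-- bound of the one-step second moment. -/
def SM (β : Type*) [Fintype β] (c L η : ℝ) : ℝ :=
  16 * Real.exp c * (Real.exp c * L) * (Fintype.card (β ⊕ (β ⊕ β))) *
    Real.sqrt ((Fintype.card (β ⊕ (β ⊕ β)) + 1) * η)

omit [DecidableEq β] in
theorem SM_nonneg {c L η : ℝ} (hL : 0 ≤ L) : 0 ≤ SM β c L η := by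
  unfold SM
  positivity

/-- first moment of the one-step error, for one value of the label variable. -/
theorem first_moment (hP : IsProb P) (kap : κ → β) (x : Ω → κ → ℝ) {Q Qb : β → ℝ}
    (hQb : ∀ k, 0 ≤ Qb k) (hQ : ∀ k, Qb k ≤ Q k) {L c y : ℝ} (hL : 0 ≤ L) (hy0 : 0 ≤ y)
    (hy1 : y ≤ 1) {f : (β → ℝ) → ℝ} (hf : Lip L f) (hc : ∀ z, |f z| ≤ c) {η : ℝ}
    (hη : E3 P r (fun ω a b => gdev kap Qb (fun k => Q k - Qb k) (cEv P r x ω) (dv P r x ω a)
      (dv P r x ω b)) ≤ η) :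
    ∫ ζ, eE P (fun ω => |cE P r (fun a => Real.exp (y * f (zf kap (x a) ζ))) ω -
      sm (fun k => Q k - Qb k) (fun z => Real.exp (y * f z)) (zf kap (cEv P r x ω) ζ)|) ∂(gm κ) ≤
      Real.sqrt (SM β c L η) := by
  set φ : (β → ℝ) → ℝ := fun z => Real.exp (y * f z) with hφ
  set v : β → ℝ := fun k => Q k - Qb k with hv
  have hφL : Lip (Real.exp c * L) φ := exp_lip hy0 hy1 hL hf hc
  have hφb : ∀ z, |φ z| ≤ Real.exp c := fun z => by
    rw [abs_of_pos (Real.exp_pos _)]; exact (exp_bounds hy0 hy1 (hc z)).2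
  have h2 := second_moment hP kap x hQb hQ (by positivity) (Real.exp_pos c).le hφL hφb hη
  have h2' : ∫ ζ, eE P (fun ω => (cE P r (fun a => φ (zf kap (x a) ζ)) ω -
      sm v φ (zf kap (cEv P r x ω) ζ)) ^ 2) ∂(gm κ) ≤ SM β c L η := h2
  set D : (κ → ℝ) → Ω → ℝ := fun ζ ω => cE P r (fun a => φ (zf kap (x a) ζ)) ω -
      sm v φ (zf kap (cEv P r x ω) ζ) with hD
  have hDm : ∀ ω, Measurable fun ζ => D ζ ω := by
    intro ω
    refine Measurable.sub ?_ ?_
    · exact measurable_cE (fun a => hφL.measurable.comp (measurable_zf kap (x a))) ω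
    · exact (sm_lip v hφL).measurable.comp (measurable_zf kap _)
  have hDb : ∀ ζ ω, |D ζ ω| ≤ 2 * Real.exp c := by
    intro ζ ω
    have h3 : |cE P r (fun a => φ (zf kap (x a) ζ)) ω| ≤ Real.exp c :=
      abs_cE_le_of_le hP (fun a => hφb _) ω
    have h4 := sm_bound v hφb (zf kap (cEv P r x ω) ζ)
    have h5 := abs_sub (cE P r (fun a => φ (zf kap (x a) ζ)) ω)
      (sm v φ (zf kap (cEv P r x ω) ζ))
    have h6 : |D ζ ω| = |cE P r (fun a => φ (zf kap (x a) ζ)) ω -
      sm v φ (zf kap (cEv P r x ω) ζ)| := rfl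
    linarith
  have hi1 : ∀ ω, Integrable (fun ζ => |D ζ ω|) (gm κ) := fun ω =>
    Integrable.of_bound (C := 2 * Real.exp c) (hDm ω).norm.aestronglyMeasurable
      (ae_of_all _ fun ζ => by
        rw [Real.norm_eq_abs, abs_abs]; exact hDb ζ ω)
  have hi2 : ∀ ω, Integrable (fun ζ => (D ζ ω) ^ 2) (gm κ) := fun ω =>
    Integrable.of_bound (C := (2 * Real.exp c) ^ 2) ((hDm ω).pow_const 2).aestronglyMeasurable
      (ae_of_all _ fun ζ => by
        rw [Real.norm_eq_abs, abs_pow]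
        exact pow_le_pow_left₀ (abs_nonneg _) (hDb ζ ω) 2)
  refine le_sqrt_of_forall (SM_nonneg hL) fun t ht => ?_
  have h7 : ∫ ζ, eE P (fun ω => |D ζ ω|) ∂(gm κ) ≤
      ∫ ζ, eE P (fun ω => (1 / 2) * t + (1 / (2 * t)) * (D ζ ω) ^ 2) ∂(gm κ) := by
    refine integral_mono (integrable_eE hi1)
      (integrable_eE fun ω => (integrable_const _).add ((hi2 ω).const_mul _)) fun ζ => ?_
    refine eE_mono hP fun ω => ?_
    have h8 : |D ζ ω| ^ 2 = D ζ ω ^ 2 := sq_abs _
    have h9 : 0 ≤ (t - |D ζ ω|) ^ 2 := sq_nonneg _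
    have h10 : 1 / 2 * t + 1 / (2 * t) * D ζ ω ^ 2 - |D ζ ω| = (t - |D ζ ω|) ^ 2 / (2 * t) := by
      rw [← h8]; field_simp; ring
    have h11 : 0 ≤ (t - |D ζ ω|) ^ 2 / (2 * t) := by positivity
    linarith
  refine h7.trans ?_
  have h12 : ∀ ζ, eE P (fun ω => (1 / 2) * t + (1 / (2 * t)) * (D ζ ω) ^ 2) =
      (1 / 2) * t + (1 / (2 * t)) * eE P (fun ω => (D ζ ω) ^ 2) := by
    intro ζ
    rw [eE_add, eE_const hP, eE_smul]
  simp_rw [h12]
  rw [integral_add (integrable_const _) ((integrable_eE hi2).const_mul _)]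
  have h15 : ∫ ζ, 1 / (2 * t) * eE P (fun ω => (D ζ ω) ^ 2) ∂(gm κ) =
      1 / (2 * t) * ∫ ζ, eE P (fun ω => (D ζ ω) ^ 2) ∂(gm κ) := integral_const_mul _ _
  rw [h15]
  have h13 : 1 / (2 * t) * ∫ ζ, eE P (fun ω => (D ζ ω) ^ 2) ∂(gm κ) ≤
      1 / (2 * t) * SM β c L η := mul_le_mul_of_nonneg_left h2' (by positivity)
  have h14 : (t + SM β c L η / t) / 2 = 1 / 2 * t + 1 / (2 * t) * SM β c L η := by
    field_simp
  rw [h14]
  simp only [integral_const, probReal_univ, one_smul]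
  linarith

/-- **One step** of the comparison. -/
theorem one_step (hP : IsProb P) (hP2 : IsProb P2) (kap : κ → β) (x : Ω → κ → ℝ) {Q Qb : β → ℝ}
    (hQb : ∀ k, 0 ≤ Qb k) (hQ : ∀ k, Qb k ≤ Q k) {L c y bv dl : ℝ} (hL : 0 ≤ L) (hy0 : 0 < y)
    (hy1 : y ≤ 1) {f : (Unit ⊕ β → ℝ) → ℝ} (hf : Lip L f) (hc : ∀ z, |f z| ≤ c) {η : ℝ}
    (hη : E3 P r (fun ω a b => gdev kap Qb (fun k => Q k - Qb k) (cEv P r x ω) (dv P r x ω a)
      (dv P r x ω b)) ≤ η) (Yf Yc : Λ → ℝ)
    (hclt : ∀ (L : ℝ) (h : ℝ → ℝ), 0 ≤ L → (∀ a b, |h a - h b| ≤ L * |a - b|) → ∀ l,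
      |cE P2 s (fun b => h (Yf b)) l - ∫ g, h (Yc l + Real.sqrt bv * g) ∂(gaussianReal 0 1)| ≤
        L * dl) :
    ∫ ζ, eE (pP P P2) (fun p => |pm (pP P P2) (r.prod s) y
        (fun q => f (cmb (Yf q.2) (zf kap (x q.1) ζ))) p -
        gstep y (vv bv (fun k => Q k - Qb k)) f (cmb (Yc p.2) (zf kap (cEv P r x p.1) ζ))|)
        ∂(gm κ) ≤
      (1 / y) * Real.exp c * (Real.sqrt (SM β c L η) + Real.exp c * L * dl) := by
  set v : β → ℝ := fun k => Q k - Qb k with hv
  set φ : (Unit ⊕ β → ℝ) → ℝ := fun z => Real.exp (y * f z) with hφ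
  have hφL : Lip (Real.exp c * L) φ := exp_lip hy0.le hy1 hL hf hc
  have hφb : ∀ z, |φ z| ≤ Real.exp c := fun z => by
    rw [abs_of_pos (Real.exp_pos _)]; exact (exp_bounds hy0.le hy1 (hc z)).2
  -- pointwise estimate
  set D : (κ → ℝ) → Ω → Λ → ℝ := fun ζ ω b =>
    |cE P r (fun a => φ (cmb (Yf b) (zf kap (x a) ζ))) ω -
      sm v (fun z => φ (cmb (Yf b) z)) (zf kap (cEv P r x ω) ζ)| with hD
  have hpt : ∀ ζ p, |pm (pP P P2) (r.prod s) y (fun q => f (cmb (Yf q.2) (zf kap (x q.1) ζ))) p -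
        gstep y (vv bv v) f (cmb (Yc p.2) (zf kap (cEv P r x p.1) ζ))| ≤
      (1 / y) * Real.exp c * (cE P2 s (fun b => D ζ p.1 b) p.2 + Real.exp c * L * dl) := by
    intro ζ p
    set A := cE (pP P P2) (r.prod s) (fun q => φ (cmb (Yf q.2) (zf kap (x q.1) ζ))) p with hA
    set B := sm (vv bv v) φ (cmb (Yc p.2) (zf kap (cEv P r x p.1) ζ)) with hB
    have e1 : pm (pP P P2) (r.prod s) y (fun q => f (cmb (Yf q.2) (zf kap (x q.1) ζ))) p =
        (1 / y) * Real.log A := rfl
    have e2 : gstep y (vv bv v) f (cmb (Yc p.2) (zf kap (cEv P r x p.1) ζ)) =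
        (1 / y) * Real.log B := rfl
    have hAl : Real.exp (-c) ≤ A := le_cE_of_le (pP_isProb hP hP2)
      (fun q => (exp_bounds hy0.le hy1 (hc _)).1) p
    have hBl : Real.exp (-c) ≤ B := (sm_exp_bounds hy0.le hy1 hL hf hc _ _).1
    rw [e1, e2, ← mul_sub, abs_mul, abs_of_pos (by positivity : (0 : ℝ) < 1 / y), mul_assoc]
    refine mul_le_mul_of_nonneg_left ?_ (by positivity)
    refine (abs_log_sub_le' hAl hBl).trans (mul_le_mul_of_nonneg_left ?_ (Real.exp_pos _).le)
    set H : ℝ → ℝ := fun t => sm v (fun z => φ (cmb t z)) (zf kap (cEv P r x p.1) ζ) with hH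
    have hHL : ∀ a b, |H a - H b| ≤ (Real.exp c * L) * |a - b| := sm_lip_fst hφL v _
    have h1 := hclt (Real.exp c * L) H (by positivity) hHL p.2
    have h2 : B = ∫ g, H (Yc p.2 + Real.sqrt bv * g) ∂(gaussianReal 0 1) :=
      sm_vv hφL bv v (Yc p.2) (zf kap (cEv P r x p.1) ζ)
    rw [← h2] at h1
    have h3 : A = cE P2 s (fun b => cE P r (fun a => φ (cmb (Yf b) (zf kap (x a) ζ))) p.1) p.2 := by
      rw [hA, cE_pP']
    have h4 : |A - cE P2 s (fun b => H (Yf b)) p.2| ≤ cE P2 s (fun b => D ζ p.1 b) p.2 := by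
      rw [h3, ← cE_sub]
      exact cE_abs_le hP2 _ _
    calc |A - B| = |(A - cE P2 s (fun b => H (Yf b)) p.2) + (cE P2 s (fun b => H (Yf b)) p.2 - B)| := by
          congr 1; ring
      _ ≤ _ := abs_add_le _ _
      _ ≤ _ := add_le_add h4 h1
  -- integrability
  have hDm : ∀ ω b, Measurable fun ζ => D ζ ω b := by
    intro ω b
    refine continuous_abs.measurable.comp (Measurable.sub ?_ ?_)
    · exact measurable_cE (fun a => (lip_snd hφL _).measurable.comp (measurable_zf kap (x a))) ω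
    · exact (sm_lip v (lip_snd hφL _)).measurable.comp (measurable_zf kap _)
  have hDb : ∀ ζ ω b, |D ζ ω b| ≤ 2 * Real.exp c := by
    intro ζ ω b
    have h3 : |cE P r (fun a => φ (cmb (Yf b) (zf kap (x a) ζ))) ω| ≤ Real.exp c :=
      abs_cE_le_of_le hP (fun a => hφb _) ω
    have h4 := sm_bound v (φ := fun z => φ (cmb (Yf b) z)) (fun z => hφb _)
      (zf kap (cEv P r x ω) ζ)
    have h5 := abs_sub (cE P r (fun a => φ (cmb (Yf b) (zf kap (x a) ζ))) ω)
      (sm v (fun z => φ (cmb (Yf b) z)) (zf kap (cEv P r x ω) ζ))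
    have h6 : |D ζ ω b| = |cE P r (fun a => φ (cmb (Yf b) (zf kap (x a) ζ))) ω -
      sm v (fun z => φ (cmb (Yf b) z)) (zf kap (cEv P r x ω) ζ)| := abs_abs _
    linarith
  have hDi : ∀ ω b, Integrable (fun ζ => D ζ ω b) (gm κ) := fun ω b =>
    Integrable.of_bound (C := 2 * Real.exp c) (hDm ω b).aestronglyMeasurable
      (ae_of_all _ fun ζ => by rw [Real.norm_eq_abs]; exact hDb ζ ω b)
  have hdl : 0 ≤ dl := by
    have hne := nonempty_of_isProb hP2
    obtain ⟨l⟩ := hne
    have h1 := hclt 1 (fun _ => 0) zero_le_one (fun a b => by simp) l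
    have := (abs_nonneg _).trans h1
    linarith
  have hgp : ∀ p : Ω × Λ, Measurable fun ζ : κ → ℝ =>
      |pm (pP P P2) (r.prod s) y (fun q => f (cmb (Yf q.2) (zf kap (x q.1) ζ))) p -
        gstep y (vv bv v) f (cmb (Yc p.2) (zf kap (cEv P r x p.1) ζ))| := by
    intro p
    refine continuous_abs.measurable.comp (Measurable.sub ?_ ?_)
    · exact measurable_pm (fun q => (lip_snd hf _).measurable.comp (measurable_zf kap _)) y p
    · exact (lip_snd (gstep_lip hy0 hy1 hL hf hc _) _).measurable.comp (measurable_zf kap _)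
  have hbig : ∀ p : Ω × Λ, Integrable (fun ζ : κ → ℝ =>
      (1 / y) * Real.exp c * (cE P2 s (fun b => D ζ p.1 b) p.2 + Real.exp c * L * dl)) (gm κ) :=
    fun p => ((integrable_cE (fun b => hDi p.1 b) p.2).add (integrable_const _)).const_mul _
  have hsmall : ∀ p : Ω × Λ, Integrable (fun ζ : κ → ℝ =>
      |pm (pP P P2) (r.prod s) y (fun q => f (cmb (Yf q.2) (zf kap (x q.1) ζ))) p -
        gstep y (vv bv v) f (cmb (Yc p.2) (zf kap (cEv P r x p.1) ζ))|) (gm κ) := fun p =>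
    (hbig p).mono' (hgp p).aestronglyMeasurable (ae_of_all _ fun ζ => by
      rw [Real.norm_eq_abs, abs_abs]; exact hpt ζ p)
  refine (integral_mono (integrable_eE hsmall) (integrable_eE hbig) fun ζ =>
    eE_mono (pP_isProb hP hP2) fun p => hpt ζ p).trans ?_
  have h5 : ∀ ζ, eE (pP P P2) (fun p => (1 / y) * Real.exp c *
      (cE P2 s (fun b => D ζ p.1 b) p.2 + Real.exp c * L * dl)) =
      (1 / y) * Real.exp c * (eE P2 (fun b => eE P (fun ω => D ζ ω b)) + Real.exp c * L * dl) := by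
    intro ζ
    rw [eE_smul, eE_add, eE_const (pP_isProb hP hP2), eE_pP]
    congr 2
    have : ∀ a, eE P2 (fun b => cE P2 s (fun b => D ζ a b) b) = eE P2 (fun b => D ζ a b) :=
      fun a => eE_cE hP2 s _
    simp_rw [this]
    exact eE_comm _
  simp_rw [h5]
  rw [integral_const_mul, integral_add (integrable_eE fun b => integrable_eE fun ω => hDi ω b)
    (integrable_const _), integral_eE fun b => integrable_eE fun ω => hDi ω b]
  refine mul_le_mul_of_nonneg_left ?_ (by positivity)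
  simp only [integral_const, probReal_univ, one_smul]
  refine add_le_add ?_ le_rfl
  refine eE_le_of_le hP2 fun b => ?_
  exact first_moment hP kap x hQb hQ hL hy0.le hy1 (lip_snd hf (Yf b)) (fun z => hc _) hη

end onestep

end

end Crest.Agent.R164.CavG
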