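import Crest.Agent.R164.CavG4

/-!
Row 164, Gaussian cavity limit, part 5: the chain of power means versus the nested Gaussian
functional.
-/

set_option autoImplicit false

namespace Crest.Agent.R164.CavG

open MeasureTheory ProbabilityTheory Finset Crest.Agent.R141 Crest.Agent.R141.Fact

noncomputable section

/-- the vectors `E_{r (n-1)} x`. -/
def XX {Ω κ : Type*} [Fintype Ω] (P : Ω → ℝ) (r : ℕ → Setoid Ω) (x : Ω → κ → ℝ) :
    ℕ → Ω → κ → ℝ
  | 0 => x
  | n + 1 => cEv P (r n) x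

/-- the mean deviation bound. -/
def etaB (nb : ℕ) (C δ : ℝ) : ℝ :=
  5 * δ + nb * (6 * Real.sqrt (C * Real.sqrt δ) + Real.sqrt δ)

/-- error of one step. -/
def stepB (β : Type*) [Fintype β] (c L C δ dl y0 : ℝ) : ℝ :=
  (1 / y0) * Real.exp c * (Real.sqrt (SM β c L (etaB (Fintype.card β) C δ)) + Real.exp c * L * dl)

/-- The data of the cavity limit theorem. -/
structure Cav {Ω Λ κ β : Type} [Fintype Ω] [Fintype Λ] [Fintype κ] [Fintype β] [DecidableEq β]
    (P : Ω → ℝ) (P2 : Λ → ℝ) (r : ℕ → Setoid Ω) (s : ℕ → Setoid Λ) (J : ℕ) (kap : κ → β)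
    (x : Ω → κ → ℝ) (Q : ℕ → β → ℝ) (Y : ℕ → Λ → ℝ) (bv : ℕ → ℝ) (C δ dl : ℝ) : Prop where
  hP : IsProb P
  hP2 : IsProb P2
  mono : ∀ n, n < J → r n ≤ r (n + 1)
  hC : ∀ ω, ∑ i, x ω i ^ 2 ≤ C
  hδ : 0 ≤ δ
  hdl : 0 ≤ dl
  /-- ideal overlaps -/
  Q0 : ∀ n k, n ≤ J + 1 → 0 ≤ Q n k
  Qm : ∀ n k, n ≤ J → Q (n + 1) k ≤ Q n k
  /-- the block overlaps are close to the ideal ones -/
  ov : ∀ n ≤ J + 1, ∑ k, eE P (fun ω => |ip kap k (XX P r x n ω) (XX P r x n ω) - Q n k|) ≤ δ
  /-- purity -/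
  pr : ∀ n ≤ J, pur P (r n) x ≤ δ
  /-- central limit hypothesis for the label variable -/
  clt : ∀ n ≤ J, ∀ (L : ℝ) (h : ℝ → ℝ), 0 ≤ L → (∀ a b, |h a - h b| ≤ L * |a - b|) → ∀ l,
      |cE P2 (s n) (fun b => h (Y n b)) l -
        ∫ g, h (Y (n + 1) l + Real.sqrt (bv n) * g) ∂(gaussianReal 0 1)| ≤ L * dl
  clt0 : ∀ (L : ℝ) (h : ℝ → ℝ), 0 ≤ L → (∀ a b, |h a - h b| ≤ L * |a - b|) →
      |eE P2 (fun b => h (Y (J + 1) b)) -
        ∫ g, h (Real.sqrt (bv (J + 1)) * g) ∂(gaussianReal 0 1)| ≤ L * dl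

/-- the variances of the nested functional. -/
def vC {β : Type} (J : ℕ) (Q : ℕ → β → ℝ) (bv : ℕ → ℝ) (n : ℕ) : Unit ⊕ β → ℝ :=
  vv (bv n) (fun k => if n ≤ J then Q n k - Q (n + 1) k else Q n k)

namespace Cav

variable {Ω Λ κ β : Type} [Fintype Ω] [Fintype Λ] [Fintype κ] [Fintype β] [DecidableEq β]
    {P : Ω → ℝ} {P2 : Λ → ℝ} {r : ℕ → Setoid Ω} {s : ℕ → Setoid Λ} {J : ℕ} {kap : κ → β}
    {x : Ω → κ → ℝ} {Q : ℕ → β → ℝ} {Y : ℕ → Λ → ℝ} {bv : ℕ → ℝ} {C δ dl : ℝ}

theorem r_mono (H : Cav P P2 r s J kap x Q Y bv C δ dl) {m n : ℕ} (h : m ≤ n) (hn : n ≤ J) :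
    r m ≤ r n := by
  induction n, h using Nat.le_induction with
  | base => exact le_refl _
  | succ n _ ih => exact (ih (by omega)).trans (H.mono n (by omega))

theorem cEv_XX (H : Cav P P2 r s J kap x Q Y bv C δ dl) {n : ℕ} (hn : n ≤ J) :
    cEv P (r n) (XX P r x n) = XX P r x (n + 1) := by
  cases n with
  | zero => rfl
  | succ m => exact cEv_tower H.hP (H.mono m (by omega)) x

theorem pur_XX (H : Cav P P2 r s J kap x Q Y bv C δ dl) {n : ℕ} (hn : n ≤ J) :
    pur P (r n) (XX P r x n) ≤ δ := by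
  cases n with
  | zero => exact H.pr 0 hn
  | succ m => exact (pur_cEv_le H.hP (H.mono m (by omega)) x).trans (H.pr (m + 1) hn)

theorem sumsq_XX (H : Cav P P2 r s J kap x Q Y bv C δ dl) (n : ℕ) (ω : Ω) :
    ∑ i, XX P r x n ω i ^ 2 ≤ C := by
  cases n with
  | zero => exact H.hC ω
  | succ m => exact sum_sq_cEv_le H.hP H.hC ω

theorem C_nonneg (H : Cav P P2 r s J kap x Q Y bv C δ dl) : 0 ≤ C := by
  obtain ⟨ω⟩ := nonempty_of_isProb H.hP
  exact (Finset.sum_nonneg fun _ _ => sq_nonneg _).trans (H.hC ω)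

theorem gdev_XX (H : Cav P P2 r s J kap x Q Y bv C δ dl) {n : ℕ} (hn : n ≤ J) :
    E3 P (r n) (fun ω a b => gdev kap (Q (n + 1)) (fun k => Q n k - Q (n + 1) k)
      (cEv P (r n) (XX P r x n) ω) (dv P (r n) (XX P r x n) ω a)
      (dv P (r n) (XX P r x n) ω b)) ≤ etaB (Fintype.card β) C δ := by
  have h1 := E3_gdev_le (r := r n) H.hP kap (XX P r x n) (C := C) (fun ω => by
    rw [H.cEv_XX hn]; exact H.sumsq_XX (n + 1) ω) (Q n) (Q (n + 1))
  refine h1.trans ?_
  rw [H.cEv_XX hn]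
  have h2 := H.ov (n + 1) (by omega)
  have h3 := H.ov n (by omega)
  have h4 := H.pur_XX hn
  have h5 : Real.sqrt (pur P (r n) (XX P r x n)) ≤ Real.sqrt δ := Real.sqrt_le_sqrt h4
  have h6 : Real.sqrt (C * Real.sqrt (pur P (r n) (XX P r x n))) ≤
      Real.sqrt (C * Real.sqrt δ) :=
    Real.sqrt_le_sqrt (mul_le_mul_of_nonneg_left h5 H.C_nonneg)
  have h7 : (Fintype.card β : ℝ) * (6 * Real.sqrt (C * Real.sqrt (pur P (r n) (XX P r x n))) +
      Real.sqrt (pur P (r n) (XX P r x n))) ≤ (Fintype.card β : ℝ) *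
        (6 * Real.sqrt (C * Real.sqrt δ) + Real.sqrt δ) :=
    mul_le_mul_of_nonneg_left (by linarith) (by positivity)
  unfold etaB
  linarith

/-- the field point at depth `n`. -/
def pt (P : Ω → ℝ) (r : ℕ → Setoid Ω) (kap : κ → β) (x : Ω → κ → ℝ) (Y : ℕ → Λ → ℝ) (n : ℕ)
    (ζ : κ → ℝ) (p : Ω × Λ) : Unit ⊕ β → ℝ :=
  cmb (Y n p.2) (zf kap (XX P r x n p.1) ζ)

theorem vC_of_le {n : ℕ} (hn : n ≤ J) : vC J Q bv n = vv (bv n) (fun k => Q n k - Q (n + 1) k) := by
  unfold vC
  congr 1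
  funext k
  rw [if_pos hn]

theorem step (H : Cav P P2 r s J kap x Q Y bv C δ dl) {n : ℕ} (hn : n ≤ J) {L c y y0 : ℝ}
    (hL : 0 ≤ L) (hy0 : 0 < y0) (hyy : y0 ≤ y) (hy1 : y ≤ 1) {f : (Unit ⊕ β → ℝ) → ℝ}
    (hf : Lip L f) (hc : ∀ z, |f z| ≤ c) :
    ∫ ζ, eE (pP P P2) (fun p => |pm (pP P P2) ((r n).prod (s n)) y
        (fun q => f (pt P r kap x Y n ζ q)) p -
        gstep y (vC J Q bv n) f (pt P r kap x Y (n + 1) ζ p)|) ∂(gm κ) ≤
      stepB β c L C δ dl y0 := by
  have hy : 0 < y := lt_of_lt_of_le hy0 hyy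
  have h := one_step H.hP H.hP2 kap (XX P r x n) (r := r n) (s := s n) (Q := Q n)
    (Qb := Q (n + 1)) (fun k => H.Q0 (n + 1) k (by omega)) (fun k => H.Qm n k hn) hL hy hy1 hf hc
    (η := etaB (Fintype.card β) C δ) (H.gdev_XX hn) (Y n) (Y (n + 1)) (bv := bv n) (dl := dl)
    (fun L h hL hh l => H.clt n hn L h hL hh l)
  rw [H.cEv_XX hn] at h
  rw [vC_of_le hn]
  refine h.trans ?_
  unfold stepB
  refine mul_le_mul_of_nonneg_right ?_ (by have := H.hdl; positivity)
  refine mul_le_mul_of_nonneg_right ?_ (Real.exp_pos _).le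
  exact one_div_le_one_div_of_le hy0 hyy

theorem pm_sub_le {Ω' : Type*} [Fintype Ω'] {P' : Ω' → ℝ} (hP' : IsProb P') (r' : Setoid Ω')
    {y c : ℝ} (hy0 : 0 < y) (hy1 : y ≤ 1) {f g : Ω' → ℝ} (hf : ∀ a, |f a| ≤ c)
    (hg : ∀ a, |g a| ≤ c) (ω : Ω') :
    |pm P' r' y f ω - pm P' r' y g ω| ≤ Real.exp (2 * c) * cE P' r' (fun a => |f a - g a|) ω := by
  -- sharper: use `exp (y a)` is `y exp(c)`-Lipschitz
  have hl : ∀ a b : ℝ, |a| ≤ c → |b| ≤ c → |Real.exp (y * a) - Real.exp (y * b)| ≤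
      y * Real.exp c * |a - b| := by
    have key : ∀ a b : ℝ, |a| ≤ c → |b| ≤ c → Real.exp (y * a) - Real.exp (y * b) ≤
        y * Real.exp c * |a - b| := by
      intro a b ha hb
      have hc0 : 0 ≤ c := (abs_nonneg _).trans ha
      by_cases hab : a ≤ b
      · have : Real.exp (y * a) ≤ Real.exp (y * b) :=
          Real.exp_le_exp.2 (mul_le_mul_of_nonneg_left hab hy0.le)
        have h2 : 0 ≤ y * Real.exp c * |a - b| := by positivity
        linarith
      · have hab : b ≤ a := le_of_lt (not_le.1 hab)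
        have h1 : 1 + (y * b - y * a) ≤ Real.exp (y * b - y * a) := by
          have := Real.add_one_le_exp (y * b - y * a); linarith
        have h2 : Real.exp (y * b) = Real.exp (y * a) * Real.exp (y * b - y * a) := by
          rw [← Real.exp_add]; congr 1; ring
        have h3 := (exp_bounds hy0.le hy1 ha).2
        have h4 : 0 < Real.exp (y * a) := Real.exp_pos _
        rw [abs_of_nonneg (sub_nonneg.2 hab)]
        have h5 : Real.exp (y * a) - Real.exp (y * b) ≤ Real.exp (y * a) * (y * (a - b)) := by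
          rw [h2]; nlinarith
        refine h5.trans ?_
        have h7 : 0 ≤ y * (a - b) := mul_nonneg hy0.le (sub_nonneg.2 hab)
        nlinarith
    intro a b ha hb
    have h1 := key a b ha hb
    have h2 := key b a hb ha
    rw [abs_sub_comm b a] at h2
    rw [abs_le]
    constructor <;> linarith
  set A := cE P' r' (fun a => Real.exp (y * f a)) ω with hA
  set B := cE P' r' (fun a => Real.exp (y * g a)) ω with hB
  have e1 : pm P' r' y f ω = (1 / y) * Real.log A := rfl
  have e2 : pm P' r' y g ω = (1 / y) * Real.log B := rfl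
  have hAl : Real.exp (-c) ≤ A := le_cE_of_le hP' (fun q => (exp_bounds hy0.le hy1 (hf _)).1) ω
  have hBl : Real.exp (-c) ≤ B := le_cE_of_le hP' (fun q => (exp_bounds hy0.le hy1 (hg _)).1) ω
  rw [e1, e2, ← mul_sub, abs_mul, abs_of_pos (by positivity : (0 : ℝ) < 1 / y)]
  have h1 := abs_log_sub_le' hAl hBl
  have h2 : |A - B| ≤ y * Real.exp c * cE P' r' (fun a => |f a - g a|) ω := by
    rw [hA, hB, ← cE_sub]
    refine (cE_abs_le hP' _ _).trans ?_
    rw [← cE_smul]
    exact cE_mono' hP' (fun a => hl _ _ (hf a) (hg a)) ω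
  have h3 : Real.exp c * |A - B| ≤ Real.exp c * (y * Real.exp c * cE P' r' (fun a => |f a - g a|) ω) :=
    mul_le_mul_of_nonneg_left h2 (Real.exp_pos _).le
  have h4 := mul_le_mul_of_nonneg_left (h1.trans h3) (by positivity : (0 : ℝ) ≤ 1 / y)
  refine h4.trans (le_of_eq ?_)
  have h5 : Real.exp (2 * c) = Real.exp c * Real.exp c := by rw [← Real.exp_add]; congr 1; ring
  rw [h5]
  field_simp

theorem skelA_bound {Ω' : Type} [Fintype Ω'] {P' : Ω' → ℝ} (hP' : IsProb P')
    (r' : ℕ → Setoid Ω') {y : ℕ → ℝ} {c : ℝ} (hy0 : ∀ n ≤ J, 0 < y n) {U : Ω' → ℝ}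
    (hU : ∀ a, |U a| ≤ c) :
    ∀ n ≤ J + 1, ∀ ω, |skelA P' r' y U n ω| ≤ c := by
  intro n
  induction n with
  | zero => exact fun _ ω => hU ω
  | succ n ih =>
    intro hn ω
    have ih' := ih (by omega)
    have hy := hy0 n (by omega)
    have h1 : pm P' (r' n) (y n) (fun _ => -c) ω ≤ pm P' (r' n) (y n) (skelA P' r' y U n) ω :=
      pm_mono hP' hy ω fun a _ => (abs_le.1 (ih' a)).1
    have h2 : pm P' (r' n) (y n) (skelA P' r' y U n) ω ≤ pm P' (r' n) (y n) (fun _ => c) ω :=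
      pm_mono hP' hy ω fun a _ => (abs_le.1 (ih' a)).2
    rw [pm_const hP' _ hy] at h1 h2
    exact abs_le.2 ⟨h1, h2⟩

/-- **The chain.** -/
theorem chain (H : Cav P P2 r s J kap x Q Y bv C δ dl) {y : ℕ → ℝ} {y0 L c : ℝ} (hy0 : 0 < y0)
    (hy : ∀ n ≤ J, y0 ≤ y n) (hy1 : ∀ n ≤ J, y n ≤ 1) (hL : 0 ≤ L) {w : (Unit ⊕ β → ℝ) → ℝ}
    (hw : Lip L w) (hc : ∀ z, |w z| ≤ c) :
    ∀ n ≤ J + 1, ∫ ζ, eE (pP P P2) (fun p => |skelA (pP P P2) (fun n => (r n).prod (s n)) y
        (fun q => w (pt P r kap x Y 0 ζ q)) n p -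
        th y (vC J Q bv) w n (pt P r kap x Y n ζ p)|) ∂(gm κ) ≤
      n * Real.exp (2 * c) ^ n * stepB β c L C δ dl y0 := by
  have hPP := pP_isProb H.hP H.hP2
  have hyp : ∀ n ≤ J, 0 < y n := fun n hn => lt_of_lt_of_le hy0 (hy n hn)
  have hc0 : 0 ≤ c := (abs_nonneg _).trans (hc 0)
  have hB0 : 0 ≤ stepB β c L C δ dl y0 := by
    have := H.hdl
    unfold stepB
    positivity
  have hw0 : ∀ ζ q, |(fun q => w (pt P r kap x Y 0 ζ q)) q| ≤ c := fun ζ q => hc _
  have hmpt : ∀ n p, Measurable fun ζ : κ → ℝ => pt P r kap x Y n ζ p := by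
    intro n p
    refine measurable_pi_lambda _ fun k => ?_
    rcases k with k | k
    · exact measurable_const
    · exact (measurable_pi_apply k).comp (measurable_zf kap (XX P r x n p.1))
  have hms : ∀ n p, Measurable fun ζ : κ → ℝ => skelA (pP P P2) (fun n => (r n).prod (s n)) y
        (fun q => w (pt P r kap x Y 0 ζ q)) n p := fun n p =>
    measurable_skelA (fun a => hw.measurable.comp (hmpt 0 a)) n p
  intro n
  induction n with
  | zero =>
    intro _
    simp only [th_zero, skelA, sub_self, abs_zero]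
    rw [show (fun _ : κ → ℝ => eE (pP P P2) (fun _ => (0 : ℝ))) = fun _ => 0 from by
      funext _; exact eE_const hPP 0]
    simp
  | succ n ih =>
    intro hn
    have ih' := ih (by omega)
    have hn' : n ≤ J := by omega
    obtain ⟨hthL, hthb⟩ := th_lip_bound hyp hy1 hL hw hc (vC J Q bv) n (by omega)
    obtain ⟨hthL', hthb'⟩ := th_lip_bound hyp hy1 hL hw hc (vC J Q bv) (n + 1) (by omega)
    have hst := H.step hn' hL hy0 (hy n hn') (hy1 n hn') hthL hthb
    -- pointwise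
    have hpt : ∀ ζ p, |skelA (pP P P2) (fun n => (r n).prod (s n)) y
        (fun q => w (pt P r kap x Y 0 ζ q)) (n + 1) p -
        th y (vC J Q bv) w (n + 1) (pt P r kap x Y (n + 1) ζ p)| ≤
        Real.exp (2 * c) * cE (pP P P2) ((r n).prod (s n)) (fun p =>
          |skelA (pP P P2) (fun n => (r n).prod (s n)) y
            (fun q => w (pt P r kap x Y 0 ζ q)) n p -
            th y (vC J Q bv) w n (pt P r kap x Y n ζ p)|) p +
        |pm (pP P P2) ((r n).prod (s n)) (y n)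
          (fun q => th y (vC J Q bv) w n (pt P r kap x Y n ζ q)) p -
          gstep (y n) (vC J Q bv n) (th y (vC J Q bv) w n) (pt P r kap x Y (n + 1) ζ p)| := by
      intro ζ p
      have h1 := pm_sub_le hPP ((r n).prod (s n)) (hyp n hn') (hy1 n hn')
        (f := skelA (pP P P2) (fun n => (r n).prod (s n)) y
            (fun q => w (pt P r kap x Y 0 ζ q)) n)
        (g := fun q => th y (vC J Q bv) w n (pt P r kap x Y n ζ q))
        (skelA_bound hPP _ hyp (hw0 ζ) n (by omega)) (fun q => hthb _) p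
      have e1 : skelA (pP P P2) (fun n => (r n).prod (s n)) y
        (fun q => w (pt P r kap x Y 0 ζ q)) (n + 1) p = pm (pP P P2) ((r n).prod (s n)) (y n)
          (skelA (pP P P2) (fun n => (r n).prod (s n)) y
            (fun q => w (pt P r kap x Y 0 ζ q)) n) p := rfl
      rw [e1, th_succ]
      exact (abs_sub_le _ (pm (pP P P2) ((r n).prod (s n)) (y n)
        (fun q => th y (vC J Q bv) w n (pt P r kap x Y n ζ q)) p) _).trans
          (add_le_add h1 le_rfl)
    have hi1 : ∀ p, Integrable (fun ζ : κ → ℝ => |skelA (pP P P2) (fun n => (r n).prod (s n)) y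
            (fun q => w (pt P r kap x Y 0 ζ q)) n p -
            th y (vC J Q bv) w n (pt P r kap x Y n ζ p)|) (gm κ) := by
      intro p
      refine Integrable.of_bound (C := 2 * c) (continuous_abs.measurable.comp
        ((hms n p).sub (hthL.measurable.comp (hmpt n p)))).aestronglyMeasurable
        (ae_of_all _ fun ζ => ?_)
      rw [Real.norm_eq_abs, abs_abs]
      have h1 := skelA_bound hPP (fun n => (r n).prod (s n)) hyp (hw0 ζ) n (by omega) p
      have h2 := hthb (pt P r kap x Y n ζ p)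
      refine (abs_sub _ _).trans (by linarith)
    have hi3 : ∀ p, Integrable (fun ζ : κ → ℝ => |pm (pP P P2) ((r n).prod (s n)) (y n)
          (fun q => th y (vC J Q bv) w n (pt P r kap x Y n ζ q)) p -
          gstep (y n) (vC J Q bv n) (th y (vC J Q bv) w n) (pt P r kap x Y (n + 1) ζ p)|)
          (gm κ) := by
      intro p
      refine Integrable.of_bound (C := 2 * c) (continuous_abs.measurable.comp
        ((measurable_pm (fun q => hthL.measurable.comp (hmpt n q)) (y n) p).sub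
          (hthL'.measurable.comp (hmpt (n + 1) p)))).aestronglyMeasurable
        (ae_of_all _ fun ζ => ?_)
      rw [Real.norm_eq_abs, abs_abs]
      have h2 := hthb' (pt P r kap x Y (n + 1) ζ p)
      rw [th_succ] at h2
      have h3 : |pm (pP P P2) ((r n).prod (s n)) (y n)
          (fun q => th y (vC J Q bv) w n (pt P r kap x Y n ζ q)) p| ≤ c := by
        have hp := hyp n hn'
        have h1 : pm (pP P P2) ((r n).prod (s n)) (y n) (fun _ => -c) p ≤
            pm (pP P P2) ((r n).prod (s n)) (y n)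
              (fun q => th y (vC J Q bv) w n (pt P r kap x Y n ζ q)) p :=
          pm_mono hPP hp p fun a _ => (abs_le.1 (hthb _)).1
        have h2 : pm (pP P P2) ((r n).prod (s n)) (y n)
              (fun q => th y (vC J Q bv) w n (pt P r kap x Y n ζ q)) p ≤
            pm (pP P P2) ((r n).prod (s n)) (y n) (fun _ => c) p :=
          pm_mono hPP hp p fun a _ => (abs_le.1 (hthb _)).2
        rw [pm_const hPP _ hp] at h1 h2
        exact abs_le.2 ⟨h1, h2⟩
      refine (abs_sub _ _).trans (by linarith)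
    have hi2 : ∀ p, Integrable (fun ζ : κ → ℝ => Real.exp (2 * c) *
        cE (pP P P2) ((r n).prod (s n)) (fun p =>
          |skelA (pP P P2) (fun n => (r n).prod (s n)) y
            (fun q => w (pt P r kap x Y 0 ζ q)) n p -
            th y (vC J Q bv) w n (pt P r kap x Y n ζ p)|) p) (gm κ) := fun p =>
      (integrable_cE hi1 p).const_mul _
    have hi0 : ∀ p, Integrable (fun ζ : κ → ℝ => |skelA (pP P P2) (fun n => (r n).prod (s n)) y
            (fun q => w (pt P r kap x Y 0 ζ q)) (n + 1) p -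
            th y (vC J Q bv) w (n + 1) (pt P r kap x Y (n + 1) ζ p)|) (gm κ) := fun p =>
      ((hi2 p).add (hi3 p)).mono' (continuous_abs.measurable.comp
        ((hms (n + 1) p).sub (hthL'.measurable.comp (hmpt (n + 1) p)))).aestronglyMeasurable
        (ae_of_all _ fun ζ => by
          rw [Real.norm_eq_abs, abs_abs]; exact hpt ζ p)
    have hmain : ∫ ζ, eE (pP P P2) (fun p => |skelA (pP P P2) (fun n => (r n).prod (s n)) y
        (fun q => w (pt P r kap x Y 0 ζ q)) (n + 1) p -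
        th y (vC J Q bv) w (n + 1) (pt P r kap x Y (n + 1) ζ p)|) ∂(gm κ) ≤
        Real.exp (2 * c) * (n * Real.exp (2 * c) ^ n * stepB β c L C δ dl y0) +
          stepB β c L C δ dl y0 := by
      refine (integral_mono (integrable_eE hi0) (integrable_eE fun p => (hi2 p).add (hi3 p))
        fun ζ => eE_mono hPP fun p => hpt ζ p).trans ?_
      have e2 : ∀ ζ, eE (pP P P2) (fun p => Real.exp (2 * c) *
        cE (pP P P2) ((r n).prod (s n)) (fun p =>
          |skelA (pP P P2) (fun n => (r n).prod (s n)) y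
            (fun q => w (pt P r kap x Y 0 ζ q)) n p -
            th y (vC J Q bv) w n (pt P r kap x Y n ζ p)|) p +
          |pm (pP P P2) ((r n).prod (s n)) (y n)
            (fun q => th y (vC J Q bv) w n (pt P r kap x Y n ζ q)) p -
            gstep (y n) (vC J Q bv n) (th y (vC J Q bv) w n) (pt P r kap x Y (n + 1) ζ p)|) =
          Real.exp (2 * c) * eE (pP P P2) (fun p =>
            |skelA (pP P P2) (fun n => (r n).prod (s n)) y
            (fun q => w (pt P r kap x Y 0 ζ q)) n p -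
            th y (vC J Q bv) w n (pt P r kap x Y n ζ p)|) +
          eE (pP P P2) (fun p => |pm (pP P P2) ((r n).prod (s n)) (y n)
            (fun q => th y (vC J Q bv) w n (pt P r kap x Y n ζ q)) p -
            gstep (y n) (vC J Q bv n) (th y (vC J Q bv) w n) (pt P r kap x Y (n + 1) ζ p)|) := by
        intro ζ
        rw [eE_add, eE_smul, eE_cE hPP]
      simp only [Pi.add_apply]
      simp_rw [e2]
      rw [integral_add ((integrable_eE hi1).const_mul _) (integrable_eE hi3),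
        integral_const_mul]
      exact add_le_add (mul_le_mul_of_nonneg_left ih' (Real.exp_pos _).le) hst
    refine hmain.trans ?_
    have h1 : (1 : ℝ) ≤ Real.exp (2 * c) ^ (n + 1) :=
      one_le_pow₀ (Real.one_le_exp (by positivity))
    have h2 : Real.exp (2 * c) * (n * Real.exp (2 * c) ^ n * stepB β c L C δ dl y0) =
        n * Real.exp (2 * c) ^ (n + 1) * stepB β c L C δ dl y0 := by ring
    rw [h2]
    push_cast
    nlinarith

end Cav

end

end Crest.Agent.R164.CavG
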