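import Crest.Agent.R164.CavG5

/-!
Row 164, Gaussian cavity limit, part 6: the limit theorem for the skeleton functional.
-/

set_option autoImplicit false

namespace Crest.Agent.R164.CavG

open MeasureTheory ProbabilityTheory Finset Crest.Agent.R141 Crest.Agent.R141.Fact

noncomputable section

theorem abs_sqrt_sub_sqrt_le {a b : ℝ} (ha : 0 ≤ a) (hb : 0 ≤ b) :
    |Real.sqrt a - Real.sqrt b| ≤ Real.sqrt |a - b| := by
  refine Real.abs_le_sqrt ?_
  have h1 := Real.sq_sqrt ha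
  have h2 := Real.sq_sqrt hb
  have h3 := Real.sqrt_nonneg a
  have h4 := Real.sqrt_nonneg b
  rcases le_total (Real.sqrt a) (Real.sqrt b) with h | h
  · refine le_trans ?_ (neg_le_abs _)
    nlinarith
  · refine le_trans ?_ (le_abs_self _)
    nlinarith

section block

variable {κ β : Type*} [Fintype κ] [Fintype β] [DecidableEq β]

/-- the block fields of a deterministic vector. -/
theorem block_int (kap : κ → β) (x : κ → ℝ) {Q : β → ℝ} (hQ : ∀ k, 0 ≤ Q k) {L : ℝ} (hL : 0 ≤ L)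
    {F : (β → ℝ) → ℝ} (hF : Lip L F) :
    |∫ ζ, F (zf kap x ζ) ∂(gm κ) - sm Q F 0| ≤ L * ∑ k, Real.sqrt |ip kap k x x - Q k| := by
  have h1 : ∫ ζ, F (zf kap x ζ) ∂(gm κ) =
      ∫ g, F (fun a => Real.sqrt (ip kap a x x) * g a) ∂(gm β) := by
    refine integral_diag (fun k i => if kap i = k then x i else 0) (fun k => ip kap k x x)
      (fun k => ip_self_nonneg kap k x) (fun a b => ?_) hF.measurable
    rw [sum_block]
  have e : ∀ (d : β → ℝ) (g : β → ℝ), (fun a => Real.sqrt (d a) * g a) =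
      lin (fun a b => if a = b then Real.sqrt (d a) else 0) g := by
    intro d g
    funext a
    simp [lin]
  have h2 : sm Q F 0 = ∫ g, F (fun a => Real.sqrt (Q a) * g a) ∂(gm β) := by
    unfold sm
    simp
  rw [h1, h2]
  simp_rw [e]
  refine (diff_lin _ _ hL hF).trans (mul_le_mul_of_nonneg_left ?_ hL)
  refine Finset.sum_le_sum fun a _ => ?_
  have e2 : ∑ i, ((if a = i then Real.sqrt (ip kap a x x) else 0) -
      (if a = i then Real.sqrt (Q a) else 0)) ^ 2 =
      (Real.sqrt (ip kap a x x) - Real.sqrt (Q a)) ^ 2 := by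
    rw [Finset.sum_eq_single a]
    · simp
    · intro b _ hb
      rw [if_neg (Ne.symm hb), if_neg (Ne.symm hb)]
      ring
    · intro h; exact absurd (Finset.mem_univ a) h
  rw [e2, Real.sqrt_sq_eq_abs]
  exact abs_sqrt_sub_sqrt_le (ip_self_nonneg kap a x) (hQ a)

end block

/-- the final error. -/
def finB (β : Type*) [Fintype β] (J : ℕ) (c L C y0 δ dl : ℝ) : ℝ :=
  ((J : ℝ) + 1) * Real.exp (2 * c) ^ (J + 1) * stepB β c L C δ dl y0 +
    L * ((Fintype.card β : ℝ) * Real.sqrt δ) + L * dl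

/-- the error is small. -/
theorem finB_small (β : Type*) [Fintype β] (J : ℕ) (c L C y0 : ℝ) {ε : ℝ} (hε : 0 < ε) :
    ∃ d > 0, ∀ δ dl, 0 ≤ δ → δ ≤ d → 0 ≤ dl → dl ≤ d → finB β J c L C y0 δ dl ≤ ε := by
  have hc : Continuous fun p : ℝ × ℝ => finB β J c L C y0 p.1 p.2 := by
    unfold finB stepB SM etaB
    fun_prop
  have h0 : finB β J c L C y0 0 0 = 0 := by
    unfold finB stepB SM etaB
    simp
  have h1 : Filter.Tendsto (fun p : ℝ × ℝ => finB β J c L C y0 p.1 p.2) (nhds (0, 0))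
      (nhds 0) := by
    have := hc.tendsto (0, 0)
    simpa [h0] using this
  have h2 := h1.eventually (gt_mem_nhds hε)
  obtain ⟨d, hd, h3⟩ := Metric.eventually_nhds_iff.1 h2
  refine ⟨d / 2, by positivity, fun δ dl h4 h5 h6 h7 => ?_⟩
  have h8 : dist ((δ, dl) : ℝ × ℝ) (0, 0) < d := by
    rw [Prod.dist_eq]
    simp only [Real.dist_eq, sub_zero, abs_of_nonneg h4, abs_of_nonneg h6]
    exact max_lt (by linarith) (by linarith)
  exact (h3 h8).le

namespace Cav

variable {Ω Λ κ β : Type} [Fintype Ω] [Fintype Λ] [Fintype κ] [Fintype β] [DecidableEq β]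
    {P : Ω → ℝ} {P2 : Λ → ℝ} {r : ℕ → Setoid Ω} {s : ℕ → Setoid Λ} {J : ℕ} {kap : κ → β}
    {x : Ω → κ → ℝ} {Q : ℕ → β → ℝ} {Y : ℕ → Λ → ℝ} {bv : ℕ → ℝ} {C δ dl : ℝ}

/-- the bottom expectation. -/
theorem bottom (H : Cav P P2 r s J kap x Q Y bv C δ dl) {L : ℝ} (hL : 0 ≤ L)
    {F : (Unit ⊕ β → ℝ) → ℝ} (hF : Lip L F) :
    |∫ ζ, eE (pP P P2) (fun p => F (pt P r kap x Y (J + 1) ζ p)) ∂(gm κ) -
      sm (vC J Q bv (J + 1)) F 0| ≤ L * ((Fintype.card β : ℝ) * Real.sqrt δ) + L * dl := by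
  have : Nonempty Ω := nonempty_of_isProb H.hP
  have hi : ∀ p, Integrable (fun ζ : κ → ℝ => F (pt P r kap x Y (J + 1) ζ p)) (gm κ) := fun p =>
    integrable_zf kap (XX P r x (J + 1) p.1) (lip_snd hF (Y (J + 1) p.2))
  rw [integral_eE hi, eE_pP]
  have hv : vC J Q bv (J + 1) = vv (bv (J + 1)) (Q (J + 1)) := by
    unfold vC
    congr 1
    funext k
    rw [if_neg (by omega)]
  have hz : (0 : Unit ⊕ β → ℝ) = cmb 0 0 := by
    funext k
    rcases k with k | k <;> rfl
  rw [hv, hz, sm_vv hF]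
  -- replace the overlaps
  have h1 : |eE P (fun a => eE P2 (fun b => ∫ ζ, F (pt P r kap x Y (J + 1) ζ (a, b)) ∂(gm κ))) -
      eE P2 (fun b => sm (Q (J + 1)) (fun z => F (cmb (Y (J + 1) b) z)) 0)| ≤
      L * ((Fintype.card β : ℝ) * Real.sqrt δ) := by
    have e1 : eE P2 (fun b => sm (Q (J + 1)) (fun z => F (cmb (Y (J + 1) b) z)) 0) =
        eE P (fun _ => eE P2 (fun b => sm (Q (J + 1)) (fun z => F (cmb (Y (J + 1) b) z)) 0)) :=
      (eE_const H.hP _).symm
    rw [e1, ← eE_sub]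
    refine (eE_abs_le H.hP _).trans ?_
    have h2 : ∀ a, |eE P2 (fun b => ∫ ζ, F (pt P r kap x Y (J + 1) ζ (a, b)) ∂(gm κ)) -
        eE P2 (fun b => sm (Q (J + 1)) (fun z => F (cmb (Y (J + 1) b) z)) 0)| ≤
        L * ∑ k, Real.sqrt |ip kap k (XX P r x (J + 1) a) (XX P r x (J + 1) a) - Q (J + 1) k| := by
      intro a
      rw [← eE_sub]
      refine (eE_abs_le H.hP2 _).trans ?_
      refine (eE_mono H.hP2 (g := fun _ => L * ∑ k, Real.sqrt
        |ip kap k (XX P r x (J + 1) a) (XX P r x (J + 1) a) - Q (J + 1) k|) fun b => ?_).trans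
        (le_of_eq (eE_const H.hP2 _))
      exact block_int kap (XX P r x (J + 1) a) (H.Q0 (J + 1) · le_rfl) hL
        (lip_snd hF (Y (J + 1) b))
    refine (eE_mono H.hP h2).trans ?_
    rw [eE_smul, eE_sum]
    refine mul_le_mul_of_nonneg_left ?_ hL
    have h3 : ∀ k, eE P (fun a => Real.sqrt
        |ip kap k (XX P r x (J + 1) a) (XX P r x (J + 1) a) - Q (J + 1) k|) ≤ Real.sqrt δ := by
      intro k
      have h4 := eE_sq_le H.hP (fun a => Real.sqrt
        |ip kap k (XX P r x (J + 1) a) (XX P r x (J + 1) a) - Q (J + 1) k|)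
      refine Real.le_sqrt_of_sq_le (h4.trans ?_)
      have h5 : (fun a => Real.sqrt
        |ip kap k (XX P r x (J + 1) a) (XX P r x (J + 1) a) - Q (J + 1) k| ^ 2) =
        fun a => |ip kap k (XX P r x (J + 1) a) (XX P r x (J + 1) a) - Q (J + 1) k| := by
        funext a
        exact Real.sq_sqrt (abs_nonneg _)
      rw [h5]
      refine le_trans ?_ (H.ov (J + 1) le_rfl)
      exact Finset.single_le_sum (f := fun k => eE P (fun ω =>
        |ip kap k (XX P r x (J + 1) ω) (XX P r x (J + 1) ω) - Q (J + 1) k|))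
        (fun k _ => eE_nonneg H.hP fun ω => abs_nonneg _) (Finset.mem_univ k)
    refine (Finset.sum_le_sum fun k _ => h3 k).trans (le_of_eq ?_)
    simp
  have h2 := H.clt0 L (fun t => sm (Q (J + 1)) (fun z => F (cmb t z)) 0) hL
    (sm_lip_fst hF (Q (J + 1)) 0)
  have h3 := abs_sub_le
    (eE P (fun a => eE P2 (fun b => ∫ ζ, F (pt P r kap x Y (J + 1) ζ (a, b)) ∂(gm κ))))
    (eE P2 (fun b => sm (Q (J + 1)) (fun z => F (cmb (Y (J + 1) b) z)) 0))
    (∫ g, sm (Q (J + 1)) (fun z => F (cmb (0 + Real.sqrt (bv (J + 1)) * g) z)) 0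
      ∂(gaussianReal 0 1))
  refine h3.trans (add_le_add h1 ?_)
  simp only [zero_add]
  exact h2

/-- **The Gaussian cavity limit** (skeleton form). -/
theorem final (H : Cav P P2 r s J kap x Q Y bv C δ dl) {y : ℕ → ℝ} {y0 L c : ℝ} (hy0 : 0 < y0)
    (hy : ∀ n ≤ J, y0 ≤ y n) (hy1 : ∀ n ≤ J, y n ≤ 1) (hL : 0 ≤ L) {w : (Unit ⊕ β → ℝ) → ℝ}
    (hw : Lip L w) (hc : ∀ z, |w z| ≤ c) :
    |∫ ζ, eE (pP P P2) (skelA (pP P P2) (fun n => (r n).prod (s n)) y
        (fun q => w (pt P r kap x Y 0 ζ q)) (J + 1)) ∂(gm κ) - gval J y (vC J Q bv) w| ≤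
      finB β J c L C y0 δ dl := by
  have hPP := pP_isProb H.hP H.hP2
  have hyp : ∀ n ≤ J, 0 < y n := fun n hn => lt_of_lt_of_le hy0 (hy n hn)
  have h1 := H.chain hy0 hy hy1 hL hw hc (J + 1) le_rfl
  obtain ⟨hthL, hthb⟩ := th_lip_bound hyp hy1 hL hw hc (vC J Q bv) (J + 1) le_rfl
  have h2 := H.bottom hL hthL
  have e1 : gval J y (vC J Q bv) w = sm (vC J Q bv (J + 1)) (th y (vC J Q bv) w (J + 1)) 0 := by
    unfold gval sm
    simp
  rw [e1]
  have hmpt : ∀ n p, Measurable fun ζ : κ → ℝ => pt P r kap x Y n ζ p := by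
    intro n p
    refine measurable_pi_lambda _ fun k => ?_
    rcases k with k | k
    · exact measurable_const
    · exact (measurable_pi_apply k).comp (measurable_zf kap (XX P r x n p.1))
  have hms : ∀ n p, Measurable fun ζ : κ → ℝ => skelA (pP P P2) (fun n => (r n).prod (s n)) y
        (fun q => w (pt P r kap x Y 0 ζ q)) n p := fun n p =>
    measurable_skelA (fun a => hw.measurable.comp (hmpt 0 a)) n p
  have hi1 : ∀ p, Integrable (fun ζ : κ → ℝ => skelA (pP P P2) (fun n => (r n).prod (s n)) y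
        (fun q => w (pt P r kap x Y 0 ζ q)) (J + 1) p) (gm κ) := fun p =>
    Integrable.of_bound (C := c) (hms (J + 1) p).aestronglyMeasurable (ae_of_all _ fun ζ => by
      rw [Real.norm_eq_abs]
      exact skelA_bound hPP (fun n => (r n).prod (s n)) hyp (fun q => hc _) (J + 1) le_rfl p)
  have hi2 : ∀ p, Integrable (fun ζ : κ → ℝ =>
      th y (vC J Q bv) w (J + 1) (pt P r kap x Y (J + 1) ζ p)) (gm κ) := fun p =>
    Integrable.of_bound (C := c) (hthL.measurable.comp (hmpt (J + 1) p)).aestronglyMeasurable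
      (ae_of_all _ fun ζ => by rw [Real.norm_eq_abs]; exact hthb _)
  have h3 : |∫ ζ, eE (pP P P2) (skelA (pP P P2) (fun n => (r n).prod (s n)) y
        (fun q => w (pt P r kap x Y 0 ζ q)) (J + 1)) ∂(gm κ) -
      ∫ ζ, eE (pP P P2) (fun p => th y (vC J Q bv) w (J + 1) (pt P r kap x Y (J + 1) ζ p))
        ∂(gm κ)| ≤ ((J : ℝ) + 1) * Real.exp (2 * c) ^ (J + 1) * stepB β c L C δ dl y0 := by
    rw [← integral_sub (integrable_eE hi1) (integrable_eE hi2)]
    refine abs_integral_le_integral_abs.trans ?_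
    refine le_trans ?_ (h1.trans (le_of_eq (by push_cast; ring)))
    refine integral_mono ((integrable_eE hi1).sub (integrable_eE hi2)).abs
      (integrable_eE fun p => ((hi1 p).sub (hi2 p)).abs) fun ζ => ?_
    show |eE (pP P P2) _ - eE (pP P P2) _| ≤ _
    rw [← eE_sub]
    exact eE_abs_le hPP _
  unfold finB
  refine (abs_sub_le _ (∫ ζ, eE (pP P P2) (fun p => th y (vC J Q bv) w (J + 1)
    (pt P r kap x Y (J + 1) ζ p)) ∂(gm κ)) _).trans ?_
  linarith

end Cav

end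

end Crest.Agent.R164.CavG
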