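import Crest.Agent.R164.CavG6

/-!
Row 164, Gaussian cavity limit, part 7: bounded measurable weights; change of the weight.
-/

set_option autoImplicit false

namespace Crest.Agent.R164.CavG

open MeasureTheory ProbabilityTheory Finset Crest.Agent.R141 Crest.Agent.R141.Fact

noncomputable section

section meas

variable {ι : Type*} [Fintype ι]

/-- a step of a bounded measurable function is measurable and bounded. -/
theorem gstep_meas {y : ℝ} {f : (ι → ℝ) → ℝ} (hf : Measurable f) (v : ι → ℝ) :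
    Measurable (gstep y v f) := by
  unfold gstep
  refine Measurable.const_mul (Real.measurable_log.comp ?_) _
  have h1 : Measurable (Function.uncurry fun (z g : ι → ℝ) =>
      Real.exp (y * f (fun k => z k + Real.sqrt (v k) * g k))) := by
    refine Real.measurable_exp.comp (Measurable.const_mul (hf.comp ?_) _)
    fun_prop
  exact h1.stronglyMeasurable.integral_prod_right.measurable

theorem integrable_exp_shift {c y : ℝ} (hy0 : 0 ≤ y) (hy1 : y ≤ 1) {f : (ι → ℝ) → ℝ}
    (hf : Measurable f) (hc : ∀ z, |f z| ≤ c) (v : ι → ℝ) (z : ι → ℝ) :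
    Integrable (fun g => Real.exp (y * f (fun k => z k + Real.sqrt (v k) * g k))) (gm ι) := by
  refine Integrable.of_bound (C := Real.exp c) ?_ (ae_of_all _ fun g => ?_)
  · refine (Real.measurable_exp.comp (Measurable.const_mul (hf.comp ?_) _)).aestronglyMeasurable
    fun_prop
  · rw [Real.norm_eq_abs, abs_of_pos (Real.exp_pos _)]
    exact (exp_bounds hy0 hy1 (hc _)).2

theorem int_exp_bounds {c y : ℝ} (hy0 : 0 ≤ y) (hy1 : y ≤ 1) {f : (ι → ℝ) → ℝ}
    (hf : Measurable f) (hc : ∀ z, |f z| ≤ c) (v : ι → ℝ) (z : ι → ℝ) :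
    Real.exp (-(y * c)) ≤ sm v (fun z => Real.exp (y * f z)) z ∧
      sm v (fun z => Real.exp (y * f z)) z ≤ Real.exp (y * c) := by
  have hi := integrable_exp_shift hy0 hy1 hf hc v z
  unfold sm
  constructor
  · have : ∫ _g : ι → ℝ, Real.exp (-(y * c)) ∂(gm ι) ≤ ∫ g : ι → ℝ,
        Real.exp (y * f (fun k => z k + Real.sqrt (v k) * g k)) ∂(gm ι) :=
      integral_mono (integrable_const _) hi fun g => Real.exp_le_exp.2 (by
        have := (abs_le.1 (hc (fun k => z k + Real.sqrt (v k) * g k))).1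
        nlinarith)
    simpa using this
  · have : ∫ g : ι → ℝ, Real.exp (y * f (fun k => z k + Real.sqrt (v k) * g k)) ∂(gm ι) ≤
        ∫ _g : ι → ℝ, Real.exp (y * c) ∂(gm ι) :=
      integral_mono hi (integrable_const _) fun g => Real.exp_le_exp.2 (by
        have := (abs_le.1 (hc (fun k => z k + Real.sqrt (v k) * g k))).2
        nlinarith)
    simpa using this

theorem gstep_bound' {c y : ℝ} (hy0 : 0 < y) (hy1 : y ≤ 1) {f : (ι → ℝ) → ℝ}
    (hf : Measurable f) (hc : ∀ z, |f z| ≤ c) (v : ι → ℝ) (z : ι → ℝ) :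
    |gstep y v f z| ≤ c := by
  obtain ⟨h1, h2⟩ := int_exp_bounds hy0.le hy1 hf hc v z
  have h0 : 0 < sm v (fun z => Real.exp (y * f z)) z := lt_of_lt_of_le (Real.exp_pos _) h1
  have h3 := Real.log_le_log (Real.exp_pos _) h1
  have h4 := Real.log_le_log h0 h2
  rw [Real.log_exp] at h3 h4
  rw [gstep_eq_sm, abs_le]
  have hinv : 0 < 1 / y := by positivity
  constructor
  · have := mul_le_mul_of_nonneg_left h3 hinv.le
    have e : 1 / y * -(y * c) = -c := by field_simp
    linarith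
  · have := mul_le_mul_of_nonneg_left h4 hinv.le
    have e : 1 / y * (y * c) = c := by field_simp
    linarith

theorem th_meas_bound {c : ℝ} {y : ℕ → ℝ} {J : ℕ} (hy0 : ∀ n ≤ J, 0 < y n)
    (hy1 : ∀ n ≤ J, y n ≤ 1) {w : (ι → ℝ) → ℝ} (hw : Measurable w)
    (hc : ∀ z, |w z| ≤ c) (v : ℕ → ι → ℝ) :
    ∀ n ≤ J + 1, Measurable (th y v w n) ∧ ∀ z, |th y v w n z| ≤ c := by
  intro n
  induction n with
  | zero => exact fun _ => ⟨hw, hc⟩
  | succ n ih =>
    intro hn
    obtain ⟨h1, h2⟩ := ih (by omega)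
    rw [th_succ]
    exact ⟨gstep_meas h1 _, gstep_bound' (hy0 n (by omega)) (hy1 n (by omega)) h1 h2 _⟩

/-- local Lipschitz bound of `exp (y a)`. -/
theorem exp_mul_sub_le {c y : ℝ} (hy0 : 0 < y) (hy1 : y ≤ 1) :
    ∀ a b : ℝ, |a| ≤ c → |b| ≤ c → |Real.exp (y * a) - Real.exp (y * b)| ≤
      y * Real.exp c * |a - b| := by
  have key : ∀ a b : ℝ, |a| ≤ c → |b| ≤ c → Real.exp (y * a) - Real.exp (y * b) ≤
      y * Real.exp c * |a - b| := by
    intro a b ha hb
    have hc0 : 0 ≤ c := (abs_nonneg _).trans ha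
    by_cases hab : a ≤ b
    · have : Real.exp (y * a) ≤ Real.exp (y * b) :=
        Real.exp_le_exp.2 (mul_le_mul_of_nonneg_left hab hy0.le)
      have h2 : 0 ≤ y * Real.exp c * |a - b| := by positivity
      linarith
    · have hab : b ≤ a := le_of_lt (not_le.1 hab)
      have h1 : 1 + (y * b - y * a) ≤ Real.exp (y * b - y * a) := by
        have := Real.add_one_le_exp (y * b - y * a); linarith
      have h2 : Real.exp (y * b) = Real.exp (y * a) * Real.exp (y * b - y * a) := by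
        rw [← Real.exp_add]; congr 1; ring
      have h3 := (exp_bounds hy0.le hy1 ha).2
      have h4 : 0 < Real.exp (y * a) := Real.exp_pos _
      rw [abs_of_nonneg (sub_nonneg.2 hab)]
      have h5 : Real.exp (y * a) - Real.exp (y * b) ≤ Real.exp (y * a) * (y * (a - b)) := by
        rw [h2]; nlinarith
      refine h5.trans ?_
      have h7 : 0 ≤ y * (a - b) := mul_nonneg hy0.le (sub_nonneg.2 hab)
      nlinarith
  intro a b ha hb
  have h1 := key a b ha hb
  have h2 := key b a hb ha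
  rw [abs_sub_comm b a] at h2
  rw [abs_le]
  constructor <;> linarith

/-- stability of one step. -/
theorem gstep_diff {c y : ℝ} (hy0 : 0 < y) (hy1 : y ≤ 1) {f f' h : (ι → ℝ) → ℝ}
    (hf : Measurable f) (hc : ∀ z, |f z| ≤ c) (hf' : Measurable f') (hc' : ∀ z, |f' z| ≤ c)
    (hd : ∀ z, |f z - f' z| ≤ h z) (v : ι → ℝ) (z : ι → ℝ)
    (hi : Integrable (fun g => h (fun k => z k + Real.sqrt (v k) * g k)) (gm ι)) :
    |gstep y v f z - gstep y v f' z| ≤ Real.exp (2 * c) * sm v h z := by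
  have hc0 : 0 ≤ c := (abs_nonneg _).trans (hc z)
  have hi1 := integrable_exp_shift hy0.le hy1 hf hc v z
  have hi2 := integrable_exp_shift hy0.le hy1 hf' hc' v z
  have b1 := (int_exp_bounds hy0.le hy1 hf hc v z).1
  have b2 := (int_exp_bounds hy0.le hy1 hf' hc' v z).1
  have b3 : Real.exp (-c) ≤ Real.exp (-(y * c)) := Real.exp_le_exp.2 (by nlinarith)
  rw [gstep_eq_sm, gstep_eq_sm, ← mul_sub, abs_mul, abs_of_pos (by positivity : (0 : ℝ) < 1 / y)]
  set A := sm v (fun z => Real.exp (y * f z)) z with hA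
  set B := sm v (fun z => Real.exp (y * f' z)) z with hB
  have h1 := abs_log_sub_le' (b3.trans b1) (b3.trans b2)
  have h2 : |A - B| ≤ y * Real.exp c * sm v h z := by
    rw [hA, hB]
    unfold sm
    rw [← integral_sub hi1 hi2, ← integral_const_mul]
    refine abs_integral_le_integral_abs.trans ?_
    refine integral_mono (hi1.sub hi2).abs (hi.const_mul _) fun g => ?_
    refine (exp_mul_sub_le hy0 hy1 _ _ (hc _) (hc' _)).trans ?_
    exact mul_le_mul_of_nonneg_left (hd _) (by positivity)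
  have h3 : Real.exp c * |A - B| ≤ Real.exp c * (y * Real.exp c * sm v h z) :=
    mul_le_mul_of_nonneg_left h2 (Real.exp_pos _).le
  have h4 := mul_le_mul_of_nonneg_left (h1.trans h3) (by positivity : (0 : ℝ) ≤ 1 / y)
  refine h4.trans (le_of_eq ?_)
  have h5 : Real.exp (2 * c) = Real.exp c * Real.exp c := by rw [← Real.exp_add]; congr 1; ring
  rw [h5]
  field_simp

/-- the weight `1 + |z|²`. -/
def mz (z : ι → ℝ) : ℝ := 1 + ∑ k, z k ^ 2

theorem mz_pos (z : ι → ℝ) : 0 < mz z := by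
  unfold mz
  have : 0 ≤ ∑ k, z k ^ 2 := Finset.sum_nonneg fun _ _ => sq_nonneg _
  linarith

theorem measurable_mz : Measurable (mz : (ι → ℝ) → ℝ) := by
  unfold mz
  fun_prop

theorem integrable_shift_sq (a s : ℝ) :
    Integrable (fun g : ℝ => (a + s * g) ^ 2) (gaussianReal 0 1) := by
  have h1 : Integrable (fun g : ℝ => g) (gaussianReal 0 1) :=
    (memLp_id_gaussianReal (μ := 0) (v := 1) 1).integrable le_rfl
  have h2 := ((integrable_const (a ^ 2)).add (h1.const_mul (2 * a * s))).add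
    (integrable_sq_gaussian.const_mul (s ^ 2))
  refine h2.congr (ae_of_all _ fun g => ?_)
  simp only [Pi.add_apply]
  ring

theorem integral_shift_sq (a s : ℝ) :
    ∫ g, (a + s * g) ^ 2 ∂(gaussianReal 0 1) = a ^ 2 + s ^ 2 := by
  have h1 : Integrable (fun g : ℝ => g) (gaussianReal 0 1) :=
    (memLp_id_gaussianReal (μ := 0) (v := 1) 1).integrable le_rfl
  have e : (fun g : ℝ => (a + s * g) ^ 2) = fun g => (a ^ 2 + 2 * a * s * g) + s ^ 2 * g ^ 2 := by
    funext g; ring
  have e1 : ∫ g : ℝ, (a ^ 2 + 2 * a * s * g) + s ^ 2 * g ^ 2 ∂(gaussianReal 0 1) =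
      ∫ g : ℝ, (a ^ 2 + 2 * a * s * g) ∂(gaussianReal 0 1) +
        ∫ g : ℝ, s ^ 2 * g ^ 2 ∂(gaussianReal 0 1) :=
    integral_add ((integrable_const _).add (h1.const_mul _)) (integrable_sq_gaussian.const_mul _)
  have e2 : ∫ g : ℝ, (a ^ 2 + 2 * a * s * g) ∂(gaussianReal 0 1) =
      ∫ _g : ℝ, a ^ 2 ∂(gaussianReal 0 1) + ∫ g : ℝ, 2 * a * s * g ∂(gaussianReal 0 1) :=
    integral_add (integrable_const _) (h1.const_mul _)
  have h3 : ∫ g : ℝ, g ∂(gaussianReal 0 1) = 0 := integral_id_gaussianReal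
  rw [e, e1, e2, integral_const_mul, integral_const_mul, integral_sq_gaussian, h3]
  simp

theorem integrable_mz (v : ι → ℝ) (z : ι → ℝ) :
    Integrable (fun g => mz (fun k => z k + Real.sqrt (v k) * g k)) (gm ι) := by
  unfold mz
  refine (integrable_const _).add (integrable_finsetSum _ fun k _ => ?_)
  exact integrable_eval_gm k (f := fun g => (z k + Real.sqrt (v k) * g) ^ 2)
    (integrable_shift_sq _ _)

theorem sm_mz (v : ι → ℝ) (hv : ∀ k, 0 ≤ v k) (z : ι → ℝ) : sm v mz z = mz z + ∑ k, v k := by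
  unfold sm mz
  have hk : ∀ k, Integrable (fun g : ι → ℝ => (z k + Real.sqrt (v k) * g k) ^ 2) (gm ι) :=
    fun k => integrable_eval_gm k (f := fun g => (z k + Real.sqrt (v k) * g) ^ 2)
      (integrable_shift_sq _ _)
  rw [integral_add (integrable_const _) (integrable_finsetSum _ fun k _ => hk k),
    integral_finsetSum _ fun k _ => hk k]
  have h1 : ∀ k, ∫ g : ι → ℝ, (z k + Real.sqrt (v k) * g k) ^ 2 ∂(gm ι) = z k ^ 2 + v k := by
    intro k
    rw [integral_eval_gm k (F := fun g => (z k + Real.sqrt (v k) * g) ^ 2) (by fun_prop),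
      integral_shift_sq, Real.sq_sqrt (hv k)]
  simp_rw [h1]
  rw [Finset.sum_add_distrib]
  simp
  ring

theorem th_diff {c δ V : ℝ} {y : ℕ → ℝ} {J : ℕ} (hy0 : ∀ n ≤ J, 0 < y n)
    (hy1 : ∀ n ≤ J, y n ≤ 1) {w w' : (ι → ℝ) → ℝ} (hw : Measurable w)
    (hc : ∀ z, |w z| ≤ c) (hw' : Measurable w') (hc' : ∀ z, |w' z| ≤ c) (hδ : 0 ≤ δ)
    (hd : ∀ z, |w z - w' z| ≤ δ * mz z) {v : ℕ → ι → ℝ} (hv : ∀ n k, n ≤ J → 0 ≤ v n k)
    (hV : ∀ n ≤ J, ∑ k, v n k ≤ V) :
    ∀ n ≤ J + 1, ∀ z, |th y v w n z - th y v w' n z| ≤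
      δ * (Real.exp (2 * c) * (1 + V)) ^ n * mz z := by
  intro n
  induction n with
  | zero => intro _ z; rw [th_zero, th_zero, pow_zero, mul_one]; exact hd z
  | succ n ih =>
    intro hn z
    have hn' : n ≤ J := by omega
    obtain ⟨m1, b1⟩ := th_meas_bound hy0 hy1 hw hc v n (by omega)
    obtain ⟨m2, b2⟩ := th_meas_bound hy0 hy1 hw' hc' v n (by omega)
    rw [th_succ, th_succ]
    have h1 := gstep_diff (hy0 n hn') (hy1 n hn') m1 b1 m2 b2 (ih (by omega)) (v n) z
      ((integrable_mz (v n) z).const_mul _)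
    refine h1.trans ?_
    have h2 : sm (v n) (fun z => δ * (Real.exp (2 * c) * (1 + V)) ^ n * mz z) z =
        δ * (Real.exp (2 * c) * (1 + V)) ^ n * (mz z + ∑ k, v n k) := by
      rw [← sm_mz (v n) (fun k => hv n k hn') z]
      unfold sm
      rw [integral_const_mul]
    rw [h2]
    have hV0 : 0 ≤ V := (Finset.sum_nonneg fun k _ => hv n k hn').trans (hV n hn')
    have h3 : mz z + ∑ k, v n k ≤ (1 + V) * mz z := by
      have h4 : 1 ≤ mz z := by
        unfold mz
        have : 0 ≤ ∑ k, z k ^ 2 := Finset.sum_nonneg fun _ _ => sq_nonneg _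
        linarith
      have h5 := hV n hn'
      nlinarith
    have h6 : 0 ≤ δ * (Real.exp (2 * c) * (1 + V)) ^ n := by positivity
    calc Real.exp (2 * c) * (δ * (Real.exp (2 * c) * (1 + V)) ^ n * (mz z + ∑ k, v n k))
        ≤ Real.exp (2 * c) * (δ * (Real.exp (2 * c) * (1 + V)) ^ n * ((1 + V) * mz z)) :=
          mul_le_mul_of_nonneg_left (mul_le_mul_of_nonneg_left h3 h6) (Real.exp_pos _).le
      _ = _ := by rw [pow_succ]; ring

theorem gval_diff {c δ V : ℝ} {y : ℕ → ℝ} {J : ℕ} (hy0 : ∀ n ≤ J, 0 < y n)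
    (hy1 : ∀ n ≤ J, y n ≤ 1) {w w' : (ι → ℝ) → ℝ} (hw : Measurable w)
    (hc : ∀ z, |w z| ≤ c) (hw' : Measurable w') (hc' : ∀ z, |w' z| ≤ c) (hδ : 0 ≤ δ)
    (hd : ∀ z, |w z - w' z| ≤ δ * mz z) {v : ℕ → ι → ℝ} (hv : ∀ n k, n ≤ J + 1 → 0 ≤ v n k)
    (hV : ∀ n ≤ J + 1, ∑ k, v n k ≤ V) :
    |gval J y v w - gval J y v w'| ≤ δ * (Real.exp (2 * c) * (1 + V)) ^ (J + 1) * (1 + V) := by
  obtain ⟨m1, b1⟩ := th_meas_bound hy0 hy1 hw hc v (J + 1) le_rfl
  obtain ⟨m2, b2⟩ := th_meas_bound hy0 hy1 hw' hc' v (J + 1) le_rfl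
  have hms : Measurable fun g : ι → ℝ => fun k => Real.sqrt (v (J + 1) k) * g k := by fun_prop
  have i1 : Integrable (fun g : ι → ℝ => th y v w (J + 1) (fun k => Real.sqrt (v (J + 1) k) * g k))
      (gm ι) := Integrable.of_bound (C := c) (m1.comp hms).aestronglyMeasurable
        (ae_of_all _ fun g => by rw [Real.norm_eq_abs]; exact b1 _)
  have i2 : Integrable (fun g : ι → ℝ => th y v w' (J + 1) (fun k => Real.sqrt (v (J + 1) k) * g k))
      (gm ι) := Integrable.of_bound (C := c) (m2.comp hms).aestronglyMeasurable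
        (ae_of_all _ fun g => by rw [Real.norm_eq_abs]; exact b2 _)
  have hV0 : 0 ≤ V := (Finset.sum_nonneg fun k _ => hv (J + 1) k le_rfl).trans
    (hV (J + 1) le_rfl)
  have i3 := integrable_mz (v (J + 1)) (0 : ι → ℝ)
  simp only [Pi.zero_apply, zero_add] at i3
  unfold gval
  rw [← integral_sub i1 i2]
  refine abs_integral_le_integral_abs.trans ?_
  have h1 := th_diff hy0 hy1 hw hc hw' hc' hδ hd (v := v) (fun n k hn => hv n k (by omega))
    (fun n hn => hV n (by omega)) (J + 1) le_rfl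
  refine (integral_mono (i1.sub i2).abs (i3.const_mul _) fun g => h1 _).trans ?_
  rw [integral_const_mul]
  have h2 := sm_mz (v (J + 1)) (fun k => hv (J + 1) k le_rfl) 0
  have h3 : sm (v (J + 1)) mz 0 =
      ∫ g : ι → ℝ, mz (fun k => Real.sqrt (v (J + 1) k) * g k) ∂(gm ι) := by
    unfold sm
    simp
  rw [← h3, h2]
  have h4 : mz (0 : ι → ℝ) = 1 := by simp [mz]
  rw [h4]
  have h5 := hV (J + 1) le_rfl
  exact mul_le_mul_of_nonneg_left (by linarith) (by positivity)

/-! ### clamping -/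

/-- coordinatewise clamp. -/
def clp (R : ℝ) (z : ι → ℝ) : ι → ℝ := fun k => max (-R) (min R (z k))

omit [Fintype ι] in
theorem abs_clp_le {R : ℝ} (hR : 0 ≤ R) (z : ι → ℝ) (k : ι) : |clp R z k| ≤ R := by
  unfold clp
  rw [abs_le]
  exact ⟨le_max_left _ _, max_le (by linarith) (min_le_left _ _)⟩

omit [Fintype ι] in
theorem clp_of_le {R : ℝ} {z : ι → ℝ} (h : ∀ k, |z k| ≤ R) : clp R z = z := by
  funext k
  have := abs_le.1 (h k)
  unfold clp
  rw [min_eq_right this.2, max_eq_right this.1]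

omit [Fintype ι] in
theorem abs_clp_sub_le (R : ℝ) (z z' : ι → ℝ) (k : ι) :
    |clp R z k - clp R z' k| ≤ |z k - z' k| := by
  unfold clp
  refine (abs_max_sub_max_le_max _ _ _ _).trans ?_
  simp only [sub_self, abs_zero]
  refine max_le (abs_nonneg _) ((abs_min_sub_min_le_max _ _ _ _).trans ?_)
  simp only [sub_self, abs_zero]
  exact max_le (abs_nonneg _) le_rfl

/-- bounded on boxes Lipschitz weights. -/
structure LocLip (LR : ℝ → ℝ) (w : (ι → ℝ) → ℝ) : Prop where
  nonneg : ∀ R, 0 ≤ R → 0 ≤ LR R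
  lip : ∀ R, 0 ≤ R → ∀ z z', (∀ k, |z k| ≤ R) → (∀ k, |z' k| ≤ R) →
    |w z - w z'| ≤ LR R * ∑ k, |z k - z' k|

theorem LocLip.clamp {LR : ℝ → ℝ} {w : (ι → ℝ) → ℝ} (h : LocLip LR w) {R : ℝ} (hR : 0 ≤ R) :
    Lip (LR R) (fun z => w (clp R z)) := by
  intro z z'
  refine (h.lip R hR _ _ (abs_clp_le hR z) (abs_clp_le hR z')).trans ?_
  exact mul_le_mul_of_nonneg_left (Finset.sum_le_sum fun k _ => abs_clp_sub_le R z z' k)
    (h.nonneg R hR)

theorem LocLip.measurable {LR : ℝ → ℝ} {w : (ι → ℝ) → ℝ} (h : LocLip LR w) : Measurable w := by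
  refine measurable_of_tendsto_metrizable (f := fun (n : ℕ) z => w (clp (n : ℝ) z))
    (fun n => (h.clamp (Nat.cast_nonneg n)).measurable) ?_
  rw [tendsto_pi_nhds]
  intro z
  obtain ⟨n, hn⟩ := exists_nat_ge (∑ k, |z k|)
  refine tendsto_const_nhds.congr' ?_
  filter_upwards [Filter.eventually_ge_atTop n] with m hm
  rw [clp_of_le]
  intro k
  have h1 := Finset.single_le_sum (f := fun k => |z k|) (fun k _ => abs_nonneg _)
    (Finset.mem_univ k)
  have h2 : (n : ℝ) ≤ m := by exact_mod_cast hm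
  linarith

theorem clamp_diff {w : (ι → ℝ) → ℝ} {c R : ℝ} (hc : ∀ z, |w z| ≤ c) (hR : 0 < R) (z : ι → ℝ) :
    |w z - w (clp R z)| ≤ 2 * c / R ^ 2 * mz z := by
  have hc0 : 0 ≤ c := (abs_nonneg _).trans (hc z)
  by_cases h : ∀ k, |z k| ≤ R
  · rw [clp_of_le h, sub_self, abs_zero]
    exact mul_nonneg (by positivity) (mz_pos z).le
  · push Not at h
    obtain ⟨k, hk⟩ := h
    have h1 : |w z - w (clp R z)| ≤ 2 * c := by
      refine (abs_sub _ _).trans ?_
      linarith [hc z, hc (clp R z)]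
    refine h1.trans ?_
    have h2 : R ^ 2 ≤ mz z := by
      unfold mz
      have h3 : R ^ 2 ≤ z k ^ 2 := by
        rw [← sq_abs (z k)]
        exact pow_le_pow_left₀ hR.le hk.le 2
      have h4 := Finset.single_le_sum (f := fun k => z k ^ 2) (fun k _ => sq_nonneg _)
        (Finset.mem_univ k)
      have h5 : z k ^ 2 ≤ ∑ k, z k ^ 2 := h4
      linarith
    rw [div_mul_eq_mul_div, le_div_iff₀ (by positivity)]
    exact mul_le_mul_of_nonneg_left h2 (by linarith)

end meas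

end

end Crest.Agent.R164.CavG
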