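import Crest.Agent.R164.CavG7

/-!
Row 164, Gaussian cavity limit, part 8: the limit theorem for bounded weights which are Lipschitz on
boxes, with an error that is linear in the total deviation.
-/

set_option autoImplicit false

namespace Crest.Agent.R164.CavG

open MeasureTheory ProbabilityTheory Finset Crest.Agent.R141 Crest.Agent.R141.Fact

noncomputable section

/-- skeleton means of the label variable. -/
def YY {Λ : Type*} [Fintype Λ] (P2 : Λ → ℝ) (s : ℕ → Setoid Λ) (Y : Λ → ℝ) : ℕ → Λ → ℝ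
  | 0 => Y
  | n + 1 => cE P2 (s n) Y

/-- central limit hypothesis for the label variable: `bv n` is the variance of the increment between
the depths `n` and `n + 1`. -/
structure Clt {Λ : Type*} [Fintype Λ] (P2 : Λ → ℝ) (s : ℕ → Setoid Λ) (J : ℕ) (Y : Λ → ℝ)
    (bv : ℕ → ℝ) (dl : ℝ) : Prop where
  step : ∀ n ≤ J, ∀ (L : ℝ) (h : ℝ → ℝ), 0 ≤ L → (∀ a b, |h a - h b| ≤ L * |a - b|) → ∀ l,
      |cE P2 (s n) (fun b => h (YY P2 s Y n b)) l -
        ∫ g, h (YY P2 s Y (n + 1) l + Real.sqrt (bv n) * g) ∂(gaussianReal 0 1)| ≤ L * dl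
  bot : ∀ (L : ℝ) (h : ℝ → ℝ), 0 ≤ L → (∀ a b, |h a - h b| ≤ L * |a - b|) →
      |eE P2 (fun b => h (YY P2 s Y (J + 1) b)) -
        ∫ g, h (Real.sqrt (bv (J + 1)) * g) ∂(gaussianReal 0 1)| ≤ L * dl

/-- total deviation: block overlaps and purity. -/
def Dev {Ω κ β : Type*} [Fintype Ω] [Fintype κ] [Fintype β] [DecidableEq β] (P : Ω → ℝ)
    (r : ℕ → Setoid Ω) (J : ℕ) (kap : κ → β) (x : Ω → κ → ℝ) (Q : ℕ → β → ℝ) : ℝ :=
  ∑ n ∈ range (J + 2), ∑ k, eE P (fun ω => |ip kap k (XX P r x n ω) (XX P r x n ω) - Q n k|) +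
    ∑ n ∈ range (J + 1), pur P (r n) x

section

variable {Ω κ β : Type*} [Fintype Ω] [Fintype κ] [Fintype β] [DecidableEq β]
  {P : Ω → ℝ} {r : ℕ → Setoid Ω} {J : ℕ} {kap : κ → β} {x : Ω → κ → ℝ} {Q : ℕ → β → ℝ}

theorem Dev_ov_nonneg (hP : IsProb P) (n : ℕ) :
    0 ≤ ∑ k, eE P (fun ω => |ip kap k (XX P r x n ω) (XX P r x n ω) - Q n k|) :=
  Finset.sum_nonneg fun _ _ => eE_nonneg hP fun _ => abs_nonneg _

theorem Dev_nonneg (hP : IsProb P) : 0 ≤ Dev P r J kap x Q :=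
  add_nonneg (Finset.sum_nonneg fun n _ => Dev_ov_nonneg hP n)
    (Finset.sum_nonneg fun _ _ => pur_nonneg hP x)

theorem ov_le_Dev (hP : IsProb P) {n : ℕ} (hn : n ≤ J + 1) :
    ∑ k, eE P (fun ω => |ip kap k (XX P r x n ω) (XX P r x n ω) - Q n k|) ≤
      Dev P r J kap x Q := by
  unfold Dev
  have h1 := Finset.single_le_sum (f := fun n => ∑ k, eE P (fun ω =>
    |ip kap k (XX P r x n ω) (XX P r x n ω) - Q n k|)) (fun n _ => Dev_ov_nonneg hP n)
    (Finset.mem_range.2 (show n < J + 2 by omega))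
  have h2 : 0 ≤ ∑ n ∈ range (J + 1), pur P (r n) x :=
    Finset.sum_nonneg fun n _ => pur_nonneg hP x
  exact h1.trans (le_add_of_nonneg_right h2)

theorem pur_le_Dev (hP : IsProb P) {n : ℕ} (hn : n ≤ J) :
    pur P (r n) x ≤ Dev P r J kap x Q := by
  unfold Dev
  have h1 := Finset.single_le_sum (f := fun n => pur P (r n) x)
    (fun n _ => pur_nonneg hP x) (Finset.mem_range.2 (show n < J + 1 by omega))
  have h2 : 0 ≤ ∑ n ∈ range (J + 2), ∑ k, eE P (fun ω =>
    |ip kap k (XX P r x n ω) (XX P r x n ω) - Q n k|) :=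
    Finset.sum_nonneg fun n _ => Dev_ov_nonneg hP n
  exact h1.trans (le_add_of_nonneg_left h2)

end

theorem skelA_diff {Ω' : Type} [Fintype Ω'] {P' : Ω' → ℝ} (hP' : IsProb P')
    (r' : ℕ → Setoid Ω') {y : ℕ → ℝ} {c : ℝ} {J : ℕ} (hy0 : ∀ n ≤ J, 0 < y n)
    (hy1 : ∀ n ≤ J, y n ≤ 1) {U V : Ω' → ℝ} (hU : ∀ a, |U a| ≤ c) (hV : ∀ a, |V a| ≤ c) :
    ∀ n ≤ J + 1, eE P' (fun ω => |skelA P' r' y U n ω - skelA P' r' y V n ω|) ≤
      Real.exp (2 * c) ^ n * eE P' (fun ω => |U ω - V ω|) := by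
  intro n
  induction n with
  | zero => intro _; rw [pow_zero, one_mul]; exact le_rfl
  | succ n ih =>
    intro hn
    have hn' : n ≤ J := by omega
    have b1 := Cav.skelA_bound (J := J) hP' r' hy0 hU n (by omega)
    have b2 := Cav.skelA_bound (J := J) hP' r' hy0 hV n (by omega)
    have h1 : eE P' (fun ω => |skelA P' r' y U (n + 1) ω - skelA P' r' y V (n + 1) ω|) ≤
        eE P' (fun ω => Real.exp (2 * c) * cE P' (r' n) (fun a =>
          |skelA P' r' y U n a - skelA P' r' y V n a|) ω) :=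
      eE_mono hP' fun ω => Cav.pm_sub_le hP' (r' n) (hy0 n hn') (hy1 n hn') b1 b2 ω
    refine h1.trans ?_
    rw [eE_smul, eE_cE hP', pow_succ, mul_comm (Real.exp (2 * c) ^ n), mul_assoc]
    exact mul_le_mul_of_nonneg_left (ih (by omega)) (Real.exp_pos _).le

section moments

variable {κ β : Type*} [Fintype κ] [Fintype β] [DecidableEq β]

theorem integrable_sq_lin (u : κ → ℝ) : Integrable (fun ζ => (∑ i, u i * ζ i) ^ 2) (gm κ) := by
  have h1 : Integrable (fun ζ : κ → ℝ => (Fintype.card κ : ℝ) * ∑ i, (u i * ζ i) ^ 2) (gm κ) := by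
    refine Integrable.const_mul (integrable_finsetSum _ fun i _ => ?_) _
    refine integrable_eval_gm i (f := fun g => (u i * g) ^ 2) ?_
    have := integrable_shift_sq 0 (u i)
    simpa using this
  refine h1.mono' ?_ (ae_of_all _ fun ζ => ?_)
  · refine Measurable.aestronglyMeasurable ?_
    fun_prop
  · rw [Real.norm_eq_abs, abs_of_nonneg (sq_nonneg _)]
    have := sq_sum_le_card_mul_sum_sq (s := (Finset.univ : Finset κ)) (f := fun i => u i * ζ i)
    simpa using this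

theorem integral_sq_lin (u : κ → ℝ) : ∫ ζ, (∑ i, u i * ζ i) ^ 2 ∂(gm κ) = ∑ i, u i ^ 2 := by
  rw [integral_one u (F := fun t => t ^ 2) (by fun_prop)]
  have : (fun g : ℝ => (Real.sqrt (∑ i, u i ^ 2) * g) ^ 2) =
      fun g => (∑ i, u i ^ 2) * g ^ 2 := by
    funext g
    rw [mul_pow, Real.sq_sqrt (Finset.sum_nonneg fun _ _ => sq_nonneg _)]
  simp_rw [this]
  rw [integral_const_mul, integral_sq_gaussian, mul_one]

omit [DecidableEq β] in
theorem mz_cmb (t : ℝ) (z : β → ℝ) : mz (cmb t z) = 1 + t ^ 2 + ∑ k, z k ^ 2 := by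
  unfold mz
  rw [Fintype.sum_sum_type]
  simp [cmb]
  ring

theorem sum_block_sq (kap : κ → β) (x : κ → ℝ) :
    ∑ k, ∑ i, (if kap i = k then x i else 0) ^ 2 = ∑ i, x i ^ 2 := by
  rw [Finset.sum_comm]
  refine Finset.sum_congr rfl fun i _ => ?_
  rw [Finset.sum_eq_single (kap i)]
  · simp
  · intro b _ hb; rw [if_neg (Ne.symm hb)]; ring
  · intro h; exact absurd (Finset.mem_univ _) h

theorem integrable_mz_cmb (t : ℝ) (kap : κ → β) (x : κ → ℝ) :
    Integrable (fun ζ => mz (cmb t (zf kap x ζ))) (gm κ) := by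
  simp_rw [mz_cmb]
  refine (integrable_const _).add (integrable_finsetSum _ fun k _ => ?_)
  exact integrable_sq_lin fun i => if kap i = k then x i else 0

theorem integral_mz_cmb (t : ℝ) (kap : κ → β) (x : κ → ℝ) :
    ∫ ζ, mz (cmb t (zf kap x ζ)) ∂(gm κ) = 1 + t ^ 2 + ∑ i, x i ^ 2 := by
  simp_rw [mz_cmb]
  have hk : ∀ k, Integrable (fun ζ => (zf kap x ζ k) ^ 2) (gm κ) := fun k =>
    integrable_sq_lin fun i => if kap i = k then x i else 0
  rw [integral_add (integrable_const _) (integrable_finsetSum _ fun k _ => hk k),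
    integral_finsetSum _ fun k _ => hk k, ← sum_block_sq kap x]
  congr 1
  · simp
  · exact Finset.sum_congr rfl fun k _ => integral_sq_lin fun i => if kap i = k then x i else 0

variable {Ω Λ : Type*} [Fintype Ω] [Fintype Λ] {P : Ω → ℝ} {P2 : Λ → ℝ}

theorem int_mz (hP : IsProb P) (hP2 : IsProb P2) (kap : κ → β) {x : Ω → κ → ℝ} {Y : Λ → ℝ}
    {B C : ℝ} (hC : ∀ ω, ∑ i, x ω i ^ 2 ≤ C) (hY : eE P2 (fun b => Y b ^ 2) ≤ B) :
    ∫ ζ, eE (pP P P2) (fun p : Ω × Λ => mz (cmb (Y p.2) (zf kap (x p.1) ζ) : Unit ⊕ β → ℝ))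
      ∂(gm κ) ≤ 1 + B + C := by
  have h0 : ∀ p : Ω × Λ, Integrable (fun ζ => mz (cmb (Y p.2) (zf kap (x p.1) ζ))) (gm κ) :=
    fun p => integrable_mz_cmb (Y p.2) kap (x p.1)
  rw [integral_eE h0]
  have h1 : ∀ p : Ω × Λ, ∫ ζ, mz (cmb (Y p.2) (zf kap (x p.1) ζ)) ∂(gm κ) =
      1 + Y p.2 ^ 2 + ∑ i, x p.1 i ^ 2 := fun p => integral_mz_cmb (Y p.2) kap (x p.1)
  rw [show (fun p : Ω × Λ => ∫ ζ, mz (cmb (Y p.2) (zf kap (x p.1) ζ)) ∂(gm κ)) =
    fun p => 1 + Y p.2 ^ 2 + ∑ i, x p.1 i ^ 2 from funext h1]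
  rw [eE_pP]
  have : ∀ a, eE P2 (fun b => 1 + Y b ^ 2 + ∑ i, x a i ^ 2) ≤ 1 + B + C := by
    intro a
    rw [eE_add P2 (fun b => 1 + Y b ^ 2) (fun _ => ∑ i, x a i ^ 2),
      eE_add P2 (fun _ => 1) (fun b => Y b ^ 2), eE_const hP2, eE_const hP2]
    linarith [hC a]
  exact eE_le_of_le hP this

end moments

set_option maxHeartbeats 1000000 in
/-- **The Gaussian cavity limit** for bounded weights, Lipschitz on boxes; error linear in the
total deviation. -/
theorem cavity_skel (β : Type) [Fintype β] [DecidableEq β] (J : ℕ) (c C B V y0 : ℝ)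
    (LR : ℝ → ℝ) (hc0 : 0 ≤ c) (hC0 : 0 ≤ C) (hB0 : 0 ≤ B) (hV0 : 0 ≤ V) (hy0 : 0 < y0)
    {ε : ℝ} (hε : 0 < ε) :
    ∃ d > 0, ∀ {Ω Λ κ : Type} [Fintype Ω] [Fintype Λ] [Fintype κ] (P : Ω → ℝ) (P2 : Λ → ℝ)
      (r : ℕ → Setoid Ω) (s : ℕ → Setoid Λ) (y : ℕ → ℝ) (kap : κ → β) (x : Ω → κ → ℝ)
      (Q : ℕ → β → ℝ) (Y : Λ → ℝ) (bv : ℕ → ℝ) (w : (Unit ⊕ β → ℝ) → ℝ),
      IsProb P → IsProb P2 → (∀ n, n < J → r n ≤ r (n + 1)) →
      (∀ n ≤ J, y0 ≤ y n) → (∀ n ≤ J, y n ≤ 1) →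
      (∀ ω, ∑ i, x ω i ^ 2 ≤ C) → (∀ n k, n ≤ J + 1 → 0 ≤ Q n k) →
      (∀ n k, n ≤ J → Q (n + 1) k ≤ Q n k) → ∑ k, Q 0 k ≤ V →
      (∀ n ≤ J + 1, 0 ≤ bv n) → (∀ n ≤ J + 1, bv n ≤ V) →
      Clt P2 s J Y bv d → eE P2 (fun b => Y b ^ 2) ≤ B → LocLip LR w → (∀ z, |w z| ≤ c) →
      |∫ ζ, eE (pP P P2) (skelA (pP P P2) (fun n => (r n).prod (s n)) y
        (fun q => w (cmb (Y q.2) (zf kap (x q.1) ζ))) (J + 1)) ∂(gm κ) -
        gval J y (vC J Q bv) w| ≤ ε + 2 * c / d * Dev P r J kap x Q := by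
  set K1 : ℝ := Real.exp (2 * c) ^ (J + 1) * (1 + B + C) with hK1
  set K2 : ℝ := (Real.exp (2 * c) * (1 + 2 * V)) ^ (J + 1) * (1 + 2 * V) with hK2
  have hK1' : 0 ≤ K1 := by positivity
  have hK2' : 0 ≤ K2 := by positivity
  set R : ℝ := Real.sqrt (4 * c * (K1 + K2) / ε) + 1 with hR
  have hRpos : 0 < R := by positivity
  have hR2 : 2 * c / R ^ 2 * (K1 + K2) ≤ ε / 2 := by
    have h1 : 4 * c * (K1 + K2) / ε ≤ R ^ 2 := by
      have h2 := Real.sq_sqrt (show 0 ≤ 4 * c * (K1 + K2) / ε by positivity)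
      have h3 := Real.sqrt_nonneg (4 * c * (K1 + K2) / ε)
      rw [hR]
      nlinarith
    rw [div_le_iff₀ hε] at h1
    rw [div_mul_eq_mul_div, div_le_iff₀ (by positivity)]
    linarith
  obtain ⟨d, hd, hfin⟩ := finB_small β J c (LR R) C y0 (ε := ε / 2) (by positivity)
  refine ⟨d, hd, ?_⟩
  intro Ω Λ κ _ _ _ P P2 r s y kap x Q Y bv w hP hP2 mono hyl hyu hC Q0 Qm QV bv0 bvV clt hY hw hc
  have hPP := pP_isProb hP hP2
  have hyp : ∀ n ≤ J, 0 < y n := fun n hn => lt_of_lt_of_le hy0 (hyl n hn)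
  have hDev := Dev_nonneg (r := r) (J := J) (kap := kap) (x := x) (Q := Q) hP
  have hwm := hw.measurable
  have hv0 : ∀ n k, n ≤ J + 1 → 0 ≤ vC J Q bv n k := by
    intro n k hn
    rcases k with k | k
    · exact bv0 n hn
    · show 0 ≤ if n ≤ J then Q n k - Q (n + 1) k else Q n k
      split_ifs with h
      · have := Qm n k h; linarith
      · exact Q0 n k hn
  have hQV : ∀ n ≤ J + 1, ∑ k, Q n k ≤ V := by
    intro n hn
    refine le_trans (Finset.sum_le_sum fun k _ => ?_) QV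
    induction n with
    | zero => exact le_rfl
    | succ n ih => exact (Qm n k (by omega)).trans (ih (by omega))
  have hvV : ∀ n ≤ J + 1, ∑ k, vC J Q bv n k ≤ 2 * V := by
    intro n hn
    rw [Fintype.sum_sum_type]
    have h1 : ∑ u : Unit, vC J Q bv n (Sum.inl u) = bv n := by
      simp [vC, vv]
    have h2 : ∑ k, vC J Q bv n (Sum.inr k) ≤ ∑ k, Q n k := by
      refine Finset.sum_le_sum fun k _ => ?_
      show (if n ≤ J then Q n k - Q (n + 1) k else Q n k) ≤ Q n k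
      split_ifs with h
      · have := Q0 (n + 1) k (by omega); linarith
      · exact le_rfl
    have h3 := hQV n hn
    have h4 := bvV n hn
    linarith
  have hms : ∀ p : Ω × Λ, Measurable fun ζ : κ → ℝ =>
      (cmb (Y p.2) (zf kap (x p.1) ζ) : Unit ⊕ β → ℝ) := by
    intro p
    refine measurable_pi_lambda _ fun k => ?_
    rcases k with k | k
    · exact measurable_const
    · exact (measurable_pi_apply k).comp (measurable_zf kap (x p.1))
  -- trivial bound
  have hg : |gval J y (vC J Q bv) w| ≤ c := by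
    obtain ⟨m1, b1⟩ := th_meas_bound hyp hyu hwm hc (vC J Q bv) (J + 1) le_rfl
    unfold gval
    have := norm_integral_le_of_norm_le_const (μ := gm (Unit ⊕ β))
      (f := fun g => th y (vC J Q bv) w (J + 1) (fun k => Real.sqrt (vC J Q bv (J + 1) k) * g k))
      (C := c) (ae_of_all _ fun g => by rw [Real.norm_eq_abs]; exact b1 _)
    simpa using this
  have hs : |∫ ζ, eE (pP P P2) (skelA (pP P P2) (fun n => (r n).prod (s n)) y
        (fun q => w (cmb (Y q.2) (zf kap (x q.1) ζ))) (J + 1)) ∂(gm κ)| ≤ c := by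
    have h1 : ∀ ζ, |eE (pP P P2) (skelA (pP P P2) (fun n => (r n).prod (s n)) y
        (fun q => w (cmb (Y q.2) (zf kap (x q.1) ζ))) (J + 1))| ≤ c := by
      intro ζ
      refine (eE_abs_le hPP _).trans (eE_le_of_le hPP fun p => ?_)
      exact Cav.skelA_bound (J := J) hPP _ hyp (fun q => hc _) (J + 1) le_rfl p
    have := norm_integral_le_of_norm_le_const (μ := gm κ)
      (f := fun ζ => eE (pP P P2) (skelA (pP P P2) (fun n => (r n).prod (s n)) y
        (fun q => w (cmb (Y q.2) (zf kap (x q.1) ζ))) (J + 1)))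
      (C := c) (ae_of_all _ fun ζ => by rw [Real.norm_eq_abs]; exact h1 ζ)
    simpa using this
  by_cases hD : Dev P r J kap x Q ≤ d
  · -- the good case
    have hL0 : 0 ≤ LR R := hw.nonneg R hRpos.le
    have H : Cav P P2 r s J kap x Q (YY P2 s Y) bv C d d :=
      { hP := hP
        hP2 := hP2
        mono := mono
        hC := hC
        hδ := hd.le
        hdl := hd.le
        Q0 := Q0
        Qm := Qm
        ov := fun n hn => (ov_le_Dev hP hn).trans hD
        pr := fun n hn => (pur_le_Dev hP hn).trans hD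
        clt := clt.step
        clt0 := clt.bot }
    set wR : (Unit ⊕ β → ℝ) → ℝ := fun z => w (clp R z) with hwR
    have hwRL : Lip (LR R) wR := hw.clamp hRpos.le
    have hwRc : ∀ z, |wR z| ≤ c := fun z => hc _
    have h1 := H.final hy0 hyl hyu hL0 hwRL hwRc
    have h2 := hfin d d hd.le le_rfl hd.le le_rfl
    have hdiff : ∀ z, |w z - wR z| ≤ 2 * c / R ^ 2 * mz z := clamp_diff hc hRpos
    have h3 := gval_diff hyp hyu hwm hc hwRL.measurable hwRc
      (show 0 ≤ 2 * c / R ^ 2 by positivity) hdiff hv0 hvV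
    -- the system side
    have hi1 : ∀ p, Integrable (fun ζ : κ → ℝ => skelA (pP P P2) (fun n => (r n).prod (s n)) y
        (fun q => w (cmb (Y q.2) (zf kap (x q.1) ζ))) (J + 1) p) (gm κ) := fun p =>
      Integrable.of_bound (C := c) (measurable_skelA (fun a => hwm.comp (hms a)) (J + 1)
        p).aestronglyMeasurable (ae_of_all _ fun ζ => by
          rw [Real.norm_eq_abs]
          exact Cav.skelA_bound (J := J) hPP _ hyp (fun q => hc _) (J + 1) le_rfl p)
    have hi2 : ∀ p, Integrable (fun ζ : κ → ℝ => skelA (pP P P2) (fun n => (r n).prod (s n)) y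
        (fun q => wR (cmb (Y q.2) (zf kap (x q.1) ζ))) (J + 1) p) (gm κ) := fun p =>
      Integrable.of_bound (C := c) (measurable_skelA (fun a => hwRL.measurable.comp (hms a))
        (J + 1) p).aestronglyMeasurable (ae_of_all _ fun ζ => by
          rw [Real.norm_eq_abs]
          exact Cav.skelA_bound (J := J) hPP _ hyp (fun q => hwRc _) (J + 1) le_rfl p)
    have h4 : |∫ ζ, eE (pP P P2) (skelA (pP P P2) (fun n => (r n).prod (s n)) y
        (fun q => w (cmb (Y q.2) (zf kap (x q.1) ζ))) (J + 1)) ∂(gm κ) -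
        ∫ ζ, eE (pP P P2) (skelA (pP P P2) (fun n => (r n).prod (s n)) y
        (fun q => wR (cmb (Y q.2) (zf kap (x q.1) ζ))) (J + 1)) ∂(gm κ)| ≤
        2 * c / R ^ 2 * K1 := by
      rw [← integral_sub (integrable_eE hi1) (integrable_eE hi2)]
      refine abs_integral_le_integral_abs.trans ?_
      have hi3 : Integrable (fun ζ : κ → ℝ => eE (pP P P2) (fun p : Ω × Λ =>
          mz (cmb (Y p.2) (zf kap (x p.1) ζ) : Unit ⊕ β → ℝ))) (gm κ) :=
        integrable_eE fun p => integrable_mz_cmb (Y p.2) kap (x p.1)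
      have h5 : ∀ ζ, |eE (pP P P2) (skelA (pP P P2) (fun n => (r n).prod (s n)) y
        (fun q => w (cmb (Y q.2) (zf kap (x q.1) ζ))) (J + 1)) -
        eE (pP P P2) (skelA (pP P P2) (fun n => (r n).prod (s n)) y
        (fun q => wR (cmb (Y q.2) (zf kap (x q.1) ζ))) (J + 1))| ≤
          Real.exp (2 * c) ^ (J + 1) * (2 * c / R ^ 2) * eE (pP P P2) (fun p : Ω × Λ =>
          mz (cmb (Y p.2) (zf kap (x p.1) ζ) : Unit ⊕ β → ℝ)) := by
        intro ζ
        rw [← eE_sub]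
        refine (eE_abs_le hPP _).trans ?_
        refine (skelA_diff hPP _ hyp hyu (fun a => hc _) (fun a => hwRc _) (J + 1) le_rfl).trans ?_
        rw [mul_assoc, ← eE_smul (pP P P2) (2 * c / R ^ 2)]
        exact mul_le_mul_of_nonneg_left (eE_mono hPP fun p => hdiff _) (by positivity)
      refine (integral_mono ((integrable_eE hi1).sub (integrable_eE hi2)).abs
        (hi3.const_mul _) h5).trans ?_
      rw [integral_const_mul]
      have h6 := int_mz hP hP2 kap hC hY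
      rw [hK1]
      have h7 : 0 ≤ Real.exp (2 * c) ^ (J + 1) * (2 * c / R ^ 2) := by positivity
      refine (mul_le_mul_of_nonneg_left h6 h7).trans (le_of_eq (by ring))
    have h5 : 0 ≤ 2 * c / d * Dev P r J kap x Q := by positivity
    have e0 : (fun ζ : κ → ℝ => eE (pP P P2) (skelA (pP P P2) (fun n => (r n).prod (s n)) y
        (fun q => wR (Cav.pt P r kap x (YY P2 s Y) 0 ζ q)) (J + 1))) =
        fun ζ => eE (pP P P2) (skelA (pP P P2) (fun n => (r n).prod (s n)) y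
        (fun q => wR (cmb (Y q.2) (zf kap (x q.1) ζ))) (J + 1)) := rfl
    rw [e0] at h1
    have h6 := abs_le.1 h1
    have h7 := abs_le.1 h3
    have h8 := abs_le.1 h4
    have h9 : 2 * c / R ^ 2 * (Real.exp (2 * c) * (1 + 2 * V)) ^ (J + 1) * (1 + 2 * V) =
        2 * c / R ^ 2 * K2 := by rw [hK2]; ring
    rw [h9] at h7
    have h10 : 2 * c / R ^ 2 * K1 + 2 * c / R ^ 2 * K2 ≤ ε / 2 := by rw [← mul_add]; exact hR2
    rw [abs_le]
    constructor <;> linarith
  · have h1 : 2 * c ≤ 2 * c / d * Dev P r J kap x Q := by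
      rw [div_mul_eq_mul_div, le_div_iff₀ hd]
      exact mul_le_mul_of_nonneg_left (not_le.1 hD).le (by linarith)
    have h2 := abs_le.1 hg
    have h3 := abs_le.1 hs
    rw [abs_le]
    constructor <;> linarith

end

end Crest.Agent.R164.CavG
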