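import Crest.Agent.R164.CoinG
import Crest.Agent.R164.CavG7

/-!
Row 164: coin sums are close to the Gaussian law, uniformly over Lipschitz test functions
(Wasserstein distance 1).
-/

set_option autoImplicit false

namespace Crest.Agent.R164.CavG

open MeasureTheory ProbabilityTheory Filter Topology
open Crest.Agent.R164.CoinG Crest.Agent.R164.GC

noncomputable section

theorem gauss_lip_sub {f g : ℝ → ℝ} (hf : ∀ a b, |f a - f b| ≤ |a - b|)
    (hg : ∀ a b, |g a - g b| ≤ |a - b|) (hf0 : f 0 = 0) (hg0 : g 0 = 0) {M η : ℝ} (hM : 0 < M)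
    (hη : 0 ≤ η) (h : ∀ s ∈ Set.Icc (-M) M, |f s - g s| ≤ η) :
    |∫ s, f s ∂(gaussianReal 0 1) - ∫ s, g s ∂(gaussianReal 0 1)| ≤ η + 2 / M := by
  have hfc : Continuous f := cont_of_lip1 (L := 1) (by simpa using hf)
  have hgc : Continuous g := cont_of_lip1 (L := 1) (by simpa using hg)
  have hb : ∀ {f : ℝ → ℝ}, (∀ a b, |f a - f b| ≤ |a - b|) → f 0 = 0 → ∀ s, |f s| ≤ |s| := by
    intro f hf hf0 s
    have := hf s 0
    rwa [hf0, sub_zero, sub_zero] at this
  have hfi : Integrable f (gaussianReal 0 1) :=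
    integrable_abs_gaussian.mono' hfc.aestronglyMeasurable
      (ae_of_all _ fun s => by rw [Real.norm_eq_abs]; exact hb hf hf0 s)
  have hgi : Integrable g (gaussianReal 0 1) :=
    integrable_abs_gaussian.mono' hgc.aestronglyMeasurable
      (ae_of_all _ fun s => by rw [Real.norm_eq_abs]; exact hb hg hg0 s)
  rw [← integral_sub hfi hgi]
  refine abs_integral_le_integral_abs.trans ?_
  have key : ∀ s, |f s - g s| ≤ η + 2 / M * s ^ 2 := by
    intro s
    by_cases hs : |s| ≤ M
    · have h1 := h s (abs_le.1 hs)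
      have h2 : 0 ≤ 2 / M * s ^ 2 := by positivity
      linarith
    · push Not at hs
      have h1 : |f s - g s| ≤ 2 * |s| := by
        refine (abs_sub _ _).trans ?_
        linarith [hb hf hf0 s, hb hg hg0 s]
      have h2 : 2 * |s| ≤ 2 / M * s ^ 2 := by
        rw [div_mul_eq_mul_div, le_div_iff₀ hM, ← sq_abs s]
        nlinarith [abs_nonneg s]
      linarith
  refine (integral_mono (hfi.sub hgi).abs ((integrable_const _).add
    (integrable_sq_gaussian.const_mul _)) key).trans ?_
  have e : ∫ s, (η + 2 / M * s ^ 2) ∂(gaussianReal 0 1) =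
      ∫ _s, η ∂(gaussianReal 0 1) + ∫ s, 2 / M * s ^ 2 ∂(gaussianReal 0 1) :=
    integral_add (integrable_const _) (integrable_sq_gaussian.const_mul _)
  show ∫ s, (η + 2 / M * s ^ 2) ∂(gaussianReal 0 1) ≤ _
  rw [e, integral_const_mul, integral_sq_gaussian]
  simp

/-- **uniform central limit for coins**. -/
theorem bavg_W1 {ε : ℝ} (hε : 0 < ε) : ∃ n0 : ℕ, ∀ n ≥ n0, ∀ h : ℝ → ℝ,
    (∀ a b, |h a - h b| ≤ |a - b|) →
      |bavg n h - ∫ s, h s ∂(gaussianReal 0 1)| ≤ ε := by
  by_contra hcon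
  push Not at hcon
  choose n hn h hL hbad using hcon
  set F : ℕ → ℝ → ℝ := fun k s => h k s - h k 0 with hF
  have hFL : ∀ k a b, |F k a - F k b| ≤ |a - b| := by
    intro k a b
    have : F k a - F k b = h k a - h k b := by simp [hF]
    rw [this]; exact hL k a b
  have hF0 : ∀ k, F k 0 = 0 := fun k => by simp [hF]
  have hFi : ∀ k, Integrable (h k) (gaussianReal 0 1) := by
    intro k
    have hc : Continuous (h k) := cont_of_lip1 (L := 1) (by simpa using hL k)
    refine (integrable_abs_gaussian.add (integrable_const |h k 0|)).mono'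
      hc.aestronglyMeasurable (ae_of_all _ fun s => ?_)
    rw [Real.norm_eq_abs]
    have h1 := hL k s 0
    rw [sub_zero] at h1
    have h2 : |h k s| ≤ |h k 0| + |h k s - h k 0| := by
      have := abs_add_le (h k 0) (h k s - h k 0)
      simpa using this
    simp only [Pi.add_apply]
    linarith
  have hFbad : ∀ k, ε < |bavg (n k) (F k) - ∫ s, F k s ∂(gaussianReal 0 1)| := by
    intro k
    have e1 : bavg (n k) (F k) = bavg (n k) (h k) - h k 0 := by
      rw [hF, bavg_sub (n k) (h k) (fun _ => h k 0), bavg_const]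
    have e2 : ∫ s, F k s ∂(gaussianReal 0 1) = ∫ s, h k s ∂(gaussianReal 0 1) - h k 0 := by
      simp only [hF]
      rw [integral_sub (hFi k) (integrable_const _)]
      simp
    rw [e1, e2]
    have := hbad k
    simpa using this
  set 𝓤 : Ultrafilter ℕ := Filter.hyperfilter ℕ with hU
  have hUle : (𝓤 : Filter ℕ) ≤ atTop := Nat.hyperfilter_le_atTop
  set K : Set (ℝ → ℝ) := Set.pi Set.univ fun s => Set.Icc (-|s|) |s| with hK
  have hKc : IsCompact K := isCompact_univ_pi fun s => isCompact_Icc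
  have hmem : ∀ k, F k ∈ K := by
    intro k s _
    have := hFL k s 0
    rw [hF0, sub_zero, sub_zero] at this
    exact abs_le.1 this
  obtain ⟨f, -, hf⟩ := hKc.ultrafilter_le_nhds' (𝓤.map F)
    (Filter.Eventually.of_forall hmem : ∀ᶠ k in (𝓤 : Filter ℕ), F k ∈ K)
  have hT : Tendsto F 𝓤 (𝓝 f) := hf
  have hpt : ∀ s, Tendsto (fun k => F k s) 𝓤 (𝓝 (f s)) := tendsto_pi_nhds.1 hT
  have hfL : ∀ a b, |f a - f b| ≤ |a - b| := fun a b =>
    le_of_tendsto' ((hpt a).sub (hpt b)).abs fun k => hFL k a b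
  have hf0 : f 0 = 0 := by
    refine tendsto_nhds_unique (hpt 0) ?_
    simp only [hF0]
    exact tendsto_const_nhds
  have hl1 : ∀ {f : ℝ → ℝ}, (∀ a b, |f a - f b| ≤ |a - b|) → ∀ x y, f x ≤ f y + |x - y| := by
    intro f hf x y
    have := (abs_le.1 (hf x y)).2
    linarith
  have hun := fun M => unif_of_lip (fun k => hl1 (hFL k)) (hl1 hfL) hpt M
  have hb1 := bavg_tendsto_filter (l := (𝓤 : Filter ℕ)) (n := n)
    (tendsto_atTop_mono hn (tendsto_id.mono_left hUle)) (φ := F) (ψ := f)
    (EG.lip (hl1 hfL)) (K := 1) (A := 1) zero_le_one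
    (Filter.Eventually.of_forall fun k s => by
      have h1 := hFL k s 0
      rw [hF0, sub_zero, sub_zero] at h1
      have h2 := Real.add_one_le_exp (1 * |s|)
      linarith) hun
  have hb2 : Tendsto (fun k => ∫ s, F k s ∂(gaussianReal 0 1)) 𝓤
      (𝓝 (∫ s, f s ∂(gaussianReal 0 1))) := by
    rw [Metric.tendsto_nhds]
    intro δ hδ
    set M : ℝ := 8 / δ with hM
    have hM0 : 0 < M := by positivity
    have h1 := Metric.tendstoUniformlyOn_iff.1 (hun M) (δ / 2) (by positivity)
    filter_upwards [h1] with k hk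
    rw [Real.dist_eq]
    have h2 := gauss_lip_sub (hFL k) hfL (hF0 k) hf0 hM0 (η := δ / 2) (by positivity)
      (fun s hs => by
        have := hk s hs
        rw [Real.dist_eq, abs_sub_comm] at this
        exact this.le)
    have h3 : 2 / M = δ / 4 := by rw [hM]; field_simp; norm_num
    rw [h3] at h2
    linarith
  have hlim := (hb1.sub hb2).abs
  rw [sub_self, abs_zero] at hlim
  have hev := hlim.eventually (gt_mem_nhds hε)
  obtain ⟨k, hk⟩ := hev.exists
  exact absurd hk (not_lt.2 (hFbad k).le)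

/-- scaled version. -/
theorem bavg_lip {n : ℕ} {ε : ℝ} (hn : ∀ h : ℝ → ℝ, (∀ a b, |h a - h b| ≤ |a - b|) →
      |bavg n h - ∫ s, h s ∂(gaussianReal 0 1)| ≤ ε) {L : ℝ} (hL : 0 ≤ L) {h : ℝ → ℝ}
    (hh : ∀ a b, |h a - h b| ≤ L * |a - b|) :
    |bavg n h - ∫ s, h s ∂(gaussianReal 0 1)| ≤ L * ε := by
  rcases hL.eq_or_lt with h0 | h0
  · subst h0
    have hc : ∀ a, h a = h 0 := by
      intro a
      have := hh a 0
      rw [zero_mul] at this
      have := abs_eq_zero.1 (le_antisymm this (abs_nonneg _))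
      linarith
    have e : h = fun _ => h 0 := funext hc
    rw [e, bavg_const]
    simp
  · have h1 := hn (fun s => L⁻¹ * h s) (fun a b => by
      rw [← mul_sub, abs_mul, abs_of_pos (inv_pos.2 h0)]
      have := mul_le_mul_of_nonneg_left (hh a b) (inv_pos.2 h0).le
      rwa [← mul_assoc, inv_mul_cancel₀ h0.ne', one_mul] at this)
    rw [bavg_const_mul, integral_const_mul, ← mul_sub, abs_mul, abs_of_pos (inv_pos.2 h0),
      inv_mul_le_iff₀ h0] at h1
    exact h1

end

end Crest.Agent.R164.CavG
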