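import Crest.Agent.R141.HierA

/-!
# Row 164: products of filtered finite probability spaces (helper562)
-/

set_option autoImplicit false

namespace Crest.Agent.R164.PF

open Finset Crest.Agent.R141

noncomputable section

variable {Ω Λ : Type*} [Fintype Ω] [Fintype Λ] {P : Ω → ℝ} {Q : Λ → ℝ}
  {r : Setoid Ω} {s : Setoid Λ} {𝓕 : Filt Ω} {𝓖 : Filt Λ} {x : ℕ → ℝ}

/-- product weights -/
def pP (P : Ω → ℝ) (Q : Λ → ℝ) (u : Ω × Λ) : ℝ := P u.1 * Q u.2

/-- product filtration -/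
def pfil (𝓕 : Filt Ω) (𝓖 : Filt Λ) (h : 𝓕.L = 𝓖.L) : Filt (Ω × Λ) where
  F k := Setoid.prod (𝓕.F k) (𝓖.F k)
  anti k := by
    intro a b hab
    exact ⟨𝓕.anti k hab.1, 𝓖.anti k hab.2⟩
  L := 𝓕.L
  bot k hk := by
    ext a b
    constructor
    · intro hab
      have h1 : a.1 = b.1 := by
        have := hab.1
        rw [𝓕.bot k hk] at this
        exact this
      have h2 : a.2 = b.2 := by
        have := hab.2
        rw [𝓖.bot k (h ▸ hk)] at this
        exact this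
      exact Prod.ext h1 h2
    · intro hab
      have hab : a = b := hab
      subst hab
      exact ⟨(𝓕.F k).refl _, (𝓖.F k).refl _⟩

theorem pP_isProb (hP : IsProb P) (hQ : IsProb Q) : IsProb (pP P Q) := by
  constructor
  · intro u; exact mul_pos (hP.pos _) (hQ.pos _)
  · rw [Fintype.sum_prod_type]
    simp only [pP, ← Finset.mul_sum, hQ.sum, mul_one, hP.sum]

omit [Fintype Ω] [Fintype Λ] in
theorem pfil_L (h : 𝓕.L = 𝓖.L) : (pfil 𝓕 𝓖 h).L = 𝓕.L := rfl

omit [Fintype Ω] [Fintype Λ] in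
theorem pfil_F (h : 𝓕.L = 𝓖.L) (k : ℕ) : (pfil 𝓕 𝓖 h).F k = Setoid.prod (𝓕.F k) (𝓖.F k) := rfl

open scoped Classical in
theorem sum_prod_filter (f : Ω × Λ → ℝ) (ω : Ω) (c : Λ) :
    ∑ u ∈ univ.filter (fun u => (r.prod s) (ω, c) u), f u =
      ∑ a ∈ univ.filter (fun a => r ω a), ∑ b ∈ univ.filter (fun b => s c b), f (a, b) := by
  rw [Finset.sum_filter, Fintype.sum_prod_type, Finset.sum_filter]
  refine Finset.sum_congr rfl fun a _ => ?_
  rw [Finset.sum_filter]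
  by_cases h : r ω a
  · rw [if_pos h]
    refine Finset.sum_congr rfl fun b _ => ?_
    by_cases h' : s c b
    · rw [if_pos h', if_pos (show (r.prod s) (ω, c) (a, b) from ⟨h, h'⟩)]
    · rw [if_neg h', if_neg (fun hh => h' hh.2)]
  · rw [if_neg h]
    exact Finset.sum_eq_zero fun b _ => if_neg (fun hh => h hh.1)

/-- conditional expectation of a product system as an iterated one -/
theorem cE_prod (hQ : IsProb Q) (f : Ω × Λ → ℝ) (ω : Ω) (c : Λ) :
    cE (pP P Q) (r.prod s) f (ω, c) =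
      cE P r (fun a => cE Q s (fun b => f (a, b)) c) ω := by
  classical
  have hc := cls_pos hQ s c
  unfold cE
  rw [sum_prod_filter, sum_prod_filter]
  simp only [pP]
  have e1 : ∀ a, ∑ b ∈ univ.filter (fun b => s c b), P a * Q b * f (a, b) =
      P a * ∑ b ∈ univ.filter (fun b => s c b), Q b * f (a, b) := by
    intro a
    rw [Finset.mul_sum]
    exact Finset.sum_congr rfl fun b _ => by ring
  have e2 : ∀ a, ∑ b ∈ univ.filter (fun b => s c b), P a * Q b =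
      P a * ∑ b ∈ univ.filter (fun b => s c b), Q b := by
    intro a
    rw [Finset.mul_sum]
  simp only [e1, e2]
  rw [← Finset.sum_mul]
  have e3 : ∀ a, P a * ((∑ b ∈ univ.filter (fun b => s c b), Q b * f (a, b)) /
      ∑ b ∈ univ.filter (fun b => s c b), Q b) =
      (P a * ∑ b ∈ univ.filter (fun b => s c b), Q b * f (a, b)) /
      ∑ b ∈ univ.filter (fun b => s c b), Q b := fun a => by rw [mul_div_assoc]
  simp only [e3, ← Finset.sum_div]
  rw [div_div, mul_comm (∑ b ∈ univ.filter (fun b => s c b), Q b)]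

theorem cE_prod_mul (hQ : IsProb Q) (f : Ω → ℝ) (g : Λ → ℝ) (ω : Ω) (c : Λ) :
    cE (pP P Q) (r.prod s) (fun u => f u.1 * g u.2) (ω, c) = cE P r f ω * cE Q s g c := by
  rw [cE_prod hQ]
  have : (fun a => cE Q s (fun b => f a * g b) c) = fun a => cE Q s g c * f a := by
    funext a
    rw [cE_smul]; ring
  simp only at this ⊢
  rw [this, cE_smul]; ring

theorem cE_prod_fst (hQ : IsProb Q) (f : Ω → ℝ) (ω : Ω) (c : Λ) :
    cE (pP P Q) (r.prod s) (fun u => f u.1) (ω, c) = cE P r f ω := by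
  rw [cE_prod hQ]
  have : (fun a => cE Q s (fun _ : Λ => f a) c) = f := by
    funext a
    exact cE_const hQ s _ c
  simp only at this ⊢
  rw [this]

theorem cE_prod_snd (hP : IsProb P) (hQ : IsProb Q) (g : Λ → ℝ) (ω : Ω) (c : Λ) :
    cE (pP P Q) (r.prod s) (fun u => g u.2) (ω, c) = cE Q s g c := by
  have := cE_prod_mul (P := P) (r := r) (s := s) hQ (fun _ => 1) g ω c
  simp only [one_mul] at this
  rw [this, cE_const hP, one_mul]

theorem eE_prod_mul (f : Ω → ℝ) (g : Λ → ℝ) :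
    eE (pP P Q) (fun u => f u.1 * g u.2) = eE P f * eE Q g := by
  unfold eE pP
  rw [Fintype.sum_prod_type, Finset.sum_mul_sum]
  refine Finset.sum_congr rfl fun a _ => Finset.sum_congr rfl fun b _ => by ring

theorem eE_prod (f : Ω × Λ → ℝ) :
    eE (pP P Q) f = eE P (fun a => eE Q (fun b => f (a, b))) := by
  unfold eE pP
  rw [Fintype.sum_prod_type]
  refine Finset.sum_congr rfl fun a _ => ?_
  rw [Finset.mul_sum]
  refine Finset.sum_congr rfl fun b _ => by ring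

theorem eE_prod_fst (hQ : IsProb Q) (f : Ω → ℝ) :
    eE (pP P Q) (fun u => f u.1) = eE P f := by
  rw [eE_prod]
  congr 1
  funext a
  exact eE_const hQ (f a)

theorem eE_prod_snd (hP : IsProb P) (g : Λ → ℝ) :
    eE (pP P Q) (fun u => g u.2) = eE Q g := by
  rw [eE_prod]
  exact eE_const hP (eE Q g)

section levels

variable (hL : 𝓕.L = 𝓖.L)

/-- the functional of a sum of independent parts -/
theorem A_prod_add (hP : IsProb P) (hQ : IsProb Q) (hx : ∀ k, 0 < x k) (f : Ω → ℝ) (g : Λ → ℝ)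
    (k : ℕ) : ∀ u : Ω × Λ, A (pP P Q) (pfil 𝓕 𝓖 hL) x (fun u => f u.1 + g u.2) k u =
      A P 𝓕 x f k u.1 + A Q 𝓖 x g k u.2 := by
  have hPQ := pP_isProb hP hQ
  refine back_induction (pfil 𝓕 𝓖 hL) (Q := fun k => ∀ u : Ω × Λ,
    A (pP P Q) (pfil 𝓕 𝓖 hL) x (fun u => f u.1 + g u.2) k u =
      A P 𝓕 x f k u.1 + A Q 𝓖 x g k u.2) ?_ ?_ k
  · intro k hk u
    have hk' : 𝓕.L ≤ k := hk
    rw [A_of_ge _ hk, A_of_ge _ hk', A_of_ge _ (hL ▸ hk')]
  · intro k ih u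
    obtain ⟨ω, c⟩ := u
    rw [A_step hPQ hx, A_step hP hx f, A_step hQ hx g]
    have e : A (pP P Q) (pfil 𝓕 𝓖 hL) x (fun u => f u.1 + g u.2) (k + 1) =
        fun u => A P 𝓕 x f (k + 1) u.1 + A Q 𝓖 x g (k + 1) u.2 := funext ih
    rw [e]
    unfold pm
    have e2 : (fun u : Ω × Λ => Real.exp (x (k + 1) *
        (A P 𝓕 x f (k + 1) u.1 + A Q 𝓖 x g (k + 1) u.2))) =
        fun u => Real.exp (x (k + 1) * A P 𝓕 x f (k + 1) u.1) *
          Real.exp (x (k + 1) * A Q 𝓖 x g (k + 1) u.2) := by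
      funext u
      rw [← Real.exp_add]; ring_nf
    rw [e2, pfil_F, cE_prod_mul hQ (fun ω => Real.exp (x (k + 1) * A P 𝓕 x f (k + 1) ω))
      (fun c => Real.exp (x (k + 1) * A Q 𝓖 x g (k + 1) c)),
      Real.log_mul (cE_pos hP (fun _ => Real.exp_pos _) ω).ne'
        (cE_pos hQ (fun _ => Real.exp_pos _) c).ne']
    ring

theorem A_prod_fst (hP : IsProb P) (hQ : IsProb Q) (hx : ∀ k, 0 < x k) (f : Ω → ℝ)
    (k : ℕ) (u : Ω × Λ) : A (pP P Q) (pfil 𝓕 𝓖 hL) x (fun u => f u.1) k u = A P 𝓕 x f k u.1 := by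
  have h := A_prod_add hL hP hQ hx f (fun _ => 0) k u
  rw [A_const hQ hx] at h
  simpa using h

theorem A_prod_snd (hP : IsProb P) (hQ : IsProb Q) (hx : ∀ k, 0 < x k) (g : Λ → ℝ)
    (k : ℕ) (u : Ω × Λ) : A (pP P Q) (pfil 𝓕 𝓖 hL) x (fun u => g u.2) k u = A Q 𝓖 x g k u.2 := by
  have h := A_prod_add hL hP hQ hx (fun _ => 0) g k u
  rw [A_const hP hx] at h
  simpa using h

theorem S_prod_fst (hP : IsProb P) (hQ : IsProb Q) (hx : ∀ k, 0 < x k) (f : Ω → ℝ)
    (k m : ℕ) (u : Ω × Λ) :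
    S (pP P Q) (pfil 𝓕 𝓖 hL) x (fun u => f u.1) k m u = S P 𝓕 x f k m u.1 := by
  unfold S
  refine Finset.sum_congr rfl fun l _ => ?_
  rw [A_prod_fst hL hP hQ hx, A_prod_fst hL hP hQ hx]

/-- the tilted law of a function of the first factor -/
theorem tl_prod_fst (hP : IsProb P) (hQ : IsProb Q) (hx : ∀ k, 0 < x k) (f : Ω → ℝ) :
    tl (pP P Q) (pfil 𝓕 𝓖 hL) x (fun u => f u.1) = pP (tl P 𝓕 x f) Q := by
  funext u
  unfold tl
  rw [S_prod_fst hL hP hQ hx, pfil_L]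
  unfold pP
  ring

theorem S_prod_add (hP : IsProb P) (hQ : IsProb Q) (hx : ∀ k, 0 < x k) (f : Ω → ℝ) (g : Λ → ℝ)
    (k m : ℕ) (u : Ω × Λ) :
    S (pP P Q) (pfil 𝓕 𝓖 hL) x (fun u => f u.1 + g u.2) k m u =
      S P 𝓕 x f k m u.1 + S Q 𝓖 x g k m u.2 := by
  unfold S
  rw [← Finset.sum_add_distrib]
  refine Finset.sum_congr rfl fun l _ => ?_
  rw [A_prod_add hL hP hQ hx, A_prod_add hL hP hQ hx]
  ring

theorem tl_prod_add (hP : IsProb P) (hQ : IsProb Q) (hx : ∀ k, 0 < x k) (f : Ω → ℝ) (g : Λ → ℝ) :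
    tl (pP P Q) (pfil 𝓕 𝓖 hL) x (fun u => f u.1 + g u.2) = pP (tl P 𝓕 x f) (tl Q 𝓖 x g) := by
  funext u
  unfold tl
  rw [S_prod_add hL hP hQ hx, pfil_L, Real.exp_add, hL]
  unfold pP
  ring

end levels

/-! ### transport by an equivalence -/

section equiv

variable {Ω' : Type*} [Fintype Ω'] {P' : Ω' → ℝ} {𝓕' : Filt Ω'}

/-- isomorphism of filtered probability spaces -/
structure Iso (e : Ω' ≃ Ω) (P' : Ω' → ℝ) (P : Ω → ℝ) (𝓕' : Filt Ω') (𝓕 : Filt Ω) : Prop where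
  prob : ∀ a, P (e a) = P' a
  rel : ∀ k a b, 𝓕.F k (e a) (e b) ↔ 𝓕'.F k a b
  len : 𝓕'.L = 𝓕.L

variable {e : Ω' ≃ Ω}

theorem Iso.cE (h : Iso e P' P 𝓕' 𝓕) (k : ℕ) (f : Ω → ℝ) (a : Ω') :
    Crest.Agent.R141.cE P' (𝓕'.F k) (fun a => f (e a)) a =
      Crest.Agent.R141.cE P (𝓕.F k) f (e a) := by
  classical
  unfold Crest.Agent.R141.cE
  have h1 : ∀ g : Ω → ℝ, ∑ b ∈ univ.filter (fun b => 𝓕'.F k a b), g (e b) =
      ∑ b ∈ univ.filter (fun b => 𝓕.F k (e a) b), g b := by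
    intro g
    rw [Finset.sum_filter, Finset.sum_filter, ← Equiv.sum_comp e]
    refine Finset.sum_congr rfl fun b _ => ?_
    by_cases hb : 𝓕'.F k a b
    · rw [if_pos hb, if_pos ((h.rel k a b).2 hb)]
    · rw [if_neg hb, if_neg (fun hh => hb ((h.rel k a b).1 hh))]
  have h2 := h1 (fun b => P b * f b)
  have h3 := h1 P
  simp only [h.prob] at h2 h3
  rw [h2, h3]

theorem Iso.A (h : Iso e P' P 𝓕' 𝓕) (hP' : IsProb P') (hP : IsProb P) (hx : ∀ k, 0 < x k)
    (U : Ω → ℝ) (k : ℕ) : ∀ a, Crest.Agent.R141.A P' 𝓕' x (fun a => U (e a)) k a =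
      Crest.Agent.R141.A P 𝓕 x U k (e a) := by
  refine back_induction 𝓕' (Q := fun k => ∀ a,
    Crest.Agent.R141.A P' 𝓕' x (fun a => U (e a)) k a =
      Crest.Agent.R141.A P 𝓕 x U k (e a)) ?_ ?_ k
  · intro k hk a
    rw [A_of_ge _ hk, A_of_ge _ (h.len ▸ hk)]
  · intro k ih a
    rw [A_step hP' hx, A_step hP hx U]
    unfold pm
    have e1 : (fun w => Real.exp (x (k + 1) *
        Crest.Agent.R141.A P' 𝓕' x (fun a => U (e a)) (k + 1) w)) =
        fun w => (fun b => Real.exp (x (k + 1) * Crest.Agent.R141.A P 𝓕 x U (k + 1) b)) (e w) := by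
      funext w
      rw [ih w]
    rw [e1, h.cE k (fun b => Real.exp (x (k + 1) * Crest.Agent.R141.A P 𝓕 x U (k + 1) b)) a]

theorem Iso.S (h : Iso e P' P 𝓕' 𝓕) (hP' : IsProb P') (hP : IsProb P) (hx : ∀ k, 0 < x k)
    (U : Ω → ℝ) (k m : ℕ) (a : Ω') :
    Crest.Agent.R141.S P' 𝓕' x (fun a => U (e a)) k m a =
      Crest.Agent.R141.S P 𝓕 x U k m (e a) := by
  unfold Crest.Agent.R141.S
  refine Finset.sum_congr rfl fun l _ => ?_
  rw [h.A hP' hP hx, h.A hP' hP hx]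

theorem Iso.tl (h : Iso e P' P 𝓕' 𝓕) (hP' : IsProb P') (hP : IsProb P) (hx : ∀ k, 0 < x k)
    (U : Ω → ℝ) (a : Ω') :
    Crest.Agent.R141.tl P' 𝓕' x (fun a => U (e a)) a = Crest.Agent.R141.tl P 𝓕 x U (e a) := by
  unfold Crest.Agent.R141.tl
  rw [h.S hP' hP hx, h.prob, h.len]

theorem eE_equiv (e : Ω' ≃ Ω) {P' : Ω' → ℝ} {P : Ω → ℝ} (h : ∀ a, P (e a) = P' a) (f : Ω → ℝ) :
    eE P' (fun a => f (e a)) = eE P f := by
  unfold eE
  rw [← Equiv.sum_comp e (fun b => P b * f b)]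
  simp only [h]

theorem Iso.tilt (h : Iso e P' P 𝓕' 𝓕) (hP' : IsProb P') (hP : IsProb P) (hx : ∀ k, 0 < x k)
    (U : Ω → ℝ) : Iso e (Crest.Agent.R141.tl P' 𝓕' x (fun a => U (e a)))
      (Crest.Agent.R141.tl P 𝓕 x U) 𝓕' 𝓕 :=
  ⟨fun a => (h.tl hP' hP hx U a).symm, h.rel, h.len⟩

end equiv

/-! ### a variable revealed at the last step -/

section last

/-- the filtration of a variable revealed at the last step `L` -/
def lastFil (E : Type*) (L : ℕ) : Filt E where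
  F k := if L ≤ k then ⊥ else ⊤
  anti k := by
    split_ifs with h1 h2
    · exact le_rfl
    · exact bot_le
    · omega
    · exact le_rfl
  L := L
  bot k hk := if_pos hk

theorem lastFil_F_lt {E : Type*} {L k : ℕ} (h : k < L) : (lastFil E L).F k = ⊤ :=
  if_neg (not_le.2 h)

/-- add a sign revealed at the last step -/
def lfil (𝓕 : Filt Ω) : Filt (Ω × Bool) := pfil 𝓕 (lastFil Bool 𝓕.L) rfl

omit [Fintype Ω] in
theorem lfil_L : (lfil 𝓕).L = 𝓕.L := rfl

omit [Fintype Ω] in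
theorem lfil_F (k : ℕ) : (lfil 𝓕).F k = Setoid.prod (𝓕.F k) ((lastFil Bool 𝓕.L).F k) := rfl

/-- uniform law on `Bool` -/
def uB (_ : Bool) : ℝ := 1 / 2

theorem uB_isProb : IsProb uB := by
  constructor
  · intro _; norm_num [uB]
  · simp [uB]

/-- the last variable integrated out -/
def redB (U : Ω × Bool → ℝ) (ω : Ω) : ℝ :=
  Real.log ((Real.exp (U (ω, true)) + Real.exp (U (ω, false))) / 2)

omit [Fintype Ω] in
theorem exp_redB (U : Ω × Bool → ℝ) (ω : Ω) : Real.exp (redB U ω) =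
    (Real.exp (U (ω, true)) + Real.exp (U (ω, false))) / 2 := by
  unfold redB
  rw [Real.exp_log (by positivity)]

theorem A_last (hP : IsProb P) (hx : ∀ k, 0 < x k) (hxL : x 𝓕.L = 1) (U : Ω × Bool → ℝ) {k : ℕ}
    (hk : k < 𝓕.L) : ∀ u : Ω × Bool,
      A (pP P uB) (lfil 𝓕) x U k u = A P 𝓕 x (redB U) k u.1 := by
  have hPQ := pP_isProb hP uB_isProb
  obtain ⟨j, hj⟩ : ∃ j, k + j + 1 = 𝓕.L := ⟨𝓕.L - 1 - k, by omega⟩
  induction j generalizing k with
  | zero =>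
    intro u
    obtain ⟨ω, c⟩ := u
    have hL1 : k + 1 = 𝓕.L := by omega
    have hA1 : A (pP P uB) (lfil 𝓕) x U 𝓕.L = U :=
      A_of_ge (𝓕 := lfil 𝓕) U (le_refl 𝓕.L)
    rw [A_step hPQ hx, A_step hP hx (redB U), hL1, hA1, A_of_ge (redB U) le_rfl]
    unfold pm
    rw [hxL]
    simp only [one_mul, div_one]
    congr 1
    rw [lfil_F, cE_prod uB_isProb]
    congr 1
    funext a
    rw [lastFil_F_lt hk, eE_top uB_isProb, exp_redB]
    unfold eE uB
    rw [Fintype.sum_bool]; ring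
  | succ j ih =>
    intro u
    obtain ⟨ω, c⟩ := u
    have hk' : k + 1 < 𝓕.L := by omega
    have ih' := ih hk' (by omega)
    rw [A_step hPQ hx, A_step hP hx (redB U)]
    unfold pm
    have e1 : (fun w => Real.exp (x (k + 1) *
        A (pP P uB) (lfil 𝓕) x U (k + 1) w)) =
        fun w => (fun a => Real.exp (x (k + 1) * A P 𝓕 x (redB U) (k + 1) a)) w.1 := by
      funext w
      rw [ih' w]
    rw [e1, lfil_F, cE_prod_fst uB_isProb
      (fun a => Real.exp (x (k + 1) * A P 𝓕 x (redB U) (k + 1) a))]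

/-- density: the law of the last variable given the rest -/
theorem tl_last (hP : IsProb P) (hx : ∀ k, 0 < x k) (hxL : x 𝓕.L = 1) (h0 : 0 < 𝓕.L)
    (U : Ω × Bool → ℝ) (u : Ω × Bool) :
    tl (pP P uB) (lfil 𝓕) x U u =
      tl P 𝓕 x (redB U) u.1 * (Real.exp (U u - redB U u.1) / 2) := by
  have hPQ := pP_isProb hP uB_isProb
  obtain ⟨m, hm⟩ : ∃ m, 𝓕.L = m + 1 := ⟨𝓕.L - 1, by omega⟩
  have h1 : S (pP P uB) (lfil 𝓕) x U 0 𝓕.L u =
      S P 𝓕 x (redB U) 0 𝓕.L u.1 + (U u - redB U u.1) := by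
    have hs1 := S_succ (P := pP P uB) (𝓕 := lfil 𝓕) (x := x) U
      (Nat.zero_le m) u
    have hs2 := S_succ (P := P) (𝓕 := 𝓕) (x := x) (redB U) (Nat.zero_le m) u.1
    rw [← hm] at hs1 hs2
    rw [hs1, hs2]
    have hA1 : A (pP P uB) (lfil 𝓕) x U 𝓕.L = U :=
      A_of_ge (𝓕 := lfil 𝓕) U (le_refl 𝓕.L)
    have hS : S (pP P uB) (lfil 𝓕) x U 0 m u =
        S P 𝓕 x (redB U) 0 m u.1 := by
      unfold S
      refine Finset.sum_congr rfl fun l hl => ?_
      have hl' := (Finset.mem_Ico.1 hl).2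
      rw [A_last hP hx hxL U (by omega), A_last hP hx hxL U (by omega)]
    rw [hS, hA1, A_of_ge (redB U) le_rfl, A_last hP hx hxL U (by omega), hxL]
    ring
  unfold tl
  rw [lfil_L, h1, Real.exp_add]
  unfold pP uB
  ring

/-- expectation under the tilted law: first average over the last variable -/
theorem eE_tl_last (hP : IsProb P) (hx : ∀ k, 0 < x k) (hxL : x 𝓕.L = 1) (h0 : 0 < 𝓕.L)
    (U : Ω × Bool → ℝ) (O : Ω × Bool → ℝ) :
    eE (tl (pP P uB) (lfil 𝓕) x U) O =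
      eE (tl P 𝓕 x (redB U)) (fun ω =>
        (Real.exp (U (ω, true) - redB U ω) * O (ω, true) +
          Real.exp (U (ω, false) - redB U ω) * O (ω, false)) / 2) := by
  unfold eE
  rw [Fintype.sum_prod_type]
  refine Finset.sum_congr rfl fun ω _ => ?_
  rw [Fintype.sum_bool, tl_last hP hx hxL h0, tl_last hP hx hxL h0]
  ring

end last

end

end Crest.Agent.R164.PF
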