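import Crest.Agent.R164.EDa
import Crest.Agent.R164.PFil
import Crest.Agent.R164.ConcSys2

/-!
# Row 164, L side, module LabMom (helper158): uniform moments of a label field under a tilted law

`eE_tl_snd_le`: for a product system `Ω × Λ` and a log-weight `Y` which depends on the label `c`
in a controlled way, the expectation under the tilted law of a function of the label is bounded
by prior quantities, uniformly in `Ω, P, 𝓕, x, Y`.  `eE_tl_zz_sq_le` is the case of normalised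
coin sums.
-/

set_option autoImplicit false

namespace Crest.Agent.R164.ED

open Finset Crest.Agent.R141 Crest.Agent.R164.PF

noncomputable section

section gen

variable {Ω : Type*} [Fintype Ω] {P : Ω → ℝ} {𝓕 : Filt Ω} {x : ℕ → ℝ}

theorem aE_mono (hP : IsProb P) (hx : ∀ k, 0 < x k) {U V : Ω → ℝ} (h : ∀ ω, U ω ≤ V ω) :
    aE P 𝓕 x U ≤ aE P 𝓕 x V := eE_mono hP fun ω => A_mono hP hx h 0 ω

theorem aE_add_const (hP : IsProb P) (hx : ∀ k, 0 < x k) (U : Ω → ℝ) (c : ℝ) :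
    aE P 𝓕 x (fun w => U w + c) = aE P 𝓕 x U + c := by
  unfold aE
  have : A P 𝓕 x (fun w => U w + c) 0 = fun w => A P 𝓕 x U 0 w + c :=
    funext (A_add_const hP hx U c 0)
  rw [this, eE_add, eE_const hP]

theorem eE_le_aE (hP : IsProb P) (hx : ∀ k, 0 < x k) (U : Ω → ℝ) : eE P U ≤ aE P 𝓕 x U := by
  unfold aE
  rw [← eE_cE hP (𝓕.F 0)]
  exact eE_mono hP fun ω => cE_le_A hP hx U 0 ω

theorem aE_le_log (hP : IsProb P) (hx : IsExpo x) (U : Ω → ℝ) :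
    aE P 𝓕 x U ≤ Real.log (eE P (fun w => Real.exp (U w))) := by
  set m := eE P (fun w => Real.exp (U w)) with hm
  by_cases hne : Nonempty Ω
  · have hm0 : 0 < m := by
      obtain ⟨ω⟩ := hne
      exact Finset.sum_pos (fun i _ => mul_pos (hP.pos i) (Real.exp_pos _)) ⟨ω, Finset.mem_univ _⟩
    have h1 : ∀ ω, A P 𝓕 x U 0 ω ≤
        m⁻¹ * cE P (𝓕.F 0) (fun w => Real.exp (U w)) ω + (Real.log m - 1) := by
      intro ω
      have h2 := A_le_log (𝓕 := 𝓕) hP hx U 0 ω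
      have h3 : 0 < cE P (𝓕.F 0) (fun w => Real.exp (U w)) ω :=
        cE_pos hP (fun _ => Real.exp_pos _) ω
      have h4 := Real.log_le_sub_one_of_pos (mul_pos (inv_pos.2 hm0) h3)
      rw [Real.log_mul (inv_pos.2 hm0).ne' h3.ne', Real.log_inv] at h4
      linarith
    have h5 := eE_mono hP h1
    rw [eE_add, eE_smul, eE_const hP, eE_cE hP, ← hm, inv_mul_cancel₀ hm0.ne'] at h5
    unfold aE
    linarith
  · exfalso
    rw [not_nonempty_iff] at hne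
    have := hP.sum
    simp at this

/-- the functional dominates the power mean with a smaller exponent -/
theorem pm_le_A (hP : IsProb P) (hx : ∀ k, 0 < x k) {y : ℝ} (hy0 : 0 < y) (U : Ω → ℝ) (k : ℕ) :
    (∀ j, k < j → y ≤ x j) → ∀ ω, pm P (𝓕.F k) y U ω ≤ A P 𝓕 x U k ω := by
  refine back_induction 𝓕 (Q := fun k => (∀ j, k < j → y ≤ x j) →
    ∀ ω, pm P (𝓕.F k) y U ω ≤ A P 𝓕 x U k ω) ?_ ?_ k
  · intro k hk _ ω
    rw [A_of_ge U hk, pm_of_meas hP hy0 (rmeas_of_ge hk U)]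
  · intro k ih hy ω
    rw [A_step hP hx U k, ← pm_tower hP (𝓕.anti k) hy0 U ω]
    refine (pm_le_pm hP _ hy0 (hy (k + 1) (Nat.lt_succ_self k)) _ ω).trans ?_
    exact pm_mono hP (hx _) ω fun a _ => ih (fun j hj => hy j (by omega)) a

end gen

variable {Ω Λ : Type*} [Fintype Ω] [Fintype Λ] {P : Ω → ℝ} {Q : Λ → ℝ}
  {𝓕 : Filt Ω} {𝓖 : Filt Λ} {x : ℕ → ℝ}

/-- averaged functional of a sum of independent parts -/
theorem aE_prod_add (hL : 𝓕.L = 𝓖.L) (hP : IsProb P) (hQ : IsProb Q) (hx : ∀ k, 0 < x k)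
    (f : Ω → ℝ) (g : Λ → ℝ) :
    aE (pP P Q) (pfil 𝓕 𝓖 hL) x (fun u => f u.1 + g u.2) = aE P 𝓕 x f + aE Q 𝓖 x g := by
  unfold aE
  have : A (pP P Q) (pfil 𝓕 𝓖 hL) x (fun u => f u.1 + g u.2) 0 =
      fun u => A P 𝓕 x f 0 u.1 + A Q 𝓖 x g 0 u.2 := funext (A_prod_add hL hP hQ hx f g 0)
  rw [this, eE_add, eE_prod_fst hQ, eE_prod_snd hP]

/-- increment of the averaged functional when a function of the label is added -/
theorem aE_add_snd_sub_le (hL : 𝓕.L = 𝓖.L) (hP : IsProb P) (hQ : IsProb Q) (hx : IsExpo x)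
    {Y : Ω × Λ → ℝ} {l h : Λ → ℝ} {c0 : Λ} {r0 : ℝ}
    (hY : ∀ w c, |Y (w, c) - Y (w, c0)| ≤ l c + r0) :
    aE (pP P Q) (pfil 𝓕 𝓖 hL) x (fun u => Y u + h u.2) - aE (pP P Q) (pfil 𝓕 𝓖 hL) x Y ≤
      Real.log (eE Q (fun c => Real.exp (l c + h c))) + eE Q l + 2 * r0 := by
  have hPQ := pP_isProb hP hQ
  have h1 : aE (pP P Q) (pfil 𝓕 𝓖 hL) x (fun u => Y u + h u.2) ≤
      aE (pP P Q) (pfil 𝓕 𝓖 hL) x (fun u => Y (u.1, c0) + (l u.2 + h u.2 + r0)) := by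
    refine aE_mono hPQ hx.pos fun u => ?_
    have := (abs_le.1 (hY u.1 u.2)).2
    simp only [Prod.mk.eta] at this
    linarith
  rw [aE_prod_add hL hP hQ hx.pos (fun w => Y (w, c0)) (fun c => l c + h c + r0),
    aE_add_const hQ hx.pos (fun c => l c + h c)] at h1
  have h2 : aE (pP P Q) (pfil 𝓕 𝓖 hL) x (fun u => Y (u.1, c0) + ((-1) * l u.2 + (-r0))) ≤
      aE (pP P Q) (pfil 𝓕 𝓖 hL) x Y := by
    refine aE_mono hPQ hx.pos fun u => ?_
    have := (abs_le.1 (hY u.1 u.2)).1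
    simp only [Prod.mk.eta] at this
    linarith
  rw [aE_prod_add hL hP hQ hx.pos (fun w => Y (w, c0)) (fun c => (-1) * l c + (-r0)),
    aE_add_const hQ hx.pos (fun c => (-1) * l c)] at h2
  have h3 := aE_le_log (𝓕 := 𝓖) hQ hx (fun c => l c + h c)
  have h4 := eE_le_aE (𝓕 := 𝓖) hQ hx.pos (fun c => (-1) * l c)
  rw [eE_smul] at h4
  linarith

/-- **label moment bound**: expectation under the tilted law of a function of the label. -/
theorem eE_tl_snd_le (hL : 𝓕.L = 𝓖.L) (hP : IsProb P) (hQ : IsProb Q) (hx : IsExpo x)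
    {Y : Ω × Λ → ℝ} {l h : Λ → ℝ} {c0 : Λ} {r0 α : ℝ}
    (hY : ∀ w c, |Y (w, c) - Y (w, c0)| ≤ l c + r0) :
    α * eE (tl (pP P Q) (pfil 𝓕 𝓖 hL) x Y) (fun u => h u.2) ≤
      Real.log (eE Q (fun c => Real.exp (l c + α * h c))) + eE Q l + 2 * r0 := by
  have hPQ := pP_isProb hP hQ
  have h1 := aE_add_snd_sub_le (h := fun c => α * h c) hL hP hQ hx hY
  have h2 := aE_ge (𝓕 := pfil 𝓕 𝓖 hL) hPQ hx.pos (fun u => Y u + α * h u.2) Y
  have e : (fun w : Ω × Λ => (Y w + α * h w.2) - Y w) = fun w => α * h w.2 := by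
    funext w; ring
  rw [e, eE_smul] at h2
  linarith

/-- **exponential label moments** (needs a trivial initial `σ`-algebra). -/
theorem eE_tl_exp_snd_le (hL : 𝓕.L = 𝓖.L) (hF : 𝓕.F 0 = ⊤) (hG : 𝓖.F 0 = ⊤) (hP : IsProb P)
    (hQ : IsProb Q) (hx : IsExpo x)
    {Y : Ω × Λ → ℝ} {l h : Λ → ℝ} {c0 : Λ} {r0 α : ℝ}
    (hY : ∀ w c, |Y (w, c) - Y (w, c0)| ≤ l c + r0) :
    eE (tl (pP P Q) (pfil 𝓕 𝓖 hL) x Y) (fun u => Real.exp (x 1 * (α * h u.2))) ≤
      Real.exp (x 1 * (Real.log (eE Q (fun c => Real.exp (l c + α * h c))) + eE Q l + 2 * r0)) := by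
  have hPQ := pP_isProb hP hQ
  have h1 := aE_add_snd_sub_le (h := fun c => α * h c) hL hP hQ hx hY
  have htop : (pfil 𝓕 𝓖 hL).F 0 = ⊤ := by
    rw [pfil_F, hF, hG]
    ext a b
    exact ⟨fun _ => trivial, fun _ => ⟨trivial, trivial⟩⟩
  by_cases hne : Nonempty (Ω × Λ)
  · obtain ⟨u0⟩ := hne
    have hQt := tl_isProb (𝓕 := pfil 𝓕 𝓖 hL) hPQ hx.pos Y
    have hA : ∀ U : Ω × Λ → ℝ, aE (pP P Q) (pfil 𝓕 𝓖 hL) x U =
        A (pP P Q) (pfil 𝓕 𝓖 hL) x U 0 u0 := by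
      intro U
      have hm := A_meas (𝓕 := pfil 𝓕 𝓖 hL) hPQ hx.pos U 0
      have : A (pP P Q) (pfil 𝓕 𝓖 hL) x U 0 = fun _ => A (pP P Q) (pfil 𝓕 𝓖 hL) x U 0 u0 := by
        funext u
        exact hm u u0 (by rw [htop]; trivial)
      unfold aE
      conv_lhs => rw [this]
      exact eE_const hPQ _
    rw [hA, hA, A_cocycle (𝓕 := pfil 𝓕 𝓖 hL) hPQ hx.pos Y (fun u => α * h u.2) 0 u0] at h1
    have h2 := pm_le_A (𝓕 := pfil 𝓕 𝓖 hL) hQt hx.pos (hx.pos 1) (fun u => α * h u.2) 0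
      (fun j hj => hx.mono hj) u0
    have h3 := exp_pm hQt ((pfil 𝓕 𝓖 hL).F 0) (hx.pos 1) (fun u => α * h u.2) u0
    rw [htop, eE_top hQt] at h3
    rw [← h3]
    apply Real.exp_le_exp.2
    apply mul_le_mul_of_nonneg_left _ (hx.pos 1).le
    rw [htop] at h2
    linarith
  · exfalso
    rw [not_nonempty_iff] at hne
    have := hPQ.sum
    simp at this

/-! ### coins -/

/-- uniform weights -/
def uQ (Λ : Type*) [Fintype Λ] (_ : Λ) : ℝ := (Fintype.card Λ : ℝ)⁻¹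

theorem uQ_isProb [Nonempty Λ] : IsProb (uQ Λ) := by
  constructor
  · intro _; unfold uQ; exact inv_pos.2 (by exact_mod_cast Fintype.card_pos)
  · unfold uQ
    rw [Finset.sum_const, Finset.card_univ, nsmul_eq_mul]
    exact mul_inv_cancel₀ (by exact_mod_cast Fintype.card_ne_zero)

theorem eE_uQ (f : Λ → ℝ) : eE (uQ Λ) f = (Fintype.card Λ : ℝ)⁻¹ * ∑ c, f c := by
  unfold eE uQ
  rw [Finset.mul_sum]

variable {κ : Type*} [Fintype κ] [DecidableEq κ] {n : ℕ}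

/-- product functions of independent uniform coordinates -/
theorem eE_uQ_prod {M : Type*} [Fintype M] (φ : κ → M → ℝ) :
    eE (uQ (κ → M)) (fun c => ∏ g, φ g (c g)) = ∏ g, eE (uQ M) (φ g) := by
  rw [eE_uQ]
  simp only [eE_uQ]
  rw [Finset.prod_mul_distrib, Finset.prod_univ_sum, Fintype.piFinset_univ, Finset.prod_const,
    Finset.card_univ, Fintype.card_fun]
  push_cast
  rw [inv_pow]

/-- the normalised coin sum of the group `g` -/
def zz (g : κ) (c : κ → Fin n → Bool) : ℝ := (Real.sqrt n)⁻¹ * ∑ t, sv (c g t)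

omit [Fintype κ] [DecidableEq κ] in
theorem zz_eq (g : κ) (c : κ → Fin n → Bool) : zz g c = CSys.zc n (c g) := rfl

/-- one coordinate -/
theorem eE_uQ_one {M : Type*} [Fintype M] [Nonempty M] (g : κ) (φ : M → ℝ) :
    eE (uQ (κ → M)) (fun c => φ (c g)) = eE (uQ M) φ := by
  have h := eE_uQ_prod (κ := κ) (M := M) (fun g' m => if g' = g then φ m else 1)
  have e1 : (fun c : κ → M => ∏ g', if g' = g then φ (c g') else 1) = fun c => φ (c g) := by
    funext c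
    rw [Finset.prod_ite_eq' Finset.univ g (fun g' => φ (c g'))]
    simp
  have e2 : ∏ g', eE (uQ M) (fun m => if g' = g then φ m else 1) = eE (uQ M) φ := by
    rw [Finset.prod_eq_single g]
    · simp
    · intro b _ hb
      simp only [hb, if_false]
      exact eE_const uQ_isProb 1
    · intro h; exact absurd (Finset.mem_univ g) h
  rw [e1, e2] at h
  exact h

theorem eE_exp_zc (s : ℝ) : eE (uQ (Fin n → Bool)) (fun c => Real.exp (s * CSys.zc n c)) ≤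
    Real.exp (s ^ 2 / 2) := by
  rw [eE_uQ, Fintype.card_fun, Fintype.card_bool, Fintype.card_fin]
  push_cast
  have h := CSys.sum_exp_lin n s
  have e : ∀ c : Fin n → Bool, Real.exp (s * CSys.zc n c) = Real.exp (CSys.zc n c * s) :=
    fun c => by rw [mul_comm]
  simp only [e]
  rw [inv_mul_le_iff₀ (by positivity)]
  exact h

theorem eE_exp_zc_sq : eE (uQ (Fin n → Bool)) (fun c => Real.exp (1 / 4 * CSys.zc n c ^ 2)) ≤
    2 := by
  rw [eE_uQ, Fintype.card_fun, Fintype.card_bool, Fintype.card_fin]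
  push_cast
  rw [inv_mul_le_iff₀ (by positivity)]
  exact CSys.sum_exp_sq n

/-- `E exp (s z_g) ≤ exp (s²/2)` -/
theorem eE_exp_zz (g : κ) (s : ℝ) :
    eE (uQ (κ → Fin n → Bool)) (fun c => Real.exp (s * zz g c)) ≤ Real.exp (s ^ 2 / 2) := by
  have h := eE_uQ_one g (fun m : Fin n → Bool => Real.exp (s * CSys.zc n m))
  exact (le_of_eq h).trans (eE_exp_zc s)

/-- `E exp (z_g²/4) ≤ 2` -/
theorem eE_exp_zz_sq (g : κ) :
    eE (uQ (κ → Fin n → Bool)) (fun c => Real.exp (1 / 4 * zz g c ^ 2)) ≤ 2 := by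
  have h := eE_uQ_one g (fun m : Fin n → Bool => Real.exp (1 / 4 * CSys.zc n m ^ 2))
  exact (le_of_eq h).trans eE_exp_zc_sq

/-- `E |z_g| ≤ 2` -/
theorem eE_abs_zz (g : κ) : eE (uQ (κ → Fin n → Bool)) (fun c => |zz g c|) ≤ 2 := by
  refine le_trans (eE_mono uQ_isProb fun c => ?_) (eE_exp_zz_sq g)
  have h1 := Real.add_one_le_exp (1 / 4 * zz g c ^ 2)
  have h2 : 0 ≤ (|zz g c| / 2 - 1) ^ 2 := sq_nonneg _
  have h3 := sq_abs (zz g c)
  nlinarith

theorem eE_exp_sum_zz_sq :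
    eE (uQ (κ → Fin n → Bool)) (fun c => Real.exp (∑ g, 1 / 4 * zz g c ^ 2)) ≤
      2 ^ Fintype.card κ := by
  have e : (fun c : κ → Fin n → Bool => Real.exp (∑ g, 1 / 4 * zz g c ^ 2)) =
      fun c => ∏ g, (fun m => Real.exp (1 / 4 * CSys.zc n m ^ 2)) (c g) := by
    funext c
    rw [Real.exp_sum]; rfl
  rw [e, eE_uQ_prod (fun (_ : κ) (m : Fin n → Bool) => Real.exp (1 / 4 * CSys.zc n m ^ 2)),
    Finset.prod_const, Finset.card_univ]
  exact pow_le_pow_left₀ (eE_nonneg uQ_isProb fun _ => (Real.exp_pos _).le) eE_exp_zc_sq _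

/-- joint exponential moment -/
theorem eE_exp_lab (a : κ → ℝ) :
    eE (uQ (κ → Fin n → Bool))
      (fun c => Real.exp (∑ g, |a g| * |zz g c| + 1 / 8 * ∑ g, zz g c ^ 2)) ≤
      Real.exp (2 * ∑ g, a g ^ 2) * 2 ^ Fintype.card κ := by
  have h1 : ∀ c : κ → Fin n → Bool,
      Real.exp (∑ g, |a g| * |zz g c| + 1 / 8 * ∑ g, zz g c ^ 2) ≤
        Real.exp (2 * ∑ g, a g ^ 2) * Real.exp (∑ g, 1 / 4 * zz g c ^ 2) := by
    intro c
    rw [← Real.exp_add]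
    apply Real.exp_le_exp.2
    rw [Finset.mul_sum, Finset.mul_sum, ← Finset.sum_add_distrib, ← Finset.sum_add_distrib]
    refine Finset.sum_le_sum fun g _ => ?_
    have h2 := sq_abs (a g)
    have h3 := sq_abs (zz g c)
    nlinarith [sq_nonneg (4 * |a g| - |zz g c|)]
  refine (eE_mono uQ_isProb h1).trans ?_
  rw [eE_smul]
  exact mul_le_mul_of_nonneg_left eE_exp_sum_zz_sq (Real.exp_pos _).le

/-- the constant of the label moment bound -/
def labC (a : κ → ℝ) : ℝ :=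
  2 * ∑ g, a g ^ 2 + Fintype.card κ * Real.log 2 + 4 * ∑ g, |a g|

omit [DecidableEq κ] in
theorem labC_nonneg (a : κ → ℝ) : 0 ≤ labC a := by
  unfold labC
  have h1 : 0 ≤ ∑ g, a g ^ 2 := Finset.sum_nonneg fun _ _ => sq_nonneg _
  have h2 : 0 ≤ ∑ g, |a g| := Finset.sum_nonneg fun _ _ => abs_nonneg _
  have h3 := Real.log_nonneg (by norm_num : (1 : ℝ) ≤ 2)
  positivity

/-- alternating coins -/
def cbal (κ : Type*) (n : ℕ) (_ : κ) (t : Fin n) : Bool := decide ((t : ℕ) % 2 = 0)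

theorem sum_alt (n : ℕ) : ∑ t : Fin n, sv (decide ((t : ℕ) % 2 = 0)) = if n % 2 = 0 then 0 else 1 := by
  induction n with
  | zero => simp
  | succ n ih =>
    rw [Fin.sum_univ_castSucc]
    simp only [Fin.val_castSucc, Fin.val_last]
    rw [ih]
    rcases Nat.mod_two_eq_zero_or_one n with h | h
    · have h2 : (n + 1) % 2 = 1 := by omega
      simp [h, h2, sv]
    · have h2 : (n + 1) % 2 = 0 := by omega
      simp [h, h2, sv]

omit [Fintype κ] [DecidableEq κ] in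
theorem zz_cbal (g : κ) : |zz g (cbal κ n)| ≤ 1 := by
  unfold zz cbal
  rw [sum_alt]
  split_ifs with h
  · simp
  · rcases Nat.eq_zero_or_pos n with h0 | h0
    · subst h0; simp at h
    · rw [mul_one, abs_of_nonneg (by positivity)]
      apply inv_le_one_of_one_le₀
      rw [Real.one_le_sqrt]
      exact_mod_cast h0

variable {𝓒 : Filt (κ → Fin n → Bool)}

omit [Fintype Ω] [DecidableEq κ] in
theorem lab_hyp {Y : Ω × (κ → Fin n → Bool) → ℝ} {a : κ → ℝ}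
    (hY : ∀ w c c', |Y (w, c) - Y (w, c')| ≤ ∑ g, |a g| * |zz g c - zz g c'|) (w : Ω)
    (c : κ → Fin n → Bool) :
    |Y (w, c) - Y (w, cbal κ n)| ≤ (∑ g, |a g| * |zz g c|) + ∑ g, |a g| := by
  refine (hY w c _).trans ?_
  rw [← Finset.sum_add_distrib]
  refine Finset.sum_le_sum fun g _ => ?_
  have h1 := zz_cbal (n := n) g
  have h2 := abs_sub (zz g c) (zz g (cbal κ n))
  have h3 := abs_nonneg (a g)
  nlinarith

theorem lab_log_le (a : κ → ℝ) :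
    Real.log (eE (uQ (κ → Fin n → Bool))
      (fun c => Real.exp ((∑ g, |a g| * |zz g c|) + 1 / 8 * ∑ g, zz g c ^ 2))) +
      eE (uQ (κ → Fin n → Bool)) (fun c => ∑ g, |a g| * |zz g c|) + 2 * ∑ g, |a g| ≤ labC a := by
  have h1 := eE_exp_lab (n := n) a
  have h0 : 0 < eE (uQ (κ → Fin n → Bool))
      (fun c => Real.exp ((∑ g, |a g| * |zz g c|) + 1 / 8 * ∑ g, zz g c ^ 2)) :=
    Finset.sum_pos (fun c _ => mul_pos (uQ_isProb.pos c) (Real.exp_pos _)) Finset.univ_nonempty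
  have h2 := Real.log_le_log h0 h1
  rw [Real.log_mul (Real.exp_pos _).ne' (by positivity), Real.log_exp, Real.log_pow] at h2
  have h3 : eE (uQ (κ → Fin n → Bool)) (fun c => ∑ g, |a g| * |zz g c|) ≤ 2 * ∑ g, |a g| := by
    rw [eE_sum, Finset.mul_sum]
    refine Finset.sum_le_sum fun g _ => ?_
    rw [eE_smul]
    have := mul_le_mul_of_nonneg_left (eE_abs_zz (n := n) g) (abs_nonneg (a g))
    linarith
  unfold labC
  linarith

/-- **uniform second moment of the label fields** -/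
theorem eE_tl_sum_zz_sq_le (hL : 𝓕.L = 𝓒.L) (hP : IsProb P) (hx : IsExpo x)
    {Y : Ω × (κ → Fin n → Bool) → ℝ} {a : κ → ℝ}
    (hY : ∀ w c c', |Y (w, c) - Y (w, c')| ≤ ∑ g, |a g| * |zz g c - zz g c'|) :
    eE (tl (pP P (uQ (κ → Fin n → Bool))) (pfil 𝓕 𝓒 hL) x Y)
      (fun u => ∑ g, zz g u.2 ^ 2) ≤ 8 * labC a := by
  have h := eE_tl_snd_le (α := 1 / 8) (h := fun c : κ → Fin n → Bool => ∑ g, zz g c ^ 2) hL hP
    uQ_isProb hx (lab_hyp hY)
  have h2 := lab_log_le (n := n) a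
  linarith

theorem eE_tl_zz_sq_le (hL : 𝓕.L = 𝓒.L) (hP : IsProb P) (hx : IsExpo x)
    {Y : Ω × (κ → Fin n → Bool) → ℝ} {a : κ → ℝ}
    (hY : ∀ w c c', |Y (w, c) - Y (w, c')| ≤ ∑ g, |a g| * |zz g c - zz g c'|) (g : κ) :
    eE (tl (pP P (uQ (κ → Fin n → Bool))) (pfil 𝓕 𝓒 hL) x Y)
      (fun u => zz g u.2 ^ 2) ≤ 8 * labC a := by
  refine le_trans (eE_mono (tl_isProb (pP_isProb hP uQ_isProb) hx.pos Y) fun u => ?_)
    (eE_tl_sum_zz_sq_le hL hP hx hY)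
  exact Finset.single_le_sum (f := fun g => zz g u.2 ^ 2) (fun _ _ => sq_nonneg _)
    (Finset.mem_univ g)

theorem eE_tl_abs_zz_le (hL : 𝓕.L = 𝓒.L) (hP : IsProb P) (hx : IsExpo x)
    {Y : Ω × (κ → Fin n → Bool) → ℝ} {a : κ → ℝ}
    (hY : ∀ w c c', |Y (w, c) - Y (w, c')| ≤ ∑ g, |a g| * |zz g c - zz g c'|) (g : κ) :
    eE (tl (pP P (uQ (κ → Fin n → Bool))) (pfil 𝓕 𝓒 hL) x Y)
      (fun u => |zz g u.2|) ≤ 1 + 8 * labC a := by
  have hQ := tl_isProb (𝓕 := pfil 𝓕 𝓒 hL) (x := x)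
    (pP_isProb hP (uQ_isProb (Λ := κ → Fin n → Bool))) hx.pos Y
  have h1 := eE_tl_zz_sq_le hL hP hx hY g
  have h2 : eE (tl (pP P (uQ (κ → Fin n → Bool))) (pfil 𝓕 𝓒 hL) x Y) (fun u => |zz g u.2|) ≤
      eE (tl (pP P (uQ (κ → Fin n → Bool))) (pfil 𝓕 𝓒 hL) x Y) (fun u => 1 + zz g u.2 ^ 2) := by
    refine eE_mono hQ fun u => ?_
    have h3 := sq_abs (zz g u.2)
    nlinarith [sq_nonneg (|zz g u.2| - 1 / 2)]
  rw [eE_add, eE_const hQ] at h2
  linarith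

/-- **exponential square moments** for a trivial initial `σ`-algebra -/
theorem eE_tl_exp_zz_sq_le (hL : 𝓕.L = 𝓒.L) (hF : 𝓕.F 0 = ⊤) (hG : 𝓒.F 0 = ⊤) (hP : IsProb P)
    (hx : IsExpo x) {Y : Ω × (κ → Fin n → Bool) → ℝ} {a : κ → ℝ}
    (hY : ∀ w c c', |Y (w, c) - Y (w, c')| ≤ ∑ g, |a g| * |zz g c - zz g c'|) :
    eE (tl (pP P (uQ (κ → Fin n → Bool))) (pfil 𝓕 𝓒 hL) x Y)
      (fun u => Real.exp (x 1 * (1 / 8 * ∑ g, zz g u.2 ^ 2))) ≤ Real.exp (x 1 * labC a) := by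
  have h := eE_tl_exp_snd_le (α := 1 / 8) (h := fun c : κ → Fin n → Bool => ∑ g, zz g c ^ 2) hL
    hF hG hP uQ_isProb hx (lab_hyp hY)
  refine h.trans (Real.exp_le_exp.2 ?_)
  exact mul_le_mul_of_nonneg_left (lab_log_le (n := n) a) (hx.pos 1).le

/-- fourth moments -/
theorem eE_tl_zz_four_le (hL : 𝓕.L = 𝓒.L) (hF : 𝓕.F 0 = ⊤) (hG : 𝓒.F 0 = ⊤) (hP : IsProb P)
    (hx : IsExpo x) {Y : Ω × (κ → Fin n → Bool) → ℝ} {a : κ → ℝ}
    (hY : ∀ w c c', |Y (w, c) - Y (w, c')| ≤ ∑ g, |a g| * |zz g c - zz g c'|) (g : κ) :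
    eE (tl (pP P (uQ (κ → Fin n → Bool))) (pfil 𝓕 𝓒 hL) x Y)
      (fun u => zz g u.2 ^ 4) ≤ 128 / x 1 ^ 2 * Real.exp (x 1 * labC a) := by
  have hQ := tl_isProb (𝓕 := pfil 𝓕 𝓒 hL) (x := x)
    (pP_isProb hP (uQ_isProb (Λ := κ → Fin n → Bool))) hx.pos Y
  have h1 := eE_tl_exp_zz_sq_le hL hF hG hP hx hY
  have hx1 := hx.pos 1
  have h2 : eE (tl (pP P (uQ (κ → Fin n → Bool))) (pfil 𝓕 𝓒 hL) x Y) (fun u => zz g u.2 ^ 4) ≤
      eE (tl (pP P (uQ (κ → Fin n → Bool))) (pfil 𝓕 𝓒 hL) x Y)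
        (fun u => 128 / x 1 ^ 2 * Real.exp (x 1 * (1 / 8 * ∑ g, zz g u.2 ^ 2))) := by
    refine eE_mono hQ fun u => ?_
    set s := ∑ g, zz g u.2 ^ 2 with hs
    have h3 : zz g u.2 ^ 2 ≤ s :=
      Finset.single_le_sum (f := fun g => zz g u.2 ^ 2) (fun _ _ => sq_nonneg _)
        (Finset.mem_univ g)
    have hs0 : 0 ≤ s := (sq_nonneg _).trans h3
    have h4 : zz g u.2 ^ 4 ≤ s ^ 2 := by
      have : zz g u.2 ^ 4 = (zz g u.2 ^ 2) ^ 2 := by ring
      rw [this]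
      exact pow_le_pow_left₀ (sq_nonneg _) h3 2
    have h5 := Real.quadratic_le_exp_of_nonneg (x := x 1 * (1 / 8 * s)) (by positivity)
    have h6 : (x 1 * (1 / 8 * s)) ^ 2 / 2 ≤ Real.exp (x 1 * (1 / 8 * s)) := by
      have : 0 ≤ x 1 * (1 / 8 * s) := by positivity
      linarith
    calc zz g u.2 ^ 4 ≤ s ^ 2 := h4
      _ = 128 / x 1 ^ 2 * ((x 1 * (1 / 8 * s)) ^ 2 / 2) := by
        field_simp; ring
      _ ≤ _ := mul_le_mul_of_nonneg_left h6 (by positivity)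
  rw [eE_smul] at h2
  exact h2.trans (mul_le_mul_of_nonneg_left h1 (by positivity))

end

end Crest.Agent.R164.ED
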