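import Crest.Agent.R164.CavW1
import Crest.Agent.R164.CavG8
import Crest.Agent.R164.LabMom

/-!
Row 164: the label variable (sums of coin fields, revealed cell by cell) satisfies the central limit
hypothesis `Clt` of the Gaussian cavity limit.
-/

set_option autoImplicit false

namespace Crest.Agent.R164.CavG

open MeasureTheory ProbabilityTheory Finset Crest.Agent.R141
open Crest.Agent.R164.ED (uQ uQ_isProb eE_uQ zz)
open Crest.Agent.R164.CoinG (bavg csum sg bavg_const_mul)

noncomputable section

section agree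

variable {κ X : Type*} [Fintype κ] [DecidableEq κ] [Fintype X]

/-- agreement on the cells of `S`. -/
def agr (S : Finset κ) : Setoid (κ → X) where
  r c c' := ∀ g ∈ S, c g = c' g
  iseqv :=
    { refl := fun _ _ _ => rfl
      symm := fun h g hg => (h g hg).symm
      trans := fun h h' g hg => (h g hg).trans (h' g hg) }

/-- keep the cells of `S`, resample the others. -/
def mix (S : Finset κ) (c c' : κ → X) : κ → X := fun g => if g ∈ S then c g else c' g

omit [Fintype κ] [Fintype X] in
theorem mix_inv (S : Finset κ) : Function.Involutive fun p : (κ → X) × (κ → X) =>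
    (mix S p.1 p.2, mix S p.2 p.1) := by
  intro p
  refine Prod.ext ?_ ?_
  · funext g
    by_cases h : g ∈ S <;> simp [mix, h]
  · funext g
    by_cases h : g ∈ S <;> simp [mix, h]

/-- conditional expectation = resampling. -/
theorem cE_agr [Nonempty X] (S : Finset κ) (f : (κ → X) → ℝ) (c : κ → X) :
    cE (uQ (κ → X)) (agr S) f c = eE (uQ (κ → X)) (fun c' => f (mix S c c')) := by
  classical
  have hP : IsProb (uQ (κ → X)) := uQ_isProb
  set A : (κ → X) → ℝ := fun c => eE (uQ (κ → X)) (fun c' => f (mix S c c')) with hA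
  have hAm : ∀ a b, agr S a b → A a = A b := by
    intro a b hab
    simp only [hA]
    congr 1
    funext c'
    congr 1
    funext g
    unfold mix
    by_cases hg : g ∈ S
    · rw [if_pos hg, if_pos hg]; exact hab g hg
    · rw [if_neg hg, if_neg hg]
  have key : ∀ g : (κ → X) → ℝ, (∀ a b, agr S a b → g a = g b) →
      eE (uQ (κ → X)) (fun c => g c * A c) = eE (uQ (κ → X)) (fun c => g c * f c) := by
    intro g hg
    have e1 : ∀ c, g c * A c = (Fintype.card (κ → X) : ℝ)⁻¹ * ∑ c', (g (mix S c c') *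
        f (mix S c c')) := by
      intro c
      simp only [hA]
      rw [eE_uQ, mul_left_comm, Finset.mul_sum]
      congr 1
      refine Finset.sum_congr rfl fun c' _ => ?_
      rw [hg c (mix S c c') (fun k hk => by unfold mix; rw [if_pos hk])]
    rw [eE_uQ, eE_uQ]
    congr 1
    rw [Finset.sum_congr rfl fun c _ => e1 c, ← Finset.mul_sum,
      ← Fintype.sum_prod_type' (f := fun c c' => g (mix S c c') * f (mix S c c'))]
    have e2 := Equiv.sum_comp ((mix_inv S).toPerm : Equiv.Perm ((κ → X) × (κ → X)))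
      (fun p : (κ → X) × (κ → X) => g p.1 * f p.1)
    have e3 : ∑ p : (κ → X) × (κ → X), g (mix S p.1 p.2) * f (mix S p.1 p.2) =
        ∑ p : (κ → X) × (κ → X), g p.1 * f p.1 := e2
    rw [e3, Fintype.sum_prod_type' (f := fun c (_ : κ → X) => g c * f c)]
    simp only [Finset.sum_const, Finset.card_univ, nsmul_eq_mul]
    rw [← Finset.mul_sum, ← mul_assoc, inv_mul_cancel₀
      (by exact_mod_cast Fintype.card_ne_zero), one_mul]
  have h1 := key (fun a => if agr S c a then 1 else 0) (fun a b hab => by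
    have : agr S c a ↔ agr S c b :=
      ⟨fun h => (agr S).trans h hab, fun h => (agr S).trans h ((agr S).symm hab)⟩
    simp only [this])
  have h2 : ∀ F : (κ → X) → ℝ, eE (uQ (κ → X)) (fun a => (if agr S c a then 1 else 0) * F a) =
      ∑ ω' ∈ univ.filter (fun ω' => agr S c ω'), uQ (κ → X) ω' * F ω' := by
    intro F
    unfold eE
    rw [Finset.sum_filter]
    refine Finset.sum_congr rfl fun a _ => ?_
    by_cases h : agr S c a
    · simp only [h, if_true]; ring
    · simp only [h, if_false]; ring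
  rw [h2, h2] at h1
  show cE (uQ (κ → X)) (agr S) f c = A c
  unfold cE
  rw [← h1]
  have h3 : ∑ ω' ∈ univ.filter (fun ω' => agr S c ω'), uQ (κ → X) ω' * A ω' =
      (∑ ω' ∈ univ.filter (fun ω' => agr S c ω'), uQ (κ → X) ω') * A c := by
    rw [Finset.sum_mul]
    refine Finset.sum_congr rfl fun a ha => ?_
    rw [hAm c a (Finset.mem_filter.1 ha).2]
  rw [h3, mul_comm, mul_div_assoc, div_self (cls_pos hP (agr S) c).ne', mul_one]

/-- resampling one cell. -/
theorem eE_resample [Nonempty X] (g : κ) (F : (κ → X) → ℝ) :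
    eE (uQ (κ → X)) F = eE (uQ (κ → X)) (fun c =>
      (Fintype.card X : ℝ)⁻¹ * ∑ x, F (Function.update c g x)) := by
  rw [eE_uQ, eE_uQ]
  congr 1
  rw [← Finset.mul_sum, ← Fintype.sum_prod_type' (f := fun c x => F (Function.update c g x))]
  have hinv : Function.Involutive fun p : (κ → X) × X => (Function.update p.1 g p.2, p.1 g) := by
    intro p
    simp
  have e2 := Equiv.sum_comp (hinv.toPerm : Equiv.Perm ((κ → X) × X))
    (fun p : (κ → X) × X => F p.1)
  have e3 : ∑ p : (κ → X) × X, F (Function.update p.1 g p.2) = ∑ p : (κ → X) × X, F p.1 := e2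
  rw [e3, Fintype.sum_prod_type' (f := fun c (_ : X) => F c)]
  simp only [Finset.sum_const, Finset.card_univ, nsmul_eq_mul]
  rw [← Finset.mul_sum, ← mul_assoc, inv_mul_cancel₀
    (by exact_mod_cast Fintype.card_ne_zero), one_mul]

end agree

section clt

variable {κ : Type*} [Fintype κ] [DecidableEq κ] {n : ℕ}

theorem csum_eq (x : Fin n → Bool) : csum n x = (Real.sqrt n)⁻¹ * ∑ t, sv (x t) := rfl

theorem avg_eq_bavg (φ : ℝ → ℝ) :
    (Fintype.card (Fin n → Bool) : ℝ)⁻¹ * ∑ x : Fin n → Bool, φ (csum n x) = bavg n φ := by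
  unfold bavg
  congr 1
  rw [Fintype.card_fun, Fintype.card_bool, Fintype.card_fin]
  push_cast
  rw [one_div, inv_pow]

theorem gauss_add {L : ℝ} {h : ℝ → ℝ} (hh : ∀ a b, |h a - h b| ≤ L * |a - b|)
    (t a b : ℝ) : ∫ s, ∫ s', h (t + a * s + b * s') ∂(gaussianReal 0 1) ∂(gaussianReal 0 1) =
      ∫ s, h (t + Real.sqrt (a ^ 2 + b ^ 2) * s) ∂(gaussianReal 0 1) := by
  have hc : Continuous h := cont_of_lip1 hh
  have hL : 0 ≤ L := by
    have := (abs_nonneg _).trans (hh 1 0)
    simpa using this
  set F : (Unit ⊕ Unit → ℝ) → ℝ := fun y => h (t + a * y (.inl ()) + b * y (.inr ())) with hF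
  have hFL : Lip (L * (|a| + |b|)) F := by
    intro y y'
    refine (hh _ _).trans ?_
    rw [Fintype.sum_sum_type]
    simp only [Finset.univ_unique, Finset.sum_singleton]
    rw [mul_assoc]
    refine mul_le_mul_of_nonneg_left ?_ hL
    have e : t + a * y (.inl ()) + b * y (.inr ()) - (t + a * y' (.inl ()) + b * y' (.inr ())) =
        a * (y (.inl ()) - y' (.inl ())) + b * (y (.inr ()) - y' (.inr ())) := by ring
    rw [e]
    refine (abs_add_le _ _).trans ?_
    rw [abs_mul, abs_mul]
    have h1 := abs_nonneg a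
    have h2 := abs_nonneg b
    have h3 := abs_nonneg (y (.inl ()) - y' (.inl ()))
    have h4 := abs_nonneg (y (.inr ()) - y' (.inr ()))
    show |a| * |y (.inl ()) - y' (.inl ())| + |b| * |y (.inr ()) - y' (.inr ())| ≤
      (|a| + |b|) * (|y (.inl ()) - y' (.inl ())| + |y (.inr ()) - y' (.inr ())|)
    nlinarith [mul_nonneg h1 h4, mul_nonneg h2 h3]
  have hi : Integrable F (gm (Unit ⊕ Unit)) := by
    have := integrable_shift (fun _ : Unit ⊕ Unit => (1 : ℝ)) hFL 0
    simpa using this
  have h1 := integral_sum_gm hi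
  have h2 : ∫ y, F y ∂(gm (Unit ⊕ Unit)) =
      ∫ s, h (t + Real.sqrt (a ^ 2 + b ^ 2) * s) ∂(gaussianReal 0 1) := by
    have h3 := integral_one (κ := Unit ⊕ Unit) (Sum.elim (fun _ => a) (fun _ => b))
      (F := fun u => h (t + u)) (hc.measurable.comp (measurable_const_add t))
    simp only [Fintype.sum_sum_type, Finset.univ_unique, Finset.sum_singleton, Sum.elim_inl,
      Sum.elim_inr] at h3
    rw [← h3]
    congr 1
    funext y
    simp only [hF, add_assoc]
  rw [← h2, h1]
  have h4 : ∀ s : ℝ, ∫ s', h (t + a * s + b * s') ∂(gaussianReal 0 1) =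
      ∫ g1 : Unit → ℝ, h (t + a * s + b * g1 ()) ∂(gm Unit) := by
    intro s
    exact (integral_eval_gm (κ := Unit) () (F := fun s' => h (t + a * s + b * s'))
      (hc.measurable.comp (by fun_prop))).symm
  simp_rw [h4]
  have hmeas : Measurable fun s : ℝ => ∫ g1 : Unit → ℝ, h (t + a * s + b * g1 ()) ∂(gm Unit) := by
    have : Measurable (Function.uncurry fun (s : ℝ) (g1 : Unit → ℝ) =>
        h (t + a * s + b * g1 ())) := hc.measurable.comp (by fun_prop)
    exact this.stronglyMeasurable.integral_prod_right.measurable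
  exact (integral_eval_gm (κ := Unit) () hmeas).symm

/-- smoothing of a Lipschitz function. -/
theorem lip_smooth {L : ℝ} {h : ℝ → ℝ} (hh : ∀ a b, |h a - h b| ≤ L * |a - b|) (b : ℝ) :
    ∀ u v, |∫ s, h (u + b * s) ∂(gaussianReal 0 1) - ∫ s, h (v + b * s) ∂(gaussianReal 0 1)| ≤
      L * |u - v| := by
  intro u v
  have hc : Continuous h := cont_of_lip1 hh
  have hi : ∀ u, Integrable (fun s => h (u + b * s)) (gaussianReal 0 1) := by
    intro u
    refine ((integrable_const |h u|).add (integrable_abs_gaussian.const_mul (L * |b|))).mono'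
      (hc.comp (by fun_prop)).aestronglyMeasurable (ae_of_all _ fun s => ?_)
    rw [Real.norm_eq_abs]
    have h1 := hh (u + b * s) u
    have h2 : |h (u + b * s)| ≤ |h u| + |h (u + b * s) - h u| := by
      have := abs_add_le (h u) (h (u + b * s) - h u)
      simpa using this
    simp only [add_sub_cancel_left, abs_mul] at h1
    simp only [Pi.add_apply]
    linarith
  rw [← integral_sub (hi u) (hi v)]
  refine abs_integral_le_integral_abs.trans ?_
  refine (integral_mono ((hi u).sub (hi v)).abs (integrable_const (L * |u - v|)) fun s => ?_).trans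
    (by simp)
  refine (hh _ _).trans (le_of_eq ?_)
  congr 2
  ring

/-- quantitative property of the number of coins. -/
def W1 (n : ℕ) (ε : ℝ) : Prop := ∀ h : ℝ → ℝ, (∀ a b, |h a - h b| ≤ |a - b|) →
      |bavg n h - ∫ s, h s ∂(gaussianReal 0 1)| ≤ ε

/-- the central limit theorem for sums of coin fields. -/
theorem coin_clt {ε : ℝ} (hn : W1 n ε) (b : κ → ℝ) (T : Finset κ) {L : ℝ} (hL : 0 ≤ L) :
    ∀ {h : ℝ → ℝ}, (∀ a b, |h a - h b| ≤ L * |a - b|) → ∀ t : ℝ,
    |eE (uQ (κ → Fin n → Bool)) (fun c => h (t + ∑ g ∈ T, b g * zz g c)) -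
      ∫ s, h (t + Real.sqrt (∑ g ∈ T, b g ^ 2) * s) ∂(gaussianReal 0 1)| ≤
      L * ((∑ g ∈ T, |b g|) * ε) := by
  have hP : IsProb (uQ (κ → Fin n → Bool)) := uQ_isProb
  induction T using Finset.induction_on with
  | empty =>
    intro h _ t
    simp only [Finset.sum_empty, add_zero, Real.sqrt_zero, zero_mul, mul_zero]
    rw [eE_const hP]
    simp
  | insert g T hg ih =>
    intro h hh t
    set h1 : ℝ → ℝ := fun u => ∫ s, h (u + b g * s) ∂(gaussianReal 0 1) with hh1
    have hh1L : ∀ a b, |h1 a - h1 b| ≤ L * |a - b| := lip_smooth hh (b g)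
    have e1 : eE (uQ (κ → Fin n → Bool)) (fun c => h (t + ∑ g ∈ insert g T, b g * zz g c)) =
        eE (uQ (κ → Fin n → Bool)) (fun c =>
          bavg n (fun s => h ((t + ∑ g ∈ T, b g * zz g c) + b g * s))) := by
      rw [eE_resample g]
      congr 1
      funext c
      rw [← avg_eq_bavg]
      congr 1
      refine Finset.sum_congr rfl fun x _ => ?_
      congr 1
      rw [Finset.sum_insert hg]
      have e2 : ∑ g' ∈ T, b g' * zz g' (Function.update c g x) = ∑ g' ∈ T, b g' * zz g' c := by
        refine Finset.sum_congr rfl fun g' hg' => ?_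
        have hne : g' ≠ g := fun h => hg (h ▸ hg')
        unfold zz
        rw [Function.update_of_ne hne]
      have e3 : zz g (Function.update c g x) = csum n x := by
        unfold zz
        rw [Function.update_self]
        rfl
      rw [e2, e3]
      ring
    have h2 : |eE (uQ (κ → Fin n → Bool)) (fun c => h (t + ∑ g ∈ insert g T, b g * zz g c)) -
        eE (uQ (κ → Fin n → Bool)) (fun c => h1 (t + ∑ g ∈ T, b g * zz g c))| ≤
        L * |b g| * ε := by
      rw [e1, ← eE_sub]
      refine (eE_abs_le hP _).trans (eE_le_of_le hP fun c => ?_)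
      refine bavg_lip hn (by positivity) fun u v => ?_
      refine (hh _ _).trans (le_of_eq ?_)
      rw [mul_assoc, ← abs_mul]
      congr 2
      ring
    have h3 := ih hh1L t
    have h4 : ∫ s, h1 (t + Real.sqrt (∑ g ∈ T, b g ^ 2) * s) ∂(gaussianReal 0 1) =
        ∫ s, h (t + Real.sqrt (∑ g ∈ insert g T, b g ^ 2) * s) ∂(gaussianReal 0 1) := by
      have h5 := gauss_add hh t (Real.sqrt (∑ g ∈ T, b g ^ 2)) (b g)
      rw [Real.sq_sqrt (Finset.sum_nonneg fun _ _ => sq_nonneg _)] at h5
      rw [Finset.sum_insert hg, add_comm (b g ^ 2), ← h5]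
    rw [h4] at h3
    have h6 := abs_sub_le
      (eE (uQ (κ → Fin n → Bool)) (fun c => h (t + ∑ g ∈ insert g T, b g * zz g c)))
      (eE (uQ (κ → Fin n → Bool)) (fun c => h1 (t + ∑ g ∈ T, b g * zz g c)))
      (∫ s, h (t + Real.sqrt (∑ g ∈ insert g T, b g ^ 2) * s) ∂(gaussianReal 0 1))
    refine h6.trans ((add_le_add h2 h3).trans (le_of_eq ?_))
    rw [Finset.sum_insert hg]
    ring

end clt

end

end Crest.Agent.R164.CavG
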