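import Crest.Agent.R164.CavGDef

/-!
# Row 164: truncation of the nested Gaussian functional, abstract part (helper318)

`gstep_sub_le` : Jensen at the larger function.  `th_upper` : upper truncation by a supersolution.
`th_lower` : lower truncation is bounded by the untilted Gaussian average of `(W + K)^-`.
-/

set_option autoImplicit false

namespace Crest.Agent.R164.ClipG

open MeasureTheory ProbabilityTheory Finset ENNReal CavG

noncomputable section

variable {ι : Type*} [Fintype ι]

/-- shifted point -/
abbrev sh (v : ι → ℝ) (z g : ι → ℝ) : ι → ℝ := fun k => z k + Real.sqrt (v k) * g k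

omit [Fintype ι] in
theorem measurable_sh (v z : ι → ℝ) : Measurable (sh v z) :=
  measurable_pi_lambda _ fun k => by fun_prop

omit [Fintype ι] in
theorem measurable_sh2 (v : ι → ℝ) : Measurable (fun p : (ι → ℝ) × (ι → ℝ) => sh v p.1 p.2) :=
  measurable_pi_lambda _ fun k => by fun_prop

theorem exp_gstep {y : ℝ} (hy : 0 < y) (v : ι → ℝ) (A : (ι → ℝ) → ℝ) (z : ι → ℝ)
    (hA : Integrable (fun g => Real.exp (y * A (sh v z g))) (gm ι)) :
    Real.exp (y * gstep y v A z) = ∫ g, Real.exp (y * A (sh v z g)) ∂(gm ι) := by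
  have hpos : 0 < ∫ g, Real.exp (y * A (sh v z g)) ∂(gm ι) :=
    MeasureTheory.integral_exp_pos hA
  unfold gstep
  rw [← mul_assoc, mul_one_div_cancel hy.ne', one_mul, Real.exp_log hpos]

/-- Jensen at the larger function. -/
theorem gstep_sub_le {y : ℝ} (hy : 0 < y) (v : ι → ℝ) (A B : (ι → ℝ) → ℝ) (hAm : Measurable A)
    (hBm : Measurable B) (hBA : ∀ z, B z ≤ A z) (z : ι → ℝ)
    (hA : Integrable (fun g => Real.exp (y * A (sh v z g))) (gm ι)) :
    ENNReal.ofReal (gstep y v A z - gstep y v B z) ≤
      ∫⁻ g, ENNReal.ofReal (A (sh v z g) - B (sh v z g)) *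
        ENNReal.ofReal (Real.exp (y * (A (sh v z g) - gstep y v A z))) ∂(gm ι) := by
  by_cases hfin : ∫⁻ g, ENNReal.ofReal (A (sh v z g) - B (sh v z g)) *
        ENNReal.ofReal (Real.exp (y * (A (sh v z g) - gstep y v A z))) ∂(gm ι) = ∞
  · rw [hfin]; exact le_top
  have hm := measurable_sh v z
  have hA1 : Measurable (fun g => A (sh v z g)) := hAm.comp hm
  have hB1 : Measurable (fun g => B (sh v z g)) := hBm.comp hm
  set a := gstep y v A z with ha
  have hea := exp_gstep hy v A z hA
  rw [← ha] at hea
  have hD : ∀ g, 0 ≤ A (sh v z g) - B (sh v z g) := fun g => sub_nonneg.mpr (hBA _)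
  -- the density
  set q : (ι → ℝ) → ℝ := fun g => Real.exp (y * (A (sh v z g) - a)) with hq
  have hqeq : ∀ g, q g = Real.exp (-(y * a)) * Real.exp (y * A (sh v z g)) := by
    intro g
    simp only [hq]
    rw [← Real.exp_add]
    congr 1
    ring
  have hqI : Integrable q (gm ι) := by
    have := hA.const_mul (Real.exp (-(y * a)))
    refine this.congr (Filter.Eventually.of_forall fun g => ?_)
    rw [hqeq]
  have hq1 : ∫ g, q g ∂(gm ι) = 1 := by
    simp only [hqeq]
    rw [integral_const_mul, ← hea, ← Real.exp_add]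
    simp
  -- the integrable difference
  set D : (ι → ℝ) → ℝ := fun g => A (sh v z g) - B (sh v z g) with hDd
  have hDm : Measurable D := hA1.sub hB1
  have hqm : Measurable q := by
    rw [hq]; fun_prop
  have e1 : ∀ g, ENNReal.ofReal (A (sh v z g) - B (sh v z g)) *
        ENNReal.ofReal (Real.exp (y * (A (sh v z g) - a))) = ENNReal.ofReal (D g * q g) := by
    intro g
    rw [← ENNReal.ofReal_mul (hD g)]
  simp only [e1] at hfin ⊢
  have hDqI : Integrable (fun g => D g * q g) (gm ι) := by
    refine ⟨(hDm.mul hqm).aestronglyMeasurable, ?_⟩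
    rw [hasFiniteIntegral_iff_ofReal (Filter.Eventually.of_forall fun g =>
      mul_nonneg (hD g) (Real.exp_pos _).le)]
    exact lt_top_iff_ne_top.mpr hfin
  rw [← ofReal_integral_eq_lintegral_ofReal hDqI (Filter.Eventually.of_forall fun g =>
      mul_nonneg (hD g) (Real.exp_pos _).le)]
  apply ENNReal.ofReal_le_ofReal
  set m := ∫ g, D g * q g ∂(gm ι) with hmdef
  -- Jensen
  have hBI : Integrable (fun g => Real.exp (y * B (sh v z g))) (gm ι) := by
    refine hA.mono' (Real.measurable_exp.comp (measurable_const.mul hB1)).aestronglyMeasurable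
      (Filter.Eventually.of_forall fun g => ?_)
    rw [Real.norm_eq_abs, abs_of_pos (Real.exp_pos _)]
    exact Real.exp_le_exp.mpr (mul_le_mul_of_nonneg_left (hBA _) hy.le)
  have heb := exp_gstep hy v B z hBI
  have hJ : Real.exp (-(y * m)) ≤ ∫ g, Real.exp (-(y * D g)) * q g ∂(gm ι) := by
    have h1 : ∀ g, Real.exp (-(y * m)) * ((1 + y * m) * q g - y * (D g * q g)) ≤
        Real.exp (-(y * D g)) * q g := by
      intro g
      have h2 : Real.exp (-(y * m)) * (1 + y * m - y * D g) ≤ Real.exp (-(y * D g)) := by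
        have h3 := Real.add_one_le_exp (y * m - y * D g)
        have h4 := mul_le_mul_of_nonneg_left h3 (Real.exp_pos (-(y * m))).le
        rw [← Real.exp_add] at h4
        have e : -(y * m) + (y * m - y * D g) = -(y * D g) := by ring
        rw [e] at h4
        have e2 : y * m - y * D g + 1 = 1 + y * m - y * D g := by ring
        rw [e2] at h4
        exact h4
      have h5 := mul_le_mul_of_nonneg_right h2 (Real.exp_pos (y * (A (sh v z g) - a))).le
      calc _ = Real.exp (-(y * m)) * (1 + y * m - y * D g) * q g := by ring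
        _ ≤ _ := h5
    have hI1 : Integrable (fun g => Real.exp (-(y * m)) * ((1 + y * m) * q g - y * (D g * q g)))
        (gm ι) := ((hqI.const_mul _).sub (hDqI.const_mul _)).const_mul _
    have hI2 : Integrable (fun g => Real.exp (-(y * D g)) * q g) (gm ι) := by
      refine hqI.mono' (by fun_prop) (Filter.Eventually.of_forall fun g => ?_)
      rw [Real.norm_eq_abs, abs_mul, abs_of_pos (Real.exp_pos _),
        abs_of_pos (Real.exp_pos (y * (A (sh v z g) - a)))]
      have : Real.exp (-(y * D g)) ≤ 1 := by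
        rw [Real.exp_le_one_iff]
        have := mul_nonneg hy.le (hD g)
        linarith
      calc _ ≤ 1 * Real.exp (y * (A (sh v z g) - a)) :=
            mul_le_mul_of_nonneg_right this (Real.exp_pos _).le
        _ = _ := one_mul _
    have h6 := integral_mono hI1 hI2 h1
    rw [integral_const_mul, integral_sub (hqI.const_mul _) (hDqI.const_mul _),
      integral_const_mul, integral_const_mul, hq1, ← hmdef] at h6
    calc Real.exp (-(y * m)) = Real.exp (-(y * m)) * ((1 + y * m) * 1 - y * m) := by ring
      _ ≤ _ := h6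
  have hEB : ∫ g, Real.exp (-(y * D g)) * q g ∂(gm ι) =
      Real.exp (y * gstep y v B z) * Real.exp (-(y * a)) := by
    rw [heb, ← integral_mul_const]
    refine integral_congr_ae (Filter.Eventually.of_forall fun g => ?_)
    simp only [hq, hDd]
    rw [← Real.exp_add, ← Real.exp_add]
    congr 1
    ring
  rw [hEB, ← Real.exp_add, Real.exp_le_exp] at hJ
  have : y * (a - gstep y v B z) ≤ y * m := by linarith
  exact le_of_mul_le_mul_left this hy

theorem gstep_mono {y : ℝ} (hy : 0 < y) (v : ι → ℝ) (A B : (ι → ℝ) → ℝ)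
    (hBm : Measurable B) (hBA : ∀ z, B z ≤ A z) (z : ι → ℝ)
    (hA : Integrable (fun g => Real.exp (y * A (sh v z g))) (gm ι)) :
    gstep y v B z ≤ gstep y v A z := by
  have hm := measurable_sh v z
  have hB1 : Measurable (fun g => B (sh v z g)) := hBm.comp hm
  have hle : ∀ g, Real.exp (y * B (sh v z g)) ≤ Real.exp (y * A (sh v z g)) := fun g =>
    Real.exp_le_exp.mpr (mul_le_mul_of_nonneg_left (hBA _) hy.le)
  have hBI : Integrable (fun g => Real.exp (y * B (sh v z g))) (gm ι) := by
    refine hA.mono' (Real.measurable_exp.comp (measurable_const.mul hB1)).aestronglyMeasurable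
      (Filter.Eventually.of_forall fun g => ?_)
    rw [Real.norm_eq_abs, abs_of_pos (Real.exp_pos _)]
    exact hle g
  have h1 := integral_mono hBI hA hle
  rw [← exp_gstep hy v A z hA, ← exp_gstep hy v B z hBI, Real.exp_le_exp] at h1
  exact le_of_mul_le_mul_left h1 hy

theorem measurable_gstep (y : ℝ) (v : ι → ℝ) (A : (ι → ℝ) → ℝ) (hAm : Measurable A) :
    Measurable (gstep y v A) := by
  have h1 : Measurable (fun p : (ι → ℝ) × (ι → ℝ) => Real.exp (y * A (sh v p.1 p.2))) := by
    have := hAm.comp (measurable_sh2 v)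
    exact Real.measurable_exp.comp (measurable_const.mul this)
  have h2 : Measurable (fun z : ι → ℝ => ∫ g, Real.exp (y * A (sh v z g)) ∂(gm ι)) :=
    (h1.stronglyMeasurable.integral_prod_right').measurable
  unfold gstep
  exact measurable_const.mul (Real.measurable_log.comp h2)

theorem measurable_th (y : ℕ → ℝ) (v : ℕ → ι → ℝ) (w : (ι → ℝ) → ℝ) (hw : Measurable w) (n : ℕ) :
    Measurable (th y v w n) := by
  induction n with
  | zero => exact hw
  | succ n ih => exact measurable_gstep _ _ _ ih

/-- upper truncation: the loss is bounded by a supersolution of the tilted recursion. -/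
theorem th_upper (y : ℕ → ℝ) (v : ℕ → ι → ℝ) (W Y : (ι → ℝ) → ℝ) (hWm : Measurable W)
    (hYm : Measurable Y) (hYW : ∀ z, Y z ≤ W z) (N : ℕ) (hy : ∀ n < N, 0 < y n)
    (hInt : ∀ n < N, ∀ z, Integrable (fun g => Real.exp (y n * th y v W n (sh (v n) z g))) (gm ι))
    (G : ℕ → (ι → ℝ) → ℝ≥0∞) (G0 : ∀ z, ENNReal.ofReal (W z - Y z) ≤ G 0 z)
    (Gs : ∀ n < N, ∀ z, ∫⁻ g, G n (sh (v n) z g) * ENNReal.ofReal (Real.exp (y n *
      (th y v W n (sh (v n) z g) - th y v W (n + 1) z))) ∂(gm ι) ≤ G (n + 1) z) :
    ∀ n ≤ N, ∀ z, th y v Y n z ≤ th y v W n z ∧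
      ENNReal.ofReal (th y v W n z - th y v Y n z) ≤ G n z := by
  intro n
  induction n with
  | zero => intro _ z; exact ⟨hYW z, G0 z⟩
  | succ n ih =>
    intro hn z
    have hn' : n < N := hn
    have hih := ih hn'.le
    have hyn := hy n hn'
    refine ⟨gstep_mono hyn (v n) _ _ (measurable_th y v Y hYm n) (fun z => (hih z).1) z
      (hInt n hn' z), ?_⟩
    have h1 := gstep_sub_le hyn (v n) (th y v W n) (th y v Y n) (measurable_th y v W hWm n)
      (measurable_th y v Y hYm n) (fun z => (hih z).1) z (hInt n hn' z)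
    refine h1.trans (le_trans ?_ (Gs n hn' z))
    refine lintegral_mono fun g => ?_
    exact mul_le_mul_left ((hih (sh (v n) z g)).2) _

theorem gstep_const {y : ℝ} (hy : 0 < y) (v : ι → ℝ) (c : ℝ) (z : ι → ℝ) :
    gstep y v (fun _ => c) z = c := by
  unfold gstep
  simp only [integral_const, probReal_univ, smul_eq_mul, one_mul, Real.log_exp]
  field_simp

theorem integrable_exp_of_le {y C : ℝ} (hy : 0 < y) (v : ι → ℝ) (A : (ι → ℝ) → ℝ)
    (hAm : Measurable A) (hA : ∀ z, A z ≤ C) (z : ι → ℝ) :
    Integrable (fun g => Real.exp (y * A (sh v z g))) (gm ι) := by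
  have hA1 : Measurable (fun g => A (sh v z g)) := hAm.comp (measurable_sh v z)
  refine (integrable_const (Real.exp (y * C))).mono'
    (Real.measurable_exp.comp (measurable_const.mul hA1)).aestronglyMeasurable
    (Filter.Eventually.of_forall fun g => ?_)
  rw [Real.norm_eq_abs, abs_of_pos (Real.exp_pos _)]
  exact Real.exp_le_exp.mpr (mul_le_mul_of_nonneg_left (hA _) hy.le)

theorem th_le_const (y : ℕ → ℝ) (v : ℕ → ι → ℝ) (Y : (ι → ℝ) → ℝ) (hYm : Measurable Y) (N : ℕ)
    (hy : ∀ n < N, 0 < y n) (C : ℝ) (hC : ∀ z, Y z ≤ C) :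
    ∀ n ≤ N, ∀ z, th y v Y n z ≤ C := by
  intro n
  induction n with
  | zero => intro _ z; exact hC z
  | succ n ih =>
    intro hn z
    have h1 := gstep_mono (hy n hn) (v n) (fun _ => C) (th y v Y n) (measurable_th y v Y hYm n)
      (fun z => ih (Nat.le_of_succ_le hn) z) z (integrable_exp_of_le (hy n hn) (v n) _
        measurable_const (fun _ => le_rfl) z)
    rw [gstep_const (hy n hn)] at h1
    exact h1

theorem const_le_th (y : ℕ → ℝ) (v : ℕ → ι → ℝ) (Y : (ι → ℝ) → ℝ) (hYm : Measurable Y) (N : ℕ)
    (hy : ∀ n < N, 0 < y n) (c C : ℝ) (hc : ∀ z, c ≤ Y z) (hC : ∀ z, Y z ≤ C) :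
    ∀ n ≤ N, ∀ z, c ≤ th y v Y n z := by
  intro n
  induction n with
  | zero => intro _ z; exact hc z
  | succ n ih =>
    intro hn z
    have h1 := gstep_mono (hy n hn) (v n) (th y v Y n) (fun _ => c) measurable_const
      (fun z => ih (Nat.le_of_succ_le hn) z) z (integrable_exp_of_le (hy n hn) (v n) _
        (measurable_th y v Y hYm n) (fun z => th_le_const y v Y hYm N hy C hC n
          (Nat.le_of_succ_le hn) z) z)
    rw [gstep_const (hy n hn)] at h1
    exact h1

/-- lower truncation: the gain is bounded by the untilted average. -/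
theorem th_lower (y : ℕ → ℝ) (v : ℕ → ι → ℝ) (X Y : (ι → ℝ) → ℝ) (hXm : Measurable X)
    (hYm : Measurable Y) (K C : ℝ) (hXY : ∀ z, Y z = max (X z) (-K)) (hC : ∀ z, Y z ≤ C) (N : ℕ)
    (hy : ∀ n < N, 0 < y n) (hanti : ∀ n, n + 1 < N → y (n + 1) ≤ y n)
    (U : ℕ → (ι → ℝ) → ℝ≥0∞) (U0 : ∀ z, ENNReal.ofReal (Y z - X z) ≤ U 0 z)
    (Us : ∀ n < N, ∀ z, ∫⁻ g, U n (sh (v n) z g) ∂(gm ι) ≤ U (n + 1) z) :
    ∀ n ≤ N, ∀ z, th y v X n z ≤ th y v Y n z ∧
      ENNReal.ofReal (th y v Y n z - th y v X n z) ≤ U n z := by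
  have hlo : ∀ z, -K ≤ Y z := fun z => by rw [hXY]; exact le_max_right _ _
  have hXle : ∀ z, X z ≤ Y z := fun z => by rw [hXY]; exact le_max_left _ _
  have hthlo := const_le_th y v Y hYm N hy (-K) C hlo hC
  have hthhi := th_le_const y v Y hYm N hy C hC
  have key : ∀ n ≤ N, ∀ z, th y v X n z ≤ th y v Y n z ∧
      ∀ t, (n < N → t ≤ y n) → (n = N → N ≠ 0 → t ≤ y (N - 1)) → (N = 0 → t ≤ 0) →
      ENNReal.ofReal (th y v Y n z - th y v X n z) *
        ENNReal.ofReal (Real.exp (t * (th y v Y n z + K))) ≤ U n z := by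
    intro n
    induction n with
    | zero =>
      intro _ z
      refine ⟨hXle z, fun t _ _ _ => ?_⟩
      rw [th_zero, th_zero]
      rcases le_total (-K) (X z) with h | h
      · have : Y z - X z = 0 := by rw [hXY, max_eq_left h, sub_self]
        rw [this, ENNReal.ofReal_zero, zero_mul]
        exact zero_le
      · have h2 : Y z = -K := by rw [hXY, max_eq_right h]
        have : t * (Y z + K) = 0 := by rw [h2]; ring
        rw [this, Real.exp_zero, ENNReal.ofReal_one, mul_one]
        exact U0 z
    | succ n ih =>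
      intro hn z
      have hn' : n < N := hn
      have hih := ih hn'.le
      have hyn := hy n hn'
      have hI : Integrable (fun g => Real.exp (y n * th y v Y n (sh (v n) z g))) (gm ι) :=
        integrable_exp_of_le hyn (v n) _ (measurable_th y v Y hYm n) (hthhi n hn'.le) z
      refine ⟨gstep_mono hyn (v n) _ _ (measurable_th y v X hXm n) (fun z => (hih z).1) z hI, ?_⟩
      intro t ht1 ht2 _
      have htn : t ≤ y n := by
        rcases lt_or_eq_of_le hn with h | h
        · exact (ht1 h).trans (hanti n h)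
        · have := ht2 h (by omega)
          have e : N - 1 = n := by omega
          rwa [e] at this
      have h1 := gstep_sub_le hyn (v n) (th y v Y n) (th y v X n) (measurable_th y v Y hYm n)
        (measurable_th y v X hXm n) (fun z => (hih z).1) z hI
      have hpos : 0 ≤ th y v Y (n + 1) z + K := by
        have := hthlo (n + 1) hn z
        linarith
      calc ENNReal.ofReal (th y v Y (n + 1) z - th y v X (n + 1) z) *
            ENNReal.ofReal (Real.exp (t * (th y v Y (n + 1) z + K)))
          ≤ (∫⁻ g, ENNReal.ofReal (th y v Y n (sh (v n) z g) - th y v X n (sh (v n) z g)) *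
              ENNReal.ofReal (Real.exp (y n * (th y v Y n (sh (v n) z g) -
                th y v Y (n + 1) z))) ∂(gm ι)) *
            ENNReal.ofReal (Real.exp (y n * (th y v Y (n + 1) z + K))) := by
            refine mul_le_mul' h1 (ENNReal.ofReal_le_ofReal (Real.exp_le_exp.mpr ?_))
            exact mul_le_mul_of_nonneg_right htn hpos
        _ = ∫⁻ g, ENNReal.ofReal (th y v Y n (sh (v n) z g) - th y v X n (sh (v n) z g)) *
              ENNReal.ofReal (Real.exp (y n * (th y v Y n (sh (v n) z g) + K))) ∂(gm ι) := by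
            have hm := measurable_sh (v n) z
            have m1 : Measurable (fun g => th y v Y n (sh (v n) z g)) :=
              (measurable_th y v Y hYm n).comp hm
            have m2 : Measurable (fun g => th y v X n (sh (v n) z g)) :=
              (measurable_th y v X hXm n).comp hm
            rw [← lintegral_mul_const]
            · refine lintegral_congr fun g => ?_
              rw [mul_assoc, ← ENNReal.ofReal_mul (Real.exp_pos _).le, ← Real.exp_add]
              congr 3
              ring
            · exact Measurable.mul (ENNReal.measurable_ofReal.comp (m1.sub m2))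
                (ENNReal.measurable_ofReal.comp (Real.measurable_exp.comp
                  (measurable_const.mul (m1.sub_const _))))
        _ ≤ ∫⁻ g, U n (sh (v n) z g) ∂(gm ι) := by
            refine lintegral_mono fun g => ?_
            exact (hih (sh (v n) z g)).2 (y n) (fun _ => le_rfl) (fun h => absurd h hn'.ne)
              (fun h => by omega)
        _ ≤ U (n + 1) z := Us n hn' z
  intro n hn z
  obtain ⟨h1, h2⟩ := key n hn z
  refine ⟨h1, ?_⟩
  have h3 := h2 0 (fun h => (hy n h).le) (fun h h0 => (hy (N - 1) (by omega)).le)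
    (fun _ => le_rfl)
  rwa [zero_mul, Real.exp_zero, ENNReal.ofReal_one, mul_one] at h3

end

end Crest.Agent.R164.ClipG
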