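import Crest.Agent.R164.ClipG9

/-!
# Row 164: uniform truncation of the nested Gaussian functional, final theorems (helper318)
-/

set_option autoImplicit false

namespace Crest.Agent.R164.ClipG

open MeasureTheory ProbabilityTheory ENNReal Crest.ProbabilityR.InvariantGlass
open Crest.Agent.R164.PAlg
open Crest.Agent.R164.GTilt (γ lintegral_add_gauss Lip)
open Crest.Agent.R164.CavG (gm lin gstep th gval th_zero th_succ)
open Crest.Agent.R164.EG

noncomputable section

theorem abs_integral_le {Ω : Type*} [MeasurableSpace Ω] {μ : Measure Ω} (F G : Ω → ℝ)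
    (hF : Measurable F) (hG : Measurable G) (hGi : Integrable G μ) (E : ℝ) (hE : 0 ≤ E)
    (h1 : ∫⁻ g, ENNReal.ofReal (F g - G g) ∂μ ≤ ENNReal.ofReal E)
    (h2 : ∫⁻ g, ENNReal.ofReal (G g - F g) ∂μ ≤ ENNReal.ofReal E) :
    Integrable F μ ∧ |∫ g, G g ∂μ - ∫ g, F g ∂μ| ≤ 2 * E := by
  have mD : Measurable fun g => F g - G g := hF.sub hG
  have hb : ∫⁻ g, ‖F g - G g‖ₑ ∂μ ≤ ENNReal.ofReal (2 * E) := by
    calc ∫⁻ g, ‖F g - G g‖ₑ ∂μ
        ≤ ∫⁻ g, (ENNReal.ofReal (F g - G g) + ENNReal.ofReal (G g - F g)) ∂μ := by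
          refine lintegral_mono fun g => ?_
          rw [Real.enorm_eq_ofReal_abs]
          rcases le_total 0 (F g - G g) with h | h
          · rw [abs_of_nonneg h]; exact le_self_add
          · rw [abs_of_nonpos h, neg_sub]; exact le_add_self
      _ = ∫⁻ g, ENNReal.ofReal (F g - G g) ∂μ + ∫⁻ g, ENNReal.ofReal (G g - F g) ∂μ :=
          lintegral_add_left mD.ennreal_ofReal _
      _ ≤ ENNReal.ofReal E + ENNReal.ofReal E := add_le_add h1 h2
      _ = ENNReal.ofReal (2 * E) := by rw [← ENNReal.ofReal_add hE hE, two_mul]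
  have hDi : Integrable (fun g => F g - G g) μ :=
    ⟨mD.aestronglyMeasurable, hb.trans_lt ENNReal.ofReal_lt_top⟩
  have hFi : Integrable F μ := by
    have := hDi.add hGi
    refine this.congr (ae_of_all _ fun g => ?_)
    show F g - G g + G g = F g
    ring
  refine ⟨hFi, ?_⟩
  rw [abs_sub_comm, ← integral_sub hFi hGi, ← Real.norm_eq_abs]
  refine (norm_integral_le_integral_norm _).trans ?_
  rw [integral_norm_eq_lintegral_enorm mD.aestronglyMeasurable]
  exact ENNReal.toReal_le_of_le_ofReal (by positivity) hb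

variable {K : ℕ} {w val : Fin (K + 1) → ℝ}
variable {J : ℕ} {y S vy : ℕ → ℝ} {p0 : ℝ} {v : ℕ → Option (Fin (K + 1)) → ℝ}

theorem acc_le {L wm V : ℝ} (hwm : 0 < wm) (hbv : ∑ n ∈ Finset.range (J + 2), bv v n ≤ 1)
    (hV : ∑ n ∈ Finset.range (J + 2), vy n ≤ V) :
    acc L wm v vy (J + 2) ≤ 1 / (2 * wm) + 6 * L ^ 2 + 1 + 3 / 2 * V := by
  unfold acc inc
  rw [Finset.sum_add_distrib, ← Finset.mul_sum, ← Finset.mul_sum]
  have h1 : 0 ≤ 1 / (2 * wm) + 6 * L ^ 2 + 1 := by positivity
  have := mul_le_mul_of_nonneg_left hbv h1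
  linarith

/-- the constant of the truncation -/
def Ktr (L wm B V : ℝ) : ℝ := 3 * (AW L B * Real.exp (1 / (2 * wm) + 6 * L ^ 2 + 1 + 3 / 2 * V))

theorem Ktr_nonneg (L wm B V : ℝ) : 0 ≤ Ktr L wm B V :=
  mul_nonneg (by norm_num) (mul_nonneg (AW_nonneg L B) (Real.exp_pos _).le)

namespace Dat

variable (D : Dat w val J y S vy p0 v)
include D

/-- **Uniform truncation**, in the min/max form. -/
theorem main {L wm B b V Kc C : ℝ} (hL : ∀ k, |val k| ≤ L) (hwm : 0 < wm)
    (hwm' : ∀ k, wm ≤ w k) (hb : |b| ≤ B) (hK : 0 < Kc) (hC : Kc ≤ C) (l : Fin (K + 1))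
    (hbv : ∑ n ∈ Finset.range (J + 2), bv v n ≤ 1) (hV : ∑ n ∈ Finset.range (J + 2), vy n ≤ V)
    (ψ : ℝ → ℝ) (hψm : Measurable ψ) (hlo : ∀ x, min x Kc ≤ ψ x)
    (hup : ∀ x, ψ x ≤ max (min x C) (-Kc)) (hbd : ∀ x, -C ≤ ψ x) :
    Integrable (fun g => th y v (WF w val b l) (J + 1) (sh (v (J + 1)) (fun _ => 0) g))
      (gm (Option (Fin (K + 1)))) ∧
    |gval J y v (fun z => ψ (WF w val b l z)) - gval J y v (WF w val b l)| ≤
      Ktr L wm B V / Kc := by
  have hyp : ∀ n < J + 1, 0 < y n := fun n hn => D.hy n (by omega)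
  have mW := meas_WF (w := w) (val := val) b l
  have mψW : Measurable fun z => ψ (WF w val b l z) := hψm.comp mW
  have hψC : ∀ z, ψ (WF w val b l z) ≤ C := fun z =>
    (hup _).trans (max_le (min_le_right _ _) (by linarith))
  set C0 : ℝ := 1 / (4 * Kc) * AW L B with hC0
  have hC0' : 0 ≤ C0 := by rw [hC0]; exact mul_nonneg (by positivity) (AW_nonneg L B)
  set E : ℝ := C0 * Real.exp (acc L wm v vy (J + 2)) * 6 with hE
  have hE0 : 0 ≤ E := by positivity
  have hacc : acc L wm v vy (J + 2) = acc L wm v vy (J + 1) + inc L wm v vy (J + 1) := by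
    unfold acc
    rw [Finset.sum_range_succ]
  -- comparison of the four nested functionals
  have c1 : ∀ z, th y v (fun z => min (WF w val b l z) Kc) (J + 1) z ≤
      th y v (fun z => ψ (WF w val b l z)) (J + 1) z :=
    th_mono y v _ _ (mW.min measurable_const) (fun z => hlo _) (J + 1) hyp
      (fun n hn z => integrable_exp_of_le (hyp n hn) (v n) _ (measurable_th y v _ mψW n)
        (fun z => th_le_const y v _ mψW (J + 1) hyp C hψC n (by omega) z) z) (J + 1) le_rfl
  have mX : Measurable fun z => min (WF w val b l z) C := mW.min measurable_const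
  have mX2 : Measurable fun z => max (min (WF w val b l z) C) (-Kc) := mX.max measurable_const
  have c2 : ∀ z, th y v (fun z => ψ (WF w val b l z)) (J + 1) z ≤
      th y v (fun z => max (min (WF w val b l z) C) (-Kc)) (J + 1) z :=
    th_mono y v _ _ mψW (fun z => hup _) (J + 1) hyp
      (fun n hn z => integrable_exp_of_le (hyp n hn) (v n) _ (measurable_th y v _ mX2 n)
        (fun z => th_le_const y v _ mX2 (J + 1) hyp C
          (fun z => max_le (min_le_right _ _) (by linarith)) n (by omega) z) z) (J + 1) le_rfl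
  have c3 : ∀ z, th y v (fun z => min (WF w val b l z) C) (J + 1) z ≤
      th y v (WF w val b l) (J + 1) z :=
    th_mono y v _ _ mX (fun z => min_le_left _ _) (J + 1) hyp
      (fun n hn z => D.integrable_th b l n (by omega) z) (J + 1) le_rfl
  have hvn := D.v_nonneg (J + 1) le_rfl
  obtain ⟨-, i1, i2, i3, i4⟩ := D.inc_ge L hwm (J + 1) le_rfl
  have hm1 := D.abs_m1_le hL
  -- the two one-sided bounds
  have u1 : ∫⁻ g, ENNReal.ofReal
      (th y v (WF w val b l) (J + 1) (sh (v (J + 1)) (fun _ => 0) g) -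
        th y v (fun z => ψ (WF w val b l z)) (J + 1) (sh (v (J + 1)) (fun _ => 0) g))
        ∂(gm (Option (Fin (K + 1)))) ≤ ENNReal.ofReal E := by
    calc _ ≤ ∫⁻ g, Gf (C0 * Real.exp (acc L wm v vy (J + 1))) (S (J + 1))
          (RR w val (S (J + 1)) - val l) (RR w val (S (J + 1)) - m1 w val) oc0 (oc1 w val) ocy
          (sh (v (J + 1)) (fun _ => 0) g) ∂(gm (Option (Fin (K + 1)))) := by
          refine lintegral_mono fun g => ?_
          refine le_trans (ENNReal.ofReal_le_ofReal ?_)
            (D.upper hL hwm hwm' hb hK l hC0 (J + 1) le_rfl _)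
          have := c1 (sh (v (J + 1)) (fun _ => 0) g)
          linarith
      _ ≤ ENNReal.ofReal (C0 * Real.exp (acc L wm v vy (J + 1))) *
          (ENNReal.ofReal (Real.exp (inc L wm v vy (J + 1))) * ENNReal.ofReal 6) := by
          refine Gf_bot (v (J + 1)) hvn oc0 (oc1 w val) ocy _ _ _ _ _ ?_ ?_ ?_
          · have := D.bot_M l hwm hwm'
            linarith
          · rw [Fintype.sum_option]
            simp only [oc0, oc1, Option.elim_none, Option.elim_some, mul_zero, zero_add, mul_one,
              sub_self]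
            have h5 := D.sq_diff hL (D.abs_RR_le hL (D.S_nonneg (J + 1) le_rfl)) (J + 1) le_rfl
            have e : ∀ k, val k - m1 w val - (RR w val (S (J + 1)) - m1 w val) =
              val k - RR w val (S (J + 1)) := fun k => by ring
            simp only [e]
            linarith
          · rw [D.sum_ocy (J + 1) le_rfl]; exact i3
      _ = ENNReal.ofReal E := by
          rw [hE, hacc, Real.exp_add, ← ENNReal.ofReal_mul (Real.exp_pos _).le,
            ← ENNReal.ofReal_mul (by positivity)]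
          congr 1
          ring
  have u2 : ∫⁻ g, ENNReal.ofReal
      (th y v (fun z => ψ (WF w val b l z)) (J + 1) (sh (v (J + 1)) (fun _ => 0) g) -
        th y v (WF w val b l) (J + 1) (sh (v (J + 1)) (fun _ => 0) g))
        ∂(gm (Option (Fin (K + 1)))) ≤ ENNReal.ofReal E := by
    calc _ ≤ ∫⁻ g, Uf (C0 * Real.exp (acc L wm v vy (J + 1))) oc0 (oc1 w val) ocy
          (sh (v (J + 1)) (fun _ => 0) g) ∂(gm (Option (Fin (K + 1)))) := by
          refine lintegral_mono fun g => ?_
          refine le_trans (ENNReal.ofReal_le_ofReal ?_)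
            (D.lower hL hwm hb hK hC l hC0 (J + 1) le_rfl _)
          have k2 := c2 (sh (v (J + 1)) (fun _ => 0) g)
          have k3 := c3 (sh (v (J + 1)) (fun _ => 0) g)
          linarith
      _ ≤ ENNReal.ofReal (C0 * Real.exp (acc L wm v vy (J + 1))) *
          (ENNReal.ofReal (Real.exp (inc L wm v vy (J + 1))) * ENNReal.ofReal 6) := by
          refine Uf_bot (v (J + 1)) hvn oc0 (oc1 w val) ocy _ _ (by positivity) ?_ ?_ ?_
          · rw [sum_oc0]; exact i1
          · have := D.sum_oc1 (J + 1) hL le_rfl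
            linarith
          · rw [D.sum_ocy (J + 1) le_rfl]; exact i3
      _ = ENNReal.ofReal E := by
          rw [hE, hacc, Real.exp_add, ← ENNReal.ofReal_mul (Real.exp_pos _).le,
            ← ENNReal.ofReal_mul (by positivity)]
          congr 1
          ring
  have msh : Measurable fun g : Option (Fin (K + 1)) → ℝ => sh (v (J + 1)) (fun _ => 0) g :=
    measurable_sh _ _
  have mF := (measurable_th y v _ mW (J + 1)).comp msh
  have mG := (measurable_th y v _ mψW (J + 1)).comp msh
  have hGi : Integrable (fun g => th y v (fun z => ψ (WF w val b l z)) (J + 1)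
      (sh (v (J + 1)) (fun _ => 0) g)) (gm (Option (Fin (K + 1)))) := by
    refine Integrable.of_bound mG.aestronglyMeasurable C (ae_of_all _ fun g => ?_)
    rw [Real.norm_eq_abs, abs_le]
    exact ⟨const_le_th y v _ mψW (J + 1) hyp (-C) C (fun z => hbd _) hψC (J + 1) le_rfl _,
      th_le_const y v _ mψW (J + 1) hyp C hψC (J + 1) le_rfl _⟩
  obtain ⟨r1, r2⟩ := abs_integral_le _ _ mF mG hGi E hE0 u1 u2
  refine ⟨r1, ?_⟩
  rw [gval_sh, gval_sh]
  refine r2.trans ?_
  have hexp : Real.exp (acc L wm v vy (J + 2)) ≤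
      Real.exp (1 / (2 * wm) + 6 * L ^ 2 + 1 + 3 / 2 * V) := Real.exp_le_exp.mpr (acc_le hwm hbv hV)
  calc 2 * E = 3 * (AW L B * Real.exp (acc L wm v vy (J + 2))) / Kc := by
        rw [hE, hC0]; field_simp; ring
    _ ≤ Ktr L wm B V / Kc := by
        refine div_le_div_of_nonneg_right ?_ hK.le
        unfold Ktr
        have := mul_le_mul_of_nonneg_left hexp (AW_nonneg L B)
        linarith

end Dat

/-- conditions on the truncation function -/
structure Trunc (Kc C : ℝ) (ψ : ℝ → ℝ) : Prop where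
  meas : Measurable ψ
  lo : ∀ x, min x Kc ≤ ψ x
  up : ∀ x, ψ x ≤ max (min x C) (-Kc)
  bd : ∀ x, -C ≤ ψ x

/-- a monotone truncation with `|ψ x| ≤ |x|`, `ψ = id` on `[-Kc, Kc]`, values in `[-C, C]` -/
theorem Trunc.of_mono {Kc C : ℝ} {ψ : ℝ → ℝ} (hK : 0 < Kc) (hm : Monotone ψ)
    (h1 : ∀ x, |ψ x| ≤ |x|) (h2 : ∀ x, |x| ≤ Kc → ψ x = x) (h3 : ∀ x, |ψ x| ≤ C) :
    Trunc Kc C ψ where
  meas := hm.measurable
  lo x := by
    rcases le_total x Kc with h | h
    · rw [min_eq_left h]
      rcases le_total x 0 with h0 | h0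
      · have := h1 x
        rw [abs_of_nonpos h0] at this
        have := (abs_le.mp this).1
        linarith
      · rw [h2 x (by rwa [abs_of_nonneg h0])]
    · rw [min_eq_right h]
      have := hm h
      rwa [h2 Kc (by rw [abs_of_pos hK])] at this
  up x := by
    rcases le_total x (-Kc) with h | h
    · have := hm h
      rw [h2 (-Kc) (by rw [abs_neg, abs_of_pos hK])] at this
      exact this.trans (le_max_right _ _)
    · refine le_trans (le_min ?_ (abs_le.mp (h3 x)).2) (le_max_left _ _)
      rcases le_total x 0 with h0 | h0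
      · exact (h2 x (by rw [abs_of_nonpos h0]; linarith)).le
      · have := h1 x
        rw [abs_of_nonneg h0] at this
        exact (abs_le.mp this).2
  bd x := (abs_le.mp (h3 x)).1

/-- the clip to `[-Kc, Kc]` -/
theorem Trunc.clip (Kc : ℝ) : Trunc Kc Kc (fun x => max (-Kc) (min x Kc)) where
  meas := measurable_const.max (measurable_id.min measurable_const)
  lo _ := le_max_right _ _
  up _ := le_of_eq (max_comm _ _)
  bd _ := le_max_left _ _

end

end Crest.Agent.R164.ClipG
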