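import Crest.Agent.R164.SDAlg4

/-!
Row 164: deterministic consequences of the approximate left-rotation relations, part 5: integral
representation of `Γhat^k_n`, and the time derivative of `G_t(p)`.
-/

set_option autoImplicit false

namespace Crest.Agent.R164.SDAlg

open Finset

noncomputable section

variable {κ : Type} [Fintype κ]

/-- the step path data (without the relations). -/
structure StepD (n : ℕ) (m p : ℕ → ℝ) : Prop where
  m0 : m 0 = 0
  mlt : ∀ b, b < n → m b < m (b + 1)
  mn : m n = 1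
  p0 : 0 ≤ p 0
  pmono : ∀ b, b < n → p b ≤ p (b + 1)
  pn : p n = 1

namespace StepD

variable {n : ℕ} {m p : ℕ → ℝ} (h : StepD n m p)

include h

theorem mmono {b : ℕ} (hb : b < n) : m b ≤ m (b + 1) := (h.mlt b hb).le

theorem m_nonneg {b : ℕ} (hb : b ≤ n) : 0 ≤ m b := by
  rw [← h.m0]
  exact mono_of_succ (f := m) (fun _ hb => h.mmono hb) (Nat.zero_le b) hb

theorem m_pos {b : ℕ} (hb1 : 1 ≤ b) (hb : b ≤ n) : 0 < m b := by
  have h1 := h.mlt 0 (by omega)
  rw [h.m0] at h1
  exact h1.trans_le (mono_of_succ (f := m) (fun _ hb => h.mmono hb) hb1 hb)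

theorem m_le_one {b : ℕ} (hb : b ≤ n) : m b ≤ 1 := by
  rw [← h.mn]
  exact mono_of_succ (f := m) (fun _ hb => h.mmono hb) hb le_rfl

theorem p_nonneg {b : ℕ} (hb : b ≤ n) : 0 ≤ p b :=
  h.p0.trans (mono_of_succ h.pmono (Nat.zero_le b) hb)

theorem p_le_one {b : ℕ} (hb : b ≤ n) : p b ≤ 1 := by
  rw [← h.pn]
  exact mono_of_succ h.pmono hb le_rfl

theorem Dp_nonneg (a : ℕ) : 0 ≤ Dl m n p a :=
  Dl_nonneg (fun _ hb => h.m_nonneg hb) h.pmono a

theorem Dp_le_one {a : ℕ} (ha : a ≤ n) : Dl m n p a ≤ 1 := by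
  have := Dl_le (fun _ hb => h.m_nonneg hb) (fun _ hb => h.m_le_one hb) h.p0 h.pmono ha
  rwa [h.pn] at this

theorem n_pos : 0 < n := by
  rcases Nat.eq_zero_or_pos n with h0 | h0
  · have h1 := h.m0
    have h2 := h.mn
    rw [h0, h1] at h2
    norm_num at h2
  · exact h0

end StepD

/-- increments of `Γhat`. -/
theorem ghat_inc' {α d : κ → ℝ} {k0 : κ} (hα : ∀ k, 0 < α k) (hd : ∀ k, 0 ≤ d k)
    (h0 : d k0 = 0) {n : ℕ} {m p : ℕ → ℝ} (h : StepD n m p) {b : ℕ} (hb : b < n) (k : κ) :
    (p (b + 1) - p b) * ww α d (tau α d (Dl m n p (b + 1))) (tau α d (Dl m n p b)) k =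
    (m (b + 1))⁻¹ * (FF d (tau α d (Dl m n p b)) k - FF d (tau α d (Dl m n p (b + 1))) k) := by
  have h1 := FF_sub_eq hα hd (tau_nonneg α d (Dl m n p (b + 1)))
    (tau_nonneg α d (Dl m n p b)) k
  rw [ss_tau hα hd h0 (h.Dp_nonneg b), ss_tau hα hd h0 (h.Dp_nonneg (b + 1)), Dl_succ hb] at h1
  have hm := (h.m_pos (by omega : 1 ≤ b + 1) (by omega)).ne'
  rw [Dl_succ hb, h1]
  field_simp
  ring

section conv

open MeasureTheory Set Crest.ProbabilityR.InvariantGlass Crest.Agent.R164.PAlg

variable {M : ℕ} {m p : ℕ → ℝ}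

/-- widths -/
def wdOf (M : ℕ) (m : ℕ → ℝ) (i : Fin (M + 1)) : ℝ := m (i + 1) - m i

/-- values -/
def pOf (M : ℕ) (p : ℕ → ℝ) (i : Fin (M + 1)) : ℝ := p i

/-- the step path -/
def pathOf (M : ℕ) (m p : ℕ → ℝ) : ℝ → ℝ := stepFn (wdOf M m) (pOf M p)

variable (h : StepD (M + 1) m p)

include h

theorem wdOf_pos (i : Fin (M + 1)) : 0 < wdOf M m i := sub_pos.2 (h.mlt i i.2)

theorem wdOf_sum : ∑ i, wdOf M m i = 1 := by
  unfold wdOf
  rw [Fin.sum_univ_eq_sum_range (fun i => m (i + 1) - m i) (M + 1), Finset.sum_range_sub m,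
    h.mn, h.m0, sub_zero]

theorem leftEnd_of (i : Fin (M + 1)) : leftEnd (wdOf M m) i = m i := by
  induction i using Fin.induction with
  | zero =>
    rw [ze_zero]
    exact h.m0.symm
  | succ i ih =>
    rw [ze_succ, ih]
    unfold wdOf
    simp

theorem pOf_mono : Monotone (pOf M p) := by
  intro i j hij
  exact mono_of_succ h.pmono hij (by omega)

theorem pOf_nonneg (i : Fin (M + 1)) : 0 ≤ pOf M p i := h.p_nonneg (by omega)

theorem pOf_le_one (i : Fin (M + 1)) : pOf M p i ≤ 1 := h.p_le_one (by omega)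

theorem Dd_of (j : Fin (M + 1)) : Dd (wdOf M m) (pOf M p) j = Dl m (M + 1) p j := by
  have hw := wdOf_pos h
  have hs := wdOf_sum h
  have hp := pOf_mono h
  induction j using Fin.reverseInduction with
  | last =>
    rw [Dd_last hw hs hp]
    have : ((Fin.last M : Fin (M + 1)) : ℕ) = M := rfl
    rw [this, Dl_succ (by omega : M < M + 1), Dl_top, h.mn, h.pn]
    unfold pOf
    rw [this]
    ring
  | cast j ih =>
    rw [Dd_castSucc hw hs hp, ih, leftEnd_of h]
    have e1 : ((j.castSucc : Fin (M + 1)) : ℕ) = j := rfl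
    have e2 : ((j.succ : Fin (M + 1)) : ℕ) = j + 1 := rfl
    unfold pOf
    rw [e1, e2, Dl_succ (by omega : (j : ℕ) < M + 1)]
    ring

/-- integral representation of `Γhat^k` at the leaf. -/
theorem ghat_integral {α d : κ → ℝ} {k0 : κ} {Δ : ℝ} (hα : ∀ k, 0 < α k) (hsum : ∑ k, α k = 1)
    (hd : ∀ k, 0 ≤ d k) (h0 : d k0 = 0) (hΔ : ∀ k, d k ≤ Δ) (k : κ) :
    Ghat α d (M + 1) m p k (M + 1) = ∫ r in Ioo (0 : ℝ) 1,
      ww α d (tau α d (deficit (pathOf M m p) r)) (tau α d (deficit (pathOf M m p) r)) k := by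
  have hI := integral_deficit
    (ψ := fun x => ww α d (tau α d x) (tau α d x) k) (Ψ := fun x => FF d (tau α d x) k)
    (ww_diag_continuousOn hα hsum hd h0 hΔ k) (FF_tau_continuousOn hα hsum hd h0 hΔ k)
    (fun x hx => FF_tau_hasDerivAt hα hsum hd h0 hΔ hx k)
    (wdOf_pos h) (wdOf_sum h) (pOf_mono h) (pOf_nonneg h) (pOf_le_one h)
  unfold pathOf
  rw [hI]
  unfold Ghat
  rw [Finset.sum_congr rfl (fun b hb => ghat_inc' (k0 := k0) hα hd h0 h
    (Finset.mem_range.1 hb) k)]
  rw [Finset.sum_range_succ, Dl_top, tau_zero hα hd h0, h.mn]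
  have hz : FF d 0 k = 0 := by simp [FF]
  rw [hz]
  rw [← Fin.sum_univ_eq_sum_range (fun b => (m (b + 1))⁻¹ *
    (FF d (tau α d (Dl m (M + 1) p b)) k - FF d (tau α d (Dl m (M + 1) p (b + 1))) k)) M]
  have e1 : ∀ j : Fin M, (leftEnd (wdOf M m) j.succ)⁻¹ *
      (FF d (tau α d (Dd (wdOf M m) (pOf M p) j.castSucc)) k -
        FF d (tau α d (Dd (wdOf M m) (pOf M p) j.succ)) k) =
      (m (j + 1))⁻¹ * (FF d (tau α d (Dl m (M + 1) p j)) k -
        FF d (tau α d (Dl m (M + 1) p (j + 1))) k) := by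
    intro j
    rw [leftEnd_of h, Dd_of h, Dd_of h]
    rfl
  rw [Finset.sum_congr rfl fun j _ => e1 j, Dd_of h, Dd_of h]
  have e2 : ((Fin.last M : Fin (M + 1)) : ℕ) = M := rfl
  have e3 : ((0 : Fin (M + 1)) : ℕ) = 0 := rfl
  have e4 : pOf M p 0 = p 0 := rfl
  rw [e2, e3, e4]
  ring

end conv

/-! ### time derivative -/

section time

open MeasureTheory Set Crest.ProbabilityR.InvariantGlass Crest.Agent.R164.PAlg
open Crest.Agent.R164.RTrans Crest.Agent.R164.Atomic Crest.Agent.R164.RScale

variable {K : ℕ} (w val : Fin (K + 1) → ℝ)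

/-- gaps at temperature `t` -/
def gap (t : ℝ) (k : Fin (K + 1)) : ℝ := t * (val (Fin.last K) - val k)

/-- `φ_t(x) = d/dt [t R(t x)]` -/
def phiT (t x : ℝ) : ℝ :=
  ∑ k, w k * (val k * ww w (gap val t) (tau w (gap val t) x) (tau w (gap val t) x) k)

/-- `E_t(q) = ½ ∫ φ_t(D_q(r)) dr` : the time derivative of `G_t(q)`. -/
def ET (t : ℝ) (q : ℝ → ℝ) : ℝ := (1 / 2) * ∫ r in Ioo (0 : ℝ) 1, phiT w val t (deficit q r)

variable {w val}
variable (hv : StrictMono val) (hw : ∀ k, 0 < w k) (hs : ∑ k, w k = 1)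

include hv in
theorem gap_nonneg {t : ℝ} (ht : 0 ≤ t) (k : Fin (K + 1)) : 0 ≤ gap val t k :=
  mul_nonneg ht (sub_nonneg.2 (hv.monotone (Fin.le_last k)))

omit hv in
theorem gap_last (t : ℝ) : gap val t (Fin.last K) = 0 := by simp [gap]

include hv in
theorem gap_le {t : ℝ} (ht : 0 ≤ t) (ht1 : t ≤ 1) (k : Fin (K + 1)) :
    gap val t k ≤ val (Fin.last K) - val 0 := by
  unfold gap
  have h1 : 0 ≤ val (Fin.last K) - val k := sub_nonneg.2 (hv.monotone (Fin.le_last k))
  have h2 : val 0 ≤ val k := hv.monotone (Fin.zero_le k)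
  calc t * (val (Fin.last K) - val k) ≤ 1 * (val (Fin.last K) - val k) :=
        mul_le_mul_of_nonneg_right ht1 h1
    _ ≤ _ := by linarith

include hv hw hs

theorem tau_pos_of_pos {t : ℝ} (ht : 0 ≤ t) {x : ℝ} (hx : 0 < x) :
    0 < tau w (gap val t) x := by
  rcases (tau_nonneg w (gap val t) x).lt_or_eq with h | h
  · exact h
  · exfalso
    have := ss_tau hw (gap_nonneg hv ht) (gap_last t) hx.le
    rw [← h, ss_zero] at this
    linarith

theorem tR_exact {t : ℝ} (ht : 0 ≤ t) {x : ℝ} (hx : 0 < x) :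
    t * RR w val (t * x) = t * val (Fin.last K) + (tau w (gap val t) x)⁻¹ - x⁻¹ := by
  have := atomic_prob (w := w) val (fun k => (hw k).le) hs
  have hτ := tau_pos_of_pos hv hw hs ht hx
  set τ := tau w (gap val t) x with hτd
  have hss := ss_tau hw (gap_nonneg hv ht) (gap_last t) hx.le
  rw [← hτd] at hss
  rcases ht.lt_or_eq with h | h
  · have htx : 0 < t * x := mul_pos h hx
    rw [RR_eq htx]
    have hb : bb w val (t * x) = val (Fin.last K) + (t * τ)⁻¹ := by
      unfold bb
      apply resolventPoint_eq (supp hv hw hs)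
      · have : 0 < (t * τ)⁻¹ := by positivity
        linarith
      · rw [atomic_G hw]
        rw [← hss]
        unfold ss
        rw [Finset.mul_sum]
        apply Finset.sum_congr rfl
        intro k _
        have h1 : val (Fin.last K) + (t * τ)⁻¹ - val k = (1 + τ * gap val t k) / (t * τ) := by
          unfold gap
          field_simp
          ring
        rw [h1, inv_div]
        unfold FF ee
        have h2 := (one_add_pos (gap_nonneg hv ht) hτ.le k).ne'
        field_simp
    rw [hb]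
    field_simp
  · subst h
    have hg : ∀ k, gap val 0 k = 0 := fun k => by simp [gap]
    have : τ = x := by
      rw [← hss]
      unfold ss FF ee
      simp only [hg, mul_zero, add_zero, inv_one, mul_one]
      rw [← Finset.sum_mul, hs, one_mul]
    rw [this]
    ring

theorem tR_zero (t : ℝ) : t * RR w val (t * 0) = t * ∑ k, w k * val k := by
  rw [mul_zero, RR_zero hw hs]

theorem phiT_zero {t : ℝ} (ht : 0 ≤ t) : phiT w val t 0 = ∑ k, w k * val k := by
  unfold phiT
  rw [tau_zero hw (gap_nonneg hv ht) (gap_last t)]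
  apply Finset.sum_congr rfl
  intro k _
  have : ww w (gap val t) 0 0 k = 1 := by
    unfold ww qq ee
    simp [hs]
  rw [this, mul_one]

/-- exact difference quotient of `t ↦ t R(t x)`. -/
theorem tR_diff {t t' : ℝ} (ht : 0 ≤ t) (ht' : 0 ≤ t') {x : ℝ} (hx : 0 < x) :
    (t' * RR w val (t' * x) - t * RR w val (t * x)) *
      (∑ k, w k * (FF (gap val t) (tau w (gap val t) x) k *
        FF (gap val t') (tau w (gap val t') x) k)) =
    (t' - t) * ∑ k, w k * (val k * (FF (gap val t) (tau w (gap val t) x) k *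
        FF (gap val t') (tau w (gap val t') x) k)) := by
  have hτ := tau_pos_of_pos hv hw hs ht hx
  have hτ' := tau_pos_of_pos hv hw hs ht' hx
  rw [tR_exact hv hw hs ht hx, tR_exact hv hw hs ht' hx]
  have hss := ss_tau hw (gap_nonneg hv ht) (gap_last t) hx.le
  have hss' := ss_tau hw (gap_nonneg hv ht') (gap_last t') hx.le
  set τ := tau w (gap val t) x with hτd
  set τ' := tau w (gap val t') x with hτd'
  have hF : ∀ k, FF (gap val t') τ' k - FF (gap val t) τ k =
      FF (gap val t) τ k * FF (gap val t') τ' k *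
        ((τ⁻¹ - τ'⁻¹) + (t - t') * (val (Fin.last K) - val k)) := by
    intro k
    have h1 := (one_add_pos (gap_nonneg hv ht) hτ.le k).ne'
    have h2 := (one_add_pos (gap_nonneg hv ht') hτ'.le k).ne'
    have e1 : FF (gap val t) τ k * (τ⁻¹ + t * (val (Fin.last K) - val k)) = 1 := by
      have := ee_mul (gap_nonneg hv ht) hτ.le k
      unfold FF
      unfold gap at this ⊢
      field_simp
      linarith
    have e2 : FF (gap val t') τ' k * (τ'⁻¹ + t' * (val (Fin.last K) - val k)) = 1 := by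
      have := ee_mul (gap_nonneg hv ht') hτ'.le k
      unfold FF
      unfold gap at this ⊢
      field_simp
      linarith
    linear_combination (-FF (gap val t') τ' k) * e1 + FF (gap val t) τ k * e2
  have hsum : ∑ k, w k * (FF (gap val t') τ' k - FF (gap val t) τ k) = 0 := by
    simp only [mul_sub, Finset.sum_sub_distrib]
    have a1 : ∑ k, w k * FF (gap val t') τ' k = x := hss'
    have a2 : ∑ k, w k * FF (gap val t) τ k = x := hss
    rw [a1, a2, sub_self]
  rw [Finset.sum_congr rfl (fun k _ => by rw [hF k])] at hsum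
  have hsum2 : (τ⁻¹ - τ'⁻¹) * (∑ k, w k * (FF (gap val t) τ k * FF (gap val t') τ' k)) +
      (t - t') * ∑ k, w k * ((val (Fin.last K) - val k) *
        (FF (gap val t) τ k * FF (gap val t') τ' k)) = 0 := by
    rw [← hsum, Finset.mul_sum, Finset.mul_sum, ← Finset.sum_add_distrib]
    apply Finset.sum_congr rfl
    intro k _
    ring
  have hsum3 : ∑ k, w k * ((val (Fin.last K) - val k) *
        (FF (gap val t) τ k * FF (gap val t') τ' k)) =
      val (Fin.last K) * (∑ k, w k * (FF (gap val t) τ k * FF (gap val t') τ' k)) -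
      ∑ k, w k * (val k * (FF (gap val t) τ k * FF (gap val t') τ' k)) := by
    rw [Finset.mul_sum, ← Finset.sum_sub_distrib]
    apply Finset.sum_congr rfl
    intro k _
    ring
  rw [hsum3] at hsum2
  linarith

/-- normalised weights in terms of `F`. -/
theorem ww_eq_FF {t : ℝ} (ht : 0 ≤ t) {τ : ℝ} (hτ : 0 < τ) (k : Fin (K + 1)) :
    ww w (gap val t) τ τ k * (∑ l, w l * (FF (gap val t) τ l * FF (gap val t) τ l)) =
      FF (gap val t) τ k * FF (gap val t) τ k := by
  have hq := (qq_pos hw ⟨k⟩ (gap_nonneg hv ht) hτ.le hτ.le).ne'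
  have h1 : ∑ l, w l * (FF (gap val t) τ l * FF (gap val t) τ l) = τ * τ * qq w (gap val t) τ τ := by
    unfold qq FF
    rw [Finset.mul_sum]
    apply Finset.sum_congr rfl
    intro l _
    ring
  rw [h1]
  unfold ww FF
  field_simp

/-- **Quadratic estimate for the time increments of `t R(t x)`**, uniform in `x ∈ [0,1]`. -/
theorem tR_quad {V : ℝ} (hV : ∀ k, |val k| ≤ V) {t t' : ℝ} (ht : 0 ≤ t) (ht' : 0 ≤ t')
    {x : ℝ} (hx : 0 ≤ x) (hx1 : x ≤ 1) :
    |(t' * RR w val (t' * x) - t * RR w val (t * x)) - (t' - t) * phiT w val t x| ≤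
      8 * V * (val (Fin.last K) - val 0) / w (Fin.last K) * (t' - t) ^ 2 := by
  have hV0 : 0 ≤ V := (abs_nonneg _).trans (hV 0)
  have hΔ0 : 0 ≤ val (Fin.last K) - val 0 := sub_nonneg.2 (hv.monotone (Fin.zero_le _))
  have hwl := hw (Fin.last K)
  rcases hx.lt_or_eq with hx0 | hx0
  swap
  · rw [← hx0, tR_zero hv hw hs, tR_zero hv hw hs, phiT_zero hv hw hs ht]
    have : t' * (∑ k, w k * val k) - t * (∑ k, w k * val k) -
        (t' - t) * ∑ k, w k * val k = 0 := by ring
    rw [this, abs_zero]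
    positivity
  set Δ := val (Fin.last K) - val 0 with hΔ
  have hτ := tau_pos_of_pos hv hw hs ht hx0
  have hτ' := tau_pos_of_pos hv hw hs ht' hx0
  have hdiff := tR_diff hv hw hs ht ht' hx0
  have hww : ∀ k, ww w (gap val t) (tau w (gap val t) x) (tau w (gap val t) x) k *
      (∑ l, w l * (FF (gap val t) (tau w (gap val t) x) l *
        FF (gap val t) (tau w (gap val t) x) l)) =
      FF (gap val t) (tau w (gap val t) x) k * FF (gap val t) (tau w (gap val t) x) k :=
    fun k => ww_eq_FF hv hw hs ht hτ k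
  have hτl' := tau_le hw (gap_nonneg hv ht') (gap_last t') hx
  unfold phiT
  have hss := ss_tau hw (gap_nonneg hv ht) (gap_last t) hx
  have hss' := ss_tau hw (gap_nonneg hv ht') (gap_last t') hx
  set τ := tau w (gap val t) x with hτd
  set τ' := tau w (gap val t') x with hτd'
  set X := t' * RR w val (t' * x) - t * RR w val (t * x) with hX
  -- the sums
  set F : Fin (K + 1) → ℝ := FF (gap val t) τ with hFd
  set F' : Fin (K + 1) → ℝ := FF (gap val t') τ' with hFd'
  have hF0 : ∀ k, 0 < F k := fun k => mul_pos hτ (ee_pos (gap_nonneg hv ht) hτ.le k)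
  have hF0' : ∀ k, 0 < F' k := fun k => mul_pos hτ' (ee_pos (gap_nonneg hv ht') hτ'.le k)
  have hFle' : ∀ k, F' k ≤ 1 / w (Fin.last K) := by
    intro k
    have h1 : F' k ≤ τ' := by
      have := mul_le_mul_of_nonneg_left (ee_le_one (gap_nonneg hv ht') hτ'.le k) hτ'.le
      rw [mul_one] at this
      exact this
    refine h1.trans (hτl'.trans ?_)
    exact div_le_div_of_nonneg_right hx1 hwl.le
  -- relative differences
  set δ : Fin (K + 1) → ℝ := fun k => F' k * ((τ⁻¹ - τ'⁻¹) +
    (t - t') * (val (Fin.last K) - val k)) with hδ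
  have hFδ : ∀ k, F' k = F k * (1 + δ k) := by
    intro k
    have e1 : F k * (τ⁻¹ + t * (val (Fin.last K) - val k)) = 1 := by
      have := ee_mul (gap_nonneg hv ht) hτ.le k
      rw [hFd]
      unfold FF
      unfold gap at this ⊢
      field_simp
      linarith
    have e2 : F' k * (τ'⁻¹ + t' * (val (Fin.last K) - val k)) = 1 := by
      have := ee_mul (gap_nonneg hv ht') hτ'.le k
      rw [hFd']
      unfold FF
      unfold gap at this ⊢
      field_simp
      linarith
    simp only [hδ]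
    linear_combination (-F' k) * e1 + F k * e2
  -- bound on 1/τ - 1/τ'
  set S := ∑ k, w k * (F k * F' k) with hS
  have hS0 : 0 < S := Finset.sum_pos (fun k _ => mul_pos (hw k) (mul_pos (hF0 k) (hF0' k)))
    ⟨0, Finset.mem_univ _⟩
  have hβ : |τ⁻¹ - τ'⁻¹| ≤ |t' - t| * Δ := by
    have hsum : ∑ k, w k * (F' k - F k) = 0 := by
      simp only [mul_sub, Finset.sum_sub_distrib]
      have a1 : ∑ k, w k * F' k = x := hss'
      have a2 : ∑ k, w k * F k = x := hss
      rw [a1, a2, sub_self]
    have hsum2 : (τ⁻¹ - τ'⁻¹) * S =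
        (t' - t) * ∑ k, w k * ((val (Fin.last K) - val k) * (F k * F' k)) := by
      have e : ∑ k, w k * (F' k - F k) = (τ⁻¹ - τ'⁻¹) * S +
          (t - t') * ∑ k, w k * ((val (Fin.last K) - val k) * (F k * F' k)) := by
        rw [hS, Finset.mul_sum, Finset.mul_sum, ← Finset.sum_add_distrib]
        apply Finset.sum_congr rfl
        intro k _
        have h1 : F' k - F k = F k * δ k := by rw [hFδ k]; ring
        rw [h1]
        simp only [hδ]
        ring
      rw [hsum] at e
      linarith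
    have h3 : |∑ k, w k * ((val (Fin.last K) - val k) * (F k * F' k))| ≤ Δ * S := by
      rw [abs_of_nonneg]
      · rw [hS, Finset.mul_sum]
        apply Finset.sum_le_sum
        intro k _
        have h4 : val (Fin.last K) - val k ≤ Δ := by
          have := hv.monotone (Fin.zero_le k)
          rw [hΔ]; linarith
        have h5 := mul_pos (hw k) (mul_pos (hF0 k) (hF0' k))
        have := mul_le_mul_of_nonneg_right h4 h5.le
        linarith
      · apply Finset.sum_nonneg
        intro k _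
        exact mul_nonneg (hw k).le (mul_nonneg (sub_nonneg.2 (hv.monotone (Fin.le_last k)))
          (mul_pos (hF0 k) (hF0' k)).le)
    have h4 : |τ⁻¹ - τ'⁻¹| * S ≤ |t' - t| * Δ * S := by
      rw [← abs_of_pos hS0, ← abs_mul, abs_of_pos hS0, hsum2, abs_mul, mul_assoc]
      exact mul_le_mul_of_nonneg_left h3 (abs_nonneg _)
    exact le_of_mul_le_mul_right h4 hS0
  set η := 2 * Δ / w (Fin.last K) * |t' - t| with hη
  have hη0 : 0 ≤ η := by positivity
  have hδle : ∀ k, |δ k| ≤ η := by
    intro k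
    simp only [hδ]
    rw [abs_mul, abs_of_pos (hF0' k)]
    have h1 : |(τ⁻¹ - τ'⁻¹) + (t - t') * (val (Fin.last K) - val k)| ≤ 2 * (|t' - t| * Δ) := by
      refine (abs_add_le _ _).trans ?_
      have h2 : |(t - t') * (val (Fin.last K) - val k)| ≤ |t' - t| * Δ := by
        rw [abs_mul, abs_sub_comm t t',
          abs_of_nonneg (sub_nonneg.2 (hv.monotone (Fin.le_last k)))]
        apply mul_le_mul_of_nonneg_left _ (abs_nonneg _)
        have := hv.monotone (Fin.zero_le k)
        rw [hΔ]; linarith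
      linarith
    calc F' k * |(τ⁻¹ - τ'⁻¹) + (t - t') * (val (Fin.last K) - val k)| ≤
        1 / w (Fin.last K) * (2 * (|t' - t| * Δ)) :=
          mul_le_mul (hFle' k) h1 (abs_nonneg _) (by positivity)
      _ = η := by rw [hη]; ring
  -- weights u
  set S0 := ∑ l, w l * (F l * F l) with hS0d
  have hS00 : 0 < S0 := Finset.sum_pos (fun k _ => mul_pos (hw k) (mul_pos (hF0 k) (hF0 k)))
    ⟨0, Finset.mem_univ _⟩
  set φ := ∑ k, w k * (val k * ww w (gap val t) τ τ k) with hφ
  have hφS : φ * S0 = ∑ k, w k * (val k * (F k * F k)) := by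
    rw [hφ, Finset.sum_mul]
    apply Finset.sum_congr rfl
    intro k _
    have := hww k
    calc w k * (val k * ww w (gap val t) τ τ k) * S0 =
        w k * (val k * (ww w (gap val t) τ τ k * S0)) := by ring
      _ = _ := by rw [this]
  have hφV : |φ| ≤ V := by
    have h1 : |φ * S0| ≤ V * S0 := by
      rw [hφS, hS0d, Finset.mul_sum]
      refine (Finset.abs_sum_le_sum_abs _ _).trans (Finset.sum_le_sum fun k _ => ?_)
      rw [abs_mul, abs_mul, abs_of_pos (hw k), abs_of_pos (mul_pos (hF0 k) (hF0 k))]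
      have := mul_le_mul_of_nonneg_right (hV k)
        (mul_pos (hw k) (mul_pos (hF0 k) (hF0 k))).le
      linarith
    rw [abs_mul, abs_of_pos hS00] at h1
    exact le_of_mul_le_mul_right h1 hS00
  -- the difference
  have hXV : (X - (t' - t) * φ) * S = (t' - t) * ∑ k, w k * ((val k - φ) * (F k * F' k)) := by
    have : ∑ k, w k * ((val k - φ) * (F k * F' k)) =
        (∑ k, w k * (val k * (F k * F' k))) - φ * S := by
      rw [hS, Finset.mul_sum, ← Finset.sum_sub_distrib]
      apply Finset.sum_congr rfl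
      intro k _
      ring
    rw [this, sub_mul, mul_sub, ← hdiff]
    ring
  have hcenter : ∑ k, w k * ((val k - φ) * (F k * F' k)) =
      ∑ k, w k * ((val k - φ) * (F k * F k * δ k)) := by
    have h1 : ∑ k, w k * ((val k - φ) * (F k * F k)) = 0 := by
      have : ∑ k, w k * ((val k - φ) * (F k * F k)) =
          (∑ k, w k * (val k * (F k * F k))) - φ * S0 := by
        rw [hS0d, Finset.mul_sum, ← Finset.sum_sub_distrib]
        apply Finset.sum_congr rfl
        intro k _
        ring
      rw [this, hφS, sub_self]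
    have h2 : ∑ k, w k * ((val k - φ) * (F k * F' k)) =
        (∑ k, w k * ((val k - φ) * (F k * F k))) +
          ∑ k, w k * ((val k - φ) * (F k * F k * δ k)) := by
      rw [← Finset.sum_add_distrib]
      apply Finset.sum_congr rfl
      intro k _
      rw [hFδ k]; ring
    rw [h2, h1, zero_add]
  have hb1 : |∑ k, w k * ((val k - φ) * (F k * F k * δ k))| ≤ 2 * V * η * S0 := by
    rw [hS0d, Finset.mul_sum]
    refine (Finset.abs_sum_le_sum_abs _ _).trans (Finset.sum_le_sum fun k _ => ?_)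
    rw [abs_mul, abs_mul, abs_mul, abs_of_pos (hw k), abs_of_pos (mul_pos (hF0 k) (hF0 k))]
    have h1 : |val k - φ| ≤ 2 * V := by
      refine (abs_sub _ _).trans ?_
      linarith [hV k]
    have h2 : |val k - φ| * |δ k| ≤ 2 * V * η :=
      mul_le_mul h1 (hδle k) (abs_nonneg _) (by positivity)
    have h3 := mul_le_mul_of_nonneg_right h2 (mul_pos (hw k) (mul_pos (hF0 k) (hF0 k))).le
    calc w k * (|val k - φ| * (F k * F k * |δ k|)) =
        |val k - φ| * |δ k| * (w k * (F k * F k)) := by ring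
      _ ≤ 2 * V * η * (w k * (F k * F k)) := h3
  have hb2 : |∑ k, w k * ((val k - φ) * (F k * F' k))| ≤ 2 * V * S := by
    rw [hS, Finset.mul_sum]
    refine (Finset.abs_sum_le_sum_abs _ _).trans (Finset.sum_le_sum fun k _ => ?_)
    rw [abs_mul, abs_mul, abs_of_pos (hw k), abs_of_pos (mul_pos (hF0 k) (hF0' k))]
    have h1 : |val k - φ| ≤ 2 * V := by
      refine (abs_sub _ _).trans ?_
      linarith [hV k]
    have h3 := mul_le_mul_of_nonneg_right h1 (mul_pos (hw k) (mul_pos (hF0 k) (hF0' k))).le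
    linarith
  have hgoal : |X - (t' - t) * φ| ≤ |t' - t| * (4 * V * η) := by
    by_cases hcase : η ≤ 1 / 2
    · -- S ≥ S0/2
      have hSS : S0 / 2 ≤ S := by
        have : S = ∑ k, w k * (F k * F k) * (1 + δ k) := by
          rw [hS]
          apply Finset.sum_congr rfl
          intro k _
          rw [hFδ k]; ring
        rw [this, hS0d, Finset.sum_div]
        apply Finset.sum_le_sum
        intro k _
        have h1 : (1 : ℝ) / 2 ≤ 1 + δ k := by
          have := (abs_le.1 (hδle k)).1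
          linarith
        have h2 := mul_le_mul_of_nonneg_left h1 (mul_pos (hw k) (mul_pos (hF0 k) (hF0 k))).le
        linarith
      have h5 : |X - (t' - t) * φ| * S ≤ |t' - t| * (2 * V * η * S0) := by
        rw [← abs_of_pos hS0, ← abs_mul, hXV, hcenter, abs_mul]
        exact mul_le_mul_of_nonneg_left hb1 (abs_nonneg _)
      have h6 : |t' - t| * (2 * V * η * S0) ≤ |t' - t| * (4 * V * η) * S := by
        have : 2 * V * η * S0 ≤ 4 * V * η * S := by
          have h7 : 0 ≤ 4 * V * η := by positivity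
          have := mul_le_mul_of_nonneg_left hSS h7
          linarith
        have := mul_le_mul_of_nonneg_left this (abs_nonneg (t' - t))
        linarith
      exact le_of_mul_le_mul_right (h5.trans h6) hS0
    · push Not at hcase
      have h5 : |X - (t' - t) * φ| * S ≤ |t' - t| * (2 * V) * S := by
        rw [← abs_of_pos hS0, ← abs_mul, abs_of_pos hS0, hXV, abs_mul, mul_assoc]
        exact mul_le_mul_of_nonneg_left hb2 (abs_nonneg _)
      refine (le_of_mul_le_mul_right h5 hS0).trans ?_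
      apply mul_le_mul_of_nonneg_left _ (abs_nonneg _)
      nlinarith
  refine hgoal.trans (le_of_eq ?_)
  rw [hη, ← sq_abs (t' - t)]
  ring

end time

end

end Crest.Agent.R164.SDAlg
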