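import Crest.Agent.R164.ExactG5
import Crest.Agent.R164.SDAlg5

/-!
Row 164, exact value of the nested Gaussian functional, part 6: the covariances are those of
`SDAlg.Ghat` (helper716).
-/

set_option autoImplicit false

namespace Crest.Agent.R164.EG

open MeasureTheory ProbabilityTheory Crest.ProbabilityR.InvariantGlass
open Crest.Agent.R164.PAlg Crest.Agent.R164.Atomic
open Crest.Agent.R164.SDAlg (gap tau tau_zero ss_tau FF ee ww Ghat Dl Dl_top StepD wdOf pOf
  gap_nonneg gap_last tau_pos_of_pos tR_exact ww_eq_FF ghat_inc' leftEnd_of Dd_of wdOf_pos wdOf_sum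
  pOf_mono pOf_nonneg pOf_le_one)
open Crest.Agent.R164.CavG (gm gstep th gval th_zero th_succ)

noncomputable section

theorem th_congr {ι : Type*} [Fintype ι] {y y' : ℕ → ℝ} {v v' : ℕ → ι → ℝ} (w : (ι → ℝ) → ℝ) :
    ∀ n, (∀ m, m < n → y m = y' m) → (∀ m, m < n → v m = v' m) → th y v w n = th y' v' w n
  | 0, _, _ => rfl
  | n + 1, hy, hv => by
    rw [th_succ, th_succ, th_congr w n (fun m hm => hy m (by omega)) (fun m hm => hv m (by omega)),
      hy n (by omega), hv n (by omega)]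

theorem gval_congr {ι : Type*} [Fintype ι] {J : ℕ} {y y' : ℕ → ℝ} {v v' : ℕ → ι → ℝ}
    (w : (ι → ℝ) → ℝ) (hy : ∀ m, m ≤ J → y m = y' m) (hv : ∀ m, m ≤ J + 1 → v m = v' m) :
    gval J y v w = gval J y' v' w := by
  unfold gval
  rw [th_congr w (J + 1) (fun m hm => hy m (by omega)) (fun m hm => hv m (by omega)),
    hv (J + 1) le_rfl]

variable {K : ℕ} {w val : Fin (K + 1) → ℝ}
variable (hv : StrictMono val) (hw : ∀ k, 0 < w k) (hs : ∑ k, w k = 1)
include hv hw hs

theorem bb_tau {x : ℝ} (hx : 0 < x) :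
    bb w val x = val (Fin.last K) + (tau w (gap val 1) x)⁻¹ := by
  have h := tR_exact hv hw hs (zero_le_one) hx
  rw [one_mul, one_mul, one_mul, RR_eq hx] at h
  rw [one_div] at h
  linarith

theorem FF_eq {x : ℝ} (hx : 0 < x) (k : Fin (K + 1)) :
    FF (gap val 1) (tau w (gap val 1) x) k = (bb w val x - val k)⁻¹ := by
  have hτ := tau_pos_of_pos hv hw hs zero_le_one hx
  have hb := bb_tau hv hw hs hx
  set τ := tau w (gap val 1) x
  unfold FF ee gap
  rw [hb]
  have h1 : val (Fin.last K) + τ⁻¹ - val k = (1 + τ * (1 * (val (Fin.last K) - val k))) / τ := by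
    field_simp
    ring
  rw [h1, inv_div]
  rfl

theorem FF_eq_DK {x : ℝ} (hx : 0 ≤ x) (k : Fin (K + 1)) :
    w k * FF (gap val 1) (tau w (gap val 1) x) k = DK w val x k := by
  rcases hx.eq_or_lt with rfl | hx
  · rw [tau_zero hw (gap_nonneg hv zero_le_one) (gap_last 1)]
    simp [FF, DK]
  · rw [FF_eq hv hw hs hx]
    unfold DK
    rw [if_pos hx]

theorem ww_eq {x : ℝ} (hx : 0 < x) (k : Fin (K + 1)) :
    ww w (gap val 1) (tau w (gap val 1) x) (tau w (gap val 1) x) k =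
      ((bb w val x - val k)⁻¹) ^ 2 / g2 w val (bb w val x) := by
  have h := ww_eq_FF hv hw hs zero_le_one (tau_pos_of_pos hv hw hs zero_le_one hx) k
  simp only [FF_eq hv hw hs hx] at h
  have hg := g2_pos hw (bb_gt hv hw hs hx)
  rw [eq_div_iff hg.ne', sq]
  rw [← h]
  unfold g2
  congr 1
  exact Finset.sum_congr rfl fun l _ => by ring

/-- bottom covariance -/
theorem ghat_bot {n : ℕ} {m p : ℕ → ℝ} (hD : 0 < Dl m n p 0) (k : Fin (K + 1)) :
    w k * Ghat w (gap val 1) n m p k 0 = p 0 * (w k *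
      ((bb w val (Dl m n p 0) - val k)⁻¹) ^ 2 / g2 w val (bb w val (Dl m n p 0))) := by
  unfold Ghat
  rw [Finset.range_zero, Finset.sum_empty, add_zero, ww_eq hv hw hs hD]
  ring

/-- increments -/
theorem ghat_step {n : ℕ} {m p : ℕ → ℝ} (h : StepD n m p) {b : ℕ} (hb : b < n)
    (k : Fin (K + 1)) :
    w k * (Ghat w (gap val 1) n m p k (b + 1) - Ghat w (gap val 1) n m p k b) =
      (DK w val (Dl m n p b) k - DK w val (Dl m n p (b + 1)) k) / m (b + 1) := by
  have e : Ghat w (gap val 1) n m p k (b + 1) - Ghat w (gap val 1) n m p k b =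
      (p (b + 1) - p b) * ww w (gap val 1) (tau w (gap val 1) (Dl m n p (b + 1)))
        (tau w (gap val 1) (Dl m n p b)) k := by
    unfold Ghat
    rw [Finset.sum_range_succ]
    ring
  rw [e, ghat_inc' hw (gap_nonneg hv zero_le_one) (gap_last 1) h hb,
    ← FF_eq_DK hv hw hs (h.Dp_nonneg b), ← FF_eq_DK hv hw hs (h.Dp_nonneg (b + 1))]
  ring

/-- **Exact value, for the covariances `w_k Ghat^k`.** -/
theorem gval_Ghat {M : ℕ} {m p : ℕ → ℝ} (h : StepD (M + 1) m p) (hp0 : p 0 < 1) (b : ℝ)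
    (l : Fin (K + 1)) {y vy : ℕ → ℝ} {v : ℕ → Option (Fin (K + 1)) → ℝ}
    (hy : ∀ n, n ≤ M → y n = m (M + 1 - n))
    (hvy : ∀ n, n ≤ M + 1 → 0 ≤ vy n)
    (hvn : ∀ n, n ≤ M + 1 → v n none = vy n)
    (hvk : ∀ n, n ≤ M → ∀ k, v n (some k) =
      w k * Ghat w (gap val 1) (M + 1) m p k (M + 1 - n) -
        w k * Ghat w (gap val 1) (M + 1) m p k (M - n))
    (hvb : ∀ k, v (M + 1) (some k) = w k * Ghat w (gap val 1) (M + 1) m p k 0) :
    gval M y v (WF w val b l) = CC w val (wdOf M m) (pOf M p) l + vy 0 / 2 +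
      chainV b (wdOf M m) (fun i => hh w val (wdOf M m) (pOf M p) i + Hl M vy i) := by
  have hyy : ∀ n, n ≤ M → yy (wdOf M m) n = m (M + 1 - n) := by
    intro n hn
    unfold yy
    split_ifs with h0
    · rw [h0, Nat.sub_zero, h.mn]
    · rw [leftEnd_of h]
      have : ((lv M n : Fin (M + 1)) : ℕ) = M + 1 - n := by simp only [lv]; omega
      rw [this]
  have hSS : ∀ n, n ≤ M + 1 → SS (wdOf M m) (pOf M p) n = Dl m (M + 1) p (M + 1 - n) := by
    intro n hn
    unfold SS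
    split_ifs with h0
    · rw [h0, Nat.sub_zero, Dl_top]
    · rw [Dd_of h]
      have : ((lv M n : Fin (M + 1)) : ℕ) = M + 1 - n := by simp only [lv]; omega
      rw [this]
  have hD : 0 < Dd (wdOf M m) (pOf M p) 0 :=
    Dd_pos (wdOf_pos h) (wdOf_sum h) (pOf_mono h) (pOf_le_one h) (by simpa [pOf] using hp0)
  have hD0 : Dd (wdOf M m) (pOf M p) 0 = Dl m (M + 1) p 0 := by rw [Dd_of h]; rfl
  rw [gval_congr (y' := yy (wdOf M m)) (v' := v) (WF w val b l)
    (fun n hn => by rw [hy n hn, hyy n hn]) (fun _ _ => rfl)]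
  refine gval_value hv hw hs (wdOf_pos h) (wdOf_sum h) (pOf_mono h) (pOf_nonneg h) (pOf_le_one h)
    b l hD hvy (fun n hn k => ?_) hvn (fun k => ?_)
  · rw [hvk n hn, hSS n (by omega), hSS (n + 1) (by omega), hyy n hn]
    have e1 : M + 1 - n = (M - n) + 1 := by omega
    have e2 : M + 1 - (n + 1) = M - n := by omega
    rw [e2, e1, ← ghat_step hv hw hs h (by omega : M - n < M + 1)]
    ring
  · rw [hvb k, hD0, ghat_bot hv hw hs (by rw [← hD0]; exact hD)]
    rfl

end

end Crest.Agent.R164.EG
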