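import Crest.Agent.R164.ClipG10
import Crest.Agent.R164.ExactG6

/-!
# Row 164: uniform truncation of the nested Gaussian functional, for the covariances of
`SDAlg.Ghat` (helper318)
-/

set_option autoImplicit false

namespace Crest.Agent.R164.ClipG

open MeasureTheory ProbabilityTheory ENNReal Crest.ProbabilityR.InvariantGlass
open Crest.Agent.R164.PAlg Crest.Agent.R164.Atomic
open Crest.Agent.R164.SDAlg (gap tau FF ee ww Ghat Dl Dl_top Dl_anti StepD wdOf pOf
  gap_nonneg gap_last Dd_of wdOf_pos wdOf_sum pOf_mono pOf_nonneg pOf_le_one sum_ww tau_nonneg)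
open Crest.Agent.R164.CavG (gm lin gstep th gval th_zero th_succ)
open Crest.Agent.R164.EG

noncomputable section

variable {K : ℕ} {w val : Fin (K + 1) → ℝ}

section data

variable (hv : StrictMono val) (hw : ∀ k, 0 < w k) (hs : ∑ k, w k = 1)
include hv hw

theorem sum_Ghat {n : ℕ} {m p : ℕ → ℝ} (a : ℕ) :
    ∑ k, w k * Ghat w (gap val 1) n m p k a = p a := by
  have hne : Nonempty (Fin (K + 1)) := ⟨0⟩
  have hd := gap_nonneg hv zero_le_one
  unfold Ghat
  have e : ∀ k, w k * (p 0 * ww w (gap val 1) (tau w (gap val 1) (Dl m n p 0))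
        (tau w (gap val 1) (Dl m n p 0)) k +
      ∑ b ∈ Finset.range a, (p (b + 1) - p b) *
        ww w (gap val 1) (tau w (gap val 1) (Dl m n p (b + 1)))
          (tau w (gap val 1) (Dl m n p b)) k) =
      p 0 * (w k * ww w (gap val 1) (tau w (gap val 1) (Dl m n p 0))
        (tau w (gap val 1) (Dl m n p 0)) k) +
      ∑ b ∈ Finset.range a, (p (b + 1) - p b) *
        (w k * ww w (gap val 1) (tau w (gap val 1) (Dl m n p (b + 1)))
          (tau w (gap val 1) (Dl m n p b)) k) := by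
    intro k
    rw [mul_add, Finset.mul_sum]
    congr 1
    · ring
    · exact Finset.sum_congr rfl fun b _ => by ring
  rw [Finset.sum_congr rfl fun k _ => e k, Finset.sum_add_distrib, ← Finset.mul_sum,
    sum_ww hw hne hd (tau_nonneg _ _ _) (tau_nonneg _ _ _), Finset.sum_comm]
  have e2 : ∀ b ∈ Finset.range a, ∑ k, (p (b + 1) - p b) *
      (w k * ww w (gap val 1) (tau w (gap val 1) (Dl m n p (b + 1)))
        (tau w (gap val 1) (Dl m n p b)) k) = p (b + 1) - p b := by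
    intro b _
    rw [← Finset.mul_sum, sum_ww hw hne hd (tau_nonneg _ _ _) (tau_nonneg _ _ _), mul_one]
  rw [Finset.sum_congr rfl e2, Finset.sum_range_sub]
  ring

include hs

/-- the data of `gval_Ghat` satisfy the standing hypotheses. -/
theorem Dat.of_Ghat {M : ℕ} {m p : ℕ → ℝ} (h : StepD (M + 1) m p) (hp0 : p 0 < 1)
    {y vy : ℕ → ℝ} {v : ℕ → Option (Fin (K + 1)) → ℝ}
    (hy : ∀ n, n ≤ M → y n = m (M + 1 - n))
    (hvy : ∀ n, n ≤ M + 1 → 0 ≤ vy n)
    (hvn : ∀ n, n ≤ M + 1 → v n none = vy n)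
    (hvk : ∀ n, n ≤ M → ∀ k, v n (some k) =
      w k * Ghat w (gap val 1) (M + 1) m p k (M + 1 - n) -
        w k * Ghat w (gap val 1) (M + 1) m p k (M - n))
    (hvb : ∀ k, v (M + 1) (some k) = w k * Ghat w (gap val 1) (M + 1) m p k 0) :
    Dat w val M y (fun n => Dl m (M + 1) p (M + 1 - n)) vy (p 0) v := by
  have hD : 0 < Dd (wdOf M m) (pOf M p) 0 :=
    Dd_pos (wdOf_pos h) (wdOf_sum h) (pOf_mono h) (pOf_le_one h) (by simpa [pOf] using hp0)
  have hD0 : Dd (wdOf M m) (pOf M p) 0 = Dl m (M + 1) p 0 := by rw [Dd_of h]; rfl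
  have e0 : M + 1 - (M + 1) = 0 := by omega
  refine
    { hv := hv
      hw := hw
      hs := hs
      hS0 := by simp only [Nat.sub_zero]; exact Dl_top
      hSm := ?_
      hy := ?_
      hy1 := ?_
      hya := ?_
      hvy := hvy
      hvk := ?_
      hvn := hvn
      hSp := ?_
      hp0 := h.p0
      hvb := ?_ }
  · intro n hn
    have e1 : M + 1 - n = (M - n) + 1 := by omega
    have e2 : M + 1 - (n + 1) = M - n := by omega
    simp only [e2, e1]
    exact Dl_anti (fun _ hb => h.m_nonneg hb) h.pmono (by omega)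
  · intro n hn
    rw [hy n hn]
    exact h.m_pos (by omega) (by omega)
  · intro n hn
    rw [hy n hn]
    exact h.m_le_one (by omega)
  · intro n hn
    rw [hy n (by omega), hy (n + 1) hn]
    have e1 : M + 1 - n = (M + 1 - (n + 1)) + 1 := by omega
    rw [e1]
    exact h.mmono (by omega)
  · intro n hn k
    rw [hvk n hn, hy n hn]
    have e1 : M + 1 - n = (M - n) + 1 := by omega
    have e2 : M + 1 - (n + 1) = M - n := by omega
    rw [e2, e1, ← ghat_step hv hw hs h (by omega : M - n < M + 1)]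
    ring
  · simp only [e0]
    rw [← hD0]; exact hD
  · intro k
    simp only [e0]
    rw [hvb k, ghat_bot hv hw hs (by rw [← hD0]; exact hD)]

omit hs in
theorem sum_bv_Ghat {M : ℕ} {m p : ℕ → ℝ} (h : StepD (M + 1) m p)
    {v : ℕ → Option (Fin (K + 1)) → ℝ}
    (hvk : ∀ n, n ≤ M → ∀ k, v n (some k) =
      w k * Ghat w (gap val 1) (M + 1) m p k (M + 1 - n) -
        w k * Ghat w (gap val 1) (M + 1) m p k (M - n))
    (hvb : ∀ k, v (M + 1) (some k) = w k * Ghat w (gap val 1) (M + 1) m p k 0) :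
    ∑ n ∈ Finset.range (M + 2), bv v n = 1 := by
  rw [Finset.sum_range_succ]
  have e1 : bv v (M + 1) = p 0 := by
    unfold bv
    rw [Finset.sum_congr rfl fun k _ => hvb k, sum_Ghat hv hw]
  have e2 : ∀ n ∈ Finset.range (M + 1), bv v n = p (M + 1 - n) - p (M + 1 - (n + 1)) := by
    intro n hn
    have hn' := Finset.mem_range.1 hn
    have e3 : M + 1 - (n + 1) = M - n := by omega
    unfold bv
    rw [Finset.sum_congr rfl fun k _ => hvk n (by omega) k, Finset.sum_sub_distrib,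
      sum_Ghat hv hw, sum_Ghat hv hw, e3]
  rw [Finset.sum_congr rfl e2, Finset.sum_range_sub' (fun n => p (M + 1 - n)), e1]
  simp only [Nat.sub_zero, Nat.sub_self, h.pn]
  ring

/-- **Uniform truncation and exact value, covariances `w_k Ghat^k`.** -/
theorem trunc_Ghat {L wm B V Kc C : ℝ} (hL : ∀ k, |val k| ≤ L) (hwm : 0 < wm)
    (hwm' : ∀ k, wm ≤ w k) (hK : 0 < Kc) (hC : Kc ≤ C) {ψ : ℝ → ℝ} (T : Trunc Kc C ψ)
    {M : ℕ} {m p : ℕ → ℝ} (h : StepD (M + 1) m p) (hp0 : p 0 < 1)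
    {y vy : ℕ → ℝ} {v : ℕ → Option (Fin (K + 1)) → ℝ}
    (hy : ∀ n, n ≤ M → y n = m (M + 1 - n))
    (hvy : ∀ n, n ≤ M + 1 → 0 ≤ vy n)
    (hvn : ∀ n, n ≤ M + 1 → v n none = vy n)
    (hvk : ∀ n, n ≤ M → ∀ k, v n (some k) =
      w k * Ghat w (gap val 1) (M + 1) m p k (M + 1 - n) -
        w k * Ghat w (gap val 1) (M + 1) m p k (M - n))
    (hvb : ∀ k, v (M + 1) (some k) = w k * Ghat w (gap val 1) (M + 1) m p k 0)
    (hV : ∑ n ∈ Finset.range (M + 2), vy n ≤ V) {b : ℝ} (hb : |b| ≤ B) (l : Fin (K + 1)) :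
    |gval M y v (fun z => ψ (WF w val b l z)) -
      (CC w val (wdOf M m) (pOf M p) l + vy 0 / 2 +
        chainV b (wdOf M m) (fun i => hh w val (wdOf M m) (pOf M p) i + Hl M vy i))| ≤
      Ktr L wm B V / Kc := by
  rw [← gval_Ghat hv hw hs h hp0 b l hy hvy hvn hvk hvb]
  exact ((Dat.of_Ghat hv hw hs h hp0 hy hvy hvn hvk hvb).main hL hwm hwm' hb hK hC l
    (sum_bv_Ghat hv hw h hvk hvb).le hV ψ T.meas T.lo T.up T.bd).2

/-- **Uniform truncation, `ε`-form.** -/
theorem uniform_trunc (B V : ℝ) {ε : ℝ} (hε : 0 < ε) : ∃ K0 : ℝ, 0 < K0 ∧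
    ∀ (Kc C : ℝ), K0 ≤ Kc → Kc ≤ C → ∀ ψ : ℝ → ℝ, Trunc Kc C ψ →
    ∀ (M : ℕ) (m p : ℕ → ℝ), StepD (M + 1) m p → p 0 < 1 →
    ∀ (y vy : ℕ → ℝ) (v : ℕ → Option (Fin (K + 1)) → ℝ),
    (∀ n, n ≤ M → y n = m (M + 1 - n)) →
    (∀ n, n ≤ M + 1 → 0 ≤ vy n) →
    (∀ n, n ≤ M + 1 → v n none = vy n) →
    (∀ n, n ≤ M → ∀ k, v n (some k) =
      w k * Ghat w (gap val 1) (M + 1) m p k (M + 1 - n) -
        w k * Ghat w (gap val 1) (M + 1) m p k (M - n)) →
    (∀ k, v (M + 1) (some k) = w k * Ghat w (gap val 1) (M + 1) m p k 0) →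
    ∑ n ∈ Finset.range (M + 2), vy n ≤ V → ∀ b : ℝ, |b| ≤ B → ∀ l : Fin (K + 1),
    |gval M y v (fun z => ψ (WF w val b l z)) -
      (CC w val (wdOf M m) (pOf M p) l + vy 0 / 2 +
        chainV b (wdOf M m) (fun i => hh w val (wdOf M m) (pOf M p) i + Hl M vy i))| ≤ ε := by
  obtain ⟨k0, -, hk0⟩ := Finset.exists_min_image (Finset.univ : Finset (Fin (K + 1))) w
    ⟨0, Finset.mem_univ 0⟩
  set L : ℝ := ∑ k, |val k| with hLd
  have hL : ∀ k, |val k| ≤ L := fun k =>
    Finset.single_le_sum (f := fun k => |val k|) (fun k _ => abs_nonneg _) (Finset.mem_univ k)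
  have hK := Ktr_nonneg L (w k0) B V
  refine ⟨Ktr L (w k0) B V / ε + 1, by positivity, ?_⟩
  intro Kc C hKc hC ψ T M m p h hp0 y vy v hy hvy hvn hvk hvb hV b hb l
  have hKc0 : 0 < Kc := lt_of_lt_of_le (by positivity) hKc
  refine (trunc_Ghat hv hw hs hL (hw k0) (fun k => hk0 k (Finset.mem_univ k)) hKc0 hC T h hp0
    hy hvy hvn hvk hvb hV hb l).trans ?_
  rw [div_le_iff₀ hKc0]
  have h1 : Ktr L (w k0) B V / ε ≤ Kc := by linarith
  rw [div_le_iff₀ hε] at h1
  linarith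

end data

end

end Crest.Agent.R164.ClipG
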