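import Mathlib

/-!
# Row 164: nested Gaussian recursion with a quadratic exponent (helper318)

`gExp`/`multi`: a quadratic exponential tilt of a product of Gaussians is a product of Gaussians.
-/

set_option autoImplicit false

namespace Crest.Agent.R164.GTilt

open MeasureTheory ProbabilityTheory ENNReal

noncomputable section

/-- standard Gaussian -/
abbrev γ : Measure ℝ := gaussianReal 0 1

/-- adding two independent centred Gaussians (lower integrals). -/
theorem lintegral_add_gauss (g : ℝ → ℝ≥0∞) (hg : Measurable g) (r α β : ℝ) :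
    ∫⁻ x, ∫⁻ y, g (r + α * x + β * y) ∂γ ∂γ = ∫⁻ x, g (r + Real.sqrt (α ^ 2 + β ^ 2) * x) ∂γ := by
  have h1 : (γ.map (α * ·)) ∗ (γ.map (β * ·)) = γ.map (Real.sqrt (α ^ 2 + β ^ 2) * ·) := by
    rw [gaussianReal_map_const_mul, gaussianReal_map_const_mul, gaussianReal_map_const_mul,
      gaussianReal_conv_gaussianReal]
    simp only [mul_zero, add_zero, mul_one]
    congr 1
    ext
    simp only [NNReal.coe_add, NNReal.coe_mk]
    rw [Real.sq_sqrt (by positivity)]
  have hg' : Measurable (fun x => g (r + x)) := hg.comp (by fun_prop)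
  have h2 : ∫⁻ z, g (r + z) ∂((γ.map (α * ·)) ∗ (γ.map (β * ·))) =
      ∫⁻ x, ∫⁻ y, g (r + α * x + β * y) ∂γ ∂γ := by
    rw [Measure.lintegral_conv hg']
    rw [lintegral_map _ (by fun_prop)]
    · refine lintegral_congr fun x => ?_
      rw [lintegral_map _ (by fun_prop)]
      · refine lintegral_congr fun y => ?_
        rw [add_assoc]
      · exact hg'.comp (by fun_prop)
    · exact Measurable.lintegral_prod_right' (f := fun p : ℝ × ℝ => g (r + (p.1 + p.2)))
        (hg'.comp (by fun_prop))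
  rw [← h2, h1, lintegral_map hg' (by fun_prop)]

theorem lintegral_gaussianReal (m : ℝ) {w : NNReal} (hw : w ≠ 0) {f : ℝ → ℝ≥0∞}
    (hf : Measurable f) :
    ∫⁻ z, f z ∂(gaussianReal m w) = ∫⁻ z, gaussianPDF m w z * f z := by
  rw [gaussianReal_of_var_ne_zero _ hw,
    lintegral_withDensity_eq_lintegral_mul _ (measurable_gaussianPDF _ _) hf]
  rfl

theorem pdf_aux (a α v y z s z0 : ℝ) (w : NNReal) (hv : 0 ≤ v) (hs : 0 < s)
    (hsdef : s = 1 - a * v * α) (hz0 : z0 = a * α * Real.sqrt v * y / s) (hw : (w : ℝ) = s⁻¹) :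
    gaussianPDFReal 0 1 z * Real.exp (a * (1 / 2 * (α * (y + Real.sqrt v * z) ^ 2))) =
      (Real.sqrt s)⁻¹ * Real.exp (a * (1 / 2 * (α / s * y ^ 2))) * gaussianPDFReal z0 w z := by
  have hs0 : s ≠ 0 := hs.ne'
  have hsq : Real.sqrt v ^ 2 = v := Real.sq_sqrt hv
  unfold gaussianPDFReal
  simp only [NNReal.coe_one, mul_one, hw, sub_zero]
  have h3 : Real.sqrt (2 * Real.pi * s⁻¹) = Real.sqrt (2 * Real.pi) * (Real.sqrt s)⁻¹ := by
    rw [Real.sqrt_mul (by positivity), Real.sqrt_inv]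
  rw [h3, mul_inv, inv_inv]
  have h4 : Real.sqrt s ≠ 0 := (Real.sqrt_pos.mpr hs).ne'
  have h5 : (Real.sqrt s)⁻¹ * Real.exp (a * (1 / 2 * (α / s * y ^ 2))) *
      ((Real.sqrt (2 * Real.pi))⁻¹ * Real.sqrt s * Real.exp (-(z - z0) ^ 2 / (2 * s⁻¹))) =
      ((Real.sqrt s)⁻¹ * Real.sqrt s) * (Real.sqrt (2 * Real.pi))⁻¹ *
      (Real.exp (a * (1 / 2 * (α / s * y ^ 2))) * Real.exp (-(z - z0) ^ 2 / (2 * s⁻¹))) := by ring
  rw [h5, inv_mul_cancel₀ h4, one_mul, ← Real.exp_add, mul_assoc, ← Real.exp_add]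
  congr 2
  rw [hz0]
  have h7 : s = 1 - a * Real.sqrt v ^ 2 * α := by rw [hsq]; exact hsdef
  generalize Real.sqrt v = q at h7 ⊢
  field_simp
  rw [h7]
  ring

/-- one-dimensional quadratic tilt. -/
theorem one_dim (a α v y : ℝ) (hv : 0 ≤ v) (hs : 0 < 1 - a * v * α) (G : ℝ → ℝ≥0∞)
    (hG : Measurable G) :
    ∫⁻ z, ENNReal.ofReal (Real.exp (a * (1 / 2 * (α * (y + Real.sqrt v * z) ^ 2)))) *
      G (y + Real.sqrt v * z) ∂γ =
    ENNReal.ofReal ((Real.sqrt (1 - a * v * α))⁻¹ *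
      Real.exp (a * (1 / 2 * (α / (1 - a * v * α) * y ^ 2)))) *
    ∫⁻ x, G (y / (1 - a * v * α) + Real.sqrt (v / (1 - a * v * α)) * x) ∂γ := by
  set s := 1 - a * v * α with hsdef
  set z0 : ℝ := a * α * Real.sqrt v * y / s with hz0
  have hs0 : s ≠ 0 := hs.ne'
  have hsq : Real.sqrt v ^ 2 = v := Real.sq_sqrt hv
  have hsm : (Real.sqrt s⁻¹) ^ 2 = s⁻¹ := Real.sq_sqrt (by positivity)
  have hsi : 0 ≤ s⁻¹ := by positivity
  obtain ⟨w, hw⟩ : ∃ w : NNReal, (w : ℝ) = s⁻¹ := ⟨Real.toNNReal s⁻¹, Real.coe_toNNReal _ hsi⟩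
  -- the shifted Gaussian
  have hmap : γ.map (fun x => Real.sqrt s⁻¹ * x + z0) = gaussianReal z0 w := by
    have e : (fun x : ℝ => Real.sqrt s⁻¹ * x + z0) = (· + z0) ∘ (Real.sqrt s⁻¹ * ·) := rfl
    rw [e, ← Measure.map_map (by fun_prop) (by fun_prop), gaussianReal_map_const_mul,
      gaussianReal_map_add_const]
    simp only [mul_zero, zero_add, mul_one]
    congr 1
    ext
    rw [hw]
    exact hsm
  have hwne : w ≠ 0 := by
    intro h
    rw [h] at hw
    simp only [NNReal.coe_zero] at hw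
    exact (inv_ne_zero hs0) hw.symm
  have hGm : Measurable (fun z : ℝ => G (y + Real.sqrt v * z)) := hG.comp (by fun_prop)
  have hR : ∫⁻ x, G (y / s + Real.sqrt (v / s) * x) ∂γ =
      ∫⁻ z, G (y + Real.sqrt v * z) ∂(gaussianReal z0 w) := by
    rw [← hmap, lintegral_map hGm (by fun_prop)]
    refine lintegral_congr fun x => ?_
    congr 1
    have h1 : Real.sqrt (v / s) = Real.sqrt v * Real.sqrt s⁻¹ := by
      rw [div_eq_mul_inv, Real.sqrt_mul hv]
    rw [h1, hz0]
    have h2 : y + Real.sqrt v * (Real.sqrt s⁻¹ * x + a * α * Real.sqrt v * y / s) =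
        (y + a * α * (Real.sqrt v ^ 2) * y / s) + Real.sqrt v * Real.sqrt s⁻¹ * x := by ring
    rw [h2, hsq]
    congr 1
    field_simp
    rw [hsdef]
    ring
  have hEm : Measurable (fun z : ℝ => ENNReal.ofReal (Real.exp (a * (1 / 2 *
        (α * (y + Real.sqrt v * z) ^ 2))))) := by fun_prop
  have hL := lintegral_gaussianReal 0 one_ne_zero (hEm.mul hGm)
  simp only [Pi.mul_apply] at hL
  have hC := lintegral_const_mul (ENNReal.ofReal ((Real.sqrt s)⁻¹ *
    Real.exp (a * (1 / 2 * (α / s * y ^ 2))))) ((measurable_gaussianPDF z0 w).mul hGm)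
    (μ := volume)
  simp only [Pi.mul_apply] at hC
  rw [hR, hL, lintegral_gaussianReal z0 hwne hGm, ← hC]
  refine lintegral_congr fun z => ?_
  have hgoal : gaussianPDF 0 1 z * ENNReal.ofReal (Real.exp (a * (1 / 2 *
      (α * (y + Real.sqrt v * z) ^ 2)))) =
      ENNReal.ofReal ((Real.sqrt s)⁻¹ * Real.exp (a * (1 / 2 * (α / s * y ^ 2)))) *
        gaussianPDF z0 w z := by
    unfold gaussianPDF
    rw [← ENNReal.ofReal_mul (gaussianPDFReal_nonneg _ _ _), ← ENNReal.ofReal_mul (by positivity)]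
    congr 1
    exact pdf_aux a α v y z s z0 w hv hs hsdef hz0 hw
  rw [← mul_assoc, hgoal, mul_assoc]

theorem ofReal_exp_mul (A B : ℝ) (X : ℝ≥0∞) :
    ENNReal.ofReal (Real.exp A) * (ENNReal.ofReal (Real.exp B) * X) =
      ENNReal.ofReal (Real.exp (A + B)) * X := by
  rw [← mul_assoc, ← ENNReal.ofReal_mul (Real.exp_pos _).le, ← Real.exp_add]

theorem lintegral_pi_succ (d : ℕ) (F : (Fin (d + 1) → ℝ) → ℝ≥0∞) (hF : Measurable F) :
    ∫⁻ z, F z ∂(Measure.pi fun _ : Fin (d + 1) => γ) =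
      ∫⁻ x, ∫⁻ z', F (Fin.cons x z') ∂(Measure.pi fun _ : Fin d => γ) ∂γ := by
  have hmp := (measurePreserving_piFinSuccAbove
    (fun _ : Fin (d + 1) => (γ : Measure ℝ)) 0).symm
  have h1 := hmp.lintegral_comp hF
  rw [← h1]
  have h2 : Measurable (fun p : ℝ × (Fin d → ℝ) =>
      F ((MeasurableEquiv.piFinSuccAbove (fun _ : Fin (d + 1) => ℝ) 0).symm p)) :=
    hF.comp (MeasurableEquiv.measurable _)
  rw [lintegral_prod _ h2.aemeasurable]
  refine lintegral_congr fun x => lintegral_congr fun z' => ?_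
  congr 1
  funext i
  refine Fin.cases ?_ (fun i => ?_) i
  · rfl
  · simp [MeasurableEquiv.piFinSuccAbove]

/-- quadratic tilt of a product of Gaussians, observed through one linear functional. -/
theorem multi (a v : ℝ) (hv : 0 ≤ v) : ∀ (d : ℕ) (α c y : Fin d → ℝ)
    (_ : ∀ i, 0 < 1 - a * v * α i) (g : ℝ → ℝ≥0∞) (_ : Measurable g) (r : ℝ),
    ∫⁻ z : Fin d → ℝ, ENNReal.ofReal (Real.exp (a * (1 / 2 *
        ∑ i, α i * (y i + Real.sqrt v * z i) ^ 2))) *
      g (r + ∑ i, c i * (y i + Real.sqrt v * z i)) ∂(Measure.pi fun _ => γ) =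
    ENNReal.ofReal ((∏ i, (Real.sqrt (1 - a * v * α i))⁻¹) *
      Real.exp (a * (1 / 2 * ∑ i, α i / (1 - a * v * α i) * y i ^ 2))) *
    ∫⁻ x, g (r + ∑ i, c i * (y i / (1 - a * v * α i)) +
      Real.sqrt (∑ i, c i ^ 2 * (v / (1 - a * v * α i))) * x) ∂γ := by
  intro d
  induction d with
  | zero =>
    intro α c y _ g hg r
    rw [Measure.pi_of_empty, lintegral_dirac' _ (by
      simp only [Finset.univ_eq_empty, Finset.sum_empty]
      exact measurable_const)]
    simp
  | succ d ih =>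
    intro α c y hs g hg r
    have hF : Measurable (fun z : Fin (d + 1) → ℝ => ENNReal.ofReal (Real.exp (a * (1 / 2 *
        ∑ i, α i * (y i + Real.sqrt v * z i) ^ 2))) *
      g (r + ∑ i, c i * (y i + Real.sqrt v * z i))) := by
      refine Measurable.mul (by fun_prop) (hg.comp ?_)
      fun_prop
    rw [lintegral_pi_succ d _ hF]
    set C : ℝ≥0∞ := ENNReal.ofReal ((∏ i : Fin d, (Real.sqrt (1 - a * v * α i.succ))⁻¹) *
        Real.exp (a * (1 / 2 * ∑ i : Fin d, α i.succ / (1 - a * v * α i.succ) * y i.succ ^ 2)))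
      with hC
    set S : ℝ := ∑ i : Fin d, c i.succ * (y i.succ / (1 - a * v * α i.succ)) with hS
    set V : ℝ := ∑ i : Fin d, c i.succ ^ 2 * (v / (1 - a * v * α i.succ)) with hV
    have hV0 : 0 ≤ V := Finset.sum_nonneg fun i _ =>
      mul_nonneg (sq_nonneg _) (div_nonneg hv (hs i.succ).le)
    have hin : ∀ x : ℝ, ∫⁻ z' : Fin d → ℝ,
        ENNReal.ofReal (Real.exp (a * (1 / 2 * ∑ i, α i *
          (y i + Real.sqrt v * (Fin.cons x z' : Fin (d + 1) → ℝ) i) ^ 2))) *
        g (r + ∑ i, c i * (y i + Real.sqrt v * (Fin.cons x z' : Fin (d + 1) → ℝ) i))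
        ∂(Measure.pi fun _ => γ) =
      C * (ENNReal.ofReal (Real.exp (a * (1 / 2 * (α 0 * (y 0 + Real.sqrt v * x) ^ 2)))) *
      ∫⁻ x', g (r + c 0 * (y 0 + Real.sqrt v * x) + S + Real.sqrt V * x') ∂γ) := by
      intro x
      have h1 : ∀ z' : Fin d → ℝ,
        ENNReal.ofReal (Real.exp (a * (1 / 2 * ∑ i, α i *
          (y i + Real.sqrt v * (Fin.cons x z' : Fin (d + 1) → ℝ) i) ^ 2))) *
        g (r + ∑ i, c i * (y i + Real.sqrt v * (Fin.cons x z' : Fin (d + 1) → ℝ) i)) =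
        ENNReal.ofReal (Real.exp (a * (1 / 2 * (α 0 * (y 0 + Real.sqrt v * x) ^ 2)))) *
        (ENNReal.ofReal (Real.exp (a * (1 / 2 * ∑ i : Fin d, α i.succ *
          (y i.succ + Real.sqrt v * z' i) ^ 2))) *
        g ((r + c 0 * (y 0 + Real.sqrt v * x)) +
          ∑ i : Fin d, c i.succ * (y i.succ + Real.sqrt v * z' i))) := by
        intro z'
        simp only [Fin.sum_univ_succ, Fin.cons_zero, Fin.cons_succ]
        rw [ofReal_exp_mul]
        congr 2
        · congr 1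
          ring
        · ring
      simp only [h1]
      rw [lintegral_const_mul _ (by
        refine Measurable.mul (by fun_prop) (hg.comp ?_)
        fun_prop)]
      rw [ih (fun i => α i.succ) (fun i => c i.succ) (fun i => y i.succ) (fun i => hs i.succ) g hg]
      rw [mul_left_comm]
    simp only [hin]
    have hG : Measurable (fun u : ℝ => ∫⁻ x', g (r + c 0 * u + S + Real.sqrt V * x') ∂γ) :=
      Measurable.lintegral_prod_right'
        (f := fun p : ℝ × ℝ => g (r + c 0 * p.1 + S + Real.sqrt V * p.2)) (hg.comp (by fun_prop))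
    have hEm : Measurable (fun x : ℝ => ENNReal.ofReal (Real.exp (a * (1 / 2 *
        (α 0 * (y 0 + Real.sqrt v * x) ^ 2))))) := by fun_prop
    have hGc : Measurable (fun x : ℝ => ∫⁻ x', g (r + c 0 * (y 0 + Real.sqrt v * x) + S +
        Real.sqrt V * x') ∂γ) := hG.comp (g := fun u : ℝ => ∫⁻ x', g (r + c 0 * u + S +
        Real.sqrt V * x') ∂γ) (f := fun x => y 0 + Real.sqrt v * x) (by fun_prop)
    have hcm := lintegral_const_mul C (hEm.mul hGc) (μ := γ)
    simp only [Pi.mul_apply] at hcm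
    rw [hcm]
    have h2 := one_dim a (α 0) v (y 0) hv (hs 0)
      (fun u : ℝ => ∫⁻ x', g (r + c 0 * u + S + Real.sqrt V * x') ∂γ) hG
    rw [h2]
    have h3 : ∫⁻ x, ∫⁻ x', g (r + c 0 * (y 0 / (1 - a * v * α 0) +
        Real.sqrt (v / (1 - a * v * α 0)) * x) + S + Real.sqrt V * x') ∂γ ∂γ =
        ∫⁻ x, g ((r + c 0 * (y 0 / (1 - a * v * α 0)) + S) +
          Real.sqrt ((c 0 * Real.sqrt (v / (1 - a * v * α 0))) ^ 2 + (Real.sqrt V) ^ 2) * x) ∂γ := by
      rw [← lintegral_add_gauss g hg]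
      refine lintegral_congr fun x => lintegral_congr fun x' => ?_
      congr 1
      ring
    rw [h3, mul_pow, Real.sq_sqrt (div_nonneg hv (hs 0).le), Real.sq_sqrt hV0, ← mul_assoc]
    congr 1
    · rw [hC, ← ENNReal.ofReal_mul (by
        refine mul_nonneg (Finset.prod_nonneg fun i _ => by positivity) (Real.exp_pos _).le)]
      congr 1
      rw [Fin.prod_univ_succ, Fin.sum_univ_succ]
      have h5 : Real.exp (a * (1 / 2 * (α 0 / (1 - a * v * α 0) * y 0 ^ 2 +
          ∑ i : Fin d, α i.succ / (1 - a * v * α i.succ) * y i.succ ^ 2))) =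
          Real.exp (a * (1 / 2 * (α 0 / (1 - a * v * α 0) * y 0 ^ 2))) *
          Real.exp (a * (1 / 2 * ∑ i : Fin d, α i.succ / (1 - a * v * α i.succ) *
            y i.succ ^ 2)) := by
        rw [← Real.exp_add]; congr 1; ring
      rw [h5]
      ring
    · refine lintegral_congr fun x => ?_
      congr 1
      rw [Fin.sum_univ_succ, Fin.sum_univ_succ, ← hS, ← hV]
      ring_nf

end

end Crest.Agent.R164.GTilt
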