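import Crest.Prelude.Def_InvariantGlass
import Crest.Agent.R164.GaussTilt

/-!
# Row 164: nested Gaussian recursion with a quadratic exponent, real version (helper318)

`gOp a v F` is the `d`-dimensional analogue of `gaussOp`.  For `F y = 1/2 Σ α_i y_i² + f(Σ c_i y_i)`
the recursion is evaluated exactly (`nest_quad`).
-/

set_option autoImplicit false

namespace Crest.Agent.R164.GTilt

open MeasureTheory ProbabilityTheory Crest.ProbabilityR.InvariantGlass

noncomputable section

/-- the product Gaussian -/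
abbrev γd (d : ℕ) : Measure (Fin d → ℝ) := Measure.pi fun _ : Fin d => (γ : Measure ℝ)

/-- `d`-dimensional Gaussian operator. -/
def gOp {d : ℕ} (a v : ℝ) (F : (Fin d → ℝ) → ℝ) (y : Fin d → ℝ) : ℝ :=
  if a = 0 then ∫ z, F (fun i => y i + Real.sqrt v * z i) ∂(γd d)
  else a⁻¹ * Real.log (∫ z, Real.exp (a * F (fun i => y i + Real.sqrt v * z i)) ∂(γd d))

/-- 1-Lipschitz functions. -/
def Lip (f : ℝ → ℝ) : Prop := ∀ x y, |f x - f y| ≤ |x - y|

theorem Lip.continuous {f : ℝ → ℝ} (hf : Lip f) : Continuous f := by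
  have : LipschitzWith 1 f := LipschitzWith.of_dist_le_mul fun x y => by
    simpa [Real.dist_eq] using hf x y
  exact this.continuous

theorem Lip.le_add {f : ℝ → ℝ} (hf : Lip f) (x : ℝ) : |f x| ≤ |f 0| + |x| := by
  have h := hf x 0
  have h2 : |f x| ≤ |f x - f 0| + |f 0| := by
    calc |f x| = |(f x - f 0) + f 0| := by ring_nf
      _ ≤ _ := abs_add_le _ _
  rw [sub_zero] at h
  linarith

theorem integrable_exp_abs (t : ℝ) : Integrable (fun x : ℝ => Real.exp (t * |x|)) γ := by
  have h1 : Integrable (fun x : ℝ => Real.exp (t * x)) γ := integrable_exp_mul_gaussianReal t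
  have h2 : Integrable (fun x : ℝ => Real.exp (-t * x)) γ := integrable_exp_mul_gaussianReal (-t)
  refine (h1.add h2).mono' (by fun_prop) ?_
  filter_upwards with x
  rw [Real.norm_eq_abs, abs_of_pos (Real.exp_pos _)]
  simp only [Pi.add_apply]
  rcases le_total 0 x with hx | hx
  · rw [abs_of_nonneg hx]
    have := Real.exp_pos (-t * x)
    linarith
  · rw [abs_of_nonpos hx]
    have := Real.exp_pos (t * x)
    have e : t * -x = -t * x := by ring
    rw [e]
    linarith

theorem Lip.integrable_exp {f : ℝ → ℝ} (hf : Lip f) (a r s : ℝ) :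
    Integrable (fun x : ℝ => Real.exp (a * f (r + s * x))) γ := by
  have hc := hf.continuous
  refine ((integrable_exp_abs (|a| * |s|)).const_mul
    (Real.exp (|a| * (|f 0| + |r|)))).mono' (by fun_prop) ?_
  filter_upwards with x
  rw [Real.norm_eq_abs, abs_of_pos (Real.exp_pos _), ← Real.exp_add]
  apply Real.exp_le_exp.mpr
  have h1 := hf.le_add (r + s * x)
  have h2 : |r + s * x| ≤ |r| + |s| * |x| := by
    refine (abs_add_le _ _).trans ?_
    rw [abs_mul]
  calc a * f (r + s * x) ≤ |a * f (r + s * x)| := le_abs_self _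
    _ = |a| * |f (r + s * x)| := abs_mul _ _
    _ ≤ |a| * (|f 0| + (|r| + |s| * |x|)) :=
        mul_le_mul_of_nonneg_left (by linarith) (abs_nonneg _)
    _ = _ := by ring

theorem Lip.integrable {f : ℝ → ℝ} (hf : Lip f) (r s : ℝ) :
    Integrable (fun x : ℝ => f (r + s * x)) γ := by
  have hc := hf.continuous
  have h1 := hf.integrable_exp 1 r s
  have h2 := hf.integrable_exp (-1) r s
  refine (h1.add h2).mono' (by fun_prop) ?_
  filter_upwards with x
  rw [Real.norm_eq_abs]
  simp only [Pi.add_apply, one_mul, neg_mul]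
  set t := f (r + s * x)
  have e1 := Real.add_one_le_exp t
  have e2 := Real.add_one_le_exp (-t)
  have e3 := Real.exp_pos t
  have e4 := Real.exp_pos (-t)
  rcases abs_cases t with ⟨h, _⟩ | ⟨h, _⟩ <;> rw [h] <;> linarith

theorem Lip.int_exp_pos {f : ℝ → ℝ} (hf : Lip f) (a r s : ℝ) :
    0 < ∫ x, Real.exp (a * f (r + s * x)) ∂γ :=
  MeasureTheory.integral_exp_pos (hf.integrable_exp a r s)

theorem Lip.lip_gaussOp {f : ℝ → ℝ} (hf : Lip f) {a : ℝ} (ha : 0 ≤ a) (v : ℝ) :
    Lip (gaussOp a v f) := by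
  have key : ∀ x y, gaussOp a v f x ≤ gaussOp a v f y + |x - y| := by
    intro x y
    unfold Crest.ProbabilityR.InvariantGlass.gaussOp
    split_ifs with h0
    · have h1 : ∫ g, f (y + Real.sqrt v * g) + |x - y| ∂γ =
          ∫ g, f (y + Real.sqrt v * g) ∂γ + |x - y| := by
        rw [integral_add (hf.integrable _ _) (integrable_const _)]
        simp
      rw [← h1]
      refine integral_mono (hf.integrable _ _) ((hf.integrable _ _).add (integrable_const _)) ?_
      intro g
      have := hf (x + Real.sqrt v * g) (y + Real.sqrt v * g)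
      have e : x + Real.sqrt v * g - (y + Real.sqrt v * g) = x - y := by ring
      rw [e] at this
      have := (abs_le.mp this).2
      simp only
      linarith
    · have ha' : 0 < a := lt_of_le_of_ne ha (Ne.symm h0)
      have h1 : ∫ g, Real.exp (a * f (x + Real.sqrt v * g)) ∂γ ≤
          Real.exp (a * |x - y|) * ∫ g, Real.exp (a * f (y + Real.sqrt v * g)) ∂γ := by
        rw [← integral_const_mul]
        refine integral_mono (hf.integrable_exp _ _ _) ((hf.integrable_exp _ _ _).const_mul _) ?_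
        intro g
        simp only
        rw [← Real.exp_add]
        apply Real.exp_le_exp.mpr
        have := hf (x + Real.sqrt v * g) (y + Real.sqrt v * g)
        have e : x + Real.sqrt v * g - (y + Real.sqrt v * g) = x - y := by ring
        rw [e] at this
        have := (abs_le.mp this).2
        nlinarith
      have hp := hf.int_exp_pos a x (Real.sqrt v)
      have hq := hf.int_exp_pos a y (Real.sqrt v)
      have h2 := Real.log_le_log hp h1
      rw [Real.log_mul (Real.exp_pos _).ne' hq.ne', Real.log_exp] at h2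
      have h3 := mul_le_mul_of_nonneg_left h2 (inv_nonneg.mpr ha)
      rw [mul_add, ← mul_assoc, inv_mul_cancel₀ h0, one_mul] at h3
      linarith
  intro x y
  rw [abs_le]
  have h1 := key x y
  have h2 := key y x
  rw [abs_sub_comm y x] at h2
  constructor <;> linarith

theorem lip_log_cosh : Lip (fun x => Real.log (Real.cosh x)) := by
  have key : ∀ x y : ℝ, Real.log (Real.cosh x) ≤ Real.log (Real.cosh y) + |x - y| := by
    intro x y
    have h1 : Real.cosh x ≤ Real.cosh y * Real.exp |x - y| := by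
      have e : x = y + (x - y) := by ring
      rw [Real.cosh_eq, Real.cosh_eq]
      have h2 : Real.exp x ≤ Real.exp y * Real.exp |x - y| := by
        rw [← Real.exp_add]
        apply Real.exp_le_exp.mpr
        linarith [le_abs_self (x - y)]
      have h3 : Real.exp (-x) ≤ Real.exp (-y) * Real.exp |x - y| := by
        rw [← Real.exp_add]
        apply Real.exp_le_exp.mpr
        linarith [neg_abs_le (x - y)]
      linarith
    have h4 := Real.log_le_log (Real.cosh_pos x) h1
    rwa [Real.log_mul (Real.cosh_pos y).ne' (Real.exp_pos _).ne', Real.log_exp] at h4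
  intro x y
  rw [abs_le]
  have h1 := key x y
  have h2 := key y x
  rw [abs_sub_comm y x] at h2
  constructor <;> linarith

/-- the integral form of `multi`. -/
theorem multi_integral {d : ℕ} (a v : ℝ) (hv : 0 ≤ v) (α c y : Fin d → ℝ)
    (hs : ∀ i, 0 < 1 - a * v * α i) (C : ℝ) (f : ℝ → ℝ) (hf : Measurable f) :
    ∫ z : Fin d → ℝ, Real.exp (a * (1 / 2 * ∑ i, α i * (y i + Real.sqrt v * z i) ^ 2 +
      f (∑ i, c i * (y i + Real.sqrt v * z i)) + C)) ∂(γd d) =
    ((∏ i, (Real.sqrt (1 - a * v * α i))⁻¹) *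
      Real.exp (a * (1 / 2 * ∑ i, α i / (1 - a * v * α i) * y i ^ 2)) * Real.exp (a * C)) *
    ∫ x, Real.exp (a * f (∑ i, c i * (y i / (1 - a * v * α i)) +
      Real.sqrt (∑ i, c i ^ 2 * (v / (1 - a * v * α i))) * x)) ∂γ := by
  have hg : Measurable (fun t : ℝ => ENNReal.ofReal (Real.exp (a * f t + a * C))) := by fun_prop
  have h := multi a v hv d α c y hs (fun t => ENNReal.ofReal (Real.exp (a * f t + a * C))) hg 0
  rw [integral_eq_lintegral_of_nonneg_ae (Filter.Eventually.of_forall fun z => (Real.exp_pos _).le)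
    (by
      have : Measurable (fun z : Fin d → ℝ => Real.exp (a * (1 / 2 * ∑ i, α i *
        (y i + Real.sqrt v * z i) ^ 2 + f (∑ i, c i * (y i + Real.sqrt v * z i)) + C))) := by
        fun_prop
      exact this.aestronglyMeasurable)]
  have e1 : ∫⁻ z : Fin d → ℝ, ENNReal.ofReal (Real.exp (a * (1 / 2 * ∑ i, α i *
        (y i + Real.sqrt v * z i) ^ 2 + f (∑ i, c i * (y i + Real.sqrt v * z i)) + C)))
        ∂(γd d) = ∫⁻ z : Fin d → ℝ, ENNReal.ofReal (Real.exp (a * (1 / 2 *
        ∑ i, α i * (y i + Real.sqrt v * z i) ^ 2))) *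
      ENNReal.ofReal (Real.exp (a * f (0 + ∑ i, c i * (y i + Real.sqrt v * z i)) + a * C))
        ∂(Measure.pi fun _ => γ) := by
    refine lintegral_congr fun z => ?_
    rw [← ENNReal.ofReal_mul (Real.exp_pos _).le, ← Real.exp_add, zero_add]
    congr 2
    ring
  rw [e1, h]
  have hP : 0 ≤ (∏ i, (Real.sqrt (1 - a * v * α i))⁻¹) *
      Real.exp (a * (1 / 2 * ∑ i, α i / (1 - a * v * α i) * y i ^ 2)) :=
    mul_nonneg (Finset.prod_nonneg fun i _ => by positivity) (Real.exp_pos _).le
  rw [ENNReal.toReal_mul, ENNReal.toReal_ofReal hP]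
  have e2 : (∫⁻ x, ENNReal.ofReal (Real.exp (a * f (0 + ∑ i, c i * (y i / (1 - a * v * α i)) +
      Real.sqrt (∑ i, c i ^ 2 * (v / (1 - a * v * α i))) * x) + a * C)) ∂γ).toReal =
      Real.exp (a * C) * ∫ x, Real.exp (a * f (∑ i, c i * (y i / (1 - a * v * α i)) +
      Real.sqrt (∑ i, c i ^ 2 * (v / (1 - a * v * α i))) * x)) ∂γ := by
    rw [← integral_eq_lintegral_of_nonneg_ae
      (Filter.Eventually.of_forall fun z => (Real.exp_pos _).le)
      (by
        have : Measurable (fun x : ℝ => Real.exp (a * f (0 + ∑ i, c i * (y i / (1 - a * v * α i)) +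
          Real.sqrt (∑ i, c i ^ 2 * (v / (1 - a * v * α i))) * x) + a * C)) := by
          fun_prop
        exact this.aestronglyMeasurable), ← integral_const_mul]
    refine integral_congr_ae (Filter.Eventually.of_forall fun x => ?_)
    simp only
    rw [← Real.exp_add, zero_add]
    congr 1
    ring
  rw [e2]
  ring

/-- `d`-dimensional linear observable (`a = 0`). -/
theorem linear_integral {d : ℕ} (v : ℝ) (hv : 0 ≤ v) (c y : Fin d → ℝ) (f : ℝ → ℝ) (hf : Lip f) :
    Integrable (fun z : Fin d → ℝ => f (∑ i, c i * (y i + Real.sqrt v * z i))) (γd d) ∧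
    ∫ z : Fin d → ℝ, f (∑ i, c i * (y i + Real.sqrt v * z i)) ∂(γd d) =
    ∫ x, f (∑ i, c i * y i + Real.sqrt (∑ i, c i ^ 2 * v) * x) ∂γ := by
  -- the law of the linear functional
  have hm1 : Measurable (fun z : Fin d → ℝ => ∑ i, c i * (y i + Real.sqrt v * z i)) := by fun_prop
  have hm2 : Measurable (fun x : ℝ => ∑ i, c i * y i + Real.sqrt (∑ i, c i ^ 2 * v) * x) := by
    fun_prop
  have hmap : (γd d).map (fun z : Fin d → ℝ => ∑ i, c i * (y i + Real.sqrt v * z i)) =
      γ.map (fun x => ∑ i, c i * y i + Real.sqrt (∑ i, c i ^ 2 * v) * x) := by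
    refine Measure.ext fun S hS => ?_
    have h := multi 0 v hv d (fun _ => 0) c y (by intro i; norm_num)
      (S.indicator 1) (measurable_one.indicator hS) 0
    simp only [zero_mul, Real.exp_zero, ENNReal.ofReal_one, one_mul, zero_add, sub_zero,
      Real.sqrt_one, inv_one, Finset.prod_const_one, mul_one, div_one, mul_zero] at h
    rw [Measure.map_apply hm1 hS, Measure.map_apply hm2 hS,
      ← lintegral_indicator_one (hm1 hS), ← lintegral_indicator_one (hm2 hS)]
    exact h
  have hc := hf.continuous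
  constructor
  · have h1 : Integrable f (γ.map (fun x => ∑ i, c i * y i + Real.sqrt (∑ i, c i ^ 2 * v) * x)) := by
      rw [integrable_map_measure hc.aestronglyMeasurable hm2.aemeasurable]
      exact hf.integrable _ _
    rw [← hmap, integrable_map_measure hc.aestronglyMeasurable hm1.aemeasurable] at h1
    exact h1
  · have h1 := integral_map (μ := γd d) (φ := fun z : Fin d → ℝ =>
      ∑ i, c i * (y i + Real.sqrt v * z i)) hm1.aemeasurable (f := f) hc.aestronglyMeasurable
    have h2 := integral_map (μ := γ) (φ := fun x : ℝ =>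
      ∑ i, c i * y i + Real.sqrt (∑ i, c i ^ 2 * v) * x) hm2.aemeasurable (f := f)
      hc.aestronglyMeasurable
    rw [← h1, hmap, h2]

theorem integral_sq_gauss (y s : ℝ) :
    Integrable (fun x : ℝ => (y + s * x) ^ 2) γ ∧ ∫ x, (y + s * x) ^ 2 ∂γ = y ^ 2 + s ^ 2 := by
  have h1 : Integrable (fun x : ℝ => x) γ := by
    have := (memLp_id_gaussianReal (μ := 0) (v := 1) 1)
    exact this.integrable le_rfl
  have h2 : Integrable (fun x : ℝ => x ^ 2) γ := by
    have := (memLp_id_gaussianReal (μ := 0) (v := 1) 2)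
    exact this.integrable_sq
  have i1 : ∫ x : ℝ, x ∂γ = 0 := by simp
  have i2 : ∫ x : ℝ, x ^ 2 ∂γ = 1 := by
    have := variance_id_gaussianReal (μ := 0) (v := 1)
    rw [variance_eq_sub (by
      have := (memLp_id_gaussianReal (μ := 0) (v := 1) 2)
      simpa using this)] at this
    simpa using this
  have e : (fun x : ℝ => (y + s * x) ^ 2) = fun x => (y ^ 2 + (2 * y * s) * x) + s ^ 2 * x ^ 2 := by
    funext x; ring
  rw [e]
  have ha : Integrable (fun x : ℝ => y ^ 2 + (2 * y * s) * x) γ :=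
    (integrable_const _).add (h1.const_mul _)
  refine ⟨ha.add (h2.const_mul _), ?_⟩
  rw [integral_add ha (h2.const_mul _), integral_add (integrable_const _) (h1.const_mul _),
    integral_const_mul, integral_const_mul, i1, i2]
  simp

/-- quadratic part at level zero. -/
theorem quad_integral {d : ℕ} (v : ℝ) (hv : 0 ≤ v) (α y : Fin d → ℝ) :
    Integrable (fun z : Fin d → ℝ => ∑ i, α i * (y i + Real.sqrt v * z i) ^ 2) (γd d) ∧
    ∫ z : Fin d → ℝ, ∑ i, α i * (y i + Real.sqrt v * z i) ^ 2 ∂(γd d) =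
    ∑ i, α i * (y i ^ 2 + v) := by
  have hI : ∀ i : Fin d, Integrable (fun z : Fin d → ℝ => α i * (y i + Real.sqrt v * z i) ^ 2)
      (γd d) := by
    intro i
    exact (integrable_comp_eval (μ := fun _ : Fin d => (γ : Measure ℝ))
      (i := i) (integral_sq_gauss (y i) (Real.sqrt v)).1).const_mul _
  refine ⟨integrable_finsetSum _ fun i _ => hI i, ?_⟩
  rw [integral_finsetSum _ fun i _ => hI i]
  refine Finset.sum_congr rfl fun i _ => ?_
  rw [integral_const_mul]
  congr 1
  have := integral_comp_eval (μ := fun _ : Fin d => (γ : Measure ℝ)) (i := i)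
    (f := fun x => (y i + Real.sqrt v * x) ^ 2)
    (by
      have : Continuous (fun x : ℝ => (y i + Real.sqrt v * x) ^ 2) := by fun_prop
      exact this.aestronglyMeasurable)
  rw [this, (integral_sq_gauss _ _).2, Real.sq_sqrt hv]

/-- additive constant of one level. -/
def lvlC {d : ℕ} (a v : ℝ) (α : Fin d → ℝ) : ℝ :=
  if a = 0 then 1 / 2 * (v * ∑ i, α i) else -(1 / (2 * a)) * ∑ i, Real.log (1 - a * v * α i)

/-- exact evaluation of one level. -/
theorem gOp_quad {d : ℕ} {a v : ℝ} (hv : 0 ≤ v) (α c : Fin d → ℝ)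
    (hs : ∀ i, 0 < 1 - a * v * α i) (C : ℝ) (f : ℝ → ℝ) (hf : Lip f) (y : Fin d → ℝ) :
    gOp a v (fun y => 1 / 2 * ∑ i, α i * y i ^ 2 + f (∑ i, c i * y i) + C) y =
    1 / 2 * ∑ i, α i / (1 - a * v * α i) * y i ^ 2 +
      gaussOp a (∑ i, c i ^ 2 * (v / (1 - a * v * α i))) f (∑ i, c i * (y i / (1 - a * v * α i))) +
      (C + lvlC a v α) := by
  unfold gOp lvlC Crest.ProbabilityR.InvariantGlass.gaussOp
  split_ifs with h0
  · subst h0
    obtain ⟨q1, q2⟩ := quad_integral v hv α y
    obtain ⟨l1, l2⟩ := linear_integral v hv c y f hf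
    have h3 : ∫ z : Fin d → ℝ, (1 / 2 * ∑ i, α i * (y i + Real.sqrt v * z i) ^ 2 +
        f (∑ i, c i * (y i + Real.sqrt v * z i)) + C) ∂(γd d) =
        1 / 2 * (∑ i, α i * (y i ^ 2 + v)) +
          (∫ x, f (∑ i, c i * y i + Real.sqrt (∑ i, c i ^ 2 * v) * x) ∂γ) + C := by
      have i12 : Integrable (fun z : Fin d → ℝ => 1 / 2 * ∑ i, α i * (y i + Real.sqrt v * z i) ^ 2 +
        f (∑ i, c i * (y i + Real.sqrt v * z i))) (γd d) := (q1.const_mul _).add l1
      rw [integral_add i12 (integrable_const _),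
        integral_add (q1.const_mul _) l1, integral_const_mul, q2, l2]
      simp
    simp only [h3]
    simp only [zero_mul, sub_zero, div_one]
    have : ∑ i, α i * (y i ^ 2 + v) = ∑ i, α i * y i ^ 2 + v * ∑ i, α i := by
      rw [Finset.mul_sum, ← Finset.sum_add_distrib]
      exact Finset.sum_congr rfl fun i _ => by ring
    rw [this]
    ring
  · rw [multi_integral a v hv α c y hs C f hf.continuous.measurable]
    have hI := hf.int_exp_pos a (∑ i, c i * (y i / (1 - a * v * α i)))
      (Real.sqrt (∑ i, c i ^ 2 * (v / (1 - a * v * α i))))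
    have hP : 0 < ∏ i, (Real.sqrt (1 - a * v * α i))⁻¹ :=
      Finset.prod_pos fun i _ => inv_pos.mpr (Real.sqrt_pos.mpr (hs i))
    rw [Real.log_mul (by positivity) hI.ne', Real.log_mul (by positivity) (Real.exp_pos _).ne',
      Real.log_mul hP.ne' (Real.exp_pos _).ne', Real.log_exp, Real.log_exp,
      Real.log_prod (fun i _ => (inv_pos.mpr (Real.sqrt_pos.mpr (hs i))).ne')]
    have hl : ∑ i, Real.log (Real.sqrt (1 - a * v * α i))⁻¹ =
        -(1 / 2) * ∑ i, Real.log (1 - a * v * α i) := by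
      rw [Finset.mul_sum]
      refine Finset.sum_congr rfl fun i _ => ?_
      rw [Real.log_inv, Real.log_sqrt (hs i).le]
      ring
    rw [hl]
    field_simp
    ring

/-- nested operator along a list of levels (head = outermost). -/
def nest {d : ℕ} (L : List (ℝ × ℝ)) (F : (Fin d → ℝ) → ℝ) : (Fin d → ℝ) → ℝ :=
  L.foldr (fun p G => gOp p.1 p.2 G) F

/-- scalar nested operator. -/
def snest (L : List (ℝ × ℝ)) (f : ℝ → ℝ) : ℝ → ℝ :=
  L.foldr (fun p g => gaussOp p.1 p.2 g) f

/-- accumulated `Σ a v`. -/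
def Dacc (L : List (ℝ × ℝ)) : ℝ := (L.map fun p => p.1 * p.2).sum

@[simp] theorem Dacc_nil : Dacc [] = 0 := rfl

@[simp] theorem Dacc_cons (p : ℝ × ℝ) (L : List (ℝ × ℝ)) : Dacc (p :: L) = p.1 * p.2 + Dacc L := by
  simp [Dacc]

theorem Dacc_nonneg {L : List (ℝ × ℝ)} (hL : ∀ p ∈ L, 0 ≤ p.1 ∧ 0 ≤ p.2) : 0 ≤ Dacc L := by
  induction L with
  | nil => simp
  | cons p L ih =>
    rw [Dacc_cons]
    have h1 := hL p (by simp)
    have h2 := ih fun q hq => hL q (by simp [hq])
    have := mul_nonneg h1.1 h1.2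
    linarith

/-- the scalar levels. -/
def slev {d : ℕ} (α c : Fin d → ℝ) : List (ℝ × ℝ) → List (ℝ × ℝ)
  | [] => []
  | p :: L => (p.1, p.2 * ∑ i, c i ^ 2 / ((1 - Dacc L * α i) * (1 - Dacc (p :: L) * α i))) ::
      slev α c L

/-- the additive constants. -/
def ncst {d : ℕ} (α : Fin d → ℝ) : List (ℝ × ℝ) → ℝ
  | [] => 0
  | p :: L => (if p.1 = 0 then 1 / 2 * (p.2 * ∑ i, α i / (1 - Dacc L * α i)) else
      -(1 / (2 * p.1)) * ∑ i, (Real.log (1 - Dacc (p :: L) * α i) - Real.log (1 - Dacc L * α i))) +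
      ncst α L

theorem lip_snest {f : ℝ → ℝ} (hf : Lip f) (L : List (ℝ × ℝ)) (hL : ∀ p ∈ L, 0 ≤ p.1 ∧ 0 ≤ p.2) :
    Lip (snest L f) := by
  induction L with
  | nil => exact hf
  | cons p L ih => exact (ih fun q hq => hL q (by simp [hq])).lip_gaussOp (hL p (by simp)).1 _

theorem slev_mem {d : ℕ} (α c : Fin d → ℝ) (L : List (ℝ × ℝ)) (hL : ∀ p ∈ L, 0 ≤ p.1 ∧ 0 ≤ p.2)
    (hs : ∀ i, 0 < 1 - Dacc L * α i) : ∀ p ∈ slev α c L, 0 ≤ p.1 ∧ 0 ≤ p.2 := by
  induction L with
  | nil => intro p hp; simp [slev] at hp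
  | cons p L ih =>
    have hL' : ∀ q ∈ L, 0 ≤ q.1 ∧ 0 ≤ q.2 := fun q hq => hL q (by simp [hq])
    have hp := hL p (by simp)
    have hD' := Dacc_nonneg hL'
    have hD : Dacc L ≤ Dacc (p :: L) := by
      rw [Dacc_cons]; have := mul_nonneg hp.1 hp.2; linarith
    have hs' : ∀ i, 0 < 1 - Dacc L * α i := by
      intro i
      rcases le_total (α i) 0 with h | h
      · nlinarith [mul_nonpos_of_nonneg_of_nonpos hD' h]
      · have := mul_le_mul_of_nonneg_right hD h
        linarith [hs i]
    intro q hq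
    rcases List.mem_cons.mp hq with rfl | hq
    · exact ⟨hp.1, mul_nonneg hp.2 (Finset.sum_nonneg fun i _ =>
        div_nonneg (sq_nonneg _) (mul_nonneg (hs' i).le (hs i).le))⟩
    · exact ih hL' hs' q hq

theorem fac_aux {D' w α : ℝ} (h : 1 - D' * α ≠ 0) :
    1 - w * (α / (1 - D' * α)) = (1 - (w + D') * α) / (1 - D' * α) := by
  rw [eq_div_iff h, sub_mul, one_mul, mul_assoc, div_mul_cancel₀ _ h]
  ring

theorem fac_aux1 {α x z : ℝ} (hx : x ≠ 0) : α / x / (z / x) = α / z := by
  rw [div_div_div_cancel_right₀ hx]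

theorem fac_aux2 {c v x z : ℝ} (hx : x ≠ 0) : (c / x) ^ 2 * (v / (z / x)) =
    v * (c ^ 2 / (x * z)) := by
  rcases eq_or_ne z 0 with rfl | hz
  · simp
  · field_simp

theorem fac_aux3 {c v x z : ℝ} (hx : x ≠ 0) : c / x * (v / (z / x)) = c / z * v := by
  rcases eq_or_ne z 0 with rfl | hz
  · simp
  · field_simp

/-- exact evaluation of the whole recursion. -/
theorem nest_quad {d : ℕ} (α c : Fin d → ℝ) (f : ℝ → ℝ) (hf : Lip f) (L : List (ℝ × ℝ))
    (hL : ∀ p ∈ L, 0 ≤ p.1 ∧ 0 ≤ p.2) (hs : ∀ i, 0 < 1 - Dacc L * α i) :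
    nest L (fun y => 1 / 2 * ∑ i, α i * y i ^ 2 + f (∑ i, c i * y i)) = fun y =>
      1 / 2 * ∑ i, α i / (1 - Dacc L * α i) * y i ^ 2 +
        snest (slev α c L) f (∑ i, c i / (1 - Dacc L * α i) * y i) + ncst α L := by
  induction L with
  | nil =>
    funext y
    simp [nest, snest, slev, ncst]
  | cons p L ih =>
    have hL' : ∀ q ∈ L, 0 ≤ q.1 ∧ 0 ≤ q.2 := fun q hq => hL q (by simp [hq])
    have hp := hL p (by simp)
    have hD' := Dacc_nonneg hL'
    have hD : Dacc L ≤ Dacc (p :: L) := by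
      rw [Dacc_cons]; have := mul_nonneg hp.1 hp.2; linarith
    have hs' : ∀ i, 0 < 1 - Dacc L * α i := by
      intro i
      rcases le_total (α i) 0 with h | h
      · nlinarith [mul_nonpos_of_nonneg_of_nonpos hD' h]
      · have := mul_le_mul_of_nonneg_right hD h
        linarith [hs i]
    have h1 : nest (p :: L) (fun y => 1 / 2 * ∑ i, α i * y i ^ 2 + f (∑ i, c i * y i)) =
        gOp p.1 p.2 (nest L (fun y => 1 / 2 * ∑ i, α i * y i ^ 2 + f (∑ i, c i * y i))) := rfl
    rw [h1, ih hL' hs']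
    funext y
    have hg : Lip (snest (slev α c L) f) := lip_snest hf _ (slev_mem α c L hL' hs')
    have hfac : ∀ i, 1 - p.1 * p.2 * (α i / (1 - Dacc L * α i)) =
        (1 - Dacc (p :: L) * α i) / (1 - Dacc L * α i) := by
      intro i
      rw [Dacc_cons]
      exact fac_aux (hs' i).ne'
    have hpos : ∀ i, 0 < 1 - p.1 * p.2 * (α i / (1 - Dacc L * α i)) := by
      intro i
      rw [hfac i]
      exact div_pos (hs i) (hs' i)
    have h2 := gOp_quad hp.2 (fun i => α i / (1 - Dacc L * α i))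
      (fun i => c i / (1 - Dacc L * α i)) hpos (ncst α L) (snest (slev α c L) f) hg y
    rw [h2]
    have e1 : ∀ i, α i / (1 - Dacc L * α i) / (1 - p.1 * p.2 * (α i / (1 - Dacc L * α i))) =
        α i / (1 - Dacc (p :: L) * α i) := by
      intro i
      rw [hfac i]
      exact fac_aux1 (hs' i).ne'
    have e2 : ∑ i, (c i / (1 - Dacc L * α i)) ^ 2 *
        (p.2 / (1 - p.1 * p.2 * (α i / (1 - Dacc L * α i)))) =
        p.2 * ∑ i, c i ^ 2 / ((1 - Dacc L * α i) * (1 - Dacc (p :: L) * α i)) := by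
      rw [Finset.mul_sum]
      refine Finset.sum_congr rfl fun i _ => ?_
      rw [hfac i]
      exact fac_aux2 (hs' i).ne'
    have e3 : ∑ i, c i / (1 - Dacc L * α i) *
        (y i / (1 - p.1 * p.2 * (α i / (1 - Dacc L * α i)))) =
        ∑ i, c i / (1 - Dacc (p :: L) * α i) * y i := by
      refine Finset.sum_congr rfl fun i _ => ?_
      rw [hfac i]
      exact fac_aux3 (hs' i).ne'
    have e4 : lvlC p.1 p.2 (fun i => α i / (1 - Dacc L * α i)) + ncst α L = ncst α (p :: L) := by
      unfold lvlC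
      rw [ncst]
      congr 1
      split_ifs with h0
      · rfl
      · congr 1
        refine Finset.sum_congr rfl fun i _ => ?_
        rw [hfac i, Real.log_div (hs i).ne' (hs' i).ne']
    simp only [e1]
    rw [e2, e3, add_comm (ncst α L), e4]
    rfl

end

end Crest.Agent.R164.GTilt
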