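import Crest.Agent.R164.ExactG1
import Crest.Agent.R164.GaussNest
import Crest.Agent.R164.CavGDef

/-!
Row 164, exact value of the nested Gaussian functional, part 2: one step of the recursion for an
arbitrary finite family of independent Gaussians (helper716).
-/

set_option autoImplicit false

namespace Crest.Agent.R164.EG

open MeasureTheory ProbabilityTheory ENNReal Crest.ProbabilityR.InvariantGlass
open Crest.Agent.R164.GTilt (γ lintegral_add_gauss lintegral_gaussianReal lintegral_pi_succ Lip)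
open Crest.Agent.R164.CavG (gm lin law_lin measurable_lin gstep th gval)

noncomputable section

variable {ι : Type*} [Fintype ι]

/-- linear functional -/
def dot (c z : ι → ℝ) : ℝ := ∑ i, c i * z i

theorem lintegral_gm3 (F : (Fin 3 → ℝ) → ℝ≥0∞) (hF : Measurable F) :
    ∫⁻ z, F z ∂(gm (Fin 3)) = ∫⁻ a, ∫⁻ b, ∫⁻ c, F ![a, b, c] ∂γ ∂γ ∂γ := by
  unfold gm
  rw [lintegral_pi_succ 2 F hF]
  refine lintegral_congr fun a => ?_
  rw [lintegral_pi_succ 1 (fun z => F (Fin.cons a z)) (hF.comp (by fun_prop))]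
  refine lintegral_congr fun b => ?_
  rw [lintegral_pi_succ 0 (fun z => F (Fin.cons a (Fin.cons b z))) (hF.comp (by fun_prop))]
  refine lintegral_congr fun c => ?_
  have hm : Measurable fun z' : Fin 0 → ℝ => F (Fin.cons a (Fin.cons b (Fin.cons c z'))) :=
    hF.comp (by fun_prop)
  rw [Measure.pi_of_empty]
  exact lintegral_dirac' _ hm

theorem meas_Qf (s θ : ℝ) : Measurable fun p : ℝ × ℝ => Qf s θ p.1 p.2 := by
  unfold Qf; fun_prop

/-- the function of the recursion -/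
def Fr (c s θ r : ℝ) (f : ℝ → ℝ) (c0 c1 cy z : ι → ℝ) : ℝ :=
  c + Qf s θ (dot c0 z) (dot c1 z - r * dot c0 z) + f (dot c1 z - r * dot c0 z + dot cy z)

theorem dot_add (c z g : ι → ℝ) (v : ι → ℝ) :
    dot c (fun k => z k + Real.sqrt (v k) * g k) =
      dot c z + ∑ k, (c k * Real.sqrt (v k)) * g k := by
  unfold dot
  rw [← Finset.sum_add_distrib]
  exact Finset.sum_congr rfl fun k _ => by ring

/-- the law of the three increments -/
theorem three_law {a s s' r ρ vy : ℝ} (ha : 0 < a) (hs' : 0 ≤ s') (hρ : 0 ≤ ρ) (hvy : 0 ≤ vy)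
    (hss : s ≤ s' / (1 + s' * ρ)) (v c0 c1 cy : ι → ℝ) (hv : ∀ k, 0 ≤ v k)
    (g00 : ∑ k, v k * (c0 k * c0 k) = (s' - s) / a)
    (g01 : ∑ k, v k * (c0 k * c1 k) = (s' * (r + ρ) - s * r) / a)
    (g11 : ∑ k, v k * (c1 k * c1 k) =
      ((s' * (r + ρ) ^ 2 + (r + ρ)) - (s * r ^ 2 + r)) / a)
    (g0y : ∑ k, v k * (c0 k * cy k) = 0) (g1y : ∑ k, v k * (c1 k * cy k) = 0)
    (gyy : ∑ k, v k * (cy k * cy k) = vy) (H : (Fin 3 → ℝ) → ℝ≥0∞) (hH : Measurable H) :
    ∫⁻ g, H ![∑ k, (c0 k * Real.sqrt (v k)) * g k,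
        ∑ k, (c1 k * Real.sqrt (v k)) * g k - r * ∑ k, (c0 k * Real.sqrt (v k)) * g k,
        ∑ k, (cy k * Real.sqrt (v k)) * g k] ∂(gm ι) =
      ∫⁻ g₁, ∫⁻ g₂, ∫⁻ g₃, H ![s' / (1 + s' * ρ) * (Real.sqrt (ρ * (1 + s' * ρ) / a) * g₁) +
          Real.sqrt ((s' / (1 + s' * ρ) - s) / a) * g₂,
        Real.sqrt (ρ * (1 + s' * ρ) / a) * g₁, Real.sqrt vy * g₃] ∂γ ∂γ ∂γ := by
  have hE : 0 < 1 + s' * ρ := by positivity
  set E := 1 + s' * ρ with hEd
  set σ := s' / E with hσ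
  have hσE : σ * E = s' := by rw [hσ]; field_simp
  set q := Real.sqrt (ρ * E / a) with hq
  have hq2 : q * q = ρ * E / a := Real.mul_self_sqrt (by positivity)
  set t := Real.sqrt ((σ - s) / a) with ht
  have ht2 : t * t = (σ - s) / a := Real.mul_self_sqrt (div_nonneg (by linarith) ha.le)
  have hy2 : Real.sqrt vy * Real.sqrt vy = vy := Real.mul_self_sqrt hvy
  set u : Fin 3 → ι → ℝ := ![fun k => c0 k * Real.sqrt (v k),
    fun k => (c1 k - r * c0 k) * Real.sqrt (v k), fun k => cy k * Real.sqrt (v k)] with hu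
  set u' : Fin 3 → Fin 3 → ℝ := ![![σ * q, t, 0], ![q, 0, 0], ![0, 0, Real.sqrt vy]] with hu'
  have hsq : ∀ k, Real.sqrt (v k) * Real.sqrt (v k) = v k := fun k => Real.mul_self_sqrt (hv k)
  have gram : ∀ (x y : ι → ℝ), ∑ k, (x k * Real.sqrt (v k)) * (y k * Real.sqrt (v k)) =
      ∑ k, v k * (x k * y k) := fun x y =>
    Finset.sum_congr rfl fun k _ => by
      have := hsq k
      linear_combination (x k * y k) * this
  have r11 : ∑ k, v k * ((c1 k - r * c0 k) * (c1 k - r * c0 k)) = ρ * E / a := by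
    have : ∑ k, v k * ((c1 k - r * c0 k) * (c1 k - r * c0 k)) =
        ∑ k, v k * (c1 k * c1 k) - 2 * r * ∑ k, v k * (c0 k * c1 k) +
          r ^ 2 * ∑ k, v k * (c0 k * c0 k) := by
      rw [Finset.mul_sum, Finset.mul_sum, ← Finset.sum_sub_distrib, ← Finset.sum_add_distrib]
      exact Finset.sum_congr rfl fun k _ => by ring
    rw [this, g00, g01, g11, hEd]
    field_simp
    ring
  have r01 : ∑ k, v k * (c0 k * (c1 k - r * c0 k)) = s' * ρ / a := by
    have : ∑ k, v k * (c0 k * (c1 k - r * c0 k)) =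
        ∑ k, v k * (c0 k * c1 k) - r * ∑ k, v k * (c0 k * c0 k) := by
      rw [Finset.mul_sum, ← Finset.sum_sub_distrib]
      exact Finset.sum_congr rfl fun k _ => by ring
    rw [this, g00, g01]
    field_simp
    ring
  have r1y : ∑ k, v k * ((c1 k - r * c0 k) * cy k) = 0 := by
    have : ∑ k, v k * ((c1 k - r * c0 k) * cy k) =
        ∑ k, v k * (c1 k * cy k) - r * ∑ k, v k * (c0 k * cy k) := by
      rw [Finset.mul_sum, ← Finset.sum_sub_distrib]
      exact Finset.sum_congr rfl fun k _ => by ring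
    rw [this, g0y, g1y]; ring
  have comm : ∀ (x y : ι → ℝ), ∑ k, v k * (x k * y k) = ∑ k, v k * (y k * x k) := fun x y =>
    Finset.sum_congr rfl fun k _ => by ring
  have q00 : σ * q * (σ * q) + t * t = (s' - s) / a := by
    have : σ * q * (σ * q) = σ ^ 2 * (q * q) := by ring
    rw [this, hq2, ht2]
    have : σ ^ 2 * (ρ * E / a) = σ * (σ * E) * ρ / a := by ring
    rw [this, hσE]
    have : σ + σ * s' * ρ = s' := by
      have : σ + σ * s' * ρ = σ * E := by rw [hEd]; ring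
      rw [this, hσE]
    rw [← add_div]
    congr 1
    linarith
  have q01 : σ * q * q = s' * ρ / a := by
    have : σ * q * q = σ * (q * q) := by ring
    rw [this, hq2]
    have : σ * (ρ * E / a) = (σ * E) * ρ / a := by ring
    rw [this, hσE]
  have hG : ∀ i j, ∑ k, u i k * u j k = ∑ k, u' i k * u' j k := by
    intro i j
    rw [Fin.sum_univ_three]
    fin_cases i <;> fin_cases j <;> simp only [hu, hu', Fin.zero_eta, Fin.mk_one, Fin.reduceFinMk,
      Matrix.cons_val_zero, Matrix.cons_val_one, Matrix.cons_val_two, Matrix.head_cons,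
      Matrix.tail_cons, Matrix.cons_val] <;>
      rw [gram]
    · rw [g00, ← q00]; ring
    · rw [r01, ← q01]; ring
    · rw [g0y]; ring
    · rw [comm, r01, ← q01]; ring
    · rw [r11, ← hq2]; ring
    · rw [r1y]; ring
    · rw [comm, g0y]; ring
    · rw [comm, r1y]; ring
    · rw [gyy]; linear_combination -hy2
  have hlaw := law_lin u u' hG
  have e1 : ∫⁻ g, H ![∑ k, (c0 k * Real.sqrt (v k)) * g k,
        ∑ k, (c1 k * Real.sqrt (v k)) * g k - r * ∑ k, (c0 k * Real.sqrt (v k)) * g k,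
        ∑ k, (cy k * Real.sqrt (v k)) * g k] ∂(gm ι) = ∫⁻ X, H X ∂((gm ι).map (lin u)) := by
    rw [lintegral_map hH (measurable_lin u)]
    refine lintegral_congr fun g => ?_
    congr 1
    funext i
    fin_cases i
    · rfl
    · show _ = ∑ k, ((c1 k - r * c0 k) * Real.sqrt (v k)) * g k
      simp only [Fin.mk_one, Matrix.cons_val_one, Matrix.cons_val_zero]
      rw [Finset.mul_sum, ← Finset.sum_sub_distrib]
      exact Finset.sum_congr rfl fun k _ => by ring
    · rfl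
  rw [e1, hlaw, lintegral_map hH (measurable_lin u'), 
    lintegral_gm3 (fun z => H (lin u' z)) (hH.comp (measurable_lin u'))]
  refine lintegral_congr fun a' => lintegral_congr fun b' => lintegral_congr fun c' => ?_
  congr 1
  funext i
  unfold lin
  rw [Fin.sum_univ_three]
  fin_cases i
  · simp [hu']; ring
  · simp [hu']
  · simp [hu']

theorem lint_exact {c a s s' r ρ θ vy : ℝ} (ha : 0 < a) (hs' : 0 ≤ s') (hρ : 0 ≤ ρ) (hvy : 0 ≤ vy)
    (hss : s ≤ s' / (1 + s' * ρ)) (h1 : 0 < 1 + θ * s) (h2 : 0 < 1 + (θ + ρ) * s')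
    (v c0 c1 cy : ι → ℝ) (hv : ∀ k, 0 ≤ v k)
    (g00 : ∑ k, v k * (c0 k * c0 k) = (s' - s) / a)
    (g01 : ∑ k, v k * (c0 k * c1 k) = (s' * (r + ρ) - s * r) / a)
    (g11 : ∑ k, v k * (c1 k * c1 k) =
      ((s' * (r + ρ) ^ 2 + (r + ρ)) - (s * r ^ 2 + r)) / a)
    (g0y : ∑ k, v k * (c0 k * cy k) = 0) (g1y : ∑ k, v k * (c1 k * cy k) = 0)
    (gyy : ∑ k, v k * (cy k * cy k) = vy) (f : ℝ → ℝ) (hf : Measurable f) (z : ι → ℝ) :
    ∫⁻ g, ENNReal.ofReal (Real.exp (a * Fr c s θ r f c0 c1 cy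
        (fun k => z k + Real.sqrt (v k) * g k))) ∂(gm ι) =
      ENNReal.ofReal (Real.sqrt ((1 + θ * s) / (1 + (θ + ρ) * s')) *
        Real.exp (a * Qf s' (θ + ρ) (dot c0 z) (dot c1 z - (r + ρ) * dot c0 z))) *
      (ENNReal.ofReal (Real.exp (a * c)) *
      ∫⁻ g, ENNReal.ofReal (Real.exp (a * f (dot c1 z - (r + ρ) * dot c0 z + dot cy z +
        Real.sqrt (ρ / a + vy) * g))) ∂γ) := by
  set x := dot c0 z with hx
  set Y := dot cy z with hY
  set ζ := dot c1 z - (r + ρ) * x with hζ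
  have hζ0 : dot c1 z - r * x = ζ + ρ * x := by rw [hζ]; ring
  set H : (Fin 3 → ℝ) → ℝ≥0∞ := fun X => ENNReal.ofReal (Real.exp (a * (c +
    Qf s θ (x + X 0) (ζ + ρ * x + X 1) + f (ζ + ρ * x + X 1 + (Y + X 2))))) with hH
  have hHm : Measurable H := by
    have := meas_Qf s θ
    have h3 : Measurable fun X : Fin 3 → ℝ => Qf s θ (x + X 0) (ζ + ρ * x + X 1) := by
      unfold Qf; fun_prop
    have h4 : Measurable fun X : Fin 3 → ℝ => f (ζ + ρ * x + X 1 + (Y + X 2)) :=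
      hf.comp (by fun_prop)
    exact (((((measurable_const.add h3).add h4).const_mul a).exp)).ennreal_ofReal
  have hL := three_law ha hs' hρ hvy hss v c0 c1 cy hv g00 g01 g11 g0y g1y gyy H hHm
  have e1 : ∀ g : ι → ℝ, ENNReal.ofReal (Real.exp (a * Fr c s θ r f c0 c1 cy
        (fun k => z k + Real.sqrt (v k) * g k))) = H ![∑ k, (c0 k * Real.sqrt (v k)) * g k,
        ∑ k, (c1 k * Real.sqrt (v k)) * g k - r * ∑ k, (c0 k * Real.sqrt (v k)) * g k,
        ∑ k, (cy k * Real.sqrt (v k)) * g k] := by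
    intro g
    simp only [hH, Fr, dot_add, Matrix.cons_val_zero, Matrix.cons_val_one, Matrix.cons_val_two,
      Matrix.head_cons, Matrix.tail_cons, Matrix.cons_val]
    rw [← hx, ← hY]
    have e2 : dot c1 z + ∑ k, c1 k * Real.sqrt (v k) * g k -
        r * (x + ∑ k, c0 k * Real.sqrt (v k) * g k) = ζ + ρ * x +
        (∑ k, c1 k * Real.sqrt (v k) * g k - r * ∑ k, c0 k * Real.sqrt (v k) * g k) := by
      rw [← hζ0]; ring
    rw [e2]
  simp only [e1]
  rw [hL]
  set h : ℝ → ℝ≥0∞ := fun t => ENNReal.ofReal (Real.exp (a * c)) *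
    ∫⁻ g₃, ENNReal.ofReal (Real.exp (a * f (t + Y + Real.sqrt vy * g₃))) ∂γ with hh
  have hFm : Measurable fun t : ℝ => ENNReal.ofReal (Real.exp (a * f t)) :=
    ((hf.const_mul a).exp).ennreal_ofReal
  have hhm : Measurable h := by
    refine Measurable.const_mul ?_ _
    exact Measurable.lintegral_prod_right'
      (f := fun p : ℝ × ℝ => ENNReal.ofReal (Real.exp (a * f (p.1 + Y + Real.sqrt vy * p.2))))
      (hFm.comp (by fun_prop))
  have hcore := step_core ha hs' hρ hss h1 h2 x ζ h hhm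
  have e3 : ∀ g₁ g₂ : ℝ, ∫⁻ g₃, H ![s' / (1 + s' * ρ) * (Real.sqrt (ρ * (1 + s' * ρ) / a) * g₁) +
          Real.sqrt ((s' / (1 + s' * ρ) - s) / a) * g₂,
        Real.sqrt (ρ * (1 + s' * ρ) / a) * g₁, Real.sqrt vy * g₃] ∂γ =
      ENNReal.ofReal (Real.exp (a * Qf s θ
        (x + s' / (1 + s' * ρ) * (Real.sqrt (ρ * (1 + s' * ρ) / a) * g₁) +
          Real.sqrt ((s' / (1 + s' * ρ) - s) / a) * g₂)
        (ζ + ρ * x + Real.sqrt (ρ * (1 + s' * ρ) / a) * g₁))) *
        h (ζ + ρ * x + Real.sqrt (ρ * (1 + s' * ρ) / a) * g₁) := by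
    intro g₁ g₂
    simp only [hH, hh, Matrix.cons_val_zero, Matrix.cons_val_one, Matrix.cons_val_two,
      Matrix.head_cons, Matrix.tail_cons, Matrix.cons_val]
    have hm1 : Measurable fun g₃ : ℝ => ENNReal.ofReal (Real.exp (a *
        f (ζ + ρ * x + Real.sqrt (ρ * (1 + s' * ρ) / a) * g₁ + Y + Real.sqrt vy * g₃))) :=
      hFm.comp (g := fun t : ℝ => ENNReal.ofReal (Real.exp (a * f t)))
        (f := fun g₃ : ℝ => ζ + ρ * x + Real.sqrt (ρ * (1 + s' * ρ) / a) * g₁ + Y +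
          Real.sqrt vy * g₃) (by fun_prop)
    rw [← lintegral_const_mul _ hm1, ← lintegral_const_mul _ (hm1.const_mul _)]
    refine lintegral_congr fun g₃ => ?_
    rw [← ENNReal.ofReal_mul (Real.exp_pos _).le, ← ENNReal.ofReal_mul (Real.exp_pos _).le,
      ← Real.exp_add, ← Real.exp_add]
    congr 2
    ring_nf
  simp only [e3]
  rw [hcore]
  congr 1
  simp only [hh]
  have hmm : Measurable fun g : ℝ => ∫⁻ g₃, ENNReal.ofReal (Real.exp (a *
      f (ζ + Real.sqrt (ρ / a) * g + Y + Real.sqrt vy * g₃))) ∂γ :=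
    Measurable.lintegral_prod_right'
      (f := fun p : ℝ × ℝ => ENNReal.ofReal (Real.exp (a * f (ζ + Real.sqrt (ρ / a) * p.1 + Y +
        Real.sqrt vy * p.2)))) (hFm.comp (by fun_prop))
  rw [lintegral_const_mul _ hmm]
  congr 1
  have hadd := lintegral_add_gauss (fun t => ENNReal.ofReal (Real.exp (a * f t))) hFm (ζ + Y)
    (Real.sqrt (ρ / a)) (Real.sqrt vy)
  rw [Real.sq_sqrt (by positivity), Real.sq_sqrt hvy] at hadd
  rw [← hadd]
  refine lintegral_congr fun g => lintegral_congr fun g₃ => ?_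
  congr 4
  ring

theorem meas_dot (c : ι → ℝ) : Measurable (dot c) := by unfold dot; fun_prop

theorem meas_Fr (c s θ r : ℝ) {f : ℝ → ℝ} (hf : Measurable f) (c0 c1 cy : ι → ℝ) :
    Measurable (Fr c s θ r f c0 c1 cy) := by
  have h0 := meas_dot c0
  have h1 := meas_dot c1
  have hy := meas_dot cy
  have h3 : Measurable fun z => Qf s θ (dot c0 z) (dot c1 z - r * dot c0 z) := by
    unfold Qf; fun_prop
  have h4 : Measurable fun z => f (dot c1 z - r * dot c0 z + dot cy z) := hf.comp (by fun_prop)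
  exact (measurable_const.add h3).add h4

/-- Real version: the value of the integral. -/
theorem int_exact {c a s s' r ρ θ vy : ℝ} (ha : 0 < a) (hs' : 0 ≤ s') (hρ : 0 ≤ ρ) (hvy : 0 ≤ vy)
    (hss : s ≤ s' / (1 + s' * ρ)) (h1 : 0 < 1 + θ * s) (h2 : 0 < 1 + (θ + ρ) * s')
    (v c0 c1 cy : ι → ℝ) (hv : ∀ k, 0 ≤ v k)
    (g00 : ∑ k, v k * (c0 k * c0 k) = (s' - s) / a)
    (g01 : ∑ k, v k * (c0 k * c1 k) = (s' * (r + ρ) - s * r) / a)
    (g11 : ∑ k, v k * (c1 k * c1 k) =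
      ((s' * (r + ρ) ^ 2 + (r + ρ)) - (s * r ^ 2 + r)) / a)
    (g0y : ∑ k, v k * (c0 k * cy k) = 0) (g1y : ∑ k, v k * (c1 k * cy k) = 0)
    (gyy : ∑ k, v k * (cy k * cy k) = vy) {f : ℝ → ℝ} (hf : Lip f) (z : ι → ℝ) :
    Integrable (fun g => Real.exp (a * Fr c s θ r f c0 c1 cy
        (fun k => z k + Real.sqrt (v k) * g k))) (gm ι) ∧
    ∫ g, Real.exp (a * Fr c s θ r f c0 c1 cy
        (fun k => z k + Real.sqrt (v k) * g k)) ∂(gm ι) =
      (Real.sqrt ((1 + θ * s) / (1 + (θ + ρ) * s')) *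
        Real.exp (a * Qf s' (θ + ρ) (dot c0 z) (dot c1 z - (r + ρ) * dot c0 z))) *
      (Real.exp (a * c) *
      ∫ g, Real.exp (a * f (dot c1 z - (r + ρ) * dot c0 z + dot cy z +
        Real.sqrt (ρ / a + vy) * g)) ∂γ) := by
  have hfm : Measurable f := hf.continuous.measurable
  have hL := lint_exact (c := c) ha hs' hρ hvy hss h1 h2 v c0 c1 cy hv g00 g01 g11 g0y g1y gyy f
    hfm z
  have hI := hf.integrable_exp a (dot c1 z - (r + ρ) * dot c0 z + dot cy z)
    (Real.sqrt (ρ / a + vy))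
  rw [← ofReal_integral_eq_lintegral_ofReal hI (ae_of_all _ fun g => (Real.exp_pos _).le),
    ← ENNReal.ofReal_mul (Real.exp_pos _).le, ← ENNReal.ofReal_mul (by positivity)] at hL
  have hm : Measurable fun g : ι → ℝ => Real.exp (a * Fr c s θ r f c0 c1 cy
        (fun k => z k + Real.sqrt (v k) * g k)) := by
    refine Real.measurable_exp.comp (((meas_Fr c s θ r hfm c0 c1 cy).comp ?_).const_mul a)
    fun_prop
  have hint : Integrable (fun g => Real.exp (a * Fr c s θ r f c0 c1 cy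
        (fun k => z k + Real.sqrt (v k) * g k))) (gm ι) := by
    refine ⟨hm.aestronglyMeasurable, ?_⟩
    rw [hasFiniteIntegral_iff_ofReal (ae_of_all _ fun g => (Real.exp_pos _).le), hL]
    exact ENNReal.ofReal_lt_top
  refine ⟨hint, ?_⟩
  have hp := hf.int_exp_pos a (dot c1 z - (r + ρ) * dot c0 z + dot cy z) (Real.sqrt (ρ / a + vy))
  rw [integral_eq_lintegral_of_nonneg_ae (ae_of_all _ fun g => (Real.exp_pos _).le)
    hm.aestronglyMeasurable, hL, ENNReal.toReal_ofReal (by positivity)]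

theorem gstep_exact {c a s s' r ρ θ vy : ℝ} (ha : 0 < a) (hs' : 0 ≤ s') (hρ : 0 ≤ ρ)
    (hvy : 0 ≤ vy)
    (hss : s ≤ s' / (1 + s' * ρ)) (h1 : 0 < 1 + θ * s) (h2 : 0 < 1 + (θ + ρ) * s')
    (v c0 c1 cy : ι → ℝ) (hv : ∀ k, 0 ≤ v k)
    (g00 : ∑ k, v k * (c0 k * c0 k) = (s' - s) / a)
    (g01 : ∑ k, v k * (c0 k * c1 k) = (s' * (r + ρ) - s * r) / a)
    (g11 : ∑ k, v k * (c1 k * c1 k) =
      ((s' * (r + ρ) ^ 2 + (r + ρ)) - (s * r ^ 2 + r)) / a)
    (g0y : ∑ k, v k * (c0 k * cy k) = 0) (g1y : ∑ k, v k * (c1 k * cy k) = 0)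
    (gyy : ∑ k, v k * (cy k * cy k) = vy) {f : ℝ → ℝ} (hf : Lip f) :
    gstep a v (Fr c s θ r f c0 c1 cy) =
      Fr (c - 1 / (2 * a) * Real.log ((1 + (θ + ρ) * s') / (1 + θ * s))) s' (θ + ρ) (r + ρ)
        (gaussOp a (ρ / a + vy) f) c0 c1 cy := by
  funext z
  have hI := (int_exact (c := c) ha hs' hρ hvy hss h1 h2 v c0 c1 cy hv g00 g01 g11 g0y g1y gyy hf
    z).2
  have hp := hf.int_exp_pos a (dot c1 z - (r + ρ) * dot c0 z + dot cy z) (Real.sqrt (ρ / a + vy))
  unfold gstep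
  rw [hI, Real.log_mul (by positivity) (by positivity), Real.log_mul (by positivity) (by positivity),
    Real.log_mul (Real.exp_pos _).ne' hp.ne', Real.log_exp, Real.log_exp, Real.log_sqrt (by
      positivity)]
  unfold Fr
  rw [gaussOp, if_neg ha.ne']
  have e1 : Real.log ((1 + θ * s) / (1 + (θ + ρ) * s')) =
      -Real.log ((1 + (θ + ρ) * s') / (1 + θ * s)) := by
    rw [← Real.log_inv, inv_div]
  rw [e1]
  field_simp
  ring

end

end Crest.Agent.R164.EG
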