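import Crest.Agent.R164.GaussNest

/-!
# Row 164: two linear observables of a product Gaussian (helper318)

`law2`: the joint law of two linear functionals of independent Gaussians depends on the Gram
data only.  `level_lintegral`: one level of the cavity recursion.
-/

set_option autoImplicit false

namespace Crest.Agent.R164.GPair

open MeasureTheory ProbabilityTheory ENNReal GTilt

noncomputable section

/-- 1-D law of a linear functional of `γd`. -/
theorem law1 {m : ℕ} (κ : Fin m → ℝ) :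
    (γd m).map (fun g => ∑ k, κ k * g k) = γ.map (fun x => Real.sqrt (∑ k, κ k ^ 2) * x) := by
  have hm1 : Measurable (fun g : Fin m → ℝ => ∑ k, κ k * g k) := by fun_prop
  have hm2 : Measurable (fun x : ℝ => Real.sqrt (∑ k, κ k ^ 2) * x) := by fun_prop
  refine Measure.ext fun S hS => ?_
  have h := multi 0 1 zero_le_one m (fun _ => 0) κ (fun _ => 0) (by intro i; norm_num)
    (S.indicator 1) (measurable_one.indicator hS) 0
  simp only [zero_mul, Real.exp_zero, ENNReal.ofReal_one, one_mul, zero_add, sub_zero,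
    Real.sqrt_one, inv_one, Finset.prod_const_one, mul_one, div_one, mul_zero,
    Finset.sum_const_zero] at h
  rw [Measure.map_apply hm1 hS, Measure.map_apply hm2 hS,
    ← lintegral_indicator_one (hm1 hS), ← lintegral_indicator_one (hm2 hS)]
  exact h

theorem law1p (α β : ℝ) :
    ((γ : Measure ℝ).prod γ).map (fun p => α * p.1 + β * p.2) =
      γ.map (fun x => Real.sqrt (α ^ 2 + β ^ 2) * x) := by
  have hm1 : Measurable (fun p : ℝ × ℝ => α * p.1 + β * p.2) := by fun_prop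
  have hm2 : Measurable (fun x : ℝ => Real.sqrt (α ^ 2 + β ^ 2) * x) := by fun_prop
  refine Measure.ext fun S hS => ?_
  have hi : Measurable (S.indicator (1 : ℝ → ℝ≥0∞)) := measurable_one.indicator hS
  have h := lintegral_add_gauss (S.indicator 1) hi 0 α β
  rw [Measure.map_apply hm1 hS, Measure.map_apply hm2 hS,
    ← lintegral_indicator_one (hm1 hS), ← lintegral_indicator_one (hm2 hS)]
  have e : ∫⁻ a, ((fun x : ℝ => Real.sqrt (α ^ 2 + β ^ 2) * x) ⁻¹' S).indicator 1 a ∂γ =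
      ∫⁻ x, S.indicator 1 (0 + Real.sqrt (α ^ 2 + β ^ 2) * x) ∂γ := by
    refine lintegral_congr fun x => ?_
    rw [zero_add]
    rfl
  rw [e, ← h, lintegral_prod _ ((measurable_one.indicator (hm1 hS)).aemeasurable)]
  refine lintegral_congr fun x => lintegral_congr fun y => ?_
  rw [zero_add]
  rfl

/-- the joint law of two linear functionals only depends on the Gram data. -/
theorem law2 {m : ℕ} (c d : Fin m → ℝ) (a1 a2 b1 b2 : ℝ)
    (h1 : ∑ k, c k ^ 2 = a1 ^ 2 + a2 ^ 2) (h2 : ∑ k, c k * d k = a1 * b1 + a2 * b2)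
    (h3 : ∑ k, d k ^ 2 = b1 ^ 2 + b2 ^ 2) :
    (γd m).map (fun g => ((∑ k, c k * g k, ∑ k, d k * g k) : ℝ × ℝ)) =
      ((γ : Measure ℝ).prod γ).map (fun p => (a1 * p.1 + a2 * p.2, b1 * p.1 + b2 * p.2)) := by
  have hm1 : Measurable (fun g : Fin m → ℝ => ((∑ k, c k * g k, ∑ k, d k * g k) : ℝ × ℝ)) := by
    fun_prop
  have hm2 : Measurable (fun p : ℝ × ℝ => (a1 * p.1 + a2 * p.2, b1 * p.1 + b2 * p.2)) := by
    fun_prop
  have : IsFiniteMeasure ((γd m).map
    (fun g => ((∑ k, c k * g k, ∑ k, d k * g k) : ℝ × ℝ))) := by infer_instance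
  refine Measure.ext_of_charFunDual ?_
  funext L
  rw [charFunDual_eq_charFun_map_one, charFunDual_eq_charFun_map_one]
  congr 1
  rw [Measure.map_map (by fun_prop) hm1, Measure.map_map (by fun_prop) hm2]
  set p := L (1, 0) with hp
  set q := L (0, 1) with hq
  have hL : ∀ x y : ℝ, L (x, y) = p * x + q * y := by
    intro x y
    have : ((x, y) : ℝ × ℝ) = x • (1, 0) + y • (0, 1) := by simp
    rw [this, map_add, map_smul, map_smul, hp, hq]
    simp [mul_comm]
  have e1 : (L ∘ fun g : Fin m → ℝ => ((∑ k, c k * g k, ∑ k, d k * g k) : ℝ × ℝ)) =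
      fun g => ∑ k, (p * c k + q * d k) * g k := by
    funext g
    simp only [Function.comp]
    rw [hL, Finset.mul_sum, Finset.mul_sum, ← Finset.sum_add_distrib]
    exact Finset.sum_congr rfl fun k _ => by ring
  have e2 : (L ∘ fun r : ℝ × ℝ => (a1 * r.1 + a2 * r.2, b1 * r.1 + b2 * r.2)) =
      fun r => (p * a1 + q * b1) * r.1 + (p * a2 + q * b2) * r.2 := by
    funext r
    simp only [Function.comp]
    rw [hL]
    ring
  rw [e1, e2, law1, law1p]
  congr 1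
  have e3 : ∑ k, (p * c k + q * d k) ^ 2 = (p * a1 + q * b1) ^ 2 + (p * a2 + q * b2) ^ 2 := by
    have : ∑ k, (p * c k + q * d k) ^ 2 =
        p ^ 2 * ∑ k, c k ^ 2 + 2 * p * q * ∑ k, c k * d k + q ^ 2 * ∑ k, d k ^ 2 := by
      rw [Finset.mul_sum, Finset.mul_sum, Finset.mul_sum, ← Finset.sum_add_distrib,
        ← Finset.sum_add_distrib]
      exact Finset.sum_congr rfl fun k _ => by ring
    rw [this, h1, h2, h3]
    ring
  rw [e3]

theorem law2_lintegral {m : ℕ} (c d : Fin m → ℝ) (a1 a2 b1 b2 : ℝ)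
    (h1 : ∑ k, c k ^ 2 = a1 ^ 2 + a2 ^ 2) (h2 : ∑ k, c k * d k = a1 * b1 + a2 * b2)
    (h3 : ∑ k, d k ^ 2 = b1 ^ 2 + b2 ^ 2) (Φ : ℝ × ℝ → ℝ≥0∞) (hΦ : Measurable Φ) :
    ∫⁻ g, Φ (∑ k, c k * g k, ∑ k, d k * g k) ∂(γd m) =
      ∫⁻ x, ∫⁻ w, Φ (a1 * x + a2 * w, b1 * x + b2 * w) ∂γ ∂γ := by
  have hm1 : Measurable (fun g : Fin m → ℝ => ((∑ k, c k * g k, ∑ k, d k * g k) : ℝ × ℝ)) := by
    fun_prop
  have hm2 : Measurable (fun p : ℝ × ℝ => (a1 * p.1 + a2 * p.2, b1 * p.1 + b2 * p.2)) := by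
    fun_prop
  have h := congrArg (fun μ => ∫⁻ r, Φ r ∂μ) (law2 c d a1 a2 b1 b2 h1 h2 h3)
  have hΦ2 : Measurable (fun p : ℝ × ℝ => Φ (a1 * p.1 + a2 * p.2, b1 * p.1 + b2 * p.2)) :=
    hΦ.comp hm2
  rw [lintegral_map hΦ hm1, lintegral_map hΦ hm2, lintegral_prod _ hΦ2.aemeasurable] at h
  exact h

/-- rotation of the pair of standard Gaussians. -/
theorem rot_lintegral (a b : ℝ) (hab : a ^ 2 + b ^ 2 = 1) (Φ : ℝ × ℝ → ℝ≥0∞) (hΦ : Measurable Φ) :
    ∫⁻ x, ∫⁻ w, Φ (x, w) ∂γ ∂γ =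
      ∫⁻ x, ∫⁻ w, Φ (a * x - b * w, b * x + a * w) ∂γ ∂γ := by
  have h1 := law2_lintegral (m := 2) ![1, 0] ![0, 1] 1 0 0 1 (by simp) (by simp) (by simp) Φ hΦ
  have h2 := law2_lintegral (m := 2) ![1, 0] ![0, 1] a (-b) b a (by simp [hab])
    (by simp; ring) (by simp; linarith) Φ hΦ
  rw [h1] at h2
  simp only [one_mul, zero_mul, add_zero, zero_add, neg_mul] at h2
  rw [h2]
  simp only [sub_eq_add_neg]

/-- one-direction quadratic tilt of a pair of standard Gaussians. -/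
theorem tilt_dir (κ a b : ℝ) (hκ : κ < 1) (hab : a ^ 2 + b ^ 2 = 1)
    (Φ : ℝ × ℝ → ℝ≥0∞) (hΦ : Measurable Φ) :
    ∫⁻ x, ∫⁻ w, ENNReal.ofReal (Real.exp (1 / 2 * (κ * (a * x + b * w) ^ 2))) * Φ (x, w) ∂γ ∂γ =
      ENNReal.ofReal ((Real.sqrt (1 - κ))⁻¹) *
      ∫⁻ x, ∫⁻ w, Φ (a * (Real.sqrt (1 / (1 - κ)) * x) - b * w,
        b * (Real.sqrt (1 / (1 - κ)) * x) + a * w) ∂γ ∂γ := by
  have hm : Measurable (fun p : ℝ × ℝ =>
      ENNReal.ofReal (Real.exp (1 / 2 * (κ * (a * p.1 + b * p.2) ^ 2))) * Φ (p.1, p.2)) :=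
    Measurable.mul (by fun_prop) (hΦ.comp (by fun_prop))
  rw [rot_lintegral a b hab (fun p => ENNReal.ofReal (Real.exp (1 / 2 *
    (κ * (a * p.1 + b * p.2) ^ 2))) * Φ (p.1, p.2)) hm]
  have e1 : ∀ x w : ℝ, a * (a * x - b * w) + b * (b * x + a * w) = x := by
    intro x w
    have : a * (a * x - b * w) + b * (b * x + a * w) = (a ^ 2 + b ^ 2) * x := by ring
    rw [this, hab, one_mul]
  simp only [e1]
  have hGm : Measurable (fun x : ℝ => ∫⁻ w, Φ (a * x - b * w, b * x + a * w) ∂γ) :=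
    Measurable.lintegral_prod_right'
      (f := fun p : ℝ × ℝ => Φ (a * p.1 - b * p.2, b * p.1 + a * p.2)) (hΦ.comp (by fun_prop))
  have e2 : ∀ x : ℝ, ∫⁻ w, ENNReal.ofReal (Real.exp (1 / 2 * (κ * x ^ 2))) *
      Φ (a * x - b * w, b * x + a * w) ∂γ =
      ENNReal.ofReal (Real.exp (1 * (1 / 2 * (κ * (0 + Real.sqrt 1 * x) ^ 2)))) *
      (fun x : ℝ => ∫⁻ w, Φ (a * x - b * w, b * x + a * w) ∂γ) (0 + Real.sqrt 1 * x) := by
    intro x
    have hmm : Measurable (fun w : ℝ => Φ (a * x - b * w, b * x + a * w)) :=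
      hΦ.comp (by fun_prop)
    rw [lintegral_const_mul _ hmm, Real.sqrt_one, zero_add, one_mul, one_mul]
  simp only [e2]
  rw [one_dim 1 κ 1 0 zero_le_one (by linarith) _ hGm]
  simp

/-- Cameron-Martin shift. -/
theorem cm (t : ℝ) (G : ℝ → ℝ≥0∞) (hG : Measurable G) :
    ∫⁻ x, ENNReal.ofReal (Real.exp (t * x)) * G x ∂γ =
      ENNReal.ofReal (Real.exp (t ^ 2 / 2)) * ∫⁻ x, G (x + t) ∂γ := by
  have hmap : γ.map (fun x => x + t) = gaussianReal t 1 := by
    rw [gaussianReal_map_add_const, zero_add]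
  have hR : ∫⁻ x, G (x + t) ∂γ = ∫⁻ z, G z ∂(gaussianReal t 1) := by
    rw [← hmap, lintegral_map hG (by fun_prop)]
  have hEm : Measurable (fun x : ℝ => ENNReal.ofReal (Real.exp (t * x))) := by fun_prop
  have hL := lintegral_gaussianReal 0 one_ne_zero (hEm.mul hG)
  simp only [Pi.mul_apply] at hL
  have hC := lintegral_const_mul (ENNReal.ofReal (Real.exp (t ^ 2 / 2)))
    ((measurable_gaussianPDF t 1).mul hG) (μ := volume)
  simp only [Pi.mul_apply] at hC
  rw [hR, hL, lintegral_gaussianReal t one_ne_zero hG, ← hC]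
  refine lintegral_congr fun z => ?_
  have hgoal : gaussianPDF 0 1 z * ENNReal.ofReal (Real.exp (t * z)) =
      ENNReal.ofReal (Real.exp (t ^ 2 / 2)) * gaussianPDF t 1 z := by
    unfold gaussianPDF
    rw [← ENNReal.ofReal_mul (gaussianPDFReal_nonneg _ _ _), ← ENNReal.ofReal_mul (Real.exp_pos _).le]
    congr 1
    unfold gaussianPDFReal
    rw [mul_left_comm (Real.exp (t ^ 2 / 2)), mul_assoc, ← Real.exp_add, ← Real.exp_add]
    congr 2
    simp only [NNReal.coe_one, mul_one, sub_zero]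
    ring
  rw [← mul_assoc, hgoal, mul_assoc]

/-- general Gaussian integral. -/
theorem gq (A B : ℝ) (hA : A < 1) :
    ∫⁻ x, ENNReal.ofReal (Real.exp (1 / 2 * A * x ^ 2 + B * x)) ∂γ =
      ENNReal.ofReal ((Real.sqrt (1 - A))⁻¹ * Real.exp (B ^ 2 / (2 * (1 - A)))) := by
  have h1 : ∀ x : ℝ, ENNReal.ofReal (Real.exp (1 / 2 * A * x ^ 2 + B * x)) =
      ENNReal.ofReal (Real.exp (B * x)) *
        (fun x : ℝ => ENNReal.ofReal (Real.exp (1 / 2 * A * x ^ 2))) x := by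
    intro x
    rw [← ENNReal.ofReal_mul (Real.exp_pos _).le, ← Real.exp_add, add_comm]
  simp only [h1]
  rw [cm B (fun x : ℝ => ENNReal.ofReal (Real.exp (1 / 2 * A * x ^ 2))) (by fun_prop)]
  have h2 : ∀ x : ℝ, ENNReal.ofReal (Real.exp (1 / 2 * A * (x + B) ^ 2)) =
      ENNReal.ofReal (Real.exp (1 * (1 / 2 * (A * (B + Real.sqrt 1 * x) ^ 2)))) *
        (fun _ : ℝ => (1 : ℝ≥0∞)) (B + Real.sqrt 1 * x) := by
    intro x
    rw [mul_one, Real.sqrt_one, one_mul, one_mul, add_comm x B, mul_assoc]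
  simp only [h2]
  rw [one_dim 1 A 1 B zero_le_one (by linarith) (fun _ => 1) measurable_const]
  simp only [lintegral_const, measure_univ, mul_one, one_mul]
  rw [← ENNReal.ofReal_mul (Real.exp_pos _).le]
  congr 1
  have hA' : (1 - A) ≠ 0 := by linarith
  rw [mul_left_comm, ← Real.exp_add]
  congr 2
  field_simp
  ring

end

end Crest.Agent.R164.GPair
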