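import Crest.Agent.R164.ClipG1
import Crest.Agent.R164.ExactG2
import Crest.Agent.R164.GaussPair

/-!
# Row 164: exponential supersolutions for the exact tilted law (helper318)

One step of the recursion `Fr` of helper716, with an additional exponential of one of the three
coordinates `M = (x - s z)/(1 + θ s)`, `z`, `y`.
-/

set_option autoImplicit false

namespace Crest.Agent.R164.ClipG

open MeasureTheory ProbabilityTheory ENNReal Crest.ProbabilityR.InvariantGlass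
open Crest.Agent.R164.GTilt (γ lintegral_add_gauss Lip)
open Crest.Agent.R164.CavG (gm lin gstep th gval)
open Crest.Agent.R164.EG (Qf Fr dot dot_add step_core three_law meas_Fr meas_dot int_exact
  gstep_exact)

noncomputable section

variable {ι : Type*} [Fintype ι]

/-- the first decoupled coordinate. -/
def Mf (s θ x z : ℝ) : ℝ := (x - s * z) / (1 + θ * s)

theorem Qf_shift {s θ : ℝ} (h : 0 < 1 + θ * s) {a : ℝ} (ha : 0 < a) (t x z : ℝ) :
    a * Qf s θ x (z - t / a) = a * Qf s θ x z + t * Mf s θ x z +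
      1 / 2 * (t ^ 2 / a) * (s / (1 + θ * s)) := by
  unfold Qf Mf
  have := h.ne'
  field_simp
  ring_nf

/-- one step with an arbitrary test function of `(z, y)` and a shift in the quadratic part. -/
theorem lint_gen {a s s' r ρ θ vy : ℝ} (ha : 0 < a) (hs' : 0 ≤ s') (hρ : 0 ≤ ρ) (hvy : 0 ≤ vy)
    (hss : s ≤ s' / (1 + s' * ρ)) (h1 : 0 < 1 + θ * s) (h2 : 0 < 1 + (θ + ρ) * s')
    (v c0 c1 cy : ι → ℝ) (hv : ∀ k, 0 ≤ v k)
    (g00 : ∑ k, v k * (c0 k * c0 k) = (s' - s) / a)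
    (g01 : ∑ k, v k * (c0 k * c1 k) = (s' * (r + ρ) - s * r) / a)
    (g11 : ∑ k, v k * (c1 k * c1 k) =
      ((s' * (r + ρ) ^ 2 + (r + ρ)) - (s * r ^ 2 + r)) / a)
    (g0y : ∑ k, v k * (c0 k * cy k) = 0) (g1y : ∑ k, v k * (c1 k * cy k) = 0)
    (gyy : ∑ k, v k * (cy k * cy k) = vy) (τ : ℝ) (F : ℝ × ℝ → ℝ≥0∞) (hF : Measurable F)
    (z : ι → ℝ) :
    ∫⁻ g, ENNReal.ofReal (Real.exp (a * Qf s θ (dot c0 (sh v z g))
        (dot c1 (sh v z g) - r * dot c0 (sh v z g) - τ))) *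
      F (dot c1 (sh v z g) - r * dot c0 (sh v z g), dot cy (sh v z g)) ∂(gm ι) =
      ENNReal.ofReal (Real.sqrt ((1 + θ * s) / (1 + (θ + ρ) * s')) *
        Real.exp (a * Qf s' (θ + ρ) (dot c0 z) (dot c1 z - (r + ρ) * dot c0 z - τ))) *
      ∫⁻ g, ∫⁻ g₃, F (dot c1 z - (r + ρ) * dot c0 z + Real.sqrt (ρ / a) * g,
        dot cy z + Real.sqrt vy * g₃) ∂γ ∂γ := by
  set x := dot c0 z with hx
  set Y := dot cy z with hY
  set ζ := dot c1 z - (r + ρ) * x with hζ
  have hζ0 : dot c1 z - r * x = ζ + ρ * x := by rw [hζ]; ring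
  set H : (Fin 3 → ℝ) → ℝ≥0∞ := fun X => ENNReal.ofReal (Real.exp (a *
    Qf s θ (x + X 0) (ζ - τ + ρ * x + X 1))) * F (ζ + ρ * x + X 1, Y + X 2) with hH
  have hHm : Measurable H := by
    have h3 : Measurable fun X : Fin 3 → ℝ => Qf s θ (x + X 0) (ζ - τ + ρ * x + X 1) := by
      unfold Qf; fun_prop
    have h4 : Measurable fun X : Fin 3 → ℝ => F (ζ + ρ * x + X 1, Y + X 2) :=
      hF.comp (by fun_prop)
    exact ((h3.const_mul a).exp.ennreal_ofReal).mul h4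
  have hL := three_law ha hs' hρ hvy hss v c0 c1 cy hv g00 g01 g11 g0y g1y gyy H hHm
  have e1 : ∀ g : ι → ℝ, ENNReal.ofReal (Real.exp (a * Qf s θ (dot c0 (sh v z g))
        (dot c1 (sh v z g) - r * dot c0 (sh v z g) - τ))) *
      F (dot c1 (sh v z g) - r * dot c0 (sh v z g), dot cy (sh v z g)) =
        H ![∑ k, (c0 k * Real.sqrt (v k)) * g k,
        ∑ k, (c1 k * Real.sqrt (v k)) * g k - r * ∑ k, (c0 k * Real.sqrt (v k)) * g k,
        ∑ k, (cy k * Real.sqrt (v k)) * g k] := by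
    intro g
    simp only [hH, dot_add, Matrix.cons_val_zero, Matrix.cons_val_one, Matrix.cons_val_two,
      Matrix.head_cons, Matrix.tail_cons]
    rw [← hx, ← hY]
    have e2 : dot c1 z + ∑ k, c1 k * Real.sqrt (v k) * g k -
        r * (x + ∑ k, c0 k * Real.sqrt (v k) * g k) = ζ + ρ * x +
        (∑ k, c1 k * Real.sqrt (v k) * g k - r * ∑ k, c0 k * Real.sqrt (v k) * g k) := by
      rw [← hζ0]; ring
    rw [e2]
    congr 4
    ring_nf
  simp only [e1]
  rw [hL]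
  set h : ℝ → ℝ≥0∞ := fun t => ∫⁻ g₃, F (t + τ, Y + Real.sqrt vy * g₃) ∂γ with hh
  have hhm : Measurable h :=
    Measurable.lintegral_prod_right'
      (f := fun p : ℝ × ℝ => F (p.1 + τ, Y + Real.sqrt vy * p.2)) (hF.comp (by fun_prop))
  have hcore := step_core ha hs' hρ hss h1 h2 x (ζ - τ) h hhm
  have e3 : ∀ g₁ g₂ : ℝ, ∫⁻ g₃, H ![s' / (1 + s' * ρ) * (Real.sqrt (ρ * (1 + s' * ρ) / a) * g₁) +
          Real.sqrt ((s' / (1 + s' * ρ) - s) / a) * g₂,
        Real.sqrt (ρ * (1 + s' * ρ) / a) * g₁, Real.sqrt vy * g₃] ∂γ =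
      ENNReal.ofReal (Real.exp (a * Qf s θ
        (x + s' / (1 + s' * ρ) * (Real.sqrt (ρ * (1 + s' * ρ) / a) * g₁) +
          Real.sqrt ((s' / (1 + s' * ρ) - s) / a) * g₂)
        (ζ - τ + ρ * x + Real.sqrt (ρ * (1 + s' * ρ) / a) * g₁))) *
        h (ζ - τ + ρ * x + Real.sqrt (ρ * (1 + s' * ρ) / a) * g₁) := by
    intro g₁ g₂
    simp only [hH, hh, Matrix.cons_val_zero, Matrix.cons_val_one, Matrix.cons_val_two,
      Matrix.head_cons, Matrix.tail_cons]
    have hm1 : Measurable fun g₃ : ℝ => F (ζ + ρ * x + Real.sqrt (ρ * (1 + s' * ρ) / a) * g₁,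
        Y + Real.sqrt vy * g₃) := hF.comp (by fun_prop)
    rw [lintegral_const_mul _ hm1]
    congr 1
    · congr 4
      ring
    · refine lintegral_congr fun g₃ => ?_
      congr 2
      ring
  simp only [e3]
  rw [hcore]
  congr 1
  simp only [hh]
  refine lintegral_congr fun g => lintegral_congr fun g₃ => ?_
  congr 2
  ring

/-- data of one step. -/
structure Step (a s s' r ρ θ vy : ℝ) (v c0 c1 cy : ι → ℝ) : Prop where
  ha : 0 < a
  hs' : 0 ≤ s'
  hρ : 0 ≤ ρ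
  hvy : 0 ≤ vy
  hss : s ≤ s' / (1 + s' * ρ)
  h1 : 0 < 1 + θ * s
  h2 : 0 < 1 + (θ + ρ) * s'
  hv : ∀ k, 0 ≤ v k
  g00 : ∑ k, v k * (c0 k * c0 k) = (s' - s) / a
  g01 : ∑ k, v k * (c0 k * c1 k) = (s' * (r + ρ) - s * r) / a
  g11 : ∑ k, v k * (c1 k * c1 k) = ((s' * (r + ρ) ^ 2 + (r + ρ)) - (s * r ^ 2 + r)) / a
  g0y : ∑ k, v k * (c0 k * cy k) = 0
  g1y : ∑ k, v k * (c1 k * cy k) = 0
  gyy : ∑ k, v k * (cy k * cy k) = vy

variable {a s s' r ρ θ vy : ℝ} {v c0 c1 cy : ι → ℝ}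

theorem Step.gen (S : Step a s s' r ρ θ vy v c0 c1 cy) (τ : ℝ) (F : ℝ × ℝ → ℝ≥0∞)
    (hF : Measurable F) (z : ι → ℝ) :
    ∫⁻ g, ENNReal.ofReal (Real.exp (a * Qf s θ (dot c0 (sh v z g))
        (dot c1 (sh v z g) - r * dot c0 (sh v z g) - τ))) *
      F (dot c1 (sh v z g) - r * dot c0 (sh v z g), dot cy (sh v z g)) ∂(gm ι) =
      ENNReal.ofReal (Real.sqrt ((1 + θ * s) / (1 + (θ + ρ) * s')) *
        Real.exp (a * Qf s' (θ + ρ) (dot c0 z) (dot c1 z - (r + ρ) * dot c0 z - τ))) *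
      ∫⁻ g, ∫⁻ g₃, F (dot c1 z - (r + ρ) * dot c0 z + Real.sqrt (ρ / a) * g,
        dot cy z + Real.sqrt vy * g₃) ∂γ ∂γ :=
  lint_gen S.ha S.hs' S.hρ S.hvy S.hss S.h1 S.h2 v c0 c1 cy S.hv S.g00 S.g01 S.g11 S.g0y S.g1y
    S.gyy τ F hF z

theorem Step.integrable (S : Step a s s' r ρ θ vy v c0 c1 cy) {f : ℝ → ℝ} (hf : Lip f) (c : ℝ)
    (z : ι → ℝ) :
    Integrable (fun g => Real.exp (a * Fr c s θ r f c0 c1 cy (sh v z g))) (gm ι) :=
  (int_exact (c := c) S.ha S.hs' S.hρ S.hvy S.hss S.h1 S.h2 v c0 c1 cy S.hv S.g00 S.g01 S.g11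
    S.g0y S.g1y S.gyy hf z).1

/-- the new function. -/
def Frn (c a s s' r ρ θ vy : ℝ) (f : ℝ → ℝ) (c0 c1 cy : ι → ℝ) : (ι → ℝ) → ℝ :=
  Fr (c - 1 / (2 * a) * Real.log ((1 + (θ + ρ) * s') / (1 + θ * s))) s' (θ + ρ) (r + ρ)
        (gaussOp a (ρ / a + vy) f) c0 c1 cy

theorem Step.gstep (S : Step a s s' r ρ θ vy v c0 c1 cy) {f : ℝ → ℝ} (hf : Lip f) (c : ℝ) :
    gstep a v (Fr c s θ r f c0 c1 cy) = Frn c a s s' r ρ θ vy f c0 c1 cy :=
  gstep_exact S.ha S.hs' S.hρ S.hvy S.hss S.h1 S.h2 v c0 c1 cy S.hv S.g00 S.g01 S.g11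
    S.g0y S.g1y S.gyy hf

/-- the scalar double integral. -/
def II (a ρ vy : ℝ) (f : ℝ → ℝ) (ζ Y : ℝ) : ℝ≥0∞ :=
  ∫⁻ g, ∫⁻ g₃, ENNReal.ofReal (Real.exp (a * f (ζ + Real.sqrt (ρ / a) * g +
    (Y + Real.sqrt vy * g₃)))) ∂γ ∂γ

theorem Step.exp_new (S : Step a s s' r ρ θ vy v c0 c1 cy) {f : ℝ → ℝ} (hf : Lip f) (c : ℝ)
    (z : ι → ℝ) :
    ENNReal.ofReal (Real.exp (a * Frn c a s s' r ρ θ vy f c0 c1 cy z)) =
      ENNReal.ofReal (Real.exp (a * c)) *
      (ENNReal.ofReal (Real.sqrt ((1 + θ * s) / (1 + (θ + ρ) * s')) *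
        Real.exp (a * Qf s' (θ + ρ) (dot c0 z) (dot c1 z - (r + ρ) * dot c0 z))) *
      II a ρ vy f (dot c1 z - (r + ρ) * dot c0 z) (dot cy z)) := by
  have hI := S.integrable hf c z
  have h1 := exp_gstep S.ha v (Fr c s θ r f c0 c1 cy) z hI
  rw [S.gstep hf c] at h1
  rw [h1, ofReal_integral_eq_lintegral_ofReal hI (ae_of_all _ fun g => (Real.exp_pos _).le)]
  have hfm : Measurable f := hf.continuous.measurable
  have hF : Measurable fun p : ℝ × ℝ => ENNReal.ofReal (Real.exp (a * f (p.1 + p.2))) :=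
    ((hfm.comp (by fun_prop : Measurable fun p : ℝ × ℝ => p.1 + p.2)).const_mul a).exp.ennreal_ofReal
  have h2 := S.gen 0 _ hF z
  simp only [sub_zero] at h2
  unfold II
  rw [← h2, ← lintegral_const_mul]
  · refine lintegral_congr fun g => ?_
    rw [← ENNReal.ofReal_mul (Real.exp_pos _).le, ← ENNReal.ofReal_mul (Real.exp_pos _).le,
      ← Real.exp_add, ← Real.exp_add]
    congr 2
    unfold Fr
    ring
  · have m0 : Measurable fun g : ι → ℝ => dot c0 (sh v z g) := (meas_dot c0).comp (measurable_sh v z)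
    have m1 : Measurable fun g : ι → ℝ => dot c1 (sh v z g) := (meas_dot c1).comp (measurable_sh v z)
    have my : Measurable fun g : ι → ℝ => dot cy (sh v z g) := (meas_dot cy).comp (measurable_sh v z)
    have mQ : Measurable fun g : ι → ℝ => Qf s θ (dot c0 (sh v z g))
        (dot c1 (sh v z g) - r * dot c0 (sh v z g)) := by
      unfold Qf; fun_prop
    have mf : Measurable fun g : ι → ℝ => f (dot c1 (sh v z g) - r * dot c0 (sh v z g) +
        dot cy (sh v z g)) := hfm.comp (by fun_prop)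
    exact ((mQ.const_mul a).exp.ennreal_ofReal).mul ((mf.const_mul a).exp.ennreal_ofReal)

/-- tilted average of `exp (t M) E(z, y)`. -/
theorem Step.tilt (S : Step a s s' r ρ θ vy v c0 c1 cy) {f : ℝ → ℝ} (hf : Lip f) (c : ℝ)
    (z : ι → ℝ) (t : ℝ) (E : ℝ × ℝ → ℝ≥0∞) (hE : Measurable E) (C : ℝ≥0∞)
    (hC : ∫⁻ g, ∫⁻ g₃, E (dot c1 z - (r + ρ) * dot c0 z + Real.sqrt (ρ / a) * g,
        dot cy z + Real.sqrt vy * g₃) * ENNReal.ofReal (Real.exp (a * f (dot c1 z -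
          (r + ρ) * dot c0 z + Real.sqrt (ρ / a) * g + (dot cy z + Real.sqrt vy * g₃)))) ∂γ ∂γ ≤
      C * II a ρ vy f (dot c1 z - (r + ρ) * dot c0 z) (dot cy z)) :
    ∫⁻ g, (ENNReal.ofReal (Real.exp (t * Mf s θ (dot c0 (sh v z g))
        (dot c1 (sh v z g) - r * dot c0 (sh v z g)))) *
      E (dot c1 (sh v z g) - r * dot c0 (sh v z g), dot cy (sh v z g))) *
      ENNReal.ofReal (Real.exp (a * (Fr c s θ r f c0 c1 cy (sh v z g) -
        Frn c a s s' r ρ θ vy f c0 c1 cy z))) ∂(gm ι) ≤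
    ENNReal.ofReal (Real.exp (t * Mf s' (θ + ρ) (dot c0 z) (dot c1 z - (r + ρ) * dot c0 z) +
      1 / 2 * (t ^ 2 / a) * (s' / (1 + (θ + ρ) * s') - s / (1 + θ * s)))) * C := by
  have hfm : Measurable f := hf.continuous.measurable
  set x := dot c0 z with hx
  set Y := dot cy z with hY
  set ζ := dot c1 z - (r + ρ) * x with hζ
  set Fn := Frn c a s s' r ρ θ vy f c0 c1 cy z with hFn
  set F : ℝ × ℝ → ℝ≥0∞ := fun p => E p * ENNReal.ofReal (Real.exp (a * f (p.1 + p.2))) with hFd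
  have hF : Measurable F := hE.mul
    ((hfm.comp (by fun_prop : Measurable fun p : ℝ × ℝ => p.1 + p.2)).const_mul a).exp.ennreal_ofReal
  have hgen := S.gen (t / a) F hF z
  rw [← hx, ← hY, ← hζ] at hgen
  -- constants
  set k0 : ℝ := -(a * Fn) + a * c - 1 / 2 * (t ^ 2 / a) * (s / (1 + θ * s)) with hk0
  have e1 : ∀ g : ι → ℝ, (ENNReal.ofReal (Real.exp (t * Mf s θ (dot c0 (sh v z g))
        (dot c1 (sh v z g) - r * dot c0 (sh v z g)))) *
      E (dot c1 (sh v z g) - r * dot c0 (sh v z g), dot cy (sh v z g))) *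
      ENNReal.ofReal (Real.exp (a * (Fr c s θ r f c0 c1 cy (sh v z g) - Fn))) =
      ENNReal.ofReal (Real.exp k0) *
      (ENNReal.ofReal (Real.exp (a * Qf s θ (dot c0 (sh v z g))
        (dot c1 (sh v z g) - r * dot c0 (sh v z g) - t / a))) *
      F (dot c1 (sh v z g) - r * dot c0 (sh v z g), dot cy (sh v z g))) := by
    intro g
    simp only [hFd]
    rw [mul_right_comm, ← ENNReal.ofReal_mul (Real.exp_pos _).le, ← Real.exp_add,
      mul_comm (E _), ← mul_assoc, ← mul_assoc, ← ENNReal.ofReal_mul (Real.exp_pos _).le,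
      ← Real.exp_add, ← ENNReal.ofReal_mul (Real.exp_pos _).le, ← Real.exp_add]
    congr 3
    rw [Qf_shift S.h1 S.ha, hk0]
    unfold Fr
    ring
  simp only [e1]
  rw [lintegral_const_mul]
  · rw [hgen]
    have hsh := Qf_shift S.h2 S.ha t x ζ
    rw [hsh]
    have hnew := S.exp_new hf c z
    rw [← hx, ← hY, ← hζ, ← hFn] at hnew
    have hone : ENNReal.ofReal (Real.exp (-(a * Fn))) * ENNReal.ofReal (Real.exp (a * Fn)) = 1 := by
      rw [← ENNReal.ofReal_mul (Real.exp_pos _).le, ← Real.exp_add]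
      simp
    rw [hnew] at hone
    set sq := Real.sqrt ((1 + θ * s) / (1 + (θ + ρ) * s')) with hsq
    have hsq0 : 0 ≤ sq := Real.sqrt_nonneg _
    set m1 := t * Mf s' (θ + ρ) x ζ with hm1
    set q1 := a * Qf s' (θ + ρ) x ζ with hq1
    calc ENNReal.ofReal (Real.exp k0) * (ENNReal.ofReal (sq * Real.exp (q1 + m1 +
          1 / 2 * (t ^ 2 / a) * (s' / (1 + (θ + ρ) * s')))) *
          ∫⁻ g, ∫⁻ g₃, F (ζ + Real.sqrt (ρ / a) * g, Y + Real.sqrt vy * g₃) ∂γ ∂γ)
        ≤ ENNReal.ofReal (Real.exp k0) * (ENNReal.ofReal (sq * Real.exp (q1 + m1 +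
          1 / 2 * (t ^ 2 / a) * (s' / (1 + (θ + ρ) * s')))) * (C * II a ρ vy f ζ Y)) := by
          gcongr
      _ = ENNReal.ofReal (Real.exp (m1 +
            1 / 2 * (t ^ 2 / a) * (s' / (1 + (θ + ρ) * s') - s / (1 + θ * s)))) * C *
          (ENNReal.ofReal (Real.exp (-(a * Fn))) * (ENNReal.ofReal (Real.exp (a * c)) *
            (ENNReal.ofReal (sq * Real.exp q1) * II a ρ vy f ζ Y))) := by
          have h3 : ENNReal.ofReal (Real.exp k0) * ENNReal.ofReal (sq * Real.exp (q1 + m1 +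
              1 / 2 * (t ^ 2 / a) * (s' / (1 + (θ + ρ) * s')))) =
              ENNReal.ofReal (Real.exp (m1 +
                1 / 2 * (t ^ 2 / a) * (s' / (1 + (θ + ρ) * s') - s / (1 + θ * s)))) *
              (ENNReal.ofReal (Real.exp (-(a * Fn))) * (ENNReal.ofReal (Real.exp (a * c)) *
                ENNReal.ofReal (sq * Real.exp q1))) := by
            rw [← ENNReal.ofReal_mul (Real.exp_pos _).le, ← ENNReal.ofReal_mul (Real.exp_pos _).le,
              ← ENNReal.ofReal_mul (Real.exp_pos _).le, ← ENNReal.ofReal_mul (Real.exp_pos _).le]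
            congr 1
            have h4 : Real.exp k0 * (sq * Real.exp (q1 + m1 +
              1 / 2 * (t ^ 2 / a) * (s' / (1 + (θ + ρ) * s')))) = sq * (Real.exp k0 *
              Real.exp (q1 + m1 + 1 / 2 * (t ^ 2 / a) * (s' / (1 + (θ + ρ) * s')))) := by ring
            have h5 : Real.exp (m1 +
                1 / 2 * (t ^ 2 / a) * (s' / (1 + (θ + ρ) * s') - s / (1 + θ * s))) *
              (Real.exp (-(a * Fn)) * (Real.exp (a * c) * (sq * Real.exp q1))) =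
              sq * (Real.exp (m1 +
                1 / 2 * (t ^ 2 / a) * (s' / (1 + (θ + ρ) * s') - s / (1 + θ * s))) *
              (Real.exp (-(a * Fn)) * (Real.exp (a * c) * Real.exp q1))) := by ring
            rw [h4, h5, ← Real.exp_add, ← Real.exp_add, ← Real.exp_add, ← Real.exp_add]
            congr 2
            rw [hk0]
            ring
          calc _ = (ENNReal.ofReal (Real.exp k0) * ENNReal.ofReal (sq * Real.exp (q1 + m1 +
              1 / 2 * (t ^ 2 / a) * (s' / (1 + (θ + ρ) * s'))))) * (C * II a ρ vy f ζ Y) := by ring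
            _ = _ := by rw [h3]; ring
      _ = ENNReal.ofReal (Real.exp (m1 +
            1 / 2 * (t ^ 2 / a) * (s' / (1 + (θ + ρ) * s') - s / (1 + θ * s)))) * C := by
          rw [hone, mul_one]
  · have m0 : Measurable fun g : ι → ℝ => dot c0 (sh v z g) := (meas_dot c0).comp (measurable_sh v z)
    have m1 : Measurable fun g : ι → ℝ => dot c1 (sh v z g) := (meas_dot c1).comp (measurable_sh v z)
    have my : Measurable fun g : ι → ℝ => dot cy (sh v z g) := (meas_dot cy).comp (measurable_sh v z)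
    have mQ : Measurable fun g : ι → ℝ => Qf s θ (dot c0 (sh v z g))
        (dot c1 (sh v z g) - r * dot c0 (sh v z g) - t / a) := by
      unfold Qf; fun_prop
    have mF : Measurable fun g : ι → ℝ => F (dot c1 (sh v z g) - r * dot c0 (sh v z g),
        dot cy (sh v z g)) := hF.comp ((m1.sub (m0.const_mul r)).prodMk my)
    exact ((mQ.const_mul a).exp.ennreal_ofReal).mul mF

end

end Crest.Agent.R164.ClipG
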