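import Crest.Agent.R164.ClipG2

/-!
# Row 164: exponential supersolutions, part 2 (helper318)
-/

set_option autoImplicit false

namespace Crest.Agent.R164.ClipG

open MeasureTheory ProbabilityTheory ENNReal Crest.ProbabilityR.InvariantGlass
open Crest.Agent.R164.GTilt (γ lintegral_add_gauss Lip)
open Crest.Agent.R164.CavG (gm lin gstep th gval)
open Crest.Agent.R164.EG (Qf Fr dot dot_add step_core three_law meas_Fr meas_dot int_exact
  gstep_exact)
open Crest.Agent.R164.GPair (cm)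

noncomputable section

variable {ι : Type*} [Fintype ι]
variable {a s s' r ρ θ vy : ℝ} {v c0 c1 cy : ι → ℝ}

/-- exponential of the z coordinate. -/
theorem II_z (ha : 0 < a) (hρ : 0 ≤ ρ) {f : ℝ → ℝ} (hf : Lip f) (ζ Y t : ℝ) :
    ∫⁻ g, ∫⁻ g₃, ENNReal.ofReal (Real.exp (t * (ζ + Real.sqrt (ρ / a) * g))) *
        ENNReal.ofReal (Real.exp (a * f (ζ + Real.sqrt (ρ / a) * g + (Y + Real.sqrt vy * g₃))))
          ∂γ ∂γ ≤
      ENNReal.ofReal (Real.exp (t * ζ + (1 / 2 * t ^ 2 * (ρ / a) + |t| * ρ))) * II a ρ vy f ζ Y := by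
  have hfm : Measurable f := hf.continuous.measurable
  have hFm : Measurable fun u : ℝ => ENNReal.ofReal (Real.exp (a * f u)) :=
    (hfm.const_mul a).exp.ennreal_ofReal
  set q := Real.sqrt (ρ / a) with hq
  have hq2 : q ^ 2 = ρ / a := Real.sq_sqrt (div_nonneg hρ ha.le)
  set Φ : ℝ → ℝ≥0∞ := fun g => ∫⁻ g₃, ENNReal.ofReal (Real.exp (a * f (ζ + q * g +
    (Y + Real.sqrt vy * g₃)))) ∂γ with hΦ
  have hΦm : Measurable Φ :=
    Measurable.lintegral_prod_right' (f := fun p : ℝ × ℝ => ENNReal.ofReal (Real.exp (a *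
      f (ζ + q * p.1 + (Y + Real.sqrt vy * p.2))))) (hFm.comp (by fun_prop))
  have e1 : ∀ g : ℝ, ∫⁻ g₃, ENNReal.ofReal (Real.exp (t * (ζ + q * g))) *
        ENNReal.ofReal (Real.exp (a * f (ζ + q * g + (Y + Real.sqrt vy * g₃)))) ∂γ =
      ENNReal.ofReal (Real.exp (t * ζ)) * (ENNReal.ofReal (Real.exp ((t * q) * g)) * Φ g) := by
    intro g
    have hm : Measurable fun g₃ : ℝ => ENNReal.ofReal (Real.exp (a *
        f (ζ + q * g + (Y + Real.sqrt vy * g₃)))) := hFm.comp (by fun_prop)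
    rw [lintegral_const_mul _ hm, ← mul_assoc, ← ENNReal.ofReal_mul (Real.exp_pos _).le,
      ← Real.exp_add]
    congr 4
    ring
  simp only [e1]
  have hm2 : Measurable fun g : ℝ => ENNReal.ofReal (Real.exp ((t * q) * g)) * Φ g :=
    Measurable.mul (by fun_prop) hΦm
  rw [lintegral_const_mul _ hm2, cm (t * q) Φ hΦm]
  have h3 : ∀ g : ℝ, Φ (g + t * q) ≤ ENNReal.ofReal (Real.exp (|t| * ρ)) * Φ g := by
    intro g
    simp only [hΦ]
    have hm : Measurable fun g₃ : ℝ => ENNReal.ofReal (Real.exp (a *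
        f (ζ + q * g + (Y + Real.sqrt vy * g₃)))) := hFm.comp (by fun_prop)
    rw [← lintegral_const_mul _ hm]
    refine lintegral_mono fun g₃ => ?_
    rw [← ENNReal.ofReal_mul (Real.exp_pos _).le, ← Real.exp_add]
    apply ENNReal.ofReal_le_ofReal
    apply Real.exp_le_exp.mpr
    have h4 := hf (ζ + q * (g + t * q) + (Y + Real.sqrt vy * g₃))
      (ζ + q * g + (Y + Real.sqrt vy * g₃))
    have e2 : ζ + q * (g + t * q) + (Y + Real.sqrt vy * g₃) -
        (ζ + q * g + (Y + Real.sqrt vy * g₃)) = t * q ^ 2 := by ring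
    rw [e2, hq2, abs_mul, abs_of_nonneg (div_nonneg hρ ha.le)] at h4
    have h5 := (abs_le.mp h4).2
    have h6 := mul_le_mul_of_nonneg_left h5 ha.le
    have e3 : a * (|t| * (ρ / a)) = |t| * ρ := by field_simp
    rw [e3] at h6
    linarith
  calc ENNReal.ofReal (Real.exp (t * ζ)) * (ENNReal.ofReal (Real.exp ((t * q) ^ 2 / 2)) *
        ∫⁻ g, Φ (g + t * q) ∂γ)
      ≤ ENNReal.ofReal (Real.exp (t * ζ)) * (ENNReal.ofReal (Real.exp ((t * q) ^ 2 / 2)) *
        ∫⁻ g, ENNReal.ofReal (Real.exp (|t| * ρ)) * Φ g ∂γ) := by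
        gcongr with g
        exact h3 g
    _ = ENNReal.ofReal (Real.exp (t * ζ)) * (ENNReal.ofReal (Real.exp ((t * q) ^ 2 / 2)) *
        (ENNReal.ofReal (Real.exp (|t| * ρ)) * II a ρ vy f ζ Y)) := by
        rw [lintegral_const_mul _ hΦm]
        rfl
    _ = _ := by
        rw [← mul_assoc, ← mul_assoc, ← ENNReal.ofReal_mul (Real.exp_pos _).le,
          ← ENNReal.ofReal_mul (by positivity), ← Real.exp_add, ← Real.exp_add]
        congr 3
        have : (t * q) ^ 2 = t ^ 2 * (ρ / a) := by rw [mul_pow, hq2]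
        rw [this]
        ring

/-- exponential of the label coordinate. -/
theorem II_y (ha : 0 < a) (hvy : 0 ≤ vy) {f : ℝ → ℝ} (hf : Lip f) (ζ Y t : ℝ) :
    ∫⁻ g, ∫⁻ g₃, ENNReal.ofReal (Real.exp (t * (Y + Real.sqrt vy * g₃))) *
        ENNReal.ofReal (Real.exp (a * f (ζ + Real.sqrt (ρ / a) * g + (Y + Real.sqrt vy * g₃))))
          ∂γ ∂γ ≤
      ENNReal.ofReal (Real.exp (t * Y + (1 / 2 * t ^ 2 * vy + |t| * (a * vy)))) *
        II a ρ vy f ζ Y := by
  have hfm : Measurable f := hf.continuous.measurable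
  have hFm : Measurable fun u : ℝ => ENNReal.ofReal (Real.exp (a * f u)) :=
    (hfm.const_mul a).exp.ennreal_ofReal
  set q := Real.sqrt vy with hq
  have hq2 : q ^ 2 = vy := Real.sq_sqrt hvy
  unfold II
  have hmI : Measurable fun g : ℝ => ∫⁻ g₃, ENNReal.ofReal (Real.exp (a *
      f (ζ + Real.sqrt (ρ / a) * g + (Y + q * g₃)))) ∂γ :=
    Measurable.lintegral_prod_right' (f := fun p : ℝ × ℝ => ENNReal.ofReal (Real.exp (a *
      f (ζ + Real.sqrt (ρ / a) * p.1 + (Y + q * p.2))))) (hFm.comp (by fun_prop))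
  rw [← lintegral_const_mul _ hmI]
  refine lintegral_mono fun g => ?_
  have hm : Measurable fun g₃ : ℝ => ENNReal.ofReal (Real.exp (a *
        f (ζ + Real.sqrt (ρ / a) * g + (Y + q * g₃)))) := hFm.comp (by fun_prop)
  have e1 : ∀ g₃ : ℝ, ENNReal.ofReal (Real.exp (t * (Y + q * g₃))) *
        ENNReal.ofReal (Real.exp (a * f (ζ + Real.sqrt (ρ / a) * g + (Y + q * g₃)))) =
      ENNReal.ofReal (Real.exp (t * Y)) * (ENNReal.ofReal (Real.exp ((t * q) * g₃)) *
        ENNReal.ofReal (Real.exp (a * f (ζ + Real.sqrt (ρ / a) * g + (Y + q * g₃))))) := by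
    intro g₃
    have e : ENNReal.ofReal (Real.exp (t * (Y + q * g₃))) =
        ENNReal.ofReal (Real.exp (t * Y)) * ENNReal.ofReal (Real.exp ((t * q) * g₃)) := by
      rw [← ENNReal.ofReal_mul (Real.exp_pos _).le, ← Real.exp_add]
      congr 2
      ring
    rw [e, mul_assoc]
  simp only [e1]
  have hm2 : Measurable fun g₃ : ℝ => ENNReal.ofReal (Real.exp ((t * q) * g₃)) *
        ENNReal.ofReal (Real.exp (a * f (ζ + Real.sqrt (ρ / a) * g + (Y + q * g₃)))) :=
    Measurable.mul (by fun_prop) hm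
  rw [lintegral_const_mul _ hm2,
    cm (t * q) (fun g₃ : ℝ => ENNReal.ofReal (Real.exp (a *
        f (ζ + Real.sqrt (ρ / a) * g + (Y + q * g₃))))) hm]
  have h3 : ∀ g₃ : ℝ, ENNReal.ofReal (Real.exp (a *
        f (ζ + Real.sqrt (ρ / a) * g + (Y + q * (g₃ + t * q))))) ≤
      ENNReal.ofReal (Real.exp (|t| * (a * vy))) * ENNReal.ofReal (Real.exp (a *
        f (ζ + Real.sqrt (ρ / a) * g + (Y + q * g₃)))) := by
    intro g₃
    rw [← ENNReal.ofReal_mul (Real.exp_pos _).le, ← Real.exp_add]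
    apply ENNReal.ofReal_le_ofReal
    apply Real.exp_le_exp.mpr
    have h4 := hf (ζ + Real.sqrt (ρ / a) * g + (Y + q * (g₃ + t * q)))
      (ζ + Real.sqrt (ρ / a) * g + (Y + q * g₃))
    have e2 : ζ + Real.sqrt (ρ / a) * g + (Y + q * (g₃ + t * q)) -
        (ζ + Real.sqrt (ρ / a) * g + (Y + q * g₃)) = t * q ^ 2 := by ring
    rw [e2, hq2, abs_mul, abs_of_nonneg hvy] at h4
    have h5 := (abs_le.mp h4).2
    have h6 := mul_le_mul_of_nonneg_left h5 ha.le
    have e3 : a * (|t| * vy) = |t| * (a * vy) := by ring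
    rw [e3] at h6
    linarith
  calc _ ≤ ENNReal.ofReal (Real.exp (t * Y)) * (ENNReal.ofReal (Real.exp ((t * q) ^ 2 / 2)) *
        ∫⁻ g₃, ENNReal.ofReal (Real.exp (|t| * (a * vy))) * ENNReal.ofReal (Real.exp (a *
        f (ζ + Real.sqrt (ρ / a) * g + (Y + q * g₃)))) ∂γ) := by
        gcongr with g₃
        exact h3 g₃
    _ = _ := by
        rw [lintegral_const_mul _ hm, ← mul_assoc, ← mul_assoc, ← mul_assoc,
          ← ENNReal.ofReal_mul (Real.exp_pos _).le,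
          ← ENNReal.ofReal_mul (by positivity), ← Real.exp_add, ← Real.exp_add]
        congr 3
        have : (t * q) ^ 2 = t ^ 2 * vy := by rw [mul_pow, hq2]
        rw [this]
        ring

/-- the tilt density of one step -/
def dens (a c s s' r ρ θ vy : ℝ) (f : ℝ → ℝ) (v c0 c1 cy z g : ι → ℝ) : ℝ≥0∞ :=
  ENNReal.ofReal (Real.exp (a * (Fr c s θ r f c0 c1 cy (sh v z g) -
        Frn c a s s' r ρ θ vy f c0 c1 cy z)))

theorem Step.tilt_M (S : Step a s s' r ρ θ vy v c0 c1 cy) {f : ℝ → ℝ} (hf : Lip f) (c : ℝ)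
    (z : ι → ℝ) (t : ℝ) :
    ∫⁻ g, ENNReal.ofReal (Real.exp (t * Mf s θ (dot c0 (sh v z g))
        (dot c1 (sh v z g) - r * dot c0 (sh v z g)))) *
        dens a c s s' r ρ θ vy f v c0 c1 cy z g ∂(gm ι) ≤
    ENNReal.ofReal (Real.exp (t * Mf s' (θ + ρ) (dot c0 z) (dot c1 z - (r + ρ) * dot c0 z) +
      1 / 2 * (t ^ 2 / a) * (s' / (1 + (θ + ρ) * s') - s / (1 + θ * s)))) := by
  have h := S.tilt hf c z t (fun _ => 1) measurable_const 1 (by
    simp only [one_mul]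
    exact le_rfl)
  unfold dens
  simpa only [mul_one] using h

theorem Step.tilt_z (S : Step a s s' r ρ θ vy v c0 c1 cy) {f : ℝ → ℝ} (hf : Lip f) (c : ℝ)
    (z : ι → ℝ) (t : ℝ) :
    ∫⁻ g, ENNReal.ofReal (Real.exp (t * (dot c1 (sh v z g) - r * dot c0 (sh v z g)))) *
        dens a c s s' r ρ θ vy f v c0 c1 cy z g ∂(gm ι) ≤
    ENNReal.ofReal (Real.exp (t * (dot c1 z - (r + ρ) * dot c0 z) +
      (1 / 2 * t ^ 2 * (ρ / a) + |t| * ρ))) := by
  have h := S.tilt hf c z 0 (fun p => ENNReal.ofReal (Real.exp (t * p.1))) (by fun_prop) _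
    (II_z S.ha S.hρ hf _ _ t)
  have e : (0 : ℝ) ^ 2 = 0 := by norm_num
  unfold dens
  simpa only [zero_mul, Real.exp_zero, ENNReal.ofReal_one, one_mul, e, zero_div, mul_zero,
    add_zero] using h

theorem Step.tilt_y (S : Step a s s' r ρ θ vy v c0 c1 cy) {f : ℝ → ℝ} (hf : Lip f) (c : ℝ)
    (z : ι → ℝ) (t : ℝ) :
    ∫⁻ g, ENNReal.ofReal (Real.exp (t * dot cy (sh v z g))) *
        dens a c s s' r ρ θ vy f v c0 c1 cy z g ∂(gm ι) ≤
    ENNReal.ofReal (Real.exp (t * dot cy z + (1 / 2 * t ^ 2 * vy + |t| * (a * vy)))) := by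
  have h := S.tilt hf c z 0 (fun p => ENNReal.ofReal (Real.exp (t * p.2))) (by fun_prop) _
    (II_y S.ha S.hvy hf _ _ t)
  have e : (0 : ℝ) ^ 2 = 0 := by norm_num
  unfold dens
  simpa only [zero_mul, Real.exp_zero, ENNReal.ofReal_one, one_mul, e, zero_div, mul_zero,
    add_zero] using h

end

end Crest.Agent.R164.ClipG
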