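import Crest.Agent.R164.ClipG3

/-!
# Row 164: uniform truncation of the nested Gaussian functional (helper318)
-/

set_option autoImplicit false

namespace Crest.Agent.R164.ClipG

open MeasureTheory ProbabilityTheory ENNReal Crest.ProbabilityR.InvariantGlass
open Crest.Agent.R164.GTilt (γ lintegral_add_gauss Lip)
open Crest.Agent.R164.CavG (gm lin gstep th gval th_zero th_succ)
open Crest.Agent.R164.EG (Qf Fr dot dot_add step_core three_law meas_Fr meas_dot int_exact
  gstep_exact)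
open Crest.Agent.R164.GPair (cm)

noncomputable section

variable {ι : Type*} [Fintype ι]
variable {a s s' r ρ θ vy : ℝ} {v c0 c1 cy : ι → ℝ}

/-- `e^u + e^{-u}` -/
def ee (u : ℝ) : ℝ≥0∞ := ENNReal.ofReal (Real.exp (1 * u)) + ENNReal.ofReal (Real.exp ((-1) * u))

theorem measurable_ee : Measurable ee := by unfold ee; fun_prop

theorem meas_dens (c : ℝ) {f : ℝ → ℝ} (hf : Measurable f) (z : ι → ℝ) :
    Measurable (dens a c s s' r ρ θ vy f v c0 c1 cy z) := by
  unfold dens
  have h : Measurable fun g : ι → ℝ => Fr c s θ r f c0 c1 cy (sh v z g) :=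
    (meas_Fr c s θ r hf c0 c1 cy).comp (measurable_sh v z)
  exact (((h.sub_const _).const_mul a).exp).ennreal_ofReal

omit [Fintype ι] in
theorem ee_step {μ : Measure (ι → ℝ)} (D : (ι → ℝ) → ℝ≥0∞) (hD : Measurable D)
    (U : (ι → ℝ) → ℝ) (hU : Measurable U) (u δ : ℝ)
    (h : ∀ t : ℝ, t ^ 2 = 1 → |t| = 1 → ∫⁻ g, ENNReal.ofReal (Real.exp (t * U g)) * D g ∂μ ≤
      ENNReal.ofReal (Real.exp (t * u + δ))) :
    ∫⁻ g, ee (U g) * D g ∂μ ≤ ENNReal.ofReal (Real.exp δ) * ee u := by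
  have h1 := h 1 (by norm_num) (by norm_num)
  have h2 := h (-1) (by norm_num) (by norm_num)
  have e : ∀ g, ee (U g) * D g = ENNReal.ofReal (Real.exp (1 * U g)) * D g +
      ENNReal.ofReal (Real.exp ((-1) * U g)) * D g := by
    intro g; unfold ee; rw [add_mul]
  simp only [e]
  have hm1 : Measurable fun g => ENNReal.ofReal (Real.exp (1 * U g)) * D g :=
    Measurable.mul ((hU.const_mul 1).exp.ennreal_ofReal) hD
  rw [lintegral_add_left hm1]
  refine (add_le_add h1 h2).trans (le_of_eq ?_)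
  unfold ee
  rw [Real.exp_add, Real.exp_add, ENNReal.ofReal_mul (Real.exp_pos _).le,
    ENNReal.ofReal_mul (Real.exp_pos _).le]
  ring

/-- the supersolution -/
def Gf (C s θ r : ℝ) (c0 c1 cy : ι → ℝ) (z : ι → ℝ) : ℝ≥0∞ :=
  ENNReal.ofReal C * (ee (Mf s θ (dot c0 z) (dot c1 z - r * dot c0 z)) +
    ee (dot c1 z - r * dot c0 z) + ee (dot cy z))

/-- exponent increment of one step -/
def dl (a s s' ρ θ vy : ℝ) : ℝ :=
  1 / 2 * (1 / a) * (s' / (1 + (θ + ρ) * s') - s / (1 + θ * s)) + (1 / 2 * (ρ / a) + ρ) +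
    (1 / 2 * vy + a * vy)

theorem Step.dM_nonneg (S : Step a s s' r ρ θ vy v c0 c1 cy) :
    0 ≤ s' / (1 + (θ + ρ) * s') - s / (1 + θ * s) := by
  have hE : 0 < 1 + s' * ρ := by have := mul_nonneg S.hs' S.hρ; linarith
  have h := S.hss
  rw [le_div_iff₀ hE] at h
  rw [sub_nonneg, div_le_div_iff₀ S.h1 S.h2]
  nlinarith

theorem Gf_step (S : Step a s s' r ρ θ vy v c0 c1 cy) {f : ℝ → ℝ} (hf : Lip f) (c C : ℝ)
    (hC : 0 ≤ C) (z : ι → ℝ) :
    ∫⁻ g, Gf C s θ r c0 c1 cy (sh v z g) * dens a c s s' r ρ θ vy f v c0 c1 cy z g ∂(gm ι) ≤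
      Gf (C * Real.exp (dl a s s' ρ θ vy)) s' (θ + ρ) (r + ρ) c0 c1 cy z := by
  have hD := meas_dens (a := a) (s := s) (s' := s') (r := r) (ρ := ρ) (θ := θ) (vy := vy) (v := v)
    (c0 := c0) (c1 := c1) (cy := cy) c hf.continuous.measurable z
  set D := dens a c s s' r ρ θ vy f v c0 c1 cy z with hDd
  have m0 : Measurable fun g : ι → ℝ => dot c0 (sh v z g) := (meas_dot c0).comp (measurable_sh v z)
  have m1 : Measurable fun g : ι → ℝ => dot c1 (sh v z g) := (meas_dot c1).comp (measurable_sh v z)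
  have my : Measurable fun g : ι → ℝ => dot cy (sh v z g) := (meas_dot cy).comp (measurable_sh v z)
  have mz : Measurable fun g : ι → ℝ => dot c1 (sh v z g) - r * dot c0 (sh v z g) := by fun_prop
  have mM : Measurable fun g : ι → ℝ => Mf s θ (dot c0 (sh v z g))
      (dot c1 (sh v z g) - r * dot c0 (sh v z g)) := by unfold Mf; fun_prop
  have ha := S.ha
  have hdM := S.dM_nonneg
  have hρ := S.hρ
  have hvy := S.hvy
  have p1 : 0 ≤ 1 / 2 * (1 / a) * (s' / (1 + (θ + ρ) * s') - s / (1 + θ * s)) := by positivity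
  have p2 : 0 ≤ 1 / 2 * (ρ / a) + ρ := by positivity
  have p3 : 0 ≤ 1 / 2 * vy + a * vy := by positivity
  set δ := dl a s s' ρ θ vy with hδ
  have kM := ee_step (μ := gm ι) D hD _ mM (Mf s' (θ + ρ) (dot c0 z)
    (dot c1 z - (r + ρ) * dot c0 z)) δ (fun t ht _ => by
      refine (S.tilt_M hf c z t).trans (ENNReal.ofReal_le_ofReal (Real.exp_le_exp.mpr ?_))
      rw [ht, hδ]; unfold dl; linarith)
  have kz := ee_step (μ := gm ι) D hD _ mz (dot c1 z - (r + ρ) * dot c0 z) δ (fun t ht ht' => by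
      refine (S.tilt_z hf c z t).trans (ENNReal.ofReal_le_ofReal (Real.exp_le_exp.mpr ?_))
      rw [ht, ht', hδ]; unfold dl; linarith)
  have ky := ee_step (μ := gm ι) D hD _ my (dot cy z) δ (fun t ht ht' => by
      refine (S.tilt_y hf c z t).trans (ENNReal.ofReal_le_ofReal (Real.exp_le_exp.mpr ?_))
      rw [ht, ht', hδ]; unfold dl; linarith)
  have e : ∀ g, Gf C s θ r c0 c1 cy (sh v z g) * D g = ENNReal.ofReal C *
      (ee (Mf s θ (dot c0 (sh v z g)) (dot c1 (sh v z g) - r * dot c0 (sh v z g))) * D g +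
      ee (dot c1 (sh v z g) - r * dot c0 (sh v z g)) * D g + ee (dot cy (sh v z g)) * D g) := by
    intro g
    unfold Gf
    ring
  simp only [e]
  have q1 : Measurable fun g : ι → ℝ => ee (Mf s θ (dot c0 (sh v z g))
      (dot c1 (sh v z g) - r * dot c0 (sh v z g))) * D g := (measurable_ee.comp mM).mul hD
  have q2 : Measurable fun g : ι → ℝ => ee (dot c1 (sh v z g) - r * dot c0 (sh v z g)) * D g :=
    (measurable_ee.comp mz).mul hD
  have q3 : Measurable fun g : ι → ℝ => ee (dot cy (sh v z g)) * D g := (measurable_ee.comp my).mul hD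
  have q12 : Measurable fun g : ι → ℝ => ee (Mf s θ (dot c0 (sh v z g))
      (dot c1 (sh v z g) - r * dot c0 (sh v z g))) * D g +
      ee (dot c1 (sh v z g) - r * dot c0 (sh v z g)) * D g := q1.add q2
  have q123 : Measurable fun g : ι → ℝ => ee (Mf s θ (dot c0 (sh v z g))
      (dot c1 (sh v z g) - r * dot c0 (sh v z g))) * D g +
      ee (dot c1 (sh v z g) - r * dot c0 (sh v z g)) * D g + ee (dot cy (sh v z g)) * D g :=
    q12.add q3
  rw [lintegral_const_mul _ q123, lintegral_add_left q12, lintegral_add_left q1]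
  unfold Gf
  rw [ENNReal.ofReal_mul hC, mul_assoc]
  gcongr
  rw [mul_add, mul_add]
  exact add_le_add (add_le_add kM kz) ky

/-- untilted average of exponentials of linear functionals. -/
theorem lint_exp_dot (v : ι → ℝ) (hv : ∀ k, 0 ≤ v k) (c z : ι → ℝ) (t : ℝ) :
    ∫⁻ g, ENNReal.ofReal (Real.exp (t * dot c (sh v z g))) ∂(gm ι) =
      ENNReal.ofReal (Real.exp (t * dot c z + 1 / 2 * t ^ 2 * ∑ k, v k * (c k * c k))) := by
  have hG : ∀ i j : Fin 1, ∑ k, (fun (_ : Fin 1) (k : ι) => c k * Real.sqrt (v k)) i k *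
      (fun (_ : Fin 1) (k : ι) => c k * Real.sqrt (v k)) j k =
      ∑ k : Fin 1, (fun (_ : Fin 1) (_ : Fin 1) => Real.sqrt (∑ k, v k * (c k * c k))) i k *
        (fun (_ : Fin 1) (_ : Fin 1) => Real.sqrt (∑ k, v k * (c k * c k))) j k := by
    intro i j
    simp only [Finset.univ_unique, Finset.sum_singleton]
    rw [Real.mul_self_sqrt (Finset.sum_nonneg fun k _ => mul_nonneg (hv k) (mul_self_nonneg _))]
    refine Finset.sum_congr rfl fun k _ => ?_
    have := Real.mul_self_sqrt (hv k)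
    linear_combination (c k * c k) * this
  have hlaw := CavG.law_lin _ _ hG
  set q := Real.sqrt (∑ k, v k * (c k * c k)) with hq
  have hq2 : q ^ 2 = ∑ k, v k * (c k * c k) :=
    Real.sq_sqrt (Finset.sum_nonneg fun k _ => mul_nonneg (hv k) (mul_self_nonneg _))
  have hF : Measurable fun X : Fin 1 → ℝ => ENNReal.ofReal (Real.exp (t * (dot c z + X 0))) := by
    fun_prop
  have h := congrArg (fun μ => ∫⁻ X, ENNReal.ofReal (Real.exp (t * (dot c z + X 0))) ∂μ) hlaw
  rw [lintegral_map hF (CavG.measurable_lin _), lintegral_map hF (CavG.measurable_lin _)] at h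
  have e1 : ∀ g : ι → ℝ, ENNReal.ofReal (Real.exp (t * dot c (sh v z g))) =
      ENNReal.ofReal (Real.exp (t * (dot c z + lin (fun (_ : Fin 1) (k : ι) =>
        c k * Real.sqrt (v k)) g 0))) := by
    intro g
    show ENNReal.ofReal (Real.exp (t * dot c (fun k => z k + Real.sqrt (v k) * g k))) = _
    rw [dot_add]
    rfl
  simp only [e1]
  rw [h]
  have e2 : ∀ X : Fin 1 → ℝ, ENNReal.ofReal (Real.exp (t * (dot c z +
      lin (fun (_ : Fin 1) (_ : Fin 1) => q) X 0))) =
      ENNReal.ofReal (Real.exp (t * dot c z)) *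
        ENNReal.ofReal (Real.exp (1 / 2 * 0 * (X 0) ^ 2 + (t * q) * (X 0))) := by
    intro X
    rw [← ENNReal.ofReal_mul (Real.exp_pos _).le, ← Real.exp_add]
    congr 2
    simp only [lin, Finset.univ_unique, Finset.sum_singleton, Fin.default_eq_zero]
    ring
  simp only [e2]
  rw [lintegral_const_mul _ (by fun_prop)]
  have e3 : ∫⁻ X : Fin 1 → ℝ, ENNReal.ofReal (Real.exp (1 / 2 * 0 * (X 0) ^ 2 + (t * q) * (X 0)))
      ∂(gm (Fin 1)) = ∫⁻ x, ENNReal.ofReal (Real.exp (1 / 2 * 0 * x ^ 2 + (t * q) * x)) ∂γ := by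
    have hmp := measurePreserving_eval (fun _ : Fin 1 => gaussianReal 0 1) 0
    have hmF : Measurable fun x : ℝ => ENNReal.ofReal (Real.exp (1 / 2 * 0 * x ^ 2 +
      (t * q) * x)) := by fun_prop
    exact hmp.lintegral_comp hmF
  rw [e3, GPair.gq 0 (t * q) zero_lt_one, ← ENNReal.ofReal_mul (Real.exp_pos _).le]
  congr 1
  rw [sub_zero, Real.sqrt_one, inv_one, one_mul, ← Real.exp_add]
  congr 1
  have : (t * q) ^ 2 = t ^ 2 * (∑ k, v k * (c k * c k)) := by rw [mul_pow, hq2]
  rw [this]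
  ring

end

end Crest.Agent.R164.ClipG
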