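import Crest.Agent.R164.ExactG3

/-!
Row 164, exact value of the nested Gaussian functional, part 4: the whole recursion and the bottom
expectation (helper716).
-/

set_option autoImplicit false

namespace Crest.Agent.R164.EG

open MeasureTheory ProbabilityTheory ENNReal Crest.ProbabilityR.InvariantGlass
open Crest.Agent.R164.PAlg
open Crest.Agent.R164.GTilt (γ Lip)
open Crest.Agent.R164.CavG (gm lin gstep th gval th_zero th_succ integral_one integrable_abs_lin
  integrable_eval_gm integral_sq_gaussian)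

noncomputable section

section gen

variable {κ : Type*} [Fintype κ]

theorem sq_lin (u : κ → ℝ) : Integrable (fun g : κ → ℝ => (∑ i, u i * g i) ^ 2) (gm κ) ∧
    ∫ g, (∑ i, u i * g i) ^ 2 ∂(gm κ) = ∑ i, u i ^ 2 := by
  constructor
  · have h1 : ∀ i ∈ (Finset.univ : Finset κ), MemLp (fun g : κ → ℝ => u i * g i) 2 (gm κ) := by
      intro i _
      refine MemLp.const_mul ?_ _
      exact (memLp_id_gaussianReal (μ := 0) (v := 1) 2).comp_measurePreserving
        (measurePreserving_eval (fun _ : κ => gaussianReal 0 1) i)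
    have h2 := memLp_finsetSum Finset.univ h1
    exact h2.integrable_sq
  · rw [integral_one u (F := fun y => y ^ 2) (by fun_prop)]
    simp only [mul_pow]
    rw [integral_const_mul, integral_sq_gaussian, mul_one,
      Real.sq_sqrt (Finset.sum_nonneg fun i _ => sq_nonneg _)]

theorem mul_lin (u u' : κ → ℝ) :
    Integrable (fun g : κ → ℝ => (∑ i, u i * g i) * (∑ i, u' i * g i)) (gm κ) ∧
    ∫ g, (∑ i, u i * g i) * (∑ i, u' i * g i) ∂(gm κ) = ∑ i, u i * u' i := by
  have e : ∀ g : κ → ℝ, (∑ i, u i * g i) * (∑ i, u' i * g i) =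
      (1 / 2) * (∑ i, (u i + u' i) * g i) ^ 2 - (1 / 2) * (∑ i, u i * g i) ^ 2 -
        (1 / 2) * (∑ i, u' i * g i) ^ 2 := by
    intro g
    have : ∑ i, (u i + u' i) * g i = ∑ i, u i * g i + ∑ i, u' i * g i := by
      rw [← Finset.sum_add_distrib]; exact Finset.sum_congr rfl fun i _ => by ring
    rw [this]; ring
  simp only [e]
  have h1 := sq_lin (fun i => u i + u' i)
  have h2 := sq_lin u
  have h3 := sq_lin u'
  refine ⟨((h1.1.const_mul _).sub (h2.1.const_mul _)).sub (h3.1.const_mul _), ?_⟩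
  have a1 := h1.1.const_mul (1 / 2)
  have a2 := h2.1.const_mul (1 / 2)
  have a3 := h3.1.const_mul (1 / 2)
  have b1 := integral_sub (a1.sub a2) a3
  simp only [Pi.sub_apply] at b1
  rw [b1, integral_sub a1 a2, integral_const_mul, integral_const_mul,
    integral_const_mul, h1.2, h2.2, h3.2, Finset.mul_sum, Finset.mul_sum, Finset.mul_sum,
    ← Finset.sum_sub_distrib, ← Finset.sum_sub_distrib]
  exact Finset.sum_congr rfl fun i _ => by ring

theorem lip_lin {f : ℝ → ℝ} (hf : Lip f) (u : κ → ℝ) :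
    Integrable (fun g : κ → ℝ => f (∑ i, u i * g i)) (gm κ) ∧
    ∫ g, f (∑ i, u i * g i) ∂(gm κ) = gaussOp 0 (∑ i, u i ^ 2) f 0 := by
  constructor
  · refine ((integrable_const |f 0|).add (integrable_abs_lin u)).mono' ?_ ?_
    · exact (hf.continuous.comp (by fun_prop)).aestronglyMeasurable
    · exact ae_of_all _ fun g => hf.le_add _
  · rw [integral_one u (F := f) hf.continuous.measurable, gaussOp, if_pos rfl]
    simp only [zero_add]

/-- bottom expectation of the recursion function. -/
theorem bot_exact {c s r θ P0 P1 P2 vy : ℝ} {f : ℝ → ℝ} (hf : Lip f)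
    (v c0 c1 cy : κ → ℝ) (hv : ∀ k, 0 ≤ v k)
    (g00 : ∑ k, v k * (c0 k * c0 k) = P0)
    (g01 : ∑ k, v k * (c0 k * c1 k) = P1 + r * P0)
    (g11 : ∑ k, v k * (c1 k * c1 k) = P2 + 2 * r * P1 + r ^ 2 * P0)
    (g0y : ∑ k, v k * (c0 k * cy k) = 0) (g1y : ∑ k, v k * (c1 k * cy k) = 0)
    (gyy : ∑ k, v k * (cy k * cy k) = vy) :
    ∫ g, Fr c s θ r f c0 c1 cy (fun k => Real.sqrt (v k) * g k) ∂(gm κ) =
      c + -(θ * P0 + 2 * P1 - s * P2) / (2 * (1 + θ * s)) + gaussOp 0 (P2 + vy) f 0 := by
  have hd : ∀ (c' : κ → ℝ) (g : κ → ℝ), dot c' (fun k => Real.sqrt (v k) * g k) =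
      ∑ k, (c' k * Real.sqrt (v k)) * g k := by
    intro c' g; unfold dot; exact Finset.sum_congr rfl fun k _ => by ring
  set u0 : κ → ℝ := fun k => c0 k * Real.sqrt (v k) with hu0
  set uz : κ → ℝ := fun k => (c1 k - r * c0 k) * Real.sqrt (v k) with huz
  set uf : κ → ℝ := fun k => (c1 k - r * c0 k + cy k) * Real.sqrt (v k) with huf
  have e1 : ∀ g : κ → ℝ, Fr c s θ r f c0 c1 cy (fun k => Real.sqrt (v k) * g k) =
      c + (-θ / (2 * (1 + θ * s)) * (∑ k, u0 k * g k) ^ 2 +
        -2 / (2 * (1 + θ * s)) * ((∑ k, u0 k * g k) * (∑ k, uz k * g k)) +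
        s / (2 * (1 + θ * s)) * (∑ k, uz k * g k) ^ 2) + f (∑ k, uf k * g k) := by
    intro g
    unfold Fr
    rw [hd, hd, hd]
    have e2 : ∑ k, (c1 k * Real.sqrt (v k)) * g k - r * ∑ k, (c0 k * Real.sqrt (v k)) * g k =
        ∑ k, uz k * g k := by
      rw [Finset.mul_sum, ← Finset.sum_sub_distrib]
      exact Finset.sum_congr rfl fun k _ => by simp only [huz]; ring
    have e3 : ∑ k, uz k * g k + ∑ k, (cy k * Real.sqrt (v k)) * g k = ∑ k, uf k * g k := by
      rw [← Finset.sum_add_distrib]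
      exact Finset.sum_congr rfl fun k _ => by simp only [huz, huf]; ring
    rw [e2, e3]
    unfold Qf
    ring
  have hsq : ∀ k, Real.sqrt (v k) ^ 2 = v k := fun k => Real.sq_sqrt (hv k)
  have s00 : ∑ k, u0 k ^ 2 = P0 := by
    rw [← g00]
    exact Finset.sum_congr rfl fun k _ => by
      simp only [hu0]; rw [mul_pow, hsq]; ring
  have s01 : ∑ k, u0 k * uz k = P1 := by
    have : ∑ k, u0 k * uz k = ∑ k, v k * (c0 k * c1 k) - r * ∑ k, v k * (c0 k * c0 k) := by
      rw [Finset.mul_sum, ← Finset.sum_sub_distrib]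
      exact Finset.sum_congr rfl fun k _ => by
        simp only [hu0, huz]; linear_combination (c0 k * (c1 k - r * c0 k)) * hsq k
    rw [this, g00, g01]; ring
  have s11 : ∑ k, uz k ^ 2 = P2 := by
    have : ∑ k, uz k ^ 2 = ∑ k, v k * (c1 k * c1 k) - 2 * r * ∑ k, v k * (c0 k * c1 k) +
        r ^ 2 * ∑ k, v k * (c0 k * c0 k) := by
      rw [Finset.mul_sum, Finset.mul_sum, ← Finset.sum_sub_distrib, ← Finset.sum_add_distrib]
      exact Finset.sum_congr rfl fun k _ => by
        simp only [huz]; linear_combination (c1 k - r * c0 k) ^ 2 * hsq k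
    rw [this, g00, g01, g11]; ring
  have sff : ∑ k, uf k ^ 2 = P2 + vy := by
    have : ∑ k, uf k ^ 2 = ∑ k, uz k ^ 2 + 2 * (∑ k, v k * (c1 k * cy k) -
        r * ∑ k, v k * (c0 k * cy k)) + ∑ k, v k * (cy k * cy k) := by
      rw [Finset.mul_sum, ← Finset.sum_sub_distrib, Finset.mul_sum, ← Finset.sum_add_distrib,
        ← Finset.sum_add_distrib]
      exact Finset.sum_congr rfl fun k _ => by
        simp only [huf, huz]
        linear_combination (2 * (c1 k - r * c0 k) * cy k + cy k ^ 2) * hsq k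
    rw [this, s11, g0y, g1y, gyy]; ring
  have i0 := sq_lin u0
  have i1 := mul_lin u0 uz
  have i2 := sq_lin uz
  have i3 := lip_lin hf uf
  simp only [e1]
  have a0 := i0.1.const_mul (-θ / (2 * (1 + θ * s)))
  have a1 := i1.1.const_mul (-2 / (2 * (1 + θ * s)))
  have a2 := i2.1.const_mul (s / (2 * (1 + θ * s)))
  have a3 := (a0.add a1).add a2
  have a4 := (integrable_const (μ := gm κ) c).add a3
  have h1 := integral_add a4 i3.1
  simp only [Pi.add_apply] at h1
  have h2 := integral_add (integrable_const (μ := gm κ) c) a3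
  simp only [Pi.add_apply] at h2
  have h3 := integral_add (a0.add a1) a2
  simp only [Pi.add_apply] at h3
  have h4 := integral_add a0 a1
  rw [h1, h2, h3, h4, integral_const_mul, integral_const_mul, integral_const_mul, i0.2, i1.2, i2.2,
    i3.2, s00, s01, s11, sff]
  simp only [integral_const, probReal_univ, one_smul]
  ring

end gen

/-! ### the cavity index type -/

section cav

variable {K : ℕ} (w val : Fin (K + 1) → ℝ)

/-- coefficients of `z₀ = Σ z_k` -/
def oc0 : Option (Fin (K + 1)) → ℝ := fun o => o.elim 0 fun _ => 1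

/-- coefficients of `ξ = z₁ - m₁ z₀` -/
def oc1 : Option (Fin (K + 1)) → ℝ := fun o => o.elim 0 fun k => val k - m1 w val

/-- coefficients of the label variable -/
def ocy : Option (Fin (K + 1)) → ℝ := fun o => o.elim 1 fun _ => 0

/-- the one-site function at depth `n` -/
def fs (b : ℝ) (y S vy : ℕ → ℝ) : ℕ → ℝ → ℝ
  | 0 => fun t => Real.log (Real.cosh (t + b))
  | n + 1 => gaussOp (y n) ((RR w val (S (n + 1)) - RR w val (S n)) / y n + vy n) (fs b y S vy n)

/-- the additive constant at depth `n` for the new eigenvalue `val l` -/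
def cst (y S : ℕ → ℝ) (l : Fin (K + 1)) : ℕ → ℝ
  | 0 => m1 w val / 2
  | n + 1 => cst y S l n - 1 / (2 * y n) * Real.log ((1 + (RR w val (S (n + 1)) - val l) *
      S (n + 1)) / (1 + (RR w val (S n) - val l) * S n))

/-- the leaf function -/
def WF (b : ℝ) (l : Fin (K + 1)) : (Option (Fin (K + 1)) → ℝ) → ℝ :=
  Fr (m1 w val / 2) 0 (m1 w val - val l) 0 (fun t => Real.log (Real.cosh (t + b))) oc0 (oc1 w val)
    ocy

variable {w val}

theorem dot_oc0 (z : Option (Fin (K + 1)) → ℝ) : dot oc0 z = ∑ k, z (some k) := by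
  unfold dot oc0
  rw [Fintype.sum_option]
  simp

theorem dot_oc1 (z : Option (Fin (K + 1)) → ℝ) : dot (oc1 w val) z =
    ∑ k, val k * z (some k) - m1 w val * ∑ k, z (some k) := by
  unfold dot oc1
  rw [Fintype.sum_option]
  simp only [Option.elim_none, zero_mul, Option.elim_some, zero_add]
  rw [Finset.mul_sum, ← Finset.sum_sub_distrib]
  exact Finset.sum_congr rfl fun k _ => by ring

theorem dot_ocy (z : Option (Fin (K + 1)) → ℝ) : dot ocy z = z none := by
  unfold dot ocy
  rw [Fintype.sum_option]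
  simp

/-- helper562's weight is `WF`. -/
theorem WF_eq (b : ℝ) (l : Fin (K + 1)) (z : Option (Fin (K + 1)) → ℝ) :
    WF w val b l z = Real.log ((1 / 2) *
      (Real.exp ((1 - ∑ k, z (some k)) * (∑ k, val k * z (some k)) +
          (1 / 2) * (1 - ∑ k, z (some k)) ^ 2 * m1 w val +
          (1 / 2) * val l * (∑ k, z (some k)) ^ 2 + b + z none) +
        Real.exp ((-1 - ∑ k, z (some k)) * (∑ k, val k * z (some k)) +
          (1 / 2) * (-1 - ∑ k, z (some k)) ^ 2 * m1 w val +
          (1 / 2) * val l * (∑ k, z (some k)) ^ 2 - b - z none))) := by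
  unfold WF Fr
  rw [dot_oc0, dot_oc1, dot_ocy]
  set z0 := ∑ k, z (some k)
  set z1 := ∑ k, val k * z (some k)
  set M := m1 w val
  have e1 : (1 / 2) * (Real.exp ((1 - z0) * z1 + (1 / 2) * (1 - z0) ^ 2 * M +
        (1 / 2) * val l * z0 ^ 2 + b + z none) +
      Real.exp ((-1 - z0) * z1 + (1 / 2) * (-1 - z0) ^ 2 * M + (1 / 2) * val l * z0 ^ 2 -
        b - z none)) =
      Real.exp (M / 2 + Qf 0 (M - val l) z0 (z1 - M * z0)) *
        Real.cosh (z1 - M * z0 + z none + b) := by
    set A := M / 2 + Qf 0 (M - val l) z0 (z1 - M * z0) with hA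
    set u := z1 - M * z0 + z none + b with hu
    have a1 : (1 - z0) * z1 + (1 / 2) * (1 - z0) ^ 2 * M + (1 / 2) * val l * z0 ^ 2 + b + z none =
        A + u := by
      rw [hA, hu]; unfold Qf; ring
    have a2 : (-1 - z0) * z1 + (1 / 2) * (-1 - z0) ^ 2 * M + (1 / 2) * val l * z0 ^ 2 - b -
        z none = A + -u := by
      rw [hA, hu]; unfold Qf; ring
    rw [a1, a2, Real.exp_add A u, Real.exp_add A (-u), Real.cosh_eq]
    ring
  rw [e1, Real.log_mul (Real.exp_pos _).ne' (Real.cosh_pos _).ne', Real.log_exp]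
  simp only [zero_mul, sub_zero]

theorem lip_shift {f : ℝ → ℝ} (hf : Lip f) (b : ℝ) : Lip (fun t => f (t + b)) := by
  intro x y
  have := hf (x + b) (y + b)
  rwa [add_sub_add_right_eq_sub] at this

theorem lip_fs (b : ℝ) {y S vy : ℕ → ℝ} {J : ℕ} (hy : ∀ n, n ≤ J → 0 < y n) :
    ∀ n, n ≤ J + 1 → Lip (fs w val b y S vy n)
  | 0, _ => lip_shift Crest.Agent.R164.GTilt.lip_log_cosh b
  | n + 1, h => by
    rw [fs]
    exact (lip_fs b hy n (by omega)).lip_gaussOp (hy n (by omega)).le _

variable (hv : StrictMono val) (hw : ∀ k, 0 < w k) (hs : ∑ k, w k = 1)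
include hv hw hs

theorem th_exact (b : ℝ) (l : Fin (K + 1)) {J : ℕ} {y S vy : ℕ → ℝ}
    {v : ℕ → Option (Fin (K + 1)) → ℝ} (hS0 : S 0 = 0) (hSm : ∀ n, n ≤ J → S n ≤ S (n + 1))
    (hy : ∀ n, n ≤ J → 0 < y n) (hvy : ∀ n, n ≤ J → 0 ≤ vy n)
    (hvk : ∀ n, n ≤ J → ∀ k, v n (some k) = (DK w val (S (n + 1)) k - DK w val (S n) k) / y n)
    (hvn : ∀ n, n ≤ J → v n none = vy n) :
    ∀ n, n ≤ J + 1 → th y v (WF w val b l) n =
      Fr (cst w val y S l n) (S n) (RR w val (S n) - val l) (RR w val (S n) - m1 w val)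
        (fs w val b y S vy n) oc0 (oc1 w val) ocy
  | 0, _ => by
    rw [th_zero, WF, cst, fs, hS0, RR_zero hw hs]
    unfold m1
    rw [sub_self]
  | n + 1, h => by
    have hSn : ∀ m, m ≤ J + 1 → 0 ≤ S m := by
      intro m
      induction m with
      | zero => intro _; rw [hS0]
      | succ m ih => intro hm; exact (ih (by omega)).trans (hSm m (by omega))
    have hn : n ≤ J := by omega
    have ih := th_exact b l hS0 hSm hy hvy hvk hvn n (by omega)
    have hyn := hy n hn
    have h0 := hSn n (by omega)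
    have h0' := hSn (n + 1) (by omega)
    have hρ := sub_nonneg.2 (RR_mono hv hw hs h0 (hSm n hn))
    rw [th_succ, ih]
    have hstep := gstep_exact (f := fs w val b y S vy n) (c := cst w val y S l n) (s := S n)
      (s' := S (n + 1))
      (r := RR w val (S n) - m1 w val) (ρ := RR w val (S (n + 1)) - RR w val (S n))
      (θ := RR w val (S n) - val l) (vy := vy n) hyn h0' hρ (hvy n hn)
      (cond_s hv hw hs h0 (hSm n hn)) (theta_pos hv hw hs h0 l)
      (by
        have := theta_pos hv hw hs h0' l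
        have e : RR w val (S n) - val l + (RR w val (S (n + 1)) - RR w val (S n)) =
          RR w val (S (n + 1)) - val l := by ring
        rw [e]; exact this)
      (v n) oc0 (oc1 w val) ocy
      (fun o => by
        cases o with
        | none => rw [hvn n hn]; exact hvy n hn
        | some k =>
          rw [hvk n hn]
          exact div_nonneg (sub_nonneg.2 (DK_mono hv hw hs h0 (hSm n hn) k)) hyn.le)
      (by
        rw [Fintype.sum_option]
        simp only [oc0, Option.elim_none, Option.elim_some, mul_zero, zero_add, mul_one]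
        rw [Finset.sum_congr rfl fun k _ => hvk n hn k, ← Finset.sum_div, Finset.sum_sub_distrib,
          sum_DK hv hw hs h0, sum_DK hv hw hs h0'])
      (by
        rw [Fintype.sum_option]
        simp only [oc0, oc1, Option.elim_none, Option.elim_some, mul_zero, zero_add, one_mul]
        have e : ∀ k, v n (some k) * (val k - m1 w val) =
            ((DK w val (S (n + 1)) k * val k - m1 w val * DK w val (S (n + 1)) k) -
             (DK w val (S n) k * val k - m1 w val * DK w val (S n) k)) / y n := by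
          intro k; rw [hvk n hn]; ring
        rw [Finset.sum_congr rfl fun k _ => e k, ← Finset.sum_div, Finset.sum_sub_distrib,
          Finset.sum_sub_distrib, Finset.sum_sub_distrib, ← Finset.mul_sum, ← Finset.mul_sum,
          sum_DK hv hw hs h0, sum_DK hv hw hs h0', sum_DK_val hv hw hs h0,
          sum_DK_val hv hw hs h0']
        congr 1
        ring)
      (by
        rw [Fintype.sum_option]
        simp only [oc1, Option.elim_none, Option.elim_some, mul_zero, zero_add]
        have e : ∀ k, v n (some k) * ((val k - m1 w val) * (val k - m1 w val)) =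
            ((DK w val (S (n + 1)) k * val k ^ 2 - 2 * m1 w val * (DK w val (S (n + 1)) k * val k) +
              m1 w val ^ 2 * DK w val (S (n + 1)) k) -
             (DK w val (S n) k * val k ^ 2 - 2 * m1 w val * (DK w val (S n) k * val k) +
              m1 w val ^ 2 * DK w val (S n) k)) / y n := by
          intro k; rw [hvk n hn]; ring
        rw [Finset.sum_congr rfl fun k _ => e k, ← Finset.sum_div, Finset.sum_sub_distrib,
          Finset.sum_add_distrib, Finset.sum_add_distrib, Finset.sum_sub_distrib,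
          Finset.sum_sub_distrib, ← Finset.mul_sum, ← Finset.mul_sum, ← Finset.mul_sum,
          ← Finset.mul_sum, sum_DK hv hw hs h0, sum_DK hv hw hs h0', sum_DK_val hv hw hs h0,
          sum_DK_val hv hw hs h0', sum_DK_val2 hv hw hs h0, sum_DK_val2 hv hw hs h0']
        congr 1
        ring)
      (by
        rw [Fintype.sum_option]
        simp [oc0, ocy])
      (by
        rw [Fintype.sum_option]
        simp [oc1, ocy])
      (by
        rw [Fintype.sum_option]
        simp [ocy, hvn n hn])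
      (lip_fs b hy n (by omega))
    rw [hstep, cst, fs]
    congr 1 <;> ring_nf

/-- bottom covariances -/
theorem sum_q0 {x : ℝ} (hx : 0 < x) :
    ∑ k, w k * ((bb w val x - val k)⁻¹) ^ 2 / g2 w val (bb w val x) = 1 ∧
    ∑ k, w k * ((bb w val x - val k)⁻¹) ^ 2 / g2 w val (bb w val x) * (val k - m1 w val) =
      x * RD w val x + (RR w val x - m1 w val) * 1 ∧
    ∑ k, w k * ((bb w val x - val k)⁻¹) ^ 2 / g2 w val (bb w val x) *
      ((val k - m1 w val) * (val k - m1 w val)) =
      RD w val x + 2 * (RR w val x - m1 w val) * (x * RD w val x) +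
        (RR w val x - m1 w val) ^ 2 * 1 := by
  have hgt := bb_gt hv hw hs hx
  have hg := g2_pos hw hgt
  have hsum := bb_sum hv hw hs hx
  set b := bb w val x with hb
  set G := g2 w val b with hG
  have hGd : ∑ k, w k * ((b - val k)⁻¹) ^ 2 = G := rfl
  have hne : ∀ k, b - val k ≠ 0 := fun k => by have := hgt k; intro h; linarith
  have hRR : RR w val x = b - 1 / x := by rw [RR_eq hx]
  have hRD : RD w val x = (x ^ 2)⁻¹ - G⁻¹ := rfl
  set M := m1 w val with hM
  have e1 : ∑ k, w k * ((b - val k)⁻¹) ^ 2 * val k = b * G - x := by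
    have : ∀ k, w k * ((b - val k)⁻¹) ^ 2 * val k =
        b * (w k * ((b - val k)⁻¹) ^ 2) - w k * (b - val k)⁻¹ := by
      intro k
      have := hne k
      field_simp
      ring
    rw [Finset.sum_congr rfl fun k _ => this k, Finset.sum_sub_distrib, ← Finset.mul_sum, hGd, hsum]
  have e2 : ∑ k, w k * ((b - val k)⁻¹) ^ 2 * val k ^ 2 = b ^ 2 * G - 2 * b * x + 1 := by
    have : ∀ k, w k * ((b - val k)⁻¹) ^ 2 * val k ^ 2 =
        b ^ 2 * (w k * ((b - val k)⁻¹) ^ 2) - 2 * b * (w k * (b - val k)⁻¹) + w k := by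
      intro k
      have := hne k
      field_simp
      ring
    rw [Finset.sum_congr rfl fun k _ => this k, Finset.sum_add_distrib, Finset.sum_sub_distrib,
      ← Finset.mul_sum, ← Finset.mul_sum, hGd, hsum, hs]
  refine ⟨?_, ?_, ?_⟩
  · rw [← Finset.sum_div, hGd]
    exact div_self hg.ne'
  · have : ∀ k, w k * ((b - val k)⁻¹) ^ 2 / G * (val k - M) =
        (w k * ((b - val k)⁻¹) ^ 2 * val k - M * (w k * ((b - val k)⁻¹) ^ 2)) / G := by
      intro k; ring
    rw [Finset.sum_congr rfl fun k _ => this k, ← Finset.sum_div, Finset.sum_sub_distrib,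
      ← Finset.mul_sum, e1, hGd, hRR, hRD]
    field_simp
    ring
  · have : ∀ k, w k * ((b - val k)⁻¹) ^ 2 / G * ((val k - M) * (val k - M)) =
        (w k * ((b - val k)⁻¹) ^ 2 * val k ^ 2 - 2 * M * (w k * ((b - val k)⁻¹) ^ 2 * val k) +
          M ^ 2 * (w k * ((b - val k)⁻¹) ^ 2)) / G := by
      intro k; ring
    rw [Finset.sum_congr rfl fun k _ => this k, ← Finset.sum_div, Finset.sum_add_distrib,
      Finset.sum_sub_distrib, ← Finset.mul_sum, ← Finset.mul_sum, e1, e2, hGd, hRR, hRD]
    field_simp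
    ring

theorem gval_exact (b : ℝ) (l : Fin (K + 1)) {J : ℕ} {y S vy : ℕ → ℝ} {p0 : ℝ}
    {v : ℕ → Option (Fin (K + 1)) → ℝ} (hS0 : S 0 = 0) (hSm : ∀ n, n ≤ J → S n ≤ S (n + 1))
    (hy : ∀ n, n ≤ J → 0 < y n) (hvy : ∀ n, n ≤ J + 1 → 0 ≤ vy n)
    (hvk : ∀ n, n ≤ J → ∀ k, v n (some k) = (DK w val (S (n + 1)) k - DK w val (S n) k) / y n)
    (hvn : ∀ n, n ≤ J + 1 → v n none = vy n) (hSp : 0 < S (J + 1)) (hp0 : 0 ≤ p0)
    (hvb : ∀ k, v (J + 1) (some k) = p0 * (w k * ((bb w val (S (J + 1)) - val k)⁻¹) ^ 2 /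
      g2 w val (bb w val (S (J + 1))))) :
    gval J y v (WF w val b l) = cst w val y S l (J + 1) +
      -(1 / 2) * (p0 * ((RR w val (S (J + 1)) - val l + S (J + 1) * RD w val (S (J + 1))) /
        (1 + (RR w val (S (J + 1)) - val l) * S (J + 1)))) +
      gaussOp 0 (p0 * RD w val (S (J + 1)) + vy (J + 1)) (fs w val b y S vy (J + 1)) 0 := by
  have hth := th_exact hv hw hs b l hS0 hSm hy (fun n hn => hvy n (by omega)) hvk
    (fun n hn => hvn n (by omega)) (J + 1) le_rfl
  unfold gval
  rw [hth]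
  set x := S (J + 1) with hx
  obtain ⟨q0, q1, q2⟩ := sum_q0 hv hw hs hSp
  have hgt := bb_gt hv hw hs hSp
  have hg := g2_pos hw hgt
  set G := g2 w val (bb w val x) with hG
  have hb := bot_exact (f := fs w val b y S vy (J + 1)) (c := cst w val y S l (J + 1)) (s := x) (r := RR w val x - m1 w val)
    (θ := RR w val x - val l) (P0 := p0) (P1 := p0 * (x * RD w val x)) (P2 := p0 * RD w val x)
    (vy := vy (J + 1)) (lip_fs (w := w) (val := val) b (S := S) (vy := vy) hy (J + 1) le_rfl)
    (v (J + 1)) oc0 (oc1 w val) ocy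
    (fun o => by
      cases o with
      | none => rw [hvn _ le_rfl]; exact hvy _ le_rfl
      | some k =>
        rw [hvb]
        exact mul_nonneg hp0 (div_nonneg (mul_nonneg (hw k).le (sq_nonneg _)) hg.le))
    (by
      rw [Fintype.sum_option]
      simp only [oc0, Option.elim_none, Option.elim_some, mul_zero, zero_add, mul_one]
      rw [Finset.sum_congr rfl fun k _ => hvb k, ← Finset.mul_sum, q0, mul_one])
    (by
      rw [Fintype.sum_option]
      simp only [oc0, oc1, Option.elim_none, Option.elim_some, mul_zero, zero_add, one_mul]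
      rw [Finset.sum_congr rfl fun k _ => by rw [hvb k, mul_assoc], ← Finset.mul_sum, q1]
      ring)
    (by
      rw [Fintype.sum_option]
      simp only [oc1, Option.elim_none, Option.elim_some, mul_zero, zero_add]
      rw [Finset.sum_congr rfl fun k _ => by rw [hvb k, mul_assoc], ← Finset.mul_sum, q2]
      ring)
    (by
      rw [Fintype.sum_option]
      simp [oc0, ocy])
    (by
      rw [Fintype.sum_option]
      simp [oc1, ocy])
    (by
      rw [Fintype.sum_option]
      simp [ocy, hvn _ le_rfl])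
  rw [hb]
  have hpos := theta_pos hv hw hs hSp.le l
  congr 2
  have : (1 + (RR w val x - val l) * x) ≠ 0 := hpos.ne'
  generalize 1 + (RR w val x - val l) * x = P at *
  field_simp
  ring

theorem sum_cst {J : ℕ} {y S : ℕ → ℝ} (hS0 : S 0 = 0) (hSm : ∀ n, n ≤ J → S n ≤ S (n + 1)) :
    ∀ n, n ≤ J + 1 → ∑ l, w l * cst w val y S l n =
      m1 w val / 2 + ∑ i ∈ Finset.range n, (y i)⁻¹ * (Psi w val (S (i + 1)) - Psi w val (S i))
  | 0, _ => by
    simp only [cst, Finset.range_zero, Finset.sum_empty, add_zero]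
    rw [← Finset.sum_mul, hs, one_mul]
  | n + 1, h => by
    have hSn : ∀ m, m ≤ J + 1 → 0 ≤ S m := by
      intro m
      induction m with
      | zero => intro _; rw [hS0]
      | succ m ih => intro hm; exact (ih (by omega)).trans (hSm m (by omega))
    have ih := sum_cst hS0 hSm n (by omega) (y := y)
    rw [Finset.sum_range_succ, ← add_assoc, ← ih]
    have e : ∀ l, w l * cst w val y S l (n + 1) = w l * cst w val y S l n -
        1 / (2 * y n) * (w l * Real.log (1 + (RR w val (S (n + 1)) - val l) * S (n + 1)) -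
          w l * Real.log (1 + (RR w val (S n) - val l) * S n)) := by
      intro l
      rw [cst, Real.log_div (theta_pos hv hw hs (hSn (n + 1) (by omega)) l).ne'
        (theta_pos hv hw hs (hSn n (by omega)) l).ne']
      ring
    rw [Finset.sum_congr rfl fun l _ => e l, Finset.sum_sub_distrib, ← Finset.mul_sum,
      Finset.sum_sub_distrib, sum_log hv hw hs (hSn (n + 1) (by omega)),
      sum_log hv hw hs (hSn n (by omega))]
    congr 1
    rw [one_div, mul_inv]
    ring

/-- **Average over the new eigenvalue.** -/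
theorem gval_avg (b : ℝ) {J : ℕ} {y S vy : ℕ → ℝ} {p0 : ℝ}
    {v : ℕ → Option (Fin (K + 1)) → ℝ} (hS0 : S 0 = 0) (hSm : ∀ n, n ≤ J → S n ≤ S (n + 1))
    (hy : ∀ n, n ≤ J → 0 < y n) (hvy : ∀ n, n ≤ J + 1 → 0 ≤ vy n)
    (hvk : ∀ n, n ≤ J → ∀ k, v n (some k) = (DK w val (S (n + 1)) k - DK w val (S n) k) / y n)
    (hvn : ∀ n, n ≤ J + 1 → v n none = vy n) (hSp : 0 < S (J + 1)) (hp0 : 0 ≤ p0)
    (hvb : ∀ k, v (J + 1) (some k) = p0 * (w k * ((bb w val (S (J + 1)) - val k)⁻¹) ^ 2 /
      g2 w val (bb w val (S (J + 1))))) :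
    ∑ l, w l * gval J y v (WF w val b l) = m1 w val / 2 +
      ∑ i ∈ Finset.range (J + 1), (y i)⁻¹ * (Psi w val (S (i + 1)) - Psi w val (S i)) +
      p0 * (-(1 / 2) * (S (J + 1) * RD w val (S (J + 1)))) +
      gaussOp 0 (p0 * RD w val (S (J + 1)) + vy (J + 1)) (fs w val b y S vy (J + 1)) 0 := by
  rw [Finset.sum_congr rfl fun l _ => by
    rw [gval_exact hv hw hs b l hS0 hSm hy hvy hvk hvn hSp hp0 hvb]]
  simp only [mul_add]
  rw [Finset.sum_add_distrib, Finset.sum_add_distrib, sum_cst hv hw hs hS0 hSm (J + 1) le_rfl,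
    ← Finset.sum_mul, hs, one_mul]
  congr 2
  have e : ∀ l, w l * (-(1 / 2) * (p0 * ((RR w val (S (J + 1)) - val l + S (J + 1) *
      RD w val (S (J + 1))) / (1 + (RR w val (S (J + 1)) - val l) * S (J + 1))))) =
      -(1 / 2) * p0 * (w l * ((RR w val (S (J + 1)) - val l + S (J + 1) *
      RD w val (S (J + 1))) / (1 + (RR w val (S (J + 1)) - val l) * S (J + 1)))) := by
    intro l; ring
  rw [Finset.sum_congr rfl fun l _ => e l, ← Finset.mul_sum, sum_bot hv hw hs hSp]
  ring

end cav

end

end Crest.Agent.R164.EG
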