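import Crest.Agent.R164.ClipG4
import Crest.Agent.R164.ExactG4

/-!
# Row 164: uniform truncation, concrete leaf function (helper318)
-/

set_option autoImplicit false

namespace Crest.Agent.R164.ClipG

open MeasureTheory ProbabilityTheory ENNReal Crest.ProbabilityR.InvariantGlass
open Crest.Agent.R164.PAlg
open Crest.Agent.R164.GTilt (γ lintegral_add_gauss Lip)
open Crest.Agent.R164.CavG (gm lin gstep th gval th_zero th_succ)
open Crest.Agent.R164.EG

noncomputable section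

/-! ### elementary bounds -/

theorem ee_eq (u : ℝ) : ee u = ENNReal.ofReal (Real.exp u + Real.exp (-u)) := by
  unfold ee
  rw [one_mul, neg_one_mul, ← ENNReal.ofReal_add (Real.exp_pos _).le (Real.exp_pos _).le]

theorem sq_le_ee (u : ℝ) : u ^ 2 ≤ 2 * (Real.exp u + Real.exp (-u)) := by
  have h := Real.pow_div_factorial_le_exp |u| (abs_nonneg u) 2
  have h1 : Real.exp |u| ≤ Real.exp u + Real.exp (-u) := by
    have := Real.exp_pos u
    have := Real.exp_pos (-u)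
    rcases abs_cases u with ⟨h, _⟩ | ⟨h, _⟩ <;> rw [h] <;> linarith
  have h2 : ((2 : ℕ).factorial : ℝ) = 2 := by norm_num [Nat.factorial]
  rw [h2, sq_abs] at h
  linarith

theorem four_le_ee (u : ℝ) : u ^ 4 ≤ 24 * (Real.exp u + Real.exp (-u)) := by
  have h := Real.pow_div_factorial_le_exp |u| (abs_nonneg u) 4
  have h1 : Real.exp |u| ≤ Real.exp u + Real.exp (-u) := by
    have := Real.exp_pos u
    have := Real.exp_pos (-u)
    rcases abs_cases u with ⟨h, _⟩ | ⟨h, _⟩ <;> rw [h] <;> linarith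
  have h2 : ((4 : ℕ).factorial : ℝ) = 24 := by norm_num [Nat.factorial]
  have h3 : |u| ^ 4 = u ^ 4 := by
    have : |u| ^ 4 = (|u| ^ 2) ^ 2 := by ring
    rw [this, sq_abs]; ring
  rw [h2, h3] at h
  linarith

theorem two_le_ee (u : ℝ) : 2 ≤ Real.exp u + Real.exp (-u) := by
  have h1 := Real.add_one_le_exp u
  have h2 := Real.add_one_le_exp (-u)
  linarith

theorem abs_log_cosh_le (u : ℝ) : |Real.log (Real.cosh u)| ≤ |u| := by
  have h := GTilt.lip_log_cosh u 0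
  simpa using h

/-- constant of the leaf bound -/
def AW (L B : ℝ) : ℝ := 5 * ((L / 2 + B) ^ 2 + 24 * (L + 1 / 2) ^ 2 + 8)

theorem AW_nonneg (L B : ℝ) : 0 ≤ AW L B := by unfold AW; positivity

theorem leaf_sq (L B M θ b x z y : ℝ) (hM : |M| ≤ L) (hθ : |θ| ≤ 2 * L)
    (hb : |b| ≤ B) :
    (M / 2 + Qf 0 θ x z + Real.log (Real.cosh (z + y + b))) ^ 2 ≤
      AW L B * ((Real.exp x + Real.exp (-x)) + (Real.exp z + Real.exp (-z)) +
        (Real.exp y + Real.exp (-y))) := by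
  have hB : 0 ≤ B := (abs_nonneg b).trans hb
  have h1 := abs_log_cosh_le (z + y + b)
  have h2 : |z + y + b| ≤ |z| + |y| + B := by
    refine (abs_add_le _ _).trans ?_
    have := abs_add_le z y
    linarith
  have h3 : |Qf 0 θ x z| ≤ (L + 1 / 2) * x ^ 2 + z ^ 2 / 2 := by
    unfold Qf
    have e : -(θ * x ^ 2 + 2 * x * z - 0 * z ^ 2) / (2 * (1 + θ * 0)) =
        -(θ / 2 * x ^ 2) - x * z := by ring
    rw [e]
    have h4 : |θ / 2 * x ^ 2| ≤ L * x ^ 2 := by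
      rw [abs_mul, abs_of_nonneg (sq_nonneg x)]
      refine mul_le_mul_of_nonneg_right ?_ (sq_nonneg x)
      rw [abs_div, abs_two]
      linarith
    have h5 : |x * z| ≤ x ^ 2 / 2 + z ^ 2 / 2 := by
      rw [abs_le]
      constructor <;> nlinarith [sq_nonneg (x + z), sq_nonneg (x - z)]
    have h6 : |(-(θ / 2 * x ^ 2)) - x * z| ≤ |θ / 2 * x ^ 2| + |x * z| := by
      refine (abs_sub _ _).trans ?_
      rw [abs_neg]
    linarith
  have h7 : |M / 2 + Qf 0 θ x z + Real.log (Real.cosh (z + y + b))| ≤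
      (L / 2 + B) + (L + 1 / 2) * x ^ 2 + z ^ 2 / 2 + |z| + |y| := by
    have a1 := abs_add_le (M / 2 + Qf 0 θ x z) (Real.log (Real.cosh (z + y + b)))
    have a2 := abs_add_le (M / 2) (Qf 0 θ x z)
    have a3 : |M / 2| ≤ L / 2 := by rw [abs_div, abs_two]; linarith
    linarith
  have h8 : 0 ≤ |M / 2 + Qf 0 θ x z + Real.log (Real.cosh (z + y + b))| := abs_nonneg _
  rw [← sq_abs]
  have h9 : |M / 2 + Qf 0 θ x z + Real.log (Real.cosh (z + y + b))| ^ 2 ≤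
      ((L / 2 + B) + (L + 1 / 2) * x ^ 2 + z ^ 2 / 2 + |z| + |y|) ^ 2 :=
    pow_le_pow_left₀ h8 h7 2
  refine h9.trans ?_
  have h10 : ∀ p q r s t : ℝ, (p + q + r + s + t) ^ 2 ≤ 5 * (p ^ 2 + q ^ 2 + r ^ 2 + s ^ 2 + t ^ 2) := by
    intro p q r s t
    have e : 5 * (p ^ 2 + q ^ 2 + r ^ 2 + s ^ 2 + t ^ 2) - (p + q + r + s + t) ^ 2 =
        (p - q) ^ 2 + (p - r) ^ 2 + (p - s) ^ 2 + (p - t) ^ 2 + (q - r) ^ 2 + (q - s) ^ 2 +
        (q - t) ^ 2 + (r - s) ^ 2 + (r - t) ^ 2 + (s - t) ^ 2 := by ring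
    have h : 0 ≤ 5 * (p ^ 2 + q ^ 2 + r ^ 2 + s ^ 2 + t ^ 2) - (p + q + r + s + t) ^ 2 := by
      rw [e]; positivity
    linarith
  refine (h10 _ _ _ _ _).trans ?_
  have x4 := four_le_ee x
  have z4 := four_le_ee z
  have z2 := sq_le_ee z
  have y2 := sq_le_ee y
  have x1 := two_le_ee x
  have y1 := two_le_ee y
  have z1 := two_le_ee z
  set X := Real.exp x + Real.exp (-x)
  set Z := Real.exp z + Real.exp (-z)
  set Y := Real.exp y + Real.exp (-y)
  rw [sq_abs, sq_abs]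
  unfold AW
  have e1 : ((L + 1 / 2) * x ^ 2) ^ 2 = (L + 1 / 2) ^ 2 * x ^ 4 := by ring
  have e2 : (z ^ 2 / 2) ^ 2 = z ^ 4 / 4 := by ring
  rw [e1, e2]
  have k1 : (L + 1 / 2) ^ 2 * x ^ 4 ≤ (L + 1 / 2) ^ 2 * (24 * X) :=
    mul_le_mul_of_nonneg_left x4 (sq_nonneg _)
  have ha0 : 0 ≤ (L / 2 + B) ^ 2 := sq_nonneg _
  have hc0 : 0 ≤ (L + 1 / 2) ^ 2 := sq_nonneg _
  generalize (L / 2 + B) ^ 2 = α at ha0 ⊢
  generalize (L + 1 / 2) ^ 2 = β at hc0 k1 ⊢
  have k2 : α * 1 ≤ α * X := mul_le_mul_of_nonneg_left (by linarith) ha0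
  have k3 : 0 ≤ α * Z := mul_nonneg ha0 (by linarith)
  have k4 : 0 ≤ α * Y := mul_nonneg ha0 (by linarith)
  have k5 : 0 ≤ β * Z := mul_nonneg hc0 (by linarith)
  have k6 : 0 ≤ β * Y := mul_nonneg hc0 (by linarith)
  have e3 : 5 * (α + 24 * β + 8) * (X + Z + Y) = 5 * (α * X + α * Z + α * Y +
      24 * (β * X) + 24 * (β * Z) + 24 * (β * Y) + 8 * X + 8 * Z + 8 * Y) := by ring
  rw [e3]
  have e4 : β * (24 * X) = 24 * (β * X) := by ring
  rw [e4] at k1
  linarith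

end

end Crest.Agent.R164.ClipG
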