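import Crest.Agent.R164.ClipG5

/-!
# Row 164: uniform truncation, main theorem (helper318)
-/

set_option autoImplicit false

namespace Crest.Agent.R164.ClipG

open MeasureTheory ProbabilityTheory ENNReal Crest.ProbabilityR.InvariantGlass
open Crest.Agent.R164.PAlg
open Crest.Agent.R164.GTilt (γ lintegral_add_gauss Lip)
open Crest.Agent.R164.CavG (gm lin gstep th gval th_zero th_succ)
open Crest.Agent.R164.EG

noncomputable section

variable {K : ℕ} {w val : Fin (K + 1) → ℝ}

/-- the standing hypotheses on the recursion data -/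
structure Dat (w val : Fin (K + 1) → ℝ) (J : ℕ) (y S vy : ℕ → ℝ) (p0 : ℝ)
    (v : ℕ → Option (Fin (K + 1)) → ℝ) : Prop where
  hv : StrictMono val
  hw : ∀ k, 0 < w k
  hs : ∑ k, w k = 1
  hS0 : S 0 = 0
  hSm : ∀ n, n ≤ J → S n ≤ S (n + 1)
  hy : ∀ n, n ≤ J → 0 < y n
  hy1 : ∀ n, n ≤ J → y n ≤ 1
  hya : ∀ n, n + 1 ≤ J → y (n + 1) ≤ y n
  hvy : ∀ n, n ≤ J + 1 → 0 ≤ vy n
  hvk : ∀ n, n ≤ J → ∀ k, v n (some k) = (DK w val (S (n + 1)) k - DK w val (S n) k) / y n
  hvn : ∀ n, n ≤ J + 1 → v n none = vy n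
  hSp : 0 < S (J + 1)
  hp0 : 0 ≤ p0
  hvb : ∀ k, v (J + 1) (some k) = p0 * (w k * ((bb w val (S (J + 1)) - val k)⁻¹) ^ 2 /
      g2 w val (bb w val (S (J + 1))))

variable {J : ℕ} {y S vy : ℕ → ℝ} {p0 : ℝ} {v : ℕ → Option (Fin (K + 1)) → ℝ}

namespace Dat

variable (D : Dat w val J y S vy p0 v)
include D

theorem S_nonneg : ∀ n, n ≤ J + 1 → 0 ≤ S n := by
  intro m
  induction m with
  | zero => intro _; rw [D.hS0]
  | succ m ih => intro hm; exact (ih (by omega)).trans (D.hSm m (by omega))

theorem v_nonneg (n : ℕ) (hn : n ≤ J + 1) (o : Option (Fin (K + 1))) : 0 ≤ v n o := by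
  cases o with
  | none => rw [D.hvn n hn]; exact D.hvy n hn
  | some k =>
    rcases Nat.lt_or_ge J n with h | h
    · have : n = J + 1 := by omega
      subst this
      rw [D.hvb]
      have hgt := bb_gt D.hv D.hw D.hs D.hSp
      have hg := g2_pos D.hw hgt
      exact mul_nonneg D.hp0 (div_nonneg (mul_nonneg (D.hw k).le (sq_nonneg _)) hg.le)
    · rw [D.hvk n h]
      exact div_nonneg (sub_nonneg.2 (DK_mono D.hv D.hw D.hs (D.S_nonneg n (by omega))
        (D.hSm n h) k)) (D.hy n h).le

theorem step (l : Fin (K + 1)) (n : ℕ) (hn : n ≤ J) :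
    Step (y n) (S n) (S (n + 1)) (RR w val (S n) - m1 w val)
      (RR w val (S (n + 1)) - RR w val (S n)) (RR w val (S n) - val l) (vy n) (v n)
      oc0 (oc1 w val) ocy := by
  have h0 := D.S_nonneg n (by omega)
  have h0' := D.S_nonneg (n + 1) (by omega)
  have hv := D.hv
  have hw := D.hw
  have hs := D.hs
  refine
    { ha := D.hy n hn
      hs' := h0'
      hρ := sub_nonneg.2 (RR_mono hv hw hs h0 (D.hSm n hn))
      hvy := D.hvy n (by omega)
      hss := cond_s hv hw hs h0 (D.hSm n hn)
      h1 := theta_pos hv hw hs h0 l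
      h2 := ?_
      hv := D.v_nonneg n (by omega)
      g00 := ?_
      g01 := ?_
      g11 := ?_
      g0y := ?_
      g1y := ?_
      gyy := ?_ }
  · have := theta_pos hv hw hs h0' l
    have e : RR w val (S n) - val l + (RR w val (S (n + 1)) - RR w val (S n)) =
      RR w val (S (n + 1)) - val l := by ring
    rw [e]; exact this
  · rw [Fintype.sum_option]
    simp only [oc0, Option.elim_none, Option.elim_some, mul_zero, zero_add, mul_one]
    rw [Finset.sum_congr rfl fun k _ => D.hvk n hn k, ← Finset.sum_div, Finset.sum_sub_distrib,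
      sum_DK hv hw hs h0, sum_DK hv hw hs h0']
  · rw [Fintype.sum_option]
    simp only [oc0, oc1, Option.elim_none, Option.elim_some, mul_zero, zero_add, one_mul]
    have e : ∀ k, v n (some k) * (val k - m1 w val) =
        ((DK w val (S (n + 1)) k * val k - m1 w val * DK w val (S (n + 1)) k) -
         (DK w val (S n) k * val k - m1 w val * DK w val (S n) k)) / y n := by
      intro k; rw [D.hvk n hn]; ring
    rw [Finset.sum_congr rfl fun k _ => e k, ← Finset.sum_div, Finset.sum_sub_distrib,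
      Finset.sum_sub_distrib, Finset.sum_sub_distrib, ← Finset.mul_sum, ← Finset.mul_sum,
      sum_DK hv hw hs h0, sum_DK hv hw hs h0', sum_DK_val hv hw hs h0,
      sum_DK_val hv hw hs h0']
    congr 1
    ring
  · rw [Fintype.sum_option]
    simp only [oc1, Option.elim_none, Option.elim_some, mul_zero, zero_add]
    have e : ∀ k, v n (some k) * ((val k - m1 w val) * (val k - m1 w val)) =
        ((DK w val (S (n + 1)) k * val k ^ 2 - 2 * m1 w val * (DK w val (S (n + 1)) k * val k) +
          m1 w val ^ 2 * DK w val (S (n + 1)) k) -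
         (DK w val (S n) k * val k ^ 2 - 2 * m1 w val * (DK w val (S n) k * val k) +
          m1 w val ^ 2 * DK w val (S n) k)) / y n := by
      intro k; rw [D.hvk n hn]; ring
    rw [Finset.sum_congr rfl fun k _ => e k, ← Finset.sum_div, Finset.sum_sub_distrib,
      Finset.sum_add_distrib, Finset.sum_add_distrib, Finset.sum_sub_distrib,
      Finset.sum_sub_distrib, ← Finset.mul_sum, ← Finset.mul_sum, ← Finset.mul_sum,
      ← Finset.mul_sum, sum_DK hv hw hs h0, sum_DK hv hw hs h0', sum_DK_val hv hw hs h0,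
      sum_DK_val hv hw hs h0', sum_DK_val2 hv hw hs h0, sum_DK_val2 hv hw hs h0']
    congr 1
    ring
  · rw [Fintype.sum_option]
    simp [oc0, ocy]
  · rw [Fintype.sum_option]
    simp [oc1, ocy]
  · rw [Fintype.sum_option]
    simp [ocy, D.hvn n (by omega : n ≤ J + 1)]

theorem th_eq (b : ℝ) (l : Fin (K + 1)) (n : ℕ) (hn : n ≤ J + 1) :
    th y v (WF w val b l) n =
      Fr (cst w val y S l n) (S n) (RR w val (S n) - val l) (RR w val (S n) - m1 w val)
        (fs w val b y S vy n) oc0 (oc1 w val) ocy :=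
  th_exact D.hv D.hw D.hs b l D.hS0 D.hSm D.hy (fun n hn => D.hvy n (by omega)) D.hvk
    (fun n hn => D.hvn n (by omega)) n hn

theorem lip (b : ℝ) (n : ℕ) (hn : n ≤ J + 1) : Lip (fs w val b y S vy n) :=
  lip_fs (w := w) (val := val) b (S := S) (vy := vy) D.hy n hn

/-- the density of one step -/
theorem dens_eq (b : ℝ) (l : Fin (K + 1)) (n : ℕ) (hn : n ≤ J) (z g : Option (Fin (K + 1)) → ℝ) :
    ENNReal.ofReal (Real.exp (y n * (th y v (WF w val b l) n (sh (v n) z g) -
      th y v (WF w val b l) (n + 1) z))) =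
    dens (y n) (cst w val y S l n) (S n) (S (n + 1)) (RR w val (S n) - m1 w val)
      (RR w val (S (n + 1)) - RR w val (S n)) (RR w val (S n) - val l) (vy n)
      (fs w val b y S vy n) (v n) oc0 (oc1 w val) ocy z g := by
  have h1 : th y v (WF w val b l) (n + 1) =
      Frn (cst w val y S l n) (y n) (S n) (S (n + 1)) (RR w val (S n) - m1 w val)
      (RR w val (S (n + 1)) - RR w val (S n)) (RR w val (S n) - val l) (vy n)
      (fs w val b y S vy n) oc0 (oc1 w val) ocy := by
    rw [th_succ, D.th_eq b l n (by omega)]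
    exact (D.step l n hn).gstep (D.lip b n (by omega)) _
  rw [h1, D.th_eq b l n (by omega)]
  rfl

theorem integrable_th (b : ℝ) (l : Fin (K + 1)) (n : ℕ) (hn : n ≤ J)
    (z : Option (Fin (K + 1)) → ℝ) :
    Integrable (fun g => Real.exp (y n * th y v (WF w val b l) n (sh (v n) z g)))
      (gm (Option (Fin (K + 1)))) := by
  rw [D.th_eq b l n (by omega)]
  exact (D.step l n hn).integrable (D.lip b n (by omega)) _ z

end Dat

end

end Crest.Agent.R164.ClipG
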