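import Crest.Agent.R164.ClipG6

/-!
# Row 164: uniform truncation, bounds of the exponents (helper318)
-/

set_option autoImplicit false

namespace Crest.Agent.R164.ClipG

open MeasureTheory ProbabilityTheory ENNReal Crest.ProbabilityR.InvariantGlass
open Crest.Agent.R164.PAlg
open Crest.Agent.R164.GTilt (γ lintegral_add_gauss Lip)
open Crest.Agent.R164.CavG (gm lin gstep th gval th_zero th_succ)
open Crest.Agent.R164.EG

noncomputable section

section gen

variable {ι : Type*} [Fintype ι]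

theorem ee_dot (v : ι → ℝ) (hv : ∀ k, 0 ≤ v k) (c z : ι → ℝ) (δ : ℝ)
    (hδ : 1 / 2 * ∑ k, v k * (c k * c k) ≤ δ) :
    ∫⁻ g, ee (dot c (sh v z g)) ∂(gm ι) ≤ ENNReal.ofReal (Real.exp δ) * ee (dot c z) := by
  have h := ee_step (μ := gm ι) (fun _ => 1) measurable_const (fun g => dot c (sh v z g))
    ((meas_dot c).comp (measurable_sh v z)) (dot c z) δ (fun t ht _ => by
      simp only [mul_one]
      rw [lint_exp_dot v hv c z t]
      apply ENNReal.ofReal_le_ofReal
      apply Real.exp_le_exp.mpr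
      rw [ht, mul_one]
      linarith)
  simpa only [mul_one] using h

/-- untilted supersolution -/
def Uf (C : ℝ) (c0 c1 cy : ι → ℝ) (z : ι → ℝ) : ℝ≥0∞ :=
  ENNReal.ofReal C * (ee (dot c0 z) + ee (dot c1 z) + ee (dot cy z))

theorem Uf_step (v : ι → ℝ) (hv : ∀ k, 0 ≤ v k) (c0 c1 cy z : ι → ℝ) (C δ : ℝ) (hC : 0 ≤ C)
    (h0 : 1 / 2 * ∑ k, v k * (c0 k * c0 k) ≤ δ) (h1 : 1 / 2 * ∑ k, v k * (c1 k * c1 k) ≤ δ)
    (hy : 1 / 2 * ∑ k, v k * (cy k * cy k) ≤ δ) :
    ∫⁻ g, Uf C c0 c1 cy (sh v z g) ∂(gm ι) ≤ Uf (C * Real.exp δ) c0 c1 cy z := by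
  have m0 : Measurable fun g : ι → ℝ => ee (dot c0 (sh v z g)) :=
    measurable_ee.comp ((meas_dot c0).comp (measurable_sh v z))
  have m1 : Measurable fun g : ι → ℝ => ee (dot c1 (sh v z g)) :=
    measurable_ee.comp ((meas_dot c1).comp (measurable_sh v z))
  have my : Measurable fun g : ι → ℝ => ee (dot cy (sh v z g)) :=
    measurable_ee.comp ((meas_dot cy).comp (measurable_sh v z))
  have m01 : Measurable fun g : ι → ℝ => ee (dot c0 (sh v z g)) + ee (dot c1 (sh v z g)) :=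
    m0.add m1
  have m01y : Measurable fun g : ι → ℝ => ee (dot c0 (sh v z g)) + ee (dot c1 (sh v z g)) +
    ee (dot cy (sh v z g)) := m01.add my
  unfold Uf
  rw [lintegral_const_mul _ m01y, lintegral_add_left m01, lintegral_add_left m0,
    ENNReal.ofReal_mul hC, mul_assoc]
  gcongr
  rw [mul_add, mul_add]
  exact add_le_add (add_le_add (ee_dot v hv c0 z δ h0) (ee_dot v hv c1 z δ h1))
    (ee_dot v hv cy z δ hy)

theorem Mf_dot (s θ r : ℝ) (c0 c1 z : ι → ℝ) :
    Mf s θ (dot c0 z) (dot c1 z - r * dot c0 z) =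
      dot (fun k => (c0 k - s * (c1 k - r * c0 k)) / (1 + θ * s)) z := by
  unfold Mf dot
  rw [Finset.mul_sum, ← Finset.sum_sub_distrib, Finset.mul_sum, ← Finset.sum_sub_distrib,
    Finset.sum_div]
  exact Finset.sum_congr rfl fun k _ => by ring

theorem z_dot (r : ℝ) (c0 c1 z : ι → ℝ) :
    dot c1 z - r * dot c0 z = dot (fun k => c1 k - r * c0 k) z := by
  unfold dot
  rw [Finset.mul_sum, ← Finset.sum_sub_distrib]
  exact Finset.sum_congr rfl fun k _ => by ring

theorem dot_zero (c : ι → ℝ) : dot c (fun _ => 0) = 0 := by simp [dot]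

theorem ee_zero : ee 0 = ENNReal.ofReal 2 := by
  rw [ee_eq]; norm_num

/-- bottom integral of `Gf` -/
theorem Gf_bot (v : ι → ℝ) (hv : ∀ k, 0 ≤ v k) (c0 c1 cy : ι → ℝ) (C s θ r δ : ℝ)
    (hM : 1 / 2 * ∑ k, v k * (((c0 k - s * (c1 k - r * c0 k)) / (1 + θ * s)) *
      ((c0 k - s * (c1 k - r * c0 k)) / (1 + θ * s))) ≤ δ)
    (h1 : 1 / 2 * ∑ k, v k * ((c1 k - r * c0 k) * (c1 k - r * c0 k)) ≤ δ)
    (hy : 1 / 2 * ∑ k, v k * (cy k * cy k) ≤ δ) :
    ∫⁻ g, Gf C s θ r c0 c1 cy (sh v (fun _ => 0) g) ∂(gm ι) ≤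
      ENNReal.ofReal C * (ENNReal.ofReal (Real.exp δ) * ENNReal.ofReal 6) := by
  unfold Gf
  simp only [Mf_dot]
  simp only [z_dot r]
  set cM : ι → ℝ := fun k => (c0 k - s * (c1 k - r * c0 k)) / (1 + θ * s) with hcM
  set cz : ι → ℝ := fun k => c1 k - r * c0 k with hcz
  set z : ι → ℝ := fun _ => 0 with hz
  have m0 : Measurable fun g : ι → ℝ => ee (dot cM (sh v z g)) :=
    measurable_ee.comp ((meas_dot cM).comp (measurable_sh v z))
  have m1 : Measurable fun g : ι → ℝ => ee (dot cz (sh v z g)) :=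
    measurable_ee.comp ((meas_dot cz).comp (measurable_sh v z))
  have my : Measurable fun g : ι → ℝ => ee (dot cy (sh v z g)) :=
    measurable_ee.comp ((meas_dot cy).comp (measurable_sh v z))
  have m01 : Measurable fun g : ι → ℝ => ee (dot cM (sh v z g)) + ee (dot cz (sh v z g)) :=
    m0.add m1
  have m01y : Measurable fun g : ι → ℝ => ee (dot cM (sh v z g)) + ee (dot cz (sh v z g)) +
    ee (dot cy (sh v z g)) := m01.add my
  rw [lintegral_const_mul _ m01y, lintegral_add_left m01, lintegral_add_left m0]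
  gcongr
  have k0 := ee_dot v hv cM z δ hM
  have k1 := ee_dot v hv cz z δ h1
  have k2 := ee_dot v hv cy z δ hy
  rw [hz, dot_zero, ee_zero] at k0 k1 k2
  refine (add_le_add (add_le_add k0 k1) k2).trans (le_of_eq ?_)
  rw [← mul_add, ← mul_add, ← ENNReal.ofReal_add (by norm_num) (by norm_num),
    ← ENNReal.ofReal_add (by norm_num) (by norm_num)]
  norm_num

theorem Uf_bot (v : ι → ℝ) (hv : ∀ k, 0 ≤ v k) (c0 c1 cy : ι → ℝ) (C δ : ℝ) (hC : 0 ≤ C)
    (h0 : 1 / 2 * ∑ k, v k * (c0 k * c0 k) ≤ δ) (h1 : 1 / 2 * ∑ k, v k * (c1 k * c1 k) ≤ δ)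
    (hy : 1 / 2 * ∑ k, v k * (cy k * cy k) ≤ δ) :
    ∫⁻ g, Uf C c0 c1 cy (sh v (fun _ => 0) g) ∂(gm ι) ≤
      ENNReal.ofReal C * (ENNReal.ofReal (Real.exp δ) * ENNReal.ofReal 6) := by
  refine (Uf_step v hv c0 c1 cy (fun _ => 0) C δ hC h0 h1 hy).trans (le_of_eq ?_)
  unfold Uf
  rw [dot_zero, dot_zero, dot_zero, ee_zero, ENNReal.ofReal_mul hC, mul_assoc,
    ← ENNReal.ofReal_add (by norm_num) (by norm_num),
    ← ENNReal.ofReal_add (by norm_num) (by norm_num)]
  norm_num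

end gen

section conc

variable {K : ℕ} {w val : Fin (K + 1) → ℝ}
variable {J : ℕ} {y S vy : ℕ → ℝ} {p0 : ℝ} {v : ℕ → Option (Fin (K + 1)) → ℝ}

/-- total block variance at depth `n` -/
def bv (v : ℕ → Option (Fin (K + 1)) → ℝ) (n : ℕ) : ℝ := ∑ k, v n (some k)

namespace Dat

variable (D : Dat w val J y S vy p0 v)
include D

theorem bv_nonneg (n : ℕ) (hn : n ≤ J + 1) : 0 ≤ bv v n :=
  Finset.sum_nonneg fun k _ => D.v_nonneg n hn (some k)

theorem le_bv (n : ℕ) (hn : n ≤ J + 1) (k : Fin (K + 1)) : v n (some k) ≤ bv v n :=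
  Finset.single_le_sum (f := fun k => v n (some k)) (fun k _ => D.v_nonneg n hn (some k))
    (Finset.mem_univ k)

theorem sfrac {x : ℝ} (hx : 0 ≤ x) (l : Fin (K + 1)) :
    x / (1 + (RR w val x - val l) * x) = DK w val x l / w l := by
  rcases hx.eq_or_lt with rfl | hx
  · simp [DK]
  · rw [theta_eq hx]
    unfold DK
    rw [if_pos hx]
    have h1 := bb_gt D.hv D.hw D.hs hx l
    have h2 : bb w val x - val l ≠ 0 := by intro h; linarith
    have h3 := (D.hw l).ne'
    field_simp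

theorem abs_m1_le {L : ℝ} (hL : ∀ k, |val k| ≤ L) : |m1 w val| ≤ L := by
  unfold m1
  refine (Finset.abs_sum_le_sum_abs _ _).trans ?_
  calc ∑ k, |w k * val k| ≤ ∑ k, w k * L := by
        refine Finset.sum_le_sum fun k _ => ?_
        rw [abs_mul, abs_of_pos (D.hw k)]
        exact mul_le_mul_of_nonneg_left (hL k) (D.hw k).le
    _ = L := by rw [← Finset.sum_mul, D.hs, one_mul]

theorem abs_RR_le {L : ℝ} (hL : ∀ k, |val k| ≤ L) {x : ℝ} (hx : 0 ≤ x) : |RR w val x| ≤ L := by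
  obtain ⟨h1, h2⟩ := RR_mem D.hv D.hw D.hs hx
  have h3 := (abs_le.mp (hL 0)).1
  have h4 := (abs_le.mp (hL (Fin.last K))).2
  rw [abs_le]
  constructor <;> linarith

theorem sq_diff {L : ℝ} (hL : ∀ k, |val k| ≤ L) {r : ℝ} (hr : |r| ≤ L) (n : ℕ) (hn : n ≤ J + 1) :
    ∑ k, v n (some k) * ((val k - r) * (val k - r)) ≤ 4 * L ^ 2 * bv v n := by
  unfold bv
  rw [Finset.mul_sum]
  refine Finset.sum_le_sum fun k _ => ?_
  rw [mul_comm]
  refine mul_le_mul_of_nonneg_right ?_ (D.v_nonneg n hn (some k))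
  have h1 : |val k - r| ≤ 2 * L := by
    refine (abs_sub _ _).trans ?_
    have := hL k
    linarith
  calc (val k - r) * (val k - r) = |val k - r| ^ 2 := by rw [sq_abs]; ring
    _ ≤ (2 * L) ^ 2 := pow_le_pow_left₀ (abs_nonneg _) h1 2
    _ = 4 * L ^ 2 := by ring

theorem rho_le {L : ℝ} (hL : ∀ k, |val k| ≤ L) (n : ℕ) (hn : n ≤ J) :
    (RR w val (S (n + 1)) - RR w val (S n)) / y n ≤ 4 * L ^ 2 * bv v n := by
  have St := D.step 0 n hn
  have h0 := D.S_nonneg n (by omega)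
  have h0' := D.S_nonneg (n + 1) (by omega)
  have hya := D.hy n hn
  set ρ := RR w val (S (n + 1)) - RR w val (S n) with hρ
  have hρ0 : 0 ≤ ρ := St.hρ
  have e1 : ∑ k, v n (some k) * ((val k - RR w val (S n)) * (val k - RR w val (S n))) =
      (S (n + 1) * ρ ^ 2 + ρ) / y n := by
    have g00 := St.g00
    have g01 := St.g01
    have g11 := St.g11
    set r := RR w val (S n) - m1 w val with hr
    have e2 : ∑ k, v n (some k) * ((val k - RR w val (S n)) * (val k - RR w val (S n))) =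
        ∑ o, v n o * (oc1 w val o * oc1 w val o) - 2 * r * ∑ o, v n o * (oc0 o * oc1 w val o) +
          r ^ 2 * ∑ o, v n o * (oc0 o * oc0 o) := by
      rw [Finset.mul_sum, Finset.mul_sum, ← Finset.sum_sub_distrib, ← Finset.sum_add_distrib,
        Fintype.sum_option]
      simp only [oc0, oc1, Option.elim_none, Option.elim_some, mul_zero, zero_add, mul_one,
        one_mul, sub_self]
      refine Finset.sum_congr rfl fun k _ => ?_
      rw [hr]
      ring
    rw [e2, g00, g01, g11]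
    field_simp
    ring
  have h2 := D.sq_diff hL (D.abs_RR_le hL h0) n (by omega)
  rw [e1] at h2
  refine le_trans ?_ h2
  refine div_le_div_of_nonneg_right ?_ hya.le
  have := mul_nonneg h0' (sq_nonneg ρ)
  linarith

theorem dl_le {L wm : ℝ} (hL : ∀ k, |val k| ≤ L) (hwm : 0 < wm) (hwm' : ∀ k, wm ≤ w k)
    (l : Fin (K + 1)) (n : ℕ) (hn : n ≤ J) :
    dl (y n) (S n) (S (n + 1)) (RR w val (S (n + 1)) - RR w val (S n)) (RR w val (S n) - val l)
      (vy n) ≤ (1 / (2 * wm) + 6 * L ^ 2) * bv v n + 3 / 2 * vy n := by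
  have h0 := D.S_nonneg n (by omega)
  have h0' := D.S_nonneg (n + 1) (by omega)
  have hy0 := D.hy n hn
  have hy1 := D.hy1 n hn
  have hvy := D.hvy n (by omega)
  have hρ := D.rho_le hL n hn
  have hρ0 : 0 ≤ RR w val (S (n + 1)) - RR w val (S n) :=
    sub_nonneg.2 (RR_mono D.hv D.hw D.hs h0 (D.hSm n hn))
  unfold dl
  have e : RR w val (S n) - val l + (RR w val (S (n + 1)) - RR w val (S n)) =
      RR w val (S (n + 1)) - val l := by ring
  rw [e, D.sfrac h0' l, D.sfrac h0 l]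
  set ρ := RR w val (S (n + 1)) - RR w val (S n) with hρd
  have t1 : 1 / 2 * (1 / y n) * (DK w val (S (n + 1)) l / w l - DK w val (S n) l / w l) =
      1 / 2 * (v n (some l) / w l) := by
    rw [D.hvk n hn]
    have := (D.hw l).ne'
    have := hy0.ne'
    field_simp
  have t1' : 1 / 2 * (v n (some l) / w l) ≤ 1 / (2 * wm) * bv v n := by
    have h1 : v n (some l) / w l ≤ bv v n / wm := by
      have := D.v_nonneg n (by omega) (some l)
      exact div_le_div₀ (D.bv_nonneg n (by omega)) (D.le_bv n (by omega) l) hwm (hwm' l)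
    calc _ ≤ 1 / 2 * (bv v n / wm) := by linarith
      _ = _ := by field_simp
  have t2 : ρ ≤ ρ / y n := by
    rw [le_div_iff₀ hy0]
    calc ρ * y n ≤ ρ * 1 := mul_le_mul_of_nonneg_left hy1 hρ0
      _ = ρ := mul_one _
  have t3 : y n * vy n ≤ vy n := by
    calc y n * vy n ≤ 1 * vy n := mul_le_mul_of_nonneg_right hy1 hvy
      _ = vy n := one_mul _
  rw [t1]
  have e2 : (1 / (2 * wm) + 6 * L ^ 2) * bv v n = 1 / (2 * wm) * bv v n + 3 / 2 *
      (4 * L ^ 2 * bv v n) := by ring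
  rw [e2]
  linarith

end Dat

end conc

end

end Crest.Agent.R164.ClipG
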