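import Crest.Agent.R164.ClipG7

/-!
# Row 164: uniform truncation of the nested Gaussian functional, main theorem (helper318)
-/

set_option autoImplicit false

namespace Crest.Agent.R164.ClipG

open MeasureTheory ProbabilityTheory ENNReal Crest.ProbabilityR.InvariantGlass
open Crest.Agent.R164.PAlg
open Crest.Agent.R164.GTilt (γ lintegral_add_gauss Lip)
open Crest.Agent.R164.CavG (gm lin gstep th gval th_zero th_succ)
open Crest.Agent.R164.EG

noncomputable section

section gen

variable {ι : Type*} [Fintype ι]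

theorem th_mono (y : ℕ → ℝ) (v : ℕ → ι → ℝ) (A B : (ι → ℝ) → ℝ) (hAm : Measurable A)
    (hAB : ∀ z, A z ≤ B z) (N : ℕ) (hy : ∀ n < N, 0 < y n)
    (hInt : ∀ n < N, ∀ z, Integrable (fun g => Real.exp (y n * th y v B n (sh (v n) z g))) (gm ι)) :
    ∀ n ≤ N, ∀ z, th y v A n z ≤ th y v B n z := by
  intro n
  induction n with
  | zero => intro _ z; exact hAB z
  | succ n ih =>
    intro hn z
    exact gstep_mono (hy n hn) (v n) _ _ (measurable_th y v A hAm n) (ih (Nat.le_of_succ_le hn)) z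
      (hInt n hn z)

theorem gval_sh (J : ℕ) (y : ℕ → ℝ) (v : ℕ → ι → ℝ) (F : (ι → ℝ) → ℝ) :
    gval J y v F = ∫ g, th y v F (J + 1) (sh (v (J + 1)) (fun _ => 0) g) ∂(gm ι) := by
  unfold gval
  refine integral_congr_ae (ae_of_all _ fun g => ?_)
  show th y v F (J + 1) _ = th y v F (J + 1) _
  congr 1
  funext k
  exact (zero_add _).symm

end gen

theorem sub_min_le {W Kc : ℝ} (hK : 0 < Kc) : W - min W Kc ≤ W ^ 2 / (4 * Kc) := by
  rw [le_div_iff₀ (by positivity)]
  rcases le_total W Kc with h | h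
  · rw [min_eq_left h, sub_self, zero_mul]; exact sq_nonneg _
  · rw [min_eq_right h]
    nlinarith [sq_nonneg (W - 2 * Kc)]

theorem max_sub_le {W Kc C : ℝ} (hK : 0 < Kc) (hC : Kc ≤ C) :
    max (min W C) (-Kc) - min W C ≤ W ^ 2 / (4 * Kc) := by
  rw [le_div_iff₀ (by positivity)]
  rcases le_total (-Kc) (min W C) with h | h
  · rw [max_eq_left h, sub_self, zero_mul]; exact sq_nonneg _
  · rw [max_eq_right h]
    have h2 : min W C = W := by
      rcases le_total W C with h3 | h3
      · exact min_eq_left h3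
      · rw [min_eq_right h3] at h
        linarith
    rw [h2]
    nlinarith [sq_nonneg (W + 2 * Kc)]

section conc

variable {K : ℕ} {w val : Fin (K + 1) → ℝ}
variable {J : ℕ} {y S vy : ℕ → ℝ} {p0 : ℝ} {v : ℕ → Option (Fin (K + 1)) → ℝ}

theorem meas_WF (b : ℝ) (l : Fin (K + 1)) : Measurable (WF w val b l) := by
  unfold WF
  refine meas_Fr _ _ _ _ ?_ _ _ _
  exact (lip_shift Crest.Agent.R164.GTilt.lip_log_cosh b).continuous.measurable

theorem WF_sq {L B b : ℝ} (hL : ∀ k, |val k| ≤ L) (hm1 : |m1 w val| ≤ L) (hb : |b| ≤ B)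
    (l : Fin (K + 1)) (z : Option (Fin (K + 1)) → ℝ) :
    ENNReal.ofReal (WF w val b l z ^ 2) ≤ Uf (AW L B) oc0 (oc1 w val) ocy z := by
  have h := leaf_sq L B (m1 w val) (m1 w val - val l) b (dot oc0 z)
    (dot (oc1 w val) z - 0 * dot oc0 z) (dot ocy z) hm1 (by
      refine (abs_sub _ _).trans ?_
      have := hL l
      linarith) hb
  have e : WF w val b l z = m1 w val / 2 + Qf 0 (m1 w val - val l) (dot oc0 z)
      (dot (oc1 w val) z - 0 * dot oc0 z) + Real.log (Real.cosh (dot (oc1 w val) z -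
        0 * dot oc0 z + dot ocy z + b)) := rfl
  rw [← e] at h
  refine (ENNReal.ofReal_le_ofReal h).trans (le_of_eq ?_)
  unfold Uf
  rw [ee_eq, ee_eq, ee_eq, ENNReal.ofReal_mul (AW_nonneg L B), zero_mul, sub_zero,
    ENNReal.ofReal_add (by positivity) (by positivity),
    ENNReal.ofReal_add (by positivity) (by positivity)]

theorem Uf_mul (c C : ℝ) (hc : 0 ≤ c) (c0 c1 cy z : Option (Fin (K + 1)) → ℝ) :
    ENNReal.ofReal c * Uf C c0 c1 cy z = Uf (c * C) c0 c1 cy z := by
  unfold Uf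
  rw [ENNReal.ofReal_mul hc, mul_assoc]

theorem leaf_le {L B b Kc : ℝ} (hL : ∀ k, |val k| ≤ L) (hm1 : |m1 w val| ≤ L) (hb : |b| ≤ B)
    (hK : 0 < Kc) (l : Fin (K + 1)) (z : Option (Fin (K + 1)) → ℝ) (X : ℝ)
    (hX : X ≤ WF w val b l z ^ 2 / (4 * Kc)) :
    ENNReal.ofReal X ≤ Uf (1 / (4 * Kc) * AW L B) oc0 (oc1 w val) ocy z := by
  rw [← Uf_mul _ _ (by positivity)]
  calc ENNReal.ofReal X ≤ ENNReal.ofReal (1 / (4 * Kc) * WF w val b l z ^ 2) := by
        apply ENNReal.ofReal_le_ofReal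
        rw [one_div_mul_eq_div]
        exact hX
    _ = ENNReal.ofReal (1 / (4 * Kc)) * ENNReal.ofReal (WF w val b l z ^ 2) :=
        ENNReal.ofReal_mul (by positivity)
    _ ≤ _ := by
        gcongr
        exact WF_sq hL hm1 hb l z

namespace Dat

variable (D : Dat w val J y S vy p0 v)
include D

/-- bottom variances -/
theorem bot_M (l : Fin (K + 1)) {wm : ℝ} (hwm : 0 < wm) (hwm' : ∀ k, wm ≤ w k) :
    ∑ o, v (J + 1) o * (((oc0 o - S (J + 1) * (oc1 w val o - (RR w val (S (J + 1)) - m1 w val) *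
      oc0 o)) / (1 + (RR w val (S (J + 1)) - val l) * S (J + 1))) *
      ((oc0 o - S (J + 1) * (oc1 w val o - (RR w val (S (J + 1)) - m1 w val) *
      oc0 o)) / (1 + (RR w val (S (J + 1)) - val l) * S (J + 1)))) ≤ bv v (J + 1) / wm := by
  have hx := D.hSp
  set x := S (J + 1) with hxd
  have hgt := bb_gt D.hv D.hw D.hs hx
  have hg := g2_pos D.hw hgt
  rw [Fintype.sum_option]
  simp only [oc0, oc1, Option.elim_none, Option.elim_some, mul_zero, zero_add, mul_one,
    sub_self, zero_div]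
  have e : ∀ k, v (J + 1) (some k) * (((1 - x * (val k - m1 w val - (RR w val x - m1 w val))) /
      (1 + (RR w val x - val l) * x)) * ((1 - x * (val k - m1 w val - (RR w val x - m1 w val))) /
      (1 + (RR w val x - val l) * x))) = w k * (v (J + 1) (some l) / w l) := by
    intro k
    have e1 : 1 - x * (val k - m1 w val - (RR w val x - m1 w val)) =
        1 + (RR w val x - val k) * x := by ring
    rw [e1, theta_eq hx k, theta_eq hx l, D.hvb k, D.hvb l]
    have h1 : bb w val x - val k ≠ 0 := by have := hgt k; intro h; linarith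
    have h2 : bb w val x - val l ≠ 0 := by have := hgt l; intro h; linarith
    have h3 := (D.hw l).ne'
    rw [← hxd]
    field_simp
  rw [Finset.sum_congr rfl fun k _ => e k, ← Finset.sum_mul, D.hs, one_mul]
  exact div_le_div₀ (D.bv_nonneg _ le_rfl) (D.le_bv _ le_rfl l) hwm (hwm' l)

omit D in
theorem sum_oc0 (n : ℕ) : ∑ o, v n o * (oc0 o * oc0 o) = bv v n := by
  rw [Fintype.sum_option]
  simp [oc0, bv]

theorem sum_ocy (n : ℕ) (hn : n ≤ J + 1) : ∑ o, v n o * (ocy o * ocy o) = vy n := by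
  rw [Fintype.sum_option]
  simp [ocy, D.hvn n hn]

theorem sum_oc1 (n : ℕ) {L : ℝ} (hL : ∀ k, |val k| ≤ L) (hn : n ≤ J + 1) :
    ∑ o, v n o * (oc1 w val o * oc1 w val o) ≤ 4 * L ^ 2 * bv v n := by
  rw [Fintype.sum_option]
  simp only [oc1, Option.elim_none, Option.elim_some, mul_zero, zero_add]
  exact D.sq_diff hL (D.abs_m1_le hL) n hn

end Dat

end conc

end

end Crest.Agent.R164.ClipG
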