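import Crest.Agent.R164.ClipG8

/-!
# Row 164: uniform truncation of the nested Gaussian functional, main theorem (helper318)
-/

set_option autoImplicit false

namespace Crest.Agent.R164.ClipG

open MeasureTheory ProbabilityTheory ENNReal Crest.ProbabilityR.InvariantGlass
open Crest.Agent.R164.PAlg
open Crest.Agent.R164.GTilt (γ lintegral_add_gauss Lip)
open Crest.Agent.R164.CavG (gm lin gstep th gval th_zero th_succ)
open Crest.Agent.R164.EG

noncomputable section

variable {K : ℕ} {w val : Fin (K + 1) → ℝ}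
variable {J : ℕ} {y S vy : ℕ → ℝ} {p0 : ℝ} {v : ℕ → Option (Fin (K + 1)) → ℝ}

/-- increment of the exponent (untilted and tilted) -/
def inc (L wm : ℝ) (v : ℕ → Option (Fin (K + 1)) → ℝ) (vy : ℕ → ℝ) (n : ℕ) : ℝ :=
  (1 / (2 * wm) + 6 * L ^ 2 + 1) * bv v n + 3 / 2 * vy n

/-- accumulated exponent -/
def acc (L wm : ℝ) (v : ℕ → Option (Fin (K + 1)) → ℝ) (vy : ℕ → ℝ) (n : ℕ) : ℝ :=
  ∑ j ∈ Finset.range n, inc L wm v vy j

namespace Dat

variable (D : Dat w val J y S vy p0 v)
include D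

theorem inc_ge (L : ℝ) {wm : ℝ} (hwm : 0 < wm) (n : ℕ) (hn : n ≤ J + 1) :
    (1 / (2 * wm) + 6 * L ^ 2) * bv v n + 3 / 2 * vy n ≤ inc L wm v vy n ∧
    1 / 2 * bv v n ≤ inc L wm v vy n ∧ 1 / 2 * (4 * L ^ 2 * bv v n) ≤ inc L wm v vy n ∧
    1 / 2 * vy n ≤ inc L wm v vy n ∧ 1 / 2 * (bv v n / wm) ≤ inc L wm v vy n := by
  have h1 := D.bv_nonneg n hn
  have h2 := D.hvy n hn
  have h3 : 0 ≤ 1 / (2 * wm) * bv v n := by positivity
  have h4 : 0 ≤ L ^ 2 * bv v n := by positivity
  have h5 : 1 / (2 * wm) * bv v n = 1 / 2 * (bv v n / wm) := by field_simp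
  unfold inc
  have e : (1 / (2 * wm) + 6 * L ^ 2 + 1) * bv v n = 1 / (2 * wm) * bv v n +
      6 * (L ^ 2 * bv v n) + bv v n := by ring
  have e2 : (1 / (2 * wm) + 6 * L ^ 2) * bv v n = 1 / (2 * wm) * bv v n +
      6 * (L ^ 2 * bv v n) := by ring
  rw [e, e2]
  refine ⟨by linarith, by linarith, by linarith, by linarith, by linarith⟩

omit D in
theorem Gf_mono {C C' s θ r : ℝ} (h : C ≤ C') (c0 c1 cy z : Option (Fin (K + 1)) → ℝ) :
    Gf C s θ r c0 c1 cy z ≤ Gf C' s θ r c0 c1 cy z := by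
  unfold Gf
  gcongr

/-- upper truncation -/
theorem upper {L wm B b Kc C0 : ℝ} (hL : ∀ k, |val k| ≤ L) (hwm : 0 < wm)
    (hwm' : ∀ k, wm ≤ w k) (hb : |b| ≤ B) (hK : 0 < Kc) (l : Fin (K + 1))
    (hC0 : C0 = 1 / (4 * Kc) * AW L B) (n : ℕ) (hn : n ≤ J + 1)
    (z : Option (Fin (K + 1)) → ℝ) :
    ENNReal.ofReal (th y v (WF w val b l) n z -
      th y v (fun z => min (WF w val b l z) Kc) n z) ≤
      Gf (C0 * Real.exp (acc L wm v vy n)) (S n) (RR w val (S n) - val l)
        (RR w val (S n) - m1 w val) oc0 (oc1 w val) ocy z := by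
  have hC0' : 0 ≤ C0 := by rw [hC0]; exact mul_nonneg (by positivity) (AW_nonneg L B)
  have hR0 : RR w val (S 0) = m1 w val := by rw [D.hS0, RR_zero D.hw D.hs]; rfl
  have hm1 := D.abs_m1_le hL
  refine (th_upper y v (WF w val b l) (fun z => min (WF w val b l z) Kc) (meas_WF b l)
    ((meas_WF b l).min measurable_const) (fun z => min_le_left _ _) (J + 1)
    (fun n hn => D.hy n (by omega)) (fun n hn z => D.integrable_th b l n (by omega) z)
    (fun n => Gf (C0 * Real.exp (acc L wm v vy n)) (S n) (RR w val (S n) - val l)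
        (RR w val (S n) - m1 w val) oc0 (oc1 w val) ocy) ?_ ?_ n hn z).2
  · intro z
    have h1 := leaf_le (w := w) hL hm1 hb hK l z _ (sub_min_le (W := WF w val b l z) hK)
    refine h1.trans (le_of_eq ?_)
    unfold Uf Gf acc
    rw [Finset.range_zero, Finset.sum_empty, Real.exp_zero, mul_one, hR0, D.hS0, ← hC0]
    unfold Mf
    simp only [sub_self, zero_mul, sub_zero, mul_zero, add_zero, div_one]
  · intro n hn z
    have hnJ : n ≤ J := by omega
    have St := D.step l n hnJ
    simp only [D.dens_eq b l n hnJ]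
    have h1 := Gf_step St (D.lip b n (by omega)) (cst w val y S l n)
      (C0 * Real.exp (acc L wm v vy n)) (by positivity) z
    refine h1.trans ?_
    have e1 : RR w val (S n) - val l + (RR w val (S (n + 1)) - RR w val (S n)) =
      RR w val (S (n + 1)) - val l := by ring
    have e2 : RR w val (S n) - m1 w val + (RR w val (S (n + 1)) - RR w val (S n)) =
      RR w val (S (n + 1)) - m1 w val := by ring
    rw [e1, e2]
    apply Gf_mono
    rw [mul_assoc, ← Real.exp_add]
    apply mul_le_mul_of_nonneg_left _ hC0'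
    apply Real.exp_le_exp.mpr
    unfold acc
    rw [Finset.sum_range_succ]
    have h2 := D.dl_le hL hwm hwm' l n hnJ
    have h3 := (D.inc_ge L hwm n (by omega)).1
    linarith

omit D in
theorem Uf_mono {C C' : ℝ} (h : C ≤ C') (c0 c1 cy z : Option (Fin (K + 1)) → ℝ) :
    Uf C c0 c1 cy z ≤ Uf C' c0 c1 cy z := by
  unfold Uf
  gcongr

/-- lower truncation -/
theorem lower {L wm B b Kc C C0 : ℝ} (hL : ∀ k, |val k| ≤ L) (hwm : 0 < wm)
    (hb : |b| ≤ B) (hK : 0 < Kc) (hC : Kc ≤ C) (l : Fin (K + 1))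
    (hC0 : C0 = 1 / (4 * Kc) * AW L B) (n : ℕ) (hn : n ≤ J + 1)
    (z : Option (Fin (K + 1)) → ℝ) :
    ENNReal.ofReal (th y v (fun z => max (min (WF w val b l z) C) (-Kc)) n z -
      th y v (fun z => min (WF w val b l z) C) n z) ≤
      Uf (C0 * Real.exp (acc L wm v vy n)) oc0 (oc1 w val) ocy z := by
  have hC0' : 0 ≤ C0 := by rw [hC0]; exact mul_nonneg (by positivity) (AW_nonneg L B)
  have hm1 := D.abs_m1_le hL
  have mX : Measurable fun z => min (WF w val b l z) C := (meas_WF b l).min measurable_const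
  refine (th_lower y v (fun z => min (WF w val b l z) C)
    (fun z => max (min (WF w val b l z) C) (-Kc)) mX (mX.max measurable_const) Kc C
    (fun z => rfl) (fun z => max_le (min_le_right _ _) (by linarith)) (J + 1)
    (fun n hn => D.hy n (by omega)) (fun n hn => D.hya n (by omega))
    (fun n => Uf (C0 * Real.exp (acc L wm v vy n)) oc0 (oc1 w val) ocy) ?_ ?_ n hn z).2
  · intro z
    have h1 := leaf_le (w := w) hL hm1 hb hK l z _ (max_sub_le (W := WF w val b l z) hK hC)
    refine h1.trans (le_of_eq ?_)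
    unfold acc
    rw [Finset.range_zero, Finset.sum_empty, Real.exp_zero, mul_one, ← hC0]
  · intro n hn z
    have hn' : n ≤ J + 1 := by omega
    obtain ⟨-, i1, i2, i3, -⟩ := D.inc_ge L hwm n hn'
    have h1 := Uf_step (v n) (D.v_nonneg n hn') oc0 (oc1 w val) ocy z
      (C0 * Real.exp (acc L wm v vy n)) (inc L wm v vy n) (by positivity)
      (by rw [sum_oc0]; exact i1)
      (by
        have := D.sum_oc1 n hL hn'
        linarith)
      (by rw [D.sum_ocy n hn']; exact i3)
    refine h1.trans ?_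
    apply Uf_mono
    unfold acc
    rw [Finset.sum_range_succ, Real.exp_add, mul_assoc]

end Dat

end

end Crest.Agent.R164.ClipG
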