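import Crest.Agent.R164.CoinG
import Crest.Agent.R164.GCalc3

/-!
Row 164: the nested Gaussian recursion of the cell system is `fieldValueAt` (helper399).
-/

set_option autoImplicit false

namespace Crest.Agent.R164.CoinG

open MeasureTheory ProbabilityTheory Filter Topology Set
open Crest.ProbabilityR.InvariantGlass
open Crest.Agent.R164.GC

noncomputable section

/-- `log cosh` -/
def lc (z : ℝ) : ℝ := Real.log (Real.cosh z)

theorem lc_lip : Lip1 lc := Lip1.of_lip GTilt.lip_log_cosh

/-- exponents of the cells -/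
def xc (nc : ℕ) (g : Fin nc) : ℝ := ((g : ℝ) + 1) / ((nc : ℝ) + 1)

theorem xc_pos {nc : ℕ} (g : Fin nc) : 0 < xc nc g := by unfold xc; positivity

theorem xc_le_one {nc : ℕ} (g : Fin nc) : xc nc g ≤ 1 := by
  unfold xc
  rw [div_le_one (by positivity)]
  have : ((g : ℕ) : ℝ) + 1 ≤ nc := by exact_mod_cast g.2
  linarith

/-- equal widths -/
def wc (nc : ℕ) : Fin (nc + 1) → ℝ := fun _ => 1 / ((nc : ℝ) + 1)

/-- the step field with increments `a g ^ 2` at the cells -/
def hc (nc : ℕ) (a : Fin nc → ℝ) : Fin (nc + 1) → ℝ :=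
  fun i => ∑ g : Fin nc, if (g : ℕ) < (i : ℕ) then a g ^ 2 else 0

theorem leftEnd_wc (nc : ℕ) (i : Fin (nc + 1)) :
    leftEnd (wc nc) i = (i : ℝ) / ((nc : ℝ) + 1) := by
  unfold leftEnd wc
  rw [← Finset.sum_filter, Finset.sum_const, nsmul_eq_mul]
  have : (Finset.univ.filter fun l : Fin (nc + 1) => l < i).card = (i : ℕ) := by
    rw [show (Finset.univ.filter fun l : Fin (nc + 1) => l < i) = Finset.Iio i by ext; simp]
    exact Fin.card_Iio i
  rw [this]; ring

theorem leftEnd_wc_succ (nc : ℕ) (g : Fin nc) : leftEnd (wc nc) g.succ = xc nc g := by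
  rw [leftEnd_wc, xc]; simp

theorem leftEnd_wc_zero (nc : ℕ) : leftEnd (wc nc) 0 = 0 := by
  rw [leftEnd_wc]; simp

theorem hc_zero (nc : ℕ) (a : Fin nc → ℝ) : hc nc a 0 = 0 := by
  unfold hc; simp

theorem hc_last (nc : ℕ) (a : Fin nc → ℝ) : hc nc a (Fin.last nc) = ∑ g, a g ^ 2 := by
  unfold hc
  refine Finset.sum_congr rfl fun g _ => ?_
  rw [if_pos]; simp

theorem hc_succ (nc : ℕ) (a : Fin nc → ℝ) (g : Fin nc) :
    hc nc a g.succ = hc nc a g.castSucc + a g ^ 2 := by
  unfold hc
  have h : ∀ g' : Fin nc, (if (g' : ℕ) < (g.succ : ℕ) then a g' ^ 2 else 0) =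
      (if (g' : ℕ) < (g.castSucc : ℕ) then a g' ^ 2 else 0) + if g' = g then a g' ^ 2 else 0 := by
    intro g'
    simp only [Fin.val_succ, Fin.val_castSucc, Fin.ext_iff]
    rcases lt_trichotomy (g' : ℕ) (g : ℕ) with h | h | h
    · rw [if_pos (by omega), if_pos h, if_neg (by omega), add_zero]
    · rw [if_pos (by omega), if_neg (by omega), if_pos h, zero_add]
    · rw [if_neg (by omega), if_neg (by omega), if_neg (by omega), add_zero]
  simp only [h, Finset.sum_add_distrib]
  simp

theorem hc_nonneg (nc : ℕ) (a : Fin nc → ℝ) (i : Fin (nc + 1)) : 0 ≤ hc nc a i := by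
  unfold hc
  refine Finset.sum_nonneg fun g _ => ?_
  split_ifs <;> positivity

theorem hc_mono (nc : ℕ) (a : Fin nc → ℝ) : Monotone (hc nc a) := by
  intro i j hij
  unfold hc
  refine Finset.sum_le_sum fun g _ => ?_
  have : (i : ℕ) ≤ j := hij
  split_ifs with h1 h2
  · exact le_rfl
  · omega
  · positivity
  · exact le_rfl

theorem wc_pos (nc : ℕ) (i : Fin (nc + 1)) : 0 < wc nc i := by unfold wc; positivity

theorem wc_sum (nc : ℕ) : ∑ i, wc nc i = 1 := by
  unfold wc
  rw [Finset.sum_const, Finset.card_univ, Fintype.card_fin, nsmul_eq_mul]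
  push_cast
  field_simp

theorem isStep (nc : ℕ) (a : Fin nc → ℝ) : IsStepField (wc nc) (hc nc a) :=
  ⟨Nat.succ_pos nc, wc_pos nc, wc_sum nc, hc_mono nc a, hc_nonneg nc a⟩

theorem increment_hc_zero (nc : ℕ) (a : Fin nc → ℝ) : increment (hc nc a) 0 = 0 := by
  unfold increment
  rw [hc_zero]; simp

theorem increment_hc_succ (nc : ℕ) (a : Fin nc → ℝ) (g : Fin nc) :
    increment (hc nc a) g.succ = a g ^ 2 := by
  unfold increment
  have h : ∑ l : Fin (nc + 1), (if (l : ℕ) + 1 = (g.succ : ℕ) then hc nc a l else 0) =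
      hc nc a g.castSucc := by
    rw [Finset.sum_eq_single g.castSucc]
    · simp
    · intro l _ hl
      rw [if_neg]
      intro h
      apply hl
      ext
      simp only [Fin.val_succ, Fin.val_castSucc] at h ⊢
      omega
    · intro h; exact absurd (Finset.mem_univ _) h
  rw [h, hc_succ]; ring

theorem gaussOp_zero_zero (f : ℝ → ℝ) (z : ℝ) : gaussOp 0 0 f z = f z := by
  rw [gaussOp_zero, Real.sqrt_zero, H_zero]

/-- the nested Gaussian recursion of the cells is the field value -/
theorem fieldValueAt_hc (nc : ℕ) (a : Fin nc → ℝ) (b : ℝ) :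
    fieldValueAt b (wc nc) (hc nc a) =
      gRec (xc nc) a (List.finRange nc) lc b - (∑ g, a g ^ 2) / 2 := by
  unfold fieldValueAt
  have h1 : (∑ l : Fin (nc + 1), if (l : ℕ) + 1 = nc + 1 then hc nc a l else 0) =
      ∑ g, a g ^ 2 := by
    rw [← hc_last, Finset.sum_eq_single (Fin.last nc)]
    · simp
    · intro l _ hl
      rw [if_neg]
      intro h
      apply hl
      ext
      simp only [Fin.val_last]
      omega
    · intro h; exact absurd (Finset.mem_univ _) h
  rw [h1]
  congr 1
  rw [List.finRange_succ, List.foldr_cons, leftEnd_wc_zero, increment_hc_zero, gaussOp_zero_zero,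
    List.foldr_map]
  unfold gRec
  simp only [leftEnd_wc_succ, increment_hc_succ]
  rfl

end

end Crest.Agent.R164.CoinG
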