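import Mathlib

/-! Row 164, concavity of the field value: exponentially bounded functions and the Gaussian density. -/

set_option autoImplicit false
open MeasureTheory Real

namespace Crest.Agent.R164.Conc

/-- Exponentially bounded functions on `ℝ`. -/
def EB (f : ℝ → ℝ) : Prop := ∃ C A : ℝ, 0 ≤ C ∧ 0 ≤ A ∧ ∀ u, |f u| ≤ C * Real.exp (A * |u|)

theorem EB.mono {f g : ℝ → ℝ} (hg : EB g) (h : ∀ u, |f u| ≤ |g u|) : EB f := by
  obtain ⟨C, A, hC, hA, hb⟩ := hg
  exact ⟨C, A, hC, hA, fun u => (h u).trans (hb u)⟩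

theorem EB.congr {f g : ℝ → ℝ} (hg : EB g) (h : ∀ u, f u = g u) : EB f :=
  hg.mono fun u => by rw [h u]

theorem EB.const (c : ℝ) : EB (fun _ => c) := by
  refine ⟨|c|, 0, abs_nonneg _, le_refl _, fun u => ?_⟩
  simp

theorem EB.add {f g : ℝ → ℝ} (hf : EB f) (hg : EB g) : EB (fun u => f u + g u) := by
  obtain ⟨C, A, hC, hA, hb⟩ := hf
  obtain ⟨C', A', hC', hA', hb'⟩ := hg
  refine ⟨C + C', A + A', by positivity, by positivity, fun u => ?_⟩
  have h1 : Real.exp (A * |u|) ≤ Real.exp ((A + A') * |u|) := by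
    apply Real.exp_le_exp.mpr
    nlinarith [abs_nonneg u]
  have h2 : Real.exp (A' * |u|) ≤ Real.exp ((A + A') * |u|) := by
    apply Real.exp_le_exp.mpr
    nlinarith [abs_nonneg u]
  calc |f u + g u| ≤ |f u| + |g u| := abs_add_le _ _
    _ ≤ C * Real.exp (A * |u|) + C' * Real.exp (A' * |u|) := add_le_add (hb u) (hb' u)
    _ ≤ C * Real.exp ((A + A') * |u|) + C' * Real.exp ((A + A') * |u|) := by
        gcongr
    _ = _ := by ring

theorem EB.neg {f : ℝ → ℝ} (hf : EB f) : EB (fun u => - f u) :=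
  hf.mono fun u => by rw [abs_neg]

theorem EB.sub {f g : ℝ → ℝ} (hf : EB f) (hg : EB g) : EB (fun u => f u - g u) := by
  simpa [sub_eq_add_neg] using hf.add hg.neg

theorem EB.mul {f g : ℝ → ℝ} (hf : EB f) (hg : EB g) : EB (fun u => f u * g u) := by
  obtain ⟨C, A, hC, hA, hb⟩ := hf
  obtain ⟨C', A', hC', hA', hb'⟩ := hg
  refine ⟨C * C', A + A', by positivity, by positivity, fun u => ?_⟩
  calc |f u * g u| = |f u| * |g u| := abs_mul _ _
    _ ≤ (C * Real.exp (A * |u|)) * (C' * Real.exp (A' * |u|)) :=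
        mul_le_mul (hb u) (hb' u) (abs_nonneg _) (by positivity)
    _ = C * C' * (Real.exp (A * |u|) * Real.exp (A' * |u|)) := by ring
    _ = C * C' * Real.exp ((A + A') * |u|) := by rw [← Real.exp_add]; ring_nf

theorem EB.const_mul {f : ℝ → ℝ} (c : ℝ) (hf : EB f) : EB (fun u => c * f u) :=
  (EB.const c).mul hf

theorem EB.mul_const {f : ℝ → ℝ} (hf : EB f) (c : ℝ) : EB (fun u => f u * c) :=
  hf.mul (EB.const c)

theorem EB.pow {f : ℝ → ℝ} (hf : EB f) (n : ℕ) : EB (fun u => f u ^ n) := by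
  induction n with
  | zero => simpa using EB.const 1
  | succ n ih => simpa [pow_succ] using ih.mul hf

theorem EB.id : EB (fun u => u) := by
  refine ⟨1, 1, zero_le_one, zero_le_one, fun u => ?_⟩
  have := Real.add_one_le_exp (|u|)
  simp only [one_mul]
  linarith [abs_nonneg u]

theorem EB.div {f g : ℝ → ℝ} (hf : EB f) (hg : EB (fun u => (g u)⁻¹)) :
    EB (fun u => f u / g u) := by
  simpa [div_eq_mul_inv] using hf.mul hg

/-- inverse of a function with an exponential lower bound -/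
theorem EB.inv_of_lower {f : ℝ → ℝ} {k A : ℝ} (hk : 0 < k) (hA : 0 ≤ A)
    (h : ∀ u, k * Real.exp (-(A * |u|)) ≤ f u) : EB (fun u => (f u)⁻¹) := by
  refine ⟨k⁻¹, A, by positivity, hA, fun u => ?_⟩
  have hpos : 0 < k * Real.exp (-(A * |u|)) := by positivity
  have hf : 0 < f u := lt_of_lt_of_le hpos (h u)
  rw [abs_of_pos (inv_pos.mpr hf)]
  calc (f u)⁻¹ ≤ (k * Real.exp (-(A * |u|)))⁻¹ := inv_anti₀ hpos (h u)
    _ = k⁻¹ * Real.exp (A * |u|) := by
        rw [mul_inv, Real.exp_neg, inv_inv]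

theorem EB.comp_add {f : ℝ → ℝ} (hf : EB f) (x : ℝ) : EB (fun u => f (x + u)) := by
  obtain ⟨C, A, hC, hA, hb⟩ := hf
  refine ⟨C * Real.exp (A * |x|), A, by positivity, hA, fun u => ?_⟩
  calc |f (x + u)| ≤ C * Real.exp (A * |x + u|) := hb _
    _ ≤ C * Real.exp (A * |x| + A * |u|) := by
        gcongr
        nlinarith [abs_add_le x u]
    _ = _ := by rw [Real.exp_add]; ring

/-- centred Gaussian density of variance `v` -/
noncomputable def phi (v u : ℝ) : ℝ := (Real.sqrt (2 * π * v))⁻¹ * Real.exp (-u ^ 2 / (2 * v))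

theorem phi_pos {v : ℝ} (hv : 0 < v) (u : ℝ) : 0 < phi v u := by
  unfold phi; positivity

theorem phi_ne {v : ℝ} (hv : 0 < v) (u : ℝ) : phi v u ≠ 0 := (phi_pos hv u).ne'

theorem continuous_phi (v : ℝ) : Continuous (phi v) := by
  unfold phi; fun_prop

theorem hasDerivAt_phi {v : ℝ} (hv : 0 < v) (u : ℝ) :
    HasDerivAt (phi v) (-(u / v) * phi v u) u := by
  have h1 : HasDerivAt (fun u : ℝ => -u ^ 2 / (2 * v)) (-(u / v)) u := by
    have h0 : HasDerivAt (fun u : ℝ => -u ^ 2 / (2 * v)) (-(((2 : ℕ) : ℝ) * u ^ (2 - 1)) / (2 * v)) u :=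
      ((hasDerivAt_pow 2 u).neg).div_const (2 * v)
    refine h0.congr_deriv ?_
    push_cast
    field_simp
  have h2 : HasDerivAt (fun u : ℝ => (Real.sqrt (2 * π * v))⁻¹ * Real.exp (-u ^ 2 / (2 * v)))
      ((Real.sqrt (2 * π * v))⁻¹ * (Real.exp (-u ^ 2 / (2 * v)) * (-(u / v)))) u :=
    (h1.exp).const_mul ((Real.sqrt (2 * π * v))⁻¹)
  refine h2.congr_deriv ?_
  unfold phi
  ring

/-- master domination: `exp (A |u|) φ_v(u) ≤ const · exp (- u² / (4 v))` -/
theorem exp_mul_phi_le {v A : ℝ} (hv : 0 < v) (u : ℝ) :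
    Real.exp (A * |u|) * phi v u ≤
      ((Real.sqrt (2 * π * v))⁻¹ * Real.exp (A ^ 2 * v)) * Real.exp (-(1 / (4 * v)) * u ^ 2) := by
  unfold phi
  have key : A * |u| + (-u ^ 2 / (2 * v)) ≤ A ^ 2 * v + (-(1 / (4 * v)) * u ^ 2) := by
    have h : 0 ≤ (2 * A * v - |u|) ^ 2 / (4 * v) := by positivity
    have h2 : (2 * A * v - |u|) ^ 2 / (4 * v)
        = A ^ 2 * v - A * |u| + u ^ 2 / (4 * v) := by
      field_simp
      have : |u| ^ 2 = u ^ 2 := sq_abs u
      nlinarith [this]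
    have h3 : -u ^ 2 / (2 * v) = -(u ^ 2 / (4 * v)) - (u ^ 2 / (4 * v)) := by
      field_simp; ring
    have h4 : -(1 / (4 * v)) * u ^ 2 = -(u ^ 2 / (4 * v)) := by
      field_simp
    rw [h3, h4]
    linarith
  calc Real.exp (A * |u|) * ((Real.sqrt (2 * π * v))⁻¹ * Real.exp (-u ^ 2 / (2 * v)))
      = (Real.sqrt (2 * π * v))⁻¹ * Real.exp (A * |u| + (-u ^ 2 / (2 * v))) := by
        rw [Real.exp_add]; ring
    _ ≤ (Real.sqrt (2 * π * v))⁻¹ * Real.exp (A ^ 2 * v + (-(1 / (4 * v)) * u ^ 2)) := by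
        gcongr
    _ = _ := by rw [Real.exp_add]; ring

theorem integrable_exp_abs_mul_phi {v A : ℝ} (hv : 0 < v) :
    Integrable (fun u => Real.exp (A * |u|) * phi v u) := by
  have hI : Integrable (fun u : ℝ =>
      ((Real.sqrt (2 * π * v))⁻¹ * Real.exp (A ^ 2 * v)) * Real.exp (-(1 / (4 * v)) * u ^ 2)) :=
    (integrable_exp_neg_mul_sq (by positivity)).const_mul _
  refine hI.mono' ?_ ?_
  · have h1 : Continuous (phi v) := continuous_phi v
    exact (by fun_prop : Continuous (fun u => Real.exp (A * |u|) * phi v u)).aestronglyMeasurable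
  · refine Filter.Eventually.of_forall fun u => ?_
    rw [Real.norm_eq_abs, abs_of_nonneg (by have := phi_pos hv u; positivity)]
    exact exp_mul_phi_le hv u

theorem EB.integrable {f : ℝ → ℝ} {v : ℝ} (hv : 0 < v) (hf : EB f) (hc : Continuous f) :
    Integrable (fun u => f u * phi v u) := by
  obtain ⟨C, A, hC, hA, hb⟩ := hf
  refine ((integrable_exp_abs_mul_phi (A := A) hv).const_mul C).mono' ?_ ?_
  · have h1 : Continuous (phi v) := continuous_phi v
    exact (hc.mul h1).aestronglyMeasurable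
  · refine Filter.Eventually.of_forall fun u => ?_
    have hp := phi_pos hv u
    rw [Real.norm_eq_abs, abs_mul, abs_of_pos hp]
    calc |f u| * phi v u ≤ (C * Real.exp (A * |u|)) * phi v u := by
          gcongr; exact hb u
      _ = _ := by ring

theorem integral_phi {v : ℝ} (hv : 0 < v) : ∫ u, phi v u = 1 := by
  have h := ProbabilityTheory.integral_gaussianPDFReal_eq_one 0 (v := ⟨v, hv.le⟩)
    (by intro h; exact hv.ne' (congrArg NNReal.toReal h))
  rw [← h]
  congr 1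
  ext u
  unfold phi ProbabilityTheory.gaussianPDFReal
  simp only [sub_zero]
  rfl

/-- tail shift -/
theorem tail_bound {v A : ℝ} (hv : 0 < v) (hA : 0 ≤ A) {u t : ℝ}
    (h : (t ≤ u ∧ u ≤ 0) ∨ (0 ≤ u ∧ u ≤ t)) :
    Real.exp (A * |t|) * phi v t ≤
      (Real.exp (A * |u|) * phi v u) * (Real.exp (A * |t - u|) * Real.exp (-(t - u) ^ 2 / (2 * v))) := by
  unfold phi
  have h1 : A * |t| + (-t ^ 2 / (2 * v)) ≤ A * |u| + (-u ^ 2 / (2 * v)) +
      (A * |t - u| + (-(t - u) ^ 2 / (2 * v))) := by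
    have ha : |t| ≤ |u| + |t - u| := by
      have := abs_add_le u (t - u)
      simpa using this
    have hb : 0 ≤ u * (t - u) := by
      rcases h with ⟨h1, h2⟩ | ⟨h1, h2⟩
      · nlinarith
      · nlinarith
    have hc : -t ^ 2 / (2 * v) = -u ^ 2 / (2 * v) + (-(t - u) ^ 2 / (2 * v)) - (u * (t - u)) / v := by
      field_simp; ring
    have hd : 0 ≤ (u * (t - u)) / v := by positivity
    rw [hc]
    nlinarith
  calc Real.exp (A * |t|) * ((Real.sqrt (2 * π * v))⁻¹ * Real.exp (-t ^ 2 / (2 * v)))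
      = (Real.sqrt (2 * π * v))⁻¹ * Real.exp (A * |t| + (-t ^ 2 / (2 * v))) := by
        rw [Real.exp_add]; ring
    _ ≤ (Real.sqrt (2 * π * v))⁻¹ * Real.exp (A * |u| + (-u ^ 2 / (2 * v)) +
      (A * |t - u| + (-(t - u) ^ 2 / (2 * v)))) := by gcongr
    _ = _ := by rw [Real.exp_add, Real.exp_add, Real.exp_add]; ring

end Crest.Agent.R164.Conc
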