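import Crest.Agent.R164.RotRel

/-!
Row 164, module OvConc: concentration of the block overlaps from the concentration of the field
observables and the integration by parts formula (helper466 (O1)-(O5)), for one law `Q`.

`X : ι → Ω → ℝ` coordinates, `B` a block, `m g` the levels at which the fields of cell `g < nc`
are revealed, `w0 = 1/(nc+1)`, `T_g = N⁻¹ ∑_{i ∈ B} X_i (X_i - w0 ∑_{g ≤ g' < nc} E_{m g'} X_i)`.
-/

set_option autoImplicit false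

namespace Crest.Agent.R164.OvC

open Finset Crest.Agent.R141
open Crest.Agent.R164.RotRel (rr rr_nonneg)

noncomputable section

variable {Ω ι : Type*} [Fintype Ω] {Q : Ω → ℝ} {𝓕 : Filt Ω} (X : ι → Ω → ℝ)

/-- the observable `T_g` -/
def Tg (Q : Ω → ℝ) (𝓕 : Filt Ω) (B : Finset ι) (nN w0 : ℝ) (m : ℕ → ℕ) (nc g : ℕ) (ω : Ω) : ℝ :=
  nN⁻¹ * ∑ i ∈ B, X i ω * (X i ω - w0 * ∑ g' ∈ Ico g nc, cE Q (𝓕.F (m g')) (X i) ω)

/-- the normalised square -/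
def Sq (B : Finset ι) (nN : ℝ) (ω : Ω) : ℝ := nN⁻¹ * ∑ i ∈ B, X i ω ^ 2

theorem card_mul_rr (Q : Ω → ℝ) (𝓕 : Filt Ω) (B : Finset ι) (l : ℕ) (ω : Ω) :
    (B.card : ℝ) * rr X Q 𝓕 B l ω = ∑ i ∈ B, (cE Q (𝓕.F l) (X i) ω) ^ 2 := by
  unfold rr
  rcases Nat.eq_zero_or_pos B.card with h | h
  · rw [Finset.card_eq_zero] at h
    subst h; simp
  · have : (B.card : ℝ) ≠ 0 := by positivity
    rw [← mul_assoc, mul_inv_cancel₀ this, one_mul]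

/-- conditional expectation of `X_i E_m X_i`. -/
theorem cE_mul_cE (hQ : IsProb Q) {l m : ℕ} (hlm : l ≤ m) (f : Ω → ℝ) (ω : Ω) :
    cE Q (𝓕.F l) (fun a => f a * cE Q (𝓕.F m) f a) ω =
      cE Q (𝓕.F l) (fun a => (cE Q (𝓕.F m) f a) ^ 2) ω := by
  rw [← cE_tower hQ (𝓕.antitone hlm) (fun a => f a * cE Q (𝓕.F m) f a)]
  congr 1
  funext a
  rw [cE_mul_right (cE_meas Q (𝓕.F m) f), sq]

/-- `E_l T_g` in terms of the overlaps. -/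
theorem cE_Tg (hQ : IsProb Q) (B : Finset ι) (nN w0 : ℝ) (m : ℕ → ℕ) (nc g l : ℕ)
    (hl : ∀ g', g ≤ g' → g' < nc → l ≤ m g') (ω : Ω) :
    cE Q (𝓕.F l) (Tg X Q 𝓕 B nN w0 m nc g) ω =
      cE Q (𝓕.F l) (Sq X B nN) ω -
        w0 * ∑ g' ∈ Ico g nc, (B.card / nN) * cE Q (𝓕.F l) (rr X Q 𝓕 B (m g')) ω := by
  have e1 : Tg X Q 𝓕 B nN w0 m nc g = fun ω => Sq X B nN ω -
      w0 * ∑ g' ∈ Ico g nc, nN⁻¹ * ∑ i ∈ B, X i ω * cE Q (𝓕.F (m g')) (X i) ω := by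
    funext ω
    unfold Tg Sq
    rw [← Finset.mul_sum]
    have e2 : ∑ g' ∈ Ico g nc, ∑ i ∈ B, X i ω * cE Q (𝓕.F (m g')) (X i) ω =
        ∑ i ∈ B, X i ω * ∑ g' ∈ Ico g nc, cE Q (𝓕.F (m g')) (X i) ω := by
      rw [Finset.sum_comm]
      refine Finset.sum_congr rfl fun i _ => ?_
      rw [Finset.mul_sum]
    rw [e2]
    have e3 : ∀ i, X i ω * (X i ω - w0 * ∑ g' ∈ Ico g nc, cE Q (𝓕.F (m g')) (X i) ω) =
        X i ω ^ 2 - w0 * (X i ω * ∑ g' ∈ Ico g nc, cE Q (𝓕.F (m g')) (X i) ω) := by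
      intro i; ring
    simp only [e3]
    rw [Finset.sum_sub_distrib, ← Finset.mul_sum]
    ring
  rw [e1, cE_sub, cE_smul, cE_sum]
  congr 1
  congr 1
  refine Finset.sum_congr rfl fun g' hg' => ?_
  rw [Finset.mem_Ico] at hg'
  rw [cE_smul, cE_sum]
  have e4 : ∀ i, cE Q (𝓕.F l) (fun a => X i a * cE Q (𝓕.F (m g')) (X i) a) ω =
      cE Q (𝓕.F l) (fun a => (cE Q (𝓕.F (m g')) (X i) a) ^ 2) ω := fun i =>
    cE_mul_cE hQ (hl g' hg'.1 hg'.2) (X i) ω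
  simp only [e4]
  rw [← cE_sum, ← cE_smul, ← cE_smul]
  congr 1
  funext a
  rw [← card_mul_rr]
  ring

theorem cE_diff (hQ : IsProb Q) (B : Finset ι) (nN w0 : ℝ) (m : ℕ → ℕ) {nc g l : ℕ}
    (hl : ∀ g', g ≤ g' → g' < nc → l ≤ m g') (hg : g < nc) (ω : Ω) :
    cE Q (𝓕.F l) (Tg X Q 𝓕 B nN w0 m nc (g + 1)) ω - cE Q (𝓕.F l) (Tg X Q 𝓕 B nN w0 m nc g) ω =
      w0 * (B.card / nN) * cE Q (𝓕.F l) (rr X Q 𝓕 B (m g)) ω := by
  rw [cE_Tg X hQ B nN w0 m nc g l hl, cE_Tg X hQ B nN w0 m nc (g + 1) l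
    (fun g' h1 h2 => hl g' (by omega) h2)]
  rw [← Finset.sum_Ioo_add_eq_sum_Ico hg]
  have : Ioo g nc = Ico (g + 1) nc := by ext a; simp [Finset.mem_Ioo, Finset.mem_Ico]
  rw [this]
  ring

/-- (O1) -/
theorem O1 (hQ : IsProb Q) {l : ℕ} {D T : Ω → ℝ} {κ err : ℝ} (hκ : 0 < κ) (dd : ℝ)
    (h : ∀ ω, |cE Q (𝓕.F l) D ω - κ * cE Q (𝓕.F l) T ω| ≤ err) :
    eE Q (fun ω => |cE Q (𝓕.F l) T ω - dd / κ|) ≤ (eE Q (fun ω => |D ω - dd|) + err) / κ := by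
  have h1 : ∀ ω, |cE Q (𝓕.F l) T ω - dd / κ| ≤
      κ⁻¹ * (cE Q (𝓕.F l) (fun a => |D a - dd|) ω + err) := by
    intro ω
    have e1 : cE Q (𝓕.F l) T ω - dd / κ = κ⁻¹ * ((cE Q (𝓕.F l) (fun a => D a - dd) ω) -
        (cE Q (𝓕.F l) D ω - κ * cE Q (𝓕.F l) T ω)) := by
      rw [cE_sub, cE_const hQ]
      field_simp
      ring
    rw [e1, abs_mul, abs_of_pos (inv_pos.2 hκ)]
    refine mul_le_mul_of_nonneg_left ?_ (inv_pos.2 hκ).le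
    refine (abs_sub _ _).trans ?_
    exact add_le_add (cE_abs_le hQ _ ω) (h ω)
  refine (eE_mono hQ h1).trans (le_of_eq ?_)
  rw [eE_smul, eE_add, eE_const hQ, eE_cE hQ, div_eq_inv_mul]

/-- (O2) -/
theorem O2 (hQ : IsProb Q) (B : Finset ι) (hB : 0 < B.card) {nN w0 : ℝ} (hN : 0 < nN)
    (hw : 0 < w0) (m : ℕ → ℕ) {nc g l : ℕ} (hl : ∀ g', g ≤ g' → g' < nc → l ≤ m g') (hg : g < nc)
    {D D' : Ω → ℝ} {κ κ' err : ℝ} (hκ : 0 < κ) (hκ' : 0 < κ') (dd dd' : ℝ)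
    (h : ∀ ω, |cE Q (𝓕.F l) D ω - κ * cE Q (𝓕.F l) (Tg X Q 𝓕 B nN w0 m nc g) ω| ≤ err)
    (h' : ∀ ω, |cE Q (𝓕.F l) D' ω - κ' * cE Q (𝓕.F l) (Tg X Q 𝓕 B nN w0 m nc (g + 1)) ω| ≤ err) :
    eE Q (fun ω => |cE Q (𝓕.F l) (rr X Q 𝓕 B (m g)) ω -
        (nN / (B.card * w0)) * (dd' / κ' - dd / κ)|) ≤
      (nN / (B.card * w0)) * ((eE Q (fun ω => |D ω - dd|) + err) / κ +
        (eE Q (fun ω => |D' ω - dd'|) + err) / κ') := by
  have hBc : (0 : ℝ) < B.card := by exact_mod_cast hB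
  have hc : 0 < nN / (B.card * w0) := by positivity
  have h1 : ∀ ω, |cE Q (𝓕.F l) (rr X Q 𝓕 B (m g)) ω -
      (nN / (B.card * w0)) * (dd' / κ' - dd / κ)| ≤ (nN / (B.card * w0)) *
        (|cE Q (𝓕.F l) (Tg X Q 𝓕 B nN w0 m nc g) ω - dd / κ| +
          |cE Q (𝓕.F l) (Tg X Q 𝓕 B nN w0 m nc (g + 1)) ω - dd' / κ'|) := by
    intro ω
    have e := cE_diff (𝓕 := 𝓕) X hQ B nN w0 m hl hg ω
    have e1 : cE Q (𝓕.F l) (rr X Q 𝓕 B (m g)) ω - (nN / (B.card * w0)) * (dd' / κ' - dd / κ) =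
        (nN / (B.card * w0)) * ((cE Q (𝓕.F l) (Tg X Q 𝓕 B nN w0 m nc (g + 1)) ω - dd' / κ') -
          (cE Q (𝓕.F l) (Tg X Q 𝓕 B nN w0 m nc g) ω - dd / κ)) := by
      have e2 : (nN / (B.card * w0)) * (w0 * (B.card / nN) *
          cE Q (𝓕.F l) (rr X Q 𝓕 B (m g)) ω) = cE Q (𝓕.F l) (rr X Q 𝓕 B (m g)) ω := by
        field_simp
      rw [← e] at e2
      linarith [e2]
    rw [e1, abs_mul, abs_of_pos hc]
    refine mul_le_mul_of_nonneg_left ?_ hc.le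
    refine (abs_sub _ _).trans (le_of_eq ?_)
    ring
  refine (eE_mono hQ h1).trans ?_
  rw [eE_smul, eE_add]
  exact mul_le_mul_of_nonneg_left (add_le_add (O1 hQ hκ dd h) (O1 hQ hκ' dd' h')) hc.le

/-- the overlap is a submartingale. -/
theorem rr_le_cE (hQ : IsProb Q) (B : Finset ι) {l l' : ℕ} (hll : l ≤ l') (ω : Ω) :
    rr X Q 𝓕 B l ω ≤ cE Q (𝓕.F l) (rr X Q 𝓕 B l') ω := by
  have e : cE Q (𝓕.F l) (rr X Q 𝓕 B l') ω = (B.card : ℝ)⁻¹ *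
      ∑ i ∈ B, cE Q (𝓕.F l) (fun a => (cE Q (𝓕.F l') (X i) a) ^ 2) ω := by
    unfold rr
    rw [cE_smul, cE_sum]
  rw [e]
  unfold rr
  refine mul_le_mul_of_nonneg_left ?_ (by positivity)
  refine Finset.sum_le_sum fun i _ => ?_
  rw [← cE_tower hQ (𝓕.antitone hll) (X i)]
  exact cE_sq_le hQ _ _ ω

theorem eE_rr_mono (hQ : IsProb Q) (B : Finset ι) {l l' : ℕ} (hll : l ≤ l') :
    eE Q (rr X Q 𝓕 B l) ≤ eE Q (rr X Q 𝓕 B l') := by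
  rw [← eE_cE hQ (𝓕.F l) (rr X Q 𝓕 B l')]
  exact eE_mono hQ fun ω => rr_le_cE X hQ B hll ω

/-- (O3) from any bound for `E_l r_{m_g}`. -/
theorem O3 (hQ : IsProb Q) (B : Finset ι) {l l' : ℕ} (hll : l ≤ l') (c : ℝ) :
    eE Q (fun ω => |rr X Q 𝓕 B l ω - c|) ≤
      eE Q (fun ω => |cE Q (𝓕.F l) (rr X Q 𝓕 B l') ω - c|) +
        (eE Q (rr X Q 𝓕 B l') - eE Q (rr X Q 𝓕 B l)) := by
  rw [← eE_cE hQ (𝓕.F l) (rr X Q 𝓕 B l'), ← eE_sub, ← eE_add]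
  refine eE_mono hQ fun ω => ?_
  have h := rr_le_cE (𝓕 := 𝓕) X hQ B hll ω
  have e : rr X Q 𝓕 B l ω - c = (cE Q (𝓕.F l) (rr X Q 𝓕 B l') ω - c) -
      (cE Q (𝓕.F l) (rr X Q 𝓕 B l') ω - rr X Q 𝓕 B l ω) := by ring
  rw [e]
  refine (abs_sub _ _).trans ?_
  rw [abs_of_nonneg (by linarith : 0 ≤ cE Q (𝓕.F l) (rr X Q 𝓕 B l') ω - rr X Q 𝓕 B l ω)]

/-- the mean of `T_g`. -/
theorem eE_Tg (hQ : IsProb Q) (B : Finset ι) (nN w0 : ℝ) (m : ℕ → ℕ) (nc g : ℕ) :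
    eE Q (Tg X Q 𝓕 B nN w0 m nc g) = eE Q (Sq X B nN) -
      w0 * ∑ g' ∈ Ico g nc, (B.card / nN) * eE Q (rr X Q 𝓕 B (m g')) := by
  rw [← eE_cE hQ (𝓕.F 0) (Tg X Q 𝓕 B nN w0 m nc g)]
  have h : ∀ ω, cE Q (𝓕.F 0) (Tg X Q 𝓕 B nN w0 m nc g) ω =
      cE Q (𝓕.F 0) (Sq X B nN) ω - w0 * ∑ g' ∈ Ico g nc, (B.card / nN) *
        cE Q (𝓕.F 0) (rr X Q 𝓕 B (m g')) ω := fun ω =>
    cE_Tg X hQ B nN w0 m nc g 0 (fun _ _ _ => Nat.zero_le _) ω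
  rw [show cE Q (𝓕.F 0) (Tg X Q 𝓕 B nN w0 m nc g) = fun ω =>
      cE Q (𝓕.F 0) (Sq X B nN) ω - w0 * ∑ g' ∈ Ico g nc, (B.card / nN) *
        cE Q (𝓕.F 0) (rr X Q 𝓕 B (m g')) ω from funext h]
  rw [eE_sub, eE_smul, eE_sum, eE_cE hQ]
  congr 1
  congr 1
  refine Finset.sum_congr rfl fun g' _ => ?_
  rw [eE_smul, eE_cE hQ]

theorem eE_Sq_nonneg (hQ : IsProb Q) (B : Finset ι) {nN : ℝ} (hN : 0 < nN) :
    0 ≤ eE Q (Sq X B nN) :=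
  eE_nonneg hQ fun _ => mul_nonneg (inv_pos.2 hN).le (Finset.sum_nonneg fun _ _ => sq_nonneg _)

/-- `|E[f X E_m X]| ≤ E X²` for `|f| ≤ 1`. -/
theorem abs_eE_f_cE_le (hQ : IsProb Q) (r : Setoid Ω) {f : Ω → ℝ} (hf : ∀ ω, |f ω| ≤ 1)
    (Y : Ω → ℝ) : |eE Q (fun ω => f ω * (Y ω * cE Q r Y ω))| ≤ eE Q (fun ω => Y ω ^ 2) := by
  refine (Crest.Agent.R141.eE_abs_le hQ _).trans ?_
  have h1 : ∀ ω, |f ω * (Y ω * cE Q r Y ω)| ≤ (1 / 2) * (Y ω ^ 2 + (cE Q r Y ω) ^ 2) := by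
    intro ω
    rw [abs_mul, abs_mul]
    have h2 : |Y ω| * |cE Q r Y ω| ≤ (1 / 2) * (Y ω ^ 2 + (cE Q r Y ω) ^ 2) := by
      rw [← sq_abs (Y ω), ← sq_abs (cE Q r Y ω)]
      nlinarith [sq_nonneg (|Y ω| - |cE Q r Y ω|)]
    calc |f ω| * (|Y ω| * |cE Q r Y ω|) ≤ 1 * (|Y ω| * |cE Q r Y ω|) :=
          mul_le_mul_of_nonneg_right (hf ω) (by positivity)
      _ ≤ _ := by rw [one_mul]; exact h2
  refine (eE_mono hQ h1).trans ?_
  rw [eE_smul, eE_add]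
  have h3 : eE Q (fun ω => (cE Q r Y ω) ^ 2) ≤ eE Q (fun ω => Y ω ^ 2) := by
    rw [← eE_cE hQ r (fun ω => Y ω ^ 2)]
    exact eE_mono hQ fun ω => cE_sq_le hQ _ _ ω
  linarith

/-- the sign function used at the leaf. -/
def sg (c : ℝ) (S : Ω → ℝ) (ω : Ω) : ℝ := if c ≤ S ω then 1 else -1

omit [Fintype Ω] in
theorem abs_sg (c : ℝ) (S : Ω → ℝ) (ω : Ω) : |sg c S ω| ≤ 1 := by
  unfold sg; split_ifs <;> simp

omit [Fintype Ω] in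
theorem sg_mul (c : ℝ) (S : Ω → ℝ) (ω : Ω) : sg c S ω * (S ω - c) = |S ω - c| := by
  unfold sg
  split_ifs with h
  · rw [abs_of_nonneg (by linarith), one_mul]
  · rw [abs_of_neg (by push Not at h; linarith)]; ring

/-- (O4): the leaf, from the integration by parts formula with the sign function. -/
theorem O4 (hQ : IsProb Q) (B : Finset ι) {nN w0 : ℝ} (hN : 0 < nN) (hw : 0 ≤ w0)
    (m : ℕ → ℕ) {nc g l : ℕ} {D : Ω → ℝ} {κ err : ℝ} (hκ : 0 < κ) (dd : ℝ)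
    (h : ∀ ω, |cE Q (𝓕.F l) (fun a => D a * sg (dd / κ) (Sq X B nN) a) ω -
      κ * cE Q (𝓕.F l) (fun a => sg (dd / κ) (Sq X B nN) a *
        Tg X Q 𝓕 B nN w0 m nc g a) ω| ≤ err) :
    eE Q (fun ω => |Sq X B nN ω - dd / κ|) ≤ (eE Q (fun ω => |D ω - dd|) + err) / κ +
      w0 * (nc - g : ℕ) * eE Q (Sq X B nN) := by
  set f := sg (dd / κ) (Sq X B nN) with hf
  set T := Tg X Q 𝓕 B nN w0 m nc g with hT
  have hf1 : ∀ ω, |f ω| ≤ 1 := fun ω => abs_sg _ _ _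
  -- first part
  have h1 : eE Q (fun ω => f ω * (T ω - dd / κ)) ≤ (eE Q (fun ω => |D ω - dd|) + err) / κ := by
    have h2 : |eE Q (fun a => D a * f a) - κ * eE Q (fun a => f a * T a)| ≤ err := by
      rw [← eE_cE hQ (𝓕.F l) (fun a => D a * f a), ← eE_cE hQ (𝓕.F l) (fun a => f a * T a),
        ← eE_smul, ← eE_sub]
      refine (Crest.Agent.R141.eE_abs_le hQ _).trans ?_
      exact (eE_mono hQ h).trans (le_of_eq (eE_const hQ _))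
    have h3 : eE Q (fun ω => f ω * (T ω - dd / κ)) =
        κ⁻¹ * (eE Q (fun ω => f ω * (D ω - dd)) -
          (eE Q (fun a => D a * f a) - κ * eE Q (fun a => f a * T a))) := by
      have a1 : eE Q (fun ω => f ω * (T ω - dd / κ)) = eE Q (fun a => f a * T a) -
          dd / κ * eE Q f := by
        rw [← eE_smul, ← eE_sub]; congr 1; funext ω; ring
      have a2 : eE Q (fun ω => f ω * (D ω - dd)) = eE Q (fun a => D a * f a) -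
          dd * eE Q f := by
        rw [← eE_smul, ← eE_sub]; congr 1; funext ω; ring
      rw [a1, a2]; field_simp; ring
    rw [h3, div_eq_inv_mul]
    refine mul_le_mul_of_nonneg_left ?_ (inv_pos.2 hκ).le
    have h4 : eE Q (fun ω => f ω * (D ω - dd)) ≤ eE Q (fun ω => |D ω - dd|) := by
      refine eE_mono hQ fun ω => ?_
      refine (le_abs_self _).trans ?_
      rw [abs_mul]
      calc |f ω| * |D ω - dd| ≤ 1 * |D ω - dd| :=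
            mul_le_mul_of_nonneg_right (hf1 ω) (abs_nonneg _)
        _ = _ := one_mul _
    linarith [(abs_le.mp h2).1]
  -- second part
  have h5 : eE Q (fun ω => |Sq X B nN ω - dd / κ|) = eE Q (fun ω => f ω * (T ω - dd / κ)) +
      w0 * ∑ g' ∈ Ico g nc, nN⁻¹ * ∑ i ∈ B,
        eE Q (fun ω => f ω * (X i ω * cE Q (𝓕.F (m g')) (X i) ω)) := by
    have e1 : ∀ ω, |Sq X B nN ω - dd / κ| = f ω * (T ω - dd / κ) +
        w0 * ∑ g' ∈ Ico g nc, nN⁻¹ * ∑ i ∈ B,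
          (f ω * (X i ω * cE Q (𝓕.F (m g')) (X i) ω)) := by
      intro ω
      rw [← sg_mul, ← hf]
      have e2 : Sq X B nN ω = T ω + w0 * ∑ g' ∈ Ico g nc, nN⁻¹ * ∑ i ∈ B,
          X i ω * cE Q (𝓕.F (m g')) (X i) ω := by
        rw [hT]
        unfold Tg Sq
        rw [← Finset.mul_sum]
        have e3 : ∑ g' ∈ Ico g nc, ∑ i ∈ B, X i ω * cE Q (𝓕.F (m g')) (X i) ω =
            ∑ i ∈ B, X i ω * ∑ g' ∈ Ico g nc, cE Q (𝓕.F (m g')) (X i) ω := by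
          rw [Finset.sum_comm]
          refine Finset.sum_congr rfl fun i _ => ?_
          rw [Finset.mul_sum]
        rw [e3]
        have e4 : ∀ i, X i ω * (X i ω - w0 * ∑ g' ∈ Ico g nc, cE Q (𝓕.F (m g')) (X i) ω) =
            X i ω ^ 2 - w0 * (X i ω * ∑ g' ∈ Ico g nc, cE Q (𝓕.F (m g')) (X i) ω) := by
          intro i; ring
        simp only [e4]
        rw [Finset.sum_sub_distrib, ← Finset.mul_sum]
        ring
      rw [e2]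
      simp only [← Finset.mul_sum]
      ring
    simp only [e1]
    rw [eE_add, eE_smul, eE_sum]
    congr 1
    congr 1
    refine Finset.sum_congr rfl fun g' _ => ?_
    rw [eE_smul, eE_sum]
  rw [h5]
  refine add_le_add h1 ?_
  rw [mul_assoc]
  refine mul_le_mul_of_nonneg_left ?_ hw
  have h6 : ∀ g' ∈ Ico g nc, nN⁻¹ * ∑ i ∈ B,
      eE Q (fun ω => f ω * (X i ω * cE Q (𝓕.F (m g')) (X i) ω)) ≤ eE Q (Sq X B nN) := by
    intro g' _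
    unfold Sq
    rw [eE_smul, eE_sum]
    refine mul_le_mul_of_nonneg_left ?_ (inv_pos.2 hN).le
    refine Finset.sum_le_sum fun i _ => ?_
    exact (le_abs_self _).trans (abs_eE_f_cE_le hQ _ hf1 (X i))
  refine (Finset.sum_le_sum h6).trans (le_of_eq ?_)
  rw [Finset.sum_const, Nat.card_Ico, nsmul_eq_mul]

/-- the overlap at the leaf. -/
theorem rr_leaf (hQ : IsProb Q) (B : Finset ι) {nN : ℝ} (hN : 0 < nN) {l : ℕ} (hl : 𝓕.L ≤ l)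
    (ω : Ω) : rr X Q 𝓕 B l ω = (nN / B.card) * Sq X B nN ω := by
  unfold rr Sq
  rw [𝓕.bot l hl]
  simp only [cE_bot hQ]
  field_simp

/-- (O4) in terms of the overlap at the leaf. -/
theorem O4' (hQ : IsProb Q) (B : Finset ι) {nN w0 : ℝ} (hN : 0 < nN) (hw : 0 ≤ w0)
    (m : ℕ → ℕ) {nc g l : ℕ} {D : Ω → ℝ} {κ err : ℝ} (hκ : 0 < κ) (dd : ℝ)
    (h : ∀ ω, |cE Q (𝓕.F l) (fun a => D a * sg (dd / κ) (Sq X B nN) a) ω -
      κ * cE Q (𝓕.F l) (fun a => sg (dd / κ) (Sq X B nN) a *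
        Tg X Q 𝓕 B nN w0 m nc g a) ω| ≤ err) :
    eE Q (fun ω => |rr X Q 𝓕 B 𝓕.L ω - (nN / B.card) * (dd / κ)|) ≤
      (nN / B.card) * ((eE Q (fun ω => |D ω - dd|) + err) / κ +
        w0 * (nc - g : ℕ) * eE Q (Sq X B nN)) := by
  have hc : 0 ≤ nN / B.card := by positivity
  have e : ∀ ω, |rr X Q 𝓕 B 𝓕.L ω - (nN / B.card) * (dd / κ)| =
      (nN / B.card) * |Sq X B nN ω - dd / κ| := by
    intro ω
    rw [rr_leaf X hQ B hN le_rfl, ← mul_sub, abs_mul, abs_of_nonneg hc]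
  simp only [e]
  rw [eE_smul]
  exact mul_le_mul_of_nonneg_left (O4 X hQ B hN hw m hκ dd h) hc

/-- (O5): the mean of a field observable. -/
theorem O5 (hQ : IsProb Q) (B : Finset ι) {nN w0 : ℝ} (m : ℕ → ℕ) {nc g l : ℕ}
    {D : Ω → ℝ} {κ err : ℝ}
    (h : ∀ ω, |cE Q (𝓕.F l) D ω - κ * cE Q (𝓕.F l) (Tg X Q 𝓕 B nN w0 m nc g) ω| ≤ err) :
    |eE Q D - κ * (eE Q (Sq X B nN) -
      w0 * ∑ g' ∈ Ico g nc, (B.card / nN) * eE Q (rr X Q 𝓕 B (m g')))| ≤ err := by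
  rw [← eE_Tg X hQ B nN w0 m nc g, ← eE_cE hQ (𝓕.F l) D,
    ← eE_cE hQ (𝓕.F l) (Tg X Q 𝓕 B nN w0 m nc g), ← eE_smul, ← eE_sub]
  refine (Crest.Agent.R141.eE_abs_le hQ _).trans ?_
  exact (eE_mono hQ h).trans (le_of_eq (eE_const hQ _))

/-- **Pigeonhole over the cells of a window**: nondecreasing bounded sequences `V k` have a small
simultaneous increment at one of the `w` cells `a < g ≤ a + w`. -/
theorem pigeon {κ : Type*} (s : Finset κ) (V : κ → ℕ → ℝ) (K : κ → ℝ)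
    (h0 : ∀ k ∈ s, ∀ g, 0 ≤ V k g) (hK : ∀ k ∈ s, ∀ g, V k g ≤ K k) (a : ℕ) {w : ℕ}
    (hw : 0 < w) :
    ∃ g, a ≤ g ∧ g < a + w ∧ ∑ k ∈ s, (V k (g + 1) - V k g) ≤ (∑ k ∈ s, K k) / w := by
  by_contra hcon
  push Not at hcon
  have hw' : (0 : ℝ) < w := by exact_mod_cast hw
  have h1 : ∑ g ∈ Ico a (a + w), (∑ k ∈ s, K k) / w <
      ∑ g ∈ Ico a (a + w), ∑ k ∈ s, (V k (g + 1) - V k g) := by
    refine Finset.sum_lt_sum_of_nonempty ?_ fun g hg => ?_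
    · exact ⟨a, by simp [hw]⟩
    · rw [Finset.mem_Ico] at hg
      exact hcon g hg.1 hg.2
  rw [Finset.sum_const, Nat.card_Ico, nsmul_eq_mul, Nat.add_sub_cancel_left,
    mul_div_cancel₀ _ hw'.ne', Finset.sum_comm] at h1
  have h2 : ∀ k, ∑ g ∈ Ico a (a + w), (V k (g + 1) - V k g) = V k (a + w) - V k a := by
    intro k
    rw [Finset.sum_Ico_eq_sum_range]
    simp only [Nat.add_sub_cancel_left]
    have := Finset.sum_range_sub (fun j => V k (a + j)) w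
    simpa [add_assoc] using this
  simp only [h2] at h1
  have h3 : ∑ k ∈ s, (V k (a + w) - V k a) ≤ ∑ k ∈ s, K k :=
    Finset.sum_le_sum fun k hk => by linarith [h0 k hk a, hK k hk (a + w)]
  linarith

end

end Crest.Agent.R164.OvC
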