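import Mathlib
import Crest.Agent.R164.ConcSys1
import Crest.Agent.R164.OvConc

set_option autoImplicit false

/-!
Row 164, module (Conc): hypothesis (A) of `OvConc` for `Sys164` (site-dependent strengths, `HS`).
-/

namespace Crest.Agent.R164.CSys

open Finset
open Crest.Agent.R141
open Crest.Agent.R164 SY

noncomputable section

variable {p : Par} {N n : ℕ} {A : Finset (Fin N → Bool)} (hA : A.Nonempty)
  (h0 : (Fin N → Bool) → ℝ) (a lam : Fin N → Fin p.nc → ℝ)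
  (X : (Fin N → Bool) → Fin N → ℝ) (d : DD p N)

/-- the coordinates as functions on the enriched space -/
def XO (X : (Fin N → Bool) → Fin N → ℝ) (i : Fin N) (ω : G.Om (base p n A hA)) : ℝ := X ω.1.1.1 i

/-- the spins as functions on the enriched space -/
def SO (i : Fin N) (ω : G.Om (base p n A hA)) : ℝ := sv (ω.1.1.1 i)

/-- small-field observable -/
def Dsm (X : (Fin N → Bool) → Fin N → ℝ) (g : Fin p.nc) (I : Finset (Fin N))
    (ω : G.Om (base p n A hA)) : ℝ :=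
  (N : ℝ)⁻¹ * ∑ i ∈ I, zf ω.1.2.2 g i * X ω.1.1.1 i

/-- main-field observable -/
def Dmn (g : Fin p.nc) (I : Finset (Fin N)) (ω : G.Om (base p n A hA)) : ℝ :=
  (N : ℝ)⁻¹ * ∑ i ∈ I, zf ω.1.2.1 g i * sv (ω.1.1.1 i)

/-- **(A)** for the small fields, strength `κ` on `I`. -/
theorem A_small (hn : 0 < n) (g : Fin p.nc) (I : Finset (Fin N)) {κ : ℝ}
    (hκ : ∀ i ∈ I, lam i g = κ) {f : G.Om (base p n A hA) → ℝ}
    (hf : ∀ i t ω, f (sflip hA g i t ω) = f ω) {K : ℝ} (hK0 : 0 ≤ K)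
    (hXK : ∀ σ i, |X σ i| ≤ K)
    (hfK : ∀ ω, |f ω| ≤ 1) (hc : |κ| * K ≤ Real.sqrt n / 8) {l : ℕ}
    (hl : l < p.mt g) (ω : G.Om (base p n A hA)) :
    |cE (PS hA h0 a lam X d) ((G.fil (base p n A hA)).F l) (fun w => Dsm hA X g I w * f w) ω -
      κ * cE (PS hA h0 a lam X d) ((G.fil (base p n A hA)).F l)
        (fun w => f w * OvC.Tg (XO hA X) (PS hA h0 a lam X d) (G.fil (base p n A hA)) I N
          ((p.nc : ℝ) + 1)⁻¹ p.mt p.nc g w) ω| ≤
      52 * κ ^ 2 * K ^ 3 / Real.sqrt n := by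
  have hsn : 0 < Real.sqrt n := Real.sqrt_pos.mpr (by exact_mod_cast hn)
  have hNr : (0 : ℝ) ≤ (N : ℝ)⁻¹ := by positivity
  have h := ibp_small_sum hA h0 a lam X d hn g I hf hXK hfK (Λ := |κ|)
    (fun i hi => by rw [hκ i hi]) hc hl ω
  have e1 : cE (PS hA h0 a lam X d) ((G.fil (base p n A hA)).F l)
      (fun w => Dsm hA X g I w * f w) ω = (N : ℝ)⁻¹ *
      cE (PS hA h0 a lam X d) ((G.fil (base p n A hA)).F l)
        (fun w => (∑ i ∈ I, zf w.1.2.2 g i * X w.1.1.1 i) * f w) ω := by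
    rw [← cE_smul]
    congr 1; funext w
    unfold Dsm; ring
  have e2 : κ * cE (PS hA h0 a lam X d) ((G.fil (base p n A hA)).F l)
        (fun w => f w * OvC.Tg (XO hA X) (PS hA h0 a lam X d) (G.fil (base p n A hA)) I N
          ((p.nc : ℝ) + 1)⁻¹ p.mt p.nc g w) ω = (N : ℝ)⁻¹ *
      cE (PS hA h0 a lam X d) ((G.fil (base p n A hA)).F l)
        (fun w => f w * ∑ i ∈ I, lam i g * (X w.1.1.1 i *
          scr hA (PS hA h0 a lam X d) g (fun w => X w.1.1.1 i) w)) ω := by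
    rw [← cE_smul, ← cE_smul]
    congr 1; funext w
    unfold OvC.Tg
    have : ∑ i ∈ I, lam i g * (X w.1.1.1 i *
          scr hA (PS hA h0 a lam X d) g (fun w => X w.1.1.1 i) w) =
        κ * ∑ i ∈ I, XO hA X i w * (XO hA X i w - ((p.nc : ℝ) + 1)⁻¹ * ∑ g' ∈ Ico (g : ℕ) p.nc,
          cE (PS hA h0 a lam X d) ((G.fil (base p n A hA)).F (p.mt g')) (XO hA X i) w) := by
      rw [Finset.mul_sum]
      refine Finset.sum_congr rfl fun i hi => ?_
      rw [hκ i hi]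
      rfl
    rw [this]; ring
  rw [e1, e2, ← mul_sub, abs_mul, abs_of_nonneg hNr]
  have hcard : (N : ℝ)⁻¹ * I.card ≤ 1 := by
    have h1 := Finset.card_le_univ I
    rw [Fintype.card_fin] at h1
    have h2 : (I.card : ℝ) ≤ N := by exact_mod_cast h1
    rcases Nat.eq_zero_or_pos N with h0 | h0
    · subst h0; simp
    · have h3 : (0 : ℝ) < N := by exact_mod_cast h0
      rw [inv_mul_le_iff₀ h3, mul_one]; exact h2
  calc (N : ℝ)⁻¹ * |_| ≤ (N : ℝ)⁻¹ * (I.card * (52 * |κ| ^ 2 * K ^ 3 / Real.sqrt n)) :=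
        mul_le_mul_of_nonneg_left h hNr
    _ = ((N : ℝ)⁻¹ * I.card) * (52 * |κ| ^ 2 * K ^ 3 / Real.sqrt n) := by ring
    _ ≤ 1 * (52 * |κ| ^ 2 * K ^ 3 / Real.sqrt n) := by
        refine mul_le_mul_of_nonneg_right hcard ?_
        positivity
    _ = 52 * κ ^ 2 * K ^ 3 / Real.sqrt n := by
        rw [sq_abs, one_mul]

/-- **(A)** for the main fields, strength `κ` on `I`. -/
theorem A_main (hn : 0 < n) (g : Fin p.nc) (I : Finset (Fin N)) {κ : ℝ}
    (hκ : ∀ i ∈ I, a i g = κ) {f : G.Om (base p n A hA) → ℝ}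
    (hf : ∀ i t ω, f (mflip hA g i t ω) = f ω)
    (hfK : ∀ ω, |f ω| ≤ 1) (hc : |κ| ≤ Real.sqrt n / 8) {l : ℕ}
    (hl : l < p.mt g) (ω : G.Om (base p n A hA)) :
    |cE (PS hA h0 a lam X d) ((G.fil (base p n A hA)).F l) (fun w => Dmn hA g I w * f w) ω -
      κ * cE (PS hA h0 a lam X d) ((G.fil (base p n A hA)).F l)
        (fun w => f w * OvC.Tg (SO hA) (PS hA h0 a lam X d) (G.fil (base p n A hA)) I N
          ((p.nc : ℝ) + 1)⁻¹ p.mt p.nc g w) ω| ≤
      52 * κ ^ 2 / Real.sqrt n := by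
  have hsn : 0 < Real.sqrt n := Real.sqrt_pos.mpr (by exact_mod_cast hn)
  have h := ibp_main_sum hA h0 a lam X d hn g I hf hfK (Λ := |κ|)
    (fun i hi => by rw [hκ i hi]) hc hl ω
  have hNr : (0 : ℝ) ≤ (N : ℝ)⁻¹ := by positivity
  have e1 : cE (PS hA h0 a lam X d) ((G.fil (base p n A hA)).F l)
      (fun w => Dmn hA g I w * f w) ω = (N : ℝ)⁻¹ *
      cE (PS hA h0 a lam X d) ((G.fil (base p n A hA)).F l)
        (fun w => (∑ i ∈ I, zf w.1.2.1 g i * sv (w.1.1.1 i)) * f w) ω := by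
    rw [← cE_smul]
    congr 1; funext w
    unfold Dmn; ring
  have e2 : κ * cE (PS hA h0 a lam X d) ((G.fil (base p n A hA)).F l)
        (fun w => f w * OvC.Tg (SO hA) (PS hA h0 a lam X d) (G.fil (base p n A hA)) I N
          ((p.nc : ℝ) + 1)⁻¹ p.mt p.nc g w) ω = (N : ℝ)⁻¹ *
      cE (PS hA h0 a lam X d) ((G.fil (base p n A hA)).F l)
        (fun w => f w * ∑ i ∈ I, a i g * (sv (w.1.1.1 i) *
          scr hA (PS hA h0 a lam X d) g (fun w => sv (w.1.1.1 i)) w)) ω := by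
    rw [← cE_smul, ← cE_smul]
    congr 1; funext w
    unfold OvC.Tg
    have : ∑ i ∈ I, a i g * (sv (w.1.1.1 i) *
          scr hA (PS hA h0 a lam X d) g (fun w => sv (w.1.1.1 i)) w) =
        κ * ∑ i ∈ I, SO hA i w * (SO hA i w - ((p.nc : ℝ) + 1)⁻¹ * ∑ g' ∈ Ico (g : ℕ) p.nc,
          cE (PS hA h0 a lam X d) ((G.fil (base p n A hA)).F (p.mt g')) (SO hA i) w) := by
      rw [Finset.mul_sum]
      refine Finset.sum_congr rfl fun i hi => ?_
      rw [hκ i hi]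
      rfl
    rw [this]; ring
  rw [e1, e2, ← mul_sub, abs_mul, abs_of_nonneg hNr]
  have hcard : (N : ℝ)⁻¹ * I.card ≤ 1 := by
    have h1 := Finset.card_le_univ I
    rw [Fintype.card_fin] at h1
    have h2 : (I.card : ℝ) ≤ N := by exact_mod_cast h1
    rcases Nat.eq_zero_or_pos N with h0 | h0
    · subst h0; simp
    · have h3 : (0 : ℝ) < N := by exact_mod_cast h0
      rw [inv_mul_le_iff₀ h3, mul_one]; exact h2
  calc (N : ℝ)⁻¹ * |_| ≤ (N : ℝ)⁻¹ * (I.card * (52 * |κ| ^ 2 / Real.sqrt n)) :=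
        mul_le_mul_of_nonneg_left h hNr
    _ = ((N : ℝ)⁻¹ * I.card) * (52 * |κ| ^ 2 / Real.sqrt n) := by ring
    _ ≤ 1 * (52 * |κ| ^ 2 / Real.sqrt n) := by
        refine mul_le_mul_of_nonneg_right hcard ?_
        positivity
    _ = 52 * κ ^ 2 / Real.sqrt n := by
        rw [sq_abs, one_mul]

end

end Crest.Agent.R164.CSys
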