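import Crest.Agent.R164.ConcEB

/-! Row 164, concavity of the field value: the primitive of a mean-zero function against the Gaussian
weight, divided by the weight, is exponentially bounded. -/

set_option autoImplicit false
open MeasureTheory Real

namespace Crest.Agent.R164.Conc

/-- the constant of the tail bound -/
noncomputable def tailC (v A : ℝ) : ℝ := ∫ w, Real.exp (A * |w|) * Real.exp (-w ^ 2 / (2 * v))

theorem integrable_tailW {v A : ℝ} (hv : 0 < v) :
    Integrable (fun w : ℝ => Real.exp (A * |w|) * Real.exp (-w ^ 2 / (2 * v))) := by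
  have h := (integrable_exp_abs_mul_phi (A := A) hv).const_mul (Real.sqrt (2 * π * v))
  refine h.congr (Filter.Eventually.of_forall fun w => ?_)
  unfold phi
  have : Real.sqrt (2 * π * v) ≠ 0 := by positivity
  field_simp

theorem tailC_nonneg (v A : ℝ) : 0 ≤ tailC v A := by
  unfold tailC
  exact integral_nonneg fun w => by positivity

/-- mass of a one-sided tail -/
theorem tail_set_bound {v A C : ℝ} (hv : 0 < v) (hA : 0 ≤ A) (hC : 0 ≤ C) {g : ℝ → ℝ}
    (hg : Integrable g) (hb : ∀ t, |g t| ≤ C * (Real.exp (A * |t|) * phi v t)) {u : ℝ} {s : Set ℝ}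
    (hs : MeasurableSet s) (h : ∀ t ∈ s, (t ≤ u ∧ u ≤ 0) ∨ (0 ≤ u ∧ u ≤ t)) :
    |∫ t in s, g t| ≤ (C * tailC v A) * (Real.exp (A * |u|) * phi v u) := by
  have hW : Integrable (fun t : ℝ => Real.exp (A * |t - u|) * Real.exp (-(t - u) ^ 2 / (2 * v))) :=
    (integrable_tailW (A := A) hv).comp_sub_right u
  have hp := phi_pos hv u
  have h1 : ‖∫ t in s, g t‖ ≤ ∫ t in s, (C * (Real.exp (A * |u|) * phi v u)) *
      (Real.exp (A * |t - u|) * Real.exp (-(t - u) ^ 2 / (2 * v))) := by
    refine norm_integral_le_of_norm_le ((hW.const_mul _).restrict) ?_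
    refine (ae_restrict_iff' hs).mpr (Filter.Eventually.of_forall fun t ht => ?_)
    rw [Real.norm_eq_abs]
    have h2 := tail_bound hv hA (h t ht)
    calc |g t| ≤ C * (Real.exp (A * |t|) * phi v t) := hb t
      _ ≤ C * ((Real.exp (A * |u|) * phi v u) *
          (Real.exp (A * |t - u|) * Real.exp (-(t - u) ^ 2 / (2 * v)))) := by gcongr
      _ = _ := by ring
  have h3 : ∫ t in s, (C * (Real.exp (A * |u|) * phi v u)) *
      (Real.exp (A * |t - u|) * Real.exp (-(t - u) ^ 2 / (2 * v))) ≤
      ∫ t, (C * (Real.exp (A * |u|) * phi v u)) *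
      (Real.exp (A * |t - u|) * Real.exp (-(t - u) ^ 2 / (2 * v))) := by
    refine setIntegral_le_integral (hW.const_mul _) ?_
    exact Filter.Eventually.of_forall fun t => by positivity
  have h4 : ∫ t, (C * (Real.exp (A * |u|) * phi v u)) *
      (Real.exp (A * |t - u|) * Real.exp (-(t - u) ^ 2 / (2 * v))) =
      (C * (Real.exp (A * |u|) * phi v u)) * tailC v A := by
    rw [integral_const_mul]
    congr 1
    exact integral_sub_right_eq_self
      (fun w : ℝ => Real.exp (A * |w|) * Real.exp (-w ^ 2 / (2 * v))) u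
  rw [← Real.norm_eq_abs]
  calc _ ≤ _ := h1
    _ ≤ _ := h3
    _ = _ := h4
    _ = _ := by ring

/-- The primitive of `f φ_v` divided by `φ_v`, for a mean-zero exponentially bounded `f`. -/
theorem exists_primitive {v : ℝ} (hv : 0 < v) {f : ℝ → ℝ} (hf : EB f) (hc : Continuous f)
    (hz : ∫ u, f u * phi v u = 0) :
    ∃ P : ℝ → ℝ, EB P ∧ ∀ u, HasDerivAt P (f u + u / v * P u) u := by
  have hcφ : Continuous (phi v) := continuous_phi v
  have hgc : Continuous (fun u => f u * phi v u) := hc.mul hcφ
  have hgi : Integrable (fun u => f u * phi v u) := hf.integrable hv hc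
  let N : ℝ → ℝ := fun u => ∫ t in Set.Iic u, f t * phi v t
  have hN : ∀ u, HasDerivAt N (f u * phi v u) u := by
    intro u
    have h1 : HasDerivAt (fun u => (∫ t in Set.Iic 0, f t * phi v t) + ∫ t in (0:ℝ)..u, f t * phi v t)
        (f u * phi v u) u :=
      ((hgc.integral_hasStrictDerivAt 0 u).hasDerivAt).const_add _
    refine h1.congr_of_eventuallyEq (Filter.Eventually.of_forall fun w => ?_)
    have := intervalIntegral.integral_Iic_sub_Iic (μ := volume) (a := 0) (b := w)
      (f := fun u => f u * phi v u) hgi.integrableOn hgi.integrableOn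
    show (∫ t in Set.Iic w, f t * phi v t) = _
    linarith
  obtain ⟨C, A, hC, hA, hb⟩ := hf
  have hb' : ∀ t, |f t * phi v t| ≤ C * (Real.exp (A * |t|) * phi v t) := by
    intro t
    have hp := phi_pos hv t
    rw [abs_mul, abs_of_pos hp]
    calc |f t| * phi v t ≤ (C * Real.exp (A * |t|)) * phi v t := by gcongr; exact hb t
      _ = _ := by ring
  have hNb : ∀ u, |N u| ≤ (C * tailC v A) * (Real.exp (A * |u|) * phi v u) := by
    intro u
    rcases le_total u 0 with hu | hu
    · exact tail_set_bound hv hA hC hgi hb' measurableSet_Iic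
        (fun t ht => Or.inl ⟨ht, hu⟩)
    · have h0 := intervalIntegral.integral_Iic_add_Ioi (μ := volume) (b := u)
        (f := fun u => f u * phi v u) hgi.integrableOn hgi.integrableOn
      have h1 : N u = - ∫ t in Set.Ioi u, f t * phi v t := by
        show (∫ t in Set.Iic u, f t * phi v t) = _
        linarith
      rw [h1, abs_neg]
      exact tail_set_bound hv hA hC hgi hb' measurableSet_Ioi
        (fun t ht => Or.inr ⟨hu, le_of_lt ht⟩)
  refine ⟨fun u => N u / phi v u, ⟨C * tailC v A, A, mul_nonneg hC (tailC_nonneg v A), hA, fun u => ?_⟩,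
    fun u => ?_⟩
  · have hp := phi_pos hv u
    rw [abs_div, abs_of_pos hp, div_le_iff₀ hp]
    calc |N u| ≤ _ := hNb u
      _ = _ := by ring
  · have hp := phi_ne hv u
    refine ((hN u).div (hasDerivAt_phi hv u) hp).congr_deriv ?_
    field_simp
    ring

end Crest.Agent.R164.Conc
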