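import Mathlib

/-!
Row 164, upper bound: the abstract contact (comparison) argument.

`F t a l` is a free energy depending on the temperature parameter `t ∈ [0,1]`, on the field
strengths `a g ∈ [a0, A]` (so that the covariance increments are `a g ^ 2`) and on auxiliary
strengths `l i ∈ [1,2]`. At a maximum of `F` minus the affine (in `a g ^ 2`) comparison function
minus `ε t` minus `c ∑ (l i - 3/2)^2` with `t > 0`, the structure hypothesis gives a
contradiction; so the maximum is at `t = 0`.
-/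

set_option autoImplicit false

namespace Crest.Agent.R164.Contact

open Finset Set

/-- one-sided derivative at a maximum over `[x - r, x]`. -/
theorem deriv_nonneg_of_left_max {f : ℝ → ℝ} {f' x y : ℝ} (hy : y < x)
    (hf : HasDerivAt f f' x) (hmax : ∀ z ∈ Icc y x, f z ≤ f x) : 0 ≤ f' := by
  by_contra hneg
  push Not at hneg
  have h := hf.hasDerivWithinAt (s := Iio x)
  rw [hasDerivWithinAt_iff_tendsto_slope' (by simp)] at h
  have h1 : ∀ᶠ z in nhdsWithin x (Iio x), slope f x z < 0 := h.eventually (gt_mem_nhds hneg)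
  have h2 : ∀ᶠ z in nhdsWithin x (Iio x), z ∈ Ioo y x := Ioo_mem_nhdsLT hy
  obtain ⟨z, hz1, hz2⟩ := (h1.and h2).exists
  have h3 : f z ≤ f x := hmax z ⟨hz2.1.le, hz2.2.le⟩
  rw [slope_def_field] at hz1
  have h4 : 0 ≤ (f z - f x) / (z - x) :=
    div_nonneg_of_nonpos (by linarith) (by linarith [hz2.2])
  linarith

/-- one-sided derivative at a maximum over `[x, y]`. -/
theorem deriv_nonpos_of_right_max {f : ℝ → ℝ} {f' x y : ℝ} (hy : x < y)
    (hf : HasDerivAt f f' x) (hmax : ∀ z ∈ Icc x y, f z ≤ f x) : f' ≤ 0 := by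
  have h1 : HasDerivAt (fun z => f (-z)) (-f') (-x) := by
    have h2 : HasDerivAt f f' (-(-x)) := by simpa using hf
    have h3 : HasDerivAt (fun z => f (-z)) (f' * (-1)) (-x) := h2.comp (-x) (hasDerivAt_neg (-x))
    exact h3.congr_deriv (by ring)
  have h3 := deriv_nonneg_of_left_max (f := fun z => f (-z)) (x := -x) (y := -y) (by linarith) h1
    (fun z hz => by
      have := hmax (-z) ⟨by linarith [hz.2], by linarith [hz.1]⟩
      simpa using this)
  linarith

variable {α β : Type*} [Fintype α] [DecidableEq α] [Fintype β] [DecidableEq β]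

/-- **Contact argument.** -/
theorem contact (F : ℝ → (α → ℝ) → (β → ℝ) → ℝ)
    (Ft : ℝ → (α → ℝ) → (β → ℝ) → ℝ)
    (Fa : α → ℝ → (α → ℝ) → (β → ℝ) → ℝ)
    (Fl : β → ℝ → (α → ℝ) → (β → ℝ) → ℝ)
    (hc : Continuous fun q : ℝ × (α → ℝ) × (β → ℝ) => F q.1 q.2.1 q.2.2)
    (hFt : ∀ t a l, HasDerivAt (fun t => F t a l) (Ft t a l) t)
    (hFa : ∀ t a l g, HasDerivAt (fun y => F t (Function.update a g y) l) (Fa g t a l) (a g))
    (hFl : ∀ t a l i, HasDerivAt (fun y => F t a (Function.update l i y)) (Fl i t a l) (l i))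
    {S a0 A c ε ε0 : ℝ} (haA : a0 < A) (hcpos : 0 < c) (hε : 0 < ε) (hε0 : 0 ≤ ε0)
    (P : α → ℝ) (G D : ℝ → ℝ)
    (hG0 : G 0 = 0)
    (hG : ∀ t ∈ Ioc (0:ℝ) 1, HasDerivAt G (D t) t)
    (hGc : ContinuousOn G (Icc 0 1))
    -- initial values
    (hinit : ∀ a l, (∀ g, a g ∈ Icc a0 A) → (∀ i, l i ∈ Icc (1:ℝ) 2) →
      F 0 a l ≤ S - 1 / 2 * ∑ g, a g ^ 2 * P g + ε0)
    -- coercivity on the faces `a g = A`
    (hface : ∀ t a l, t ∈ Icc (0:ℝ) 1 → (∀ g, a g ∈ Icc a0 A) → (∀ i, l i ∈ Icc (1:ℝ) 2) →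
      (∃ g, a g = A) → F t a l ≤ S - 1 / 2 * ∑ g, a g ^ 2 * P g + G t)
    -- small dependence on the auxiliary strengths
    (hsmall : ∀ i t a l, t ∈ Icc (0:ℝ) 1 → (∀ g, a g ∈ Icc a0 A) → (∀ i, l i ∈ Icc (1:ℝ) 2) →
      |Fl i t a l| < c)
    -- structure at contact points
    (hstr : ∀ t a l, t ∈ Ioc (0:ℝ) 1 → (∀ g, a g ∈ Ico a0 A) → (∀ i, l i ∈ Ioo (1:ℝ) 2) →
      (∀ i, Fl i t a l = 2 * c * (l i - 3 / 2)) →
      (∀ i, ∀ y ∈ Icc (1:ℝ) 2, F t a (Function.update l i y) ≤
        F t a l + Fl i t a l * (y - l i) + c * (y - l i) ^ 2) →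
      (∀ g, Fa g t a l ≤ - (a g * P g)) → Ft t a l < D t + ε) :
    ∀ t a l, t ∈ Icc (0:ℝ) 1 → (∀ g, a g ∈ Icc a0 A) → (∀ i, l i ∈ Icc (1:ℝ) 2) →
      F t a l ≤ S - 1 / 2 * ∑ g, a g ^ 2 * P g + G t + ε * t + ε0 + c * (Fintype.card β / 4) := by
  -- the comparison function
  let Ξ : ℝ × (α → ℝ) × (β → ℝ) → ℝ := fun q =>
    F q.1 q.2.1 q.2.2 - (S - 1 / 2 * ∑ g, q.2.1 g ^ 2 * P g + G q.1) - ε * q.1
      - c * ∑ i, (q.2.2 i - 3 / 2) ^ 2
  let K : Set (ℝ × (α → ℝ) × (β → ℝ)) :=
    Icc (0:ℝ) 1 ×ˢ (Set.pi univ fun _ => Icc a0 A) ×ˢ (Set.pi univ fun _ => Icc (1:ℝ) 2)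
  have hKc : IsCompact K :=
    isCompact_Icc.prod ((isCompact_univ_pi fun _ => isCompact_Icc).prod
      (isCompact_univ_pi fun _ => isCompact_Icc))
  have hKn : K.Nonempty :=
    ⟨(0, (fun _ => a0), fun _ => 1), ⟨⟨le_rfl, zero_le_one⟩,
      ⟨fun _ _ => ⟨le_rfl, haA.le⟩, fun _ _ => ⟨le_rfl, by norm_num⟩⟩⟩⟩
  have hΞc : ContinuousOn Ξ K := by
    have h1 : ContinuousOn (fun q : ℝ × (α → ℝ) × (β → ℝ) => G q.1) K :=
      hGc.comp continuous_fst.continuousOn fun q hq => hq.1
    have h2 : Continuous fun q : ℝ × (α → ℝ) × (β → ℝ) =>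
        S - 1 / 2 * ∑ g, q.2.1 g ^ 2 * P g := by fun_prop
    have h3 : Continuous fun q : ℝ × (α → ℝ) × (β → ℝ) =>
        c * ∑ i, (q.2.2 i - 3 / 2) ^ 2 := by fun_prop
    exact ((hc.continuousOn.sub (h2.continuousOn.add h1)).sub
      (Continuous.continuousOn (by fun_prop))).sub h3.continuousOn
  obtain ⟨⟨t, a, l⟩, hq, hmax⟩ := hKc.exists_isMaxOn hKn hΞc
  have ht : t ∈ Icc (0:ℝ) 1 := hq.1
  have ha : ∀ g, a g ∈ Icc a0 A := fun g => hq.2.1 g (mem_univ g)
  have hl : ∀ i, l i ∈ Icc (1:ℝ) 2 := fun i => hq.2.2 i (mem_univ i)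
  have hmax' : ∀ t' a' l', t' ∈ Icc (0:ℝ) 1 → (∀ g, a' g ∈ Icc a0 A) → (∀ i, l' i ∈ Icc (1:ℝ) 2) →
      Ξ (t', a', l') ≤ Ξ (t, a, l) := by
    intro t' a' l' h1 h2 h3
    exact hmax (show (t', a', l') ∈ K from ⟨h1, ⟨fun g _ => h2 g, fun i _ => h3 i⟩⟩)
  have hsq : ∀ l' : β → ℝ, 0 ≤ c * ∑ i, (l' i - 3 / 2) ^ 2 := fun l' => by positivity
  -- the value at the maximum is at most `ε0`
  have key : Ξ (t, a, l) ≤ ε0 := by
    by_contra hcon
    push Not at hcon
    -- `t > 0`
    have ht0 : 0 < t := by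
      rcases ht.1.eq_or_lt with h | h
      · exfalso
        have h1 := hinit a l ha hl
        have h2 : Ξ (t, a, l) = F t a l - (S - 1 / 2 * ∑ g, a g ^ 2 * P g + G t) - ε * t
          - c * ∑ i, (l i - 3 / 2) ^ 2 := rfl
        rw [← h] at h2 hcon
        rw [hG0] at h2
        have h3 := hsq l
        rw [← h] at *
        linarith
      · exact h
    -- `a g < A`
    have haA' : ∀ g, a g ∈ Ico a0 A := by
      intro g
      refine ⟨(ha g).1, lt_of_le_of_ne (ha g).2 ?_⟩
      intro hg
      have h1 := hface t a l ht ha hl ⟨g, hg⟩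
      have h2 : Ξ (t, a, l) = F t a l - (S - 1 / 2 * ∑ g, a g ^ 2 * P g + G t) - ε * t
          - c * ∑ i, (l i - 3 / 2) ^ 2 := rfl
      have h3 := hsq l
      have h4 : 0 < ε * t := mul_pos hε ht0
      linarith
    -- the derivative of `Ξ` in `l i`
    have hdl : ∀ i, HasDerivAt (fun y => Ξ (t, a, Function.update l i y))
        (Fl i t a l - c * (2 * (l i - 3 / 2))) (l i) := by
      intro i
      have h1 : (fun y => Ξ (t, a, Function.update l i y)) = fun y =>
          F t a (Function.update l i y) - (S - 1 / 2 * ∑ g, a g ^ 2 * P g + G t) - ε * t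
            - c * ((y - 3 / 2) ^ 2 + ∑ j ∈ univ.erase i, (l j - 3 / 2) ^ 2) := by
        funext y
        show F t a (Function.update l i y) - (S - 1 / 2 * ∑ g, a g ^ 2 * P g + G t) - ε * t
            - c * ∑ j, (Function.update l i y j - 3 / 2) ^ 2 = _
        congr 2
        rw [← Finset.add_sum_erase _ _ (mem_univ i)]
        congr 1
        · simp
        · refine Finset.sum_congr rfl fun j hj => ?_
          rw [Function.update_of_ne (Finset.ne_of_mem_erase hj)]
      rw [h1]
      have h2 : HasDerivAt (fun y : ℝ => (y - 3 / 2) ^ 2 + ∑ j ∈ univ.erase i, (l j - 3 / 2) ^ 2)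
          (2 * (l i - 3 / 2)) (l i) := by
        have h3 := (((hasDerivAt_id (l i)).sub_const (3 / 2)).pow 2).add_const
          (∑ j ∈ univ.erase i, (l j - 3 / 2) ^ 2)
        refine h3.congr_deriv ?_
        simp
      exact ((((hFl t a l i).sub_const _).sub_const _).sub (h2.const_mul c))
    have hupd : ∀ i y, y ∈ Icc (1:ℝ) 2 → ∀ j, Function.update l i y j ∈ Icc (1:ℝ) 2 := by
      intro i y hy j
      rcases eq_or_ne j i with rfl | h
      · simpa using hy
      · rw [Function.update_of_ne h]; exact hl j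
    have hself : ∀ i, Ξ (t, a, Function.update l i (l i)) = Ξ (t, a, l) := by
      intro i; rw [Function.update_eq_self]
    -- `l i` is interior
    have hli : ∀ i, l i ∈ Ioo (1:ℝ) 2 := by
      intro i
      have hs := hsmall i t a l ht ha hl
      rw [abs_lt] at hs
      constructor
      · refine lt_of_le_of_ne (hl i).1 ?_
        intro h
        have h1 := deriv_nonpos_of_right_max (f := fun y => Ξ (t, a, Function.update l i y))
          (x := l i) (y := 2) (by rw [← h]; norm_num) (hdl i) (fun z hz => by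
            show Ξ (t, a, Function.update l i z) ≤ Ξ (t, a, Function.update l i (l i))
            rw [hself]
            exact hmax' t a _ ht ha (hupd i z ⟨(hl i).1.trans hz.1, hz.2⟩))
        rw [← h] at h1
        linarith
      · refine lt_of_le_of_ne (hl i).2 ?_
        intro h
        have h1 := deriv_nonneg_of_left_max (f := fun y => Ξ (t, a, Function.update l i y))
          (x := l i) (y := 1) (by rw [h]; norm_num) (hdl i) (fun z hz => by
            show Ξ (t, a, Function.update l i z) ≤ Ξ (t, a, Function.update l i (l i))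
            rw [hself]
            exact hmax' t a _ ht ha (hupd i z ⟨hz.1, hz.2.trans (hl i).2⟩))
        rw [h] at h1
        linarith
    -- first order condition
    have hfl : ∀ i, Fl i t a l = c * (2 * (l i - 3 / 2)) := by
      intro i
      have h1 := deriv_nonpos_of_right_max (f := fun y => Ξ (t, a, Function.update l i y))
        (x := l i) (y := 2) (hli i).2 (hdl i) (fun z hz => by
          show Ξ (t, a, Function.update l i z) ≤ Ξ (t, a, Function.update l i (l i))
          rw [hself]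
          exact hmax' t a _ ht ha (hupd i z ⟨(hl i).1.trans hz.1, hz.2⟩))
      have h2 := deriv_nonneg_of_left_max (f := fun y => Ξ (t, a, Function.update l i y))
        (x := l i) (y := 1) (hli i).1 (hdl i) (fun z hz => by
          show Ξ (t, a, Function.update l i z) ≤ Ξ (t, a, Function.update l i (l i))
          rw [hself]
          exact hmax' t a _ ht ha (hupd i z ⟨hz.1, hz.2.trans (hl i).2⟩))
      linarith
    -- contact from above
    have hcontact : ∀ i, ∀ y ∈ Icc (1:ℝ) 2, F t a (Function.update l i y) ≤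
        F t a l + Fl i t a l * (y - l i) + c * (y - l i) ^ 2 := by
      intro i y hy
      have h1 := hmax' t a (Function.update l i y) ht ha (hupd i y hy)
      have h2 : Ξ (t, a, Function.update l i y) =
          F t a (Function.update l i y) - (S - 1 / 2 * ∑ g, a g ^ 2 * P g + G t) - ε * t
            - c * ((y - 3 / 2) ^ 2 + ∑ j ∈ univ.erase i, (l j - 3 / 2) ^ 2) := by
        show F t a (Function.update l i y) - (S - 1 / 2 * ∑ g, a g ^ 2 * P g + G t) - ε * t
            - c * ∑ j, (Function.update l i y j - 3 / 2) ^ 2 = _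
        congr 2
        rw [← Finset.add_sum_erase _ _ (mem_univ i)]
        congr 1
        · simp
        · refine Finset.sum_congr rfl fun j hj => ?_
          rw [Function.update_of_ne (Finset.ne_of_mem_erase hj)]
      have h3 : Ξ (t, a, l) =
          F t a l - (S - 1 / 2 * ∑ g, a g ^ 2 * P g + G t) - ε * t
            - c * ((l i - 3 / 2) ^ 2 + ∑ j ∈ univ.erase i, (l j - 3 / 2) ^ 2) := by
        show F t a l - (S - 1 / 2 * ∑ g, a g ^ 2 * P g + G t) - ε * t
            - c * ∑ j, (l j - 3 / 2) ^ 2 = _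
        congr 2
        rw [← Finset.add_sum_erase _ _ (mem_univ i)]
      rw [h2, h3] at h1
      rw [hfl i]
      nlinarith [h1]
    -- first order conditions in `a g`
    have hda : ∀ g, Fa g t a l ≤ - (a g * P g) := by
      intro g
      have h0 : (fun y => Ξ (t, Function.update a g y, l)) = fun y =>
          F t (Function.update a g y) l - (S - 1 / 2 * (y ^ 2 * P g +
            ∑ j ∈ univ.erase g, a j ^ 2 * P j) + G t) - ε * t
            - c * ∑ i, (l i - 3 / 2) ^ 2 := by
        funext y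
        show F t (Function.update a g y) l - (S - 1 / 2 * ∑ j, (Function.update a g y j) ^ 2 * P j
          + G t) - ε * t - c * ∑ j, (l j - 3 / 2) ^ 2 = _
        have h00 : ∑ j, (Function.update a g y j) ^ 2 * P j =
            y ^ 2 * P g + ∑ j ∈ univ.erase g, a j ^ 2 * P j := by
          rw [← Finset.add_sum_erase univ (fun j => (Function.update a g y j) ^ 2 * P j)
            (mem_univ g)]
          congr 1
          · simp
          · refine Finset.sum_congr rfl fun j hj => ?_
            rw [Function.update_of_ne (Finset.ne_of_mem_erase hj)]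
        rw [h00]
      have h1 : HasDerivAt (fun y => Ξ (t, Function.update a g y, l))
          (Fa g t a l + a g * P g) (a g) := by
        rw [h0]
        have h2 : HasDerivAt (fun y : ℝ => S - 1 / 2 * (y ^ 2 * P g +
            ∑ j ∈ univ.erase g, a j ^ 2 * P j) + G t) (-(a g * P g)) (a g) := by
          have h3 := ((((hasDerivAt_pow 2 (a g)).mul_const (P g)).add_const
            (∑ j ∈ univ.erase g, a j ^ 2 * P j)).const_mul (1 / 2 : ℝ)).const_sub S |>.add_const (G t)
          refine h3.congr_deriv ?_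
          push_cast
          ring
        have h4 := (((hFa t a l g).sub h2).sub_const (ε * t)).sub_const
          (c * ∑ i, (l i - 3 / 2) ^ 2)
        refine h4.congr_deriv ?_
        ring
      have h5 := deriv_nonpos_of_right_max (f := fun y => Ξ (t, Function.update a g y, l))
        (x := a g) (y := A) (haA' g).2 h1 (fun z hz => by
          show Ξ (t, Function.update a g z, l) ≤ Ξ (t, Function.update a g (a g), l)
          rw [Function.update_eq_self]
          refine hmax' t _ l ht ?_ hl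
          intro j
          rcases eq_or_ne j g with rfl | h
          · simpa using ⟨(ha j).1.trans hz.1, hz.2⟩
          · rw [Function.update_of_ne h]; exact ha j)
      linarith
    -- derivative in `t`
    have hdt : 0 ≤ Ft t a l - D t - ε := by
      have h1 : HasDerivAt (fun s => Ξ (s, a, l)) (Ft t a l - D t - ε) t := by
        have h2 : HasDerivAt (fun s : ℝ => S - 1 / 2 * ∑ g, a g ^ 2 * P g + G s) (D t) t :=
          (hG t ⟨ht0, ht.2⟩).const_add _
        have h3 : HasDerivAt (fun s : ℝ => ε * s) ε t := by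
          simpa using (hasDerivAt_id t).const_mul ε
        have h4 : HasDerivAt (fun s : ℝ => F s a l - (S - 1 / 2 * ∑ g, a g ^ 2 * P g + G s)
            - ε * s - c * ∑ i, (l i - 3 / 2) ^ 2) (Ft t a l - D t - ε) t :=
          (((hFt t a l).sub h2).sub h3).sub_const _
        exact h4
      refine deriv_nonneg_of_left_max (f := fun s => Ξ (s, a, l)) (y := 0) ht0 h1 (fun z hz => ?_)
      exact hmax' z a l ⟨hz.1, hz.2.trans ht.2⟩ ha hl
    have := hstr t a l ⟨ht0, ht.2⟩ haA' hli (fun i => by rw [hfl i]; ring) hcontact hda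
    linarith
  intro t' a' l' ht' ha' hl'
  have h1 := (hmax' t' a' l' ht' ha' hl').trans key
  have h2 : Ξ (t', a', l') = F t' a' l' - (S - 1 / 2 * ∑ g, a' g ^ 2 * P g + G t') - ε * t'
      - c * ∑ i, (l' i - 3 / 2) ^ 2 := rfl
  have h3 : ∑ i, (l' i - 3 / 2) ^ 2 ≤ (Fintype.card β : ℝ) / 4 := by
    calc ∑ i, (l' i - 3 / 2) ^ 2 ≤ ∑ _i : β, (1 / 4 : ℝ) := by
          refine Finset.sum_le_sum fun i _ => ?_
          have := hl' i
          nlinarith [this.1, this.2]
      _ = (Fintype.card β : ℝ) / 4 := by simp; ring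
  have h4 : c * ∑ i, (l' i - 3 / 2) ^ 2 ≤ c * ((Fintype.card β : ℝ) / 4) := by gcongr
  linarith

end Crest.Agent.R164.Contact
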