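import Mathlib
import Crest.Prelude.Def_InvariantGlass

/-!
Row 164: concavity of the constrained one-site value in the field path, by a maximum principle
(helper491). Part A: tilted Gaussian averages and the class of functions preserved by `gaussOp`.
-/

set_option autoImplicit false

namespace Crest.Agent.R164.Cv

open MeasureTheory Set Filter Topology ProbabilityTheory
open Crest.ProbabilityR.InvariantGlass

noncomputable section

/-- the standard Gaussian -/
abbrev gm : Measure ℝ := gaussianReal 0 1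

theorem integrable_exp_abs (c : ℝ) : Integrable (fun g : ℝ => Real.exp (c * |g|)) gm := by
  have h1 : Integrable (fun g : ℝ => Real.exp (c * g)) gm := integrable_exp_mul_gaussianReal c
  have h2 : Integrable (fun g : ℝ => Real.exp ((-c) * g)) gm :=
    integrable_exp_mul_gaussianReal (-c)
  refine Integrable.mono' (h1.add h2) (by fun_prop) (Eventually.of_forall fun g => ?_)
  rw [Real.norm_eq_abs, abs_of_pos (Real.exp_pos _)]
  simp only [Pi.add_apply]
  rcases le_total 0 g with hg | hg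
  · rw [abs_of_nonneg hg]
    have := Real.exp_pos (-c * g)
    linarith
  · rw [abs_of_nonpos hg]
    have := Real.exp_pos (c * g)
    have e : c * -g = -c * g := by ring
    rw [e]
    linarith

/-- growth at most `K exp |x|` -/
def Gr (K : ℝ) (ψ : ℝ → ℝ) : Prop := ∀ x, |ψ x| ≤ K * Real.exp |x|

theorem Gr.K_nonneg {K : ℝ} {ψ : ℝ → ℝ} (h : Gr K ψ) : 0 ≤ K := by
  have := (abs_nonneg _).trans (h 0)
  simpa using this

theorem abs_shift_le (v x g : ℝ) : |x + Real.sqrt v * g| ≤ |x| + Real.sqrt v * |g| := by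
  refine (abs_add_le _ _).trans ?_
  rw [abs_mul, abs_of_nonneg (Real.sqrt_nonneg v)]

theorem Gr.shift {K : ℝ} {ψ : ℝ → ℝ} (h : Gr K ψ) (v x g : ℝ) :
    |ψ (x + Real.sqrt v * g)| ≤ K * Real.exp |x| * Real.exp (Real.sqrt v * |g|) := by
  refine (h _).trans ?_
  rw [mul_assoc, ← Real.exp_add]
  exact mul_le_mul_of_nonneg_left (Real.exp_le_exp.2 (abs_shift_le v x g)) h.K_nonneg

theorem Gr.integrable {K : ℝ} {ψ : ℝ → ℝ} (h : Gr K ψ) (hm : Measurable ψ) (v x : ℝ) :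
    Integrable (fun g : ℝ => ψ (x + Real.sqrt v * g)) gm := by
  refine Integrable.mono' ((integrable_exp_abs (Real.sqrt v)).const_mul (K * Real.exp |x|))
    (hm.comp (by fun_prop)).aestronglyMeasurable (Eventually.of_forall fun g => ?_)
  rw [Real.norm_eq_abs]
  exact h.shift v x g

/-- differentiation under the Gaussian integral -/
theorem hasDerivAt_gauss {K : ℝ} {ψ ψ' : ℝ → ℝ} (hd : ∀ x, HasDerivAt ψ (ψ' x) x)
    (hm : Measurable ψ') (hK : Gr K ψ) (hK' : Gr K ψ') (v x : ℝ) :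
    HasDerivAt (fun x => ∫ g, ψ (x + Real.sqrt v * g) ∂gm)
      (∫ g, ψ' (x + Real.sqrt v * g) ∂gm) x := by
  have hc : Continuous ψ := continuous_iff_continuousAt.2 fun x => (hd x).continuousAt
  have hb : Integrable (fun g : ℝ => K * Real.exp (|x| + 1) * Real.exp (Real.sqrt v * |g|)) gm :=
    (integrable_exp_abs (Real.sqrt v)).const_mul _
  refine (hasDerivAt_integral_of_dominated_loc_of_deriv_le (μ := gm)
    (F := fun x g => ψ (x + Real.sqrt v * g)) (F' := fun x g => ψ' (x + Real.sqrt v * g))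
    (x₀ := x) (s := Metric.ball x 1) (bound := fun g => K * Real.exp (|x| + 1) *
      Real.exp (Real.sqrt v * |g|)) (Metric.ball_mem_nhds x one_pos) ?_ ?_ ?_ ?_ hb ?_).2
  · exact Eventually.of_forall fun y => (hc.measurable.comp (by fun_prop)).aestronglyMeasurable
  · exact hK.integrable hc.measurable v x
  · exact (hm.comp (by fun_prop)).aestronglyMeasurable
  · refine Eventually.of_forall fun g y hy => ?_
    rw [Real.norm_eq_abs]
    refine (hK'.shift v y g).trans ?_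
    refine mul_le_mul_of_nonneg_right ?_ (Real.exp_pos _).le
    refine mul_le_mul_of_nonneg_left (Real.exp_le_exp.2 ?_) hK.K_nonneg
    rw [Metric.mem_ball, Real.dist_eq] at hy
    have h1 : |y| ≤ |x| + |y - x| := by
      have := abs_add_le x (y - x)
      rwa [add_sub_cancel] at this
    linarith
  · refine Eventually.of_forall fun g y _ => ?_
    exact (hd (y + Real.sqrt v * g)).comp_add_const y (Real.sqrt v * g)

/-- tilted average -/
def av (ζ v : ℝ) (f φ : ℝ → ℝ) (x : ℝ) : ℝ :=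
  (∫ g, φ (x + Real.sqrt v * g) * Real.exp (ζ * f (x + Real.sqrt v * g)) ∂gm) /
    ∫ g, Real.exp (ζ * f (x + Real.sqrt v * g)) ∂gm

/-- `1`-Lipschitz functions -/
def Lip (f : ℝ → ℝ) : Prop := ∀ x y, |f x - f y| ≤ |x - y|

theorem Lip.cont {f : ℝ → ℝ} (hf : Lip f) : Continuous f := by
  have : LipschitzWith 1 f := LipschitzWith.of_dist_le_mul fun x y => by
    rw [Real.dist_eq, Real.dist_eq]; simpa using hf x y
  exact this.continuous

theorem Lip.bound {f : ℝ → ℝ} (hf : Lip f) (x : ℝ) : |f x| ≤ |f 0| + |x| := by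
  have h := hf x 0
  rw [sub_zero] at h
  have h2 := abs_add_le (f 0) (f x - f 0)
  rw [add_sub_cancel] at h2
  linarith

theorem Lip.gr_exp {f : ℝ → ℝ} (hf : Lip f) {ζ : ℝ} (h0 : 0 ≤ ζ) (h1 : ζ ≤ 1) {B : ℝ}
    {φ : ℝ → ℝ} (hφ : ∀ x, |φ x| ≤ B) :
    Gr (B * Real.exp |f 0|) (fun x => φ x * Real.exp (ζ * f x)) := by
  intro x
  have hB : 0 ≤ B := (abs_nonneg _).trans (hφ 0)
  rw [abs_mul, abs_of_pos (Real.exp_pos (ζ * f x)), mul_assoc, ← Real.exp_add]
  refine mul_le_mul (hφ x) (Real.exp_le_exp.2 ?_) (Real.exp_pos _).le hB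
  have h2 := hf.bound x
  have h3 := le_abs_self (f x)
  have h4 : ζ * f x ≤ ζ * (|f 0| + |x|) := mul_le_mul_of_nonneg_left (by linarith) h0
  have h5 : ζ * (|f 0| + |x|) ≤ 1 * (|f 0| + |x|) :=
    mul_le_mul_of_nonneg_right h1 (by positivity)
  linarith

theorem Lip.gr_exp1 {f : ℝ → ℝ} (hf : Lip f) {ζ : ℝ} (h0 : 0 ≤ ζ) (h1 : ζ ≤ 1) :
    Gr (Real.exp |f 0|) (fun x => Real.exp (ζ * f x)) := by
  have := hf.gr_exp h0 h1 (φ := fun _ => 1) (B := 1) (fun _ => by simp)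
  simpa using this

theorem Lip.integrable_exp {f : ℝ → ℝ} (hf : Lip f) {ζ : ℝ} (h0 : 0 ≤ ζ) (h1 : ζ ≤ 1)
    (v x : ℝ) : Integrable (fun g => Real.exp (ζ * f (x + Real.sqrt v * g))) gm :=
  (hf.gr_exp1 h0 h1).integrable (by have := hf.cont.measurable; fun_prop) v x

theorem Lip.den_pos {f : ℝ → ℝ} (hf : Lip f) {ζ : ℝ} (h0 : 0 ≤ ζ) (h1 : ζ ≤ 1)
    (v x : ℝ) : 0 < ∫ g, Real.exp (ζ * f (x + Real.sqrt v * g)) ∂gm :=
  integral_exp_pos (hf.integrable_exp h0 h1 v x)

theorem Lip.integrable_mul {f : ℝ → ℝ} (hf : Lip f) {ζ : ℝ} (h0 : 0 ≤ ζ) (h1 : ζ ≤ 1) {B : ℝ}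
    {φ : ℝ → ℝ} (hφ : ∀ x, |φ x| ≤ B) (hm : Measurable φ) (v x : ℝ) :
    Integrable (fun g => φ (x + Real.sqrt v * g) * Real.exp (ζ * f (x + Real.sqrt v * g))) gm :=
  (hf.gr_exp h0 h1 hφ).integrable (by have := hf.cont.measurable; fun_prop) v x

section avlemmas

variable {f : ℝ → ℝ} {ζ : ℝ}

theorem av_const (hf : Lip f) (h0 : 0 ≤ ζ) (h1 : ζ ≤ 1) (v x c : ℝ) :
    av ζ v f (fun _ => c) x = c := by
  unfold av
  rw [integral_const_mul, mul_div_assoc, div_self (hf.den_pos h0 h1 v x).ne', mul_one]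

theorem av_mono (hf : Lip f) (h0 : 0 ≤ ζ) (h1 : ζ ≤ 1) (v x : ℝ) {φ φ' : ℝ → ℝ} {B B' : ℝ}
    (hφ : ∀ x, |φ x| ≤ B) (hm : Measurable φ) (hφ' : ∀ x, |φ' x| ≤ B') (hm' : Measurable φ')
    (hle : ∀ x, φ x ≤ φ' x) : av ζ v f φ x ≤ av ζ v f φ' x := by
  unfold av
  refine div_le_div_of_nonneg_right ?_ (hf.den_pos h0 h1 v x).le
  refine integral_mono (hf.integrable_mul h0 h1 hφ hm v x)
    (hf.integrable_mul h0 h1 hφ' hm' v x) fun g => ?_
  exact mul_le_mul_of_nonneg_right (hle _) (Real.exp_pos _).le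

theorem av_add (hf : Lip f) (h0 : 0 ≤ ζ) (h1 : ζ ≤ 1) (v x : ℝ) {φ φ' : ℝ → ℝ} {B B' : ℝ}
    (hφ : ∀ x, |φ x| ≤ B) (hm : Measurable φ) (hφ' : ∀ x, |φ' x| ≤ B') (hm' : Measurable φ') :
    av ζ v f (fun y => φ y + φ' y) x = av ζ v f φ x + av ζ v f φ' x := by
  unfold av
  rw [← add_div, ← integral_add (hf.integrable_mul h0 h1 hφ hm v x)
    (hf.integrable_mul h0 h1 hφ' hm' v x)]
  congr 1
  refine integral_congr_ae (Eventually.of_forall fun g => ?_)
  ring

theorem av_smul (v x c : ℝ) (φ : ℝ → ℝ) :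
    av ζ v f (fun y => c * φ y) x = c * av ζ v f φ x := by
  unfold av
  rw [← mul_div_assoc, ← integral_const_mul]
  congr 1
  refine integral_congr_ae (Eventually.of_forall fun g => ?_)
  ring

theorem av_abs (hf : Lip f) (h0 : 0 ≤ ζ) (h1 : ζ ≤ 1) (v x : ℝ) {φ : ℝ → ℝ} {B : ℝ}
    (hφ : ∀ x, |φ x| ≤ B) (hm : Measurable φ) : |av ζ v f φ x| ≤ B := by
  have e1 := av_mono hf h0 h1 v x hφ hm (φ' := fun _ => B) (B' := |B|) (fun _ => le_rfl)
    measurable_const (fun y => (abs_le.1 (hφ y)).2)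
  have e2 := av_mono hf h0 h1 v x (φ := fun _ => -B) (B := |B|) (fun _ => by rw [abs_neg])
    measurable_const hφ hm (fun y => (abs_le.1 (hφ y)).1)
  rw [av_const hf h0 h1] at e1 e2
  exact abs_le.2 ⟨e2, e1⟩

theorem av_pos (hf : Lip f) (h0 : 0 ≤ ζ) (h1 : ζ ≤ 1) (v x : ℝ) {φ : ℝ → ℝ} {B : ℝ}
    (hφ : ∀ x, |φ x| ≤ B) (hm : Measurable φ) (hp : ∀ x, 0 < φ x) : 0 < av ζ v f φ x := by
  unfold av
  refine div_pos ?_ (hf.den_pos h0 h1 v x)
  rw [integral_pos_iff_support_of_nonneg (fun g => (mul_pos (hp _) (Real.exp_pos _)).le)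
    (hf.integrable_mul h0 h1 hφ hm v x)]
  have : Function.support (fun g => φ (x + Real.sqrt v * g) *
      Real.exp (ζ * f (x + Real.sqrt v * g))) = Set.univ := by
    rw [Set.eq_univ_iff_forall]
    intro g
    rw [Function.mem_support]
    exact (mul_pos (hp _) (Real.exp_pos _)).ne'
  rw [this]
  simp

/-- Jensen for the square -/
theorem av_sq (hf : Lip f) (h0 : 0 ≤ ζ) (h1 : ζ ≤ 1) (v x : ℝ) {φ : ℝ → ℝ} {B : ℝ}
    (hφ : ∀ x, |φ x| ≤ B) (hm : Measurable φ) :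
    av ζ v f φ x ^ 2 ≤ av ζ v f (fun y => φ y ^ 2) x := by
  set m := av ζ v f φ x with hmdef
  have hB : 0 ≤ B := (abs_nonneg _).trans (hφ 0)
  have hsq : ∀ x, |φ x ^ 2| ≤ B ^ 2 := fun y => by
    rw [abs_pow]; exact pow_le_pow_left₀ (abs_nonneg _) (hφ y) 2
  have h2 : av ζ v f (fun y => φ y ^ 2 + (-(2 * m)) * φ y) x ≥ av ζ v f (fun _ => -m ^ 2) x := by
    refine av_mono hf h0 h1 v x (B := |-m ^ 2|) (B' := B ^ 2 + |-(2 * m)| * B) (fun _ => le_rfl)
      measurable_const (fun y => ?_) (by fun_prop) (fun y => ?_)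
    · refine (abs_add_le _ _).trans (add_le_add (hsq y) ?_)
      rw [abs_mul]
      exact mul_le_mul_of_nonneg_left (hφ y) (abs_nonneg _)
    · nlinarith [sq_nonneg (φ y - m)]
  rw [av_const hf h0 h1, av_add hf h0 h1 v x hsq (by fun_prop) (φ' := fun y => -(2 * m) * φ y)
    (B' := |-(2 * m)| * B) (fun y => by
      rw [abs_mul]
      exact mul_le_mul_of_nonneg_left (hφ y) (abs_nonneg _)) (by fun_prop),
    av_smul, ← hmdef] at h2
  nlinarith

end avlemmas

/-- derivative of a tilted average -/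
theorem hasDerivAt_av {f f1 : ℝ → ℝ} (hf : Lip f) (hd : ∀ x, HasDerivAt f (f1 x) x)
    (hb1 : ∀ x, |f1 x| ≤ 1) (hm1 : Measurable f1) {ζ : ℝ} (h0 : 0 ≤ ζ) (h1 : ζ ≤ 1)
    {φ φ' : ℝ → ℝ} {B : ℝ} (hφ : ∀ x, |φ x| ≤ B) (hφ' : ∀ x, |φ' x| ≤ B)
    (hdφ : ∀ x, HasDerivAt φ (φ' x) x) (hm' : Measurable φ') (v x : ℝ) :
    HasDerivAt (av ζ v f φ) (av ζ v f φ' x +
      ζ * (av ζ v f (fun y => φ y * f1 y) x - av ζ v f φ x * av ζ v f f1 x)) x := by
  have hB : 0 ≤ B := (abs_nonneg _).trans (hφ 0)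
  have hcφ : Continuous φ := continuous_iff_continuousAt.2 fun x => (hdφ x).continuousAt
  have hmf := hf.cont.measurable
  have hmφ := hcφ.measurable
  -- numerator
  have hN : HasDerivAt (fun x => ∫ g, φ (x + Real.sqrt v * g) *
      Real.exp (ζ * f (x + Real.sqrt v * g)) ∂gm)
      (∫ g, (fun y => (φ' y + ζ * (φ y * f1 y)) * Real.exp (ζ * f y)) (x + Real.sqrt v * g) ∂gm)
      x := by
    refine hasDerivAt_gauss (K := (B + B) * Real.exp |f 0|)
      (ψ := fun y => φ y * Real.exp (ζ * f y))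
      (ψ' := fun y => (φ' y + ζ * (φ y * f1 y)) * Real.exp (ζ * f y))
      (fun y => ?_) (by fun_prop) ?_ ?_ v x
    · have h2 := (hdφ y).fun_mul (((hd y).const_mul ζ).exp)
      refine h2.congr_deriv ?_
      ring
    · refine hf.gr_exp h0 h1 (B := B + B) (fun y => (hφ y).trans (by linarith))
    · refine hf.gr_exp h0 h1 (B := B + B) (fun y => ?_)
      refine (abs_add_le _ _).trans (add_le_add (hφ' y) ?_)
      rw [abs_mul, abs_mul, abs_of_nonneg h0]
      calc ζ * (|φ y| * |f1 y|) ≤ 1 * (B * 1) := by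
            refine mul_le_mul h1 ?_ (by positivity) (by norm_num)
            exact mul_le_mul (hφ y) (hb1 y) (abs_nonneg _) hB
        _ = B := by ring
  have hD : HasDerivAt (fun x => ∫ g, Real.exp (ζ * f (x + Real.sqrt v * g)) ∂gm)
      (∫ g, (fun y => (ζ * f1 y) * Real.exp (ζ * f y)) (x + Real.sqrt v * g) ∂gm) x := by
    refine hasDerivAt_gauss (K := 1 * Real.exp |f 0|)
      (ψ := fun y => Real.exp (ζ * f y)) (ψ' := fun y => (ζ * f1 y) * Real.exp (ζ * f y))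
      (fun y => ?_) (by fun_prop) ?_ ?_ v x
    · have h2 := ((hd y).const_mul ζ).exp
      refine h2.congr_deriv ?_
      ring
    · have := hf.gr_exp1 h0 h1
      simpa using this
    · refine hf.gr_exp h0 h1 (B := 1) (fun y => ?_)
      rw [abs_mul, abs_of_nonneg h0]
      exact mul_le_one₀ h1 (abs_nonneg _) (hb1 y)
  have hdp := hf.den_pos h0 h1 v x
  have h := hN.div hD hdp.ne'
  refine h.congr_deriv ?_
  have e1 : ∫ g, (fun y => (φ' y + ζ * (φ y * f1 y)) * Real.exp (ζ * f y))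
      (x + Real.sqrt v * g) ∂gm = (∫ g, φ' (x + Real.sqrt v * g) *
        Real.exp (ζ * f (x + Real.sqrt v * g)) ∂gm) + ζ * ∫ g, (φ (x + Real.sqrt v * g) *
        f1 (x + Real.sqrt v * g)) * Real.exp (ζ * f (x + Real.sqrt v * g)) ∂gm := by
    rw [← integral_const_mul, ← integral_add]
    · refine integral_congr_ae (Eventually.of_forall fun g => ?_)
      show (φ' _ + ζ * (φ _ * f1 _)) * _ = _
      ring
    · exact hf.integrable_mul h0 h1 hφ' hm' v x
    · exact (hf.integrable_mul h0 h1 (φ := fun y => φ y * f1 y) (B := B * 1) (fun y => by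
        rw [abs_mul]; exact mul_le_mul (hφ y) (hb1 y) (abs_nonneg _) hB) (by fun_prop)
        v x).const_mul ζ
  have e2 : ∫ g, (fun y => (ζ * f1 y) * Real.exp (ζ * f y)) (x + Real.sqrt v * g) ∂gm =
      ζ * ∫ g, f1 (x + Real.sqrt v * g) * Real.exp (ζ * f (x + Real.sqrt v * g)) ∂gm := by
    rw [← integral_const_mul]
    refine integral_congr_ae (Eventually.of_forall fun g => ?_)
    show (ζ * f1 _) * _ = _
    ring
  rw [e1, e2]
  unfold av
  field_simp
  ring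

end

end Crest.Agent.R164.Cv
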