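import Crest.Agent.R164.CvA

/-!
Row 164 (helper491), part B: the class preserved by `gaussOp`.
-/

set_option autoImplicit false

namespace Crest.Agent.R164.Cv

open MeasureTheory Set Filter Topology ProbabilityTheory
open Crest.ProbabilityR.InvariantGlass

noncomputable section

/-- the class of one-site functions -/
structure Cls (C : ℝ) (f : ℝ → ℝ) : Prop where
  d1 : Differentiable ℝ f
  d2 : Differentiable ℝ (deriv f)
  d3 : Differentiable ℝ (deriv (deriv f))
  pos : ∀ x, 0 < deriv (deriv f) x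
  gen : ∀ x, deriv (deriv f) x + deriv f x ^ 2 ≤ 1
  b3 : ∀ x, |deriv (deriv (deriv f)) x| ≤ C
  even : ∀ x, f (-x) = f x

namespace Cls

variable {C : ℝ} {f : ℝ → ℝ}

theorem h1 (hf : Cls C f) (x : ℝ) : HasDerivAt f (deriv f x) x := (hf.d1 x).hasDerivAt
theorem h2 (hf : Cls C f) (x : ℝ) : HasDerivAt (deriv f) (deriv (deriv f) x) x :=
  (hf.d2 x).hasDerivAt
theorem h3 (hf : Cls C f) (x : ℝ) :
    HasDerivAt (deriv (deriv f)) (deriv (deriv (deriv f)) x) x := (hf.d3 x).hasDerivAt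

theorem m1 (_hf : Cls C f) : Measurable (deriv f) := measurable_deriv f
theorem m2 (_hf : Cls C f) : Measurable (deriv (deriv f)) := measurable_deriv _
theorem m3 (_hf : Cls C f) : Measurable (deriv (deriv (deriv f))) := measurable_deriv _

theorem b1' (hf : Cls C f) (x : ℝ) : |deriv f x| < 1 := by
  have h1 := hf.pos x
  have h2 := hf.gen x
  rw [abs_lt]
  constructor <;> nlinarith

theorem b1 (hf : Cls C f) (x : ℝ) : |deriv f x| ≤ 1 := (hf.b1' x).le

theorem b2 (hf : Cls C f) (x : ℝ) : |deriv (deriv f) x| ≤ 1 := by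
  rw [abs_of_pos (hf.pos x)]
  nlinarith [hf.gen x, sq_nonneg (deriv f x)]

theorem lip (hf : Cls C f) : Lip f := by
  intro x y
  have h := Convex.norm_image_sub_le_of_norm_deriv_le (𝕜 := ℝ) (f := f) (C := 1) (s := univ)
    (fun x _ => hf.d1 x) (fun x _ => by rw [Real.norm_eq_abs]; exact hf.b1 x) convex_univ
    (mem_univ y) (mem_univ x)
  rw [Real.norm_eq_abs, Real.norm_eq_abs, one_mul] at h
  exact h

theorem strictMono (hf : Cls C f) : StrictMono (deriv f) :=
  strictMono_of_deriv_pos hf.pos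

theorem mono (hf : Cls C f) {C' : ℝ} (h : C ≤ C') : Cls C' f :=
  ⟨hf.d1, hf.d2, hf.d3, hf.pos, hf.gen, fun x => (hf.b3 x).trans h, hf.even⟩

theorem C_nonneg (hf : Cls C f) : 0 ≤ C := (abs_nonneg _).trans (hf.b3 0)

end Cls

theorem gaussOp_zero_eq {v : ℝ} {f : ℝ → ℝ} :
    gaussOp 0 v f = fun x => ∫ g, f (x + Real.sqrt v * g) ∂gm := by
  funext x
  unfold gaussOp
  rw [if_pos rfl]

theorem gaussOp_pos_eq {ζ v : ℝ} (h : 0 < ζ) {f : ℝ → ℝ} :
    gaussOp ζ v f = fun x => ζ⁻¹ * Real.log (∫ g, Real.exp (ζ * f (x + Real.sqrt v * g)) ∂gm) := by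
  funext x
  unfold gaussOp
  rw [if_neg h.ne']

/-- first derivative of `gaussOp` -/
theorem hasDerivAt_gaussOp {f f1 : ℝ → ℝ} (hf : Lip f) (hd : ∀ x, HasDerivAt f (f1 x) x)
    (hb1 : ∀ x, |f1 x| ≤ 1) (hm1 : Measurable f1) {ζ : ℝ} (h0 : 0 ≤ ζ) (h1 : ζ ≤ 1) (v x : ℝ) :
    HasDerivAt (gaussOp ζ v f) (av ζ v f f1 x) x := by
  have hmf := hf.cont.measurable
  rcases h0.eq_or_lt with h | h
  · subst h
    rw [gaussOp_zero_eq]
    have e : av 0 v f f1 x = ∫ g, f1 (x + Real.sqrt v * g) ∂gm := by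
      unfold av
      simp
    rw [e]
    refine hasDerivAt_gauss (K := |f 0| + 1) hd hm1 (fun y => ?_) (fun y => ?_) v x
    · have h2 := hf.bound y
      have h3 := Real.add_one_le_exp |y|
      have h4 := abs_nonneg (f 0)
      have h5 : 1 ≤ Real.exp |y| := Real.one_le_exp (abs_nonneg y)
      nlinarith
    · have h5 : 1 ≤ Real.exp |y| := Real.one_le_exp (abs_nonneg y)
      have h4 := abs_nonneg (f 0)
      nlinarith [hb1 y]
  · rw [gaussOp_pos_eq h]
    have hD : HasDerivAt (fun x => ∫ g, Real.exp (ζ * f (x + Real.sqrt v * g)) ∂gm)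
        (∫ g, (fun y => (ζ * f1 y) * Real.exp (ζ * f y)) (x + Real.sqrt v * g) ∂gm) x := by
      refine hasDerivAt_gauss (K := 1 * Real.exp |f 0|)
        (ψ := fun y => Real.exp (ζ * f y)) (ψ' := fun y => (ζ * f1 y) * Real.exp (ζ * f y))
        (fun y => ?_) (by fun_prop) ?_ ?_ v x
      · have h2 := ((hd y).const_mul ζ).exp
        refine h2.congr_deriv ?_
        ring
      · have := hf.gr_exp1 h0 h1
        simpa using this
      · refine hf.gr_exp h0 h1 (B := 1) (fun y => ?_)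
        rw [abs_mul, abs_of_nonneg h0]
        exact mul_le_one₀ h1 (abs_nonneg _) (hb1 y)
    have hdp := hf.den_pos h0 h1 v x
    have h2 := (hD.log hdp.ne').const_mul ζ⁻¹
    refine h2.congr_deriv ?_
    have e2 : ∫ g, (fun y => (ζ * f1 y) * Real.exp (ζ * f y)) (x + Real.sqrt v * g) ∂gm =
        ζ * ∫ g, f1 (x + Real.sqrt v * g) * Real.exp (ζ * f (x + Real.sqrt v * g)) ∂gm := by
      rw [← integral_const_mul]
      refine integral_congr_ae (Eventually.of_forall fun g => ?_)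
      show (ζ * f1 _) * _ = _
      ring
    rw [e2]
    unfold av
    field_simp

/-- the derivatives of `gaussOp ζ v f` for `f` in the class -/
theorem deriv_gaussOp {C : ℝ} {f : ℝ → ℝ} (hf : Cls C f) {ζ : ℝ} (h0 : 0 ≤ ζ) (h1 : ζ ≤ 1)
    (v : ℝ) : deriv (gaussOp ζ v f) = av ζ v f (deriv f) := by
  funext x
  exact (hasDerivAt_gaussOp hf.lip hf.h1 hf.b1 hf.m1 h0 h1 v x).deriv

theorem hasDerivAt_deriv_gaussOp {C : ℝ} {f : ℝ → ℝ} (hf : Cls C f) {ζ : ℝ} (h0 : 0 ≤ ζ)
    (h1 : ζ ≤ 1) (v x : ℝ) : HasDerivAt (deriv (gaussOp ζ v f))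
      (av ζ v f (deriv (deriv f)) x +
      ζ * (av ζ v f (fun y => deriv f y ^ 2) x - av ζ v f (deriv f) x ^ 2)) x := by
  rw [deriv_gaussOp hf h0 h1]
  have h := hasDerivAt_av hf.lip hf.h1 hf.b1 hf.m1 h0 h1 (B := 1) hf.b1 hf.b2 hf.h2 hf.m2 v x
  refine h.congr_deriv ?_
  have e : (fun y => deriv f y * deriv f y) = fun y => deriv f y ^ 2 := by
    funext y; ring
  rw [e]
  ring

theorem deriv2_gaussOp {C : ℝ} {f : ℝ → ℝ} (hf : Cls C f) {ζ : ℝ} (h0 : 0 ≤ ζ)
    (h1 : ζ ≤ 1) (v : ℝ) : deriv (deriv (gaussOp ζ v f)) = fun x =>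
      av ζ v f (deriv (deriv f)) x +
      ζ * (av ζ v f (fun y => deriv f y ^ 2) x - av ζ v f (deriv f) x ^ 2) := by
  funext x
  exact (hasDerivAt_deriv_gaussOp hf h0 h1 v x).deriv

theorem sq_le_one_of_abs {a : ℝ} (h : |a| ≤ 1) : a ^ 2 ≤ 1 := by
  have := abs_le.1 h
  nlinarith

theorem Cls.gop {C : ℝ} {f : ℝ → ℝ} (hf : Cls C f) {ζ : ℝ} (h0 : 0 ≤ ζ)
    (h1 : ζ ≤ 1) (v : ℝ) : Cls (C + 8) (gaussOp ζ v f) := by
  have bsq : ∀ x, |deriv f x ^ 2| ≤ 1 := fun x => by
    rw [abs_of_nonneg (sq_nonneg _)]; exact sq_le_one_of_abs (hf.b1 x)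
  have msq : Measurable fun x => deriv f x ^ 2 := hf.m1.pow_const 2
  have hpos : ∀ x, 0 < deriv (deriv (gaussOp ζ v f)) x := fun x => by
    rw [deriv2_gaussOp hf h0 h1]
    have a1 := av_pos hf.lip h0 h1 v x hf.b2 hf.m2 hf.pos
    have a2 := av_sq hf.lip h0 h1 v x hf.b1 hf.m1
    have a3 := mul_nonneg h0 (sub_nonneg.2 a2)
    show 0 < av ζ v f (deriv (deriv f)) x + ζ * (av ζ v f (fun y => deriv f y ^ 2) x -
      av ζ v f (deriv f) x ^ 2)
    linarith
  have hgen : ∀ x, deriv (deriv (gaussOp ζ v f)) x +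
      deriv (gaussOp ζ v f) x ^ 2 ≤ 1 := fun x => by
    rw [deriv2_gaussOp hf h0 h1, deriv_gaussOp hf h0 h1]
    have a2 := av_sq hf.lip h0 h1 v x hf.b1 hf.m1
    have a4 : av ζ v f (fun y => deriv (deriv f) y + deriv f y ^ 2) x ≤
        av ζ v f (fun _ => 1) x := by
      refine av_mono hf.lip h0 h1 v x (B := 1 + 1) (B' := 1) (fun y => ?_) (by
        have := hf.m2; fun_prop) (fun _ => by simp) measurable_const hf.gen
      exact (abs_add_le _ _).trans (add_le_add (hf.b2 y) (bsq y))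
    rw [av_const hf.lip h0 h1, av_add hf.lip h0 h1 v x hf.b2 hf.m2 bsq msq] at a4
    show av ζ v f (deriv (deriv f)) x + ζ * (av ζ v f (fun y => deriv f y ^ 2) x -
      av ζ v f (deriv f) x ^ 2) + av ζ v f (deriv f) x ^ 2 ≤ 1
    have a5 := mul_nonneg (sub_nonneg.2 h1) (sub_nonneg.2 a2)
    nlinarith
  -- third derivative
  have hd3 : ∀ x, HasDerivAt (deriv (deriv (gaussOp ζ v f)))
      ((av ζ v f (deriv (deriv (deriv f))) x + ζ * (av ζ v f (fun y => deriv (deriv f) y *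
        deriv f y) x - av ζ v f (deriv (deriv f)) x * av ζ v f (deriv f) x)) +
      ζ * ((av ζ v f (fun y => 2 * deriv f y * deriv (deriv f) y) x +
        ζ * (av ζ v f (fun y => deriv f y ^ 2 * deriv f y) x - av ζ v f (fun y => deriv f y ^ 2) x *
          av ζ v f (deriv f) x)) - 2 * av ζ v f (deriv f) x *
          deriv (deriv (gaussOp ζ v f)) x)) x := by
    intro x
    rw [deriv2_gaussOp hf h0 h1]
    have b1 := hasDerivAt_av hf.lip hf.h1 hf.b1 hf.m1 h0 h1 (B := C + 1)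
      (fun y => (hf.b2 y).trans (by linarith [hf.C_nonneg]))
      (fun y => (hf.b3 y).trans (by linarith)) hf.h3 hf.m3 v x
    have b2 := hasDerivAt_av hf.lip hf.h1 hf.b1 hf.m1 h0 h1 (B := 2)
      (φ := fun y => deriv f y ^ 2) (φ' := fun y => 2 * deriv f y * deriv (deriv f) y)
      (fun y => (bsq y).trans (by norm_num)) (fun y => by
        rw [abs_mul, abs_mul, abs_two]
        have := hf.b1 y
        have := hf.b2 y
        have := abs_nonneg (deriv f y)
        nlinarith [abs_nonneg (deriv (deriv f) y)])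
      (fun y => by
        refine ((hf.h2 y).fun_pow 2).congr_deriv ?_
        norm_num)
      (by have := hf.m1; have := hf.m2; fun_prop) v x
    have b3 := hasDerivAt_deriv_gaussOp hf h0 h1 v x
    rw [deriv_gaussOp hf h0 h1] at b3
    have b4 := b1.fun_add ((b2.fun_sub (b3.fun_pow 2)).const_mul ζ)
    refine b4.congr_deriv ?_
    norm_num
  refine ⟨fun x => (hasDerivAt_gaussOp hf.lip hf.h1 hf.b1 hf.m1 h0 h1 v x).differentiableAt,
    fun x => (hasDerivAt_deriv_gaussOp hf h0 h1 v x).differentiableAt,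
    fun x => (hd3 x).differentiableAt, hpos, hgen, fun x => ?_, fun x => ?_⟩
  · rw [(hd3 x).deriv]
    have c1 := av_abs hf.lip h0 h1 v x hf.b3 hf.m3
    have c2 := av_abs hf.lip h0 h1 v x (φ := fun y => deriv (deriv f) y * deriv f y) (B := 1)
      (fun y => by rw [abs_mul]; exact mul_le_one₀ (hf.b2 y) (abs_nonneg _) (hf.b1 y))
      (by have := hf.m1; have := hf.m2; fun_prop)
    have c3 := av_abs hf.lip h0 h1 v x hf.b2 hf.m2
    have c4 := av_abs hf.lip h0 h1 v x hf.b1 hf.m1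
    have c5 := av_abs hf.lip h0 h1 v x (φ := fun y => 2 * deriv f y * deriv (deriv f) y) (B := 2)
      (fun y => by
        rw [abs_mul, abs_mul, abs_two]
        have := hf.b1 y
        have := hf.b2 y
        have := abs_nonneg (deriv f y)
        nlinarith [abs_nonneg (deriv (deriv f) y)])
      (by have := hf.m1; have := hf.m2; fun_prop)
    have c6 := av_abs hf.lip h0 h1 v x (φ := fun y => deriv f y ^ 2 * deriv f y) (B := 1)
      (fun y => by rw [abs_mul]; exact mul_le_one₀ (bsq y) (abs_nonneg _) (hf.b1 y))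
      (by have := hf.m1; fun_prop)
    have c7 := av_abs hf.lip h0 h1 v x bsq msq
    have c8 : |deriv (deriv (gaussOp ζ v f)) x| ≤ 1 := by
      rw [abs_of_pos (hpos x)]
      nlinarith [hgen x, sq_nonneg (deriv (gaussOp ζ v f) x)]
    have key : ∀ a b c d e k l m : ℝ, |a| ≤ C → |b| ≤ 1 → |c| ≤ 1 → |d| ≤ 1 → |e| ≤ 2 → |k| ≤ 1 →
        |l| ≤ 1 → |m| ≤ 1 →
        |(a + ζ * (b - c * d)) + ζ * ((e + ζ * (k - l * d)) - 2 * d * m)| ≤ C + 8 := by
      intro a b c d e k l m ha hb hc hd he hk hl hm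
      have t1 : |c * d| ≤ 1 := by rw [abs_mul]; exact mul_le_one₀ hc (abs_nonneg _) hd
      have t2 : |l * d| ≤ 1 := by rw [abs_mul]; exact mul_le_one₀ hl (abs_nonneg _) hd
      have t3 : |d * m| ≤ 1 := by rw [abs_mul]; exact mul_le_one₀ hd (abs_nonneg _) hm
      have t4 : |ζ * (b - c * d)| ≤ 2 := by
        rw [abs_mul, abs_of_nonneg h0]
        have : |b - c * d| ≤ 2 := (abs_sub _ _).trans (by linarith)
        nlinarith [abs_nonneg (b - c * d)]
      have t5 : |ζ * (k - l * d)| ≤ 2 := by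
        rw [abs_mul, abs_of_nonneg h0]
        have : |k - l * d| ≤ 2 := (abs_sub _ _).trans (by linarith)
        nlinarith [abs_nonneg (k - l * d)]
      have t6 : |(e + ζ * (k - l * d)) - 2 * d * m| ≤ 6 := by
        refine (abs_sub _ _).trans ?_
        have := abs_add_le e (ζ * (k - l * d))
        have e2 : |2 * d * m| ≤ 2 := by
          rw [mul_assoc, abs_mul, abs_two]; linarith
        linarith
      have t7 : |ζ * ((e + ζ * (k - l * d)) - 2 * d * m)| ≤ 6 := by
        rw [abs_mul, abs_of_nonneg h0]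
        nlinarith [abs_nonneg ((e + ζ * (k - l * d)) - 2 * d * m)]
      have t8 := abs_add_le (a + ζ * (b - c * d)) (ζ * ((e + ζ * (k - l * d)) - 2 * d * m))
      have t9 := abs_add_le a (ζ * (b - c * d))
      linarith
    exact key _ _ _ _ _ _ _ _ c1 c2 c3 c4 c5 c6 c7 c8
  · have hneg : ∀ F : ℝ → ℝ, ∫ g, F (-g) ∂gm = ∫ g, F g ∂gm := by
      intro F
      have h : gm.map (fun x : ℝ => -x) = gm := by
        rw [gaussianReal_map_neg, neg_zero]
      conv_rhs => rw [← h]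
      exact (integral_map_equiv (MeasurableEquiv.neg ℝ) F).symm
    have e2 : ∀ g : ℝ, f (-x + Real.sqrt v * -g) = f (x + Real.sqrt v * g) := fun g => by
      have : -x + Real.sqrt v * -g = -(x + Real.sqrt v * g) := by ring
      rw [this, hf.even]
    unfold gaussOp
    split_ifs with h
    · rw [← hneg (fun g => f (-x + Real.sqrt v * g))]
      simp only [e2]
    · rw [← hneg (fun g => Real.exp (ζ * f (-x + Real.sqrt v * g)))]
      simp only [e2]

end

end Crest.Agent.R164.Cv
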