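import Crest.Agent.R164.CvB

/-!
Row 164 (helper491), part C: log cosh, asymptotics, semigroup, small time expansion.
-/

set_option autoImplicit false

namespace Crest.Agent.R164.Cv

open MeasureTheory Set Filter Topology ProbabilityTheory
open Crest.ProbabilityR.InvariantGlass

noncomputable section

/-- `log cosh` -/
def lc : ℝ → ℝ := fun z => Real.log (Real.cosh z)

/-- `tanh` -/
def th (x : ℝ) : ℝ := Real.sinh x / Real.cosh x

theorem hasDerivAt_lc (x : ℝ) : HasDerivAt lc (th x) x :=
  (Real.hasDerivAt_cosh x).log (Real.cosh_pos x).ne'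

theorem hasDerivAt_th (x : ℝ) : HasDerivAt th (1 - th x ^ 2) x := by
  have h := (Real.hasDerivAt_sinh x).div (Real.hasDerivAt_cosh x) (Real.cosh_pos x).ne'
  refine h.congr_deriv ?_
  unfold th
  have := (Real.cosh_pos x).ne'
  field_simp

theorem deriv_lc : deriv lc = th := funext fun x => (hasDerivAt_lc x).deriv

theorem deriv_th : deriv th = fun x => 1 - th x ^ 2 := funext fun x => (hasDerivAt_th x).deriv

theorem th_sq_lt (x : ℝ) : th x ^ 2 < 1 := by
  unfold th
  rw [div_pow, div_lt_one (by have := Real.cosh_pos x; positivity)]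
  have := Real.cosh_sq' x
  linarith

theorem hasDerivAt_th2 (x : ℝ) :
    HasDerivAt (fun x => 1 - th x ^ 2) (-(2 * th x * (1 - th x ^ 2))) x := by
  have h := ((hasDerivAt_th x).fun_pow 2).const_sub 1
  refine h.congr_deriv ?_
  norm_num

theorem cls_lc : Cls 2 lc := by
  refine ⟨fun x => (hasDerivAt_lc x).differentiableAt, ?_, ?_, ?_, ?_, ?_, fun x => ?_⟩
  · rw [deriv_lc]; exact fun x => (hasDerivAt_th x).differentiableAt
  · rw [deriv_lc, deriv_th]; exact fun x => (hasDerivAt_th2 x).differentiableAt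
  · rw [deriv_lc, deriv_th]; exact fun x => sub_pos.2 (th_sq_lt x)
  · rw [deriv_lc, deriv_th]; exact fun x => by simp
  · rw [deriv_lc, deriv_th]
    intro x
    rw [(hasDerivAt_th2 x).deriv]
    have h := th_sq_lt x
    have h1 : |th x| ≤ 1 := by
      rw [abs_le]; constructor <;> nlinarith
    have h2 : |1 - th x ^ 2| ≤ 1 := by
      rw [abs_le]; constructor <;> nlinarith [sq_nonneg (th x)]
    rw [abs_neg, abs_mul, abs_mul, abs_two]
    nlinarith [abs_nonneg (th x), abs_nonneg (1 - th x ^ 2)]
  · unfold lc; simp [Real.cosh_neg]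

/-! ### asymptotics -/

theorem Cls.antitone_sub {C : ℝ} {f : ℝ → ℝ} (hf : Cls C f) : Antitone (fun x => f x - x) := by
  intro x y hxy
  have h := hf.lip y x
  rw [abs_of_nonneg (sub_nonneg.2 hxy)] at h
  have := (abs_le.1 h).2
  show f y - y ≤ f x - x
  linarith

/-- asymptotics at infinity -/
def Asy (f : ℝ → ℝ) (c : ℝ) : Prop := Tendsto (fun x => f x - x) atTop (𝓝 c)

theorem asy_lc : Asy lc (-Real.log 2) := by
  have e : ∀ x : ℝ, lc x - x = Real.log ((1 + Real.exp (-(2 * x))) / 2) := fun x => by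
    unfold lc
    have h : Real.cosh x = Real.exp x * ((1 + Real.exp (-(2 * x))) / 2) := by
      rw [Real.cosh_eq]
      have : Real.exp (-x) = Real.exp x * Real.exp (-(2 * x)) := by
        rw [← Real.exp_add]; ring_nf
      rw [this]; ring
    rw [h, Real.log_mul (Real.exp_pos _).ne' (by positivity), Real.log_exp]
    ring
  have h1 : Tendsto (fun x : ℝ => Real.exp (-(2 * x))) atTop (𝓝 0) :=
    Real.tendsto_exp_neg_atTop_nhds_zero.comp (tendsto_id.const_mul_atTop (by norm_num))
  have h2 : Tendsto (fun x : ℝ => (1 + Real.exp (-(2 * x))) / 2) atTop (𝓝 ((1 + 0) / 2)) :=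
    (tendsto_const_nhds.add h1).div_const 2
  have h3 := h2.log (by norm_num)
  unfold Asy
  simp only [e]
  convert h3 using 2
  rw [add_zero, one_div, Real.log_inv]

theorem Asy.lower {C c : ℝ} {f : ℝ → ℝ} (hf : Cls C f) (h : Asy f c) (x : ℝ) :
    |x| + c ≤ f x := by
  have key : ∀ y, c ≤ f y - y := fun y => hf.antitone_sub.le_of_tendsto h y
  rcases abs_cases x with ⟨h1, _⟩ | ⟨h1, _⟩
  · rw [h1]; linarith [key x]
  · have := key (-x)
    rw [hf.even] at this
    rw [h1]; linarith

theorem Lip.integrable {f : ℝ → ℝ} (hf : Lip f) (v x : ℝ) :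
    Integrable (fun g => f (x + Real.sqrt v * g)) gm := by
  refine Gr.integrable (K := |f 0| + 1) (fun y => ?_) hf.cont.measurable v x
  have h2 := hf.bound y
  have h3 := Real.add_one_le_exp |y|
  have h4 := abs_nonneg (f 0)
  have h5 : 1 ≤ Real.exp |y| := Real.one_le_exp (abs_nonneg y)
  nlinarith

theorem integrable_id_gm : Integrable (fun g : ℝ => g) gm := by
  refine Integrable.mono' (integrable_exp_abs 1) (by fun_prop) (Eventually.of_forall fun g => ?_)
  rw [Real.norm_eq_abs, one_mul]
  have := Real.add_one_le_exp |g|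
  linarith

theorem asy_gaussOp {C c : ℝ} {f : ℝ → ℝ} (hf : Cls C f) (h : Asy f c) {ζ v : ℝ} (h0 : 0 ≤ ζ)
    (h1 : ζ ≤ 1) (hv : 0 ≤ v) : Asy (gaussOp ζ v f) (c + ζ * v / 2) := by
  have hcont := hf.lip.cont
  rcases h0.eq_or_lt with hz | hz
  · subst hz
    unfold Asy
    rw [gaussOp_zero_eq]
    have e : ∀ x : ℝ, (∫ g, f (x + Real.sqrt v * g) ∂gm) - x =
        ∫ g, (f (x + Real.sqrt v * g) - x) ∂gm := fun x => by
      rw [integral_sub (hf.lip.integrable v x) (integrable_const _)]
      simp
    simp only [e]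
    have elim : c + 0 * v / 2 = ∫ g, (c + Real.sqrt v * g) ∂gm := by
      rw [integral_add (integrable_const _) (integrable_id_gm.const_mul _), integral_const_mul,
        integral_id_gaussianReal]
      simp
    rw [elim]
    refine tendsto_integral_filter_of_dominated_convergence
      (fun g => |c| + |f (0 + Real.sqrt v * g)| + 3 * Real.sqrt v * |g|) ?_ ?_ ?_ ?_
    · exact Eventually.of_forall fun x => by
        exact (Continuous.aestronglyMeasurable (by fun_prop))
    · filter_upwards [eventually_ge_atTop 0] with x hx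
      refine Eventually.of_forall fun g => ?_
      rw [Real.norm_eq_abs]
      have a1 : Real.sqrt v * g ≤ x + Real.sqrt v * g := by linarith
      have a2 := hf.antitone_sub a1
      have a3 : c ≤ f (x + Real.sqrt v * g) - (x + Real.sqrt v * g) :=
        hf.antitone_sub.le_of_tendsto h _
      have a4 : f (x + Real.sqrt v * g) - (x + Real.sqrt v * g) ≤
        f (Real.sqrt v * g) - Real.sqrt v * g := a2
      rw [zero_add]
      have a5 := abs_le.1 (le_refl |f (Real.sqrt v * g)|)
      have a6 : |Real.sqrt v * g| = Real.sqrt v * |g| := by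
        rw [abs_mul, abs_of_nonneg (Real.sqrt_nonneg v)]
      have a7 := abs_le.1 (le_refl |Real.sqrt v * g|)
      rw [a6] at a7
      have a8 := abs_le.1 (le_refl |c|)
      have a9 : 0 ≤ Real.sqrt v * |g| := by positivity
      rw [abs_le]
      constructor <;> linarith [abs_nonneg c, abs_nonneg (f (Real.sqrt v * g)), a5.1, a5.2,
        a7.1, a7.2, a8.1, a8.2]
    · refine (((integrable_const _).add (hf.lip.integrable v 0).abs).add ?_)
      exact (integrable_id_gm.abs.const_mul (3 * Real.sqrt v))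
    · refine Eventually.of_forall fun g => ?_
      have a1 : Tendsto (fun x : ℝ => x + Real.sqrt v * g) atTop atTop :=
        tendsto_atTop_add_const_right _ _ tendsto_id
      have a2 := (h.comp a1).add_const (Real.sqrt v * g)
      refine a2.congr fun x => ?_
      simp only [Function.comp]
      ring
  · unfold Asy
    rw [gaussOp_pos_eq hz]
    have e : ∀ x : ℝ, ζ⁻¹ * Real.log (∫ g, Real.exp (ζ * f (x + Real.sqrt v * g)) ∂gm) - x =
        ζ⁻¹ * Real.log (∫ g, Real.exp (ζ * (f (x + Real.sqrt v * g) - x)) ∂gm) := fun x => by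
      have e1 : ∀ g : ℝ, Real.exp (ζ * (f (x + Real.sqrt v * g) - x)) =
          Real.exp (-(ζ * x)) * Real.exp (ζ * f (x + Real.sqrt v * g)) := fun g => by
        rw [← Real.exp_add]; ring_nf
      simp only [e1]
      rw [integral_const_mul, Real.log_mul (Real.exp_pos _).ne' (hf.lip.den_pos h0 h1 v x).ne',
        Real.log_exp]
      field_simp
      ring
    simp only [e]
    have elim : c + ζ * v / 2 = ζ⁻¹ * Real.log (∫ g, Real.exp (ζ * (c + Real.sqrt v * g)) ∂gm) := by
      have e1 : ∀ g : ℝ, Real.exp (ζ * (c + Real.sqrt v * g)) =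
          Real.exp (ζ * c) * Real.exp ((ζ * Real.sqrt v) * g) := fun g => by
        rw [← Real.exp_add]; ring_nf
      simp only [e1]
      have e2 : ∫ g, Real.exp ((ζ * Real.sqrt v) * g) ∂gm = Real.exp ((ζ * Real.sqrt v) ^ 2 / 2) := by
        have := mgf_gaussianReal (p := gm) (X := id) (μ := 0) (v := 1) (by simp)
          (ζ * Real.sqrt v)
        unfold mgf at this
        simpa using this
      rw [integral_const_mul, e2, Real.log_mul (Real.exp_pos _).ne' (Real.exp_pos _).ne',
        Real.log_exp, Real.log_exp, mul_pow, Real.sq_sqrt hv]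
      field_simp
    rw [elim]
    have hlim : Tendsto (fun x => ∫ g, Real.exp (ζ * (f (x + Real.sqrt v * g) - x)) ∂gm) atTop
        (𝓝 (∫ g, Real.exp (ζ * (c + Real.sqrt v * g)) ∂gm)) := by
      refine tendsto_integral_filter_of_dominated_convergence
        (fun g => Real.exp (ζ * f (0 + Real.sqrt v * g))) ?_ ?_ ?_ ?_
      · exact Eventually.of_forall fun x => Continuous.aestronglyMeasurable (by fun_prop)
      · filter_upwards [eventually_ge_atTop 0] with x hx
        refine Eventually.of_forall fun g => ?_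
        rw [Real.norm_eq_abs, abs_of_pos (Real.exp_pos _)]
        refine Real.exp_le_exp.2 (mul_le_mul_of_nonneg_left ?_ h0)
        have a1 : Real.sqrt v * g ≤ x + Real.sqrt v * g := by linarith
        have a2 : f (x + Real.sqrt v * g) - (x + Real.sqrt v * g) ≤
          f (Real.sqrt v * g) - Real.sqrt v * g := hf.antitone_sub a1
        rw [zero_add]
        linarith
      · exact hf.lip.integrable_exp h0 h1 v 0
      · refine Eventually.of_forall fun g => ?_
        have a1 : Tendsto (fun x : ℝ => x + Real.sqrt v * g) atTop atTop :=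
          tendsto_atTop_add_const_right _ _ tendsto_id
        have a2 := ((h.comp a1).add_const (Real.sqrt v * g)).const_mul ζ
        refine ((Real.continuous_exp.tendsto _).comp a2).congr fun x => ?_
        simp only [Function.comp]
        ring_nf
    have hpos : 0 < ∫ g, Real.exp (ζ * (c + Real.sqrt v * g)) ∂gm := by
      refine integral_exp_pos ?_
      have e1 : ∀ g : ℝ, Real.exp (ζ * (c + Real.sqrt v * g)) =
          Real.exp (ζ * c) * Real.exp ((ζ * Real.sqrt v) * g) := fun g => by
        rw [← Real.exp_add]; ring_nf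
      simp only [e1]
      exact (integrable_exp_mul_gaussianReal _).const_mul _
    exact (hlim.log hpos.ne').const_mul _

/-! ### convolution and the semigroup property -/

theorem gm_map_sqrt (v : ℝ) (hv : 0 ≤ v) :
    gm.map (fun g => Real.sqrt v * g) = gaussianReal 0 (Real.toNNReal v) := by
  have h := gaussianReal_map_const_mul (μ := 0) (v := 1) (Real.sqrt v)
  rw [mul_zero, mul_one] at h
  have e : NNReal.mk (Real.sqrt v ^ 2) (sq_nonneg _) = Real.toNNReal v := by
    apply NNReal.eq
    rw [Real.coe_toNNReal v hv]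
    exact Real.sq_sqrt hv
  rw [← e]
  exact h

theorem gauss_conv {K : ℝ} {F : ℝ → ℝ} (hF : Gr K F) (hm : Measurable F) {v w : ℝ} (hv : 0 ≤ v)
    (hw : 0 ≤ w) (x : ℝ) :
    ∫ g, (∫ g', F (x + Real.sqrt v * g + Real.sqrt w * g') ∂gm) ∂gm =
      ∫ g, F (x + Real.sqrt (v + w) * g) ∂gm := by
  have h1 : ∀ (u : ℝ) (hu : 0 ≤ u) (G : ℝ → ℝ), Measurable G →
      ∫ g, G (Real.sqrt u * g) ∂gm = ∫ z, G z ∂gaussianReal 0 (Real.toNNReal u) := by
    intro u hu G hG
    rw [← gm_map_sqrt u hu, integral_map (by fun_prop) hG.aestronglyMeasurable]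
  have hF' : Measurable fun z => F (x + z) := hm.comp (by fun_prop)
  rw [h1 (v + w) (add_nonneg hv hw) (fun z => F (x + z)) hF']
  have e : gaussianReal 0 (Real.toNNReal (v + w)) =
      (gaussianReal 0 (Real.toNNReal v)) ∗ (gaussianReal 0 (Real.toNNReal w)) := by
    rw [gaussianReal_conv_gaussianReal, add_zero, Real.toNNReal_add hv hw]
  have e2 : ((gaussianReal 0 (Real.toNNReal v)) ∗ (gaussianReal 0 (Real.toNNReal w))) =
      (gm.prod gm).map (fun p : ℝ × ℝ => Real.sqrt v * p.1 + Real.sqrt w * p.2) := by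
    unfold Measure.conv
    rw [← gm_map_sqrt v hv, ← gm_map_sqrt w hw, Measure.map_prod_map _ _ (by fun_prop)
      (by fun_prop), Measure.map_map (by fun_prop) (by fun_prop)]
    rfl
  rw [e, e2, integral_map (by fun_prop) hF'.aestronglyMeasurable]
  have hint : Integrable (fun p : ℝ × ℝ => F (x + (Real.sqrt v * p.1 + Real.sqrt w * p.2)))
      (gm.prod gm) := by
    have hb : Integrable (fun p : ℝ × ℝ => (K * Real.exp |x| * Real.exp (Real.sqrt v * |p.1|)) *
        Real.exp (Real.sqrt w * |p.2|)) (gm.prod gm) :=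
      Integrable.mul_prod ((integrable_exp_abs (Real.sqrt v)).const_mul _)
        (integrable_exp_abs (Real.sqrt w))
    refine Integrable.mono' hb (hF'.comp (by fun_prop)).aestronglyMeasurable
      (Eventually.of_forall fun p => ?_)
    rw [Real.norm_eq_abs]
    refine (hF _).trans ?_
    rw [mul_assoc, mul_assoc, ← Real.exp_add, ← Real.exp_add]
    refine mul_le_mul_of_nonneg_left (Real.exp_le_exp.2 ?_) hF.K_nonneg
    refine (abs_add_le _ _).trans ?_
    have := abs_add_le (Real.sqrt v * p.1) (Real.sqrt w * p.2)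
    rw [abs_mul, abs_mul, abs_of_nonneg (Real.sqrt_nonneg v),
      abs_of_nonneg (Real.sqrt_nonneg w)] at this
    linarith
  rw [integral_prod _ hint]
  refine integral_congr_ae (Eventually.of_forall fun g => ?_)
  refine integral_congr_ae (Eventually.of_forall fun g' => ?_)
  show F _ = F _
  rw [add_assoc]

theorem gaussOp_add {C : ℝ} {f : ℝ → ℝ} (hf : Cls C f) {ζ : ℝ} (h0 : 0 ≤ ζ) (h1 : ζ ≤ 1)
    {v w : ℝ} (hv : 0 ≤ v) (hw : 0 ≤ w) :
    gaussOp ζ (v + w) f = gaussOp ζ v (gaussOp ζ w f) := by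
  have hmf := hf.lip.cont.measurable
  funext x
  rcases h0.eq_or_lt with hz | hz
  · subst hz
    rw [gaussOp_zero_eq, gaussOp_zero_eq, gaussOp_zero_eq]
    refine (gauss_conv (K := |f 0| + 1) (fun y => ?_) hmf hv hw x).symm
    have h2 := hf.lip.bound y
    have h3 := Real.add_one_le_exp |y|
    have h4 := abs_nonneg (f 0)
    have h5 : 1 ≤ Real.exp |y| := Real.one_le_exp (abs_nonneg y)
    nlinarith
  · rw [gaussOp_pos_eq hz, gaussOp_pos_eq hz, gaussOp_pos_eq hz]
    show ζ⁻¹ * Real.log (∫ g, Real.exp (ζ * f (x + Real.sqrt (v + w) * g)) ∂gm) =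
      ζ⁻¹ * Real.log (∫ g, Real.exp (ζ * (ζ⁻¹ * Real.log (∫ g', Real.exp (ζ * f (x +
        Real.sqrt v * g + Real.sqrt w * g')) ∂gm))) ∂gm)
    rw [← gauss_conv (hf.lip.gr_exp1 h0 h1) (by fun_prop) hv hw x]
    congr 2
    refine integral_congr_ae (Eventually.of_forall fun g => ?_)
    show _ = Real.exp (ζ * (ζ⁻¹ * Real.log (∫ g', Real.exp (ζ * f (x + Real.sqrt v * g +
      Real.sqrt w * g')) ∂gm)))
    rw [← mul_assoc, mul_inv_cancel₀ hz.ne', one_mul,
      Real.exp_log (hf.lip.den_pos h0 h1 w (x + Real.sqrt v * g))]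

theorem gaussOp_v0 (ζ : ℝ) (f : ℝ → ℝ) : gaussOp ζ 0 f = f := by
  funext x
  unfold gaussOp
  split_ifs with h
  · simp
  · simp only [Real.sqrt_zero, zero_mul, add_zero, integral_const]
    rw [probReal_univ, one_smul, Real.log_exp]
    field_simp

/-! ### monotonicity and sup-norm contraction -/

theorem gaussOp_le_add {C C' : ℝ} {f f' : ℝ → ℝ} (hf : Cls C f) (hf' : Cls C' f') {ζ : ℝ}
    (h0 : 0 ≤ ζ) (h1 : ζ ≤ 1) (v : ℝ) {c : ℝ} (h : ∀ x, f x ≤ f' x + c) (x : ℝ) :
    gaussOp ζ v f x ≤ gaussOp ζ v f' x + c := by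
  rcases h0.eq_or_lt with hz | hz
  · subst hz
    rw [gaussOp_zero_eq, gaussOp_zero_eq]
    show (∫ g, f (x + Real.sqrt v * g) ∂gm) ≤ (∫ g, f' (x + Real.sqrt v * g) ∂gm) + c
    have := integral_mono (hf.lip.integrable v x)
      ((hf'.lip.integrable v x).add (integrable_const c)) (fun g => h (x + Real.sqrt v * g))
    rw [integral_add' (hf'.lip.integrable v x) (integrable_const _)] at this
    simpa using this
  · rw [gaussOp_pos_eq hz, gaussOp_pos_eq hz]
    show ζ⁻¹ * Real.log (∫ g, Real.exp (ζ * f (x + Real.sqrt v * g)) ∂gm) ≤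
      ζ⁻¹ * Real.log (∫ g, Real.exp (ζ * f' (x + Real.sqrt v * g)) ∂gm) + c
    have a1 : ∫ g, Real.exp (ζ * f (x + Real.sqrt v * g)) ∂gm ≤
        Real.exp (ζ * c) * ∫ g, Real.exp (ζ * f' (x + Real.sqrt v * g)) ∂gm := by
      rw [← integral_const_mul]
      refine integral_mono (hf.lip.integrable_exp h0 h1 v x)
        ((hf'.lip.integrable_exp h0 h1 v x).const_mul _) fun g => ?_
      show _ ≤ Real.exp (ζ * c) * _
      rw [← Real.exp_add]
      refine Real.exp_le_exp.2 ?_
      have := mul_le_mul_of_nonneg_left (h (x + Real.sqrt v * g)) h0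
      linarith
    have a2 := Real.log_le_log (hf.lip.den_pos h0 h1 v x) a1
    rw [Real.log_mul (Real.exp_pos _).ne' (hf'.lip.den_pos h0 h1 v x).ne', Real.log_exp] at a2
    have a3 := mul_le_mul_of_nonneg_left a2 (inv_nonneg.2 h0)
    have a4 : ζ⁻¹ * (ζ * c + Real.log (∫ g, Real.exp (ζ * f' (x + Real.sqrt v * g)) ∂gm)) =
        ζ⁻¹ * Real.log (∫ g, Real.exp (ζ * f' (x + Real.sqrt v * g)) ∂gm) + c := by
      field_simp
      ring
    linarith

/-- Jensen: adding a bounded function adds at least its tilted average -/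
theorem gaussOp_ge_av {C C' : ℝ} {f f' G : ℝ → ℝ} (hf : Cls C f) (hf' : Cls C' f') {ζ : ℝ}
    (h0 : 0 ≤ ζ) (h1 : ζ ≤ 1) (v : ℝ) {B c : ℝ} (hG : ∀ x, |G x| ≤ B) (hm : Measurable G)
    (h : ∀ x, f x + G x ≤ f' x + c) (x : ℝ) :
    gaussOp ζ v f x + av ζ v f G x ≤ gaussOp ζ v f' x + c := by
  have hmf := hf.lip.cont.measurable
  rcases h0.eq_or_lt with hz | hz
  · subst hz
    rw [gaussOp_zero_eq, gaussOp_zero_eq]
    have e : av 0 v f G x = ∫ g, G (x + Real.sqrt v * g) ∂gm := by
      unfold av
      simp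
    rw [e]
    show (∫ g, f (x + Real.sqrt v * g) ∂gm) + _ ≤ (∫ g, f' (x + Real.sqrt v * g) ∂gm) + c
    have hGi : Integrable (fun g => G (x + Real.sqrt v * g)) gm := by
      have := hf.lip.integrable_mul (ζ := 0) le_rfl zero_le_one hG hm v x
      simpa using this
    have := integral_mono ((hf.lip.integrable v x).add hGi)
      ((hf'.lip.integrable v x).add (integrable_const c)) (fun g => h (x + Real.sqrt v * g))
    rw [integral_add' (hf'.lip.integrable v x) (integrable_const _),
      integral_add' (hf.lip.integrable v x) hGi] at this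
    simpa using this
  · rw [gaussOp_pos_eq hz, gaussOp_pos_eq hz]
    show ζ⁻¹ * Real.log (∫ g, Real.exp (ζ * f (x + Real.sqrt v * g)) ∂gm) + av ζ v f G x ≤
      ζ⁻¹ * Real.log (∫ g, Real.exp (ζ * f' (x + Real.sqrt v * g)) ∂gm) + c
    set D := ∫ g, Real.exp (ζ * f (x + Real.sqrt v * g)) ∂gm with hD
    have hDp : 0 < D := hf.lip.den_pos h0 h1 v x
    set m := av ζ v f G x with hmdef
    have a1 : Real.exp (ζ * (m - c)) * D ≤ ∫ g, Real.exp (ζ * f' (x + Real.sqrt v * g)) ∂gm := by
      have b1 : ∫ g, Real.exp (ζ * (m - c)) * ((1 - ζ * m) *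
          Real.exp (ζ * f (x + Real.sqrt v * g)) +
          ζ * (G (x + Real.sqrt v * g) * Real.exp (ζ * f (x + Real.sqrt v * g)))) ∂gm ≤
          ∫ g, Real.exp (ζ * f' (x + Real.sqrt v * g)) ∂gm := by
        refine integral_mono ((((hf.lip.integrable_exp h0 h1 v x).const_mul _).add
          ((hf.lip.integrable_mul h0 h1 hG hm v x).const_mul _)).const_mul _)
          (hf'.lip.integrable_exp h0 h1 v x) fun g => ?_
        show Real.exp (ζ * (m - c)) * ((1 - ζ * m) * Real.exp (ζ * f (x + Real.sqrt v * g)) +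
          ζ * (G (x + Real.sqrt v * g) * Real.exp (ζ * f (x + Real.sqrt v * g)))) ≤
          Real.exp (ζ * f' (x + Real.sqrt v * g))
        set y := x + Real.sqrt v * g
        have c1 : (1 - ζ * m) + ζ * G y ≤ Real.exp (ζ * (G y - m)) := by
          have := Real.add_one_le_exp (ζ * (G y - m))
          linarith
        have c2 : Real.exp (ζ * (m - c)) * ((1 - ζ * m) * Real.exp (ζ * f y) +
            ζ * (G y * Real.exp (ζ * f y))) =
            ((1 - ζ * m) + ζ * G y) * (Real.exp (ζ * (m - c)) * Real.exp (ζ * f y)) := by ring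
        rw [c2]
        have c3 := mul_le_mul_of_nonneg_right c1
          (mul_pos (Real.exp_pos (ζ * (m - c))) (Real.exp_pos (ζ * f y))).le
        refine c3.trans ?_
        rw [← Real.exp_add, ← Real.exp_add]
        refine Real.exp_le_exp.2 ?_
        have := mul_le_mul_of_nonneg_left (h y) h0
        linarith
      rw [integral_const_mul, integral_add ((hf.lip.integrable_exp h0 h1 v x).const_mul _)
        ((hf.lip.integrable_mul h0 h1 hG hm v x).const_mul _), integral_const_mul,
        integral_const_mul, ← hD] at b1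
      have b2 : ∫ g, G (x + Real.sqrt v * g) * Real.exp (ζ * f (x + Real.sqrt v * g)) ∂gm =
          m * D := by
        rw [hmdef]; unfold av; rw [← hD]; field_simp
      rw [b2] at b1
      have b3 : Real.exp (ζ * (m - c)) * ((1 - ζ * m) * D + ζ * (m * D)) =
          Real.exp (ζ * (m - c)) * D := by ring
      rw [b3] at b1
      exact b1
    have a2 := Real.log_le_log (by positivity) a1
    rw [Real.log_mul (Real.exp_pos _).ne' hDp.ne', Real.log_exp] at a2
    have a3 := mul_le_mul_of_nonneg_left a2 (inv_nonneg.2 h0)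
    have a4 : ζ⁻¹ * (ζ * (m - c) + Real.log D) = ζ⁻¹ * Real.log D + (m - c) := by
      field_simp
      ring
    linarith

end

end Crest.Agent.R164.Cv
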