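import Crest.Agent.R164.CvC

/-!
Row 164 (helper491), part D: small time expansion of `gaussOp` and interpolation.
-/

set_option autoImplicit false

namespace Crest.Agent.R164.Cv

open MeasureTheory Set Filter Topology ProbabilityTheory
open Crest.ProbabilityR.InvariantGlass

noncomputable section

section taylor

variable {C : ℝ} {F : ℝ → ℝ}

theorem Cls.t2 (hF : Cls C F) (x h : ℝ) :
    |deriv (deriv F) (x + h) - deriv (deriv F) x| ≤ C * |h| := by
  have := Convex.norm_image_sub_le_of_norm_deriv_le (𝕜 := ℝ) (f := deriv (deriv F)) (C := C)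
    (s := univ) (fun x _ => hF.d3 x) (fun x _ => by rw [Real.norm_eq_abs]; exact hF.b3 x)
    convex_univ (mem_univ x) (mem_univ (x + h))
  rwa [Real.norm_eq_abs, Real.norm_eq_abs, add_sub_cancel_left] at this

theorem Cls.t1a (hF : Cls C F) (x h : ℝ) : |deriv F (x + h) - deriv F x| ≤ |h| := by
  have := Convex.norm_image_sub_le_of_norm_deriv_le (𝕜 := ℝ) (f := deriv F) (C := 1)
    (s := univ) (fun x _ => hF.d2 x) (fun x _ => by rw [Real.norm_eq_abs]; exact hF.b2 x)
    convex_univ (mem_univ x) (mem_univ (x + h))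
  rwa [Real.norm_eq_abs, Real.norm_eq_abs, add_sub_cancel_left, one_mul] at this

theorem abs_le_of_mem_uIcc {t h : ℝ} (ht : t ∈ uIcc 0 h) : |t| ≤ |h| := by
  rcases le_total 0 h with h0 | h0
  · rw [uIcc_of_le h0] at ht
    rw [abs_of_nonneg ht.1, abs_of_nonneg h0]; exact ht.2
  · rw [uIcc_of_ge h0] at ht
    rw [abs_of_nonpos ht.2, abs_of_nonpos h0]; linarith [ht.1]

theorem Cls.t1 (hF : Cls C F) (x h : ℝ) :
    |deriv F (x + h) - deriv F x - deriv (deriv F) x * h| ≤ C * |h| * |h| := by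
  have hd : ∀ t, HasDerivAt (fun t => deriv F (x + t) - deriv (deriv F) x * t)
      (deriv (deriv F) (x + t) - deriv (deriv F) x) t := fun t => by
    have h1 := (hF.h2 (x + t)).comp_const_add x t
    have h2 := (hasDerivAt_id t).const_mul (deriv (deriv F) x)
    exact (h1.fun_sub h2).congr_deriv (by ring)
  have := Convex.norm_image_sub_le_of_norm_hasDerivWithin_le (𝕜 := ℝ)
    (f := fun t => deriv F (x + t) - deriv (deriv F) x * t) (C := C * |h|)
    (f' := fun t => deriv (deriv F) (x + t) - deriv (deriv F) x)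
    (s := uIcc 0 h) (fun t _ => (hd t).hasDerivWithinAt) (fun t ht => by
      rw [Real.norm_eq_abs]
      exact (hF.t2 x t).trans (mul_le_mul_of_nonneg_left (abs_le_of_mem_uIcc ht) hF.C_nonneg))
    (convex_uIcc 0 h) (left_mem_uIcc) (right_mem_uIcc)
  rw [Real.norm_eq_abs, Real.norm_eq_abs, sub_zero] at this
  simpa [add_zero, sub_right_comm] using this

theorem Cls.t0a (hF : Cls C F) (x h : ℝ) :
    |F (x + h) - F x - deriv F x * h| ≤ |h| * |h| := by
  have hd : ∀ t, HasDerivAt (fun t => F (x + t) - deriv F x * t)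
      (deriv F (x + t) - deriv F x) t := fun t => by
    have h1 := (hF.h1 (x + t)).comp_const_add x t
    have h2 := (hasDerivAt_id t).const_mul (deriv F x)
    exact (h1.fun_sub h2).congr_deriv (by ring)
  have := Convex.norm_image_sub_le_of_norm_hasDerivWithin_le (𝕜 := ℝ)
    (f := fun t => F (x + t) - deriv F x * t) (C := |h|)
    (f' := fun t => deriv F (x + t) - deriv F x)
    (s := uIcc 0 h) (fun t _ => (hd t).hasDerivWithinAt) (fun t ht => by
      rw [Real.norm_eq_abs]
      exact (hF.t1a x t).trans (abs_le_of_mem_uIcc ht))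
    (convex_uIcc 0 h) (left_mem_uIcc) (right_mem_uIcc)
  rw [Real.norm_eq_abs, Real.norm_eq_abs, sub_zero] at this
  simpa [add_zero, sub_right_comm] using this

theorem Cls.t0 (hF : Cls C F) (x h : ℝ) :
    |F (x + h) - F x - (deriv F x * h + deriv (deriv F) x * h ^ 2 / 2)| ≤ C * |h| ^ 3 := by
  have hd : ∀ t, HasDerivAt (fun t => F (x + t) - (deriv F x * t + deriv (deriv F) x * t ^ 2 / 2))
      (deriv F (x + t) - deriv F x - deriv (deriv F) x * t) t := fun t => by
    have h1 := (hF.h1 (x + t)).comp_const_add x t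
    have h2 := (hasDerivAt_id t).const_mul (deriv F x)
    have h3 := (((hasDerivAt_id t).fun_pow 2).const_mul (deriv (deriv F) x)).div_const 2
    exact (h1.fun_sub (h2.fun_add h3)).congr_deriv (by simp; ring)
  have := Convex.norm_image_sub_le_of_norm_hasDerivWithin_le (𝕜 := ℝ)
    (f := fun t => F (x + t) - (deriv F x * t + deriv (deriv F) x * t ^ 2 / 2))
    (C := C * |h| * |h|)
    (f' := fun t => deriv F (x + t) - deriv F x - deriv (deriv F) x * t)
    (s := uIcc 0 h) (fun t _ => (hd t).hasDerivWithinAt) (fun t ht => by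
      rw [Real.norm_eq_abs]
      refine (hF.t1 x t).trans ?_
      have h1 := abs_le_of_mem_uIcc ht
      have h2 := hF.C_nonneg
      have h3 := abs_nonneg t
      exact mul_le_mul (mul_le_mul_of_nonneg_left h1 h2) h1 h3 (by positivity))
    (convex_uIcc 0 h) (left_mem_uIcc) (right_mem_uIcc)
  rw [Real.norm_eq_abs, Real.norm_eq_abs, sub_zero] at this
  have e : (fun t => F (x + t) - (deriv F x * t + deriv (deriv F) x * t ^ 2 / 2)) h -
      (fun t => F (x + t) - (deriv F x * t + deriv (deriv F) x * t ^ 2 / 2)) 0 =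
      F (x + h) - F x - (deriv F x * h + deriv (deriv F) x * h ^ 2 / 2) := by
    simp only [add_zero]
    ring
  rw [e] at this
  refine this.trans (le_of_eq ?_)
  ring

theorem Cls.convexOn (hF : Cls C F) : ConvexOn ℝ univ F :=
  convexOn_univ_of_deriv2_nonneg hF.d1 hF.d2 (fun x => (hF.pos x).le)

theorem Cls.tangent (hF : Cls C F) (x h : ℝ) : deriv F x * h ≤ F (x + h) - F x := by
  rcases lt_trichotomy h 0 with h0 | h0 | h0
  · have h1 := hF.convexOn.slope_le_deriv (mem_univ (x + h)) (mem_univ x) (by linarith) (hF.d1 x)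
    rw [slope_def_field, div_le_iff₀ (by linarith)] at h1
    nlinarith
  · rw [h0]; simp
  · have h1 := hF.convexOn.deriv_le_slope (mem_univ x) (mem_univ (x + h)) (by linarith) (hF.d1 x)
    rw [slope_def_field, le_div_iff₀ (by linarith)] at h1
    nlinarith

end taylor

/-- third exponential moment -/
def M3 : ℝ := ∫ g, |g| ^ 3 * Real.exp |g| ∂gm

theorem integrable_M3 : Integrable (fun g : ℝ => |g| ^ 3 * Real.exp |g|) gm := by
  refine Integrable.mono' ((integrable_exp_abs 2).const_mul 6) (by fun_prop)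
    (Eventually.of_forall fun g => ?_)
  rw [Real.norm_eq_abs, abs_of_nonneg (by positivity)]
  have h1 := Real.pow_div_factorial_le_exp |g| (abs_nonneg g) 3
  have h2 : |g| ^ 3 ≤ 6 * Real.exp |g| := by
    have e : ((Nat.factorial 3 : ℕ) : ℝ) = 6 := by norm_num [Nat.factorial]
    rw [e, div_le_iff₀ (by norm_num)] at h1
    linarith
  calc |g| ^ 3 * Real.exp |g| ≤ 6 * Real.exp |g| * Real.exp |g| :=
        mul_le_mul_of_nonneg_right h2 (Real.exp_pos _).le
    _ = 6 * Real.exp (2 * |g|) := by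
        rw [mul_assoc, ← Real.exp_add]; ring_nf

theorem M3_nonneg : 0 ≤ M3 := integral_nonneg fun g => by positivity

theorem integrable_sq_gm : Integrable (fun g : ℝ => g ^ 2) gm := by
  refine Integrable.mono' ((integrable_exp_abs 1).const_mul 2) (by fun_prop)
    (Eventually.of_forall fun g => ?_)
  rw [Real.norm_eq_abs, abs_of_nonneg (by positivity), one_mul]
  have h1 := Real.pow_div_factorial_le_exp |g| (abs_nonneg g) 2
  have e : ((Nat.factorial 2 : ℕ) : ℝ) = 2 := by norm_num [Nat.factorial]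
  rw [e, div_le_iff₀ (by norm_num), sq_abs] at h1
  linarith

theorem integral_sq_gm : ∫ g, g ^ 2 ∂gm = 1 := by
  have h := variance_id_gaussianReal (μ := 0) (v := 1)
  rw [variance_eq_integral (by fun_prop)] at h
  simpa using h

theorem exp_taylor2 (t : ℝ) : |Real.exp t - (1 + t + t ^ 2 / 2)| ≤ |t| ^ 3 * Real.exp |t| := by
  have h := Complex.norm_exp_sub_sum_le_norm_mul_exp (t : ℂ) 3
  have e : Complex.exp (t : ℂ) - ∑ m ∈ Finset.range 3, (t : ℂ) ^ m / (m.factorial : ℂ) =
      ((Real.exp t - (1 + t + t ^ 2 / 2) : ℝ) : ℂ) := by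
    simp [Finset.sum_range_succ, Nat.factorial]
  rw [e, Complex.norm_real, Complex.norm_real, Real.norm_eq_abs, Real.norm_eq_abs] at h
  exact h

theorem gh_bound {η : ℝ} (h0 : 0 ≤ η) (h1 : η ≤ 1) (g : ℝ) :
    |Real.sqrt η * g| ^ 3 * Real.exp |Real.sqrt η * g| ≤
      (η * Real.sqrt η) * (|g| ^ 3 * Real.exp |g|) := by
  have hs : Real.sqrt η ≤ 1 := Real.sqrt_le_one.2 h1
  have hs0 := Real.sqrt_nonneg η
  rw [abs_mul, abs_of_nonneg hs0, mul_pow]
  have e : Real.sqrt η ^ 3 = η * Real.sqrt η := by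
    rw [pow_succ, Real.sq_sqrt h0]
  rw [e, mul_assoc]
  refine mul_le_mul_of_nonneg_left ?_ (by positivity)
  refine mul_le_mul_of_nonneg_left (Real.exp_le_exp.2 ?_) (by positivity)
  nlinarith [abs_nonneg g]

theorem small_time_zero {C : ℝ} {F : ℝ → ℝ} (hF : Cls C F) {η : ℝ} (h0 : 0 ≤ η) (h1 : η ≤ 1)
    (x : ℝ) :
    |gaussOp 0 η F x - F x - η / 2 * (deriv (deriv F) x + 0 * deriv F x ^ 2)| ≤
      C * M3 * (η * Real.sqrt η) := by
  have hs0 := Real.sqrt_nonneg η
  rw [gaussOp_zero_eq]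
  have hi1 := hF.lip.integrable η x
  have e : (∫ g, F (x + Real.sqrt η * g) ∂gm) - F x - η / 2 * (deriv (deriv F) x +
      0 * deriv F x ^ 2) = ∫ g, (F (x + Real.sqrt η * g) - F x - (deriv F x *
        (Real.sqrt η * g) + deriv (deriv F) x * (Real.sqrt η * g) ^ 2 / 2)) ∂gm := by
    have e1 : ∀ g : ℝ, F (x + Real.sqrt η * g) - F x - (deriv F x *
        (Real.sqrt η * g) + deriv (deriv F) x * (Real.sqrt η * g) ^ 2 / 2) =
        (F (x + Real.sqrt η * g) - F x) - ((deriv F x * Real.sqrt η) * g +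
          (deriv (deriv F) x * η / 2) * g ^ 2) := fun g => by
      have := Real.sq_sqrt h0
      rw [mul_pow, this]; ring
    simp only [e1]
    have i1 : Integrable (fun g => F (x + Real.sqrt η * g) - F x) gm :=
      hi1.sub (integrable_const _)
    have i2 : Integrable (fun g : ℝ => (deriv F x * Real.sqrt η) * g) gm :=
      integrable_id_gm.const_mul _
    have i3 : Integrable (fun g : ℝ => (deriv (deriv F) x * η / 2) * g ^ 2) gm :=
      integrable_sq_gm.const_mul _
    have i4 : Integrable (fun g : ℝ => (deriv F x * Real.sqrt η) * g +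
      (deriv (deriv F) x * η / 2) * g ^ 2) gm := i2.add i3
    rw [integral_sub i1 i4, integral_sub hi1 (integrable_const _), integral_add i2 i3,
      integral_const_mul, integral_const_mul, integral_sq_gm, integral_id_gaussianReal]
    simp
    ring
  show |(∫ g, F (x + Real.sqrt η * g) ∂gm) - F x - η / 2 * (deriv (deriv F) x +
      0 * deriv F x ^ 2)| ≤ _
  rw [e]
  have hb : Integrable (fun g : ℝ => C * ((η * Real.sqrt η) * (|g| ^ 3 * Real.exp |g|))) gm :=
    (integrable_M3.const_mul _).const_mul _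
  have h2 := norm_integral_le_of_norm_le hb (f := fun g => F (x + Real.sqrt η * g) - F x -
    (deriv F x * (Real.sqrt η * g) + deriv (deriv F) x * (Real.sqrt η * g) ^ 2 / 2))
    (Eventually.of_forall fun g => ?_)
  · rw [Real.norm_eq_abs, integral_const_mul, integral_const_mul] at h2
    refine h2.trans (le_of_eq ?_)
    unfold M3
    ring
  · rw [Real.norm_eq_abs]
    refine (hF.t0 x _).trans ?_
    refine mul_le_mul_of_nonneg_left ?_ hF.C_nonneg
    refine le_trans ?_ (gh_bound h0 h1 g)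
    have : 1 ≤ Real.exp |Real.sqrt η * g| := Real.one_le_exp (abs_nonneg _)
    have h3 : 0 ≤ |Real.sqrt η * g| ^ 3 := by positivity
    nlinarith

/-- pointwise expansion of the exponential -/
theorem pt_bound {C : ℝ} {F : ℝ → ℝ} (hF : Cls C F) {ζ : ℝ} (hz : 0 < ζ) (hz1 : ζ ≤ 1)
    (x h : ℝ) : |Real.exp (ζ * (F (x + h) - F x)) - (1 + ζ * (deriv F x * h +
      deriv (deriv F) x * h ^ 2 / 2) + ζ ^ 2 * (deriv F x * h) ^ 2 / 2)| ≤
      (C + 2) * (|h| ^ 3 * Real.exp |h|) := by
  have hC := hF.C_nonneg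
  set q := F (x + h) - F x with hq
  have q1 : |q| ≤ |h| := by
    have := hF.lip (x + h) x
    rwa [add_sub_cancel_left] at this
  have a1 := exp_taylor2 (ζ * q)
  have a2 : |ζ * q| ≤ |h| := by
    rw [abs_mul, abs_of_pos hz]
    nlinarith [abs_nonneg q]
  have a3 : |ζ * q| ^ 3 * Real.exp |ζ * q| ≤ |h| ^ 3 * Real.exp |h| :=
    mul_le_mul (pow_le_pow_left₀ (abs_nonneg _) a2 3) (Real.exp_le_exp.2 a2)
      (Real.exp_pos _).le (by positivity)
  have a4 := hF.t0 x h
  rw [← hq] at a4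
  have a5 : |ζ * (q - (deriv F x * h + deriv (deriv F) x * h ^ 2 / 2))| ≤ C * |h| ^ 3 := by
    rw [abs_mul, abs_of_pos hz]
    nlinarith [abs_nonneg (q - (deriv F x * h + deriv (deriv F) x * h ^ 2 / 2))]
  have a6 := hF.t0a x h
  rw [← hq] at a6
  have a7 : |q + deriv F x * h| ≤ 2 * |h| := by
    refine (abs_add_le _ _).trans ?_
    rw [abs_mul]
    nlinarith [hF.b1 x, abs_nonneg h]
  have a8 : |ζ ^ 2 * (q ^ 2 - (deriv F x * h) ^ 2) / 2| ≤ |h| ^ 3 := by
    have e2 : ζ ^ 2 * (q ^ 2 - (deriv F x * h) ^ 2) / 2 =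
        (ζ ^ 2 / 2) * ((q - deriv F x * h) * (q + deriv F x * h)) := by ring
    rw [e2, abs_mul, abs_mul, abs_of_nonneg (by positivity)]
    have b1 : |q - deriv F x * h| * |q + deriv F x * h| ≤ (|h| * |h|) * (2 * |h|) :=
      mul_le_mul a6 a7 (abs_nonneg _) (by positivity)
    have b2 : ζ ^ 2 / 2 ≤ 1 / 2 := by nlinarith
    have b3 : 0 ≤ |q - deriv F x * h| * |q + deriv F x * h| := by positivity
    nlinarith
  have a9 : 1 ≤ Real.exp |h| := Real.one_le_exp (abs_nonneg _)
  have e3 : Real.exp (ζ * q) - (1 + ζ * (deriv F x * h + deriv (deriv F) x * h ^ 2 / 2) +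
      ζ ^ 2 * (deriv F x * h) ^ 2 / 2) = (Real.exp (ζ * q) - (1 + ζ * q + (ζ * q) ^ 2 / 2)) +
      (ζ * (q - (deriv F x * h + deriv (deriv F) x * h ^ 2 / 2)) +
        ζ ^ 2 * (q ^ 2 - (deriv F x * h) ^ 2) / 2) := by ring
  rw [e3]
  refine (abs_add_le _ _).trans ?_
  have b4 := abs_add_le (ζ * (q - (deriv F x * h + deriv (deriv F) x * h ^ 2 / 2)))
    (ζ ^ 2 * (q ^ 2 - (deriv F x * h) ^ 2) / 2)
  have b5 : 0 ≤ |h| ^ 3 := by positivity
  have b6 : |h| ^ 3 ≤ |h| ^ 3 * Real.exp |h| := by nlinarith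
  have b7 : (C + 1) * |h| ^ 3 ≤ (C + 1) * (|h| ^ 3 * Real.exp |h|) :=
    mul_le_mul_of_nonneg_left b6 (by linarith)
  linarith

theorem small_time_pos {C : ℝ} {F : ℝ → ℝ} (hF : Cls C F) {ζ : ℝ} (hz : 0 < ζ) (hz1 : ζ ≤ 1)
    {η : ℝ} (h0 : 0 ≤ η) (h1 : η ≤ 1) (x : ℝ) :
    |gaussOp ζ η F x - F x - η / 2 * (deriv (deriv F) x + ζ * deriv F x ^ 2)| ≤
      ζ⁻¹ * ((C + 2) * M3 + (1 + (C + 2) * M3) ^ 2) * (η * Real.sqrt η) := by
  have hs0 := Real.sqrt_nonneg η
  have hs1 : Real.sqrt η ≤ 1 := Real.sqrt_le_one.2 h1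
  have hC := hF.C_nonneg
  have hM := M3_nonneg
  set K := (C + 2) * M3 with hK
  have hK0 : 0 ≤ K := by positivity
  set E := ∫ g, Real.exp (ζ * (F (x + Real.sqrt η * g) - F x)) ∂gm with hE
  have hint : Integrable (fun g => Real.exp (ζ * (F (x + Real.sqrt η * g) - F x))) gm := by
    have e1 : ∀ g : ℝ, Real.exp (ζ * (F (x + Real.sqrt η * g) - F x)) =
        Real.exp (-(ζ * F x)) * Real.exp (ζ * F (x + Real.sqrt η * g)) := fun g => by
      rw [← Real.exp_add]; ring_nf
    simp only [e1]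
    exact (hF.lip.integrable_exp hz.le hz1 η x).const_mul _
  have hT : gaussOp ζ η F x - F x = ζ⁻¹ * Real.log E := by
    rw [gaussOp_pos_eq hz]
    show ζ⁻¹ * Real.log (∫ g, Real.exp (ζ * F (x + Real.sqrt η * g)) ∂gm) - F x = _
    have e1 : ∀ g : ℝ, Real.exp (ζ * (F (x + Real.sqrt η * g) - F x)) =
        Real.exp (-(ζ * F x)) * Real.exp (ζ * F (x + Real.sqrt η * g)) := fun g => by
      rw [← Real.exp_add]; ring_nf
    rw [hE]
    simp only [e1]
    rw [integral_const_mul, Real.log_mul (Real.exp_pos _).ne'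
      (hF.lip.den_pos hz.le hz1 η x).ne', Real.log_exp]
    field_simp
    ring
  set a := η / 2 * (deriv (deriv F) x + ζ * deriv F x ^ 2) with ha
  -- second order expansion of `E`
  have hexp : |E - 1 - ζ * a| ≤ K * (η * Real.sqrt η) := by
    have e : E - 1 - ζ * a = ∫ g, (Real.exp (ζ * (F (x + Real.sqrt η * g) - F x)) -
        (1 + ζ * (deriv F x * (Real.sqrt η * g) + deriv (deriv F) x *
          (Real.sqrt η * g) ^ 2 / 2) + ζ ^ 2 * (deriv F x * (Real.sqrt η * g)) ^ 2 / 2)) ∂gm := by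
      have e1 : ∀ g : ℝ, (1 + ζ * (deriv F x * (Real.sqrt η * g) + deriv (deriv F) x *
          (Real.sqrt η * g) ^ 2 / 2) + ζ ^ 2 * (deriv F x * (Real.sqrt η * g)) ^ 2 / 2) =
          1 + ((ζ * deriv F x * Real.sqrt η) * g + (ζ * a) * g ^ 2) := fun g => by
        have := Real.sq_sqrt h0
        rw [mul_pow, mul_pow, mul_pow, this, ha]; ring
      simp only [e1]
      have i2 : Integrable (fun g : ℝ => (ζ * deriv F x * Real.sqrt η) * g) gm :=
        integrable_id_gm.const_mul _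
      have i3 : Integrable (fun g : ℝ => (ζ * a) * g ^ 2) gm := integrable_sq_gm.const_mul _
      have i4 : Integrable (fun g : ℝ => (ζ * deriv F x * Real.sqrt η) * g + (ζ * a) * g ^ 2) gm :=
        i2.add i3
      have i5 : Integrable (fun g : ℝ => 1 + ((ζ * deriv F x * Real.sqrt η) * g +
        (ζ * a) * g ^ 2)) gm := (integrable_const _).add i4
      rw [integral_sub hint i5, integral_add (integrable_const _) i4, integral_add i2 i3,
        integral_const_mul, integral_const_mul, integral_sq_gm, integral_id_gaussianReal, ← hE]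
      simp
      ring
    rw [e]
    have hb : Integrable (fun g : ℝ => (C + 2) * ((η * Real.sqrt η) *
        (|g| ^ 3 * Real.exp |g|))) gm := (integrable_M3.const_mul _).const_mul _
    rw [← Real.norm_eq_abs]
    refine (norm_integral_le_of_norm_le hb (Eventually.of_forall fun g => ?_)).trans
      (le_of_eq ?_)
    · rw [Real.norm_eq_abs]
      set h := Real.sqrt η * g with hh
      refine le_trans ?_ (mul_le_mul_of_nonneg_left (gh_bound h0 h1 g) (by linarith))
      rw [← hh]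
      exact pt_bound hF hz hz1 x h
    · rw [integral_const_mul, integral_const_mul, hK]
      unfold M3
      ring
  -- `E ≥ 1`
  have hE1 : 1 ≤ E := by
    have h2 : ∫ g, (1 + (ζ * deriv F x * Real.sqrt η) * g) ∂gm ≤ E := by
      refine integral_mono ((integrable_const _).add (integrable_id_gm.const_mul _)) hint
        fun g => ?_
      show 1 + (ζ * deriv F x * Real.sqrt η) * g ≤ Real.exp (ζ * (F (x + Real.sqrt η * g) - F x))
      have b1 := Real.add_one_le_exp (ζ * (F (x + Real.sqrt η * g) - F x))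
      have b2 := mul_le_mul_of_nonneg_left (hF.tangent x (Real.sqrt η * g)) hz.le
      linarith
    have i2 : Integrable (fun g : ℝ => (ζ * deriv F x * Real.sqrt η) * g) gm :=
      integrable_id_gm.const_mul _
    rw [integral_add (integrable_const _) i2, integral_const_mul, integral_id_gaussianReal] at h2
    simpa using h2
  have ha0 : 0 ≤ a := by
    have := (hF.pos x).le
    positivity
  have ha1 : a ≤ η := by
    have b1 := hF.gen x
    have b2 := hF.pos x
    have b3 : deriv (deriv F) x + ζ * deriv F x ^ 2 ≤ 1 := by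
      nlinarith [sq_nonneg (deriv F x)]
    rw [ha]
    nlinarith
  have hηs : η * Real.sqrt η ≤ η := by nlinarith
  have hηη : η * η ≤ η * Real.sqrt η := by
    have : η ≤ Real.sqrt η := by
      have := Real.sq_sqrt h0
      nlinarith
    nlinarith
  set y := E - 1 with hy
  have hy0 : 0 ≤ y := by linarith
  have hab := abs_le.1 hexp
  have hy1 : y ≤ (1 + K) * η := by
    have b1 : ζ * a ≤ η := by nlinarith
    have b2 : K * (η * Real.sqrt η) ≤ K * η := mul_le_mul_of_nonneg_left hηs hK0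
    linarith [hab.2]
  have hlog1 : Real.log E ≤ y := by
    have := Real.log_le_sub_one_of_pos (by linarith : 0 < E)
    linarith
  have hlog2 : y - (1 + K) ^ 2 * (η * Real.sqrt η) ≤ Real.log E := by
    have b1 := Real.le_log_one_add_of_nonneg hy0
    have e2 : 1 + y = E := by rw [hy]; ring
    rw [e2] at b1
    have b2 : y - y ^ 2 ≤ 2 * y / (y + 2) := by
      rw [le_div_iff₀ (by linarith)]
      nlinarith [mul_nonneg hy0 hy0, mul_nonneg (mul_nonneg hy0 hy0) hy0]
    have b3 : y ^ 2 ≤ (1 + K) ^ 2 * (η * Real.sqrt η) := by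
      have : y ^ 2 ≤ ((1 + K) * η) ^ 2 := pow_le_pow_left₀ hy0 hy1 2
      calc y ^ 2 ≤ ((1 + K) * η) ^ 2 := this
        _ = (1 + K) ^ 2 * (η * η) := by ring
        _ ≤ _ := mul_le_mul_of_nonneg_left hηη (by positivity)
    linarith
  rw [hT]
  have hfin : |Real.log E - ζ * a| ≤ (K + (1 + K) ^ 2) * (η * Real.sqrt η) := by
    have b1 : 0 ≤ (1 + K) ^ 2 * (η * Real.sqrt η) := by positivity
    rw [abs_le]
    constructor <;> linarith [hab.1, hab.2]
  have e4 : ζ⁻¹ * Real.log E - a = ζ⁻¹ * (Real.log E - ζ * a) := by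
    field_simp
  rw [e4, abs_mul, abs_of_pos (inv_pos.2 hz), mul_assoc]
  exact mul_le_mul_of_nonneg_left hfin (inv_pos.2 hz).le

/-- **small time expansion**, uniform over the class -/
theorem small_time (C : ℝ) (hC : 0 ≤ C) {ζ : ℝ} (h0 : 0 ≤ ζ) (h1 : ζ ≤ 1) :
    ∃ K, 0 ≤ K ∧ ∀ F, Cls C F → ∀ η, 0 ≤ η → η ≤ 1 → ∀ x,
      |gaussOp ζ η F x - F x - η / 2 * (deriv (deriv F) x + ζ * deriv F x ^ 2)| ≤
        K * (η * Real.sqrt η) := by
  have hM := M3_nonneg
  rcases h0.eq_or_lt with hz | hz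
  · subst hz
    exact ⟨C * M3, by positivity, fun F hF η a b x => small_time_zero hF a b x⟩
  · exact ⟨_, by positivity, fun F hF η a b x => small_time_pos hF hz h1 a b x⟩

/-! ### interpolation: uniform convergence controls two derivatives -/

theorem interp1 {C : ℝ} {F G : ℝ → ℝ} (hF : Cls C F) (hG : Cls C G) {ε : ℝ}
    (h : ∀ x, |F x - G x| ≤ ε) {r : ℝ} (hr : 0 < r) (x : ℝ) :
    |deriv F x - deriv G x| ≤ 2 * ε / r + 2 * r := by
  have a1 := abs_le.1 (hF.t0a x r)
  have a2 := abs_le.1 (hG.t0a x r)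
  have a3 := abs_le.1 (h (x + r))
  have a4 := abs_le.1 (h x)
  rw [abs_of_pos hr] at a1 a2
  have key : |(deriv F x - deriv G x) * r| ≤ 2 * ε + 2 * r * r := by
    rw [abs_le]; constructor <;> linarith [a1.1, a1.2, a2.1, a2.2, a3.1, a3.2, a4.1, a4.2]
  rw [abs_mul, abs_of_pos hr] at key
  have : 2 * ε / r + 2 * r = (2 * ε + 2 * r * r) / r := by field_simp
  rw [this, le_div_iff₀ hr]
  exact key

theorem interp2 {C : ℝ} {F G : ℝ → ℝ} (hF : Cls C F) (hG : Cls C G) {ε : ℝ}
    (h : ∀ x, |F x - G x| ≤ ε) {r : ℝ} (hr : 0 < r) (x : ℝ) :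
    |deriv (deriv F) x - deriv (deriv G) x| ≤ 4 * ε / r ^ 2 + 4 * C * r := by
  have a1 := abs_le.1 (hF.t0 x r)
  have a2 := abs_le.1 (hG.t0 x r)
  have b1 := abs_le.1 (hF.t0 x (-r))
  have b2 := abs_le.1 (hG.t0 x (-r))
  have a3 := abs_le.1 (h (x + r))
  have a4 := abs_le.1 (h x)
  have a5 := abs_le.1 (h (x + -r))
  rw [abs_of_pos hr] at a1 a2
  rw [abs_neg, abs_of_pos hr] at b1 b2
  have hr2 : 0 < r ^ 2 := by positivity
  have key : |(deriv (deriv F) x - deriv (deriv G) x) * r ^ 2| ≤ 4 * ε + 4 * C * r ^ 3 := by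
    rw [abs_le]
    constructor <;> nlinarith [a1.1, a1.2, a2.1, a2.2, a3.1, a3.2, a4.1, a4.2, b1.1, b1.2, b2.1,
      b2.2, a5.1, a5.2]
  rw [abs_mul, abs_of_pos hr2] at key
  have : 4 * ε / r ^ 2 + 4 * C * r = (4 * ε + 4 * C * r ^ 3) / r ^ 2 := by field_simp
  rw [this, le_div_iff₀ hr2]
  exact key

/-- uniform closeness gives closeness of two derivatives -/
theorem interp (C : ℝ) (hC : 0 ≤ C) {ρ : ℝ} (hρ : 0 < ρ) :
    ∃ ε, 0 < ε ∧ ∀ F G, Cls C F → Cls C G → (∀ x, |F x - G x| ≤ ε) → ∀ x,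
      |deriv F x - deriv G x| ≤ ρ ∧ |deriv (deriv F) x - deriv (deriv G) x| ≤ ρ := by
  set r := ρ / (8 * (C + 1)) with hr
  have hr0 : 0 < r := by positivity
  have hC1 : 0 < C + 1 := by linarith
  refine ⟨min (ρ * r / 4) (ρ * r ^ 2 / 8), by positivity, fun F G hF hG h x => ⟨?_, ?_⟩⟩
  · refine (interp1 hF hG h hr0 x).trans ?_
    have a1 : 2 * min (ρ * r / 4) (ρ * r ^ 2 / 8) / r ≤ ρ / 2 := by
      rw [div_le_iff₀ hr0]
      have := min_le_left (ρ * r / 4) (ρ * r ^ 2 / 8)
      linarith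
    have a2 : 2 * r ≤ ρ / 4 := by
      rw [hr, mul_div_assoc', div_le_iff₀ (by positivity)]
      nlinarith
    linarith
  · refine (interp2 hF hG h hr0 x).trans ?_
    have a1 : 4 * min (ρ * r / 4) (ρ * r ^ 2 / 8) / r ^ 2 ≤ ρ / 2 := by
      rw [div_le_iff₀ (by positivity)]
      have := min_le_right (ρ * r / 4) (ρ * r ^ 2 / 8)
      linarith
    have a2 : 4 * C * r ≤ ρ / 2 := by
      rw [hr, mul_div_assoc', div_le_iff₀ (by positivity)]
      nlinarith
    linarith

end

end Crest.Agent.R164.Cv
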