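import Crest.Agent.R164.CvD

/-!
Row 164 (helper491), part E: the `k`-level one-site function and its one-sided derivatives.
-/

set_option autoImplicit false

namespace Crest.Agent.R164.Cv

open MeasureTheory Set Filter Topology ProbabilityTheory
open Crest.ProbabilityR.InvariantGlass

noncomputable section

/-- the `k`-level function -/
def Phi : (k : ℕ) → (Fin k → ℝ) → (Fin k → ℝ) → ℝ → ℝ
  | 0, _, _ => lc
  | (k + 1), ζ, v => gaussOp (ζ 0) (v 0) (Phi k (Fin.tail ζ) (Fin.tail v))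

theorem Phi_zero (ζ v : Fin 0 → ℝ) : Phi 0 ζ v = lc := rfl

theorem Phi_succ (k : ℕ) (ζ v : Fin (k + 1) → ℝ) :
    Phi (k + 1) ζ v = gaussOp (ζ 0) (v 0) (Phi k (Fin.tail ζ) (Fin.tail v)) := rfl

/-- admissible exponents -/
structure Adm {k : ℕ} (ζ : Fin k → ℝ) : Prop where
  nonneg (i) : 0 ≤ ζ i
  le_one (i) : ζ i ≤ 1
  mono : Monotone ζ

theorem Adm.tail {k : ℕ} {ζ : Fin (k + 1) → ℝ} (h : Adm ζ) : Adm (Fin.tail ζ) :=
  ⟨fun _ => h.nonneg _, fun _ => h.le_one _, fun _ _ hij => h.mono (Fin.succ_le_succ_iff.2 hij)⟩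

theorem cls_Phi : ∀ (k : ℕ) (ζ v : Fin k → ℝ), Adm ζ → Cls (2 + 8 * k) (Phi k ζ v)
  | 0, _, _, _ => by rw [Phi_zero]; simpa using cls_lc
  | (k + 1), ζ, v, h => by
      rw [Phi_succ]
      refine ((cls_Phi k _ _ h.tail).gop (h.nonneg 0) (h.le_one 0) (v 0)).mono (le_of_eq ?_)
      push_cast
      ring

theorem asy_Phi : ∀ (k : ℕ) (ζ v : Fin k → ℝ), Adm ζ → (∀ i, 0 ≤ v i) →
    Asy (Phi k ζ v) (-Real.log 2 + (∑ i, ζ i * v i) / 2)
  | 0, _, _, _, _ => by simpa [Phi_zero] using asy_lc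
  | (k + 1), ζ, v, h, hv => by
      rw [Phi_succ]
      have := asy_gaussOp (cls_Phi k _ (Fin.tail v) h.tail)
        (asy_Phi k _ (Fin.tail v) h.tail (fun i => hv _)) (h.nonneg 0) (h.le_one 0) (hv 0)
      convert this using 1
      rw [Fin.sum_univ_succ]
      simp only [Fin.tail]
      ring

theorem Phi_v0 : ∀ (k : ℕ) (ζ : Fin k → ℝ), Phi k ζ (fun _ => 0) = lc
  | 0, _ => rfl
  | (k + 1), ζ => by
      rw [Phi_succ, gaussOp_v0]
      exact Phi_v0 k _

/-- one level: modulus of continuity in the variance -/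
theorem gaussOp_modulus (C : ℝ) (hC : 0 ≤ C) {ζ : ℝ} (h0 : 0 ≤ ζ) (h1 : ζ ≤ 1) :
    ∃ L, 0 ≤ L ∧ ∀ F, Cls C F → ∀ v w, 0 ≤ v → 0 ≤ w → |v - w| ≤ 1 → ∀ x,
      |gaussOp ζ v F x - gaussOp ζ w F x| ≤ L * |v - w| := by
  obtain ⟨K, hK, hst⟩ := small_time C hC h0 h1
  refine ⟨1 + K, by linarith, fun F hF => ?_⟩
  have base : ∀ η, 0 ≤ η → η ≤ 1 → ∀ x, |gaussOp ζ η F x - F x| ≤ (1 + K) * η := by
    intro η a b x
    have h2 := abs_le.1 (hst F hF η a b x)
    have h3 := hF.gen x
    have h4 := hF.pos x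
    have h5 : deriv (deriv F) x + ζ * deriv F x ^ 2 ≤ 1 := by nlinarith [sq_nonneg (deriv F x)]
    have h6 : 0 ≤ deriv (deriv F) x + ζ * deriv F x ^ 2 := by positivity
    have hs1 : Real.sqrt η ≤ 1 := Real.sqrt_le_one.2 b
    have hs0 := Real.sqrt_nonneg η
    have h7 : η * Real.sqrt η ≤ η := by nlinarith
    have h8 : K * (η * Real.sqrt η) ≤ K * η := mul_le_mul_of_nonneg_left h7 hK
    have h9 : η / 2 * (deriv (deriv F) x + ζ * deriv F x ^ 2) ≤ η := by nlinarith
    have h10 : 0 ≤ η / 2 * (deriv (deriv F) x + ζ * deriv F x ^ 2) := by positivity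
    rw [abs_le]
    constructor <;> linarith [h2.1, h2.2]
  have key : ∀ v w, 0 ≤ w → w ≤ v → v - w ≤ 1 → ∀ x,
      |gaussOp ζ v F x - gaussOp ζ w F x| ≤ (1 + K) * (v - w) := by
    intro v w hw hwv h x
    have e : gaussOp ζ v F = gaussOp ζ w (gaussOp ζ (v - w) F) := by
      rw [← gaussOp_add hF h0 h1 hw (sub_nonneg.2 hwv)]
      congr 1; ring
    have hb := base (v - w) (sub_nonneg.2 hwv) h
    rw [e, abs_le]
    have c1 := gaussOp_le_add (hF.gop h0 h1 (v - w)) hF h0 h1 w (c := (1 + K) * (v - w))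
      (fun x => by linarith [(abs_le.1 (hb x)).2]) x
    have c2 := gaussOp_le_add hF (hF.gop h0 h1 (v - w)) h0 h1 w (c := (1 + K) * (v - w))
      (fun x => by linarith [(abs_le.1 (hb x)).1]) x
    constructor <;> linarith
  intro v w hv hw h x
  rcases le_total w v with hwv | hwv
  · rw [abs_of_nonneg (sub_nonneg.2 hwv)] at h ⊢
    exact key v w hw hwv h x
  · rw [abs_sub_comm (gaussOp ζ v F x), abs_sub_comm v w, abs_of_nonneg (sub_nonneg.2 hwv)]
    rw [abs_sub_comm, abs_of_nonneg (sub_nonneg.2 hwv)] at h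
    exact key w v hv hwv h x

/-- continuity in all variances, uniformly in `x` -/
theorem Phi_modulus : ∀ (k : ℕ) (ζ : Fin k → ℝ), Adm ζ → ∃ L, 0 ≤ L ∧ ∀ v w : Fin k → ℝ,
    (∀ i, 0 ≤ v i) → (∀ i, 0 ≤ w i) → (∀ i, |v i - w i| ≤ 1) → ∀ x,
      |Phi k ζ v x - Phi k ζ w x| ≤ L * ∑ i, |v i - w i|
  | 0, ζ, _ => ⟨0, le_rfl, fun v w _ _ _ x => by simp [Phi_zero]⟩
  | (k + 1), ζ, h => by
      obtain ⟨L, hL, IH⟩ := Phi_modulus k (Fin.tail ζ) h.tail
      obtain ⟨L', hL', hm⟩ := gaussOp_modulus (2 + 8 * k) (by positivity) (h.nonneg 0)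
        (h.le_one 0)
      refine ⟨L + L', by linarith, fun v w hv hw hvw x => ?_⟩
      rw [Phi_succ, Phi_succ, Fin.sum_univ_succ]
      have c1 := cls_Phi k (Fin.tail ζ) (Fin.tail v) h.tail
      have c2 := cls_Phi k (Fin.tail ζ) (Fin.tail w) h.tail
      have a1 := hm _ c2 (v 0) (w 0) (hv 0) (hw 0) (hvw 0) x
      have a2 : ∀ x, |Phi k (Fin.tail ζ) (Fin.tail v) x - Phi k (Fin.tail ζ) (Fin.tail w) x| ≤
          L * ∑ i : Fin k, |v i.succ - w i.succ| := fun x =>
        IH (Fin.tail v) (Fin.tail w) (fun i => hv _) (fun i => hw _) (fun i => hvw _) x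
      have a3 : |gaussOp (ζ 0) (v 0) (Phi k (Fin.tail ζ) (Fin.tail v)) x -
          gaussOp (ζ 0) (v 0) (Phi k (Fin.tail ζ) (Fin.tail w)) x| ≤
          L * ∑ i : Fin k, |v i.succ - w i.succ| := by
        have d1 := gaussOp_le_add c1 c2 (h.nonneg 0) (h.le_one 0) (v 0)
          (c := L * ∑ i : Fin k, |v i.succ - w i.succ|)
          (fun x => by linarith [(abs_le.1 (a2 x)).2]) x
        have d2 := gaussOp_le_add c2 c1 (h.nonneg 0) (h.le_one 0) (v 0)
          (c := L * ∑ i : Fin k, |v i.succ - w i.succ|)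
          (fun x => by linarith [(abs_le.1 (a2 x)).1]) x
        rw [abs_le]; constructor <;> linarith
      have a4 := abs_sub_le (gaussOp (ζ 0) (v 0) (Phi k (Fin.tail ζ) (Fin.tail v)) x)
        (gaussOp (ζ 0) (v 0) (Phi k (Fin.tail ζ) (Fin.tail w)) x)
        (gaussOp (ζ 0) (w 0) (Phi k (Fin.tail ζ) (Fin.tail w)) x)
      have a5 : 0 ≤ ∑ i : Fin k, |v i.succ - w i.succ| :=
        Finset.sum_nonneg fun i _ => abs_nonneg _
      have a6 := abs_nonneg (v 0 - w 0)
      nlinarith [mul_nonneg hL a6, mul_nonneg hL' a5]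

/-- lower bound for the left increments in `v i` -/
theorem Phi_lower : ∀ (k : ℕ) (ζ : Fin k → ℝ), Adm ζ → ∃ K, 0 ≤ K ∧ ∀ v : Fin k → ℝ,
    ∀ i : Fin k, ∀ η, 0 ≤ η → η ≤ 1 → η ≤ v i → ∀ x,
      Phi k ζ (Function.update v i (v i - η)) x +
        η / 2 * (deriv (deriv (Phi k ζ (Function.update v i (v i - η)))) x +
          ζ i * deriv (Phi k ζ (Function.update v i (v i - η))) x ^ 2) ≤
        Phi k ζ v x + K * (η * Real.sqrt η)
  | 0, ζ, _ => ⟨0, le_rfl, fun _ i => i.elim0⟩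
  | (k + 1), ζ, h => by
      obtain ⟨K, hK, IH⟩ := Phi_lower k (Fin.tail ζ) h.tail
      obtain ⟨K', hK', hst⟩ := small_time (2 + 8 * (k + 1 : ℕ)) (by positivity) (h.nonneg 0)
        (h.le_one 0)
      refine ⟨K + K', by linarith, fun v i η h0 h1 hv x => ?_⟩
      have hs : 0 ≤ η * Real.sqrt η := by positivity
      refine Fin.cases (fun hv => ?_) (fun j hv => ?_) i hv
      · -- outermost level
        set F := Phi (k + 1) ζ (Function.update v 0 (v 0 - η)) with hF
        have e : Phi (k + 1) ζ v = gaussOp (ζ 0) η F := by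
          rw [hF, Phi_succ, Phi_succ, Fin.tail_update_zero, Function.update_self,
            ← gaussOp_add (cls_Phi k _ _ h.tail) (h.nonneg 0) (h.le_one 0) h0 (sub_nonneg.2 hv)]
          congr 1; ring
        have c := abs_le.1 (hst F (cls_Phi (k + 1) _ _ h) η h0 h1 x)
        rw [e]
        nlinarith [mul_nonneg hK hs, c.1]
      · -- inner level
        have e1 : Fin.tail (Function.update v j.succ (v j.succ - η)) =
            Function.update (Fin.tail v) j (Fin.tail v j - η) := by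
          rw [Fin.tail_update_succ]; rfl
        have e2 : (Function.update v j.succ (v j.succ - η)) 0 = v 0 := by
          rw [Function.update_of_ne (Fin.succ_ne_zero j).symm]
        rw [Phi_succ, Phi_succ, e1, e2]
        set H := Phi k (Fin.tail ζ) (Function.update (Fin.tail v) j (Fin.tail v j - η)) with hH
        have cH : Cls (2 + 8 * k) H := cls_Phi k _ _ h.tail
        have cG := cls_Phi k (Fin.tail ζ) (Fin.tail v) h.tail
        have hz := h.nonneg j.succ
        have hz1 := h.le_one j.succ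
        have hmz : ζ 0 ≤ ζ j.succ := h.mono (Fin.zero_le _)
        have bsq : ∀ x, |deriv H x ^ 2| ≤ 1 := fun x => by
          rw [abs_of_nonneg (sq_nonneg _)]; exact sq_le_one_of_abs (cH.b1 x)
        have msq : Measurable fun x => deriv H x ^ 2 := cH.m1.pow_const 2
        have bz : ∀ x, |ζ j.succ * deriv H x ^ 2| ≤ 1 := fun x => by
          rw [abs_mul, abs_of_nonneg hz]; exact mul_le_one₀ hz1 (abs_nonneg _) (bsq x)
        have key := gaussOp_ge_av cH cG (h.nonneg 0) (h.le_one 0) (v 0)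
          (G := fun x => η / 2 * (deriv (deriv H) x + ζ j.succ * deriv H x ^ 2)) (B := |η / 2| * 2)
          (c := K * (η * Real.sqrt η)) (fun x => by
            rw [abs_mul]
            refine mul_le_mul_of_nonneg_left ?_ (abs_nonneg _)
            refine (abs_add_le _ _).trans ?_
            have := cH.b2 x
            have := bz x
            linarith) (by have := cH.m1; have := cH.m2; fun_prop)
          (fun x => IH (Fin.tail v) j η h0 h1 hv x) x
        rw [av_smul, av_add cH.lip (h.nonneg 0) (h.le_one 0) (v 0) x cH.b2 cH.m2 bz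
          (by fun_prop), av_smul] at key
        have hsq := av_sq cH.lip (h.nonneg 0) (h.le_one 0) (v 0) x cH.b1 cH.m1
        rw [deriv2_gaussOp cH (h.nonneg 0) (h.le_one 0), deriv_gaussOp cH (h.nonneg 0) (h.le_one 0)]
        show gaussOp (ζ 0) (v 0) H x + η / 2 * (av (ζ 0) (v 0) H (deriv (deriv H)) x +
          ζ 0 * (av (ζ 0) (v 0) H (fun y => deriv H y ^ 2) x -
            av (ζ 0) (v 0) H (deriv H) x ^ 2) + ζ j.succ * av (ζ 0) (v 0) H (deriv H) x ^ 2) ≤
          gaussOp (ζ 0) (v 0) (Phi k (Fin.tail ζ) (Fin.tail v)) x + (K + K') * (η * Real.sqrt η)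
        set A := av (ζ 0) (v 0) H (deriv (deriv H)) x
        set B := av (ζ 0) (v 0) H (fun y => deriv H y ^ 2) x
        set D := av (ζ 0) (v 0) H (deriv H) x
        have d1 : A + ζ 0 * (B - D ^ 2) + ζ j.succ * D ^ 2 ≤ A + ζ j.succ * B := by
          nlinarith [mul_nonneg (sub_nonneg.2 hmz) (sub_nonneg.2 hsq)]
        have d2 := mul_le_mul_of_nonneg_left d1 (by linarith : (0 : ℝ) ≤ η / 2)
        nlinarith [mul_nonneg hK' hs]

/-- upper bound for the left increments in `v i` when all outer variances vanish -/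
theorem Phi_upper : ∀ (k : ℕ) (ζ : Fin k → ℝ), Adm ζ → ∃ K, 0 ≤ K ∧ ∀ v : Fin k → ℝ,
    ∀ i : Fin k, (∀ j, j < i → v j = 0) → ∀ η, 0 ≤ η → η ≤ 1 → η ≤ v i → ∀ x,
      Phi k ζ v x ≤ Phi k ζ (Function.update v i (v i - η)) x +
        η / 2 * (deriv (deriv (Phi k ζ (Function.update v i (v i - η)))) x +
          ζ i * deriv (Phi k ζ (Function.update v i (v i - η))) x ^ 2) + K * (η * Real.sqrt η)
  | 0, ζ, _ => ⟨0, le_rfl, fun _ i => i.elim0⟩
  | (k + 1), ζ, h => by
      obtain ⟨K, hK, IH⟩ := Phi_upper k (Fin.tail ζ) h.tail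
      obtain ⟨K', hK', hst⟩ := small_time (2 + 8 * (k + 1 : ℕ)) (by positivity) (h.nonneg 0)
        (h.le_one 0)
      refine ⟨K + K', by linarith, fun v i hz η h0 h1 hv x => ?_⟩
      have hs : 0 ≤ η * Real.sqrt η := by positivity
      refine Fin.cases (fun hz hv => ?_) (fun j hz hv => ?_) i hz hv
      · set F := Phi (k + 1) ζ (Function.update v 0 (v 0 - η)) with hF
        have e : Phi (k + 1) ζ v = gaussOp (ζ 0) η F := by
          rw [hF, Phi_succ, Phi_succ, Fin.tail_update_zero, Function.update_self,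
            ← gaussOp_add (cls_Phi k _ _ h.tail) (h.nonneg 0) (h.le_one 0) h0 (sub_nonneg.2 hv)]
          congr 1; ring
        have c := abs_le.1 (hst F (cls_Phi (k + 1) _ _ h) η h0 h1 x)
        rw [e]
        nlinarith [mul_nonneg hK hs, c.2]
      · have e1 : Fin.tail (Function.update v j.succ (v j.succ - η)) =
            Function.update (Fin.tail v) j (Fin.tail v j - η) := by
          rw [Fin.tail_update_succ]; rfl
        have e2 : (Function.update v j.succ (v j.succ - η)) 0 = v 0 := by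
          rw [Function.update_of_ne (Fin.succ_ne_zero j).symm]
        have e3 : v 0 = 0 := hz 0 (Fin.succ_pos j)
        rw [Phi_succ, Phi_succ, e1, e2, e3, gaussOp_v0, gaussOp_v0]
        have := IH (Fin.tail v) j (fun l hl => hz l.succ (Fin.succ_lt_succ_iff.2 hl)) η h0 h1 hv x
        have h3 : ζ j.succ = Fin.tail ζ j := rfl
        rw [h3]
        nlinarith [mul_nonneg hK' hs]

end

end Crest.Agent.R164.Cv
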