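import Crest.Agent.R164.CvE

/-!
Row 164 (helper491), part F: the dual function.
-/

set_option autoImplicit false

namespace Crest.Agent.R164.Cv

open MeasureTheory Set Filter Topology ProbabilityTheory
open Crest.ProbabilityR.InvariantGlass

noncomputable section

/-- Legendre dual on `[-1,1]` -/
def U (f : ℝ → ℝ) (y : ℝ) : ℝ := ⨆ x : ℝ, (x * y - f x)

/-- the point with slope `y` -/
def X (f : ℝ → ℝ) (y : ℝ) : ℝ :=
  haveI := Classical.dec (∃ x, deriv f x = y)
  if h : ∃ x, deriv f x = y then h.choose else 0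

section dual

variable {C c : ℝ} {f : ℝ → ℝ}

theorem aux_le (hf : Cls C f) (ha : Asy f c) {y : ℝ} (hy : |y| ≤ 1) (x : ℝ) :
    x * y - f x ≤ -c := by
  have h := ha.lower hf x
  have h2 : x * y ≤ |x| * |y| := by rw [← abs_mul]; exact le_abs_self _
  have h3 : |x| * |y| ≤ |x| := by nlinarith [abs_nonneg x]
  linarith

theorem bddAbove_U (hf : Cls C f) (ha : Asy f c) {y : ℝ} (hy : |y| ≤ 1) :
    BddAbove (range fun x : ℝ => x * y - f x) := ⟨-c, by
  rintro _ ⟨x, rfl⟩
  exact aux_le hf ha hy x⟩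

theorem U_le (hf : Cls C f) (ha : Asy f c) {y : ℝ} (hy : |y| ≤ 1) : U f y ≤ -c :=
  ciSup_le (aux_le hf ha hy)

theorem le_U (hf : Cls C f) (ha : Asy f c) {y : ℝ} (hy : |y| ≤ 1) (x : ℝ) :
    x * y - f x ≤ U f y := le_ciSup (bddAbove_U hf ha hy) x

theorem U_neg (hf : Cls C f) (y : ℝ) : U f (-y) = U f y := by
  unfold U
  rw [← (Equiv.neg ℝ).iSup_comp]
  refine iSup_congr fun x => ?_
  show -x * -y - f (-x) = _
  rw [hf.even]
  ring

theorem U_one (hf : Cls C f) (ha : Asy f c) : U f 1 = -c := by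
  refine le_antisymm (U_le hf ha (by simp)) ?_
  have h : Tendsto (fun x => -(f x - x)) atTop (𝓝 (-c)) := ha.neg
  refine le_of_tendsto h (Eventually.of_forall fun x => ?_)
  have := le_U hf ha (y := 1) (by simp) x
  linarith

theorem U_neg_one (hf : Cls C f) (ha : Asy f c) : U f (-1) = -c := by
  rw [U_neg hf, U_one hf ha]

theorem exists_X (hf : Cls C f) (ha : Asy f c) {y : ℝ} (hy : |y| < 1) : ∃ x, deriv f x = y := by
  have hcoer : Tendsto (fun x => f x - x * y) (cocompact ℝ) atTop := by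
    have h1 : Tendsto (fun x : ℝ => (1 - |y|) * |x| + c) (cocompact ℝ) atTop := by
      refine tendsto_atTop_add_const_right _ _ ?_
      exact (tendsto_norm_cocompact_atTop (E := ℝ)).const_mul_atTop (by linarith)
    refine tendsto_atTop_mono (fun x => ?_) h1
    have h := ha.lower hf x
    have h2 : x * y ≤ |x| * |y| := by rw [← abs_mul]; exact le_abs_self _
    nlinarith
  have hcont : Continuous (fun x => f x - x * y) := by
    have := hf.lip.cont
    fun_prop
  obtain ⟨x, hx⟩ := hcont.exists_forall_le hcoer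
  refine ⟨x, ?_⟩
  have hd : HasDerivAt (fun x => f x - x * y) (deriv f x - 1 * y) x :=
    (hf.h1 x).fun_sub ((hasDerivAt_id x).mul_const y)
  have := IsLocalMin.hasDerivAt_eq_zero (f := fun x => f x - x * y)
    (Eventually.of_forall hx) hd
  linarith

theorem deriv_X (hf : Cls C f) (ha : Asy f c) {y : ℝ} (hy : |y| < 1) : deriv f (X f y) = y := by
  have h := exists_X hf ha hy
  unfold X
  rw [dif_pos h]
  exact h.choose_spec

theorem X_deriv (hf : Cls C f) (ha : Asy f c) (x : ℝ) : X f (deriv f x) = x :=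
  hf.strictMono.injective (deriv_X hf ha (hf.b1' x))

theorem U_eq (hf : Cls C f) (ha : Asy f c) {y : ℝ} (hy : |y| < 1) :
    U f y = X f y * y - f (X f y) := by
  refine le_antisymm (ciSup_le fun x => ?_) (le_U hf ha hy.le _)
  have h := hf.tangent (X f y) (x - X f y)
  rw [deriv_X hf ha hy, add_sub_cancel] at h
  linarith

theorem X_cont (hf : Cls C f) (ha : Asy f c) {y : ℝ} (hy : |y| < 1) : ContinuousAt (X f) y := by
  rw [Metric.continuousAt_iff]
  intro ε hε
  have hX := deriv_X hf ha hy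
  have h1 : deriv f (X f y - ε) < y := by
    rw [← hX]; conv_lhs => rw [hX]
    exact hf.strictMono (by linarith)
  have h2 : y < deriv f (X f y + ε) := by
    conv_lhs => rw [← hX]
    exact hf.strictMono (by linarith)
  refine ⟨min (y - deriv f (X f y - ε)) (deriv f (X f y + ε) - y), by
    exact lt_min (by linarith) (by linarith), fun {y'} hy' => ?_⟩
  rw [Real.dist_eq, lt_min_iff] at hy'
  have h3 := abs_lt.1 hy'.1
  have h4 := abs_lt.1 hy'.2
  have b1 := abs_lt.1 (hf.b1' (X f y - ε))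
  have b2 := abs_lt.1 (hf.b1' (X f y + ε))
  have hy'' : |y'| < 1 := by rw [abs_lt]; constructor <;> linarith [b1.1, b2.2, h3.1, h4.2]
  have hX' := deriv_X hf ha hy''
  rw [Real.dist_eq, abs_lt]
  constructor
  · have : X f y - ε < X f y' := by
      rw [← hf.strictMono.lt_iff_lt, hX']; linarith [h3.1]
    linarith
  · have : X f y' < X f y + ε := by
      rw [← hf.strictMono.lt_iff_lt, hX']; linarith [h4.2]
    linarith

theorem eventually_abs_lt {y : ℝ} (hy : |y| < 1) : ∀ᶠ z in 𝓝 y, |z| < 1 :=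
  (isOpen_lt continuous_abs continuous_const).mem_nhds hy

theorem hasDerivAt_X (hf : Cls C f) (ha : Asy f c) {y : ℝ} (hy : |y| < 1) :
    HasDerivAt (X f) (deriv (deriv f) (X f y))⁻¹ y :=
  HasDerivAt.of_local_left_inverse (X_cont hf ha hy) (hf.h2 _) (hf.pos _).ne'
    ((eventually_abs_lt hy).mono fun _ hz => deriv_X hf ha hz)

theorem hasDerivAt_U (hf : Cls C f) (ha : Asy f c) {y : ℝ} (hy : |y| < 1) :
    HasDerivAt (U f) (X f y) y := by
  have h1 := hasDerivAt_X hf ha hy
  have h2 : HasDerivAt (fun z => X f z * z - f (X f z))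
      ((deriv (deriv f) (X f y))⁻¹ * y + X f y * 1 -
        deriv f (X f y) * (deriv (deriv f) (X f y))⁻¹) y :=
    (h1.fun_mul (hasDerivAt_id y)).fun_sub ((hf.h1 (X f y)).comp y h1)
  rw [deriv_X hf ha hy] at h2
  have h3 := h2.congr_of_eventuallyEq (f₁ := U f)
    ((eventually_abs_lt hy).mono fun z hz => U_eq hf ha hz)
  exact h3.congr_deriv (by ring)

theorem U_le_of_le {C' c' : ℝ} {f' : ℝ → ℝ} (_hf : Cls C f) (_ha : Asy f c) (hf' : Cls C' f')
    (ha' : Asy f' c') {y ε : ℝ} (hy : |y| ≤ 1) (h : ∀ x, |f x - f' x| ≤ ε) :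
    U f y ≤ U f' y + ε := by
  refine ciSup_le fun x => ?_
  have h1 := le_U hf' ha' hy x
  have h2 := (abs_le.1 (h x)).1
  linarith

theorem U_dist {C' c' : ℝ} {f' : ℝ → ℝ} (hf : Cls C f) (ha : Asy f c) (hf' : Cls C' f')
    (ha' : Asy f' c') {y ε : ℝ} (hy : |y| ≤ 1) (h : ∀ x, |f x - f' x| ≤ ε) :
    |U f y - U f' y| ≤ ε := by
  have h1 := U_le_of_le hf ha hf' ha' hy h
  have h2 := U_le_of_le hf' ha' hf ha hy (fun x => by rw [abs_sub_comm]; exact h x)
  rw [abs_le]; constructor <;> linarith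

theorem U_continuousOn (hf : Cls C f) (ha : Asy f c) : ContinuousOn (U f) (Icc (-1) 1) := by
  -- lower semicontinuity at the end point
  have hend : ∀ ε, 0 < ε → ∃ δ, 0 < δ ∧ ∀ z, |z| ≤ 1 → 1 - δ < z → -c - ε < U f z := by
    intro ε hε
    obtain ⟨x, hx⟩ := ((ha.eventually (gt_mem_nhds (show c < c + ε / 2 by linarith))).and
      (eventually_gt_atTop 0)).exists
    refine ⟨ε / (2 * x), by have := hx.2; positivity, fun z hz h => ?_⟩
    have h1 := le_U hf ha hz x
    have h2 : x * (1 - z) < ε / 2 := by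
      have h3 : 1 - z < ε / (2 * x) := by linarith
      calc x * (1 - z) < x * (ε / (2 * x)) := mul_lt_mul_of_pos_left h3 hx.2
        _ = ε / 2 := by have := hx.2.ne'; field_simp
    have h4 := hx.1
    nlinarith
  intro y hy
  rcases hy.1.eq_or_lt with h | h
  · rw [Metric.continuousWithinAt_iff]
    intro ε hε
    obtain ⟨δ, hδ, hh⟩ := hend ε hε
    refine ⟨δ, hδ, fun {z} hz hd => ?_⟩
    rw [← h, Real.dist_eq] at hd
    rw [← h, U_neg_one hf ha, Real.dist_eq]
    have hz1 : |z| ≤ 1 := abs_le.2 ⟨hz.1, hz.2⟩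
    have a1 := hh (-z) (by rwa [abs_neg]) (by linarith [(abs_lt.1 hd).2])
    rw [U_neg hf] at a1
    have a2 := U_le hf ha hz1
    rw [abs_lt]; constructor <;> linarith
  · rcases hy.2.eq_or_lt with h' | h'
    · rw [Metric.continuousWithinAt_iff]
      intro ε hε
      obtain ⟨δ, hδ, hh⟩ := hend ε hε
      refine ⟨δ, hδ, fun {z} hz hd => ?_⟩
      rw [h', Real.dist_eq] at hd
      rw [h', U_one hf ha, Real.dist_eq]
      have hz1 : |z| ≤ 1 := abs_le.2 ⟨hz.1, hz.2⟩
      have a1 := hh z hz1 (by linarith [(abs_lt.1 hd).1])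
      have a2 := U_le hf ha hz1
      rw [abs_lt]; constructor <;> linarith
    · exact (hasDerivAt_U hf ha (abs_lt.2 ⟨h, h'⟩)).continuousAt.continuousWithinAt

end dual

end

end Crest.Agent.R164.Cv
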