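import Crest.Agent.R164.CvF

/-!
Row 164 (helper491), part G: the maximum principle: the dual function is convex in the variances.
-/

set_option autoImplicit false

namespace Crest.Agent.R164.Cv

open MeasureTheory Set Filter Topology ProbabilityTheory
open Crest.ProbabilityR.InvariantGlass

noncomputable section

/-- second order condition at a local maximum in `y` -/
theorem soc {Ca C0 C1 ca c0 c1 : ℝ} {fa f0 f1 : ℝ → ℝ} (ha : Cls Ca fa) (ha' : Asy fa ca)
    (h0 : Cls C0 f0) (h0' : Asy f0 c0) (h1 : Cls C1 f1) (h1' : Asy f1 c1) {l0 l1 y : ℝ}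
    (hy : |y| < 1)
    (hmax : ∀ z, |z| < 1 → U fa z - l0 * U f0 z - l1 * U f1 z ≤
      U fa y - l0 * U f0 y - l1 * U f1 y) :
    (deriv (deriv fa) (X fa y))⁻¹ ≤ l0 * (deriv (deriv f0) (X f0 y))⁻¹ +
      l1 * (deriv (deriv f1) (X f1 y))⁻¹ := by
  by_contra hcon
  push Not at hcon
  set D := fun z => U fa z - l0 * U f0 z - l1 * U f1 z with hD
  set D1 := fun z => X fa z - l0 * X f0 z - l1 * X f1 z with hD1
  have hd : ∀ z, |z| < 1 → HasDerivAt D (D1 z) z := fun z hz =>
    ((hasDerivAt_U ha ha' hz).fun_sub ((hasDerivAt_U h0 h0' hz).const_mul l0)).fun_sub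
      ((hasDerivAt_U h1 h1' hz).const_mul l1)
  have hd1 : HasDerivAt D1 ((deriv (deriv fa) (X fa y))⁻¹ - l0 * (deriv (deriv f0) (X f0 y))⁻¹ -
      l1 * (deriv (deriv f1) (X f1 y))⁻¹) y :=
    ((hasDerivAt_X ha ha' hy).fun_sub ((hasDerivAt_X h0 h0' hy).const_mul l0)).fun_sub
      ((hasDerivAt_X h1 h1' hy).const_mul l1)
  have hmax' : IsLocalMax D y := (eventually_abs_lt hy).mono fun z hz => hmax z hz
  have hz0 : D1 y = 0 := hmax'.hasDerivAt_eq_zero (hd y hy)
  have hpos : 0 < (deriv (deriv fa) (X fa y))⁻¹ - l0 * (deriv (deriv f0) (X f0 y))⁻¹ -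
      l1 * (deriv (deriv f1) (X f1 y))⁻¹ := by linarith
  -- `D1 > 0` to the right of `y`
  have hslope := hd1.tendsto_slope
  have hev : ∀ᶠ z in 𝓝[≠] y, 0 < slope D1 y z := hslope.eventually (lt_mem_nhds hpos)
  rw [eventually_nhdsWithin_iff] at hev
  have hev2 := hev.and (eventually_abs_lt hy)
  rw [Metric.eventually_nhds_iff] at hev2
  obtain ⟨ε, hε, hh⟩ := hev2
  set z := y + ε / 2 with hz
  have hyz : y < z := by rw [hz]; linarith
  have hin : ∀ t ∈ Icc y z, |t| < 1 := fun t ht => (hh (by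
    rw [Real.dist_eq, abs_of_nonneg (by linarith [ht.1])]
    rw [hz] at ht
    linarith [ht.2])).2
  obtain ⟨t, ht, hte⟩ := exists_hasDerivAt_eq_slope D D1 hyz
    (fun t ht => (hd t (hin t ht)).continuousAt.continuousWithinAt)
    (fun t ht => hd t (hin t (Ioo_subset_Icc_self ht)))
  have h3 := (hh (y := t) (by
    rw [Real.dist_eq, abs_of_nonneg (by linarith [ht.1])]
    have := ht.2
    rw [hz] at this
    linarith)).1 (ne_of_gt ht.1)
  rw [slope_def_field, hz0, sub_zero] at h3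
  have h4 : 0 < D1 t := by
    have h5 : 0 < t - y := by linarith [ht.1]
    have := mul_pos h3 h5
    rwa [div_mul_cancel₀ _ h5.ne'] at this
  rw [hte] at h4
  have h5 : 0 < z - y := by linarith
  have h6 := mul_pos h4 h5
  rw [div_mul_cancel₀ _ h5.ne'] at h6
  have h7 := hmax z (hin z ⟨hyz.le, le_rfl⟩)
  have h8 : D z ≤ D y := h7
  linarith

variable {k : ℕ} {ζ : Fin k → ℝ}

/-- the constant in the asymptotics -/
def cc (ζ v : Fin k → ℝ) : ℝ := -Real.log 2 + (∑ i, ζ i * v i) / 2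

theorem update_nonneg {v : Fin k → ℝ} (hv : ∀ i, 0 ≤ v i) {i : Fin k} {a : ℝ} (ha : 0 ≤ a) :
    ∀ j, 0 ≤ Function.update v i a j := fun j => by
  by_cases h : j = i
  · subst h; rwa [Function.update_self]
  · rw [Function.update_of_ne h]; exact hv j

theorem sum_abs_update (v : Fin k → ℝ) (i : Fin k) (a : ℝ) :
    ∑ j, |v j - Function.update v i a j| = |v i - a| := by
  rw [Finset.sum_eq_single i]
  · rw [Function.update_self]
  · intro j _ hj
    rw [Function.update_of_ne hj, sub_self, abs_zero]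
  · intro h; exact absurd (Finset.mem_univ i) h

theorem foc_alg {μ η δ A B s K K' Ua UF UG Ue pa Fa Φa pG GG Φe : ℝ} (hμ : 0 ≤ μ)
    (m1 : UF - μ * UG + δ * (μ * η) ≤ Ua - μ * Ue) (m2 : pa - Fa ≤ UF) (m3 : Ua = pa - Φa)
    (m4 : UG = pG - GG) (m5 : pG - Φe ≤ Ue)
    (m6 : Fa + μ * η / 2 * A ≤ Φa + (μ * η) * (K * s))
    (m7 : Φe ≤ GG + η / 2 * B + η * (K' * s)) :
    (μ * η) * (2 * δ + A) ≤ (μ * η) * (B + 2 * ((K + K') * s)) := by
  have q2 : UG - Ue ≤ Φe - GG := by linarith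
  have q3 : μ * (UG - Ue) ≤ μ * (Φe - GG) := mul_le_mul_of_nonneg_left q2 hμ
  have q4 : μ * (Φe - GG) ≤ μ * (η / 2 * B + η * (K' * s)) :=
    mul_le_mul_of_nonneg_left (by linarith) hμ
  linarith

/-- first order condition -/
theorem foc (h : Adm ζ) {μ : ℝ} (hμ : 0 < μ) (hμ1 : μ ≤ 1) {va ve : Fin k → ℝ}
    (hva : ∀ i, 0 ≤ va i) (hve : ∀ i, 0 ≤ ve i) {i : Fin k} (hi : 0 < ve i)
    (hz : ∀ j, j < i → ve j = 0) (hai : μ * ve i ≤ va i) {y δ : ℝ} (hy : |y| < 1)
    (hmax : ∀ η, 0 ≤ η → η ≤ ve i →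
      U (Phi k ζ (Function.update va i (va i - μ * η))) y -
        μ * U (Phi k ζ (Function.update ve i (ve i - η))) y + δ * (μ * η) ≤
      U (Phi k ζ va) y - μ * U (Phi k ζ ve) y) :
    deriv (deriv (Phi k ζ va)) (X (Phi k ζ va) y) + 2 * δ ≤
      deriv (deriv (Phi k ζ ve)) (X (Phi k ζ ve) y) := by
  have hCdef : ∃ C : ℝ, C = 2 + 8 * k := ⟨_, rfl⟩
  obtain ⟨C, hCe⟩ := hCdef
  have hC : 0 ≤ C := by rw [hCe]; positivity
  have cls : ∀ v : Fin k → ℝ, Cls C (Phi k ζ v) := fun v => by rw [hCe]; exact cls_Phi k ζ v h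
  have asy : ∀ v : Fin k → ℝ, (∀ i, 0 ≤ v i) → Asy (Phi k ζ v) (cc ζ v) := fun v hv =>
    asy_Phi k ζ v h hv
  obtain ⟨K, hK, hlow⟩ := Phi_lower k ζ h
  obtain ⟨K', hK', hupp⟩ := Phi_upper k ζ h
  obtain ⟨L, hL, hmod⟩ := Phi_modulus k ζ h
  set xa := X (Phi k ζ va) y with hxa
  set xe := X (Phi k ζ ve) y with hxe
  refine le_of_forall_pos_le_add fun τ hτ => ?_
  -- continuity of the inverse slope at `y`
  set ρ2 := τ / (8 * (C + 1)) with hρ2
  have hρ2p : 0 < ρ2 := by positivity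
  obtain ⟨ρ', hρ', hcX⟩ := Metric.continuousAt_iff.1 (X_cont (cls ve) (asy ve hve) hy) ρ2 hρ2p
  set ρ := min (τ / 16) (ρ' / 2) with hρ
  have hρp : 0 < ρ := by rw [hρ]; exact lt_min (by positivity) (by positivity)
  have hρτ : ρ ≤ τ / 16 := min_le_left _ _
  have hρρ : ρ ≤ ρ' / 2 := min_le_right _ _
  obtain ⟨ε, hε, hint⟩ := interp C hC hρp
  -- the step
  set s := τ / (8 * (K + K' + 1)) with hs
  have hsp : 0 < s := by positivity
  obtain ⟨η, hη0, hη1, hηv, hηL, hηs⟩ : ∃ η, 0 < η ∧ η ≤ 1 ∧ η ≤ ve i ∧ (L + 1) * η ≤ ε ∧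
      Real.sqrt η ≤ s := by
    refine ⟨min (min 1 (ve i)) (min (ε / (L + 1)) (s ^ 2)), ?_, ?_, ?_, ?_, ?_⟩
    · exact lt_min (lt_min one_pos hi) (lt_min (by positivity) (by positivity))
    · exact (min_le_left _ _).trans (min_le_left _ _)
    · exact (min_le_left _ _).trans (min_le_right _ _)
    · have h1 : min (min 1 (ve i)) (min (ε / (L + 1)) (s ^ 2)) ≤ ε / (L + 1) :=
        (min_le_right _ _).trans (min_le_left _ _)
      rw [le_div_iff₀ (by linarith)] at h1
      linarith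
    · rw [Real.sqrt_le_left hsp.le]
      exact (min_le_right _ _).trans (min_le_right _ _)
  have hμη : μ * η ≤ η := by nlinarith
  have hμη0 : 0 < μ * η := by positivity
  have hμηa : μ * η ≤ va i := (mul_le_mul_of_nonneg_left hηv hμ.le).trans hai
  set F := Phi k ζ (Function.update va i (va i - μ * η)) with hF
  set G := Phi k ζ (Function.update ve i (ve i - η)) with hG
  have nF : ∀ j, 0 ≤ Function.update va i (va i - μ * η) j :=
    update_nonneg hva (by linarith)
  have nG : ∀ j, 0 ≤ Function.update ve i (ve i - η) j := update_nonneg hve (by linarith)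
  have cF := cls (Function.update va i (va i - μ * η))
  have cG := cls (Function.update ve i (ve i - η))
  have aF := asy _ nF
  have aG := asy _ nG
  rw [← hF] at cF aF
  rw [← hG] at cG aG
  -- closeness
  have dF : ∀ x, |F x - Phi k ζ va x| ≤ ε := fun x => by
    have h1 := hmod va (Function.update va i (va i - μ * η)) hva nF (fun j => by
      have := Finset.single_le_sum (f := fun j => |va j - Function.update va i (va i - μ * η) j|)
        (fun j _ => abs_nonneg _) (Finset.mem_univ j)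
      rw [sum_abs_update, sub_sub_cancel, abs_of_pos hμη0] at this
      exact this.trans (by linarith)) x
    rw [sum_abs_update, sub_sub_cancel, abs_of_pos hμη0, abs_sub_comm] at h1
    refine h1.trans ?_
    have : L * (μ * η) ≤ L * η := mul_le_mul_of_nonneg_left hμη hL
    nlinarith
  have dG : ∀ x, |G x - Phi k ζ ve x| ≤ ε := fun x => by
    have h1 := hmod ve (Function.update ve i (ve i - η)) hve nG (fun j => by
      have := Finset.single_le_sum (f := fun j => |ve j - Function.update ve i (ve i - η) j|)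
        (fun j _ => abs_nonneg _) (Finset.mem_univ j)
      rw [sum_abs_update, sub_sub_cancel, abs_of_pos hη0] at this
      exact this.trans (by linarith)) x
    rw [sum_abs_update, sub_sub_cancel, abs_of_pos hη0, abs_sub_comm] at h1
    refine h1.trans ?_
    nlinarith
  set xG := X G y with hxG
  have sxa : deriv (Phi k ζ va) xa = y := deriv_X (cls va) (asy va hva) hy
  have sxG : deriv G xG = y := deriv_X cG aG hy
  have i1 := hint F _ cF (cls va) dF xa
  have i2 := hint G _ cG (cls ve) dG xG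
  rw [sxa] at i1
  rw [sxG] at i2
  -- `xG` close to `xe`
  have hxx : |xG - xe| < ρ2 := by
    have h1 : dist (deriv (Phi k ζ ve) xG) y < ρ' := by
      rw [Real.dist_eq, abs_sub_comm]
      exact lt_of_le_of_lt i2.1 (by linarith)
    have h2 := hcX h1
    rw [X_deriv (cls ve) (asy ve hve), Real.dist_eq] at h2
    exact h2
  have hcc : |deriv (deriv (Phi k ζ ve)) xG - deriv (deriv (Phi k ζ ve)) xe| ≤ τ / 8 := by
    have h1 := (cls ve).t2 xe (xG - xe)
    rw [add_sub_cancel] at h1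
    refine h1.trans ?_
    have h2 : C * |xG - xe| ≤ (C + 1) * ρ2 := by
      have := abs_nonneg (xG - xe)
      nlinarith
    refine h2.trans (le_of_eq ?_)
    rw [hρ2]; field_simp
  -- the main inequality
  have m1 := hmax η hη0.le hηv
  rw [← hF, ← hG] at m1
  have m2 := le_U cF aF hy.le xa
  have m3 := U_eq (cls va) (asy va hva) hy
  rw [← hxa] at m3
  have m4 := U_eq cG aG hy
  rw [← hxG] at m4
  have m5 := le_U (cls ve) (asy ve hve) hy.le xG
  have m6 := hlow va i (μ * η) hμη0.le (hμη.trans hη1) hμηa xa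
  rw [← hF] at m6
  have m7 := hupp ve i hz η hη0.le hη1 hηv xG
  rw [← hG, sxG] at m7
  have hsq1 : Real.sqrt (μ * η) ≤ s := (Real.sqrt_le_sqrt hμη).trans hηs
  have m8 : K * (μ * η * Real.sqrt (μ * η)) ≤ (μ * η) * (K * s) := by
    have := mul_le_mul_of_nonneg_left hsq1 (mul_nonneg hK hμη0.le)
    linarith
  have m9 : K' * (η * Real.sqrt η) ≤ η * (K' * s) := by
    have := mul_le_mul_of_nonneg_left hηs (mul_nonneg hK' hη0.le)
    linarith
  have hKs : 2 * ((K + K') * s) ≤ τ / 4 := by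
    have q1 : (K + K' + 1) * s = τ / 8 := by rw [hs]; field_simp
    have q2 : (K + K') * s ≤ (K + K' + 1) * s :=
      mul_le_mul_of_nonneg_right (by linarith) hsp.le
    linarith
  set A := deriv (deriv F) xa + ζ i * deriv F xa ^ 2 with hA
  set B := deriv (deriv G) xG + ζ i * y ^ 2 with hB
  have m10 : (μ * η) * (2 * δ + A) ≤ (μ * η) * (B + 2 * ((K + K') * s)) :=
    foc_alg hμ.le m1 m2 m3 m4 m5 (m6.trans (add_le_add_right m8 _))
      (m7.trans (add_le_add_right m9 _))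
  have m11 := le_of_mul_le_mul_left m10 hμη0
  have hz0 := h.nonneg i
  have hz1 := h.le_one i
  have j1 := abs_le.1 i1.1
  have j2 := abs_le.1 i1.2
  have j4 := abs_le.1 i2.2
  have j5 := abs_le.1 hcc
  have hy1 := abs_lt.1 hy
  have hF1 := abs_lt.1 (cF.b1' xa)
  have m12 : y ^ 2 - 2 * ρ ≤ deriv F xa ^ 2 := by
    have : |(deriv F xa - y) * (deriv F xa + y)| ≤ ρ * 2 := by
      rw [abs_mul]
      refine mul_le_mul i1.1 ?_ (abs_nonneg _) hρp.le
      rw [abs_le]; constructor <;> linarith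
    have := (abs_le.1 this).1
    have e : (deriv F xa - y) * (deriv F xa + y) = deriv F xa ^ 2 - y ^ 2 := by ring
    rw [e] at this
    linarith
  have m13 : ζ i * y ^ 2 - 2 * ρ ≤ ζ i * deriv F xa ^ 2 := by
    have q1 := mul_le_mul_of_nonneg_left m12 hz0
    have q2 := mul_le_mul_of_nonneg_right hz1 (by linarith : (0 : ℝ) ≤ 2 * ρ)
    linarith
  linarith [j2.1, j2.2, j4.1, j4.2, j5.1, j5.2]

/-- second derivative at the point of slope `y` is at most `1 - y²` -/
theorem d2_le {C c : ℝ} {f : ℝ → ℝ} (hf : Cls C f) (ha : Asy f c) {y : ℝ} (hy : |y| < 1) :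
    deriv (deriv f) (X f y) ≤ 1 - y ^ 2 := by
  have := hf.gen (X f y)
  rw [deriv_X hf ha hy] at this
  linarith

theorem d2_lc {y : ℝ} (hy : |y| < 1) : deriv (deriv lc) (X lc y) = 1 - y ^ 2 := by
  have h := deriv_X cls_lc asy_lc hy
  rw [deriv_lc] at h
  rw [deriv_lc, deriv_th]
  show 1 - th (X lc y) ^ 2 = _
  rw [h]

theorem U_jointCont (h : Adm ζ) : ContinuousOn
    (fun p : (Fin k → ℝ) × ℝ => U (Phi k ζ p.1) p.2) ({v | ∀ i, 0 ≤ v i} ×ˢ Icc (-1) 1) := by
  obtain ⟨L, hL, hmod⟩ := Phi_modulus k ζ h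
  rintro ⟨v0, y0⟩ ⟨hv0, hy0⟩
  simp only [mem_ofPred_eq] at hv0
  rw [Metric.continuousWithinAt_iff]
  intro ε hε
  obtain ⟨δ, hδ, hc⟩ := Metric.continuousWithinAt_iff.1
    (U_continuousOn (cls_Phi k ζ v0 h) (asy_Phi k ζ v0 h hv0) y0 hy0) (ε / 2) (by linarith)
  refine ⟨min δ (min 1 (ε / (2 * (L + 1) * (k + 1)))), ?_, ?_⟩
  · have : 0 < ε / (2 * (L + 1) * (k + 1)) := by positivity
    exact lt_min hδ (lt_min one_pos this)
  rintro ⟨v, y⟩ ⟨hv, hy⟩ hd
  simp only [mem_ofPred_eq] at hv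
  rw [Prod.dist_eq, max_lt_iff] at hd
  obtain ⟨hd1, hd2⟩ := hd
  have hy' : |y| ≤ 1 := abs_le.2 ⟨hy.1, hy.2⟩
  have e1 := hc hy (lt_of_lt_of_le hd2 (min_le_left _ _))
  have e2 : ∀ i, |v i - v0 i| ≤ min 1 (ε / (2 * (L + 1) * (k + 1))) := fun i => by
    have h1 := dist_le_pi_dist v v0 i
    rw [Real.dist_eq] at h1
    exact (h1.trans hd1.le).trans (min_le_right _ _)
  have e3 : ∑ i, |v i - v0 i| ≤ (k : ℝ) * (ε / (2 * (L + 1) * (k + 1))) := by
    have := Finset.sum_le_sum (s := Finset.univ) fun i _ => (e2 i).trans (min_le_right _ _)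
    rw [Finset.sum_const, Finset.card_univ, Fintype.card_fin, nsmul_eq_mul] at this
    exact this
  have e4 : L * ∑ i, |v i - v0 i| < ε / 2 := by
    have h1 : L * ∑ i, |v i - v0 i| ≤ L * ((k : ℝ) * (ε / (2 * (L + 1) * (k + 1)))) :=
      mul_le_mul_of_nonneg_left e3 hL
    refine lt_of_le_of_lt h1 ?_
    have h2 : L * ((k : ℝ) * (ε / (2 * (L + 1) * (k + 1)))) =
        (ε / 2) * ((L * k) / ((L + 1) * (k + 1))) := by
      field_simp
    rw [h2]
    have h3 : (L * k) / ((L + 1) * (k + 1)) < 1 := by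
      rw [div_lt_one (by positivity)]
      have : (0 : ℝ) ≤ k := Nat.cast_nonneg k
      nlinarith
    nlinarith
  have e5 := U_dist (cls_Phi k ζ v h) (asy_Phi k ζ v h hv) (cls_Phi k ζ v0 h)
    (asy_Phi k ζ v0 h hv0) hy' (fun x => hmod v v0 hv hv0 (fun i => (e2 i).trans (min_le_left _ _)) x)
  rw [Real.dist_eq] at e1 ⊢
  have e6 := abs_sub_le (U (Phi k ζ v) y) (U (Phi k ζ v0) y) (U (Phi k ζ v0) y0)
  show |U (Phi k ζ v) y - U (Phi k ζ v0) y0| < ε
  linarith

end

end Crest.Agent.R164.Cv
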