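import Crest.Agent.R164.CvG

/-!
Row 164 (helper491), part H: the dual function is convex in the variances (maximum principle).
-/

set_option autoImplicit false

namespace Crest.Agent.R164.Cv

open MeasureTheory Set Filter Topology ProbabilityTheory
open Crest.ProbabilityR.InvariantGlass

noncomputable section

variable {k : ℕ} {ζ : Fin k → ℝ}

/-- the mixture -/
def mix (l : ℝ) (v0 v1 : Fin k → ℝ) : Fin k → ℝ := fun i => (1 - l) * v0 i + l * v1 i

theorem mix_nonneg {l : ℝ} (h0 : 0 ≤ l) (h1 : l ≤ 1) {v0 v1 : Fin k → ℝ} (hv0 : ∀ i, 0 ≤ v0 i)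
    (hv1 : ∀ i, 0 ≤ v1 i) (i : Fin k) : 0 ≤ mix l v0 v1 i :=
  add_nonneg (mul_nonneg (by linarith) (hv0 i)) (mul_nonneg h0 (hv1 i))

theorem mix_update0 (l : ℝ) (v0 v1 : Fin k → ℝ) (i : Fin k) (η : ℝ) :
    mix l (Function.update v0 i (v0 i - η)) v1 =
      Function.update (mix l v0 v1) i (mix l v0 v1 i - (1 - l) * η) := by
  funext j
  by_cases h : j = i
  · subst h; simp only [mix, Function.update_self]; ring
  · simp only [mix, Function.update_of_ne h]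

theorem mix_update1 (l : ℝ) (v0 v1 : Fin k → ℝ) (i : Fin k) (η : ℝ) :
    mix l v0 (Function.update v1 i (v1 i - η)) =
      Function.update (mix l v0 v1) i (mix l v0 v1 i - l * η) := by
  funext j
  by_cases h : j = i
  · subst h; simp only [mix, Function.update_self]; ring
  · simp only [mix, Function.update_of_ne h]

theorem sum_update (v : Fin k → ℝ) (i : Fin k) (a : ℝ) :
    ∑ j, Function.update v i (v i - a) j = ∑ j, v j - a := by
  rw [Finset.sum_update_of_mem (Finset.mem_univ i), Finset.sdiff_singleton_eq_erase,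
    ← Finset.add_sum_erase _ _ (Finset.mem_univ i)]
  ring

/-- the penalised defect -/
def Df (ζ : Fin k → ℝ) (l δ : ℝ) (v0 v1 : Fin k → ℝ) (y : ℝ) : ℝ :=
  U (Phi k ζ (mix l v0 v1)) y - (1 - l) * U (Phi k ζ v0) y - l * U (Phi k ζ v1) y -
    δ * ∑ i, mix l v0 v1 i

theorem Df_cont (h : Adm ζ) {l : ℝ} (h0 : 0 ≤ l) (h1 : l ≤ 1) (δ : ℝ) : ContinuousOn
    (fun p : (Fin k → ℝ) × (Fin k → ℝ) × ℝ => Df ζ l δ p.1 p.2.1 p.2.2)
    ({v | ∀ i, 0 ≤ v i} ×ˢ {v | ∀ i, 0 ≤ v i} ×ˢ Icc (-1) 1) := by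
  have hj := U_jointCont (ζ := ζ) h
  have cm : Continuous fun p : (Fin k → ℝ) × (Fin k → ℝ) × ℝ => mix l p.1 p.2.1 := by
    unfold mix
    fun_prop
  have c1 : ContinuousOn (fun p : (Fin k → ℝ) × (Fin k → ℝ) × ℝ =>
      U (Phi k ζ (mix l p.1 p.2.1)) p.2.2)
      ({v | ∀ i, 0 ≤ v i} ×ˢ {v | ∀ i, 0 ≤ v i} ×ˢ Icc (-1) 1) :=
    hj.comp (f := fun p : (Fin k → ℝ) × (Fin k → ℝ) × ℝ => (mix l p.1 p.2.1, p.2.2))
      (by fun_prop) (fun p hp => ⟨mix_nonneg h0 h1 hp.1 hp.2.1, hp.2.2⟩)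
  have c2 : ContinuousOn (fun p : (Fin k → ℝ) × (Fin k → ℝ) × ℝ =>
      U (Phi k ζ p.1) p.2.2)
      ({v | ∀ i, 0 ≤ v i} ×ˢ {v | ∀ i, 0 ≤ v i} ×ˢ Icc (-1) 1) :=
    hj.comp (f := fun p : (Fin k → ℝ) × (Fin k → ℝ) × ℝ => (p.1, p.2.2))
      (by fun_prop) (fun p hp => ⟨hp.1, hp.2.2⟩)
  have c3 : ContinuousOn (fun p : (Fin k → ℝ) × (Fin k → ℝ) × ℝ =>
      U (Phi k ζ p.2.1) p.2.2)
      ({v | ∀ i, 0 ≤ v i} ×ˢ {v | ∀ i, 0 ≤ v i} ×ˢ Icc (-1) 1) :=
    hj.comp (f := fun p : (Fin k → ℝ) × (Fin k → ℝ) × ℝ => (p.2.1, p.2.2))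
      (by fun_prop) (fun p hp => ⟨hp.2.1, hp.2.2⟩)
  have c4 : Continuous fun p : (Fin k → ℝ) × (Fin k → ℝ) × ℝ => ∑ i, mix l p.1 p.2.1 i := by
    unfold mix
    fun_prop
  exact ((c1.sub (c2.const_mul _)).sub (c3.const_mul _)).sub (c4.continuousOn.const_mul _)

/-- one end point: the second derivative is at least that of the mixture, strictly more if the end
point is not zero -/
theorem endpoint (h : Adm ζ) {μ : ℝ} (hμ : 0 < μ) (hμ1 : μ ≤ 1) {va ve : Fin k → ℝ}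
    (hva : ∀ i, 0 ≤ va i) (hve : ∀ i, 0 ≤ ve i) (hai : ∀ i, μ * ve i ≤ va i) {y δ : ℝ}
    (hy : |y| < 1) (hδ : 0 < δ)
    (hmax : ∀ i, ∀ η, 0 ≤ η → η ≤ ve i →
      U (Phi k ζ (Function.update va i (va i - μ * η))) y -
        μ * U (Phi k ζ (Function.update ve i (ve i - η))) y + δ * (μ * η) ≤
      U (Phi k ζ va) y - μ * U (Phi k ζ ve) y) :
    deriv (deriv (Phi k ζ va)) (X (Phi k ζ va) y) ≤
      deriv (deriv (Phi k ζ ve)) (X (Phi k ζ ve) y) ∧
    (ve ≠ (fun _ => 0) → deriv (deriv (Phi k ζ va)) (X (Phi k ζ va) y) <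
      deriv (deriv (Phi k ζ ve)) (X (Phi k ζ ve) y)) := by
  by_cases hz : ve = fun _ => 0
  · refine ⟨?_, fun h => absurd hz h⟩
    rw [hz, Phi_v0, d2_lc hy]
    exact d2_le (cls_Phi k ζ va h) (asy_Phi k ζ va h hva) hy
  · have hne : ∃ i, 0 < ve i := by
      by_contra hcon
      push Not at hcon
      exact hz (funext fun i => le_antisymm (hcon i) (hve i))
    obtain ⟨i, hi, hmin⟩ := wellFounded_lt.has_min {i : Fin k | 0 < ve i} hne
    have hf := foc h hμ hμ1 hva hve hi (fun j hj => le_antisymm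
      (not_lt.1 fun hjp => hmin j hjp hj) (hve j)) (hai i) hy (δ := δ) (hmax i)
    refine ⟨by linarith, fun _ => by linarith⟩

theorem U_convex_aux (h : Adm ζ) {l : ℝ} (hl0 : 0 < l) (hl1 : l < 1) {w0 w1 : Fin k → ℝ}
    (hw0 : ∀ i, 0 ≤ w0 i) (hw1 : ∀ i, 0 ≤ w1 i) {y' : ℝ} (hy' : |y'| < 1) :
    U (Phi k ζ (mix l w0 w1)) y' ≤ (1 - l) * U (Phi k ζ w0) y' + l * U (Phi k ζ w1) y' := by
  by_contra hcon
  push Not at hcon
  have cls : ∀ v : Fin k → ℝ, Cls (2 + 8 * k) (Phi k ζ v) := fun v => cls_Phi k ζ v h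
  have asy : ∀ v : Fin k → ℝ, (∀ i, 0 ≤ v i) → Asy (Phi k ζ v) (cc ζ v) := fun v hv =>
    asy_Phi k ζ v h hv
  set D := U (Phi k ζ (mix l w0 w1)) y' - (1 - l) * U (Phi k ζ w0) y' -
    l * U (Phi k ζ w1) y' with hD
  have hDp : 0 < D := by rw [hD]; linarith
  set S := ∑ i, mix l w0 w1 i with hS
  have hSn : 0 ≤ S := Finset.sum_nonneg fun i _ => mix_nonneg hl0.le hl1.le hw0 hw1 i
  set δ := D / (2 * (S + 1)) with hδ
  have hδp : 0 < δ := by positivity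
  have hδS : δ * S < D := by
    have : δ * (S + 1) = D / 2 := by rw [hδ]; field_simp
    nlinarith
  set V := ∑ i, w0 i + ∑ i, w1 i with hV
  have hV0 : ∀ i, w0 i ≤ V := fun i => by
    have a1 := Finset.single_le_sum (f := w0) (fun j _ => hw0 j) (Finset.mem_univ i)
    have a2 : 0 ≤ ∑ i, w1 i := Finset.sum_nonneg fun i _ => hw1 i
    linarith
  have hV1 : ∀ i, w1 i ≤ V := fun i => by
    have a1 := Finset.single_le_sum (f := w1) (fun j _ => hw1 j) (Finset.mem_univ i)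
    have a2 : 0 ≤ ∑ i, w0 i := Finset.sum_nonneg fun i _ => hw0 i
    linarith
  set B : Set (Fin k → ℝ) := Icc (fun _ => 0) (fun _ => V) with hB
  have hcomp : IsCompact (B ×ˢ B ×ˢ Icc (-1 : ℝ) 1) :=
    isCompact_Icc.prod (isCompact_Icc.prod isCompact_Icc)
  have hcont : ContinuousOn (fun p : (Fin k → ℝ) × (Fin k → ℝ) × ℝ => Df ζ l δ p.1 p.2.1 p.2.2)
      (B ×ˢ B ×ˢ Icc (-1 : ℝ) 1) := (Df_cont h hl0.le hl1.le δ).mono
    (fun p hp => ⟨hp.1.1, hp.2.1.1, hp.2.2⟩)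
  have hmem : (w0, w1, y') ∈ B ×ˢ B ×ˢ Icc (-1 : ℝ) 1 :=
    ⟨⟨hw0, hV0⟩, ⟨hw1, hV1⟩, ⟨(abs_lt.1 hy').1.le, (abs_lt.1 hy').2.le⟩⟩
  obtain ⟨⟨v0, v1, y⟩, ⟨hv0, hv1, hy⟩, hmax⟩ := hcomp.exists_isMaxOn ⟨_, hmem⟩ hcont
  simp only at hv0 hv1 hy
  have hmax' : ∀ u0 u1 z, u0 ∈ B → u1 ∈ B → z ∈ Icc (-1 : ℝ) 1 →
      Df ζ l δ u0 u1 z ≤ Df ζ l δ v0 v1 y := fun u0 u1 z a b c =>
    hmax (a := (u0, u1, z)) ⟨a, b, c⟩
  have hpos : 0 < Df ζ l δ v0 v1 y := by
    refine lt_of_lt_of_le ?_ (hmax' w0 w1 y' hmem.1 hmem.2.1 hmem.2.2)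
    unfold Df
    rw [← hD, ← hS]
    linarith
  have nv0 : ∀ i, 0 ≤ v0 i := hv0.1
  have nv1 : ∀ i, 0 ≤ v1 i := hv1.1
  have nm := mix_nonneg hl0.le hl1.le nv0 nv1
  have nS : 0 ≤ δ * ∑ i, mix l v0 v1 i :=
    mul_nonneg hδp.le (Finset.sum_nonneg fun i _ => nm i)
  -- the boundary in `y`
  have hcc : cc ζ (mix l v0 v1) = (1 - l) * cc ζ v0 + l * cc ζ v1 := by
    unfold cc mix
    have : ∑ i, ζ i * ((1 - l) * v0 i + l * v1 i) =
        (1 - l) * ∑ i, ζ i * v0 i + l * ∑ i, ζ i * v1 i := by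
      rw [Finset.mul_sum, Finset.mul_sum, ← Finset.sum_add_distrib]
      exact Finset.sum_congr rfl fun i _ => by ring
    rw [this]; ring
  have hy1 : |y| < 1 := by
    rw [abs_lt]
    constructor
    · refine lt_of_le_of_ne hy.1 fun he => ?_
      rw [← he] at hpos
      unfold Df at hpos
      rw [U_neg_one (cls _) (asy _ nm), U_neg_one (cls _) (asy _ nv0),
        U_neg_one (cls _) (asy _ nv1), hcc] at hpos
      linarith
    · refine lt_of_le_of_ne hy.2 fun he => ?_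
      rw [he] at hpos
      unfold Df at hpos
      rw [U_one (cls _) (asy _ nm), U_one (cls _) (asy _ nv0),
        U_one (cls _) (asy _ nv1), hcc] at hpos
      linarith
  have updB : ∀ v : Fin k → ℝ, v ∈ B → ∀ i η, 0 ≤ η → η ≤ v i →
      Function.update v i (v i - η) ∈ B := by
    intro v hv i η h0 h1
    refine ⟨update_nonneg hv.1 (by linarith), fun j => ?_⟩
    by_cases hj : j = i
    · subst hj
      rw [Function.update_self]
      have := hv.2 j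
      simp only at this
      linarith
    · rw [Function.update_of_ne hj]; exact hv.2 j
  -- the two end points
  have e0 := endpoint h (μ := 1 - l) (by linarith) (by linarith) nm nv0
    (fun i => by unfold mix; nlinarith [nv1 i, nv0 i]) hy1 hδp (fun i η h0 h1 => by
      have hq := hmax' (Function.update v0 i (v0 i - η)) v1 y (updB v0 hv0 i η h0 h1) hv1 hy
      unfold Df at hq
      rw [mix_update0, sum_update] at hq
      linarith)
  have e1 := endpoint h (μ := l) (by linarith) (by linarith) nm nv1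
    (fun i => by unfold mix; nlinarith [nv1 i, nv0 i]) hy1 hδp (fun i η h0 h1 => by
      have hq := hmax' v0 (Function.update v1 i (v1 i - η)) y hv0 (updB v1 hv1 i η h0 h1) hy
      unfold Df at hq
      rw [mix_update1, sum_update] at hq
      linarith)
  have hs := soc (cls _) (asy _ nm) (cls _) (asy _ nv0) (cls _) (asy _ nv1) (l0 := 1 - l)
    (l1 := l) hy1 (fun z hz => by
      have hq := hmax' v0 v1 z hv0 hv1 ⟨(abs_lt.1 hz).1.le, (abs_lt.1 hz).2.le⟩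
      unfold Df at hq
      linarith)
  -- not both end points vanish
  have hne : v0 ≠ (fun _ => 0) ∨ v1 ≠ (fun _ => 0) := by
    by_contra hcon
    push Not at hcon
    obtain ⟨z0, z1⟩ := hcon
    have hm : mix l v0 v1 = fun _ => 0 := by
      rw [z0, z1]; funext i; simp [mix]
    unfold Df at hpos
    rw [hm, z0, z1, Phi_v0] at hpos
    simp only [Finset.sum_const_zero, mul_zero] at hpos
    linarith
  set A := deriv (deriv (Phi k ζ (mix l v0 v1))) (X (Phi k ζ (mix l v0 v1)) y) with hA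
  set B0 := deriv (deriv (Phi k ζ v0)) (X (Phi k ζ v0) y) with hB0
  set B1 := deriv (deriv (Phi k ζ v1)) (X (Phi k ζ v1) y) with hB1
  have pA : 0 < A := (cls _).pos _
  have i0 : B0⁻¹ ≤ A⁻¹ := inv_anti₀ pA e0.1
  have i1 : B1⁻¹ ≤ A⁻¹ := inv_anti₀ pA e1.1
  rcases hne with hne | hne
  · have s0 : B0⁻¹ < A⁻¹ := (inv_lt_inv₀ (pA.trans (e0.2 hne)) pA).2 (e0.2 hne)
    have := mul_lt_mul_of_pos_left s0 (by linarith : 0 < 1 - l)
    have := mul_le_mul_of_nonneg_left i1 hl0.le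
    linarith
  · have s1 : B1⁻¹ < A⁻¹ := (inv_lt_inv₀ (pA.trans (e1.2 hne)) pA).2 (e1.2 hne)
    have := mul_lt_mul_of_pos_left s1 hl0
    have := mul_le_mul_of_nonneg_left i0 (by linarith : 0 ≤ 1 - l)
    linarith

/-- **Convexity of the dual function in the variances.** -/
theorem U_convex (h : Adm ζ) {l : ℝ} (hl0 : 0 ≤ l) (hl1 : l ≤ 1) {v0 v1 : Fin k → ℝ}
    (hv0 : ∀ i, 0 ≤ v0 i) (hv1 : ∀ i, 0 ≤ v1 i) {y : ℝ} (hy : |y| < 1) :
    U (Phi k ζ (mix l v0 v1)) y ≤ (1 - l) * U (Phi k ζ v0) y + l * U (Phi k ζ v1) y := by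
  rcases hl0.eq_or_lt with h0 | h0
  · have : mix l v0 v1 = v0 := by rw [← h0]; funext i; simp [mix]
    rw [this, ← h0]; linarith
  rcases hl1.eq_or_lt with h1 | h1
  · have : mix l v0 v1 = v1 := by rw [h1]; funext i; simp [mix]
    rw [this, h1]; linarith
  exact U_convex_aux h h0 h1 hv0 hv1 hy

end

end Crest.Agent.R164.Cv
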