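import Crest.Agent.R164.FieldFin

/-!
Row 164: at a critical pair `(p, h)` the field `h` maximises the one-site functional, from the
concavity of the constrained field value (helper92).
-/

set_option autoImplicit false

namespace Crest.Agent.R164.GC

open MeasureTheory ProbabilityTheory Filter Topology Set
open Crest.ProbabilityR.InvariantGlass

noncomputable section

/-- **Concavity of the constrained one-site value** `h ↦ inf_b (ℓ_b(h) - b s)` along step fields
with common widths, in elementary form. -/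
def Conc : Prop :=
  ∀ (k : ℕ) (w h0 h1 : Fin k → ℝ), IsStepField w h0 → IsStepField w h1 →
    ∀ s : ℝ, |s| < 1 → ∀ l : ℝ, 0 ≤ l → l ≤ 1 → ∀ A0 A1 : ℝ,
      (∀ b, A0 ≤ fieldValueAt b w h0 - b * s) → (∀ b, A1 ≤ fieldValueAt b w h1 - b * s) →
      ∀ b, (1 - l) * A0 + l * A1 ≤ fieldValueAt b w (fun i => (1 - l) * h0 i + l * h1 i) - b * s

/-! ### positivity of the second derivative, strict bound for the first -/

theorem tE_pos {f : ℝ → ℝ} (hf : Lip1 f) (a v : ℝ) {φ : ℝ → ℝ} (hφ : EG φ) (h : ∀ y, 0 < φ y)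
    (x : ℝ) : 0 < tE a v f φ x := by
  unfold tE
  refine div_pos (H_pos (hφ.mul (EG.exp_lip hf a)) (fun y => ?_) _ _) (den_pos hf a _ x)
  exact mul_pos (h y) (Real.exp_pos _)

theorem chain2_nonneg : ∀ (L : List (ℝ × ℝ)) (a : ℝ), Adm a L → ∀ x, 0 ≤ chain2 a L x
  | [], _, _, z => by
      show 0 ≤ 1 - (Real.sinh z / Real.cosh z) ^ 2
      have : (Real.sinh z / Real.cosh z) ^ 2 ≤ 1 := by
        rw [div_pow, div_le_one (pow_pos (Real.cosh_pos z) 2), Real.cosh_sq]
        linarith
      linarith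
  | (v, w) :: L, a, h, x => by
      have hS := chain_sm L (a + w) h.2.2.2
      show 0 ≤ tE a v _ (chain2 (a + w) L) x + a * (_ - _)
      have h1 := tE_mono hS.lip a v (EG.const 0) hS.B2.eg
        (fun y => chain2_nonneg L (a + w) h.2.2.2 y) x
      rw [tE_const hS.lip] at h1
      have h2 := tE_sq_le hS.lip a v hS.B1.eg x
      have h3 := mul_nonneg h.1 (sub_nonneg.2 h2)
      linarith

theorem abs_chain1_lt : ∀ (L : List (ℝ × ℝ)) (a : ℝ), Adm a L → ∀ x, |chain1 a L x| < 1
  | [], _, _, z => by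
      show |Real.sinh z / Real.cosh z| < 1
      rw [← sq_lt_one_iff_abs_lt_one, div_pow, div_lt_one (pow_pos (Real.cosh_pos z) 2),
        Real.cosh_sq]
      linarith
  | (v, w) :: L, a, h, x => by
      have hS := chain_sm L (a + w) h.2.2.2
      have ih := abs_chain1_lt L (a + w) h.2.2.2
      show |tE a v (chain (a + w) L) (chain1 (a + w) L) x| < 1
      rw [abs_lt]
      constructor
      · have h1 := tE_pos hS.lip a v ((EG.const 1).add hS.B1.eg)
          (fun y => by have := (abs_lt.1 (ih y)).1; linarith) x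
        rw [tE_add hS.lip a v (EG.const 1) hS.B1.eg, tE_const hS.lip] at h1
        linarith
      · have h1 := tE_pos hS.lip a v ((EG.const 1).sub hS.B1.eg)
          (fun y => by have := (abs_lt.1 (ih y)).2; linarith) x
        rw [tE_sub hS.lip a v (EG.const 1) hS.B1.eg, tE_const hS.lip] at h1
        linarith

theorem abs_magAt_lt {k : ℕ} {w hv : Fin k → ℝ} (h : IsStepField w hv) (b : ℝ) :
    |magAt b w hv| < 1 := abs_chain1_lt _ _ (adm_of_step h) b

/-- tangent line inequality -/
theorem tangent {f f1 f2 : ℝ → ℝ} {C : ℝ} (h : Sm f f1 f2 C) (h2 : ∀ x, 0 ≤ f2 x) (b x : ℝ) :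
    f b + f1 b * (x - b) ≤ f x := by
  have hm : Monotone f1 := monotone_of_deriv_nonneg
    (fun x => (h.d2 x).differentiableAt) (fun x => by rw [(h.d2 x).deriv]; exact h2 x)
  have hd : ∀ x, HasDerivAt (fun y => f y - f1 b * y) (f1 x - f1 b) x := fun x => by
    have := (h.d1 x).fun_sub ((hasDerivAt_id' x).const_mul (f1 b))
    rw [mul_one] at this
    exact this
  rcases le_total b x with hbx | hbx
  · have := (monotoneOn_of_deriv_nonneg (convex_Ici b) (f := fun y => f y - f1 b * y)
      (fun y _ => (hd y).continuousAt.continuousWithinAt)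
      (fun y _ => (hd y).differentiableAt.differentiableWithinAt) (fun y hy => by
        rw [interior_Ici] at hy
        rw [(hd y).deriv]
        exact sub_nonneg.2 (hm (le_of_lt hy)))) self_mem_Ici hbx hbx
    simp only at this
    linarith
  · have := (antitoneOn_of_deriv_nonpos (convex_Iic b) (f := fun y => f y - f1 b * y)
      (fun y _ => (hd y).continuousAt.continuousWithinAt)
      (fun y _ => (hd y).differentiableAt.differentiableWithinAt) (fun y hy => by
        rw [interior_Iic] at hy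
        rw [(hd y).deriv]
        exact sub_nonpos.2 (hm (le_of_lt hy)))) (mem_Iic.2 hbx) self_mem_Iic hbx
    simp only at this
    linarith

theorem fieldValueAt_tangent {k : ℕ} {w hv : Fin k → ℝ} (h : IsStepField w hv) (b b' : ℝ) :
    fieldValueAt b w hv - b * magAt b w hv ≤ fieldValueAt b' w hv - b' * magAt b w hv := by
  have hA := adm_of_step h
  have := tangent (chain_sm _ _ hA) (chain2_nonneg _ _ hA) b b'
  rw [fieldValueAt_eq, fieldValueAt_eq]
  unfold fvL magAt
  linarith

/-! ### interpolation on a common list -/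

/-- interpolated list -/
def ipl (t : ℝ) (q : ℝ × ℝ × ℝ) : ℝ × ℝ := (q.1, (1 - t) * q.2.1 + t * q.2.2)

/-- triples `(v, w, δ)` -/
def tri : ℝ → ℝ → List (ℝ × ℝ × ℝ) → List (ℝ × ℝ × ℝ)
  | _, _, [] => []
  | hp, hp', (w, h, h') :: M => (h - hp, w, (h' - hp') - (h - hp)) :: tri h h' M

theorem inc_ipl (t : ℝ) : ∀ (M : List (ℝ × ℝ × ℝ)) (hp hp' : ℝ),
    inc ((1 - t) * hp + t * hp') (M.map (ipl t)) = (tri hp hp' M).map (sh t)
  | [], _, _ => rfl
  | (w, h, h') :: M, hp, hp' => by
      show ((1 - t) * h + t * h' - ((1 - t) * hp + t * hp'), w) ::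
        inc ((1 - t) * h + t * h') (M.map (ipl t)) =
        (h - hp + t * ((h' - hp') - (h - hp)), w) :: (tri h h' M).map (sh t)
      rw [inc_ipl t M h h']
      congr 2
      ring

theorem tri_pr : ∀ (M : List (ℝ × ℝ × ℝ)) (hp hp' : ℝ),
    (tri hp hp' M).map pr = inc hp (M.map p1)
  | [], _, _ => rfl
  | (w, h, h') :: M, hp, hp' => by
      show (h - hp, w) :: (tri h h' M).map pr = (h - hp, w) :: inc h (M.map p1)
      rw [tri_pr M h h']

theorem lastV_ipl (t : ℝ) : ∀ (M : List (ℝ × ℝ × ℝ)) (hp hp' : ℝ),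
    lastV ((1 - t) * hp + t * hp') (M.map (ipl t)) =
      (1 - t) * lastV hp (M.map p1) + t * lastV hp' (M.map p2)
  | [], _, _ => rfl
  | (_, h, h') :: M, _, _ => lastV_ipl t M h h'

theorem dsum_tri : ∀ (M : List (ℝ × ℝ × ℝ)) (hp hp' : ℝ),
    dsum (tri hp hp' M) = (lastV hp' (M.map p2) - hp') - (lastV hp (M.map p1) - hp)
  | [], hp, hp' => by simp [tri, dsum, lastV]
  | (w, h, h') :: M, hp, hp' => by
      have ih := dsum_tri M h h'
      have e : dsum (tri hp hp' ((w, h, h') :: M)) =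
          ((h' - hp') - (h - hp)) + dsum (tri h h' M) := by
        show dsum ((h - hp, w, (h' - hp') - (h - hp)) :: tri h h' M) = _
        simp [dsum]
      rw [e, ih]
      show _ = (lastV h' (M.map p2) - hp') - (lastV h (M.map p1) - hp)
      ring

theorem tri_nonneg : ∀ (M : List (ℝ × ℝ × ℝ)) (hp hp' : ℝ), Mono hp' (M.map p2) →
    ∀ q ∈ tri hp hp' M, 0 ≤ q.1 + q.2.2
  | [], _, _, _, q, hq => by simp [tri] at hq
  | (w, h, h') :: M, hp, hp', hm, q, hq => by
      have hm : hp' ≤ h' ∧ Mono h' (M.map p2) := hm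
      have hq : q ∈ (h - hp, w, (h' - hp') - (h - hp)) :: tri h h' M := hq
      rcases List.mem_cons.1 hq with rfl | hq
      · show 0 ≤ h - hp + ((h' - hp') - (h - hp))
        linarith [hm.1]
      · exact tri_nonneg M h h' hm.2 q hq

theorem SL_meas : ∀ (M : List (ℝ × ℝ)) (a : ℝ), Measurable (SL a M)
  | [], _ => measurable_const
  | (w, h) :: M, a => by
      show Measurable fun u => if u ≤ a + w then h else SL (a + w) M u
      exact Measurable.ite measurableSet_Iic measurable_const (SL_meas M (a + w))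

theorem SL_bdd : ∀ (M : List (ℝ × ℝ)), ∃ K : ℝ, 0 ≤ K ∧ ∀ a u, |SL a M u| ≤ K
  | [] => ⟨0, le_rfl, fun a u => by simp [SL]⟩
  | (w, h) :: M => by
      obtain ⟨K, hK0, hK⟩ := SL_bdd M
      refine ⟨max |h| K, le_max_of_le_right hK0, fun a u => ?_⟩
      show |if u ≤ a + w then h else SL (a + w) M u| ≤ _
      split_ifs
      · exact le_max_left _ _
      · exact (hK _ _).trans (le_max_right _ _)

theorem SL_int (M : List (ℝ × ℝ)) (c a b : ℝ) : IntervalIntegrable (SL c M) volume a b := by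
  obtain ⟨K, _, hK⟩ := SL_bdd M
  rw [intervalIntegrable_iff]
  refine Measure.integrableOn_of_bounded (M := K) ?_ (SL_meas M c).aestronglyMeasurable ?_
  · rw [uIoc]
    exact measure_Ioc_lt_top.ne
  · exact Eventually.of_forall fun u => by rw [Real.norm_eq_abs]; exact hK c u

/-- `WQ` for the triples is `PG` of the difference of the step functions -/
theorem WQ_tri : ∀ (M : List (ℝ × ℝ × ℝ)) (a hp hp' : ℝ), (∀ q ∈ M, 0 < q.1) →
    WQ a (tri hp hp' M) (hp' - hp) =
      PG a (inc hp (M.map p1)) (fun u => SL a (M.map p2) u - SL a (M.map p1) u)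
  | [], _, _, _, _ => rfl
  | (w, h, h') :: M, a, hp, hp', hM => by
      have hw : 0 < w := hM _ List.mem_cons_self
      have hM' : ∀ q ∈ M, 0 < q.1 := fun q hq => hM q (List.mem_cons_of_mem _ hq)
      have hP : PosW (M.map p1) := by
        intro q hq
        rw [List.mem_map] at hq
        obtain ⟨r, hr, rfl⟩ := hq
        exact hM' r hr
      have ih := WQ_tri M (a + w) h h' hM'
      show tE a (h - hp) (chain (a + w) ((tri h h' M).map pr)) (fun y => w * ((hp' - hp) +
        ((h' - hp') - (h - hp))) * chain1 (a + w) ((tri h h' M).map pr) y ^ 2 +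
          WQ (a + w) (tri h h' M) ((hp' - hp) + ((h' - hp') - (h - hp))) y) =
        tE a (h - hp) (chain (a + w) (inc h (M.map p1))) (fun z => (∫ u in a..(a + w),
          (SL a ((w, h') :: M.map p2) u - SL a ((w, h) :: M.map p1) u)) *
          chain1 (a + w) (inc h (M.map p1)) z ^ 2 + PG (a + w) (inc h (M.map p1)) (fun u =>
            SL a ((w, h') :: M.map p2) u - SL a ((w, h) :: M.map p1) u) z)
      have e1 : (hp' - hp) + ((h' - hp') - (h - hp)) = h' - h := by ring
      rw [e1, ih, tri_pr]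
      have e2 : (∫ u in a..(a + w), (SL a ((w, h') :: M.map p2) u -
          SL a ((w, h) :: M.map p1) u)) = w * (h' - h) := by
        rw [intervalIntegral.integral_of_le (by linarith)]
        have : ∫ u in Ioc a (a + w), (SL a ((w, h') :: M.map p2) u -
            SL a ((w, h) :: M.map p1) u) = ∫ _u in Ioc a (a + w), (h' - h) := by
          refine setIntegral_congr_fun measurableSet_Ioc fun u hu => ?_
          show (if u ≤ a + w then h' else _) - (if u ≤ a + w then h else _) = h' - h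
          rw [if_pos hu.2, if_pos hu.2]
        rw [this, setIntegral_const, Measure.real, Real.volume_Ioc,
          ENNReal.toReal_ofReal (by linarith), smul_eq_mul]
        ring
      have e3 : PG (a + w) (inc h (M.map p1)) (fun u => SL a ((w, h') :: M.map p2) u -
          SL a ((w, h) :: M.map p1) u) = PG (a + w) (inc h (M.map p1))
          (fun u => SL (a + w) (M.map p2) u - SL (a + w) (M.map p1) u) := by
        refine PG_congr _ _ _ hP fun u hu => ?_
        show (if u ≤ a + w then h' else SL (a + w) (M.map p2) u) -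
          (if u ≤ a + w then h else SL (a + w) (M.map p1) u) = _
        rw [if_neg (not_le.2 hu), if_neg (not_le.2 hu)]
      rw [e2, e3]

/-- the fields of a list of triples -/
theorem toL_get (M : List (ℝ × ℝ × ℝ)) (F : ℝ × ℝ × ℝ → ℝ) :
    toL (fun i : Fin M.length => (M.get i).1) (fun i => F (M.get i)) =
      M.map (fun q => (q.1, F q)) := by
  unfold toL
  have h : (List.ofFn fun i => M.get i) = M := List.ofFn_get M
  conv_rhs => rw [← h]
  rw [List.map_ofFn]
  rfl

theorem isStepField_of_list {M : List (ℝ × ℝ × ℝ)} {F : ℝ × ℝ × ℝ → ℝ}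
    (hpos : ∀ q ∈ M, 0 < q.1) (hs : sumw (M.map (fun q => (q.1, F q))) = 1)
    (hm : Mono 0 (M.map (fun q => (q.1, F q)))) :
    IsStepField (fun i : Fin M.length => (M.get i).1) (fun i => F (M.get i)) := by
  rw [← toL_get] at hs hm
  rw [sumw_toL] at hs
  obtain ⟨h1, h2⟩ := monotone_of_mono _ _ _ _ hm
  refine ⟨?_, fun i => hpos _ (List.get_mem M i), hs, h2, h1⟩
  by_contra hc
  have : M.length = 0 := by omega
  have hM : M = [] := List.length_eq_zero_iff.1 this
  subst hM
  simp at hs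

/-- **the value at the critical pair dominates**, list form -/
theorem critical_list (hC : Conc) {k k' : ℕ} {w hv : Fin k → ℝ} {w' hv' : Fin k' → ℝ}
    (h : IsStepField w hv) (h' : IsStepField w' hv') (b A1 : ℝ)
    (hA1 : ∀ b', A1 ≤ fieldValueAt b' w' hv' - b' * magAt b w hv) :
    A1 + 1 / 2 * PG 0 (inc 0 (toL w hv)) (SL 0 (toL w' hv')) b ≤
      fieldValueAt b w hv - b * magAt b w hv +
        1 / 2 * PG 0 (inc 0 (toL w hv)) (SL 0 (toL w hv)) b := by
  have hP := posW_toL h.2.1 hv
  have hP' := posW_toL h'.2.1 hv'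
  have hS : sumw (toL w hv) = 1 := by rw [sumw_toL, h.2.2.1]
  have hS' : sumw (toL w' hv') = 1 := by rw [sumw_toL, h'.2.2.1]
  obtain ⟨M, r1, r2, hM⟩ := exists_merge _ (toL w hv) (toL w' hv') le_rfl hP hP'
    (by rw [hS, hS'])
  have hm1 : Mono 0 (M.map p1) := r1.mono 0 (mono_toL k 0 w hv h.2.2.2.2 h.2.2.2.1)
  have hm2 : Mono 0 (M.map p2) := r2.mono 0 (mono_toL k' 0 w' hv' h'.2.2.2.2 h'.2.2.2.1)
  have hs1 : sumw (M.map p1) = 1 := by rw [r1.sumw_eq, hS]
  have hs2 : sumw (M.map p2) = 1 := by rw [r2.sumw_eq, hS']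
  have hPM : PosW (M.map p1) := by
    intro q hq
    rw [List.mem_map] at hq
    obtain ⟨r, hr, rfl⟩ := hq
    exact hM r hr
  have hPM2 : PosW (M.map p2) := by
    intro q hq
    rw [List.mem_map] at hq
    obtain ⟨r, hr, rfl⟩ := hq
    exact hM r hr
  set W : Fin M.length → ℝ := fun i => (M.get i).1 with hW
  set H0 : Fin M.length → ℝ := fun i => (M.get i).2.1 with hH0
  set H1 : Fin M.length → ℝ := fun i => (M.get i).2.2 with hH1
  have F0 : IsStepField W H0 := isStepField_of_list (F := fun q => q.2.1) hM hs1 hm1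
  have F1 : IsStepField W H1 := isStepField_of_list (F := fun q => q.2.2) hM hs2 hm2
  have L0 : toL W H0 = M.map p1 := toL_get M (fun q => q.2.1)
  have L1 : toL W H1 = M.map p2 := toL_get M (fun q => q.2.2)
  have Lt : ∀ t : ℝ, toL W (fun i => (1 - t) * H0 i + t * H1 i) = M.map (ipl t) :=
    fun t => toL_get M (fun q => (1 - t) * q.2.1 + t * q.2.2)
  have hmag : magAt b w hv = magAt b W H0 := by
    unfold magAt
    rw [L0, r1.chain1_eq]
  have v0 : ∀ b', fieldValueAt b' W H0 = fieldValueAt b' w hv := fun b' => by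
    rw [fieldValueAt_eq, fieldValueAt_eq, L0, r1.fvL_eq]
  have v1 : ∀ b', fieldValueAt b' W H1 = fieldValueAt b' w' hv' := fun b' => by
    rw [fieldValueAt_eq, fieldValueAt_eq, L1, r2.fvL_eq]
  set s := magAt b w hv with hs
  have hslt : |s| < 1 := abs_magAt_lt h b
  set A0 := fieldValueAt b w hv - b * s with hA0
  have hA0' : ∀ b', A0 ≤ fieldValueAt b' W H0 - b' * s := fun b' => by
    rw [v0]
    exact fieldValueAt_tangent h b b'
  have hA1' : ∀ b', A1 ≤ fieldValueAt b' W H1 - b' * s := fun b' => by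
    rw [v1]
    exact hA1 b'
  -- the path
  set T := tri 0 0 M with hT
  have hTA : Adm 0 (T.map pr) := by
    rw [hT, tri_pr]
    exact adm_inc _ 0 0 le_rfl hPM hm1 (by rw [hs1, zero_add])
  obtain ⟨_, hcc⟩ := chain_path T 0 hTA (tri_nonneg M 0 0 hm2)
  have hval : ∀ t : ℝ, fieldValueAt b W (fun i => (1 - t) * H0 i + t * H1 i) =
      chain 0 (T.map (sh t)) b - ((1 - t) * lastV 0 (M.map p1) + t * lastV 0 (M.map p2)) / 2 := by
    intro t
    have e1 := inc_ipl t M 0 0
    have e2 := lastV_ipl t M 0 0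
    rw [mul_zero, mul_zero, add_zero] at e1 e2
    rw [fieldValueAt_eq, Lt]
    unfold fvL
    rw [e1, e2]
  have hvz : fieldValueAt b W (fun i => (1 - 0) * H0 i + 0 * H1 i) = fieldValueAt b w hv := by
    rw [← v0 b]
    congr 1
    funext i
    ring
  have htn : ∀ n : ℕ, 0 < (1 : ℝ) / ((n : ℝ) + 1) ∧ (1 : ℝ) / ((n : ℝ) + 1) ≤ 1 := by
    intro n
    constructor
    · positivity
    · rw [div_le_one (by positivity)]
      have : (0 : ℝ) ≤ n := Nat.cast_nonneg n
      linarith
  have hlim := hcc (fun n : ℕ => (1 : ℝ) / ((n : ℝ) + 1)) (fun _ => b) b htn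
    tendsto_one_div_add_atTop_nhds_zero_nat tendsto_const_nhds
  have hle : ∀ n : ℕ, A1 - A0 + (lastV 0 (M.map p2) - lastV 0 (M.map p1)) / 2 ≤
      (chain 0 (T.map (sh ((1 : ℝ) / ((n : ℝ) + 1)))) b - chain 0 (T.map (sh 0)) b) /
        ((1 : ℝ) / ((n : ℝ) + 1)) := by
    intro n
    set t : ℝ := (1 : ℝ) / ((n : ℝ) + 1) with ht
    have h1 := hC M.length W H0 H1 F0 F1 s hslt t (htn n).1.le (htn n).2 A0 A1 hA0' hA1' b
    rw [hval t] at h1
    have h2 := hval 0
    rw [hvz] at h2
    rw [le_div_iff₀ (htn n).1]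
    have h3 : A0 = fieldValueAt b w hv - b * s := rfl
    nlinarith
  have hfin := ge_of_tendsto' hlim hle
  -- evaluate
  have hd : dsum T = lastV 0 (M.map p2) - lastV 0 (M.map p1) := by
    rw [hT, dsum_tri]
    ring
  have hWQ : WQ 0 T 0 b = PG 0 (inc 0 (toL w hv)) (SL 0 (toL w' hv')) b -
      PG 0 (inc 0 (toL w hv)) (SL 0 (toL w hv)) b := by
    have e1 := WQ_tri M 0 0 0 hM
    rw [sub_zero] at e1
    have hAm : Adm 0 (inc 0 (M.map p1)) := by
      rw [← tri_pr M 0 0]
      exact hTA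
    rw [hT, e1, PG_sub (fun a b => SL_int _ _ a b) (fun a b => SL_int _ _ a b) _ _ _ hAm]
    have g1 : PG 0 (inc 0 (M.map p1)) (SL 0 (M.map p2)) =
        PG 0 (inc 0 (M.map p1)) (SL 0 (toL w' hv')) :=
      PG_congr _ _ _ hPM fun u hu => r2.SL_eq hPM2 0 u hu
    have g0 : PG 0 (inc 0 (M.map p1)) (SL 0 (M.map p1)) =
        PG 0 (inc 0 (M.map p1)) (SL 0 (toL w hv)) :=
      PG_congr _ _ _ hPM fun u hu => r1.SL_eq hPM 0 u hu
    rw [g1, g0, r1.PG_eq (fun a b => SL_int _ _ a b), r1.PG_eq (fun a b => SL_int _ _ a b)]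
  simp only at hfin
  rw [hd, hWQ] at hfin
  linarith

/-! ### the path `p` as a step function -/

/-- overlap path of the pair `(b, (w, hv))` -/
def pathP {k : ℕ} (b : ℝ) (w hv : Fin k → ℝ) : ℝ → ℝ := stepFn w (pAt b w hv)

theorem leftEnd_add_le {k : ℕ} {w : Fin k → ℝ} (hw : ∀ i, 0 < w i) (i : Fin k) :
    leftEnd w i + w i ≤ ∑ j, w j := by
  unfold leftEnd
  rw [← Finset.sum_filter]
  have h : i ∉ Finset.univ.filter (fun l : Fin k => l < i) := by simp
  have e : ∑ l ∈ Finset.univ.filter (fun l : Fin k => l < i), w l + w i =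
      ∑ l ∈ insert i (Finset.univ.filter (fun l : Fin k => l < i)), w l := by
    rw [Finset.sum_insert h]; ring
  rw [e]
  exact Finset.sum_le_sum_of_subset_of_nonneg (Finset.subset_univ _) fun j _ _ => (hw j).le

/-- integral of a step function against `g` -/
theorem integral_stepFn {k : ℕ} {w : Fin k → ℝ} (hw : ∀ i, 0 < w i) (hs : ∑ i, w i = 1)
    (p : Fin k → ℝ) {g : ℝ → ℝ} (hg : IntegrableOn g (Ioo 0 1)) :
    ∫ u in Ioo (0 : ℝ) 1, stepFn w p u * g u =
      ∑ i : Fin k, (∫ u in (leftEnd w i)..(leftEnd w i + w i), g u) * p i := by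
  have hg' : IntegrableOn g (Ioc 0 1) := by
    rw [← integrableOn_Icc_iff_integrableOn_Ioc, integrableOn_Icc_iff_integrableOn_Ioo]
    exact hg
  rw [← integral_Ioc_eq_integral_Ioo]
  have hsub : ∀ i, Ioc (leftEnd w i) (leftEnd w i + w i) ⊆ Ioc (0 : ℝ) 1 := by
    intro i u hu
    have h1 := leftEnd_nonneg hw i
    have h2 := leftEnd_add_le hw i
    rw [hs] at h2
    exact ⟨lt_of_le_of_lt h1 hu.1, hu.2.trans h2⟩
  have e : ∀ u, stepFn w p u * g u = ∑ i : Fin k,
      (Ioc (leftEnd w i) (leftEnd w i + w i)).indicator (fun u => g u * p i) u := by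
    intro u
    unfold stepFn
    rw [Finset.sum_mul]
    refine Finset.sum_congr rfl fun i _ => ?_
    by_cases h : leftEnd w i < u ∧ u ≤ leftEnd w i + w i
    · rw [if_pos h, indicator_of_mem (show u ∈ Ioc _ _ from h)]
      ring
    · rw [if_neg h, indicator_of_notMem (show u ∉ Ioc _ _ from h), zero_mul]
  simp only [e]
  rw [integral_finsetSum]
  · refine Finset.sum_congr rfl fun i _ => ?_
    rw [setIntegral_indicator measurableSet_Ioc, inter_eq_self_of_subset_right (hsub i),
      intervalIntegral.integral_of_le (by linarith [hw i]), integral_mul_const]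
  · intro i _
    rw [integrable_indicator_iff measurableSet_Ioc]
    have h1 : IntegrableOn g (Ioc (leftEnd w i) (leftEnd w i + w i)) := hg'.mono_set (hsub i)
    have h2 : IntegrableOn (fun u => g u * p i) (Ioc (leftEnd w i) (leftEnd w i + w i)) :=
      h1.mul_const _
    exact h2.mono_measure Measure.restrict_le_self

theorem integral_pathP {k : ℕ} {w hv : Fin k → ℝ} (h : IsStepField w hv) (b : ℝ) {g : ℝ → ℝ}
    (hg : IntegrableOn g (Ioo 0 1)) :
    ∫ u in Ioo (0 : ℝ) 1, pathP b w hv u * g u = PG 0 (inc 0 (toL w hv)) g b := by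
  have hA := adm_of_step h
  unfold pathP
  rw [integral_stepFn h.2.1 h.2.2.1 _ hg]
  have e := inc_toL k 0 w hv
  rw [e] at hA
  have h1 := PG_eq_sum k 0 (incr 0 hv) w g hA b
  rw [e, h1]
  refine Finset.sum_congr rfl fun i _ => ?_
  unfold pAt
  rw [e]
  simp only [zero_add]

theorem integrableOn_stepFn {k : ℕ} {w : Fin k → ℝ} (hw : ∀ i, 0 < w i) (hv : Fin k → ℝ) :
    IntegrableOn (stepFn w hv) (Ioo 0 1) := by
  have h1 := (SL_int (toL w hv) 0 0 1)
  rw [intervalIntegrable_iff_integrableOn_Ioo_of_le zero_le_one] at h1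
  exact h1.congr_fun (fun u hu => (stepFn_eq_SL hw hv hu.1).symm) measurableSet_Ioo

/-- **the value at the critical pair dominates every step field** -/
theorem critical (hC : Conc) {k k' : ℕ} {w hv : Fin k → ℝ} {w' hv' : Fin k' → ℝ}
    (h : IsStepField w hv) (h' : IsStepField w' hv') (b A1 : ℝ)
    (hA1 : ∀ b', A1 ≤ fieldValueAt b' w' hv' - b' * magAt b w hv) :
    A1 + 1 / 2 * ∫ u in Ioo (0 : ℝ) 1, pathP b w hv u * stepFn w' hv' u ≤
      fieldValueAt b w hv - b * magAt b w hv +
        1 / 2 * ∫ u in Ioo (0 : ℝ) 1, pathP b w hv u * stepFn w hv u := by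
  have key := critical_list hC h h' b A1 hA1
  have hSLi : ∀ {k : ℕ} (w hv : Fin k → ℝ), IntegrableOn (SL 0 (toL w hv)) (Ioo 0 1) := by
    intro k w hv
    have h1 := (SL_int (toL w hv) 0 0 1)
    rwa [intervalIntegrable_iff_integrableOn_Ioo_of_le zero_le_one] at h1
  have e : ∀ {k' : ℕ} {w' hv' : Fin k' → ℝ}, (∀ i, 0 < w' i) →
      ∫ u in Ioo (0 : ℝ) 1, pathP b w hv u * stepFn w' hv' u =
        PG 0 (inc 0 (toL w hv)) (SL 0 (toL w' hv')) b := by
    intro k' w' hv' hw'
    rw [← integral_pathP h b (hSLi w' hv')]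
    refine setIntegral_congr_fun measurableSet_Ioo fun u hu => ?_
    show pathP b w hv u * stepFn w' hv' u = _
    rw [stepFn_eq_SL hw' hv' hu.1]
  rw [e h'.2.1, e h.2.1]
  exact key

/-- in terms of the constrained field value -/
theorem critical_EReal (hC : Conc) {k k' : ℕ} {w hv : Fin k → ℝ} {w' hv' : Fin k' → ℝ}
    (h : IsStepField w hv) (h' : IsStepField w' hv') (b : ℝ) :
    constrainedFieldValue (magAt b w hv) w' hv' +
      ((1 / 2 * ∫ u in Ioo (0 : ℝ) 1, pathP b w hv u * stepFn w' hv' u : ℝ) : EReal) ≤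
      ((fieldValueAt b w hv - b * magAt b w hv +
        1 / 2 * ∫ u in Ioo (0 : ℝ) 1, pathP b w hv u * stepFn w hv u : ℝ) : EReal) := by
  rcases eq_bot_or_bot_lt (constrainedFieldValue (magAt b w hv) w' hv') with hb | hb
  · rw [hb, EReal.bot_add]
    exact bot_le
  · have hle : ∀ b', constrainedFieldValue (magAt b w hv) w' hv' ≤
        ((fieldValueAt b' w' hv' - b' * magAt b w hv : ℝ) : EReal) := fun b' => iInf_le _ b'
    have hne : constrainedFieldValue (magAt b w hv) w' hv' ≠ ⊤ := by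
      intro hc
      have := hle 0
      rw [hc] at this
      exact absurd this (not_le.2 (EReal.coe_lt_top _))
    lift constrainedFieldValue (magAt b w hv) w' hv' to ℝ using ⟨hne, hb.ne'⟩ with A1 hA1
    rw [← EReal.coe_add, EReal.coe_le_coe_iff]
    refine critical hC h h' b A1 fun b' => ?_
    have := hle b'
    rwa [EReal.coe_le_coe_iff] at this

end

end Crest.Agent.R164.GC
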