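import Crest.Agent.R164.CvH
import Crest.Agent.R164.FieldCrit

/-!
Row 164 (helper491), part I: concavity of the constrained one-site value along step fields
(`GC.Conc` of helper92).
-/

set_option autoImplicit false

namespace Crest.Agent.R164.Cv

open MeasureTheory Set Filter Topology ProbabilityTheory
open Crest.ProbabilityR.InvariantGlass

noncomputable section

theorem foldr_Phi : ∀ (k : ℕ) (ζ v : Fin k → ℝ),
    (List.finRange k).foldr (fun i acc => gaussOp (ζ i) (v i) acc) lc = Phi k ζ v
  | 0, _, _ => rfl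
  | (k + 1), ζ, v => by
      rw [List.finRange_succ, List.foldr_cons, List.foldr_map, Phi_succ,
        ← foldr_Phi k (Fin.tail ζ) (Fin.tail v)]
      rfl

/-- the last value -/
def lastV {k : ℕ} (hv : Fin k → ℝ) : ℝ := ∑ l : Fin k, if l.val + 1 = k then hv l else 0

theorem fieldValueAt_Phi {k : ℕ} (b : ℝ) (w hv : Fin k → ℝ) :
    fieldValueAt b w hv = Phi k (leftEnd w) (increment hv) b - lastV hv / 2 := by
  unfold fieldValueAt lastV
  rw [← foldr_Phi]
  rfl

theorem adm_leftEnd {k : ℕ} {w hv : Fin k → ℝ} (h : IsStepField w hv) : Adm (leftEnd w) := by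
  refine ⟨fun i => ?_, fun i => ?_, fun i j hij => ?_⟩
  · exact Finset.sum_nonneg fun l _ => by split_ifs <;> [exact (h.2.1 l).le; exact le_rfl]
  · rw [← h.2.2.1]
    exact Finset.sum_le_sum fun l _ => by split_ifs <;> [exact le_rfl; exact (h.2.1 l).le]
  · refine Finset.sum_le_sum fun l _ => ?_
    by_cases h1 : l < i
    · rw [if_pos h1, if_pos (lt_of_lt_of_le h1 hij)]
    · rw [if_neg h1]
      split_ifs <;> [exact (h.2.1 l).le; exact le_rfl]

theorem increment_nonneg' {k : ℕ} {hv : Fin k → ℝ} (hm : Monotone hv) (h0 : ∀ i, 0 ≤ hv i)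
    (i : Fin k) : 0 ≤ increment hv i := by
  unfold increment
  rw [sub_nonneg]
  by_cases hex : ∃ l : Fin k, l.val + 1 = i.val
  · obtain ⟨l, hl⟩ := hex
    rw [Finset.sum_eq_single l]
    · rw [if_pos hl]; exact hm (by rw [Fin.le_def]; omega)
    · intro l' _ hne
      rw [if_neg]
      intro h'
      exact hne (Fin.ext (by omega))
    · intro h; exact absurd (Finset.mem_univ l) h
  · rw [Finset.sum_eq_zero]
    · exact h0 i
    · intro l _
      rw [if_neg]
      exact fun h => hex ⟨l, h⟩

theorem sum_mix {k : ℕ} (p : Fin k → Prop) [DecidablePred p] (l : ℝ) (h0 h1 : Fin k → ℝ) :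
    ∑ j : Fin k, (if p j then (1 - l) * h0 j + l * h1 j else 0) =
      (1 - l) * ∑ j : Fin k, (if p j then h0 j else 0) +
        l * ∑ j : Fin k, (if p j then h1 j else 0) := by
  rw [Finset.mul_sum, Finset.mul_sum, ← Finset.sum_add_distrib]
  refine Finset.sum_congr rfl fun j _ => ?_
  split_ifs <;> ring

theorem increment_mix {k : ℕ} (l : ℝ) (h0 h1 : Fin k → ℝ) :
    increment (fun i => (1 - l) * h0 i + l * h1 i) = mix l (increment h0) (increment h1) := by
  funext i
  unfold increment mix
  rw [sum_mix]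
  ring

theorem lastV_mix {k : ℕ} (l : ℝ) (h0 h1 : Fin k → ℝ) :
    lastV (fun i => (1 - l) * h0 i + l * h1 i) = (1 - l) * lastV h0 + l * lastV h1 := by
  unfold lastV
  rw [sum_mix]

/-- **Concavity of the constrained one-site value** in the field path. -/
theorem conc : GC.Conc := by
  intro k w h0 h1 hs0 hs1 s hs l hl0 hl1 A0 A1 hA0 hA1 b
  have hadm := adm_leftEnd hs0
  have n0 := increment_nonneg' hs0.2.2.2.1 hs0.2.2.2.2
  have n1 := increment_nonneg' hs1.2.2.2.1 hs1.2.2.2.2
  have hU := U_convex hadm hl0 hl1 n0 n1 hs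
  have u0 : U (Phi k (leftEnd w) (increment h0)) s ≤ -A0 - lastV h0 / 2 :=
    ciSup_le fun x => by
      have := hA0 x
      rw [fieldValueAt_Phi] at this
      linarith
  have u1 : U (Phi k (leftEnd w) (increment h1)) s ≤ -A1 - lastV h1 / 2 :=
    ciSup_le fun x => by
      have := hA1 x
      rw [fieldValueAt_Phi] at this
      linarith
  have um := le_U (cls_Phi k _ (mix l (increment h0) (increment h1)) hadm)
    (asy_Phi k _ _ hadm (mix_nonneg hl0 hl1 n0 n1)) hs.le b
  rw [fieldValueAt_Phi, increment_mix, lastV_mix]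
  have e0 := mul_le_mul_of_nonneg_left u0 (by linarith : 0 ≤ 1 - l)
  have e1 := mul_le_mul_of_nonneg_left u1 hl0
  nlinarith

end

end Crest.Agent.R164.Cv
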