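import Crest.Agent.R164.HaarCpl

/-!
# Row 164: the coupling `O(N) → O(N+1)` with the stable sign (helper562)

`U = Q_u (V ⊕ 1)`, `u = G/|G|`, where `Q_u` is orthogonal with last column `u` and
`Q_u (x, ε) = (x + u (ε - r g₀), ± g₀ + u_e ε)` with `g₀ = Σ u_i x_i` and `r = 1/(1+|u_e|) ∈ [1/2,1]`.
-/

set_option autoImplicit false

namespace Crest.Agent.R164.Haar

open MeasureTheory Matrix

variable {N : ℕ}

/-- stable sign -/
noncomputable def sg (u : Fin (N + 1) → ℝ) : ℝ := if u (Fin.last N) ≤ 0 then 1 else -1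

theorem sg_mul_self (u : Fin (N + 1) → ℝ) : sg u * sg u = 1 := by
  unfold sg; split_ifs <;> norm_num

theorem sg_mul_last (u : Fin (N + 1) → ℝ) : sg u * u (Fin.last N) = -|u (Fin.last N)| := by
  unfold sg
  split_ifs with h
  · rw [abs_of_nonpos h]; ring
  · rw [abs_of_pos (not_le.1 h)]; ring

/-- the orthogonal matrix with last column `u` -/
noncomputable def Qs (u : Fin (N + 1) → ℝ) : Matrix (Fin (N + 1)) (Fin (N + 1)) ℝ :=
  Hh (fun i => sg u * u i) * Matrix.diagonal (fun i => if i = Fin.last N then sg u else 1)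

theorem sum_sg {u : Fin (N + 1) → ℝ} (hu : ∑ i, u i ^ 2 = 1) : ∑ i, (sg u * u i) ^ 2 = 1 := by
  have h : ∀ i, (sg u * u i) ^ 2 = u i ^ 2 := by
    intro i
    have := sg_mul_self u
    calc (sg u * u i) ^ 2 = (sg u * sg u) * u i ^ 2 := by ring
      _ = u i ^ 2 := by rw [this, one_mul]
  simp only [h, hu]

theorem Qs_mem {u : Fin (N + 1) → ℝ} (hu : ∑ i, u i ^ 2 = 1) :
    Qs u ∈ Matrix.orthogonalGroup (Fin (N + 1)) ℝ := by
  refine mul_mem (Hh_mem (sum_sg hu)) ?_
  rw [Matrix.mem_orthogonalGroup_iff, Matrix.diagonal_transpose, Matrix.diagonal_mul_diagonal]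
  have h : (fun i : Fin (N + 1) => (if i = Fin.last N then sg u else 1) *
      (if i = Fin.last N then sg u else 1)) = fun _ => (1 : ℝ) := by
    funext i
    split_ifs
    · exact sg_mul_self u
    · norm_num
  rw [h, Matrix.diagonal_one]

theorem Qs_last {u : Fin (N + 1) → ℝ} (hu : ∑ i, u i ^ 2 = 1) (i : Fin (N + 1)) :
    Qs u i (Fin.last N) = u i := by
  unfold Qs
  rw [Matrix.mul_diagonal, Hh_last (sum_sg hu), if_pos rfl]
  have := sg_mul_self u
  calc sg u * u i * sg u = (sg u * sg u) * u i := by ring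
    _ = u i := by rw [this, one_mul]

/-- two orthogonal matrices with the same last column differ by `K ⊕ 1` -/
theorem exists_K' {A B : Matrix (Fin (N + 1)) (Fin (N + 1)) ℝ}
    (hA : A ∈ Matrix.orthogonalGroup (Fin (N + 1)) ℝ)
    (hB : B ∈ Matrix.orthogonalGroup (Fin (N + 1)) ℝ)
    (hAB : ∀ i, A i (Fin.last N) = B i (Fin.last N)) :
    ∃ K : Matrix (Fin N) (Fin N) ℝ, K ∈ Matrix.orthogonalGroup (Fin N) ℝ ∧
      A = B * Matrix.of (ext fun i j => K i j) := by
  have hBt : Bᵀ * B = 1 := by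
    have := hB
    rwa [Matrix.mem_orthogonalGroup_iff'] at this
  have hBt' : B * Bᵀ = 1 := by
    have := hB
    rwa [Matrix.mem_orthogonalGroup_iff] at this
  have hM : Bᵀ * A ∈ Matrix.orthogonalGroup (Fin (N + 1)) ℝ := mul_mem (transpose_mem hB) hA
  have he : ∀ i, (Bᵀ * A) i (Fin.last N) = if i = Fin.last N then 1 else 0 := by
    intro i
    rw [Matrix.mul_apply]
    simp only [hAB]
    rw [← Matrix.mul_apply, hBt, Matrix.one_apply]
  obtain ⟨K, hK, hKe⟩ := exists_ext hM he
  refine ⟨K, hK, ?_⟩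
  rw [← hKe, ← Matrix.mul_assoc, hBt', Matrix.one_mul]

/-- the coupled matrix -/
noncomputable def cplS (V : Mat (Fin N)) (G : Fin (N + 1) → ℝ) : Mat (Fin (N + 1)) :=
  fun i j => (Qs (un G) * Matrix.of (ext V)) i j

theorem measurable_sg : Measurable (fun G : Fin (N + 1) → ℝ => sg (un G)) := by
  unfold sg
  exact Measurable.ite (measurableSet_le (measurable_un _) measurable_const) measurable_const
    measurable_const

theorem measurable_Qs (i j : Fin (N + 1)) :
    Measurable (fun G : Fin (N + 1) → ℝ => Qs (un G) i j) := by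
  unfold Qs
  simp only [Matrix.mul_diagonal, Hh, Matrix.of_apply, hw]
  have h1 := measurable_un (N := N)
  have h2 := measurable_sg (N := N)
  have h3 : Measurable (fun G : Fin (N + 1) → ℝ => if j = Fin.last N then sg (un G) else 1) := by
    split_ifs
    · exact h2
    · exact measurable_const
  have h4 : ∀ k, Measurable (fun G : Fin (N + 1) → ℝ => sg (un G) * un G k) :=
    fun k => h2.mul (h1 k)
  have h5 : ∀ k, Measurable (fun G : Fin (N + 1) → ℝ =>
      sg (un G) * un G k - if k = Fin.last N then 1 else 0) := fun k => (h4 k).sub_const _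
  exact ((measurable_const.sub (((measurable_const.sub (h4 _)).inv).mul
    ((h5 i).mul (h5 j)))).mul h3)

theorem measurable_cplS :
    Measurable (fun p : Mat (Fin N) × (Fin (N + 1) → ℝ) => cplS p.1 p.2) := by
  refine measurable_pi_lambda _ fun i => measurable_pi_lambda _ fun j => ?_
  unfold cplS
  simp only [Matrix.mul_apply, Matrix.of_apply]
  refine Finset.measurable_sum _ fun k _ => ?_
  refine ((measurable_Qs i k).comp measurable_snd).mul ?_
  have h1 : Measurable (fun V : Mat (Fin N) => ext V k j) :=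
    (measurable_pi_apply j).comp ((measurable_pi_apply k).comp continuous_ext.measurable)
  exact h1.comp measurable_fst

theorem lmul_cplS {O : Matrix (Fin (N + 1)) (Fin (N + 1)) ℝ}
    (hO : O ∈ Matrix.orthogonalGroup (Fin (N + 1)) ℝ) {G : Fin (N + 1) → ℝ} (hG : nrm G ≠ 0) :
    ∃ K : Matrix (Fin N) (Fin N) ℝ, K ∈ Matrix.orthogonalGroup (Fin N) ℝ ∧
      ∀ V : Mat (Fin N), lmul O (cplS V G) = cplS (lmul K V) (O.mulVec G) := by
  have h1 := sum_un hG
  have h2 : ∑ i, (O.mulVec (un G)) i ^ 2 = 1 := by rw [sum_mulVec_sq hO, h1]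
  obtain ⟨K, hK, hKe⟩ := exists_K' (mul_mem hO (Qs_mem h1)) (Qs_mem h2) (by
    intro i
    rw [Qs_last h2, Matrix.mul_apply]
    simp only [Qs_last h1]
    rfl)
  refine ⟨K, hK, fun V => ?_⟩
  have h3 : lmul O (cplS V G) = fun i j => (O * (Qs (un G) * Matrix.of (ext V))) i j := rfl
  rw [h3, ← Matrix.mul_assoc, hKe, Matrix.mul_assoc, ← un_mulVec hO G]
  have h4 := ext_mul (fun i j => K i j) V
  rw [h4]
  rfl

variable {μ : Measure (Mat (Fin N))} [IsProbabilityMeasure μ]

/-- the law of the coupled matrix -/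
noncomputable def cplSLaw (μ : Measure (Mat (Fin N))) : Measure (Mat (Fin (N + 1))) :=
  (μ.prod (gam (Fin (N + 1)))).map (fun p => cplS p.1 p.2)

instance isProb_cplSLaw : IsProbabilityMeasure (cplSLaw μ) :=
  Measure.isProbabilityMeasure_map measurable_cplS.aemeasurable

theorem cplS_mem {V : Mat (Fin N)} (hV : Matrix.of V ∈ Matrix.orthogonalGroup (Fin N) ℝ)
    {G : Fin (N + 1) → ℝ} (hG : nrm G ≠ 0) :
    Matrix.of (cplS V G) ∈ Matrix.orthogonalGroup (Fin (N + 1)) ℝ :=
  mul_mem (Qs_mem (sum_un hG)) (ext_mem hV)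

theorem cplS_lhaar (hμ : RHaar μ) : LHaar (cplSLaw μ) := by
  unfold cplSLaw
  refine ⟨?_, ?_⟩
  · rw [ae_map_iff measurable_cplS.aemeasurable measurableSet_orth]
    have h1 : ∀ᵐ p ∂(μ.prod (gam (Fin (N + 1)))), nrm p.2 ≠ 0 :=
      (Measure.quasiMeasurePreserving_snd).ae gam_nrm_ne_zero
    have h2 : ∀ᵐ p ∂(μ.prod (gam (Fin (N + 1)))),
        Matrix.of p.1 ∈ Matrix.orthogonalGroup (Fin N) ℝ :=
      (Measure.quasiMeasurePreserving_fst).ae hμ.mem
    filter_upwards [h1, h2] with p hp1 hp2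
    exact cplS_mem hp2 hp1
  · intro O hO
    rw [Measure.map_map (continuous_lmul O).measurable measurable_cplS]
    ext A hA
    rw [Measure.map_apply ((continuous_lmul O).measurable.comp measurable_cplS) hA,
      Measure.map_apply measurable_cplS hA,
      Measure.prod_apply_symm (((continuous_lmul O).measurable.comp measurable_cplS) hA),
      Measure.prod_apply_symm (measurable_cplS hA)]
    set F : (Fin (N + 1) → ℝ) → ENNReal := fun G => μ ((fun V => (V, G)) ⁻¹'
      ((fun p : Mat (Fin N) × (Fin (N + 1) → ℝ) => cplS p.1 p.2) ⁻¹' A)) with hF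
    have hFm : Measurable F := measurable_measure_prodMk_right (measurable_cplS hA)
    have h1 : ∀ᵐ G ∂(gam (Fin (N + 1))), μ ((fun V => (V, G)) ⁻¹'
        ((lmul O ∘ fun p : Mat (Fin N) × (Fin (N + 1) → ℝ) => cplS p.1 p.2) ⁻¹' A)) =
        F (O.mulVec G) := by
      filter_upwards [gam_nrm_ne_zero] with G hG
      obtain ⟨K, hK, hKe⟩ := lmul_cplS hO hG
      have h2 : ((fun V => (V, G)) ⁻¹'
          ((lmul O ∘ fun p : Mat (Fin N) × (Fin (N + 1) → ℝ) => cplS p.1 p.2) ⁻¹' A)) =
          lmul K ⁻¹' ((fun V => (V, O.mulVec G)) ⁻¹'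
            ((fun p : Mat (Fin N) × (Fin (N + 1) → ℝ) => cplS p.1 p.2) ⁻¹' A)) := by
        ext V
        simp only [Set.mem_preimage, Function.comp_apply, hKe]
      have hS : MeasurableSet ((fun V => (V, O.mulVec G)) ⁻¹'
            ((fun p : Mat (Fin N) × (Fin (N + 1) → ℝ) => cplS p.1 p.2) ⁻¹' A)) :=
        measurable_prodMk_right (measurable_cplS hA)
      rw [h2, ← Measure.map_apply (continuous_lmul K).measurable hS, hμ.left.inv K hK]
    rw [lintegral_congr_ae h1]
    have h3 : ∫⁻ G, F (O.mulVec G) ∂(gam (Fin (N + 1))) =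
        ∫⁻ G, F G ∂((gam (Fin (N + 1))).map (fun x => O.mulVec x)) :=
      (lintegral_map hFm (continuous_mulVec O).measurable).symm
    rw [h3, gam_rot hO]

/-- **The coupling** with the stable sign. -/
theorem cplS_law (hμ : RHaar μ) {ν : Measure (Mat (Fin (N + 1)))} [IsProbabilityMeasure ν]
    (hν : RHaar ν) : cplSLaw μ = ν :=
  (cplS_lhaar hμ).right.unique hν

theorem cplS_integral {E : Type*} [NormedAddCommGroup E] [NormedSpace ℝ E]
    (hμ : RHaar μ) {ν : Measure (Mat (Fin (N + 1)))} [IsProbabilityMeasure ν]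
    (hν : RHaar ν) (f : Mat (Fin (N + 1)) → E) (hf : AEStronglyMeasurable f ν) :
    ∫ U, f U ∂ν = ∫ p, f (cplS p.1 p.2) ∂(μ.prod (gam (Fin (N + 1)))) := by
  rw [← cplS_law hμ hν] at hf ⊢
  exact integral_map measurable_cplS.aemeasurable hf

/-! ### coordinates and energy -/

/-- `r = 1/(1+|u_e|)` -/
noncomputable def rr (G : Fin (N + 1) → ℝ) : ℝ := (1 + |un G (Fin.last N)|)⁻¹

theorem rr_mem (G : Fin (N + 1) → ℝ) (hG : nrm G ≠ 0) : 1 / 2 ≤ rr G ∧ rr G ≤ 1 := by
  unfold rr
  have h0 : |un G (Fin.last N)| ≤ 1 := by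
    have h1 := sum_un hG
    have h2 : un G (Fin.last N) ^ 2 ≤ ∑ i, un G i ^ 2 :=
      Finset.single_le_sum (f := fun i => un G i ^ 2) (fun i _ => sq_nonneg _) (Finset.mem_univ _)
    rw [h1] at h2
    rw [abs_le_one_iff_mul_self_le_one]
    nlinarith
  have h1 := abs_nonneg (un G (Fin.last N))
  constructor
  · rw [one_div]
    apply inv_anti₀ (by positivity)
    linarith
  · exact inv_le_one_of_one_le₀ (by linarith)

theorem cplS_mulVec {G : Fin (N + 1) → ℝ} (V : Mat (Fin N))
    (s : Fin (N + 1) → ℝ) :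
    (Matrix.of (cplS V G)).mulVec s = (Hh (fun i => sg (un G) * un G i)).mulVec
      (fun i => if i = Fin.last N then sg (un G) * s (Fin.last N)
        else (Matrix.of (ext V)).mulVec s i) := by
  have h1 : (Matrix.of (cplS V G)).mulVec s =
      (Hh (fun i => sg (un G) * un G i)).mulVec
        ((Matrix.diagonal (fun i => if i = Fin.last N then sg (un G) else 1)).mulVec
          ((Matrix.of (ext V)).mulVec s)) := by
    rw [Matrix.mulVec_mulVec, Matrix.mulVec_mulVec]; rfl
  rw [h1]
  congr 1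
  funext i
  rw [Matrix.mulVec_diagonal]
  by_cases h : i = Fin.last N
  · subst h
    simp only [if_true, ext_mulVec_last]
  · simp only [if_neg h, one_mul]

theorem cplS_mulVec_castSucc {G : Fin (N + 1) → ℝ} (hG : nrm G ≠ 0) (V : Mat (Fin N))
    (s : Fin (N + 1) → ℝ) (i : Fin N) :
    (Matrix.of (cplS V G)).mulVec s i.castSucc =
      (Matrix.of V).mulVec (fun j => s j.castSucc) i + un G i.castSucc *
        (s (Fin.last N) - rr G * gz G ((Matrix.of V).mulVec (fun j => s j.castSucc))) := by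
  rw [cplS_mulVec]
  set x := (Matrix.of V).mulVec (fun j => s j.castSucc) with hx
  set τ := sg (un G) with hτ
  have hττ : τ * τ = 1 := sg_mul_self _
  have hu := sum_sg (sum_un hG)
  have h2 : (Hh (fun i => τ * un G i)).mulVec
      (fun i => if i = Fin.last N then τ * s (Fin.last N)
        else (Matrix.of (ext V)).mulVec s i) i.castSucc =
      ∑ j : Fin N, Hh (fun i => τ * un G i) i.castSucc j.castSucc * x j +
        Hh (fun i => τ * un G i) i.castSucc (Fin.last N) * (τ * s (Fin.last N)) := by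
    simp only [Matrix.mulVec, dotProduct]
    rw [Fin.sum_univ_castSucc]
    congr 1
    · refine Finset.sum_congr rfl fun j _ => ?_
      congr 1
      have h5 : j.castSucc ≠ Fin.last N := (Fin.castSucc_lt_last j).ne
      rw [if_neg h5]
      exact ext_mulVec_castSucc V s j
    · rw [if_pos rfl]
  rw [h2, Hh_last hu]
  have hlast : (1 - τ * un G (Fin.last N))⁻¹ = rr G := by
    unfold rr
    rw [hτ, sg_mul_last]
    congr 1
    ring
  have h3 : ∀ j : Fin N, Hh (fun i => τ * un G i) i.castSucc j.castSucc * x j =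
      (if i = j then x j else 0) - rr G * un G i.castSucc * (un G j.castSucc * x j) := by
    intro j
    simp only [Hh, Matrix.of_apply, hw, Fin.castSucc_ne_last, if_false, sub_zero,
      Fin.castSucc_inj, hlast]
    have : rr G * (τ * un G i.castSucc * (τ * un G j.castSucc)) * x j =
        (τ * τ) * (rr G * un G i.castSucc * (un G j.castSucc * x j)) := by ring
    rw [sub_mul, this, hττ]
    split_ifs <;> ring
  simp only [h3, Finset.sum_sub_distrib, Finset.sum_ite_eq, Finset.mem_univ, if_true,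
    ← Finset.mul_sum]
  unfold gz
  have : τ * un G i.castSucc * (τ * s (Fin.last N)) = (τ * τ) * (un G i.castSucc * s (Fin.last N)) := by
    ring
  rw [this, hττ]
  ring

theorem cplS_mulVec_last {G : Fin (N + 1) → ℝ} (hG : nrm G ≠ 0) (V : Mat (Fin N))
    (s : Fin (N + 1) → ℝ) :
    (Matrix.of (cplS V G)).mulVec s (Fin.last N) =
      sg (un G) * gz G ((Matrix.of V).mulVec (fun j => s j.castSucc)) +
        un G (Fin.last N) * s (Fin.last N) := by
  rw [cplS_mulVec]
  set x := (Matrix.of V).mulVec (fun j => s j.castSucc) with hx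
  set τ := sg (un G) with hτ
  have hττ : τ * τ = 1 := sg_mul_self _
  have hu := sum_sg (sum_un hG)
  have h2 : (Hh (fun i => τ * un G i)).mulVec
      (fun i => if i = Fin.last N then τ * s (Fin.last N)
        else (Matrix.of (ext V)).mulVec s i) (Fin.last N) =
      ∑ j : Fin N, Hh (fun i => τ * un G i) (Fin.last N) j.castSucc * x j +
        Hh (fun i => τ * un G i) (Fin.last N) (Fin.last N) * (τ * s (Fin.last N)) := by
    simp only [Matrix.mulVec, dotProduct]
    rw [Fin.sum_univ_castSucc]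
    congr 1
    · refine Finset.sum_congr rfl fun j _ => ?_
      congr 1
      have h5 : j.castSucc ≠ Fin.last N := (Fin.castSucc_lt_last j).ne
      rw [if_neg h5]
      exact ext_mulVec_castSucc V s j
    · rw [if_pos rfl]
  rw [h2, Hh_last hu]
  have h4 : ∀ j : Fin N, Hh (fun i => τ * un G i) (Fin.last N) j.castSucc =
      τ * un G j.castSucc := by
    intro j
    have h5 := congrFun (congrFun (Hh_symm (fun i => τ * un G i)) j.castSucc) (Fin.last N)
    rw [Matrix.transpose_apply] at h5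
    rw [h5, Hh_last hu]
  simp only [h4]
  unfold gz
  rw [Finset.mul_sum]
  have : τ * un G (Fin.last N) * (τ * s (Fin.last N)) =
      (τ * τ) * (un G (Fin.last N) * s (Fin.last N)) := by ring
  rw [this, hττ, one_mul]
  congr 1
  exact Finset.sum_congr rfl fun j _ => by ring

/-- **The energy under the coupling** (exact). -/
theorem cplS_energy {G : Fin (N + 1) → ℝ} (hG : nrm G ≠ 0) (V : Mat (Fin N))
    (e : Fin (N + 1) → ℝ) (s : Fin (N + 1) → ℝ) :
    (1 / 2) * ∑ i, e i * ((Matrix.of (cplS V G)).mulVec s i) ^ 2 =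
      (1 / 2) * ∑ i : Fin N, e i.castSucc *
        ((Matrix.of V).mulVec (fun j => s j.castSucc) i) ^ 2 +
      ((s (Fin.last N) - rr G * gz G ((Matrix.of V).mulVec (fun j => s j.castSucc))) *
        gk G (fun i => e i.castSucc) ((Matrix.of V).mulVec (fun j => s j.castSucc)) +
      (1 / 2) * (s (Fin.last N) - rr G * gz G ((Matrix.of V).mulVec (fun j => s j.castSucc))) ^ 2 *
        (∑ i : Fin N, e i.castSucc * un G i.castSucc ^ 2) +
      (1 / 2) * e (Fin.last N) * (sg (un G) * gz G ((Matrix.of V).mulVec (fun j => s j.castSucc)) +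
        un G (Fin.last N) * s (Fin.last N)) ^ 2) := by
  rw [Fin.sum_univ_castSucc, cplS_mulVec_last hG]
  simp only [cplS_mulVec_castSucc hG]
  set x := (Matrix.of V).mulVec (fun j => s j.castSucc) with hx
  set a := s (Fin.last N) - rr G * gz G x with ha
  have h1 : ∀ i : Fin N, e i.castSucc * (x i + un G i.castSucc * a) ^ 2 =
      e i.castSucc * x i ^ 2 + 2 * a * (e i.castSucc * un G i.castSucc * x i) +
        a ^ 2 * (e i.castSucc * un G i.castSucc ^ 2) := fun i => by ring
  simp only [h1, Finset.sum_add_distrib, ← Finset.mul_sum]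
  unfold gk
  ring

end Crest.Agent.R164.Haar
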