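import Crest.Agent.R164.Sys164
import Crest.Agent.R164.PFil
import Crest.Agent.R164.EDa
import Crest.Agent.R164.HaarCpl2
import Crest.Agent.R141.F4c

/-!
# Row 164, L side, module E-DIFF part b (helper562): the `(N+1)`-system as the `N`-system times the
last site
-/

set_option autoImplicit false

namespace Crest.Agent.R164.ED

open Finset Crest.Agent.R141 Crest.Agent.R164 Crest.Agent.R164.PF

noncomputable section

/-- base system over all configurations -/
abbrev BU (p : Par) (N n : ℕ) : G.Base p N :=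
  SY.base p n (univ : Finset (Fin N → Bool)) univ_nonempty

/-- enriched configurations over all configurations -/
abbrev OU (p : Par) (N n : ℕ) : Type := G.Om (BU p N n)

/-! ### coins of one site -/

/-- coins of one site, one family -/
abbrev LC (p : Par) (n : ℕ) : Type := Fin p.nc → Fin n → Bool

/-- coins of one site: main, small -/
abbrev LS (p : Par) (n : ℕ) : Type := LC p n × LC p n

variable {p : Par} {N n : ℕ}

/-- agreement of all coins revealed at steps `≤ k` -/
def lsr (p : Par) (n k : ℕ) (l l' : LS p n) : Prop :=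
  (∀ g : Fin p.nc, p.mt g ≤ k → l.1 g = l'.1 g) ∧
  (∀ g : Fin p.nc, p.mt g ≤ k → l.2 g = l'.2 g)

theorem lsr_equiv (k : ℕ) : Equivalence (lsr p n k) where
  refl _ := ⟨fun _ _ => rfl, fun _ _ => rfl⟩
  symm h := ⟨fun g hg => (h.1 g hg).symm, fun g hg => (h.2 g hg).symm⟩
  trans h h' := ⟨fun g hg => (h.1 g hg).trans (h'.1 g hg), fun g hg => (h.2 g hg).trans (h'.2 g hg)⟩

/-- filtration of the coins of one site -/
def lsF (p : Par) (n : ℕ) : Filt (LS p n) where
  F k := ⟨lsr p n k, lsr_equiv k⟩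
  anti k := by
    intro l l' h
    have h : lsr p n (k + 1) l l' := h
    exact ⟨fun g hg => h.1 g (by omega), fun g hg => h.2 g (by omega)⟩
  L := p.L
  bot k hk := by
    ext l l'
    constructor
    · intro h
      have h : lsr p n k l l' := h
      refine Prod.ext (funext fun g => h.1 g ?_) (funext fun g => h.2 g ?_)
      · exact ((p.mt_lt_L g.2).le).trans hk
      · exact ((p.mt_lt_L g.2).le).trans hk
    · intro h
      have h : l = l' := h
      subst h
      exact (lsr_equiv k).refl l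

theorem lsF_rel {k : ℕ} {l l' : LS p n} : (lsF p n).F k l l' ↔ lsr p n k l l' := Iff.rfl

/-- uniform law of the coins of one site -/
def lsP (p : Par) (n : ℕ) : LS p n → ℝ := fun _ => (Fintype.card (LS p n) : ℝ)⁻¹

theorem lsP_isProb : IsProb (lsP p n) := by
  have h : (0 : ℝ) < (Fintype.card (LS p n) : ℝ) := by exact_mod_cast Fintype.card_pos
  constructor
  · intro _; exact inv_pos.2 h
  · simp only [lsP, Finset.sum_const, Finset.card_univ, nsmul_eq_mul]
    exact mul_inv_cancel₀ h.ne'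

/-- the field of one site -/
def zl (c : LC p n) (g : Fin p.nc) : ℝ := (Real.sqrt n)⁻¹ * ∑ t : Fin n, sv (c g t)

/-! ### glueing -/

/-- base configuration of the `(N+1)`-system -/
def glS (s : SY.SS p n (univ : Finset (Fin N → Bool))) (l : LS p n) (b : Bool) :
    SY.SS p n (univ : Finset (Fin (N + 1) → Bool)) :=
  (⟨Fin.snoc (α := fun _ => Bool) s.1.1 b, mem_univ _⟩,
    fun g => Fin.snoc (α := fun _ => Fin n → Bool) (s.2.1 g) (l.1 g),
    fun g => Fin.snoc (α := fun _ => Fin n → Bool) (s.2.2 g) (l.2 g))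

/-- enriched configuration of the `(N+1)`-system -/
def gl (hnb : p.nb = 0) (u : (OU p N n × LS p n) × Bool) : OU p (N + 1) n :=
  (glS u.1.1.1 u.1.2 u.2, (fun _ b => absurd b.2 (by omega), u.1.1.2.2))

/-- the first `N` sites -/
def rsO (hnb : p.nb = 0) (w : OU p (N + 1) n) : OU p N n :=
  ((⟨fun i => w.1.1.1 i.castSucc, mem_univ _⟩, fun g i => w.1.2.1 g i.castSucc,
    fun g i => w.1.2.2 g i.castSucc), (fun _ b => absurd b.2 (by omega), w.2.2))

/-- coins of the last site -/
def rsL (w : OU p (N + 1) n) : LS p n :=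
  (fun g => w.1.2.1 g (Fin.last N), fun g => w.1.2.2 g (Fin.last N))

/-- decomposition -/
def rs (hnb : p.nb = 0) (w : OU p (N + 1) n) : (OU p N n × LS p n) × Bool :=
  ((rsO hnb w, rsL w), w.1.1.1 (Fin.last N))

theorem lab_ext (hnb : p.nb = 0) {M : ℕ} (f f' : Fin M → Fin p.nb → Fin p.nc → Fin p.Q) :
    f = f' := by
  funext i b
  exact absurd b.2 (by omega)

theorem gl_rs (hnb : p.nb = 0) (w : OU p (N + 1) n) : gl hnb (rs hnb w) = w := by
  refine Prod.ext (Prod.ext (Subtype.ext ?_) (Prod.ext ?_ ?_)) (Prod.ext (lab_ext hnb _ _) rfl)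
  · funext i
    refine Fin.lastCases ?_ (fun j => ?_) i
    · show Fin.snoc (α := fun _ => Bool) _ _ _ = _
      rw [Fin.snoc_last]; rfl
    · show Fin.snoc (α := fun _ => Bool) _ _ _ = _
      rw [Fin.snoc_castSucc]; rfl
  · funext g i
    refine Fin.lastCases ?_ (fun j => ?_) i
    · show Fin.snoc (α := fun _ => Fin n → Bool) _ _ _ = _
      rw [Fin.snoc_last]; rfl
    · show Fin.snoc (α := fun _ => Fin n → Bool) _ _ _ = _
      rw [Fin.snoc_castSucc]; rfl
  · funext g i
    refine Fin.lastCases ?_ (fun j => ?_) i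
    · show Fin.snoc (α := fun _ => Fin n → Bool) _ _ _ = _
      rw [Fin.snoc_last]; rfl
    · show Fin.snoc (α := fun _ => Fin n → Bool) _ _ _ = _
      rw [Fin.snoc_castSucc]; rfl

theorem rs_gl (hnb : p.nb = 0) (u : (OU p N n × LS p n) × Bool) : rs hnb (gl hnb u) = u := by
  refine Prod.ext (Prod.ext (Prod.ext (Prod.ext (Subtype.ext ?_) (Prod.ext ?_ ?_))
    (Prod.ext (lab_ext hnb _ _) rfl)) (Prod.ext ?_ ?_)) ?_
  · funext i
    show Fin.snoc (α := fun _ => Bool) _ _ _ = _
    rw [Fin.snoc_castSucc]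
  · funext g i
    show Fin.snoc (α := fun _ => Fin n → Bool) _ _ _ = _
    rw [Fin.snoc_castSucc]
  · funext g i
    show Fin.snoc (α := fun _ => Fin n → Bool) _ _ _ = _
    rw [Fin.snoc_castSucc]
  · funext g
    show Fin.snoc (α := fun _ => Fin n → Bool) _ _ _ = _
    rw [Fin.snoc_last]
  · funext g
    show Fin.snoc (α := fun _ => Fin n → Bool) _ _ _ = _
    rw [Fin.snoc_last]
  · show Fin.snoc (α := fun _ => Bool) _ _ _ = _
    rw [Fin.snoc_last]

/-- the decomposition as an equivalence -/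
def glE (hnb : p.nb = 0) : OU p (N + 1) n ≃ (OU p N n × LS p n) × Bool where
  toFun := rs hnb
  invFun := gl hnb
  left_inv := gl_rs hnb
  right_inv := rs_gl hnb

theorem prior_eq (M : ℕ) (w : OU p M n) :
    G.prior (BU p M n) w = (Fintype.card (OU p M n) : ℝ)⁻¹ := by
  have h : Fintype.card (OU p M n) = Fintype.card (SY.SS p n (univ : Finset (Fin M → Bool))) *
      Fintype.card (G.Lab p M) := Fintype.card_prod _ _
  rw [h]
  push_cast
  rw [mul_inv]
  rfl

theorem glIso (hnb : p.nb = 0) : Iso (glE (N := N) (n := n) hnb) (G.prior (BU p (N + 1) n))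
    (pP (pP (G.prior (BU p N n)) (lsP p n)) uB) (G.fil (BU p (N + 1) n))
    (lfil (pfil (G.fil (BU p N n)) (lsF p n) rfl)) where
  prob w := by
    have h1 := prior_eq (n := n) (N + 1) w
    have h2 := prior_eq (n := n) N (rs hnb w).1.1
    rw [h1]
    have h3 := Fintype.card_congr (glE (N := N) (n := n) hnb)
    rw [h3]
    show G.prior (BU p N n) (rs hnb w).1.1 * lsP p n (rs hnb w).1.2 * uB (rs hnb w).2 = _
    rw [h2]
    have h4 : Fintype.card ((OU p N n × LS p n) × Bool) =
        Fintype.card (OU p N n) * Fintype.card (LS p n) * 2 := by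
      have e1 : Fintype.card ((OU p N n × LS p n) × Bool) =
        Fintype.card (OU p N n × LS p n) * Fintype.card Bool := Fintype.card_prod _ _
      have e2 : Fintype.card (OU p N n × LS p n) =
        Fintype.card (OU p N n) * Fintype.card (LS p n) := Fintype.card_prod _ _
      rw [e1, e2, Fintype.card_bool]
    unfold lsP uB
    rw [h4, Nat.cast_mul, Nat.cast_mul, mul_inv, mul_inv]
    norm_num
  rel k a b := by
    constructor
    · intro h
      have h1 : G.frel (BU p N n) k (rsO hnb a) (rsO hnb b) := h.1.1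
      have h2 : lsr p n k (rsL a) (rsL b) := h.1.2
      have h3 : (lastFil Bool p.L).F k (a.1.1.1 (Fin.last N)) (b.1.1.1 (Fin.last N)) := h.2
      show G.frel (BU p (N + 1) n) k a b
      refine ⟨fun i bb => absurd bb.2 (by omega), h1.2.1, ?_, ?_, ?_⟩
      · intro g hg
        funext i
        refine Fin.lastCases ?_ (fun j => ?_) i
        · exact h2.1 g hg
        · exact congrFun (h1.2.2.1 g hg) j
      · intro g hg
        funext i
        refine Fin.lastCases ?_ (fun j => ?_) i
        · exact h2.2 g hg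
        · exact congrFun (h1.2.2.2.1 g hg) j
      · intro hL
        apply Subtype.ext
        funext i
        refine Fin.lastCases ?_ (fun j => ?_) i
        · have h4 : (lastFil Bool p.L).F k = ⊥ := (lastFil Bool p.L).bot k hL
          rw [h4] at h3
          exact h3
        · exact congrFun (Subtype.ext_iff.1 (h1.2.2.2.2 hL)) j
    · intro h
      have h : G.frel (BU p (N + 1) n) k a b := h
      refine ⟨⟨?_, ?_⟩, ?_⟩
      · show G.frel (BU p N n) k (rsO hnb a) (rsO hnb b)
        refine ⟨fun i bb => absurd bb.2 (by omega), h.2.1, ?_, ?_, ?_⟩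
        · intro g hg
          funext j
          exact congrFun (h.2.2.1 g hg) j.castSucc
        · intro g hg
          funext j
          exact congrFun (h.2.2.2.1 g hg) j.castSucc
        · intro hL
          apply Subtype.ext
          funext j
          exact congrFun (Subtype.ext_iff.1 (h.2.2.2.2 hL)) j.castSucc
      · show lsr p n k (rsL a) (rsL b)
        refine ⟨fun g hg => ?_, fun g hg => ?_⟩
        · exact congrFun (h.2.2.1 g hg) (Fin.last N)
        · exact congrFun (h.2.2.2.1 g hg) (Fin.last N)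
      · show (lastFil Bool p.L).F k (a.1.1.1 (Fin.last N)) (b.1.1.1 (Fin.last N))
        by_cases hL : p.L ≤ k
        · have h4 : (lastFil Bool p.L).F k = ⊥ := (lastFil Bool p.L).bot k hL
          rw [h4]
          exact congrFun (Subtype.ext_iff.1 (h.2.2.2.2 hL)) (Fin.last N)
        · rw [lastFil_F_lt (not_le.1 hL)]
          trivial
  len := rfl

/-! ### spin and field values of the glued configuration -/

theorem zf_gl_last (s : SY.SS p n (univ : Finset (Fin N → Bool))) (l : LS p n) (b : Bool)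
    (g : Fin p.nc) : SY.zf (glS s l b).2.1 g (Fin.last N) = zl l.1 g := by
  unfold SY.zf zl glS
  simp only [Fin.snoc_last]

theorem zf_gl_castSucc (s : SY.SS p n (univ : Finset (Fin N → Bool))) (l : LS p n) (b : Bool)
    (g : Fin p.nc) (i : Fin N) : SY.zf (glS s l b).2.1 g i.castSucc = SY.zf s.2.1 g i := by
  unfold SY.zf glS
  simp only [Fin.snoc_castSucc]

theorem zf_gl2_last (s : SY.SS p n (univ : Finset (Fin N → Bool))) (l : LS p n) (b : Bool)
    (g : Fin p.nc) : SY.zf (glS s l b).2.2 g (Fin.last N) = zl l.2 g := by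
  unfold SY.zf zl glS
  simp only [Fin.snoc_last]

theorem zf_gl2_castSucc (s : SY.SS p n (univ : Finset (Fin N → Bool))) (l : LS p n) (b : Bool)
    (g : Fin p.nc) (i : Fin N) : SY.zf (glS s l b).2.2 g i.castSucc = SY.zf s.2.2 g i := by
  unfold SY.zf glS
  simp only [Fin.snoc_castSucc]

theorem spin_gl_last (s : SY.SS p n (univ : Finset (Fin N → Bool))) (l : LS p n) (b : Bool) :
    (glS s l b).1.1 (Fin.last N) = b := by
  unfold glS
  simp only [Fin.snoc_last]

theorem spin_gl_castSucc (s : SY.SS p n (univ : Finset (Fin N → Bool))) (l : LS p n) (b : Bool)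
    (i : Fin N) : (glS s l b).1.1 i.castSucc = s.1.1 i := by
  unfold glS
  simp only [Fin.snoc_castSucc]

/-! ### the log-weight of the step -/

/-- the increment of the Hamiltonian -/
def xw (H0 : SY.SS p n (univ : Finset (Fin N → Bool)) → ℝ)
    (H1 : SY.SS p n (univ : Finset (Fin (N + 1) → Bool)) → ℝ)
    (u : (OU p N n × LS p n) × Bool) : ℝ := H1 (glS u.1.1.1 u.1.2 u.2) - H0 u.1.1.1

/-- the log-weight of the step, after averaging over the last spin -/
def Xr (H0 : SY.SS p n (univ : Finset (Fin N → Bool)) → ℝ)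
    (H1 : SY.SS p n (univ : Finset (Fin (N + 1) → Bool)) → ℝ) : OU p N n × LS p n → ℝ :=
  redB (xw H0 H1)

/-- filtration of the `N`-system times the coins of the new site -/
def stF (p : Par) (N n : ℕ) : Filt (OU p N n × LS p n) :=
  pfil (G.fil (BU p N n)) (lsF p n) rfl

/-- law of the `N`-system times the coins of the new site -/
def stP (p : Par) (N n : ℕ) (H0 : SY.SS p n (univ : Finset (Fin N → Bool)) → ℝ) (d : DD p N) :
    OU p N n × LS p n → ℝ := pP (G.PP (BU p N n) H0 d) (lsP p n)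

theorem stP_isProb (H0 : SY.SS p n (univ : Finset (Fin N → Bool)) → ℝ) (d : DD p N) :
    IsProb (stP p N n H0 d) := pP_isProb (G.PP_isProb _ _ _) lsP_isProb

theorem cfac_gl (hnb : p.nb = 0) (o : Option (Crd p N)) (k : Stp p)
    (u : (OU p N n × LS p n) × Bool) :
    G.cfac (BU p (N + 1) n) (F4.liftO p N o) k (gl hnb u) = G.cfac (BU p N n) o k u.1.1 := by
  rcases o with _ | ⟨i, _ | b⟩
  · rfl
  · show p.τ * ((if (gl hnb u).2.2 k.1 k.2 = true then 1 else 0) *
      G.cv (BU p (N + 1) n) (i.castSucc, none) (gl hnb u)) =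
      p.τ * ((if u.1.1.2.2 k.1 k.2 = true then 1 else 0) * G.cv (BU p N n) (i, none) u.1.1)
    rw [G.cv_none, G.cv_none]
    have h : (BU p (N + 1) n).f i.castSucc (gl hnb u).1 = (BU p N n).f i u.1.1.1 :=
      congrArg sv (spin_gl_castSucc u.1.1.1 u.1.2 u.2 i)
    rw [h]
    rfl
  · exact absurd b.2 (by omega)

theorem WW_gl (hnb : p.nb = 0) (d : DD p N) (u : (OU p N n × LS p n) × Bool) :
    G.WW (BU p (N + 1) n) (F4.liftD p N d) (gl hnb u) = G.WW (BU p N n) d u.1.1 := by
  unfold G.WW
  have : IsEmpty (Fin p.nb) := by rw [hnb]; infer_instance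
  simp only [Finset.univ_eq_empty, Finset.sum_empty, Finset.sum_const_zero, zero_add]
  exact Finset.sum_congr rfl fun k _ => cfac_gl hnb (d k) k u

theorem UU_gl (hnb : p.nb = 0) (H0 : SY.SS p n (univ : Finset (Fin N → Bool)) → ℝ)
    (H1 : SY.SS p n (univ : Finset (Fin (N + 1) → Bool)) → ℝ) (d : DD p N)
    (u : (OU p N n × LS p n) × Bool) :
    G.UU (BU p (N + 1) n) H1 (F4.liftD p N d) (gl hnb u) =
      G.UU (BU p N n) H0 d u.1.1 + xw H0 H1 u := by
  unfold G.UU xw
  rw [WW_gl]
  show H1 (glS u.1.1.1 u.1.2 u.2) + _ = _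
  ring

theorem redB_add {Ω' : Type*} (f : Ω' → ℝ) (U : Ω' × Bool → ℝ) (ω : Ω') :
    redB (fun u => f u.1 + U u) ω = f ω + redB U ω := by
  have h1 : Real.exp (redB (fun u => f u.1 + U u) ω) = Real.exp (f ω + redB U ω) := by
    rw [Real.exp_add, exp_redB, exp_redB, Real.exp_add, Real.exp_add]
    ring
  exact Real.exp_injective h1

theorem lt_L : 0 < p.L := by unfold Par.L; omega

theorem xs_L : p.xs p.L = 1 := p.xs_last le_rfl

variable (H0 : SY.SS p n (univ : Finset (Fin N → Bool)) → ℝ)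
  (H1 : SY.SS p n (univ : Finset (Fin (N + 1) → Bool)) → ℝ)

omit H1 in
theorem stP_eq (d : DD p N) : tl (pP (G.prior (BU p N n)) (lsP p n)) (stF p N n) p.xs
    (fun w => G.UU (BU p N n) H0 d w.1) = stP p N n H0 d :=
  tl_prod_fst (𝓕 := G.fil (BU p N n)) (𝓖 := lsF p n) rfl (G.prior_isProb (BU p N n)) lsP_isProb
    p.xs_expo.pos (G.UU (BU p N n) H0 d)

theorem redB_UU (hnb : p.nb = 0) (d : DD p N) :
    redB (fun u => G.UU (BU p (N + 1) n) H1 (F4.liftD p N d) (gl hnb u)) =
      fun w => G.UU (BU p N n) H0 d w.1 + Xr H0 H1 w := by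
  funext w
  have h1 : (fun u => G.UU (BU p (N + 1) n) H1 (F4.liftD p N d) (gl hnb u)) =
      fun u => (fun w : OU p N n × LS p n => G.UU (BU p N n) H0 d w.1) u.1 + xw H0 H1 u := by
    funext u
    exact UU_gl hnb H0 H1 d u
  rw [h1, redB_add (fun w : OU p N n × LS p n => G.UU (BU p N n) H0 d w.1)]
  rfl

theorem UU_glE (hnb : p.nb = 0) (d : DD p N) :
    G.UU (BU p (N + 1) n) H1 (F4.liftD p N d) = fun w =>
      (fun u => G.UU (BU p (N + 1) n) H1 (F4.liftD p N d) (gl hnb u)) (glE hnb w) := by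
  funext w
  show _ = G.UU (BU p (N + 1) n) H1 (F4.liftD p N d) (gl hnb (rs hnb w))
  rw [gl_rs]

/-- exact formula for the increment of the free energy -/
theorem Phi_gl (hnb : p.nb = 0) (d : DD p N) :
    G.Phi (BU p (N + 1) n) H1 (F4.liftD p N d) = G.Phi (BU p N n) H0 d +
      aE (stP p N n H0 d) (stF p N n) p.xs (Xr H0 H1) := by
  have hx := p.xs_expo.pos
  have hP0 := G.prior_isProb (BU p N n)
  have hP1 := G.prior_isProb (BU p (N + 1) n)
  have hPL : IsProb (pP (G.prior (BU p N n)) (lsP p n)) := pP_isProb hP0 lsP_isProb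
  have hPB := pP_isProb hPL uB_isProb
  have e0 := UU_glE H1 hnb d
  have e2 := redB_UU H0 H1 hnb d
  set U : (OU p N n × LS p n) × Bool → ℝ := fun u => G.UU (BU p (N + 1) n) H1 (F4.liftD p N d)
    (gl hnb u) with hU
  have e1 : G.Phi (BU p (N + 1) n) H1 (F4.liftD p N d) =
      eE (pP (G.prior (BU p N n)) (lsP p n)) (A (pP (G.prior (BU p N n)) (lsP p n))
        (stF p N n) p.xs (redB U) 0) := by
    unfold G.Phi
    rw [e0]
    have h1 : A (G.prior (BU p (N + 1) n)) (G.fil (BU p (N + 1) n)) p.xs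
        (fun w => U (glE hnb w)) 0 = fun w => A (pP (pP (G.prior (BU p N n)) (lsP p n)) uB)
          (lfil (stF p N n)) p.xs U 0 (glE hnb w) := by
      funext w
      exact (glIso hnb).A hP1 hPB hx U 0 w
    rw [h1, eE_equiv (glE hnb) (P := pP (pP (G.prior (BU p N n)) (lsP p n)) uB)
      (fun w => (glIso hnb).prob w) (A (pP (pP (G.prior (BU p N n)) (lsP p n)) uB)
          (lfil (stF p N n)) p.xs U 0)]
    have h2 : A (pP (pP (G.prior (BU p N n)) (lsP p n)) uB)
          (lfil (stF p N n)) p.xs U 0 = fun u => A (pP (G.prior (BU p N n)) (lsP p n))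
        (stF p N n) p.xs (redB U) 0 u.1 := by
      funext u
      exact A_last (𝓕 := stF p N n) hPL hx xs_L U lt_L u
    rw [h2, eE_prod_fst uB_isProb (A (pP (G.prior (BU p N n)) (lsP p n))
        (stF p N n) p.xs (redB U) 0)]
  have e3 : A (pP (G.prior (BU p N n)) (lsP p n)) (stF p N n) p.xs (redB U) 0 = fun w =>
      A (G.prior (BU p N n)) (G.fil (BU p N n)) p.xs (G.UU (BU p N n) H0 d) 0 w.1 +
        A (stP p N n H0 d) (stF p N n) p.xs (Xr H0 H1) 0 w := by
    funext w
    rw [e2, A_cocycle (𝓕 := stF p N n) hPL hx (fun w => G.UU (BU p N n) H0 d w.1) (Xr H0 H1) 0 w]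
    congr 1
    · exact A_prod_fst (𝓕 := G.fil (BU p N n)) (𝓖 := lsF p n) rfl hP0 lsP_isProb hx
        (G.UU (BU p N n) H0 d) 0 w
    · rw [stP_eq]
  rw [e1, e3, eE_add, eE_prod_fst lsP_isProb
    (A (G.prior (BU p N n)) (G.fil (BU p N n)) p.xs (G.UU (BU p N n) H0 d) 0)]
  unfold G.Phi aE
  congr 1
  have h4 := eE_tl_zero (𝓕 := stF p N n) hPL hx (fun w => G.UU (BU p N n) H0 d w.1)
    (A_meas (𝓕 := stF p N n) (stP_isProb H0 d) hx (Xr H0 H1) 0)
  rw [stP_eq] at h4
  exact h4.symm

/-- the tilted law of the step (on the `N`-system times the coins of the new site) -/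
def stQ (d : DD p N) : OU p N n × LS p n → ℝ := tl (stP p N n H0 d) (stF p N n) p.xs (Xr H0 H1)

theorem stQ_isProb (d : DD p N) : IsProb (stQ H0 H1 d) := tl_isProb (stP_isProb H0 d) p.xs_expo.pos _

/-- expectations under the `(N+1)`-system -/
theorem eE_gl (hnb : p.nb = 0) (d : DD p N) (O : OU p (N + 1) n → ℝ) :
    eE (G.PP (BU p (N + 1) n) H1 (F4.liftD p N d)) O =
      eE (stQ H0 H1 d) (fun w =>
        (Real.exp (xw H0 H1 (w, true) - Xr H0 H1 w) * O (gl hnb (w, true)) +
          Real.exp (xw H0 H1 (w, false) - Xr H0 H1 w) * O (gl hnb (w, false))) / 2) := by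
  have hx := p.xs_expo.pos
  have hP0 := G.prior_isProb (BU p N n)
  have hP1 := G.prior_isProb (BU p (N + 1) n)
  have hPL : IsProb (pP (G.prior (BU p N n)) (lsP p n)) := pP_isProb hP0 lsP_isProb
  have hPB := pP_isProb hPL uB_isProb
  have e0 := UU_glE H1 hnb d
  have e2 := redB_UU H0 H1 hnb d
  have e4 : ∀ u, G.UU (BU p (N + 1) n) H1 (F4.liftD p N d) (gl hnb u) =
      G.UU (BU p N n) H0 d u.1.1 + xw H0 H1 u := UU_gl hnb H0 H1 d
  set U : (OU p N n × LS p n) × Bool → ℝ := fun u => G.UU (BU p (N + 1) n) H1 (F4.liftD p N d)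
    (gl hnb u) with hU
  have h1 : eE (G.PP (BU p (N + 1) n) H1 (F4.liftD p N d)) O =
      eE (tl (pP (pP (G.prior (BU p N n)) (lsP p n)) uB) (lfil (stF p N n)) p.xs U)
        (fun u => O (gl hnb u)) := by
    unfold G.PP
    rw [e0]
    have h2 : O = fun w => (fun u => O (gl hnb u)) (glE hnb w) := by
      funext w
      show _ = O (gl hnb (rs hnb w))
      rw [gl_rs]
    conv_lhs => rw [h2]
    exact eE_equiv (glE hnb) (fun w => ((glIso hnb).tl hP1 hPB hx U w).symm)
      (fun u => O (gl hnb u))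
  have h2 : tl (pP (G.prior (BU p N n)) (lsP p n)) (stF p N n) p.xs (redB U) = stQ H0 H1 d := by
    rw [e2]
    have h3 := tl_add (𝓕 := stF p N n) hPL hx (fun w => G.UU (BU p N n) H0 d w.1) (Xr H0 H1)
    rw [stP_eq] at h3
    exact h3
  rw [h1, eE_tl_last (𝓕 := stF p N n) hPL hx xs_L lt_L, h2]
  congr 1
  funext w
  have h5 : ∀ b, U (w, b) - redB U w = xw H0 H1 (w, b) - Xr H0 H1 w := by
    intro b
    rw [e2]
    show G.UU (BU p (N + 1) n) H1 (F4.liftD p N d) (gl hnb (w, b)) - _ = _
    rw [e4]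
    ring
  rw [h5, h5]

end

end Crest.Agent.R164.ED
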