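import Crest.Agent.R164.RotRel

/-!
Row 164: the pair-averaged left-rotation relation, integrated form.

`rel_le`: `Rel a` is bounded by the disorder average of the concentration and purity errors.
`rel_spin`: the same with purity of the spins (the Frobenius norm of the covariance matrix is
invariant under `x = U s`).
-/

set_option autoImplicit false

namespace Crest.Agent.R164.RotRel

open Finset MeasureTheory Crest.Agent.R141 Crest.Agent.R164.Resp Crest.Agent.R164.Rot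

noncomputable section

variable {Ω : Type*} [Fintype Ω] {P : Ω → ℝ} {𝓕 : Filt Ω} {x : ℕ → ℝ} {N : ℕ}

/-- coordinates of `U s` as functions of `ω`. -/
def XU (s : Ω → Fin N → ℝ) (U : Fin N → Fin N → ℝ) (i : Fin N) (w : Ω) : ℝ := xc (s w) i U

/-- the tilted law for the matrix `U`. -/
def QU (P : Ω → ℝ) (𝓕 : Filt Ω) (x : ℕ → ℝ) (lam : Fin N → ℝ) (s : Ω → Fin N → ℝ) (H0 : Ω → ℝ)
    (U : Fin N → Fin N → ℝ) : Ω → ℝ := tl P 𝓕 x (HU lam s H0 U)

theorem QU_isProb (hP : IsProb P) (hx : IsExpo x) (lam : Fin N → ℝ) (s : Ω → Fin N → ℝ)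
    (H0 : Ω → ℝ) (U : Fin N → Fin N → ℝ) : IsProb (QU P 𝓕 x lam s H0 U) :=
  tl_isProb hP hx.pos _

theorem Dl_smul (Q : Ω → ℝ) (F : ℕ → Setoid Ω) (l : ℕ) (c : ℝ) (g : Ω → ℝ) (w : Ω) :
    Dl Q F l (fun a => c * g a) w = c * Dl Q F l g w := by
  unfold Dl; rw [cE_smul, cE_smul]; ring

theorem Yf_smul_right (Q : Ω → ℝ) (F : ℕ → Setoid Ω) (x : ℕ → ℝ) (L t : ℕ) (f : Ω → ℝ) (c : ℝ)
    (g : Ω → ℝ) (w : Ω) : Yf Q F x L t f (fun a => c * g a) w = c * Yf Q F x L t f g w := by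
  unfold Yf
  rw [Finset.mul_sum]
  refine Finset.sum_congr rfl fun l _ => ?_
  have : (fun a => Dl Q F l f a * Dl Q F l (fun a => c * g a) a) =
      fun a => c * (Dl Q F l f a * Dl Q F l g a) := by
    funext a; rw [Dl_smul]; ring
  rw [this, cE_smul]; ring

theorem score_smul (Q : Ω → ℝ) (𝓕 : Filt Ω) (x : ℕ → ℝ) (t : ℕ) (c : ℝ) (g : Ω → ℝ) (w : Ω) :
    score Q 𝓕 x t (fun a => c * g a) w = c * score Q 𝓕 x t g w := by
  unfold score
  rw [Finset.mul_sum]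
  refine Finset.sum_congr rfl fun l _ => ?_
  rw [Dl_smul]; ring

theorem integrable_cont {ν : Measure (Fin N → Fin N → ℝ)} [IsProbabilityMeasure ν]
    (hν : ∀ᵐ U ∂ν, U ∈ OK N) {f : (Fin N → Fin N → ℝ) → ℝ} (hf : Continuous f) :
    Integrable f ν := by
  obtain ⟨C, hC0, hC⟩ := exists_bound (Ω := Unit) (fun U _ => f U) (fun _ => hf)
  refine Integrable.mono' (integrable_const C) hf.aestronglyMeasurable ?_
  filter_upwards [hν] with U hU
  rw [Real.norm_eq_abs]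
  exact hC U hU ()

/-! ### Continuity in the matrix -/

section cont

variable (hP : IsProb P) (hx : IsExpo x) (lam : Fin N → ℝ) (s : Ω → Fin N → ℝ) (H0 : Ω → ℝ)
include hP hx

theorem cont_cE {f : (Fin N → Fin N → ℝ) → Ω → ℝ} (hf : ∀ a, Continuous fun U => f U a) (k : ℕ)
    (w : Ω) : Continuous fun U => cE (QU P 𝓕 x lam s H0 U) (𝓕.F k) (f U) w :=
  continuous_cE_tl hP hx.pos (continuous_HU lam s H0) hf k w

theorem cont_eE {f : (Fin N → Fin N → ℝ) → Ω → ℝ} (hf : ∀ a, Continuous fun U => f U a) :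
    Continuous fun U => eE (QU P 𝓕 x lam s H0 U) (f U) :=
  continuous_eE_tl hP hx.pos (continuous_HU lam s H0) hf

omit [Fintype Ω] hP hx in
theorem cont_XU (s : Ω → Fin N → ℝ) (i : Fin N) (w : Ω) : Continuous fun U => XU s U i w :=
  continuous_xc (s w) i

theorem cont_covR {f g : (Fin N → Fin N → ℝ) → Ω → ℝ} (hf : ∀ a, Continuous fun U => f U a)
    (hg : ∀ a, Continuous fun U => g U a) (k : ℕ) (w : Ω) :
    Continuous fun U => covR (QU P 𝓕 x lam s H0 U) (𝓕.F k) (f U) (g U) w := by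
  unfold covR
  exact (cont_cE hP hx lam s H0 (fun a => (hf a).mul (hg a)) k w).sub
    ((cont_cE hP hx lam s H0 hf k w).mul (cont_cE hP hx lam s H0 hg k w))

theorem cont_rr (B : Finset (Fin N)) (l : ℕ) (w : Ω) :
    Continuous fun U => rr (XU s U) (QU P 𝓕 x lam s H0 U) 𝓕 B l w := by
  unfold rr
  exact continuous_const.mul (continuous_finsetSum _ fun i _ =>
    (cont_cE hP hx lam s H0 (fun a => cont_XU s i a) l w).pow 2)

theorem cont_eC (B : Finset (Fin N)) (τ : ℕ → ℕ) (n : ℕ) (g : ℕ → ℝ) :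
    Continuous fun U => eC (XU s U) (QU P 𝓕 x lam s H0 U) 𝓕 B τ n g := by
  unfold eC
  exact continuous_finsetSum _ fun b _ => cont_eE hP hx lam s H0
    (f := fun U w => |rr (XU s U) (QU P 𝓕 x lam s H0 U) 𝓕 B (τ b) w - g b|) fun a =>
      ((cont_rr hP hx lam s H0 B (τ b) a).sub continuous_const).abs

theorem cont_eP (Bk Bl : Finset (Fin N)) (τ : ℕ → ℕ) (n a : ℕ) :
    Continuous fun U => eP (XU s U) (QU P 𝓕 x lam s H0 U) 𝓕 Bk Bl τ n a := by
  unfold eP av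
  refine continuous_finsetSum _ fun b _ => Continuous.add ?_ ?_
  · refine continuous_const.mul (continuous_finsetSum _ fun i _ => continuous_finsetSum _
      fun j _ => ?_)
    exact cont_eE hP hx lam s H0 (f := fun U w => covR (QU P 𝓕 x lam s H0 U) (𝓕.F (τ b))
      (cE (QU P 𝓕 x lam s H0 U) (𝓕.F (τ a)) (XU s U i))
      (cE (QU P 𝓕 x lam s H0 U) (𝓕.F (τ a)) (XU s U j)) w ^ 2) fun w =>
        (cont_covR hP hx lam s H0 (fun c => cont_cE hP hx lam s H0 (fun d => cont_XU s i d) _ c)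
          (fun c => cont_cE hP hx lam s H0 (fun d => cont_XU s j d) _ c) _ w).pow 2
  · refine continuous_const.mul (continuous_finsetSum _ fun i _ => continuous_finsetSum _
      fun j _ => ?_)
    exact cont_eE hP hx lam s H0 (f := fun U w => covR (QU P 𝓕 x lam s H0 U) (𝓕.F (τ b))
      (XU s U i) (XU s U j) w ^ 2) fun w =>
        (cont_covR hP hx lam s H0 (fun d => cont_XU s i d) (fun d => cont_XU s j d) _ w).pow 2

end cont

/-- the integrand of `Rot.sd_pair` -/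
def Gij (Q : Ω → ℝ) (𝓕 : Filt Ω) (x : ℕ → ℝ) (X : Fin N → Ω → ℝ) (c : ℝ) (t : ℕ) (i j : Fin N) :
    ℝ :=
  eE Q (fun w => (cE Q (𝓕.F t) (X i) w) ^ 2) - eE Q (fun w => (cE Q (𝓕.F t) (X j) w) ^ 2) -
    c * (eE Q (fun w => Yf Q 𝓕.F x 𝓕.L t (X i) (fun a => X i a * X j a) w *
        cE Q (𝓕.F t) (X j) w) +
      eE Q (fun w => Yf Q 𝓕.F x 𝓕.L t (X j) (fun a => X i a * X j a) w * cE Q (𝓕.F t) (X i) w) +
      eE Q (fun w => (cE Q (𝓕.F t) (X i) w * cE Q (𝓕.F t) (X j) w) *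
        score Q 𝓕 x 0 (fun a => X i a * X j a) w))

theorem sd_Gij (ν : Measure (Fin N → Fin N → ℝ)) [IsProbabilityMeasure ν]
    (hν : ∀ᵐ U ∂ν, U ∈ OK N) (hleft : LeftInv ν) {i j : Fin N} (hij : i ≠ j)
    (hP : IsProb P) (hx : IsExpo x) (lam : Fin N → ℝ) (s : Ω → Fin N → ℝ) (H0 : Ω → ℝ) (t : ℕ) :
    Integrable (fun U => Gij (QU P 𝓕 x lam s H0 U) 𝓕 x (XU s U) (lam i - lam j) t i j) ν ∧
    ∫ U, Gij (QU P 𝓕 x lam s H0 U) 𝓕 x (XU s U) (lam i - lam j) t i j ∂ν = 0 := by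
  have h := sd_pair (𝓕 := 𝓕) ν hν hleft hij hP hx lam s H0 t
  have e : ∀ U : Fin N → Fin N → ℝ, (eE (tl P 𝓕 x (HU lam s H0 U)) (fun w =>
        (cE (tl P 𝓕 x (HU lam s H0 U)) (𝓕.F t) (fun a => xc (s a) i U) w) ^ 2 -
        (cE (tl P 𝓕 x (HU lam s H0 U)) (𝓕.F t) (fun a => xc (s a) j U) w) ^ 2 +
        Yf (tl P 𝓕 x (HU lam s H0 U)) 𝓕.F x 𝓕.L t (fun a => xc (s a) i U) (VU lam s i j U) w *
          cE (tl P 𝓕 x (HU lam s H0 U)) (𝓕.F t) (fun a => xc (s a) j U) w +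
        Yf (tl P 𝓕 x (HU lam s H0 U)) 𝓕.F x 𝓕.L t (fun a => xc (s a) j U) (VU lam s i j U) w *
          cE (tl P 𝓕 x (HU lam s H0 U)) (𝓕.F t) (fun a => xc (s a) i U) w) +
      eE (tl P 𝓕 x (HU lam s H0 U)) (fun w =>
        (cE (tl P 𝓕 x (HU lam s H0 U)) (𝓕.F t) (fun a => xc (s a) i U) w *
          cE (tl P 𝓕 x (HU lam s H0 U)) (𝓕.F t) (fun a => xc (s a) j U) w) *
        score (tl P 𝓕 x (HU lam s H0 U)) 𝓕 x 0 (VU lam s i j U) w)) =
      Gij (QU P 𝓕 x lam s H0 U) 𝓕 x (XU s U) (lam i - lam j) t i j := by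
    intro U
    unfold Gij
    change _ = _ at *
    set Q := QU P 𝓕 x lam s H0 U with hQ
    have hQ' : tl P 𝓕 x (HU lam s H0 U) = Q := rfl
    have hX : ∀ p : Fin N, (fun a => xc (s a) p U) = XU s U p := fun p => rfl
    have hV : VU lam s i j U = fun a => (lam j - lam i) * (XU s U i a * XU s U j a) := rfl
    rw [hQ', hX, hX, hV]
    simp only [Yf_smul_right, score_smul]
    rw [eE_add, eE_add, eE_sub]
    have e1 : (fun w => (lam j - lam i) * Yf Q 𝓕.F x 𝓕.L t (XU s U i)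
        (fun a => XU s U i a * XU s U j a) w * cE Q (𝓕.F t) (XU s U j) w) = fun w =>
        (lam j - lam i) * (Yf Q 𝓕.F x 𝓕.L t (XU s U i)
        (fun a => XU s U i a * XU s U j a) w * cE Q (𝓕.F t) (XU s U j) w) := by
      funext w; ring
    have e2 : (fun w => (lam j - lam i) * Yf Q 𝓕.F x 𝓕.L t (XU s U j)
        (fun a => XU s U i a * XU s U j a) w * cE Q (𝓕.F t) (XU s U i) w) = fun w =>
        (lam j - lam i) * (Yf Q 𝓕.F x 𝓕.L t (XU s U j)
        (fun a => XU s U i a * XU s U j a) w * cE Q (𝓕.F t) (XU s U i) w) := by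
      funext w; ring
    have e3 : (fun w => cE Q (𝓕.F t) (XU s U i) w * cE Q (𝓕.F t) (XU s U j) w *
        ((lam j - lam i) * score Q 𝓕 x 0 (fun a => XU s U i a * XU s U j a) w)) = fun w =>
        (lam j - lam i) * (cE Q (𝓕.F t) (XU s U i) w * cE Q (𝓕.F t) (XU s U j) w *
        score Q 𝓕 x 0 (fun a => XU s U i a * XU s U j a) w) := by
      funext w; ring
    rw [e1, e2, e3, eE_smul, eE_smul, eE_smul]
    ring
  simp only [e] at h
  refine ⟨integrable_cont hν ?_, h⟩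
  have cx : ∀ p : Fin N, ∀ a : Ω, Continuous fun U => XU s U p a := fun p a => cont_XU s p a
  have c2 : ∀ a : Ω, Continuous fun U => XU s U i a * XU s U j a := fun a => (cx i a).mul (cx j a)
  have cE1 : ∀ p : Fin N, ∀ a : Ω, Continuous fun U =>
      cE (QU P 𝓕 x lam s H0 U) (𝓕.F t) (XU s U p) a := fun p a =>
    cont_cE hP hx lam s H0 (fun a => cx p a) t a
  have cY : ∀ p : Fin N, ∀ a : Ω, Continuous fun U =>
      Yf (QU P 𝓕 x lam s H0 U) 𝓕.F x 𝓕.L t (XU s U p) (fun a => XU s U i a * XU s U j a) a :=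
    fun p a => continuous_Yf_tl hP hx.pos (continuous_HU lam s H0) (f := fun U => XU s U p)
      (V := fun U a => XU s U i a * XU s U j a) (fun a => cx p a) c2 t a
  have cS : ∀ a : Ω, Continuous fun U =>
      score (QU P 𝓕 x lam s H0 U) 𝓕 x 0 (fun a => XU s U i a * XU s U j a) a := fun a =>
    continuous_score hP hx.pos (continuous_HU lam s H0)
      (V := fun U a => XU s U i a * XU s U j a) c2 0 a
  unfold Gij
  refine ((cont_eE hP hx lam s H0 (f := fun U w =>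
      (cE (QU P 𝓕 x lam s H0 U) (𝓕.F t) (XU s U i) w) ^ 2) fun a => (cE1 i a).pow 2).sub
    (cont_eE hP hx lam s H0 (f := fun U w =>
      (cE (QU P 𝓕 x lam s H0 U) (𝓕.F t) (XU s U j) w) ^ 2) fun a => (cE1 j a).pow 2)).sub
    (continuous_const.mul (((cont_eE hP hx lam s H0 (f := fun U w => _) fun a =>
      (cY i a).mul (cE1 j a)).add (cont_eE hP hx lam s H0 (f := fun U w => _) fun a =>
      (cY j a).mul (cE1 i a))).add (cont_eE hP hx lam s H0 (f := fun U w => _) fun a =>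
      ((cE1 i a).mul (cE1 j a)).mul (cS a))))

theorem Tpw_eq {Q : Ω → ℝ} (X : Fin N → Ω → ℝ) {Bk Bl : Finset (Fin N)} (hBk : 0 < Bk.card)
    (hBl : 0 < Bl.card) (c : ℝ) (t : ℕ) :
    Tpw X Q 𝓕 x Bk Bl c t = av Bk Bl (fun i j => Gij Q 𝓕 x X c t i j) := by
  have hk : (Bk.card : ℝ) ≠ 0 := by exact_mod_cast hBk.ne'
  have hl : (Bl.card : ℝ) ≠ 0 := by exact_mod_cast hBl.ne'
  unfold Gij
  rw [av_sub, av_sub, av_smul]
  unfold Tpw
  congr 1
  congr 1
  · unfold av rr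
    rw [eE_smul, eE_sum]
    simp only [Finset.sum_const, nsmul_eq_mul]
    rw [← Finset.mul_sum]
    field_simp
  · unfold av rr
    rw [eE_smul, eE_sum]
    simp only [Finset.sum_const, nsmul_eq_mul]
    field_simp

/-- **the averaged Schwinger–Dyson identity** -/
theorem integral_Tpw (ν : Measure (Fin N → Fin N → ℝ)) [IsProbabilityMeasure ν]
    (hν : ∀ᵐ U ∂ν, U ∈ OK N) (hleft : LeftInv ν) {Bk Bl : Finset (Fin N)}
    (hd : Disjoint Bk Bl) (hBk : 0 < Bk.card) (hBl : 0 < Bl.card)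
    (hP : IsProb P) (hx : IsExpo x) (lam : Fin N → ℝ) {lk ll : ℝ} (hlk : ∀ i ∈ Bk, lam i = lk)
    (hll : ∀ i ∈ Bl, lam i = ll) (s : Ω → Fin N → ℝ) (H0 : Ω → ℝ) (t : ℕ) :
    Integrable (fun U => Tpw (XU s U) (QU P 𝓕 x lam s H0 U) 𝓕 x Bk Bl (lk - ll) t) ν ∧
    ∫ U, Tpw (XU s U) (QU P 𝓕 x lam s H0 U) 𝓕 x Bk Bl (lk - ll) t ∂ν = 0 := by
  have key : ∀ i ∈ Bk, ∀ j ∈ Bl,
      Integrable (fun U => Gij (QU P 𝓕 x lam s H0 U) 𝓕 x (XU s U) (lk - ll) t i j) ν ∧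
      ∫ U, Gij (QU P 𝓕 x lam s H0 U) 𝓕 x (XU s U) (lk - ll) t i j ∂ν = 0 := by
    intro i hi j hj
    have hij : i ≠ j := fun h => (Finset.disjoint_left.mp hd) hi (h ▸ hj)
    have := sd_Gij (𝓕 := 𝓕) ν hν hleft hij hP hx lam s H0 t
    rwa [hlk i hi, hll j hj] at this
  simp only [Tpw_eq _ hBk hBl]
  unfold av
  have hint : ∀ i ∈ Bk, Integrable (fun U => ∑ j ∈ Bl,
      Gij (QU P 𝓕 x lam s H0 U) 𝓕 x (XU s U) (lk - ll) t i j) ν := fun i hi =>
    integrable_finsetSum _ fun j hj => (key i hi j hj).1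
  refine ⟨(integrable_finsetSum _ hint).const_mul _, ?_⟩
  rw [integral_const_mul, integral_finsetSum _ hint]
  have : ∀ i ∈ Bk, ∫ U, ∑ j ∈ Bl,
      Gij (QU P 𝓕 x lam s H0 U) 𝓕 x (XU s U) (lk - ll) t i j ∂ν = 0 := by
    intro i hi
    rw [integral_finsetSum _ fun j hj => (key i hi j hj).1]
    exact Finset.sum_eq_zero fun j hj => (key i hi j hj).2
  rw [Finset.sum_eq_zero this, mul_zero]

/-! ### Orthogonality -/

/-- columns of an orthogonal matrix are orthonormal -/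
theorem OK_col {U : Fin N → Fin N → ℝ} (hU : U ∈ OK N) (a b : Fin N) :
    ∑ i, U i a * U i b = if a = b then 1 else 0 := by
  have h : (Matrix.of U).transpose * (Matrix.of U) = 1 :=
    (Matrix.mem_orthogonalGroup_iff' (Fin N) ℝ).mp hU
  have h2 := congrFun (congrFun h a) b
  rw [Matrix.mul_apply, Matrix.one_apply] at h2
  simpa [Matrix.transpose_apply] using h2

/-- an orthogonal matrix preserves the Euclidean norm -/
theorem OK_norm {U : Fin N → Fin N → ℝ} (hU : U ∈ OK N) (v : Fin N → ℝ) :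
    ∑ i, (∑ p, U i p * v p) ^ 2 = ∑ p, v p ^ 2 := by
  have h1 : ∀ i, (∑ p, U i p * v p) ^ 2 = ∑ p, ∑ q, (U i p * U i q) * (v p * v q) := by
    intro i
    rw [sq, Finset.sum_mul_sum]
    refine Finset.sum_congr rfl fun p _ => Finset.sum_congr rfl fun q _ => by ring
  simp only [h1]
  rw [Finset.sum_comm]
  refine Finset.sum_congr rfl fun p _ => ?_
  rw [Finset.sum_comm]
  have h2 : ∀ q, ∑ i, U i p * U i q * (v p * v q) = (if p = q then 1 else 0) * (v p * v q) := by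
    intro q
    rw [← Finset.sum_mul, OK_col hU]
  simp only [h2]
  simp [sq]

omit [Fintype Ω] in
theorem sum_XU_sq {U : Fin N → Fin N → ℝ} (hU : U ∈ OK N) (s : Ω → Fin N → ℝ) (w : Ω) :
    ∑ i, XU s U i w ^ 2 = ∑ i, s w i ^ 2 := by
  have : ∀ i, XU s U i w = ∑ p, U i p * s w p := by
    intro i
    unfold XU xc Matrix.mulVec dotProduct
    rfl
  simp only [this]
  exact OK_norm hU (s w)

omit [Fintype Ω] in
theorem block_XU_sq {U : Fin N → Fin N → ℝ} (hU : U ∈ OK N) (s : Ω → Fin N → ℝ)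
    (hs : ∀ w, ∑ i, s w i ^ 2 ≤ N) {B : Finset (Fin N)} {K : ℝ} (hK : (N : ℝ) ≤ K * B.card)
    (w : Ω) : ∑ i ∈ B, XU s U i w ^ 2 ≤ K * B.card := by
  refine le_trans ?_ hK
  refine le_trans ?_ (hs w)
  rw [← sum_XU_sq hU s w]
  exact Finset.sum_le_sum_of_subset_of_nonneg (Finset.subset_univ _) fun _ _ _ => sq_nonneg _

/-- Frobenius norm of the covariance matrix of `x = U s`. -/
theorem frob {Q : Ω → ℝ} {U : Fin N → Fin N → ℝ} (hU : U ∈ OK N) (r : Setoid Ω)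
    (f g : Fin N → Ω → ℝ) (hg : ∀ i w, g i w = ∑ p, U i p * f p w) (w : Ω) :
    ∑ i, ∑ j, covR Q r (g i) (g j) w ^ 2 = ∑ i, ∑ j, covR Q r (f i) (f j) w ^ 2 := by
  have h1 : ∀ i j, covR Q r (g i) (g j) w = ∑ p, U i p * ∑ q, U j q * covR Q r (f p) (f q) w := by
    intro i j
    have e1 : cE Q r (fun a => g i a * g j a) w = ∑ p, ∑ q, U i p * U j q *
        cE Q r (fun a => f p a * f q a) w := by
      have : (fun a => g i a * g j a) = fun a => ∑ p, ∑ q, U i p * U j q * (f p a * f q a) := by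
        funext a
        rw [hg, hg, Finset.sum_mul_sum]
        refine Finset.sum_congr rfl fun p _ => Finset.sum_congr rfl fun q _ => by ring
      rw [this, cE_sum]
      refine Finset.sum_congr rfl fun p _ => ?_
      rw [cE_sum]
      refine Finset.sum_congr rfl fun q _ => ?_
      rw [cE_smul]
    have e2 : ∀ i, cE Q r (g i) w = ∑ p, U i p * cE Q r (f p) w := by
      intro i
      have : g i = fun a => ∑ p, U i p * f p a := funext fun a => hg i a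
      rw [this, cE_sum]
      refine Finset.sum_congr rfl fun p _ => ?_
      rw [cE_smul]
    unfold covR
    rw [e1, e2, e2, Finset.sum_mul_sum, ← Finset.sum_sub_distrib]
    refine Finset.sum_congr rfl fun p _ => ?_
    rw [← Finset.sum_sub_distrib, Finset.mul_sum]
    refine Finset.sum_congr rfl fun q _ => ?_
    ring
  simp only [h1]
  rw [Finset.sum_comm]
  have h2 : ∀ j, ∑ i, (∑ p, U i p * ∑ q, U j q * covR Q r (f p) (f q) w) ^ 2 =
      ∑ p, (∑ q, U j q * covR Q r (f p) (f q) w) ^ 2 := fun j =>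
    OK_norm hU (fun p => ∑ q, U j q * covR Q r (f p) (f q) w)
  simp only [h2]
  rw [Finset.sum_comm]
  refine Finset.sum_congr rfl fun p _ => ?_
  exact OK_norm hU (fun q => covR Q r (f p) (f q) w)

/-- averaged squared covariance of a family (`= avc2` of `GSpin` for the enriched system) -/
def avcS (Q : Ω → ℝ) (𝓕 : Filt Ω) (f : Fin N → Ω → ℝ) (k m : ℕ) : ℝ :=
  ((N : ℝ) ^ 2)⁻¹ * ∑ i, ∑ j, eE Q (fun w => (covR Q (𝓕.F k)
    (cE Q (𝓕.F m) (f i)) (cE Q (𝓕.F m) (f j)) w) ^ 2)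

theorem avcS_nonneg {Q : Ω → ℝ} (hQ : IsProb Q) (f : Fin N → Ω → ℝ) (k m : ℕ) :
    0 ≤ avcS Q 𝓕 f k m :=
  mul_nonneg (by positivity) (Finset.sum_nonneg fun _ _ => Finset.sum_nonneg fun _ _ =>
    eE_nonneg hQ fun _ => sq_nonneg _)

theorem av_cov_le {Q : Ω → ℝ} (hQ : IsProb Q) {U : Fin N → Fin N → ℝ} (hU : U ∈ OK N)
    (s : Ω → Fin N → ℝ) {Bk Bl : Finset (Fin N)} {K : ℝ} (hN : 0 < N) (hK0 : 0 ≤ K)
    (hBk : (N : ℝ) ≤ K * Bk.card) (hBl : (N : ℝ) ≤ K * Bl.card) (k m : ℕ) :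
    av Bk Bl (fun i j => eE Q (fun w => covR Q (𝓕.F k) (cE Q (𝓕.F m) (XU s U i))
      (cE Q (𝓕.F m) (XU s U j)) w ^ 2)) ≤ K ^ 2 * avcS Q 𝓕 (fun i w => s w i) k m := by
  have hN' : (0:ℝ) < N := by exact_mod_cast hN
  have hk0 : (0:ℝ) < Bk.card := by
    rcases Nat.eq_zero_or_pos Bk.card with h | h
    · rw [h] at hBk; simp at hBk; linarith
    · exact_mod_cast h
  have hl0 : (0:ℝ) < Bl.card := by
    rcases Nat.eq_zero_or_pos Bl.card with h | h
    · rw [h] at hBl; simp at hBl; linarith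
    · exact_mod_cast h
  set T := ∑ i, ∑ j, eE Q (fun w => (covR Q (𝓕.F k)
    (cE Q (𝓕.F m) (fun w => s w i)) (cE Q (𝓕.F m) (fun w => s w j)) w) ^ 2) with hT
  have hT0 : 0 ≤ T := Finset.sum_nonneg fun _ _ => Finset.sum_nonneg fun _ _ =>
    eE_nonneg hQ fun _ => sq_nonneg _
  have hg : ∀ i w, cE Q (𝓕.F m) (XU s U i) w = ∑ p, U i p * cE Q (𝓕.F m) (fun w => s w p) w := by
    intro i w
    have : XU s U i = fun a => ∑ p, U i p * s a p := by
      funext a; unfold XU xc Matrix.mulVec dotProduct; rfl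
    rw [this, cE_sum]
    refine Finset.sum_congr rfl fun p _ => ?_
    rw [cE_smul]
  have h1 : ∑ i, ∑ j, eE Q (fun w => covR Q (𝓕.F k) (cE Q (𝓕.F m) (XU s U i))
      (cE Q (𝓕.F m) (XU s U j)) w ^ 2) = T := by
    have e : ∀ (F : Fin N → Fin N → Ω → ℝ), ∑ i, ∑ j, eE Q (F i j) =
        eE Q (fun w => ∑ i, ∑ j, F i j w) := by
      intro F
      rw [eE_sum]
      refine Finset.sum_congr rfl fun i _ => ?_
      rw [eE_sum]
    rw [hT, e, e]
    congr 1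
    funext w
    exact frob hU (𝓕.F k) (fun p => cE Q (𝓕.F m) (fun w => s w p))
      (fun i => cE Q (𝓕.F m) (XU s U i)) hg w
  have h2 : ∑ i ∈ Bk, ∑ j ∈ Bl, eE Q (fun w => covR Q (𝓕.F k) (cE Q (𝓕.F m) (XU s U i))
      (cE Q (𝓕.F m) (XU s U j)) w ^ 2) ≤ T := by
    rw [← h1]
    refine (Finset.sum_le_sum_of_subset_of_nonneg (Finset.subset_univ Bk) fun _ _ _ =>
      Finset.sum_nonneg fun _ _ => eE_nonneg hQ fun _ => sq_nonneg _).trans ?_
    refine Finset.sum_le_sum fun i _ => ?_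
    exact Finset.sum_le_sum_of_subset_of_nonneg (Finset.subset_univ Bl) fun _ _ _ =>
      eE_nonneg hQ fun _ => sq_nonneg _
  unfold av
  refine (mul_le_mul_of_nonneg_left h2 (by positivity)).trans ?_
  unfold avcS
  rw [← hT, ← mul_assoc]
  refine mul_le_mul_of_nonneg_right ?_ hT0
  rw [← div_eq_mul_inv, le_div_iff₀ (by positivity), inv_mul_le_iff₀ (by positivity)]
  have := mul_le_mul hBk hBl hN'.le (by positivity)
  nlinarith

/-- purity error in terms of spins -/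
theorem eP_le {Q : Ω → ℝ} (hQ : IsProb Q) {U : Fin N → Fin N → ℝ} (hU : U ∈ OK N)
    (s : Ω → Fin N → ℝ) {Bk Bl : Finset (Fin N)} {K : ℝ} (hN : 0 < N) (hK0 : 0 ≤ K)
    (hBk : (N : ℝ) ≤ K * Bk.card) (hBl : (N : ℝ) ≤ K * Bl.card) {τ : ℕ → ℕ} {n : ℕ}
    (hτL : τ n = 𝓕.L) (a : ℕ) :
    eP (XU s U) Q 𝓕 Bk Bl τ n a ≤ K ^ 2 * ∑ b ∈ range (n + 1),
      (avcS Q 𝓕 (fun i w => s w i) (τ b) (τ a) + avcS Q 𝓕 (fun i w => s w i) (τ b) (τ n)) := by
  unfold eP
  rw [Finset.mul_sum]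
  refine Finset.sum_le_sum fun b _ => ?_
  rw [mul_add]
  refine add_le_add (av_cov_le hQ hU s hN hK0 hBk hBl (τ b) (τ a)) ?_
  have h := av_cov_le (𝓕 := 𝓕) hQ hU s hN hK0 hBk hBl (τ b) (τ n)
  refine le_trans (le_of_eq ?_) h
  have e : ∀ i, cE Q (𝓕.F (τ n)) (XU s U i) = XU s U i := by
    intro i
    funext w
    exact cE_of_meas hQ (rmeas_of_ge (by rw [hτL]) _) w
  simp only [e]

/-! ### The integrated relation -/

section main

variable {D : Type*} [Fintype D]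

/-- disorder average of a function of `(d, U)`. -/
def dav (q : D → ℝ) (ν : Measure (Fin N → Fin N → ℝ)) (f : D → (Fin N → Fin N → ℝ) → ℝ) : ℝ :=
  ∑ d, q d * ∫ U, f d U ∂ν

theorem dav_add {q : D → ℝ} {ν : Measure (Fin N → Fin N → ℝ)}
    {f g : D → (Fin N → Fin N → ℝ) → ℝ} (hf : ∀ d, Integrable (f d) ν)
    (hg : ∀ d, Integrable (g d) ν) :
    dav q ν (fun d U => f d U + g d U) = dav q ν f + dav q ν g := by
  unfold dav
  rw [← Finset.sum_add_distrib]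
  refine Finset.sum_congr rfl fun d _ => ?_
  rw [integral_add (hf d) (hg d), mul_add]

theorem dav_smul {q : D → ℝ} {ν : Measure (Fin N → Fin N → ℝ)} (c : ℝ)
    (f : D → (Fin N → Fin N → ℝ) → ℝ) : dav q ν (fun d U => c * f d U) = c * dav q ν f := by
  unfold dav
  rw [Finset.mul_sum]
  refine Finset.sum_congr rfl fun d _ => ?_
  rw [integral_const_mul]; ring

theorem dav_const {q : D → ℝ} (hq : ∑ d, q d = 1) {ν : Measure (Fin N → Fin N → ℝ)}
    [IsProbabilityMeasure ν] (c : ℝ) : dav q ν (fun _ _ => c) = c := by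
  unfold dav
  simp only [integral_const, probReal_univ, one_smul]
  rw [← Finset.sum_mul, hq, one_mul]

theorem dav_mono {q : D → ℝ} (hq0 : ∀ d, 0 ≤ q d) {ν : Measure (Fin N → Fin N → ℝ)}
    {f g : D → (Fin N → Fin N → ℝ) → ℝ} (hf : ∀ d, Integrable (f d) ν)
    (hg : ∀ d, Integrable (g d) ν) (h : ∀ d, ∀ᵐ U ∂ν, f d U ≤ g d U) :
    dav q ν f ≤ dav q ν g := by
  unfold dav
  refine Finset.sum_le_sum fun d _ => mul_le_mul_of_nonneg_left ?_ (hq0 d)
  exact integral_mono_ae (hf d) (hg d) (h d)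

/-- **Integrated left-rotation relation.** -/
theorem rel_le (ν : Measure (Fin N → Fin N → ℝ)) [IsProbabilityMeasure ν]
    (hν : ∀ᵐ U ∂ν, U ∈ OK N) (hleft : LeftInv ν) {Bk Bl : Finset (Fin N)}
    (hd : Disjoint Bk Bl) (hBk : 0 < Bk.card) (hBl : 0 < Bl.card)
    (hP : IsProb P) (hx : IsExpo x) (lam : Fin N → ℝ) {lk ll : ℝ} (hlk : ∀ i ∈ Bk, lam i = lk)
    (hll : ∀ i ∈ Bl, lam i = ll) (s : Ω → Fin N → ℝ) (hs : ∀ w, ∑ i, s w i ^ 2 ≤ N)
    {K : ℝ} (hKk : (N : ℝ) ≤ K * Bk.card) (hKl : (N : ℝ) ≤ K * Bl.card)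
    {q : D → ℝ} (hq0 : ∀ d, 0 ≤ q d) (hq1 : ∑ d, q d = 1) (H0 : D → Ω → ℝ)
    {τ : D → ℕ → ℕ} (hτ : ∀ d, Monotone (τ d)) {n : ℕ} (hτL : ∀ d, τ d n = 𝓕.L)
    {mm : ℕ → ℝ} (hm0 : ∀ b, 0 ≤ mm b) (hm1 : ∀ b, mm b ≤ 1) {δ : ℝ} (hδ : 0 ≤ δ)
    (hlow : ∀ d m, m ≤ τ d 0 → x m ≤ δ)
    (hw : ∀ d b, b < n → ∀ m, τ d b < m → m ≤ τ d (b + 1) → |x m - mm (b + 1)| ≤ δ)
    {gk gl : ℕ → ℝ} (hgk : ∀ b, 0 ≤ gk b ∧ gk b ≤ K) (hgl : ∀ b, 0 ≤ gl b ∧ gl b ≤ K)
    {θ : ℝ} (hθ : 0 < θ) {a : ℕ} (ha : a ≤ n) {e π : ℝ}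
    (hek : dav q ν (fun d U => eC (XU s U) (QU P 𝓕 x lam s (H0 d) U) 𝓕 Bk (τ d) n gk) ≤ e)
    (hel : dav q ν (fun d U => eC (XU s U) (QU P 𝓕 x lam s (H0 d) U) 𝓕 Bl (τ d) n gl) ≤ e)
    (hπ : dav q ν (fun d U => eP (XU s U) (QU P 𝓕 x lam s (H0 d) U) 𝓕 Bk Bl (τ d) n a) ≤ π) :
    |Rel mm n (lk - ll) gk gl a| ≤
      2 * e + |lk - ll| * (4 * δ * K ^ 2 + 6 * n * (θ * K ^ 2 + 1 / θ * π + 2 * K * e)) := by
  have hK0 : 0 ≤ K := (hgk 0).1.trans (hgk 0).2
  set c := lk - ll with hc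
  set ek := fun (d : D) U => eC (XU s U) (QU P 𝓕 x lam s (H0 d) U) 𝓕 Bk (τ d) n gk
  set el := fun (d : D) U => eC (XU s U) (QU P 𝓕 x lam s (H0 d) U) 𝓕 Bl (τ d) n gl
  set pe := fun (d : D) U => eP (XU s U) (QU P 𝓕 x lam s (H0 d) U) 𝓕 Bk Bl (τ d) n a
  have ik : ∀ d, Integrable (ek d) ν := fun d =>
    integrable_cont hν (cont_eC hP hx lam s (H0 d) Bk (τ d) n gk)
  have il : ∀ d, Integrable (el d) ν := fun d =>
    integrable_cont hν (cont_eC hP hx lam s (H0 d) Bl (τ d) n gl)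
  have ip : ∀ d, Integrable (pe d) ν := fun d =>
    integrable_cont hν (cont_eP hP hx lam s (H0 d) Bk Bl (τ d) n a)
  set c1 := 1 + |c| * (6 * n * K) with hc1
  set c2 := |c| * (6 * n * (1 / θ)) with hc2
  set c3 := |c| * (4 * δ * K ^ 2 + 6 * n * (θ * K ^ 2)) with hc3
  have ierr : ∀ d, Integrable (fun U => c1 * (ek d U + el d U) + c2 * pe d U + c3) ν := fun d =>
    (((((ik d).add (il d)).const_mul c1).add ((ip d).const_mul c2))).add (integrable_const c3)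
  -- single `d`
  have h1 : ∀ d, |Rel mm n c gk gl a| ≤ ∫ U, (c1 * (ek d U + el d U) + c2 * pe d U + c3) ∂ν := by
    intro d
    obtain ⟨iT, hT⟩ := integral_Tpw (𝓕 := 𝓕) ν hν hleft hd hBk hBl hP hx lam hlk hll s (H0 d)
      (τ d a)
    have e0 : Rel mm n c gk gl a = ∫ U, (Rel mm n c gk gl a -
        Tpw (XU s U) (QU P 𝓕 x lam s (H0 d) U) 𝓕 x Bk Bl (lk - ll) (τ d a)) ∂ν := by
      rw [integral_sub (integrable_const _) iT, hT]
      simp
    rw [e0]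
    refine (abs_integral_le_integral_abs).trans ?_
    refine integral_mono_ae ((integrable_const _).sub iT).abs (ierr d) ?_
    filter_upwards [hν] with U hU
    have hpw := pointwise (𝓕 := 𝓕) (XU s U) (QU_isProb (𝓕 := 𝓕) hP hx lam s (H0 d) U) hx hθ hBk hBl
      (block_XU_sq hU s hs hKk) (block_XU_sq hU s hs hKl) (hτ d) (hτL d) hm0 hm1 hδ (hlow d)
      (hw d) hgk hgl (lk - ll) ha
    rw [abs_sub_comm]
    refine hpw.trans (le_of_eq ?_)
    simp only [hc1, hc2, hc3, ek, el, pe]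
    ring
  have h2 : |Rel mm n c gk gl a| ≤ dav q ν (fun d U => c1 * (ek d U + el d U) + c2 * pe d U + c3) := by
    have e0 : |Rel mm n c gk gl a| = ∑ d, q d * |Rel mm n c gk gl a| := by
      rw [← Finset.sum_mul, hq1, one_mul]
    rw [e0]
    exact Finset.sum_le_sum fun d _ => mul_le_mul_of_nonneg_left (h1 d) (hq0 d)
  have h3 : dav q ν (fun d U => c1 * (ek d U + el d U) + c2 * pe d U + c3) =
      c1 * (dav q ν ek + dav q ν el) + c2 * dav q ν pe + c3 := by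
    have i1 : ∀ d, Integrable (fun U => c1 * (ek d U + el d U)) ν := fun d =>
      ((ik d).add (il d)).const_mul c1
    have i2 : ∀ d, Integrable (fun U => c2 * pe d U) ν := fun d => (ip d).const_mul c2
    rw [dav_add (f := fun d U => c1 * (ek d U + el d U) + c2 * pe d U) (g := fun _ _ => c3)
      (fun d => (i1 d).add (i2 d)) (fun d => integrable_const c3), dav_const hq1,
      dav_add (f := fun d U => c1 * (ek d U + el d U)) (g := fun d U => c2 * pe d U) i1 i2,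
      dav_smul, dav_smul, dav_add ik il]
  rw [h3] at h2
  refine h2.trans ?_
  have hc1' : 0 ≤ c1 := by positivity
  have hc2' : 0 ≤ c2 := by positivity
  have h4 : c1 * (dav q ν ek + dav q ν el) ≤ c1 * (e + e) :=
    mul_le_mul_of_nonneg_left (add_le_add hek hel) hc1'
  have h5 : c2 * dav q ν pe ≤ c2 * π := mul_le_mul_of_nonneg_left hπ hc2'
  have h6 : c1 * (e + e) + c2 * π + c3 =
      2 * e + |c| * (4 * δ * K ^ 2 + 6 * n * (θ * K ^ 2 + 1 / θ * π + 2 * K * e)) := by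
    simp only [hc1, hc2, hc3]; ring
  linarith

/-- **Integrated left-rotation relation, spin purity.** -/
theorem rel_spin (ν : Measure (Fin N → Fin N → ℝ)) [IsProbabilityMeasure ν]
    (hν : ∀ᵐ U ∂ν, U ∈ OK N) (hleft : LeftInv ν) (hN : 0 < N) {Bk Bl : Finset (Fin N)}
    (hd : Disjoint Bk Bl)
    (hP : IsProb P) (hx : IsExpo x) (lam : Fin N → ℝ) {lk ll : ℝ} (hlk : ∀ i ∈ Bk, lam i = lk)
    (hll : ∀ i ∈ Bl, lam i = ll) (s : Ω → Fin N → ℝ) (hs : ∀ w, ∑ i, s w i ^ 2 ≤ N)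
    {K : ℝ} (hKk : (N : ℝ) ≤ K * Bk.card) (hKl : (N : ℝ) ≤ K * Bl.card)
    {q : D → ℝ} (hq0 : ∀ d, 0 ≤ q d) (hq1 : ∑ d, q d = 1) (H0 : D → Ω → ℝ)
    {τ : D → ℕ → ℕ} (hτ : ∀ d, Monotone (τ d)) {n : ℕ} (hτL : ∀ d, τ d n = 𝓕.L)
    {mm : ℕ → ℝ} (hm0 : ∀ b, 0 ≤ mm b) (hm1 : ∀ b, mm b ≤ 1) {δ : ℝ} (hδ : 0 ≤ δ)
    (hlow : ∀ d m, m ≤ τ d 0 → x m ≤ δ)
    (hw : ∀ d b, b < n → ∀ m, τ d b < m → m ≤ τ d (b + 1) → |x m - mm (b + 1)| ≤ δ)
    {gk gl : ℕ → ℝ} (hgk : ∀ b, 0 ≤ gk b ∧ gk b ≤ K) (hgl : ∀ b, 0 ≤ gl b ∧ gl b ≤ K)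
    {ρ : ℝ} (hρ : 0 < ρ) {a : ℕ} (ha : a ≤ n) {e : ℝ}
    (hek : dav q ν (fun d U => eC (XU s U) (QU P 𝓕 x lam s (H0 d) U) 𝓕 Bk (τ d) n gk) ≤ e)
    (hel : dav q ν (fun d U => eC (XU s U) (QU P 𝓕 x lam s (H0 d) U) 𝓕 Bl (τ d) n gl) ≤ e)
    (hpa : ∀ b ≤ n, dav q ν (fun d U => avcS (QU P 𝓕 x lam s (H0 d) U) 𝓕 (fun i w => s w i)
      (τ d b) (τ d a)) ≤ ρ ^ 2)
    (hpn : ∀ b ≤ n, dav q ν (fun d U => avcS (QU P 𝓕 x lam s (H0 d) U) 𝓕 (fun i w => s w i)
      (τ d b) (τ d n)) ≤ ρ ^ 2) :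
    |Rel mm n (lk - ll) gk gl a| ≤
      2 * e + |lk - ll| * (4 * δ * K ^ 2 + 6 * n * ((2 * n + 3) * K ^ 2 * ρ + 2 * K * e)) := by
  have hK0 : 0 ≤ K := (hgk 0).1.trans (hgk 0).2
  have hN' : (0:ℝ) < N := by exact_mod_cast hN
  have hBk : 0 < Bk.card := by
    rcases Nat.eq_zero_or_pos Bk.card with h | h
    · rw [h] at hKk; simp at hKk; linarith
    · exact h
  have hBl : 0 < Bl.card := by
    rcases Nat.eq_zero_or_pos Bl.card with h | h
    · rw [h] at hKl; simp at hKl; linarith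
    · exact h
  have icS : ∀ k m d, Integrable (fun U => avcS (QU P 𝓕 x lam s (H0 d) U) 𝓕 (fun i w => s w i)
      k m) ν := by
    intro k m d
    refine integrable_cont hν ?_
    unfold avcS
    refine continuous_const.mul (continuous_finsetSum _ fun i _ => continuous_finsetSum _
      fun j _ => ?_)
    exact cont_eE hP hx lam s (H0 d) (f := fun U w => (covR (QU P 𝓕 x lam s (H0 d) U) (𝓕.F k)
      (cE (QU P 𝓕 x lam s (H0 d) U) (𝓕.F m) (fun w => s w i))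
      (cE (QU P 𝓕 x lam s (H0 d) U) (𝓕.F m) (fun w => s w j)) w) ^ 2) fun w =>
        (cont_covR hP hx lam s (H0 d)
          (fun c => cont_cE hP hx lam s (H0 d) (f := fun _ w => s w i) (fun _ => continuous_const) _ c)
          (fun c => cont_cE hP hx lam s (H0 d) (f := fun _ w => s w j) (fun _ => continuous_const) _ c)
          _ w).pow 2
  have hπ : dav q ν (fun d U => eP (XU s U) (QU P 𝓕 x lam s (H0 d) U) 𝓕 Bk Bl (τ d) n a) ≤
      K ^ 2 * ((n + 1) * (2 * ρ ^ 2)) := by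
    have h1 : dav q ν (fun d U => eP (XU s U) (QU P 𝓕 x lam s (H0 d) U) 𝓕 Bk Bl (τ d) n a) ≤
        dav q ν (fun d U => K ^ 2 * ∑ b ∈ range (n + 1),
          (avcS (QU P 𝓕 x lam s (H0 d) U) 𝓕 (fun i w => s w i) (τ d b) (τ d a) +
          avcS (QU P 𝓕 x lam s (H0 d) U) 𝓕 (fun i w => s w i) (τ d b) (τ d n))) := by
      refine dav_mono hq0 (fun d => integrable_cont hν (cont_eP hP hx lam s (H0 d) Bk Bl (τ d) n a))
        (fun d => (integrable_finsetSum _ fun b _ => (icS _ _ d).add (icS _ _ d)).const_mul _)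
        fun d => ?_
      filter_upwards [hν] with U hU
      exact eP_le (QU_isProb hP hx lam s (H0 d) U) hU s hN hK0 hKk hKl (hτL d) a
    refine h1.trans ?_
    rw [dav_smul]
    refine mul_le_mul_of_nonneg_left ?_ (by positivity)
    have h2 : dav q ν (fun d U => ∑ b ∈ range (n + 1),
          (avcS (QU P 𝓕 x lam s (H0 d) U) 𝓕 (fun i w => s w i) (τ d b) (τ d a) +
          avcS (QU P 𝓕 x lam s (H0 d) U) 𝓕 (fun i w => s w i) (τ d b) (τ d n))) =
        ∑ b ∈ range (n + 1), (dav q ν (fun d U => avcS (QU P 𝓕 x lam s (H0 d) U) 𝓕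
            (fun i w => s w i) (τ d b) (τ d a)) +
          dav q ν (fun d U => avcS (QU P 𝓕 x lam s (H0 d) U) 𝓕 (fun i w => s w i)
            (τ d b) (τ d n))) := by
      unfold dav
      simp only [← Finset.sum_add_distrib]
      rw [Finset.sum_comm]
      refine Finset.sum_congr rfl fun d _ => ?_
      have iS2 : ∀ b ∈ range (n + 1), Integrable (fun U =>
          avcS (QU P 𝓕 x lam s (H0 d) U) 𝓕 (fun i w => s w i) (τ d b) (τ d a) +
          avcS (QU P 𝓕 x lam s (H0 d) U) 𝓕 (fun i w => s w i) (τ d b) (τ d n)) ν :=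
        fun b _ => (icS _ _ d).add (icS _ _ d)
      rw [integral_finsetSum _ iS2, Finset.mul_sum]
      refine Finset.sum_congr rfl fun b _ => ?_
      rw [integral_add (icS _ _ d) (icS _ _ d), mul_add]
    rw [h2]
    have h3 : ∀ b ∈ range (n + 1), dav q ν (fun d U => avcS (QU P 𝓕 x lam s (H0 d) U) 𝓕
            (fun i w => s w i) (τ d b) (τ d a)) +
          dav q ν (fun d U => avcS (QU P 𝓕 x lam s (H0 d) U) 𝓕 (fun i w => s w i)
            (τ d b) (τ d n)) ≤ 2 * ρ ^ 2 := by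
      intro b hb
      have hb' : b ≤ n := by have := Finset.mem_range.mp hb; omega
      linarith [hpa b hb', hpn b hb']
    refine (Finset.sum_le_sum h3).trans (le_of_eq ?_)
    rw [Finset.sum_const, Finset.card_range, nsmul_eq_mul]
    push_cast
    ring
  refine (rel_le ν hν hleft hd hBk hBl hP hx lam hlk hll s hs hKk hKl hq0 hq1 H0 hτ hτL hm0 hm1 hδ
    hlow hw hgk hgl hρ ha hek hel hπ).trans (le_of_eq ?_)
  have : 1 / ρ * (K ^ 2 * ((n + 1) * (2 * ρ ^ 2))) = K ^ 2 * ((n + 1) * 2) * ρ := by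
    field_simp
  rw [this]
  ring

end main

end

end Crest.Agent.R164.RotRel
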