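import Crest.Agent.R164.Sys164
import Crest.Agent.R164.Haar
import Crest.Agent.R164.RotRel2
import Crest.Agent.R141.SysSym

/-!
Row 164 (helper39): EXCHANGEABILITY of the finite system.

`π` permutes the sites (columns of `U`, spins, main coins, pointers of the outer randomness), `ρ`
permutes the rows of `U` (and the small coins).
-/

set_option autoImplicit false

namespace Crest.Agent.R164.GX

open Finset MeasureTheory Crest.Agent.R141 Crest.Agent.R164 Crest.Agent.R164.SY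
  Crest.Agent.R164.Haar Crest.Agent.R164.Rot

noncomputable section

/-! ### Abstract part -/

section Abs

variable {Ω : Type*} [Fintype Ω] {P : Ω → ℝ} {𝓕 : Filt Ω} {x : ℕ → ℝ} {φ : Ω ≃ Ω}

theorem A_comp2 (hP : IsProb P) (hx : ∀ k, 0 < x k) (h : Sym.IsSym P 𝓕 φ) {U U' : Ω → ℝ}
    (hU : ∀ ω, U' (φ ω) = U ω) (k : ℕ) (ω : Ω) : A P 𝓕 x U' k (φ ω) = A P 𝓕 x U k ω := by
  rw [← Sym.A_comp hP hx h U' k ω]
  congr 1
  funext a; exact hU a

/-- the tilted laws of two log-weights which correspond to each other -/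
theorem tl_comp2 (hP : IsProb P) (hx : ∀ k, 0 < x k) (h : Sym.IsSym P 𝓕 φ) {U U' : Ω → ℝ}
    (hU : ∀ ω, U' (φ ω) = U ω) (ω : Ω) : tl P 𝓕 x U' (φ ω) = tl P 𝓕 x U ω := by
  unfold tl S
  rw [h.law]
  congr 2
  refine Finset.sum_congr rfl fun l _ => ?_
  rw [A_comp2 hP hx h hU, A_comp2 hP hx h hU]

/-- expectations -/
theorem eE_comp2 {Q Q' : Ω → ℝ} (hQ : ∀ ω, Q' (φ ω) = Q ω) (f : Ω → ℝ) :
    eE Q' f = eE Q (fun ω => f (φ ω)) := by
  unfold eE
  rw [← Equiv.sum_comp φ]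
  exact Finset.sum_congr rfl fun ω _ => by rw [hQ]

/-- conditional expectations -/
theorem cE_comp2 {Q Q' : Ω → ℝ} (hQ : ∀ ω, Q' (φ ω) = Q ω)
    (hrel : ∀ k ω ω', 𝓕.F k (φ ω) (φ ω') ↔ 𝓕.F k ω ω') (k : ℕ) (f : Ω → ℝ) (ω : Ω) :
    cE Q' (𝓕.F k) f (φ ω) = cE Q (𝓕.F k) (fun a => f (φ a)) ω := by
  classical
  have key : ∀ g : Ω → ℝ, ∑ a ∈ univ.filter (fun a => 𝓕.F k (φ ω) a), Q' a * g a =
      ∑ a ∈ univ.filter (fun a => 𝓕.F k ω a), Q a * g (φ a) := by
    intro g
    symm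
    refine Finset.sum_equiv φ (fun a => ?_) (fun a _ => by rw [hQ])
    simp only [mem_filter, mem_univ, true_and]
    exact (hrel k ω a).symm
  have h1 := key f
  have h2 := key (fun _ => 1)
  simp only [mul_one] at h2
  unfold cE
  rw [h1, h2]

end Abs

/-! ### The permutations of the system -/

variable {p : Par} {N n : ℕ} {A : Finset (Fin N → Bool)}

/-- action on matrices: rows by `ρ`, columns by `π` -/
def pU (ρ π : Equiv.Perm (Fin N)) (U : Fin N → Fin N → ℝ) : Fin N → Fin N → ℝ :=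
  fun i j => U (ρ i) (π j)

/-- action on the pointers -/
def pD (π : Equiv.Perm (Fin N)) (d : DD p N) : DD p N :=
  fun k => (d k).map fun c => (π.symm c.1, c.2)

/-- action on spin configurations -/
def pS (π : Equiv.Perm (Fin N)) (hπ : ∀ σ : Fin N → Bool, (fun j => σ (π j)) ∈ A ↔ σ ∈ A) :
    {σ : Fin N → Bool // σ ∈ A} ≃ {σ : Fin N → Bool // σ ∈ A} :=
  (Equiv.arrowCongr π.symm (Equiv.refl Bool)).subtypeEquiv fun σ => (hπ σ).symm

/-- action on field coins -/
def pC (π : Equiv.Perm (Fin N)) : FC p N n ≃ FC p N n :=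
  Equiv.piCongrRight fun _ => Equiv.arrowCongr π.symm (Equiv.refl _)

/-- action on gadget labels -/
def pL (π : Equiv.Perm (Fin N)) :
    (Fin N → Fin p.nb → Fin p.nc → Fin p.Q) ≃ (Fin N → Fin p.nb → Fin p.nc → Fin p.Q) :=
  Equiv.arrowCongr π.symm (Equiv.refl _)

variable (hA : A.Nonempty)

/-- action on configurations: sites by `π`, small coins by `ρ` -/
def pO (ρ π : Equiv.Perm (Fin N))
    (hπ : ∀ σ : Fin N → Bool, (fun j => σ (π j)) ∈ A ↔ σ ∈ A) :
    G.Om (base p n A hA) ≃ G.Om (base p n A hA) :=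
  Equiv.prodCongr (Equiv.prodCongr (pS π hπ) (Equiv.prodCongr (pC π) (pC ρ)))
    (Equiv.prodCongr (pL π) (Equiv.refl _))

variable {hA} {ρ π : Equiv.Perm (Fin N)}
  {hπ : ∀ σ : Fin N → Bool, (fun j => σ (π j)) ∈ A ↔ σ ∈ A}

theorem pO_spin (ω : G.Om (base p n A hA)) (j : Fin N) :
    (pO hA ρ π hπ ω).1.1.1 j = ω.1.1.1 (π j) := rfl

theorem pO_main (ω : G.Om (base p n A hA)) (g : Fin p.nc) (j : Fin N) :
    (pO hA ρ π hπ ω).1.2.1 g j = ω.1.2.1 g (π j) := rfl

theorem pO_small (ω : G.Om (base p n A hA)) (g : Fin p.nc) (i : Fin N) :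
    (pO hA ρ π hπ ω).1.2.2 g i = ω.1.2.2 g (ρ i) := rfl

theorem pO_lab (ω : G.Om (base p n A hA)) (j : Fin N) :
    (pO hA ρ π hπ ω).2.1 j = ω.2.1 (π j) := rfl

theorem pO_coin (ω : G.Om (base p n A hA)) : (pO hA ρ π hπ ω).2.2 = ω.2.2 := rfl

theorem zf_main (ω : G.Om (base p n A hA)) (g : Fin p.nc) (j : Fin N) :
    zf (pO hA ρ π hπ ω).1.2.1 g j = zf ω.1.2.1 g (π j) := rfl

theorem zf_small (ω : G.Om (base p n A hA)) (g : Fin p.nc) (i : Fin N) :
    zf (pO hA ρ π hπ ω).1.2.2 g i = zf ω.1.2.2 g (ρ i) := rfl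

theorem f_spin (ω : G.Om (base p n A hA)) (j : Fin N) :
    (base p n A hA).f j (pO hA ρ π hπ ω).1 = (base p n A hA).f (π j) ω.1 := rfl

/-- `pO` is a symmetry of the prior and of the filtration -/
theorem pO_sym : Sym.IsSym (G.prior (base p n A hA)) (G.fil (base p n A hA))
    (pO hA ρ π hπ) := by
  refine ⟨fun ω => rfl, fun k ω ω' => ?_⟩
  rw [G.fil_rel, G.fil_rel]
  unfold G.frel
  have e1 : (∀ (i : Fin N) (b : Fin p.nb) (g : Fin p.nc), p.mt g ≤ k →
      (pO hA ρ π hπ ω).2.1 i b g = (pO hA ρ π hπ ω').2.1 i b g) ↔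
      (∀ (i : Fin N) (b : Fin p.nb) (g : Fin p.nc), p.mt g ≤ k → ω.2.1 i b g = ω'.2.1 i b g) := by
    simp only [pO_lab]
    exact ⟨fun h i b g hg => by simpa using h (π.symm i) b g hg, fun h i b g hg => h (π i) b g hg⟩
  have e2 : (base p n A hA).SF k (pO hA ρ π hπ ω).1 (pO hA ρ π hπ ω').1 ↔
      (base p n A hA).SF k ω.1 ω'.1 := by
    show srel k _ _ ↔ srel k _ _
    unfold srel
    have m1 : ∀ g : Fin p.nc, ((pO hA ρ π hπ ω).1.2.1 g = (pO hA ρ π hπ ω').1.2.1 g ↔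
        ω.1.2.1 g = ω'.1.2.1 g) := by
      intro g
      constructor
      · intro h
        funext j
        have := congrFun h (π.symm j)
        rw [pO_main, pO_main, Equiv.apply_symm_apply] at this
        exact this
      · intro h; funext j; rw [pO_main, pO_main, h]
    have m2 : ∀ g : Fin p.nc, ((pO hA ρ π hπ ω).1.2.2 g = (pO hA ρ π hπ ω').1.2.2 g ↔
        ω.1.2.2 g = ω'.1.2.2 g) := by
      intro g
      constructor
      · intro h
        funext j
        have := congrFun h (ρ.symm j)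
        rw [pO_small, pO_small, Equiv.apply_symm_apply] at this
        exact this
      · intro h; funext j; rw [pO_small, pO_small, h]
    have m3 : (pO hA ρ π hπ ω).1.1 = (pO hA ρ π hπ ω').1.1 ↔ ω.1.1 = ω'.1.1 :=
      (pS π hπ).injective.eq_iff
    simp only [m1, m2, m3]
  rw [e1, e2, pO_coin, pO_coin]

theorem gfac_pO (ω : G.Om (base p n A hA)) (j : Fin N) (b : Fin p.nb) :
    G.gfac (base p n A hA) j b (pO hA ρ π hπ ω) = G.gfac (base p n A hA) (π j) b ω := by
  unfold G.gfac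
  rw [f_spin, pO_lab]

theorem cv_pO (ω : G.Om (base p n A hA)) (c : Crd p N) :
    G.cv (base p n A hA) (π.symm c.1, c.2) (pO hA ρ π hπ ω) = G.cv (base p n A hA) c ω := by
  rcases c with ⟨i, _ | b⟩
  · rw [G.cv_none, G.cv_none, f_spin, Equiv.apply_symm_apply]
  · rw [G.cv_some, G.cv_some, pO_lab, Equiv.apply_symm_apply]

theorem WW_pO (d : DD p N) (ω : G.Om (base p n A hA)) :
    G.WW (base p n A hA) (pD π d) (pO hA ρ π hπ ω) = G.WW (base p n A hA) d ω := by
  unfold G.WW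
  congr 1
  · simp only [gfac_pO]
    exact Equiv.sum_comp π (fun i => ∑ b, G.gfac (base p n A hA) i b ω)
  · refine Finset.sum_congr rfl fun k _ => ?_
    unfold pD
    cases h : d k with
    | none => rfl
    | some c =>
      show p.τ * ((if (pO hA ρ π hπ ω).2.2 k.1 k.2 = true then (1:ℝ) else 0) *
        G.cv (base p n A hA) (π.symm c.1, c.2) (pO hA ρ π hπ ω)) = _
      rw [cv_pO]
      rfl

/-- `x = U σ` under the permutations -/
theorem mulVec_pU (U : Fin N → Fin N → ℝ) (v : Fin N → ℝ) (i : Fin N) :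
    (Matrix.of (pU ρ π U)).mulVec (fun j => v (π j)) i = (Matrix.of U).mulVec v (ρ i) := by
  show ∑ j, U (ρ i) (π j) * v (π j) = ∑ j, U (ρ i) j * v j
  exact Equiv.sum_comp π (fun j => U (ρ i) j * v j)

theorem xU_pO (U : Fin N → Fin N → ℝ) (ω : G.Om (base p n A hA)) (i : Fin N) :
    xU (Matrix.of (pU ρ π U)) (pO hA ρ π hπ ω).1.1.1 i = xU (Matrix.of U) ω.1.1.1 (ρ i) := by
  unfold xU
  exact mulVec_pU (ρ := ρ) (π := π) U (Crest.ProbabilityR.InvariantGlass.spinVec ω.1.1.1) i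

/-- hypotheses: the data of the Hamiltonian are invariant -/
structure Inv (ρ π : Equiv.Perm (Fin N)) (eig : Fin N → ℝ) (V : (Fin N → Bool) → ℝ)
    (a lam : Fin N → Fin p.nc → ℝ) : Prop where
  eig : ∀ i, eig (ρ i) = eig i
  lam : ∀ i, lam (ρ i) = lam i
  a : ∀ j, a (π j) = a j
  V : ∀ σ : Fin N → Bool, V (fun j => σ (π j)) = V σ

/-- the Hamiltonian -/
def Hs (eig : Fin N → ℝ) (t : ℝ) (V : (Fin N → Bool) → ℝ) (a lam : Fin N → Fin p.nc → ℝ)
    (U : Fin N → Fin N → ℝ) : SS p n A → ℝ :=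
  HS (h0q eig (Matrix.of U) t V) a lam (xU (Matrix.of U))

variable {eig : Fin N → ℝ} {t : ℝ} {V : (Fin N → Bool) → ℝ} {a lam : Fin N → Fin p.nc → ℝ}

theorem Hs_pO (h : Inv ρ π eig V a lam) (U : Fin N → Fin N → ℝ) (ω : G.Om (base p n A hA)) :
    Hs eig t V a lam (pU ρ π U) (pO hA ρ π hπ ω).1 = Hs eig t V a lam U ω.1 := by
  unfold Hs HS
  have e1 : h0q eig (Matrix.of (pU ρ π U)) t V (pO hA ρ π hπ ω).1.1.1 =
      h0q eig (Matrix.of U) t V ω.1.1.1 := by
    unfold h0q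
    have hV : V (pO hA ρ π hπ ω).1.1.1 = V ω.1.1.1 := h.V ω.1.1.1
    rw [hV]
    congr 2
    have hx : ∀ i, (Matrix.of (pU ρ π U)).mulVec
        (Crest.ProbabilityR.InvariantGlass.spinVec (pO hA ρ π hπ ω).1.1.1) i =
        (Matrix.of U).mulVec (Crest.ProbabilityR.InvariantGlass.spinVec ω.1.1.1) (ρ i) :=
      fun i => xU_pO U ω i
    unfold Mag.qd
    simp only [hx]
    congr 1
    rw [← Equiv.sum_comp ρ (fun i => eig i *
      (Matrix.of U).mulVec (Crest.ProbabilityR.InvariantGlass.spinVec ω.1.1.1) i ^ 2)]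
    simp only [h.eig]
  rw [e1]
  congr 1
  · congr 1
    refine Finset.sum_congr rfl fun g _ => ?_
    rw [← Equiv.sum_comp π (fun i => a i g * (zf ω.1.2.1 g i * sv (ω.1.1.1 i)))]
    refine Finset.sum_congr rfl fun j _ => ?_
    rw [zf_main, pO_spin, h.a]
  · refine Finset.sum_congr rfl fun g _ => ?_
    rw [← Equiv.sum_comp ρ (fun i => lam i g *
      (zf ω.1.2.2 g i * xU (Matrix.of U) ω.1.1.1 i))]
    refine Finset.sum_congr rfl fun i _ => ?_
    rw [zf_small, xU_pO, h.lam]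

theorem UU_pO (h : Inv ρ π eig V a lam) (U : Fin N → Fin N → ℝ) (d : DD p N)
    (ω : G.Om (base p n A hA)) :
    G.UU (base p n A hA) (Hs eig t V a lam (pU ρ π U)) (pD π d) (pO hA ρ π hπ ω) =
      G.UU (base p n A hA) (Hs eig t V a lam U) d ω := by
  unfold G.UU
  rw [Hs_pO h, WW_pO]

/-- the tilted law of the permuted system -/
theorem PP_pO (h : Inv ρ π eig V a lam) (U : Fin N → Fin N → ℝ) (d : DD p N)
    (ω : G.Om (base p n A hA)) :
    G.PP (base p n A hA) (Hs eig t V a lam (pU ρ π U)) (pD π d) (pO hA ρ π hπ ω) =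
      G.PP (base p n A hA) (Hs eig t V a lam U) d ω := by
  unfold G.PP
  exact tl_comp2 (G.prior_isProb _) p.xs_expo.pos pO_sym (fun ω => UU_pO h U d ω) ω

theorem eE_PP_pO (h : Inv ρ π eig V a lam) (U : Fin N → Fin N → ℝ) (d : DD p N)
    (f : G.Om (base p n A hA) → ℝ) :
    eE (G.PP (base p n A hA) (Hs eig t V a lam (pU ρ π U)) (pD π d)) f =
      eE (G.PP (base p n A hA) (Hs eig t V a lam U) d) (fun ω => f (pO hA ρ π hπ ω)) :=
  eE_comp2 (fun ω => PP_pO h U d ω) f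

theorem cE_PP_pO (h : Inv ρ π eig V a lam) (U : Fin N → Fin N → ℝ) (d : DD p N) (k : ℕ)
    (f : G.Om (base p n A hA) → ℝ) (ω : G.Om (base p n A hA)) :
    cE (G.PP (base p n A hA) (Hs eig t V a lam (pU ρ π U)) (pD π d))
        ((G.fil (base p n A hA)).F k) f (pO hA ρ π hπ ω) =
      cE (G.PP (base p n A hA) (Hs eig t V a lam U) d) ((G.fil (base p n A hA)).F k)
        (fun ω => f (pO hA ρ π hπ ω)) ω :=
  cE_comp2 (fun ω => PP_pO h U d ω) pO_sym.rel k f ω

/-! ### Invariance of the outer law and of the Haar law -/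

/-- `pD` as a bijection -/
def pDe (π : Equiv.Perm (Fin N)) : DD p N ≃ DD p N :=
  Equiv.arrowCongr (Equiv.refl _)
    (Equiv.optionCongr (Equiv.prodCongr π.symm (Equiv.refl (Option (Fin p.nb)))))

theorem pDe_apply (d : DD p N) : pDe π d = pD π d := rfl

theorem dw_pD (d : DD p N) : dw p N (pD π d) = dw p N d := by
  unfold dw
  refine Finset.prod_congr rfl fun k _ => ?_
  unfold pD
  cases d k <;> rfl

theorem Ed_pD (F : DD p N → ℝ) : Ed p N (fun d => F (pD π d)) = Ed p N F := by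
  unfold Ed
  rw [← Equiv.sum_comp (pDe π) (fun d => dw p N d * F d)]
  refine Finset.sum_congr rfl fun d _ => ?_
  rw [pDe_apply, dw_pD]

/-- permutation matrix: `(O_π)_{k j} = 1` iff `k = π j` -/
def pM (π : Equiv.Perm (Fin N)) : Matrix (Fin N) (Fin N) ℝ := fun k j => if k = π j then 1 else 0

theorem pM_mem (π : Equiv.Perm (Fin N)) : pM π ∈ Matrix.orthogonalGroup (Fin N) ℝ := by
  rw [Matrix.mem_orthogonalGroup_iff']
  ext i j
  rw [Matrix.mul_apply]
  simp only [Matrix.transpose_apply, pM, Matrix.one_apply, ite_mul, one_mul, zero_mul,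
    Finset.sum_ite_eq', Finset.mem_univ, if_true]
  by_cases hij : i = j
  · subst hij; simp
  · simp [hij]

theorem pU_col (U : Fin N → Fin N → ℝ) : pU 1 π U = rmul (pM π) U := by
  funext i j
  rw [rmul_apply]
  unfold pU pM
  simp

theorem pU_row (U : Fin N → Fin N → ℝ) : pU ρ 1 U = lmul (pM ρ).transpose U := by
  funext i j
  rw [lmul_apply]
  unfold pU pM
  simp

theorem pU_eq (U : Fin N → Fin N → ℝ) : pU ρ π U = pU ρ 1 (pU 1 π U) := rfl

/-- `pU` as a measurable equivalence -/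
def pUe (ρ π : Equiv.Perm (Fin N)) : (Fin N → Fin N → ℝ) ≃ᵐ (Fin N → Fin N → ℝ) where
  toFun := pU ρ π
  invFun := pU ρ.symm π.symm
  left_inv U := by funext i j; simp [pU]
  right_inv U := by funext i j; simp [pU]
  measurable_toFun := by
    show Measurable (pU ρ π)
    refine measurable_pi_lambda _ fun i => measurable_pi_lambda _ fun j => ?_
    exact (measurable_pi_apply (π j)).comp (measurable_pi_apply (ρ i))
  measurable_invFun := by
    show Measurable (pU ρ.symm π.symm)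
    refine measurable_pi_lambda _ fun i => measurable_pi_lambda _ fun j => ?_
    exact (measurable_pi_apply (π.symm j)).comp (measurable_pi_apply (ρ.symm i))

theorem map_pU {μ : Measure (Fin N → Fin N → ℝ)} [IsProbabilityMeasure μ] (hμ : RHaar μ) :
    μ.map (pU ρ π) = μ := by
  have : (pU ρ π : (Fin N → Fin N → ℝ) → _) =
      fun U => lmul (pM ρ).transpose (rmul (pM π) U) := by
    funext U; rw [pU_eq, pU_row, pU_col]
  rw [this]
  exact hμ.map_both (transpose_mem (pM_mem ρ)) (pM_mem π)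

theorem integral_pU {μ : Measure (Fin N → Fin N → ℝ)} [IsProbabilityMeasure μ] (hμ : RHaar μ)
    (F : (Fin N → Fin N → ℝ) → ℝ) : ∫ U, F (pU ρ π U) ∂μ = ∫ U, F U ∂μ := by
  have hmp : MeasurePreserving (pUe ρ π) μ μ := ⟨(pUe ρ π).measurable, map_pU hμ⟩
  exact hmp.integral_comp' F

/-! ### The exchangeability identity -/

variable (hA) in
/-- the full average: Haar law, outer randomness, tilted law -/
def EE (μ : Measure (Fin N → Fin N → ℝ)) (eig : Fin N → ℝ) (t : ℝ) (V : (Fin N → Bool) → ℝ)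
    (a lam : Fin N → Fin p.nc → ℝ)
    (O : (Fin N → Fin N → ℝ) → DD p N → G.Om (base p n A hA) → ℝ) : ℝ :=
  ∫ U, Ed p N (fun d => eE (G.PP (base p n A hA) (Hs eig t V a lam U) d) (O U d)) ∂μ

variable {μ : Measure (Fin N → Fin N → ℝ)} [IsProbabilityMeasure μ]

/-- **(X1) + (X2): exchangeability** -/
theorem exchange (hμ : RHaar μ) (h : Inv ρ π eig V a lam)
    (hπ : ∀ σ : Fin N → Bool, (fun j => σ (π j)) ∈ A ↔ σ ∈ A)
    (O : (Fin N → Fin N → ℝ) → DD p N → G.Om (base p n A hA) → ℝ) :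
    EE hA μ eig t V a lam (fun U d ω => O (pU ρ π U) (pD π d) (pO hA ρ π hπ ω)) =
      EE hA μ eig t V a lam O := by
  unfold EE
  rw [← integral_pU (ρ := ρ) (π := π) hμ
    (fun U => Ed p N (fun d => eE (G.PP (base p n A hA) (Hs eig t V a lam U) d) (O U d)))]
  congr 1
  funext U
  rw [← Ed_pD (π := π) (fun d => eE (G.PP (base p n A hA) (Hs eig t V a lam (pU ρ π U)) d)
    (O (pU ρ π U) d))]
  congr 1
  funext d
  exact (eE_PP_pO h U d _).symm

end

end Crest.Agent.R164.GX
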