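import Crest.Agent.R164.EDb
import Crest.Agent.R164.EDd
import Crest.Agent.R164.GXch

/-!
# Row 164, L side, module E-DIFF part c (helper562): the exact increment versus the ideal weight
-/

set_option autoImplicit false

namespace Crest.Agent.R164.ED

open Finset Crest.Agent.R141 Crest.Agent.R164 Crest.Agent.R164.PF Crest.Agent.R164.Haar
open Crest.ProbabilityR.InvariantGlass

noncomputable section

/-- exponents of the ideal weight -/
def wx (m1 lamL z0 z1 y : ℝ) (v : Bool → ℝ) (b : Bool) : ℝ :=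
  (sv b - z0) * z1 + 1 / 2 * m1 * (sv b - z0) ^ 2 + 1 / 2 * lamL * z0 ^ 2 + v b + sv b * y

/-- the ideal weight -/
def wid (m1 lamL z0 z1 y : ℝ) (v : Bool → ℝ) : ℝ :=
  Real.log ((Real.exp (wx m1 lamL z0 z1 y v true) + Real.exp (wx m1 lamL z0 z1 y v false)) / 2)

variable {p : Par} {N n : ℕ}

/-- the glued spin vector -/
theorem spinVec_snoc_castSucc (σ : Fin N → Bool) (b : Bool) :
    (fun j : Fin N => spinVec (Fin.snoc (α := fun _ => Bool) σ b : Fin (N + 1) → Bool)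
      j.castSucc) = spinVec σ := by
  funext j
  unfold spinVec
  rw [Fin.snoc_castSucc]

theorem spinVec_snoc_last (σ : Fin N → Bool) (b : Bool) :
    spinVec (Fin.snoc (α := fun _ => Bool) σ b : Fin (N + 1) → Bool) (Fin.last N) = sv b := by
  unfold spinVec sv
  rw [Fin.snoc_last]

/-- `Σ_g Σ_i lam_{i,g} ζ_{i,g} u_i` -/
def FF (lam : Fin (N + 1) → Fin p.nc → ℝ) (G : Fin (N + 1) → ℝ)
    (s : SY.SS p n (univ : Finset (Fin N → Bool))) : ℝ :=
  ∑ g, ∑ i : Fin N, lam i.castSucc g * (SY.zf s.2.2 g i * un G i.castSucc)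

/-- the small field of the new row -/
def L2 (lam : Fin (N + 1) → Fin p.nc → ℝ) (l : LS p n) : ℝ :=
  ∑ g, lam (Fin.last N) g * zl l.2 g

/-- the main field of the new site -/
def yb (b : Fin p.nc → ℝ) (l : LS p n) : ℝ := ∑ g, b g * zl l.1 g

/-- Hamiltonian of the `N`-system -/
abbrev HN (eig : Fin (N + 1) → ℝ) (W0 : (Fin N → Bool) → ℝ) (a lam : Fin (N + 1) → Fin p.nc → ℝ)
    (V : Mat (Fin N)) : SY.SS p n (univ : Finset (Fin N → Bool)) → ℝ :=
  GX.Hs (fun i => eig i.castSucc) 1 W0 (fun i => a i.castSucc) (fun i => lam i.castSucc) V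

/-- Hamiltonian of the `(N+1)`-system -/
abbrev HN1 (eig : Fin (N + 1) → ℝ) (W1 : (Fin (N + 1) → Bool) → ℝ)
    (a lam : Fin (N + 1) → Fin p.nc → ℝ)
    (U : Mat (Fin (N + 1))) : SY.SS p n (univ : Finset (Fin (N + 1) → Bool)) → ℝ :=
  GX.Hs eig 1 W1 a lam U

variable (eig : Fin (N + 1) → ℝ) (W0 : (Fin N → Bool) → ℝ) (W1 : (Fin (N + 1) → Bool) → ℝ)
  (a lam : Fin (N + 1) → Fin p.nc → ℝ)

/-- `U s` for the coupled matrix -/
theorem xU_castSucc {G : Fin (N + 1) → ℝ} (hG : nrm G ≠ 0) (V : Mat (Fin N))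
    (σ : Fin N → Bool) (b : Bool) (i : Fin N) :
    SY.xU (Matrix.of (cplS V G)) (Fin.snoc (α := fun _ => Bool) σ b) i.castSucc =
      SY.xU (Matrix.of V) σ i + un G i.castSucc *
        (sv b - rr G * gz G (SY.xU (Matrix.of V) σ)) := by
  have h := cplS_mulVec_castSucc hG V (spinVec (Fin.snoc (α := fun _ => Bool) σ b)) i
  rw [spinVec_snoc_castSucc, spinVec_snoc_last] at h
  exact h

theorem xU_last {G : Fin (N + 1) → ℝ} (hG : nrm G ≠ 0) (V : Mat (Fin N))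
    (σ : Fin N → Bool) (b : Bool) :
    SY.xU (Matrix.of (cplS V G)) (Fin.snoc (α := fun _ => Bool) σ b) (Fin.last N) =
      sg (un G) * gz G (SY.xU (Matrix.of V) σ) + un G (Fin.last N) * sv b := by
  have h := cplS_mulVec_last hG V (spinVec (Fin.snoc (α := fun _ => Bool) σ b))
  rw [spinVec_snoc_castSucc, spinVec_snoc_last] at h
  exact h

/-- energy of the coupled matrix -/
theorem qd_cplS {G : Fin (N + 1) → ℝ} (hG : nrm G ≠ 0) (V : Mat (Fin N))
    (σ : Fin N → Bool) (b : Bool) :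
    Mag.qd eig (Matrix.of (cplS V G)) (Fin.snoc (α := fun _ => Bool) σ b) =
      Mag.qd (fun i : Fin N => eig i.castSucc) (Matrix.of V) σ +
      ((sv b - rr G * gz G (SY.xU (Matrix.of V) σ)) *
        gk G (fun i => eig i.castSucc) (SY.xU (Matrix.of V) σ) +
      (1 / 2) * (sv b - rr G * gz G (SY.xU (Matrix.of V) σ)) ^ 2 *
        mu_ (fun i => eig i.castSucc) G +
      (1 / 2) * eig (Fin.last N) * (sg (un G) * gz G (SY.xU (Matrix.of V) σ) +
        un G (Fin.last N) * sv b) ^ 2) := by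
  have h := cplS_energy hG V eig (spinVec (Fin.snoc (α := fun _ => Bool) σ b))
  rw [spinVec_snoc_castSucc, spinVec_snoc_last] at h
  exact h

/-- the exact increment, unbundled -/
theorem xw_core {G : Fin (N + 1) → ℝ} (hG : nrm G ≠ 0) (V : Mat (Fin N))
    (s : SY.SS p n (univ : Finset (Fin N → Bool))) (l : LS p n) (b : Bool) :
    HN1 eig W1 a lam (cplS V G) (glS s l b) - HN eig W0 a lam V s =
      (sv b - rr G * gz G (SY.xU (Matrix.of V) s.1.1)) *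
        gk G (fun i => eig i.castSucc) (SY.xU (Matrix.of V) s.1.1) +
      (1 / 2) * (sv b - rr G * gz G (SY.xU (Matrix.of V) s.1.1)) ^ 2 *
        mu_ (fun i => eig i.castSucc) G +
      (1 / 2) * eig (Fin.last N) * (sg (un G) * gz G (SY.xU (Matrix.of V) s.1.1) +
        un G (Fin.last N) * sv b) ^ 2 +
      (W1 (Fin.snoc (α := fun _ => Bool) s.1.1 b) - W0 s.1.1) +
      sv b * yb (a (Fin.last N)) l +
      FF lam G s * (sv b - rr G * gz G (SY.xU (Matrix.of V) s.1.1)) +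
      L2 lam l * (sg (un G) * gz G (SY.xU (Matrix.of V) s.1.1) +
        un G (Fin.last N) * sv b) := by
  have s1 : (glS s l b).1.1 = Fin.snoc (α := fun _ => Bool) s.1.1 b := rfl
  show SY.HS (SY.h0q eig (Matrix.of (cplS V G)) 1 W1) a lam (SY.xU (Matrix.of (cplS V G)))
    (glS s l b) - SY.HS (SY.h0q (fun i : Fin N => eig i.castSucc) (Matrix.of V) 1 W0)
      (fun i => a i.castSucc) (fun i => lam i.castSucc) (SY.xU (Matrix.of V)) s = _
  unfold SY.HS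
  rw [s1]
  unfold SY.h0q
  rw [qd_cplS eig hG V s.1.1 b]
  have e1 : ∀ g : Fin p.nc, ∑ i : Fin (N + 1), a i g * (SY.zf (glS s l b).2.1 g i *
      sv ((Fin.snoc (α := fun _ => Bool) s.1.1 b : Fin (N + 1) → Bool) i)) =
      (∑ i : Fin N, a i.castSucc g * (SY.zf s.2.1 g i * sv (s.1.1 i))) +
        sv b * (a (Fin.last N) g * zl l.1 g) := by
    intro g
    rw [Fin.sum_univ_castSucc]
    simp only [Fin.snoc_castSucc, Fin.snoc_last, zf_gl_last, zf_gl_castSucc]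
    ring
  have e2 : ∀ g : Fin p.nc, ∑ i : Fin (N + 1), lam i g * (SY.zf (glS s l b).2.2 g i *
      SY.xU (Matrix.of (cplS V G)) (Fin.snoc (α := fun _ => Bool) s.1.1 b) i) =
      (∑ i : Fin N, lam i.castSucc g * (SY.zf s.2.2 g i * SY.xU (Matrix.of V) s.1.1 i)) +
      (∑ i : Fin N, lam i.castSucc g * (SY.zf s.2.2 g i * un G i.castSucc)) *
        (sv b - rr G * gz G (SY.xU (Matrix.of V) s.1.1)) +
      lam (Fin.last N) g * zl l.2 g * (sg (un G) * gz G (SY.xU (Matrix.of V) s.1.1) +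
        un G (Fin.last N) * sv b) := by
    intro g
    rw [Fin.sum_univ_castSucc]
    simp only [zf_gl2_last, zf_gl2_castSucc, xU_castSucc hG, xU_last hG]
    rw [Finset.sum_mul, ← Finset.sum_add_distrib]
    congr 1
    · refine Finset.sum_congr rfl fun i _ => ?_
      ring
    · ring
  rw [Finset.sum_congr rfl fun g _ => e1 g, Finset.sum_congr rfl fun g _ => e2 g]
  simp only [Finset.sum_add_distrib, ← Finset.sum_mul, ← Finset.mul_sum]
  unfold FF L2 yb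
  ring

/-- **the exact increment** -/
theorem xw_formula {G : Fin (N + 1) → ℝ} (hG : nrm G ≠ 0) (V : Mat (Fin N))
    (u : (OU p N n × LS p n) × Bool) :
    xw (HN eig W0 a lam V) (HN1 eig W1 a lam (cplS V G)) u =
      (sv u.2 - rr G * gz G (SY.xU (Matrix.of V) u.1.1.1.1.1)) *
        gk G (fun i => eig i.castSucc) (SY.xU (Matrix.of V) u.1.1.1.1.1) +
      (1 / 2) * (sv u.2 - rr G * gz G (SY.xU (Matrix.of V) u.1.1.1.1.1)) ^ 2 *
        mu_ (fun i => eig i.castSucc) G +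
      (1 / 2) * eig (Fin.last N) * (sg (un G) * gz G (SY.xU (Matrix.of V) u.1.1.1.1.1) +
        un G (Fin.last N) * sv u.2) ^ 2 +
      (W1 (Fin.snoc (α := fun _ => Bool) u.1.1.1.1.1 u.2) - W0 u.1.1.1.1.1) +
      sv u.2 * yb (a (Fin.last N)) u.1.2 +
      FF lam G u.1.1.1 * (sv u.2 - rr G * gz G (SY.xU (Matrix.of V) u.1.1.1.1.1)) +
      L2 lam u.1.2 * (sg (un G) * gz G (SY.xU (Matrix.of V) u.1.1.1.1.1) +
        un G (Fin.last N) * sv u.2) :=
  xw_core eig W0 W1 a lam hG V u.1.1.1 u.1.2 u.2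

/-! ### the pathwise bound -/

theorem abs_le_half (t : ℝ) : |t| ≤ (1 + t ^ 2) / 2 := by
  have h := sq_nonneg (|t| - 1)
  have h2 := sq_abs t
  nlinarith

set_option maxHeartbeats 1000000 in
theorem alg_main {e z0 z1 n1 r mu m1 lam q s L k : ℝ} (he : e ^ 2 = 1) (hs : s ^ 2 = 1)
    (hn0 : 0 ≤ n1) (hn2 : n1 ^ 2 ≤ 2) (hr0 : 0 ≤ r) (hr1 : r ≤ 1)
    (hq : |q| ≤ 1) (hm : |m1| ≤ L) (hl : |lam| ≤ L)
    (hk : k = |n1 - 1| + |n1 ^ 2 - 1| + |r - 1| + |q| + |mu - m1|) :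
    |((e - r * (z0 * n1)) * (z1 * n1) + 1 / 2 * (e - r * (z0 * n1)) ^ 2 * mu +
      1 / 2 * lam * (s * (z0 * n1) + q * e) ^ 2) -
      ((e - z0) * z1 + 1 / 2 * m1 * (e - z0) ^ 2 + 1 / 2 * lam * z0 ^ 2)| ≤
      10 * (1 + L) * (k * (1 + z0 ^ 2 + z1 ^ 2)) := by
  have hL0 : 0 ≤ L := (abs_nonneg _).trans hm
  have k1 : |n1 - 1| ≤ k := by rw [hk]; linarith [abs_nonneg (n1^2-1), abs_nonneg (r-1), abs_nonneg q, abs_nonneg (mu-m1)]
  have k2 : |n1 ^ 2 - 1| ≤ k := by rw [hk]; linarith [abs_nonneg (n1-1), abs_nonneg (r-1), abs_nonneg q, abs_nonneg (mu-m1)]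
  have k3 : |r - 1| ≤ k := by rw [hk]; linarith [abs_nonneg (n1-1), abs_nonneg (n1^2-1), abs_nonneg q, abs_nonneg (mu-m1)]
  have k4 : |q| ≤ k := by rw [hk]; linarith [abs_nonneg (n1-1), abs_nonneg (n1^2-1), abs_nonneg (r-1), abs_nonneg (mu-m1)]
  have k5 : |mu - m1| ≤ k := by rw [hk]; linarith [abs_nonneg (n1-1), abs_nonneg (n1^2-1), abs_nonneg (r-1), abs_nonneg q]
  have hk0 : 0 ≤ k := (abs_nonneg _).trans k1
  have hn1 : n1 ≤ 2 := by
    by_contra hc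
    have hc := not_le.1 hc
    have : (2:ℝ) * 2 < n1 * n1 := mul_lt_mul'' hc hc (by norm_num) (by norm_num)
    linarith [sq n1]
  have hea : |e| = 1 := by
    have : |e| ^ 2 = 1 := by rw [sq_abs]; exact he
    exact (pow_eq_one_iff_of_nonneg (abs_nonneg e) two_ne_zero).1 this
  have hsa : |s| = 1 := by
    have : |s| ^ 2 = 1 := by rw [sq_abs]; exact hs
    exact (pow_eq_one_iff_of_nonneg (abs_nonneg s) two_ne_zero).1 this
  set Q : ℝ := 1 + z0 ^ 2 + z1 ^ 2 with hQ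
  have hQ1 : 1 ≤ Q := by rw [hQ]; linarith [sq_nonneg z0, sq_nonneg z1]
  have z0Q : |z0| ≤ Q / 2 := (abs_le_half z0).trans (by rw [hQ]; linarith [sq_nonneg z1])
  have z1Q : |z1| ≤ Q / 2 := (abs_le_half z1).trans (by rw [hQ]; linarith [sq_nonneg z0])
  have z2Q : z0 ^ 2 ≤ Q := by rw [hQ]; linarith [sq_nonneg z1]
  have z01 : |z0 * z1| ≤ Q / 2 := by
    rw [abs_mul]
    have := sq_abs z0
    have := sq_abs z1
    nlinarith [sq_nonneg (|z0| - |z1|)]
  -- decomposition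
  have hdec : ((e - r * (z0 * n1)) * (z1 * n1) + 1 / 2 * (e - r * (z0 * n1)) ^ 2 * mu +
      1 / 2 * lam * (s * (z0 * n1) + q * e) ^ 2) -
      ((e - z0) * z1 + 1 / 2 * m1 * (e - z0) ^ 2 + 1 / 2 * lam * z0 ^ 2) =
      e * ((n1 - 1) * z1) - ((r - 1) * n1 ^ 2 + (n1 ^ 2 - 1)) * (z0 * z1) +
      1 / 2 * (e - r * (z0 * n1)) ^ 2 * (mu - m1) +
      m1 * (1 / 2 * (-2 * e * z0 * ((r - 1) * n1 + (n1 - 1)) +
        z0 ^ 2 * ((r - 1) * (r + 1) * n1 ^ 2 + (n1 ^ 2 - 1)))) +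
      lam * (1 / 2 * (z0 ^ 2 * (n1 ^ 2 - 1) + 2 * (s * z0 * n1 * e * q) + q ^ 2) ) +
      1 / 2 * lam * (s ^ 2 - 1) * z0 ^ 2 * n1 ^ 2 + 1 / 2 * lam * q ^ 2 * (e ^ 2 - 1) := by
    ring
  rw [hdec, hs, he]
  clear hdec
  have t1 : |e * ((n1 - 1) * z1)| ≤ k * Q / 2 := by
    rw [abs_mul, hea, one_mul, abs_mul]
    calc |n1 - 1| * |z1| ≤ k * (Q / 2) := mul_le_mul k1 z1Q (abs_nonneg _) hk0
      _ = _ := by ring
  have t2 : |((r - 1) * n1 ^ 2 + (n1 ^ 2 - 1)) * (z0 * z1)| ≤ 3 * k * Q / 2 := by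
    rw [abs_mul]
    have h1 : |(r - 1) * n1 ^ 2 + (n1 ^ 2 - 1)| ≤ 3 * k := by
      refine (abs_add_le _ _).trans ?_
      rw [abs_mul, abs_of_nonneg (sq_nonneg n1)]
      have : |r - 1| * n1 ^ 2 ≤ k * 2 := mul_le_mul k3 hn2 (sq_nonneg _) hk0
      linarith
    calc _ ≤ 3 * k * (Q / 2) := mul_le_mul h1 z01 (abs_nonneg _) (by positivity)
      _ = _ := by ring
  have t3 : |1 / 2 * (e - r * (z0 * n1)) ^ 2 * (mu - m1)| ≤ 2 * k * Q := by
    rw [abs_mul, abs_of_nonneg (by positivity)]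
    have h1 : 1 / 2 * (e - r * (z0 * n1)) ^ 2 ≤ 2 * Q := by
      have h2 : (e - r * (z0 * n1)) ^ 2 ≤ 2 * e ^ 2 + 2 * (r * (z0 * n1)) ^ 2 := by
        nlinarith [sq_nonneg (e + r * (z0 * n1))]
      have h3 : (r * (z0 * n1)) ^ 2 ≤ 2 * z0 ^ 2 := by
        have e3 : (r * (z0 * n1)) ^ 2 = (r ^ 2 * n1 ^ 2) * z0 ^ 2 := by ring
        rw [e3]
        refine mul_le_mul_of_nonneg_right ?_ (sq_nonneg _)
        have h4 : r ^ 2 ≤ 1 := pow_le_one₀ hr0 hr1
        have h5 : r ^ 2 * n1 ^ 2 ≤ 1 * 2 := mul_le_mul h4 hn2 (sq_nonneg _) zero_le_one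
        linarith
      rw [he] at h2
      linarith [sq_nonneg z1, sq_nonneg z0]
    calc _ ≤ 2 * Q * k := mul_le_mul h1 k5 (abs_nonneg _) (by positivity)
      _ = _ := by ring
  have t4 : |m1 * (1 / 2 * (-2 * e * z0 * ((r - 1) * n1 + (n1 - 1)) +
        z0 ^ 2 * ((r - 1) * (r + 1) * n1 ^ 2 + (n1 ^ 2 - 1))))| ≤ L * (4 * k * Q) := by
    rw [abs_mul]
    refine mul_le_mul hm ?_ (abs_nonneg _) hL0
    have h1 : |(r - 1) * n1 + (n1 - 1)| ≤ 3 * k := by
      refine (abs_add_le _ _).trans ?_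
      rw [abs_mul, abs_of_nonneg hn0]
      have : |r - 1| * n1 ≤ k * 2 := mul_le_mul k3 hn1 hn0 hk0
      linarith
    have h2 : |(r - 1) * (r + 1) * n1 ^ 2 + (n1 ^ 2 - 1)| ≤ 5 * k := by
      refine (abs_add_le _ _).trans ?_
      rw [abs_mul, abs_mul, abs_of_nonneg (sq_nonneg n1), abs_of_nonneg (by linarith : 0 ≤ r + 1)]
      have h3 : |r - 1| * (r + 1) ≤ k * 2 := mul_le_mul k3 (by linarith) (by linarith) hk0
      have h4 : |r - 1| * (r + 1) * n1 ^ 2 ≤ k * 2 * 2 :=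
        mul_le_mul h3 hn2 (sq_nonneg _) (by positivity)
      linarith
    rw [abs_mul, abs_of_nonneg (by norm_num : (0:ℝ) ≤ 1 / 2)]
    have h5 : |-2 * e * z0 * ((r - 1) * n1 + (n1 - 1)) +
        z0 ^ 2 * ((r - 1) * (r + 1) * n1 ^ 2 + (n1 ^ 2 - 1))| ≤ 3 * k * Q + 5 * k * Q := by
      refine (abs_add_le _ _).trans (add_le_add ?_ ?_)
      · rw [abs_mul]
        have h6 : |-2 * e * z0| = 2 * |z0| := by
          rw [abs_mul, abs_mul, hea]; norm_num
        rw [h6]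
        calc 2 * |z0| * |(r - 1) * n1 + (n1 - 1)| ≤ Q * (3 * k) :=
              mul_le_mul (by linarith) h1 (abs_nonneg _) (by linarith)
          _ = _ := by ring
      · rw [abs_mul, abs_of_nonneg (sq_nonneg z0)]
        calc z0 ^ 2 * _ ≤ Q * (5 * k) := mul_le_mul z2Q h2 (abs_nonneg _) (by linarith)
          _ = _ := by ring
    linarith
  have t5 : |lam * (1 / 2 * (z0 ^ 2 * (n1 ^ 2 - 1) + 2 * (s * z0 * n1 * e * q) + q ^ 2))| ≤
      L * (2 * k * Q) := by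
    rw [abs_mul]
    refine mul_le_mul hl ?_ (abs_nonneg _) hL0
    rw [abs_mul, abs_of_nonneg (by norm_num : (0:ℝ) ≤ 1 / 2)]
    have h1 : |z0 ^ 2 * (n1 ^ 2 - 1)| ≤ k * Q := by
      rw [abs_mul, abs_of_nonneg (sq_nonneg z0), mul_comm]
      exact mul_le_mul k2 z2Q (sq_nonneg _) hk0
    have h2 : |2 * (s * z0 * n1 * e * q)| ≤ 2 * (k * Q) := by
      rw [abs_mul, abs_mul, abs_mul, abs_mul, abs_mul, hsa, hea, abs_of_nonneg hn0,
        abs_of_nonneg (by norm_num : (0:ℝ) ≤ 2)]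
      have h3 : |z0| * n1 ≤ Q / 2 * 2 := mul_le_mul z0Q hn1 hn0 (by linarith)
      have h4 : |z0| * n1 * |q| ≤ Q / 2 * 2 * k := mul_le_mul h3 k4 (abs_nonneg _) (by linarith)
      linarith
    have h3 : |q ^ 2| ≤ k * Q := by
      rw [abs_pow]
      have h4 : |q| ^ 2 ≤ |q| := by nlinarith [abs_nonneg q]
      have h5 : k ≤ k * Q := le_mul_of_one_le_right hk0 hQ1
      linarith
    have h4 := abs_add_le (z0 ^ 2 * (n1 ^ 2 - 1) + 2 * (s * z0 * n1 * e * q)) (q ^ 2)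
    have h5 := abs_add_le (z0 ^ 2 * (n1 ^ 2 - 1)) (2 * (s * z0 * n1 * e * q))
    linarith
  have hkQ : 0 ≤ k * Q := by positivity
  have a1 := abs_sub (e * ((n1 - 1) * z1)) (((r - 1) * n1 ^ 2 + (n1 ^ 2 - 1)) * (z0 * z1))
  simp only [sub_self, mul_zero, zero_mul, add_zero]
  set T1 := e * ((n1 - 1) * z1)
  set T2 := ((r - 1) * n1 ^ 2 + (n1 ^ 2 - 1)) * (z0 * z1)
  set T3 := 1 / 2 * (e - r * (z0 * n1)) ^ 2 * (mu - m1)
  set T4 := m1 * (1 / 2 * (-2 * e * z0 * ((r - 1) * n1 + (n1 - 1)) +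
        z0 ^ 2 * ((r - 1) * (r + 1) * n1 ^ 2 + (n1 ^ 2 - 1))))
  set T5 := lam * (1 / 2 * (z0 ^ 2 * (n1 ^ 2 - 1) + 2 * (s * z0 * n1 * e * q) + q ^ 2))
  have a2 := abs_add_le (T1 - T2 + T3 + T4) T5
  have a3 := abs_add_le (T1 - T2 + T3) T4
  have a4 := abs_add_le (T1 - T2) T3
  have hLk : 0 ≤ L * (k * Q) := by positivity
  have e9 : 10 * (1 + L) * (k * Q) = 10 * (k * Q) + 10 * (L * (k * Q)) := by ring
  rw [e9]
  have e10 : L * (4 * k * Q) = 4 * (L * (k * Q)) := by ring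
  have e11 : L * (2 * k * Q) = 2 * (L * (k * Q)) := by ring
  rw [e10] at t4
  rw [e11] at t5
  clear_value T1 T2 T3 T4 T5 Q
  linarith

/-- Gaussian forms of a configuration: `z0`, `z1` -/
def Z0 (V : Mat (Fin N)) (G : Fin (N + 1) → ℝ) (σ : Fin N → Bool) : ℝ :=
  zc G (SY.xU (Matrix.of V) σ)

/-- Gaussian forms of a configuration: `z0`, `z1` -/
def Z1 (V : Mat (Fin N)) (G : Fin (N + 1) → ℝ) (σ : Fin N → Bool) : ℝ :=
  zc G (fun i => eig i.castSucc * SY.xU (Matrix.of V) σ i)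

/-- the ideal exponents as a function on the space of the step -/
def WX (m1 : ℝ) (b : Fin p.nc → ℝ) (bb : ℝ) (v : (Fin N → Bool) → Bool → ℝ) (V : Mat (Fin N))
    (G : Fin (N + 1) → ℝ) (u : (OU p N n × LS p n) × Bool) : ℝ :=
  wx m1 (eig (Fin.last N)) (Z0 V G u.1.1.1.1.1) (Z1 eig V G u.1.1.1.1.1) (bb + yb b u.1.2)
    (v u.1.1.1.1.1) u.2

theorem redB_WX (m1 : ℝ) (b : Fin p.nc → ℝ) (bb : ℝ) (v : (Fin N → Bool) → Bool → ℝ)
    (V : Mat (Fin N)) (G : Fin (N + 1) → ℝ) (w : OU p N n × LS p n) :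
    redB (WX eig m1 b bb v V G) w = wid m1 (eig (Fin.last N)) (Z0 V G w.1.1.1.1)
      (Z1 eig V G w.1.1.1.1) (bb + yb b w.2) (v w.1.1.1.1) := rfl

/-- the true increment of the potential -/
def vT (σ : Fin N → Bool) (b : Bool) : ℝ := W1 (Fin.snoc (α := fun _ => Bool) σ b) - W0 σ

/-- the size of the error of the small fields -/
def eF (V : Mat (Fin N)) (G : Fin (N + 1) → ℝ) (w : OU p N n × LS p n) : ℝ :=
  2 * (1 + |Z0 V G w.1.1.1.1|) * (|FF lam G w.1.1| + |L2 lam w.2|)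

/-- **the pathwise bound** -/
theorem xw_sub_le (hN : 1 ≤ N) {Λ m1 : ℝ} (he : ∀ i, |eig i| ≤ Λ) (hm : |m1| ≤ Λ)
    {G : Fin (N + 1) → ℝ} (hG : G ∈ Gd N) (V : Mat (Fin N)) (u : (OU p N n × LS p n) × Bool) :
    |xw (HN eig W0 a lam V) (HN1 eig W1 a lam (cplS V G)) u -
      WX eig m1 (a (Fin.last N)) 0 (vT W0 W1) V G u| ≤
      10 * (1 + Λ) * (kp (fun i : Fin N => eig i.castSucc) m1 G *
        qf (fun i => eig i.castSucc) (SY.xU (Matrix.of V) u.1.1.1.1.1) G) +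
      eF lam V G u.1 := by
  have hn := nrm_ne hG
  rw [xw_formula eig W0 W1 a lam hn V u]
  have hnu := nu_pos hN hG
  have hnm := nu_mem hN hG
  have hr := rr_mem G hn
  have hu1 : un G (Fin.last N) ^ 2 ≤ 1 := by
    rw [← sum_un hn]
    exact Finset.single_le_sum (f := fun i => un G i ^ 2) (fun i _ => sq_nonneg _)
      (Finset.mem_univ _)
  have hq : |un G (Fin.last N)| ≤ 1 := by
    rw [← sq_abs] at hu1
    exact (sq_le_one_iff₀ (abs_nonneg _)).1 hu1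
  set x := SY.xU (Matrix.of V) u.1.1.1.1.1 with hx
  set e := sv u.2 with hedef
  have he2 : e ^ 2 = 1 := by rw [hedef]; cases u.2 <;> norm_num [sv]
  have hea : |e| = 1 := sv_abs _
  have hs2 : sg (un G) ^ 2 = 1 := by rw [sq]; exact sg_mul_self _
  have hsa : |sg (un G)| = 1 := by
    have : |sg (un G)| ^ 2 = 1 := by rw [sq_abs]; exact hs2
    exact (pow_eq_one_iff_of_nonneg (abs_nonneg _) two_ne_zero).1 this
  set n1 : ℝ := 1 / nu G with hn1
  have hn10 : 0 ≤ n1 := by rw [hn1]; positivity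
  have hn12 : n1 ^ 2 ≤ 2 := by
    rw [hn1, one_div, inv_pow, ← one_div]; exact inv_nu_sq_le hN hG
  have hn1le : n1 ≤ 2 := by
    rw [hn1, div_le_iff₀ hnu]; linarith [hnm.1]
  have hgz : gz G x = zc G x * n1 := by rw [gz_eq hN, hn1]; ring
  have hgk : gk G (fun i => eig i.castSucc) x = zc G (fun i => eig i.castSucc * x i) * n1 := by
    rw [gk_eq hN, hn1]; ring
  rw [hgz, hgk]
  have hk : kp (fun i : Fin N => eig i.castSucc) m1 G =
      |n1 - 1| + |n1 ^ 2 - 1| + |rr G - 1| + |un G (Fin.last N)| +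
        |mu_ (fun i : Fin N => eig i.castSucc) G - m1| := by
    unfold kp
    rw [hn1, div_pow, one_pow]
  have h1 := alg_main (e := e) (z0 := zc G x) (z1 := zc G (fun i => eig i.castSucc * x i))
    (n1 := n1) (r := rr G) (mu := mu_ (fun i : Fin N => eig i.castSucc) G) (m1 := m1)
    (lam := eig (Fin.last N)) (q := un G (Fin.last N)) (s := sg (un G)) (L := Λ)
    (k := kp (fun i : Fin N => eig i.castSucc) m1 G) he2 hs2 hn10 hn12 (by linarith [hr.1]) hr.2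
    hq hm (he _) hk
  have hzf : |e - rr G * (zc G x * n1)| ≤ 2 * (1 + |zc G x|) := by
    refine (abs_sub _ _).trans ?_
    rw [hea, abs_mul, abs_mul, abs_of_nonneg (by linarith [hr.1] : 0 ≤ rr G), abs_of_nonneg hn10]
    have h2 : |zc G x| * n1 ≤ |zc G x| * 2 := mul_le_mul_of_nonneg_left hn1le (abs_nonneg _)
    have h3 : rr G * (|zc G x| * n1) ≤ 1 * (|zc G x| * 2) :=
      mul_le_mul hr.2 h2 (by positivity) zero_le_one
    linarith
  have hzl : |sg (un G) * (zc G x * n1) + un G (Fin.last N) * e| ≤ 2 * (1 + |zc G x|) := by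
    refine (abs_add_le _ _).trans ?_
    rw [abs_mul, abs_mul, abs_mul, hsa, hea, abs_of_nonneg hn10]
    have h2 : |zc G x| * n1 ≤ |zc G x| * 2 := mul_le_mul_of_nonneg_left hn1le (abs_nonneg _)
    linarith
  have hF : |FF lam G u.1.1.1 * (e - rr G * (zc G x * n1))| ≤
      |FF lam G u.1.1.1| * (2 * (1 + |zc G x|)) := by
    rw [abs_mul]; exact mul_le_mul_of_nonneg_left hzf (abs_nonneg _)
  have hL : |L2 lam u.1.2 * (sg (un G) * (zc G x * n1) + un G (Fin.last N) * e)| ≤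
      |L2 lam u.1.2| * (2 * (1 + |zc G x|)) := by
    rw [abs_mul]; exact mul_le_mul_of_nonneg_left hzl (abs_nonneg _)
  have hW : WX eig m1 (a (Fin.last N)) 0 (vT W0 W1) V G u =
      (e - zc G x) * zc G (fun i => eig i.castSucc * x i) + 1 / 2 * m1 * (e - zc G x) ^ 2 +
        1 / 2 * eig (Fin.last N) * zc G x ^ 2 +
        (W1 (Fin.snoc (α := fun _ => Bool) u.1.1.1.1.1 u.2) - W0 u.1.1.1.1.1) +
        e * yb (a (Fin.last N)) u.1.2 := by
    unfold WX wx Z0 Z1 vT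
    rw [zero_add]
  have hE : eF lam V G u.1 = 2 * (1 + |zc G x|) * (|FF lam G u.1.1.1| + |L2 lam u.1.2|) := rfl
  have hQ : qf (fun i => eig i.castSucc) x G =
      1 + zc G x ^ 2 + zc G (fun i => eig i.castSucc * x i) ^ 2 := rfl
  rw [hW, hE, hQ]
  set A1 := (e - rr G * (zc G x * n1)) * (zc G (fun i => eig i.castSucc * x i) * n1) with hA1
  set A2 := (e - rr G * (zc G x * n1)) ^ 2 with hA2
  set A3 := (sg (un G) * (zc G x * n1) + un G (Fin.last N) * e) ^ 2 with hA3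
  have e5 : A1 + 1 / 2 * A2 * mu_ (fun i : Fin N => eig i.castSucc) G +
      1 / 2 * eig (Fin.last N) * A3 +
      (W1 (Fin.snoc (α := fun _ => Bool) u.1.1.1.1.1 u.2) - W0 u.1.1.1.1.1) +
      e * yb (a (Fin.last N)) u.1.2 +
      FF lam G u.1.1.1 * (e - rr G * (zc G x * n1)) +
      L2 lam u.1.2 * (sg (un G) * (zc G x * n1) + un G (Fin.last N) * e) -
      ((e - zc G x) * zc G (fun i => eig i.castSucc * x i) + 1 / 2 * m1 * (e - zc G x) ^ 2 +
        1 / 2 * eig (Fin.last N) * zc G x ^ 2 +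
        (W1 (Fin.snoc (α := fun _ => Bool) u.1.1.1.1.1 u.2) - W0 u.1.1.1.1.1) +
        e * yb (a (Fin.last N)) u.1.2) =
      ((A1 + 1 / 2 * A2 * mu_ (fun i : Fin N => eig i.castSucc) G +
      1 / 2 * eig (Fin.last N) * A3) -
      ((e - zc G x) * zc G (fun i => eig i.castSucc * x i) + 1 / 2 * m1 * (e - zc G x) ^ 2 +
        1 / 2 * eig (Fin.last N) * zc G x ^ 2)) +
      FF lam G u.1.1.1 * (e - rr G * (zc G x * n1)) +
      L2 lam u.1.2 * (sg (un G) * (zc G x * n1) + un G (Fin.last N) * e) := by ring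
  rw [e5]
  refine (abs_add_le _ _).trans ?_
  refine (add_le_add (abs_add_le _ _) le_rfl).trans ?_
  have e6 : 2 * (1 + |zc G x|) * (|FF lam G u.1.1.1| + |L2 lam u.1.2|) =
      |FF lam G u.1.1.1| * (2 * (1 + |zc G x|)) + |L2 lam u.1.2| * (2 * (1 + |zc G x|)) := by ring
  rw [e6]
  linarith

end

end Crest.Agent.R164.ED
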