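import Crest.Agent.R141.Sys

/-!
Row 164: comparison of the laws of the outer randomness (pointers) for `N` and `N + 1` sites.
-/

set_option autoImplicit false

namespace Crest.Agent.R164.EDlaw

open Finset Crest.Agent.R141

noncomputable section

/-- hybrid argument: expectations under two product laws. -/
theorem hybrid {K α : Type*} [Fintype K] [Fintype α] [DecidableEq K] (a b : α → ℝ)
    (ha : ∀ o, 0 ≤ a o) (hb : ∀ o, 0 ≤ b o) (sa : ∑ o, a o = 1) (sb : ∑ o, b o = 1)
    (f : (K → α) → ℝ) {M : ℝ} (hf : ∀ d, |f d| ≤ M) :
    |∑ d : K → α, (∏ k, a (d k)) * f d - ∑ d : K → α, (∏ k, b (d k)) * f d| ≤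
      Fintype.card K * (∑ o, |a o - b o|) * M := by
  classical
  have hM : 0 ≤ M ∨ IsEmpty (K → α) := by
    rcases isEmpty_or_nonempty (K → α) with h | ⟨⟨d⟩⟩
    · exact Or.inr h
    · exact Or.inl ((abs_nonneg _).trans (hf d))
  rcases hM with hM | hE
  swap
  · simp only [Finset.univ_eq_empty, Finset.sum_empty, sub_zero, abs_zero]
    exfalso
    have : IsEmpty α := by
      by_contra h
      rw [not_isEmpty_iff] at h
      obtain ⟨o⟩ := h
      exact hE.false (fun _ => o)
    simp at sa
  set δ := ∑ o, |a o - b o| with hδ
  have hδ0 : 0 ≤ δ := Finset.sum_nonneg fun _ _ => abs_nonneg _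
  -- the hybrids
  set w : Finset K → K → α → ℝ := fun S k o => if k ∈ S then b o else a o with hw
  have key : ∀ S : Finset K,
      |∑ d : K → α, (∏ k, w ∅ k (d k)) * f d - ∑ d : K → α, (∏ k, w S k (d k)) * f d| ≤
        S.card * δ * M := by
    intro S
    induction S using Finset.induction_on with
    | empty => simp
    | insert k0 S hk ih =>
      have hstep : |∑ d : K → α, (∏ k, w S k (d k)) * f d -
          ∑ d : K → α, (∏ k, w (insert k0 S) k (d k)) * f d| ≤ δ * M := by
        rw [← Finset.sum_sub_distrib]
        have e : ∀ d : K → α, (∏ k, w S k (d k)) * f d - (∏ k, w (insert k0 S) k (d k)) * f d =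
            ((a (d k0) - b (d k0)) * ∏ k ∈ univ.erase k0, w S k (d k)) * f d := by
          intro d
          rw [← Finset.mul_prod_erase univ (fun k => w S k (d k)) (Finset.mem_univ k0),
            ← Finset.mul_prod_erase univ (fun k => w (insert k0 S) k (d k)) (Finset.mem_univ k0)]
          have e1 : w S k0 (d k0) = a (d k0) := by simp only [hw]; rw [if_neg hk]
          have e2 : w (insert k0 S) k0 (d k0) = b (d k0) := by
            simp only [hw]; rw [if_pos (Finset.mem_insert_self _ _)]
          have e3 : ∏ k ∈ univ.erase k0, w (insert k0 S) k (d k) =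
              ∏ k ∈ univ.erase k0, w S k (d k) := by
            refine Finset.prod_congr rfl fun k hk' => ?_
            have hne : k ≠ k0 := (Finset.mem_erase.mp hk').1
            simp only [hw, Finset.mem_insert, hne, false_or]
          rw [e1, e2, e3]; ring
        simp only [e]
        refine (Finset.abs_sum_le_sum_abs _ _).trans ?_
        have hwn : ∀ k o, 0 ≤ w S k o := by
          intro k o; simp only [hw]; split_ifs
          · exact hb o
          · exact ha o
        have h1 : ∀ d : K → α, |((a (d k0) - b (d k0)) * ∏ k ∈ univ.erase k0, w S k (d k)) * f d| ≤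
            (∏ k, (if k = k0 then |a (d k) - b (d k)| else w S k (d k))) * M := by
          intro d
          rw [abs_mul]
          refine mul_le_mul ?_ (hf d) (abs_nonneg _) ?_
          · rw [abs_mul, abs_of_nonneg (Finset.prod_nonneg fun k _ => hwn k (d k)),
              ← Finset.mul_prod_erase univ (fun k => if k = k0 then |a (d k) - b (d k)|
                else w S k (d k)) (Finset.mem_univ k0)]
            simp only [if_true]
            refine le_of_eq ?_
            congr 1
            refine Finset.prod_congr rfl fun k hk' => ?_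
            rw [if_neg (Finset.mem_erase.mp hk').1]
          · refine Finset.prod_nonneg fun k _ => ?_
            split_ifs
            · exact abs_nonneg _
            · exact hwn k (d k)
        refine (Finset.sum_le_sum fun d _ => h1 d).trans (le_of_eq ?_)
        rw [← Finset.sum_mul]
        congr 1
        have h2 := Fintype.prod_sum (fun (k : K) (o : α) =>
          if k = k0 then |a o - b o| else w S k o)
        rw [← h2, ← Finset.mul_prod_erase univ _ (Finset.mem_univ k0)]
        simp only [if_true]
        rw [Finset.prod_eq_one, mul_one]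
        intro k hk'
        have hne : k ≠ k0 := (Finset.mem_erase.mp hk').1
        simp only [if_neg hne, hw]
        split_ifs
        · exact sb
        · exact sa
      rw [Finset.card_insert_of_notMem hk]
      push_cast
      have := abs_sub_le (∑ d : K → α, (∏ k, w ∅ k (d k)) * f d)
        (∑ d : K → α, (∏ k, w S k (d k)) * f d)
        (∑ d : K → α, (∏ k, w (insert k0 S) k (d k)) * f d)
      linarith
  have h := key univ
  simp only [hw, Finset.notMem_empty, if_false, Finset.mem_univ, if_true, Finset.card_univ] at h
  exact h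

variable (p : Par) {N : ℕ}

/-- embedding of one pointer. -/
def emb1 : Option (Crd p N) → Option (Crd p (N + 1)) :=
  Option.map fun c => (Fin.castSucc c.1, c.2)

/-- embedding of the pointers of the `N`-system. -/
def emb (d : DD p N) : DD p (N + 1) := fun k => emb1 p (d k)

/-- the law of one pointer of the `N`-system seen in the `N+1`-system. -/
def bw (o : Option (Crd p (N + 1))) : ℝ := ∑ o' : Option (Crd p N), if emb1 p o' = o then
  dw1 p N o' else 0

theorem emb1_inj : Function.Injective (emb1 p (N := N)) :=
  Option.map_injective fun c c' h => by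
    have h1 := congrArg Prod.fst h
    have h2 := congrArg Prod.snd h
    simp only at h1 h2
    exact Prod.ext (Fin.castSucc_injective _ h1) h2

theorem bw_nonneg (o : Option (Crd p (N + 1))) : 0 ≤ bw p o := by
  unfold bw
  refine Finset.sum_nonneg fun o' _ => ?_
  split_ifs
  · unfold dw1; split <;> positivity
  · exact le_rfl

theorem bw_sum_mul (g : Option (Crd p (N + 1)) → ℝ) :
    ∑ o, bw p o * g o = ∑ o', dw1 p N o' * g (emb1 p o') := by
  unfold bw
  simp only [Finset.sum_mul]
  rw [Finset.sum_comm]
  refine Finset.sum_congr rfl fun o' _ => ?_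
  simp only [ite_mul, zero_mul]
  rw [Finset.sum_ite_eq]
  simp

theorem bw_sum (hN : 0 < N) : ∑ o, bw p (N := N) o = 1 := by
  have h := bw_sum_mul p (N := N) fun _ => 1
  simp only [mul_one] at h
  rw [h, dw1_sum p hN]

theorem bw_emb (o' : Option (Crd p N)) : bw p (emb1 p o') = dw1 p N o' := by
  unfold bw
  rw [Finset.sum_eq_single o']
  · rw [if_pos rfl]
  · intro o _ hne
    rw [if_neg (fun h => hne (emb1_inj p h))]
  · intro h; exact absurd (Finset.mem_univ _) h

theorem bw_last (x : Option (Fin p.nb)) : bw p (N := N) (some (Fin.last N, x)) = 0 := by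
  unfold bw
  refine Finset.sum_eq_zero fun o' _ => ?_
  rw [if_neg]
  unfold emb1
  cases o' with
  | none => simp
  | some c =>
    simp only [Option.map_some, Option.some.injEq, Prod.mk.injEq, not_and]
    intro h
    exact absurd h (Fin.castSucc_lt_last c.1).ne

/-- total variation of the laws of one pointer. -/
theorem tv1 (hN : 0 < N) : ∑ o, |dw1 p (N + 1) o - bw p o| = 1 / ((N : ℝ) + 1) := by
  have hN' : (0 : ℝ) < N := by exact_mod_cast hN
  have hb : (0 : ℝ) < (p.nb : ℝ) + 1 := by positivity
  rw [Fintype.sum_option]
  have e0 : |dw1 p (N + 1) none - bw p (N := N) none| = 0 := by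
    have : bw p (N := N) none = dw1 p N none := bw_emb p none
    rw [this]
    simp [dw1]
  rw [e0, zero_add, Fintype.sum_prod_type, Fin.sum_univ_castSucc]
  have e1 : ∀ (i : Fin N) (x : Option (Fin p.nb)),
      |dw1 p (N + 1) (some (Fin.castSucc i, x)) - bw p (some (Fin.castSucc i, x))| =
        1 / (2 * ((N : ℝ) * ((N : ℝ) + 1) * ((p.nb : ℝ) + 1))) := by
    intro i x
    have : bw p (some (Fin.castSucc i, x)) = dw1 p N (some (i, x)) := bw_emb p (some (i, x))
    rw [this]
    simp only [dw1]
    push_cast
    rw [abs_sub_comm, abs_of_nonneg]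
    · field_simp
      ring
    · rw [sub_nonneg]
      apply one_div_le_one_div_of_le (by positivity)
      gcongr
      linarith
  have e2 : ∀ (x : Option (Fin p.nb)),
      |dw1 p (N + 1) (some (Fin.last N, x)) - bw p (some (Fin.last N, x))| =
        1 / (2 * (((N : ℝ) + 1) * ((p.nb : ℝ) + 1))) := by
    intro x
    rw [bw_last, sub_zero]
    simp only [dw1]
    push_cast
    rw [abs_of_nonneg (by positivity)]
  simp only [e1, e2, Finset.sum_const, Finset.card_univ, Fintype.card_fin, Fintype.card_option,
    nsmul_eq_mul]
  push_cast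
  field_simp
  ring

/-- `E_d` of the `N`-system as a sum over pointers of the `N+1`-system. -/
theorem Ed_emb (f : DD p (N + 1) → ℝ) :
    Ed p N (fun d => f (emb p d)) = ∑ d : DD p (N + 1), (∏ k, bw p (d k)) * f d := by
  classical
  have h1 : ∀ d : DD p (N + 1), (∏ k, bw p (d k)) =
      ∑ d' : DD p N, if emb p d' = d then dw p N d' else 0 := by
    intro d
    unfold bw
    rw [Fintype.prod_sum]
    refine Finset.sum_congr rfl fun d' _ => ?_
    unfold dw
    by_cases h : emb p d' = d
    · rw [if_pos h]
      refine Finset.prod_congr rfl fun k _ => ?_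
      have : emb1 p (d' k) = d k := congrFun h k
      rw [if_pos this]
    · rw [if_neg h]
      obtain ⟨k, hk⟩ : ∃ k, emb1 p (d' k) ≠ d k := by
        by_contra hcon
        push Not at hcon
        exact h (funext hcon)
      exact Finset.prod_eq_zero (Finset.mem_univ k) (if_neg hk)
  simp only [h1, Finset.sum_mul]
  rw [Finset.sum_comm]
  unfold Ed
  refine Finset.sum_congr rfl fun d' _ => ?_
  simp only [ite_mul, zero_mul]
  rw [Finset.sum_ite_eq]
  simp

/-- **Comparison of the laws of the pointers** for `N` and `N + 1` sites. -/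
theorem Ed_succ_sub (hN : 0 < N) (f : DD p (N + 1) → ℝ) (c : ℝ) {M : ℝ}
    (hf : ∀ d, |f d - c| ≤ M) :
    |Ed p (N + 1) f - Ed p N (fun d => f (emb p d))| ≤ p.nc * p.T * M / ((N : ℝ) + 1) := by
  classical
  have h := hybrid (K := Stp p) (dw1 p (N + 1)) (bw p (N := N))
    (fun o => by unfold dw1; split <;> positivity) (bw_nonneg p) (dw1_sum p (Nat.succ_pos N))
    (bw_sum p hN) (fun d => f d - c) hf
  rw [tv1 p hN] at h
  have e1 : ∑ d : DD p (N + 1), (∏ k, dw1 p (N + 1) (d k)) * (f d - c) =
      Ed p (N + 1) f - c := by
    have := dw_sum p (Nat.succ_pos N)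
    unfold Ed
    simp only [mul_sub, Finset.sum_sub_distrib, ← Finset.sum_mul]
    unfold dw at this ⊢
    rw [this, one_mul]
  have e2 : ∑ d : DD p (N + 1), (∏ k, bw p (d k)) * (f d - c) =
      Ed p N (fun d => f (emb p d)) - c := by
    rw [← Ed_emb p (fun d => f d - c)]
    have := Ed_const p hN c
    unfold Ed at this ⊢
    simp only [mul_sub, Finset.sum_sub_distrib]
    rw [this]
  rw [e1, e2] at h
  have e3 : Ed p (N + 1) f - c - (Ed p N (fun d => f (emb p d)) - c) =
      Ed p (N + 1) f - Ed p N (fun d => f (emb p d)) := by ring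
  rw [e3] at h
  refine h.trans (le_of_eq ?_)
  simp only [Fintype.card_prod, Fintype.card_fin]
  push_cast
  ring

end

end Crest.Agent.R164.EDlaw
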