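import Crest.Agent.R164.LabMom
import Crest.Agent.R164.Sys164

/-!
# Row 164, L side, E-DIFF (helper309): crude bounds for the finite system

`SY.base p n A hA` with the Hamiltonian `SY.HS h0 a lam x`: bounds of the enriched free energy and
of the second moments of the fields, linear in the number of sites, uniform in `n`, `d`, `A`, `x`.
-/

set_option autoImplicit false

namespace Crest.Agent.R164.ED

open Finset Crest.Agent.R141 Crest.Agent.R164

noncomputable section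

/-! ### uniform weights on products -/

section uniform

variable {α β γ : Type*} [Fintype α] [Fintype β] [Fintype γ]

theorem eE_uQ_prod2 (f : α × β → ℝ) :
    eE (uQ (α × β)) f = eE (uQ α) (fun a => eE (uQ β) (fun b => f (a, b))) := by
  simp only [eE_uQ]
  rw [Fintype.card_prod, Fintype.sum_prod_type, ← Finset.mul_sum]
  push_cast
  rw [mul_inv]
  ring

theorem eE_uQ_fst [Nonempty β] (f : α → ℝ) :
    eE (uQ (α × β)) (fun u => f u.1) = eE (uQ α) f := by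
  rw [eE_uQ_prod2]
  congr 1
  funext a
  exact eE_const (uQ_isProb (Λ := β)) (f a)

theorem eE_uQ_mul (f : α → ℝ) (g : β → ℝ) :
    eE (uQ (α × β)) (fun u => f u.1 * g u.2) = eE (uQ α) f * eE (uQ β) g := by
  rw [eE_uQ_prod2]
  simp only [eE_smul]
  rw [mul_comm, ← eE_smul]
  congr 1
  funext a
  ring

/-- odd functions have mean zero -/
theorem eE_uQ_odd {f : α → ℝ} (e : α → α) (he : ∀ a, e (e a) = a) (hf : ∀ a, f (e a) = -f a) :
    eE (uQ α) f = 0 := by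
  have h1 : ∑ a, f (e a) = ∑ a, f a := by
    refine Finset.sum_nbij' (s := univ) (t := univ) e e ?_ ?_ ?_ ?_ ?_
    · intro a _; exact Finset.mem_univ _
    · intro a _; exact Finset.mem_univ _
    · intro a _; exact he a
    · intro a _; exact he a
    · intro a _; rfl
  simp only [hf, Finset.sum_neg_distrib] at h1
  rw [eE_uQ]
  have : ∑ a, f a = 0 := by linarith
  rw [this, mul_zero]

end uniform

variable {p : Par} {N n : ℕ} {A : Finset (Fin N → Bool)} (hA : A.Nonempty)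

theorem card_base : (Fintype.card (SY.base p n A hA).S : ℝ) = Fintype.card (SY.SS p n A) := rfl

theorem prior_base : G.prior (SY.base p n A hA) = uQ (G.Om (SY.base p n A hA)) := by
  funext ω
  show (Fintype.card (SY.SS p n A) : ℝ)⁻¹ * (Fintype.card (G.Lab p N) : ℝ)⁻¹ =
    (Fintype.card (SY.SS p n A × G.Lab p N) : ℝ)⁻¹
  rw [Fintype.card_prod (SY.SS p n A) (G.Lab p N), Nat.cast_mul, mul_inv]

/-- expectation of a function of the base configuration under the prior -/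
theorem eE_prior_base (f : SY.SS p n A → ℝ) :
    eE (G.prior (SY.base p n A hA)) (fun w => f w.1) = eE (uQ (SY.SS p n A)) f := by
  rw [prior_base hA]
  exact eE_uQ_fst (α := SY.SS p n A) (β := G.Lab p N) f

/-- product functions under the prior -/
theorem eE_prior_three (F : {σ : Fin N → Bool // σ ∈ A} → SY.FC p N n → ℝ)
    (F' : {σ : Fin N → Bool // σ ∈ A} → SY.FC p N n → ℝ) :
    eE (G.prior (SY.base p n A hA)) (fun w => F w.1.1 w.1.2.1 * F' w.1.1 w.1.2.2) =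
      eE (uQ {σ : Fin N → Bool // σ ∈ A}) (fun s =>
        eE (uQ (SY.FC p N n)) (F s) * eE (uQ (SY.FC p N n)) (F' s)) := by
  rw [eE_prior_base hA (fun s => F s.1 s.2.1 * F' s.1 s.2.2)]
  rw [eE_uQ_prod2]
  congr 1
  funext s
  exact eE_uQ_mul (F s) (F' s)

/-! ### coins -/

/-- flip of all coins -/
def cneg (c : SY.FC p N n) : SY.FC p N n := fun g i t => !(c g i t)

theorem cneg_cneg (c : SY.FC p N n) : cneg (cneg c) = c := by
  funext g i t; simp [cneg]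

theorem zf_cneg (c : SY.FC p N n) (g : Fin p.nc) (i : Fin N) :
    SY.zf (cneg c) g i = -SY.zf c g i := by
  unfold SY.zf cneg
  simp only [SY.sv_not, Finset.sum_neg_distrib, mul_neg]

theorem eE_zf_zero (g : Fin p.nc) (i : Fin N) :
    eE (uQ (SY.FC p N n)) (fun c => SY.zf c g i) = 0 :=
  eE_uQ_odd cneg cneg_cneg fun c => zf_cneg c g i

/-- exponentials of sums of functions of the fields -/
theorem eE_FC_exp (φ : Fin p.nc → Fin N → ℝ → ℝ) :
    eE (uQ (SY.FC p N n)) (fun c => Real.exp (∑ g, ∑ i, φ g i (SY.zf c g i))) =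
      ∏ g, ∏ i, eE (uQ (Fin n → Bool)) (fun m => Real.exp (φ g i (CSys.zc n m))) := by
  have e : (fun c : SY.FC p N n => Real.exp (∑ g, ∑ i, φ g i (SY.zf c g i))) =
      fun c => ∏ g, (fun (g : Fin p.nc) (m : Fin N → Fin n → Bool) =>
        ∏ i, Real.exp (φ g i (CSys.zc n (m i)))) g (c g) := by
    funext c
    rw [Real.exp_sum]
    refine Finset.prod_congr rfl fun g _ => ?_
    rw [Real.exp_sum]
    rfl
  rw [e]
  refine (eE_uQ_prod (κ := Fin p.nc) (M := Fin N → Fin n → Bool)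
    (fun (g : Fin p.nc) (m : Fin N → Fin n → Bool) =>
      ∏ i, Real.exp (φ g i (CSys.zc n (m i))))).trans ?_
  refine Finset.prod_congr rfl fun g _ => ?_
  exact eE_uQ_prod (κ := Fin N) (M := Fin n → Bool)
    (fun i (m : Fin n → Bool) => Real.exp (φ g i (CSys.zc n m)))

theorem eE_FC_exp_le (φ : Fin p.nc → Fin N → ℝ → ℝ) (r : Fin p.nc → Fin N → ℝ)
    (h : ∀ g i, eE (uQ (Fin n → Bool)) (fun m => Real.exp (φ g i (CSys.zc n m))) ≤
      Real.exp (r g i)) :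
    eE (uQ (SY.FC p N n)) (fun c => Real.exp (∑ g, ∑ i, φ g i (SY.zf c g i))) ≤
      Real.exp (∑ g, ∑ i, r g i) := by
  rw [eE_FC_exp, Real.exp_sum]
  refine Finset.prod_le_prod (fun g _ => Finset.prod_nonneg fun i _ =>
    eE_nonneg uQ_isProb fun _ => (Real.exp_pos _).le) fun g _ => ?_
  rw [Real.exp_sum]
  exact Finset.prod_le_prod (fun i _ => eE_nonneg uQ_isProb fun _ => (Real.exp_pos _).le)
    fun i _ => h g i

theorem eE_FC_lin (s : Fin p.nc → Fin N → ℝ) :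
    eE (uQ (SY.FC p N n)) (fun c => Real.exp (∑ g, ∑ i, s g i * SY.zf c g i)) ≤
      Real.exp (∑ g, ∑ i, s g i ^ 2 / 2) :=
  eE_FC_exp_le (fun g i z => s g i * z) _ fun g i => eE_exp_zc (s g i)

theorem eE_exp_zc_quad (s : ℝ) :
    eE (uQ (Fin n → Bool)) (fun m => Real.exp (s * CSys.zc n m + 1 / 8 * CSys.zc n m ^ 2)) ≤
      Real.exp (2 * s ^ 2 + Real.log 2) := by
  have h1 : ∀ m : Fin n → Bool, Real.exp (s * CSys.zc n m + 1 / 8 * CSys.zc n m ^ 2) ≤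
      Real.exp (2 * s ^ 2) * Real.exp (1 / 4 * CSys.zc n m ^ 2) := by
    intro m
    rw [← Real.exp_add]
    apply Real.exp_le_exp.2
    nlinarith [sq_nonneg (4 * s - CSys.zc n m)]
  refine (eE_mono uQ_isProb h1).trans ?_
  rw [eE_smul, Real.exp_add, Real.exp_log (by norm_num)]
  exact mul_le_mul_of_nonneg_left eE_exp_zc_sq (Real.exp_pos _).le

theorem eE_FC_quad (s : Fin p.nc → Fin N → ℝ) :
    eE (uQ (SY.FC p N n))
      (fun c => Real.exp (∑ g, ∑ i, (s g i * SY.zf c g i + 1 / 8 * SY.zf c g i ^ 2))) ≤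
      Real.exp (∑ g, ∑ i, (2 * s g i ^ 2 + Real.log 2)) :=
  eE_FC_exp_le (fun g i z => s g i * z + 1 / 8 * z ^ 2) _ fun g i => eE_exp_zc_quad (s g i)

/-! ### the weight of the enrichment -/

/-- bound of the log-weight of the enrichment per site -/
def wC (p : Par) : ℝ := p.nb * Real.log 2 + p.nc * p.T * p.τ

theorem wC_nonneg (p : Par) : 0 ≤ wC p := by
  unfold wC
  have h1 := Real.log_nonneg (by norm_num : (1 : ℝ) ≤ 2)
  have h2 := p.hτ0
  positivity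

theorem abs_gfac_le (B : G.Base p N) (i : Fin N) (b : Fin p.nb) (ω : G.Om B) :
    |G.gfac B i b ω| ≤ Real.log 2 := by
  unfold G.gfac
  have h1 := gval_abs p b (ω.2.1 i b)
  have h2 := B.hf i ω.1
  have h3 : |gval p b (ω.2.1 i b) * B.f i ω.1| ≤ 1 / 2 := by
    rw [abs_mul]
    calc _ ≤ 1 / 2 * 1 := mul_le_mul h1 h2 (abs_nonneg _) (by norm_num)
      _ = 1 / 2 := by ring
  have h4 := abs_le.1 h3
  rw [abs_le]
  constructor
  · rw [← Real.log_inv]
    apply Real.log_le_log (by norm_num)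
    linarith [h4.1]
  · apply Real.log_le_log (by linarith [h4.1])
    linarith [h4.2]

theorem abs_cfac_le (B : G.Base p N) (o : Option (Crd p N)) (k : Stp p) (ω : G.Om B) :
    |G.cfac B o k ω| ≤ p.τ := by
  have hτ := p.hτ0
  unfold G.cfac
  cases o with
  | none => simpa using hτ.le
  | some c =>
    simp only
    have h1 := G.cv_abs B c ω
    rw [abs_mul, abs_of_pos hτ, abs_mul]
    have h2 : |(if ω.2.2 k.1 k.2 = true then (1 : ℝ) else 0)| ≤ 1 := by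
      split_ifs <;> simp
    calc p.τ * (|(if ω.2.2 k.1 k.2 = true then (1 : ℝ) else 0)| * |G.cv B c ω|)
        ≤ p.τ * (1 * 1) := by
          apply mul_le_mul_of_nonneg_left _ hτ.le
          exact mul_le_mul h2 h1 (abs_nonneg _) (by norm_num)
      _ = p.τ := by ring

theorem abs_WW_le (hN : 1 ≤ N) (B : G.Base p N) (d : DD p N) (ω : G.Om B) :
    |G.WW B d ω| ≤ wC p * N := by
  have hN' : (1 : ℝ) ≤ N := by exact_mod_cast hN
  unfold G.WW
  have h1 : |∑ i, ∑ b, G.gfac B i b ω| ≤ N * (p.nb * Real.log 2) := by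
    refine (Finset.abs_sum_le_sum_abs _ _).trans ?_
    refine (Finset.sum_le_sum (g := fun _ => (p.nb : ℝ) * Real.log 2) fun i _ => ?_).trans ?_
    · refine (Finset.abs_sum_le_sum_abs _ _).trans ?_
      refine (Finset.sum_le_sum fun b _ => abs_gfac_le B i b ω).trans ?_
      simp
    · simp
  have h2 : |∑ k, G.cfac B (d k) k ω| ≤ p.nc * p.T * p.τ := by
    refine (Finset.abs_sum_le_sum_abs _ _).trans ?_
    refine (Finset.sum_le_sum fun k _ => abs_cfac_le B (d k) k ω).trans ?_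
    simp
  have h3 : 0 ≤ (p.nc : ℝ) * p.T * p.τ := by
    have := p.hτ0
    positivity
  refine (abs_add_le _ _).trans ?_
  unfold wC
  nlinarith

/-! ### the Hamiltonian under the prior -/

variable {h0 : (Fin N → Bool) → ℝ} {a lam : Fin N → Fin p.nc → ℝ}
  {x : (Fin N → Bool) → Fin N → ℝ} {b : ℝ}

theorem eE_main_zero :
    eE (G.prior (SY.base p n A hA))
      (fun w => ∑ g, ∑ i, a i g * (SY.zf w.1.2.1 g i * sv (w.1.1.1 i))) = 0 := by
  rw [eE_sum]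
  refine Finset.sum_eq_zero fun g _ => ?_
  rw [eE_sum]
  refine Finset.sum_eq_zero fun i _ => ?_
  rw [eE_smul]
  have h := eE_prior_three (p := p) (n := n) hA (fun s c => SY.zf c g i * sv (s.1 i))
    (fun _ _ => 1)
  simp only [mul_one] at h
  rw [h]
  have h2 : ∀ s : {σ : Fin N → Bool // σ ∈ A},
      eE (uQ (SY.FC p N n)) (fun c => SY.zf c g i * sv (s.1 i)) = 0 := by
    intro s
    refine eE_uQ_odd cneg cneg_cneg fun c => ?_
    rw [zf_cneg]; ring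
  simp only [h2, zero_mul]
  unfold eE
  simp

theorem eE_small_zero :
    eE (G.prior (SY.base p n A hA))
      (fun w => ∑ g, ∑ i, lam i g * (SY.zf w.1.2.2 g i * x w.1.1.1 i)) = 0 := by
  rw [eE_sum]
  refine Finset.sum_eq_zero fun g _ => ?_
  rw [eE_sum]
  refine Finset.sum_eq_zero fun i _ => ?_
  rw [eE_smul]
  have h := eE_prior_three (p := p) (n := n) hA (fun _ _ => 1)
    (fun s c => SY.zf c g i * x s.1 i)
  simp only [one_mul] at h
  rw [h]
  have h2 : ∀ s : {σ : Fin N → Bool // σ ∈ A},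
      eE (uQ (SY.FC p N n)) (fun c => SY.zf c g i * x s.1 i) = 0 := by
    intro s
    refine eE_uQ_odd cneg cneg_cneg fun c => ?_
    rw [zf_cneg]; ring
  simp only [h2, mul_zero]
  unfold eE
  simp

theorem sum_sq_le_of_unit {s : Fin N → Fin p.nc → ℝ} {y : Fin N → ℝ} (hs : ∀ i g, |s i g| ≤ 1)
    (hy : ∑ i, y i ^ 2 ≤ N) : ∑ g, ∑ i, (s i g * y i) ^ 2 ≤ p.nc * N := by
  have h1 : ∀ g : Fin p.nc, ∑ i, (s i g * y i) ^ 2 ≤ N := by
    intro g
    refine (Finset.sum_le_sum fun i _ => ?_).trans hy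
    rw [mul_pow]
    have := abs_le.1 (hs i g)
    have h3 : s i g ^ 2 ≤ 1 := by nlinarith [this.1, this.2]
    nlinarith [sq_nonneg (y i)]
  refine (Finset.sum_le_sum fun g _ => h1 g).trans ?_
  simp

theorem sum_sv_sq (σ : Fin N → Bool) : ∑ i, sv (σ i) ^ 2 ≤ (N : ℝ) := by
  have : ∀ i, sv (σ i) ^ 2 = 1 := by
    intro i
    have h := sv_abs (σ i)
    rw [← sq_abs, h]; norm_num
  simp [this]

/-- exponential moment of the fields under the prior, with quadratic weights `q`, `q'`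
(`0` or `1/8`) -/
theorem eE_prior_exp_fields (ha : ∀ i g, |a i g| ≤ 1) (hl : ∀ i g, |lam i g| ≤ 1)
    (hx : ∀ σ, ∑ i, x σ i ^ 2 ≤ (N : ℝ)) :
    eE (G.prior (SY.base p n A hA)) (fun w => Real.exp
      ((∑ g, ∑ i, (a i g * sv (w.1.1.1 i) * SY.zf w.1.2.1 g i + 1 / 8 * SY.zf w.1.2.1 g i ^ 2)) +
        ∑ g, ∑ i, (lam i g * x w.1.1.1 i * SY.zf w.1.2.2 g i + 1 / 8 * SY.zf w.1.2.2 g i ^ 2))) ≤
      Real.exp ((4 + 2 * Real.log 2) * p.nc * N) := by
  simp only [Real.exp_add]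
  rw [eE_prior_three (p := p) (n := n) hA
    (fun s c => Real.exp (∑ g, ∑ i, (a i g * sv (s.1 i) * SY.zf c g i + 1 / 8 * SY.zf c g i ^ 2)))
    (fun s c => Real.exp (∑ g, ∑ i, (lam i g * x s.1 i * SY.zf c g i + 1 / 8 * SY.zf c g i ^ 2)))]
  have : Nonempty {σ : Fin N → Bool // σ ∈ A} := ⟨⟨hA.choose, hA.choose_spec⟩⟩
  apply eE_le_of_le uQ_isProb
  intro s
  have h1 := eE_FC_quad (p := p) (N := N) (n := n) (fun g i => a i g * sv (s.1 i))
  have h2 := eE_FC_quad (p := p) (N := N) (n := n) (fun g i => lam i g * x s.1 i)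
  refine (mul_le_mul h1 h2 (eE_nonneg uQ_isProb fun _ => (Real.exp_pos _).le)
    (Real.exp_pos _).le).trans ?_
  rw [← Real.exp_add]
  apply Real.exp_le_exp.2
  simp only [Finset.sum_add_distrib, ← Finset.mul_sum, Finset.sum_const, Finset.card_univ,
    Fintype.card_fin, nsmul_eq_mul]
  have h3 := sum_sq_le_of_unit ha (sum_sv_sq s.1)
  have h4 := sum_sq_le_of_unit hl (hx s.1)
  nlinarith

/-! ### (M1), (M2) -/

/-- constant of (M1) -/
def C1 (p : Par) (b : ℝ) : ℝ := b + wC p + (4 + 2 * Real.log 2) * p.nc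

/-- constant of (M2) -/
def C2 (p : Par) (b : ℝ) : ℝ := 8 * (2 * b + 2 * wC p + (4 + 2 * Real.log 2) * p.nc)

theorem C1_nonneg {p : Par} {b : ℝ} (hb : 0 ≤ b) : 0 ≤ C1 p b := by
  unfold C1
  have h1 := wC_nonneg p
  have h2 := Real.log_nonneg (by norm_num : (1 : ℝ) ≤ 2)
  positivity

theorem C2_nonneg {p : Par} {b : ℝ} (hb : 0 ≤ b) : 0 ≤ C2 p b := by
  unfold C2
  have h1 := wC_nonneg p
  have h2 := Real.log_nonneg (by norm_num : (1 : ℝ) ≤ 2)
  positivity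

/-- lower bound of the free energy -/
theorem Phi_ge_crude (hN : 1 ≤ N) (hh : ∀ σ, |h0 σ| ≤ b * N) (d : DD p N) :
    -((b + wC p) * N) ≤ G.Phi (SY.base p n A hA) (SY.HS h0 a lam x) d := by
  have hP := G.prior_isProb (SY.base p n A hA)
  have h1 : eE (G.prior (SY.base p n A hA)) (G.UU (SY.base p n A hA) (SY.HS h0 a lam x) d) ≤
      G.Phi (SY.base p n A hA) (SY.HS h0 a lam x) d := by
    unfold G.Phi
    rw [← eE_cE hP (r := (G.fil (SY.base p n A hA)).F 0)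
      (f := G.UU (SY.base p n A hA) (SY.HS h0 a lam x) d)]
    exact eE_mono hP fun ω => cE_le_A (𝓕 := G.fil (SY.base p n A hA)) hP p.xs_expo.pos _ 0 ω
  refine le_trans ?_ h1
  have h2 : G.UU (SY.base p n A hA) (SY.HS h0 a lam x) d = fun w =>
      (h0 w.1.1.1 + G.WW (SY.base p n A hA) d w) +
        ((∑ g, ∑ i, a i g * (SY.zf w.1.2.1 g i * sv (w.1.1.1 i))) +
          ∑ g, ∑ i, lam i g * (SY.zf w.1.2.2 g i * x w.1.1.1 i)) := by
    funext w
    unfold G.UU SY.HS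
    ring
  rw [h2, eE_add, eE_add (G.prior (SY.base p n A hA))
    (fun w => ∑ g, ∑ i, a i g * (SY.zf w.1.2.1 g i * sv (w.1.1.1 i))), eE_main_zero hA,
    eE_small_zero hA]
  have h3 : eE (G.prior (SY.base p n A hA)) (fun _ => -((b + wC p) * N)) ≤
      eE (G.prior (SY.base p n A hA)) (fun w => h0 w.1.1.1 + G.WW (SY.base p n A hA) d w) := by
    refine eE_mono hP fun w => ?_
    have h4 := (abs_le.1 (hh w.1.1.1)).1
    have h5 := (abs_le.1 (abs_WW_le hN (SY.base p n A hA) d w)).1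
    linarith
  rw [eE_const hP] at h3
  linarith

/-- upper bound with quadratic weights -/
theorem log_prior_le (hN : 1 ≤ N) (hh : ∀ σ, |h0 σ| ≤ b * N) (ha : ∀ i g, |a i g| ≤ 1)
    (hl : ∀ i g, |lam i g| ≤ 1) (hx : ∀ σ, ∑ i, x σ i ^ 2 ≤ (N : ℝ)) (d : DD p N) :
    Real.log (eE (G.prior (SY.base p n A hA)) (fun w => Real.exp
      (G.UU (SY.base p n A hA) (SY.HS h0 a lam x) d w +
        ((∑ g, ∑ i, 1 / 8 * SY.zf w.1.2.1 g i ^ 2) +
          ∑ g, ∑ i, 1 / 8 * SY.zf w.1.2.2 g i ^ 2)))) ≤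
      (b + wC p + (4 + 2 * Real.log 2) * p.nc) * N := by
  have hP := G.prior_isProb (SY.base p n A hA)
  have h1 := eE_prior_exp_fields (p := p) (n := n) hA ha hl hx
  have h2 : eE (G.prior (SY.base p n A hA)) (fun w => Real.exp
      (G.UU (SY.base p n A hA) (SY.HS h0 a lam x) d w +
        ((∑ g, ∑ i, 1 / 8 * SY.zf w.1.2.1 g i ^ 2) +
          ∑ g, ∑ i, 1 / 8 * SY.zf w.1.2.2 g i ^ 2))) ≤
      Real.exp ((b + wC p) * N) * Real.exp ((4 + 2 * Real.log 2) * p.nc * N) := by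
    refine le_trans ?_ (mul_le_mul_of_nonneg_left h1 (Real.exp_pos _).le)
    rw [← eE_smul]
    refine eE_mono hP fun w => ?_
    rw [← Real.exp_add]
    apply Real.exp_le_exp.2
    have h4 := (abs_le.1 (hh w.1.1.1)).2
    have h5 := (abs_le.1 (abs_WW_le hN (SY.base p n A hA) d w)).2
    unfold G.UU SY.HS
    simp only [Finset.sum_add_distrib]
    have e1 : ∑ g, ∑ i, a i g * (SY.zf w.1.2.1 g i * sv (w.1.1.1 i)) =
        ∑ g, ∑ i, a i g * sv (w.1.1.1 i) * SY.zf w.1.2.1 g i :=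
      Finset.sum_congr rfl fun g _ => Finset.sum_congr rfl fun i _ => by ring
    have e2 : ∑ g, ∑ i, lam i g * (SY.zf w.1.2.2 g i * x w.1.1.1 i) =
        ∑ g, ∑ i, lam i g * x w.1.1.1 i * SY.zf w.1.2.2 g i :=
      Finset.sum_congr rfl fun g _ => Finset.sum_congr rfl fun i _ => by ring
    rw [e1, e2]
    linarith
  have h0' : 0 < eE (G.prior (SY.base p n A hA)) (fun w => Real.exp
      (G.UU (SY.base p n A hA) (SY.HS h0 a lam x) d w +
        ((∑ g, ∑ i, 1 / 8 * SY.zf w.1.2.1 g i ^ 2) +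
          ∑ g, ∑ i, 1 / 8 * SY.zf w.1.2.2 g i ^ 2))) :=
    Finset.sum_pos (fun c _ => mul_pos (hP.pos c) (Real.exp_pos _)) Finset.univ_nonempty
  have h3 := Real.log_le_log h0' h2
  rw [← Real.exp_add, Real.log_exp] at h3
  refine h3.trans (le_of_eq ?_)
  ring

/-- the functional with quadratic weights -/
theorem aE_quad_le (hN : 1 ≤ N) (hh : ∀ σ, |h0 σ| ≤ b * N) (ha : ∀ i g, |a i g| ≤ 1)
    (hl : ∀ i g, |lam i g| ≤ 1) (hx : ∀ σ, ∑ i, x σ i ^ 2 ≤ (N : ℝ)) (d : DD p N) :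
    aE (G.prior (SY.base p n A hA)) (G.fil (SY.base p n A hA)) p.xs (fun w =>
      G.UU (SY.base p n A hA) (SY.HS h0 a lam x) d w +
        ((∑ g, ∑ i, 1 / 8 * SY.zf w.1.2.1 g i ^ 2) +
          ∑ g, ∑ i, 1 / 8 * SY.zf w.1.2.2 g i ^ 2)) ≤
      (b + wC p + (4 + 2 * Real.log 2) * p.nc) * N :=
  (aE_le_log (𝓕 := G.fil (SY.base p n A hA)) (G.prior_isProb _) p.xs_expo _).trans
    (log_prior_le hA hN hh ha hl hx d)

/-- upper bound of the free energy -/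
theorem Phi_le_crude (hN : 1 ≤ N) (hh : ∀ σ, |h0 σ| ≤ b * N) (ha : ∀ i g, |a i g| ≤ 1)
    (hl : ∀ i g, |lam i g| ≤ 1) (hx : ∀ σ, ∑ i, x σ i ^ 2 ≤ (N : ℝ)) (d : DD p N) :
    G.Phi (SY.base p n A hA) (SY.HS h0 a lam x) d ≤ C1 p b * N := by
  refine le_trans ?_ (aE_quad_le (n := n) hA hN hh ha hl hx d)
  show aE _ _ _ _ ≤ _
  refine aE_mono (G.prior_isProb _) p.xs_expo.pos fun w => ?_
  have h1 : 0 ≤ ∑ g, ∑ i, 1 / 8 * SY.zf w.1.2.1 g i ^ 2 :=
    Finset.sum_nonneg fun g _ => Finset.sum_nonneg fun i _ => by positivity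
  have h2 : 0 ≤ ∑ g, ∑ i, 1 / 8 * SY.zf w.1.2.2 g i ^ 2 :=
    Finset.sum_nonneg fun g _ => Finset.sum_nonneg fun i _ => by positivity
  linarith

/-- **(M1)** -/
theorem abs_Phi_le (hN : 1 ≤ N) (hh : ∀ σ, |h0 σ| ≤ b * N) (ha : ∀ i g, |a i g| ≤ 1)
    (hl : ∀ i g, |lam i g| ≤ 1) (hx : ∀ σ, ∑ i, x σ i ^ 2 ≤ (N : ℝ)) (d : DD p N) :
    |G.Phi (SY.base p n A hA) (SY.HS h0 a lam x) d| ≤ C1 p b * N := by
  rw [abs_le]
  refine ⟨le_trans ?_ (Phi_ge_crude hA hN hh d), Phi_le_crude hA hN hh ha hl hx d⟩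
  unfold C1
  have h2 := Real.log_nonneg (by norm_num : (1 : ℝ) ≤ 2)
  have h3 : 0 ≤ (4 + 2 * Real.log 2) * p.nc * N := by positivity
  nlinarith

/-- **(M2)**, both families of fields together -/
theorem eE_zf_sq_both_le (hN : 1 ≤ N) (hh : ∀ σ, |h0 σ| ≤ b * N) (ha : ∀ i g, |a i g| ≤ 1)
    (hl : ∀ i g, |lam i g| ≤ 1) (hx : ∀ σ, ∑ i, x σ i ^ 2 ≤ (N : ℝ)) (d : DD p N) :
    eE (G.PP (SY.base p n A hA) (SY.HS h0 a lam x) d)
      (fun w => (∑ g, ∑ i, SY.zf w.1.2.1 g i ^ 2) + ∑ g, ∑ i, SY.zf w.1.2.2 g i ^ 2) ≤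
      C2 p b * N := by
  have hP := G.prior_isProb (SY.base p n A hA)
  have h1 := aE_ge (𝓕 := G.fil (SY.base p n A hA)) hP p.xs_expo.pos
    (fun w => G.UU (SY.base p n A hA) (SY.HS h0 a lam x) d w +
        ((∑ g, ∑ i, 1 / 8 * SY.zf w.1.2.1 g i ^ 2) +
          ∑ g, ∑ i, 1 / 8 * SY.zf w.1.2.2 g i ^ 2))
    (G.UU (SY.base p n A hA) (SY.HS h0 a lam x) d)
  have h2 := aE_quad_le (n := n) hA hN hh ha hl hx d
  have h3 := Phi_ge_crude (n := n) (a := a) (lam := lam) (x := x) hA hN hh d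
  have e : (fun w => (G.UU (SY.base p n A hA) (SY.HS h0 a lam x) d w +
        ((∑ g, ∑ i, 1 / 8 * SY.zf w.1.2.1 g i ^ 2) +
          ∑ g, ∑ i, 1 / 8 * SY.zf w.1.2.2 g i ^ 2)) -
        G.UU (SY.base p n A hA) (SY.HS h0 a lam x) d w) =
      fun w => 1 / 8 * ((∑ g, ∑ i, SY.zf w.1.2.1 g i ^ 2) +
        ∑ g, ∑ i, SY.zf w.1.2.2 g i ^ 2) := by
    funext w
    simp only [← Finset.mul_sum]
    ring
  rw [e, eE_smul] at h1
  have h4 : aE (G.prior (SY.base p n A hA)) (G.fil (SY.base p n A hA)) p.xs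
      (G.UU (SY.base p n A hA) (SY.HS h0 a lam x) d) =
      G.Phi (SY.base p n A hA) (SY.HS h0 a lam x) d := rfl
  rw [h4] at h1
  have h5 : tl (G.prior (SY.base p n A hA)) (G.fil (SY.base p n A hA)) p.xs
      (G.UU (SY.base p n A hA) (SY.HS h0 a lam x) d) =
      G.PP (SY.base p n A hA) (SY.HS h0 a lam x) d := rfl
  rw [h5] at h1
  unfold C2
  linarith

/-- **(M2)** small fields -/
theorem eE_zf_small_sq_le (hN : 1 ≤ N) (hh : ∀ σ, |h0 σ| ≤ b * N) (ha : ∀ i g, |a i g| ≤ 1)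
    (hl : ∀ i g, |lam i g| ≤ 1) (hx : ∀ σ, ∑ i, x σ i ^ 2 ≤ (N : ℝ)) (d : DD p N) :
    eE (G.PP (SY.base p n A hA) (SY.HS h0 a lam x) d)
      (fun w => ∑ g, ∑ i, SY.zf w.1.2.2 g i ^ 2) ≤ C2 p b * N := by
  refine le_trans (eE_mono (G.PP_isProb _ _ _) fun w => ?_)
    (eE_zf_sq_both_le (n := n) hA hN hh ha hl hx d)
  have h1 : 0 ≤ ∑ g, ∑ i, SY.zf w.1.2.1 g i ^ 2 :=
    Finset.sum_nonneg fun g _ => Finset.sum_nonneg fun i _ => sq_nonneg _
  linarith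

/-- **(M2)** main fields -/
theorem eE_zf_main_sq_le (hN : 1 ≤ N) (hh : ∀ σ, |h0 σ| ≤ b * N) (ha : ∀ i g, |a i g| ≤ 1)
    (hl : ∀ i g, |lam i g| ≤ 1) (hx : ∀ σ, ∑ i, x σ i ^ 2 ≤ (N : ℝ)) (d : DD p N) :
    eE (G.PP (SY.base p n A hA) (SY.HS h0 a lam x) d)
      (fun w => ∑ g, ∑ i, SY.zf w.1.2.1 g i ^ 2) ≤ C2 p b * N := by
  refine le_trans (eE_mono (G.PP_isProb _ _ _) fun w => ?_)
    (eE_zf_sq_both_le (n := n) hA hN hh ha hl hx d)
  have h1 : 0 ≤ ∑ g, ∑ i, SY.zf w.1.2.2 g i ^ 2 :=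
    Finset.sum_nonneg fun g _ => Finset.sum_nonneg fun i _ => sq_nonneg _
  linarith

/-! ### the application: quadratic part of strength `t`, `x = U σ` -/

open Crest.Agent.Lib.OrthPoinc in
theorem sum_xU_sq_eq {U : Fin N → Fin N → ℝ}
    (hU : Matrix.of U ∈ Matrix.orthogonalGroup (Fin N) ℝ) (σ : Fin N → Bool) :
    ∑ i, (SY.xU (Matrix.of U) σ i) ^ 2 = N := by
  unfold SY.xU
  rw [sq_sum_mulVec hU, Mag.spin_sq_sum]

theorem abs_h0q_le {eig : Fin N → ℝ} {Λ t BV : ℝ} {V : (Fin N → Bool) → ℝ}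
    (hΛ : ∀ i, |eig i| ≤ Λ) (ht : |t| ≤ 1) (hV : ∀ σ, |V σ| ≤ BV * N) {U : Fin N → Fin N → ℝ}
    (hU : Matrix.of U ∈ Matrix.orthogonalGroup (Fin N) ℝ) (σ : Fin N → Bool) :
    |SY.h0q eig (Matrix.of U) t V σ| ≤ (Λ / 2 + BV) * N := by
  unfold SY.h0q
  have h1 : |t * Mag.qd eig (Matrix.of U) σ| ≤ Λ / 2 * N := by
    rw [abs_mul]
    have := Mag.abs_qd_le hΛ hU σ
    calc |t| * |Mag.qd eig (Matrix.of U) σ| ≤ 1 * (Λ / 2 * N) :=
          mul_le_mul ht this (abs_nonneg _) one_pos.le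
      _ = _ := one_mul _
  refine (abs_add_le _ _).trans ?_
  have := hV σ
  linarith

/-- **(M1)** for `SY.HS (SY.h0q ..) a lam (SY.xU ..)` (`= GX.Hs`, `CSys.HU`), `U` orthogonal -/
theorem abs_Phi_U_le (hN : 1 ≤ N) {eig : Fin N → ℝ} {Λ t BV : ℝ} {V : (Fin N → Bool) → ℝ}
    (hΛ : ∀ i, |eig i| ≤ Λ) (ht : |t| ≤ 1) (hV : ∀ σ, |V σ| ≤ BV * N)
    (ha : ∀ i g, |a i g| ≤ 1) (hl : ∀ i g, |lam i g| ≤ 1) {U : Fin N → Fin N → ℝ}
    (hU : Matrix.of U ∈ Matrix.orthogonalGroup (Fin N) ℝ) (d : DD p N) :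
    |G.Phi (SY.base p n A hA)
      (SY.HS (SY.h0q eig (Matrix.of U) t V) a lam (SY.xU (Matrix.of U))) d| ≤
      C1 p (Λ / 2 + BV) * N :=
  abs_Phi_le hA hN (abs_h0q_le hΛ ht hV hU) ha hl (fun σ => (sum_xU_sq_eq hU σ).le) d

/-- **(M2)** for `U` orthogonal -/
theorem eE_zf_sq_U_le (hN : 1 ≤ N) {eig : Fin N → ℝ} {Λ t BV : ℝ} {V : (Fin N → Bool) → ℝ}
    (hΛ : ∀ i, |eig i| ≤ Λ) (ht : |t| ≤ 1) (hV : ∀ σ, |V σ| ≤ BV * N)
    (ha : ∀ i g, |a i g| ≤ 1) (hl : ∀ i g, |lam i g| ≤ 1) {U : Fin N → Fin N → ℝ}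
    (hU : Matrix.of U ∈ Matrix.orthogonalGroup (Fin N) ℝ) (d : DD p N) :
    eE (G.PP (SY.base p n A hA)
      (SY.HS (SY.h0q eig (Matrix.of U) t V) a lam (SY.xU (Matrix.of U))) d)
      (fun w => (∑ g, ∑ i, SY.zf w.1.2.1 g i ^ 2) + ∑ g, ∑ i, SY.zf w.1.2.2 g i ^ 2) ≤
      C2 p (Λ / 2 + BV) * N :=
  eE_zf_sq_both_le hA hN (abs_h0q_le hΛ ht hV hU) ha hl (fun σ => (sum_xU_sq_eq hU σ).le) d

end

end Crest.Agent.R164.ED
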