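import Crest.Agent.R164.EDe
import Crest.Agent.R164.EDf
import Crest.Agent.R164.CavF

/-!
# Row 164, L side, module E-DIFF part g (helper562): the lower bound of the increment
-/

set_option autoImplicit false

namespace Crest.Agent.R164.ED

open MeasureTheory ProbabilityTheory Filter
open Finset Crest.Agent.R141 Crest.Agent.R164 Crest.Agent.R164.PF Crest.Agent.R164.Haar
open Crest.ProbabilityR.InvariantGlass

noncomputable section

/-- comparison of two integrals when the inequality fails on a small set only -/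
theorem int_lower {α : Type*} [MeasurableSpace α] {ρ : Measure α} [IsFiniteMeasure ρ]
    {G : Set α} (hG : MeasurableSet G) {a f r : α → ℝ} (ia : Integrable a ρ)
    (jf : Integrable f ρ) (ir : Integrable r ρ) (hr : ∀ q, 0 ≤ r q) {M : ℝ}
    (h : ∀ᵐ q ∂ρ, q ∈ G → f q - r q ≤ a q) (hM : ∀ᵐ q ∂ρ, |a q| + |f q| ≤ M) :
    ∫ q, f q ∂ρ - ∫ q, r q ∂ρ - M * (ρ Gᶜ).toReal ≤ ∫ q, a q ∂ρ := by
  have i1 : Integrable (fun q => M * (Gᶜ).indicator (fun _ => (1:ℝ)) q) ρ :=
    ((integrable_const (1:ℝ)).indicator hG.compl).const_mul M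
  have e1 : ∫ q, M * (Gᶜ).indicator (fun _ => (1:ℝ)) q ∂ρ = M * (ρ Gᶜ).toReal := by
    rw [integral_const_mul, integral_indicator hG.compl, setIntegral_const, smul_eq_mul, mul_one]
    rfl
  have i2 : Integrable (fun q => f q - r q) ρ := jf.sub ir
  rw [← e1, ← integral_sub jf ir, ← integral_sub i2 i1]
  refine integral_mono_ae (i2.sub i1) ia ?_
  filter_upwards [h, hM] with q h1 h2
  by_cases hq : q ∈ G
  · rw [Set.indicator_of_notMem (show q ∉ Gᶜ from fun hc => hc hq)]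
    simpa using h1 hq
  · rw [Set.indicator_of_mem (show q ∈ Gᶜ from hq)]
    have h3 := neg_abs_le (a q)
    have h4 := le_abs_self (f q)
    have h5 := hr q
    simp only [mul_one]
    linarith

theorem int_close {α : Type*} [MeasurableSpace α] {ρ : Measure α} [IsFiniteMeasure ρ]
    {G : Set α} (hG : MeasurableSet G) {a f r : α → ℝ} (ia : Integrable a ρ)
    (jf : Integrable f ρ) (ir : Integrable r ρ) (hr : ∀ q, 0 ≤ r q) {M : ℝ}
    (h : ∀ᵐ q ∂ρ, q ∈ G → |a q - f q| ≤ r q) (hM : ∀ᵐ q ∂ρ, |a q| + |f q| ≤ M) :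
    |∫ q, a q ∂ρ - ∫ q, f q ∂ρ| ≤ ∫ q, r q ∂ρ + M * (ρ Gᶜ).toReal := by
  have h1 := int_lower hG ia jf ir hr (h.mono fun q hq hG => by
    have := (abs_le.1 (hq hG)).1; linarith) hM
  have h2 := int_lower hG jf ia ir hr (M := M) (h.mono fun q hq hG => by
    have := (abs_le.1 (hq hG)).2; linarith) (hM.mono fun q hq => by linarith)
  rw [abs_le]
  constructor <;> linarith

variable {Ω : Type*} [Fintype Ω] {P : Ω → ℝ} {𝓕 : Filt Ω} {x : ℕ → ℝ}

theorem aE_add_const' (hP : IsProb P) (hx : ∀ k, 0 < x k) (U : Ω → ℝ) (c : ℝ) :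
    aE P 𝓕 x (fun w => U w + c) = aE P 𝓕 x U + c := aE_add_const hP hx U c

/-- pointwise lower bound -/
theorem aE_ge_trunc2 (hP : IsProb P) (hx : IsExpo x) {K : ℝ} (hK : 0 < K) (X W : Ω → ℝ) (cs : ℝ)
    {g Q : Ω → ℝ} (hg : ∀ w, |X w - cs - W w| ≤ g w) (hQ : ∀ w, W w ^ 2 ≤ Q w) :
    cs + aE P 𝓕 x (fun w => psi K (W w)) - (Real.exp (2 * (K + 1)) * eE P g +
      Real.exp 1 / K * eE P Q) ≤ aE P 𝓕 x X := by
  have h1 := aE_ge_trunc (𝓕 := 𝓕) hP hx hK.le (fun w => X w - cs) W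
  have h2 : aE P 𝓕 x (fun w => X w - cs) = aE P 𝓕 x X - cs := by
    have := aE_add_const (𝓕 := 𝓕) hP hx.pos X (-cs)
    simpa [sub_eq_add_neg] using this
  rw [h2] at h1
  have h3 : eE P (fun w => |X w - cs - W w|) ≤ eE P g := eE_mono hP hg
  have h4 : eE P (fun w => if W w < -K then |W w| else 0) ≤ (1 / K) * eE P Q := by
    rw [← eE_smul]
    refine eE_mono hP fun w => ?_
    have h5 := hQ w
    split_ifs with h
    · rw [one_div, ← div_eq_inv_mul, le_div_iff₀ hK]
      have h6 : K ≤ |W w| := by rw [abs_of_neg (by linarith)]; linarith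
      have h7 := sq_abs (W w)
      nlinarith [abs_nonneg (W w)]
    · exact mul_nonneg (by positivity) ((sq_nonneg _).trans h5)
  have h5 := mul_le_mul_of_nonneg_left h3 (Real.exp_pos (2 * (K + 1))).le
  have h6 := mul_le_mul_of_nonneg_left h4 (Real.exp_pos 1).le
  have e1 : Real.exp 1 * (1 / K * eE P Q) = Real.exp 1 / K * eE P Q := by ring
  rw [e1] at h6
  linarith

end

end Crest.Agent.R164.ED
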