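import Crest.Agent.R164.EDc
import Crest.Agent.R164.EDf
import Crest.Agent.R164.LabMom
import Crest.Agent.R164.GSpin

/-!
# Row 164, L side, module E-DIFF part h (helper158): second moments of the main field of the new
site under the tilted laws of the step; measurability in the disorder
-/

set_option autoImplicit false

namespace Crest.Agent.R164.ED

open Finset MeasureTheory Crest.Agent.R141 Crest.Agent.R164 Crest.Agent.R164.PF Crest.Agent.R164.Haar
open Crest.ProbabilityR.InvariantGlass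

noncomputable section

variable {p : Par} {N n : ℕ}

/-! ### the main coins of the new site as an independent factor -/

/-- filtration of one family of coins of one site -/
def lcF (p : Par) (n : ℕ) : Filt (LC p n) where
  F k := ⟨fun l l' => ∀ g : Fin p.nc, p.mt g ≤ k → l g = l' g,
    ⟨fun _ _ _ => rfl, fun h g hg => (h g hg).symm, fun h h' g hg => (h g hg).trans (h' g hg)⟩⟩
  anti k := by
    intro l l' h
    have h : ∀ g : Fin p.nc, p.mt g ≤ k + 1 → l g = l' g := h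
    exact fun g hg => h g (by omega)
  L := p.L
  bot k hk := by
    ext l l'
    constructor
    · intro h
      have h : ∀ g : Fin p.nc, p.mt g ≤ k → l g = l' g := h
      exact funext fun g => h g (((p.mt_lt_L g.2).le).trans hk)
    · intro h
      have h : l = l' := h
      subst h
      exact fun _ _ => rfl

/-- reassociation: small coins to the first factor -/
def asE (Ω : Type*) (p : Par) (n : ℕ) : Ω × LS p n ≃ (Ω × LC p n) × LC p n where
  toFun u := ((u.1, u.2.2), u.2.1)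
  invFun v := (v.1.1, (v.2, v.1.2))
  left_inv _ := rfl
  right_inv _ := rfl

variable {Ω : Type*} [Fintype Ω] {P : Ω → ℝ}

theorem asIso (𝓕 : Filt Ω) (h : 𝓕.L = p.L) : Iso (asE Ω p n) (pP P (lsP p n))
    (pP (pP P (uQ (LC p n))) (uQ (LC p n))) (pfil 𝓕 (lsF p n) h)
    (pfil (pfil 𝓕 (lcF p n) h) (lcF p n) h) where
  prob a := by
    show P a.1 * (Fintype.card (LC p n) : ℝ)⁻¹ * (Fintype.card (LC p n) : ℝ)⁻¹ =
      P a.1 * (Fintype.card (LS p n) : ℝ)⁻¹
    have : Fintype.card (LS p n) = Fintype.card (LC p n) * Fintype.card (LC p n) :=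
      Fintype.card_prod _ _
    rw [this]
    push_cast
    rw [mul_inv, mul_assoc]
  rel k a b := by
    constructor
    · intro hh
      exact ⟨hh.1.1, ⟨hh.2, hh.1.2⟩⟩
    · intro hh
      exact ⟨⟨hh.1, hh.2.2⟩, hh.2.1⟩
  len := rfl

/-- isomorphism: reassociation of the main coins -/
theorem eE_tl_asIso (𝓕 : Filt Ω) (h : 𝓕.L = p.L) (hP : IsProb P) {x : ℕ → ℝ} (hx : IsExpo x)
    (Y : Ω × LS p n → ℝ) (f : LC p n → ℝ) :
    eE (tl (pP P (lsP p n)) (pfil 𝓕 (lsF p n) h) x Y) (fun w => f w.2.1) =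
      eE (tl (pP (pP P (uQ (LC p n))) (uQ (LC p n)))
        (pfil (pfil 𝓕 (lcF p n) h) (lcF p n) h) x (fun v => Y ((asE Ω p n).symm v)))
        (fun v => f v.2) := by
  have hPL : IsProb (pP P (lsP p n)) := pP_isProb hP lsP_isProb
  have hQ0 : IsProb (uQ (LC p n)) := uQ_isProb
  have hPP : IsProb (pP (pP P (uQ (LC p n))) (uQ (LC p n))) := pP_isProb (pP_isProb hP hQ0) hQ0
  set Y' : (Ω × LC p n) × LC p n → ℝ := fun v => Y ((asE Ω p n).symm v) with hY'
  have e0 : Y = fun a => Y' (asE Ω p n a) := by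
    funext a
    simp only [hY', Equiv.symm_apply_apply]
  rw [e0]
  exact eE_equiv (asE Ω p n) (fun a => ((asIso (n := n) 𝓕 h).tl hPL hPP hx.pos Y' a).symm)
    (fun v => f v.2)

/-! ### one cell of main coins as an independent factor -/

/-- coins of the new site other than the main coins of the cell `g` -/
abbrev RC (p : Par) (n : ℕ) (g : Fin p.nc) : Type :=
  LC p n × ({j : Fin p.nc // j ≠ g} → Fin n → Bool)

/-- filtration of one cell -/
def ccF (p : Par) (n : ℕ) (g : Fin p.nc) : Filt (Unit → Fin n → Bool) where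
  F k := ⟨fun l l' => p.mt g ≤ k → l = l',
    ⟨fun _ _ => rfl, fun h hg => (h hg).symm, fun h h' hg => (h hg).trans (h' hg)⟩⟩
  anti k := by
    intro l l' h
    have h : p.mt g ≤ k + 1 → l = l' := h
    exact fun hg => h (by omega)
  L := p.L
  bot k hk := by
    ext l l'
    constructor
    · intro h
      have h : p.mt g ≤ k → l = l' := h
      exact h (((p.mt_lt_L g.2).le).trans hk)
    · intro h
      have h : l = l' := h
      subst h
      exact fun _ => rfl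

/-- filtration of the other coins -/
def rcF (p : Par) (n : ℕ) (g : Fin p.nc) : Filt (RC p n g) where
  F k := ⟨fun r r' => (∀ j : Fin p.nc, p.mt j ≤ k → r.1 j = r'.1 j) ∧
      (∀ j : {j : Fin p.nc // j ≠ g}, p.mt j.1 ≤ k → r.2 j = r'.2 j),
    ⟨fun _ => ⟨fun _ _ => rfl, fun _ _ => rfl⟩,
      fun h => ⟨fun j hj => (h.1 j hj).symm, fun j hj => (h.2 j hj).symm⟩,
      fun h h' => ⟨fun j hj => (h.1 j hj).trans (h'.1 j hj),
        fun j hj => (h.2 j hj).trans (h'.2 j hj)⟩⟩⟩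
  anti k := by
    intro r r' h
    have h : (∀ j : Fin p.nc, p.mt j ≤ k + 1 → r.1 j = r'.1 j) ∧
      (∀ j : {j : Fin p.nc // j ≠ g}, p.mt j.1 ≤ k + 1 → r.2 j = r'.2 j) := h
    exact ⟨fun j hj => h.1 j (by omega), fun j hj => h.2 j (by omega)⟩
  L := p.L
  bot k hk := by
    ext r r'
    constructor
    · intro h
      have h : (∀ j : Fin p.nc, p.mt j ≤ k → r.1 j = r'.1 j) ∧
        (∀ j : {j : Fin p.nc // j ≠ g}, p.mt j.1 ≤ k → r.2 j = r'.2 j) := h
      exact Prod.ext (funext fun j => h.1 j (((p.mt_lt_L j.2).le).trans hk))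
        (funext fun j => h.2 j (((p.mt_lt_L j.1.2).le).trans hk))
    · intro h
      have h : r = r' := h
      subst h
      exact ⟨fun _ _ => rfl, fun _ _ => rfl⟩

/-- one cell of main coins as a factor -/
def sgE (Ω : Type*) (p : Par) (n : ℕ) (g : Fin p.nc) :
    Ω × LS p n ≃ (Ω × RC p n g) × (Unit → Fin n → Bool) where
  toFun u := ((u.1, (u.2.2, fun j => u.2.1 j.1)), fun _ => u.2.1 g)
  invFun v := (v.1.1, (fun j => if h : j = g then v.2 () else v.1.2.2 ⟨j, h⟩, v.1.2.1))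
  left_inv u := by
    refine Prod.ext rfl (Prod.ext ?_ rfl)
    funext j
    show (if h : j = g then u.2.1 g else u.2.1 j) = u.2.1 j
    split_ifs with h
    · rw [h]
    · rfl
  right_inv v := by
    refine Prod.ext (Prod.ext rfl (Prod.ext rfl ?_)) ?_
    · funext j
      show (if h : j.1 = g then v.2 () else v.1.2.2 ⟨j.1, h⟩) = v.1.2.2 j
      rw [dif_neg j.2]
    · funext t
      show (if h : g = g then v.2 () else v.1.2.2 ⟨g, h⟩) = v.2 t
      rw [dif_pos rfl]

theorem sgIso (𝓕 : Filt Ω) (h : 𝓕.L = p.L) (g : Fin p.nc) :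
    Iso (sgE Ω p n g) (pP P (lsP p n))
      (pP (pP P (uQ (RC p n g))) (uQ (Unit → Fin n → Bool))) (pfil 𝓕 (lsF p n) h)
      (pfil (pfil 𝓕 (rcF p n g) h) (ccF p n g) h) where
  prob a := by
    show P a.1 * (Fintype.card (RC p n g) : ℝ)⁻¹ *
      (Fintype.card (Unit → Fin n → Bool) : ℝ)⁻¹ = P a.1 * (Fintype.card (LS p n) : ℝ)⁻¹
    have h1 : Fintype.card (LS p n) =
        Fintype.card (RC p n g) * Fintype.card (Unit → Fin n → Bool) := by
      have h2 := Fintype.card_congr (sgE Unit p n g)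
      rw [Fintype.card_prod Unit (LS p n), Fintype.card_prod (Unit × RC p n g),
        Fintype.card_prod Unit (RC p n g), Fintype.card_unit, one_mul, one_mul] at h2
      exact h2
    rw [h1]
    push_cast
    rw [mul_inv, mul_assoc]
  rel k a b := by
    constructor
    · intro hh
      have h1 : 𝓕.F k a.1 b.1 := hh.1.1
      have h2 : (∀ j : Fin p.nc, p.mt j ≤ k → a.2.2 j = b.2.2 j) ∧
        (∀ j : {j : Fin p.nc // j ≠ g}, p.mt j.1 ≤ k → a.2.1 j.1 = b.2.1 j.1) := hh.1.2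
      have h3 : p.mt g ≤ k → (fun _ : Unit => a.2.1 g) = fun _ => b.2.1 g := hh.2
      refine ⟨h1, ⟨fun j hj => ?_, fun j hj => h2.1 j hj⟩⟩
      by_cases hjg : j = g
      · subst hjg
        exact congrFun (h3 hj) ()
      · exact h2.2 ⟨j, hjg⟩ hj
    · intro hh
      have h2 : lsr p n k a.2 b.2 := hh.2
      exact ⟨⟨hh.1, ⟨fun j hj => h2.2 j hj, fun j hj => h2.1 j.1 hj⟩⟩,
        fun hg => funext fun _ => h2.1 g hg⟩
  len := rfl

/-- **second moment of one main coin sum**, general first factor -/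
theorem eE_tl_zl_sq_le (𝓕 : Filt Ω) (h : 𝓕.L = p.L) (hP : IsProb P) {x : ℕ → ℝ} (hx : IsExpo x)
    {Y : Ω × LS p n → ℝ} {b : ℝ} (g : Fin p.nc)
    (hY : ∀ w (l l' : LS p n), l.2 = l'.2 → (∀ j, j ≠ g → l.1 j = l'.1 j) →
      |Y (w, l) - Y (w, l')| ≤ |b| * |zl l.1 g - zl l'.1 g|) :
    eE (tl (pP P (lsP p n)) (pfil 𝓕 (lsF p n) h) x Y) (fun w => zl w.2.1 g ^ 2) ≤
      32 * (1 + b ^ 2) := by
  have hPL : IsProb (pP P (lsP p n)) := pP_isProb hP lsP_isProb
  have hQ0 : IsProb (uQ (RC p n g)) := uQ_isProb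
  have hQ1 : IsProb (uQ (Unit → Fin n → Bool)) := uQ_isProb
  have hPP : IsProb (pP (pP P (uQ (RC p n g))) (uQ (Unit → Fin n → Bool))) :=
    pP_isProb (pP_isProb hP hQ0) hQ1
  set Y' : (Ω × RC p n g) × (Unit → Fin n → Bool) → ℝ := fun v => Y ((sgE Ω p n g).symm v)
    with hY'
  have e0 : Y = fun a => Y' (sgE Ω p n g a) := by
    funext a
    simp only [hY', Equiv.symm_apply_apply]
  have h1 : eE (tl (pP P (lsP p n)) (pfil 𝓕 (lsF p n) h) x Y) (fun w => zl w.2.1 g ^ 2) =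
      eE (tl (pP (pP P (uQ (RC p n g))) (uQ (Unit → Fin n → Bool)))
        (pfil (pfil 𝓕 (rcF p n g) h) (ccF p n g) h) x Y') (fun v => zz () v.2 ^ 2) := by
    rw [e0]
    exact eE_equiv (sgE Ω p n g)
      (fun a => ((sgIso (n := n) 𝓕 h g).tl hPL hPP hx.pos Y' a).symm) (fun v => zz () v.2 ^ 2)
  rw [h1]
  have h2 := eE_tl_zz_sq_le (𝓕 := pfil 𝓕 (rcF p n g) h) (𝓒 := ccF p n g) h (pP_isProb hP hQ0) hx
    (Y := Y') (a := fun _ : Unit => b) (fun w c c' => by
      rw [Fintype.sum_unique]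
      have h3 := hY w.1 ((sgE Ω p n g).symm (w, c)).2 ((sgE Ω p n g).symm (w, c')).2 rfl
        (fun j hj => by
          show (if h : j = g then c () else w.2.2 ⟨j, h⟩) =
            (if h : j = g then c' () else w.2.2 ⟨j, h⟩)
          rw [dif_neg hj, dif_neg hj])
      have h4 : ∀ c : Unit → Fin n → Bool, zl ((sgE Ω p n g).symm (w, c)).2.1 g = zz () c := by
        intro c
        have h5 : ((sgE Ω p n g).symm (w, c)).2.1 g = c () := by
          show (if h : g = g then c () else w.2.2 ⟨g, h⟩) = c ()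
          rw [dif_pos rfl]
        unfold zl zz
        rw [h5]
      rw [h4, h4] at h3
      exact h3) ()
  refine h2.trans ?_
  unfold labC
  rw [Fintype.sum_unique, Fintype.sum_unique, Fintype.card_unit]
  have h5 := Real.log_two_lt_d9
  have h6 := sq_abs b
  push_cast
  nlinarith [sq_nonneg (|b| - 1)]

/-! ### (SM1) -/

theorem yb_sub_eq (b : Fin p.nc → ℝ) {l l' : LS p n} {g : Fin p.nc}
    (h : ∀ j, j ≠ g → l.1 j = l'.1 j) :
    yb b l - yb b l' = b g * (zl l.1 g - zl l'.1 g) := by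
  unfold yb
  rw [← Finset.sum_sub_distrib, Finset.sum_eq_single g]
  · ring
  · intro j _ hj
    have : zl l.1 j = zl l'.1 j := by unfold zl; rw [h j hj]
    rw [this, sub_self]
  · intro hg; exact absurd (Finset.mem_univ g) hg

theorem wx_sub (m1 lamL z0 z1 y y' : ℝ) (v : Bool → ℝ) (b : Bool) :
    |wx m1 lamL z0 z1 y v b - wx m1 lamL z0 z1 y' v b| ≤ |y - y'| := by
  unfold wx
  have e : (sv b - z0) * z1 + 1 / 2 * m1 * (sv b - z0) ^ 2 + 1 / 2 * lamL * z0 ^ 2 + v b +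
      sv b * y - ((sv b - z0) * z1 + 1 / 2 * m1 * (sv b - z0) ^ 2 + 1 / 2 * lamL * z0 ^ 2 + v b +
      sv b * y') = sv b * (y - y') := by ring
  rw [e, abs_mul, sv_abs, one_mul]

theorem wid_sub (m1 lamL z0 z1 y y' : ℝ) (v : Bool → ℝ) :
    |wid m1 lamL z0 z1 y v - wid m1 lamL z0 z1 y' v| ≤ |y - y'| := by
  have h := lg2_lip (wx m1 lamL z0 z1 y v true) (wx m1 lamL z0 z1 y v false)
    (wx m1 lamL z0 z1 y' v true) (wx m1 lamL z0 z1 y' v false)
  exact h.trans (max_le (wx_sub _ _ _ _ _ _ _ _) (wx_sub _ _ _ _ _ _ _ _))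

/-- **(SM1)** -/
theorem sm1 {K : ℝ} (hK : 0 ≤ K) (eig : Fin (N + 1) → ℝ) (m1 : ℝ) (b : Fin p.nc → ℝ) (bb : ℝ)
    (v : (Fin N → Bool) → Bool → ℝ) (V : Mat (Fin N)) (Gv : Fin (N + 1) → ℝ)
    (H0 : SY.SS p n (univ : Finset (Fin N → Bool)) → ℝ) (d : DD p N) (g : Fin p.nc) :
    eE (tl (stP p N n H0 d) (stF p N n) p.xs
      (fun w => psi K (redB (WX eig m1 b bb v V Gv) w))) (fun w => zl w.2.1 g ^ 2) ≤
      32 * (1 + b g ^ 2) := by
  refine eE_tl_zl_sq_le (P := G.PP (BU p N n) H0 d) (G.fil (BU p N n)) rfl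
    (G.PP_isProb _ _ _) p.xs_expo g (fun w l l' _ hj => ?_)
  refine (psi_lipschitz hK _ _).trans ?_
  rw [redB_WX, redB_WX]
  refine (wid_sub _ _ _ _ _ _ _).trans ?_
  have e : bb + yb b ((w, l) : OU p N n × LS p n).2 -
      (bb + yb b ((w, l') : OU p N n × LS p n).2) = yb b l - yb b l' := by
    ring
  rw [e, yb_sub_eq b hj, abs_mul]

/-! ### (SM2) -/

variable (eig : Fin (N + 1) → ℝ) (W0 : (Fin N → Bool) → ℝ) (W1 : (Fin (N + 1) → Bool) → ℝ)
  (a lam : Fin (N + 1) → Fin p.nc → ℝ)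

/-- the main coins of the new site enter the Hamiltonian linearly -/
theorem HN1_sub (U : Mat (Fin (N + 1))) (s : SY.SS p n (univ : Finset (Fin N → Bool)))
    (l1 l1' l2 : LC p n) (b : Bool) :
    HN1 eig W1 a lam U (glS s (l1, l2) b) - HN1 eig W1 a lam U (glS s (l1', l2) b) =
      sv b * (yb (a (Fin.last N)) (l1, l2) - yb (a (Fin.last N)) (l1', l2)) := by
  have s1 : ∀ l : LS p n, (glS s l b).1.1 = Fin.snoc (α := fun _ => Bool) s.1.1 b := fun _ => rfl
  show SY.HS (SY.h0q eig (Matrix.of U) 1 W1) a lam (SY.xU (Matrix.of U)) (glS s (l1, l2) b) -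
    SY.HS (SY.h0q eig (Matrix.of U) 1 W1) a lam (SY.xU (Matrix.of U)) (glS s (l1', l2) b) = _
  unfold SY.HS
  rw [s1, s1]
  have e1 : ∀ (l : LS p n) (g : Fin p.nc), ∑ i : Fin (N + 1), a i g *
      (SY.zf (glS s l b).2.1 g i *
        sv ((Fin.snoc (α := fun _ => Bool) s.1.1 b : Fin (N + 1) → Bool) i)) =
      (∑ i : Fin N, a i.castSucc g * (SY.zf s.2.1 g i * sv (s.1.1 i))) +
        sv b * (a (Fin.last N) g * zl l.1 g) := by
    intro l g
    rw [Fin.sum_univ_castSucc]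
    simp only [Fin.snoc_castSucc, Fin.snoc_last, zf_gl_last, zf_gl_castSucc]
    ring
  rw [Finset.sum_congr rfl fun g _ => e1 (l1, l2) g,
    Finset.sum_congr rfl fun g _ => e1 (l1', l2) g]
  have s2 : (glS s (l1, l2) b).2.2 = (glS s (l1', l2) b).2.2 := rfl
  rw [s2]
  simp only [Finset.sum_add_distrib, ← Finset.mul_sum]
  unfold yb
  ring

/-- the increment depends on the main coins of the new site through the field only -/
theorem Xr_sub (U : Mat (Fin (N + 1))) (V : Mat (Fin N)) (w : OU p N n) (l l' : LS p n)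
    (h : l.2 = l'.2) :
    |Xr (HN eig W0 a lam V) (HN1 eig W1 a lam U) (w, l) -
      Xr (HN eig W0 a lam V) (HN1 eig W1 a lam U) (w, l')| ≤
      |yb (a (Fin.last N)) l - yb (a (Fin.last N)) l'| := by
  obtain ⟨l1, l2⟩ := l
  obtain ⟨l1', l2'⟩ := l'
  have h : l2 = l2' := h
  subst h
  have key : ∀ b : Bool, |xw (HN eig W0 a lam V) (HN1 eig W1 a lam U) ((w, (l1, l2)), b) -
      xw (HN eig W0 a lam V) (HN1 eig W1 a lam U) ((w, (l1', l2)), b)| ≤
      |yb (a (Fin.last N)) (l1, l2) - yb (a (Fin.last N)) (l1', l2)| := by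
    intro b
    have e : xw (HN eig W0 a lam V) (HN1 eig W1 a lam U) ((w, (l1, l2)), b) -
        xw (HN eig W0 a lam V) (HN1 eig W1 a lam U) ((w, (l1', l2)), b) =
        HN1 eig W1 a lam U (glS w.1 (l1, l2) b) - HN1 eig W1 a lam U (glS w.1 (l1', l2) b) := by
      unfold xw
      ring
    rw [e, HN1_sub, abs_mul, sv_abs, one_mul]
  exact (lg2_lip _ _ _ _).trans (max_le (key true) (key false))

/-- **(SM2)** -/
theorem sm2 (U : Mat (Fin (N + 1))) (V : Mat (Fin N)) (d : DD p N) (g : Fin p.nc) :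
    eE (stQ (n := n) (HN eig W0 a lam V) (HN1 eig W1 a lam U) d) (fun w => zl w.2.1 g ^ 2) ≤
      32 * (1 + a (Fin.last N) g ^ 2) := by
  refine eE_tl_zl_sq_le (P := G.PP (BU p N n) (HN eig W0 a lam V) d) (G.fil (BU p N n)) rfl
    (G.PP_isProb _ _ _) p.xs_expo g (fun w l l' hl hj => ?_)
  refine (Xr_sub eig W0 W1 a lam U V w l l' hl).trans ?_
  rw [yb_sub_eq _ hj, abs_mul]

/-! ### sub-Gaussian moments -/

section subG

variable {Λ : Type*} [Fintype Λ] {Q : Λ → ℝ} {y : Λ → ℝ}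

theorem subG_exp_sq (hQ : IsProb Q)
    (h : ∀ s, eE Q (fun c => Real.exp (s * y c)) ≤ Real.exp (s ^ 2 / 2)) :
    eE Q (fun c => Real.exp (1 / 4 * y c ^ 2)) ≤ 2 := by
  have hpi := Real.sqrt_pos.mpr Real.pi_pos
  have hint : ∀ c, Integrable (fun x : ℝ => Q c * Real.exp (-x ^ 2 + y c * x)) := fun c =>
    (CSys.integral_exp_lin (y c)).1.const_mul _
  have h1 : ∑ c, Real.sqrt Real.pi * (Q c * Real.exp (y c ^ 2 / 4)) =
      ∫ x : ℝ, ∑ c, Q c * Real.exp (-x ^ 2 + y c * x) := by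
    rw [integral_finsetSum _ fun c _ => hint c]
    refine Finset.sum_congr rfl fun c _ => ?_
    rw [integral_const_mul, (CSys.integral_exp_lin (y c)).2]
    ring
  have hi2 : Integrable (fun x : ℝ => Real.exp (-(1 / 2) * x ^ 2)) :=
    integrable_exp_neg_mul_sq (by norm_num : (0 : ℝ) < 1 / 2)
  have h2 : ∫ x : ℝ, ∑ c, Q c * Real.exp (-x ^ 2 + y c * x) ≤
      ∫ x : ℝ, Real.exp (-(1 / 2) * x ^ 2) := by
    refine integral_mono (integrable_finsetSum _ fun c _ => hint c) hi2 ?_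
    intro x
    have e : ∑ c, Q c * Real.exp (-x ^ 2 + y c * x) =
        Real.exp (-x ^ 2) * eE Q (fun c => Real.exp (x * y c)) := by
      unfold eE
      rw [Finset.mul_sum]
      refine Finset.sum_congr rfl fun c _ => ?_
      show Q c * Real.exp (-x ^ 2 + y c * x) = Real.exp (-x ^ 2) * (Q c * Real.exp (x * y c))
      rw [Real.exp_add, mul_comm x]; ring
    show ∑ c, Q c * Real.exp (-x ^ 2 + y c * x) ≤ Real.exp (-(1 / 2) * x ^ 2)
    rw [e]
    calc Real.exp (-x ^ 2) * eE Q (fun c => Real.exp (x * y c)) ≤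
        Real.exp (-x ^ 2) * Real.exp (x ^ 2 / 2) :=
          mul_le_mul_of_nonneg_left (h x) (Real.exp_pos _).le
      _ = Real.exp (-(1 / 2) * x ^ 2) := by
          rw [← Real.exp_add]; ring_nf
  have h3 : ∫ x : ℝ, Real.exp (-(1 / 2) * x ^ 2) = Real.sqrt 2 * Real.sqrt Real.pi := by
    rw [integral_gaussian, ← Real.sqrt_mul (by norm_num)]
    congr 1
    ring
  rw [h3, ← h1, ← Finset.mul_sum, mul_comm (Real.sqrt 2)] at h2
  have h4 := le_of_mul_le_mul_left h2 hpi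
  have h6 : Real.sqrt 2 ≤ 2 := by
    rw [Real.sqrt_le_left (by norm_num)]; norm_num
  have h7 : eE Q (fun c => Real.exp (1 / 4 * y c ^ 2)) = ∑ c, Q c * Real.exp (y c ^ 2 / 4) := by
    unfold eE
    refine Finset.sum_congr rfl fun c _ => ?_
    show Q c * Real.exp (1 / 4 * y c ^ 2) = Q c * Real.exp (y c ^ 2 / 4)
    rw [show 1 / 4 * y c ^ 2 = y c ^ 2 / 4 by ring]
  rw [h7]
  exact h4.trans h6

theorem cosh_ge (t : ℝ) : 1 + t ^ 2 / 2 ≤ Real.cosh t := by
  have h1 : Real.cosh t = 1 + 2 * Real.sinh (t / 2) ^ 2 := by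
    have h2 := Real.cosh_two_mul (t / 2)
    have h3 := Real.cosh_sq (t / 2)
    rw [show 2 * (t / 2) = t by ring] at h2
    rw [h2, h3]; ring
  have h4 : (t / 2) ^ 2 ≤ Real.sinh (t / 2) ^ 2 := by
    rcases le_total 0 (t / 2) with h | h
    · exact pow_le_pow_left₀ h (Real.self_le_sinh_iff.2 h) 2
    · have h5 := Real.self_le_sinh_iff.2 (neg_nonneg.2 h)
      rw [Real.sinh_neg] at h5
      have h6 := pow_le_pow_left₀ (neg_nonneg.2 h) h5 2
      rwa [neg_sq, neg_sq] at h6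
  rw [h1]
  linarith [show t ^ 2 / 2 = 2 * (t / 2) ^ 2 by ring]

/-- variance bound from the exponential moments -/
theorem subG_sq (hQ : IsProb Q) {B : ℝ}
    (h : ∀ s, eE Q (fun c => Real.exp (s * y c)) ≤ Real.exp (s ^ 2 * B / 2)) :
    eE Q (fun c => y c ^ 2) ≤ B := by
  -- `s² E y² ≤ E (exp (s y) + exp (-s y) - 2) ≤ 2 (exp (s² B/2) - 1)`
  have h1 : ∀ s : ℝ, s ^ 2 * eE Q (fun c => y c ^ 2) ≤ 2 * (Real.exp (s ^ 2 * B / 2) - 1) := by
    intro s
    have h2 : eE Q (fun c => s ^ 2 * y c ^ 2) ≤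
        eE Q (fun c => (Real.exp (s * y c) + Real.exp (-s * y c)) + (-2)) := by
      refine eE_mono hQ fun c => ?_
      have h3 := cosh_ge (s * y c)
      rw [Real.cosh_eq] at h3
      have e : -s * y c = -(s * y c) := by ring
      rw [e]
      have : (s * y c) ^ 2 = s ^ 2 * y c ^ 2 := by ring
      linarith
    rw [eE_smul, eE_add, eE_add, eE_const hQ] at h2
    have h4 := h s
    have h5 := h (-s)
    have e : (-s) ^ 2 = s ^ 2 := by ring
    rw [e] at h5
    linarith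
  by_contra hc
  have hc := not_le.1 hc
  set E := eE Q (fun c => y c ^ 2) with hE
  have hE0 : 0 ≤ E := eE_nonneg hQ fun _ => sq_nonneg _
  -- `u E ≤ exp (u B) - 1` for `u ≥ 0`
  have h2 : ∀ u : ℝ, 0 ≤ u → u * E ≤ Real.exp (u * B) - 1 := by
    intro u hu
    have h3 := h1 (Real.sqrt (2 * u))
    rw [Real.sq_sqrt (by positivity)] at h3
    have e : 2 * u * B / 2 = u * B := by ring
    rw [e] at h3
    linarith
  have hd : HasDerivAt (fun u : ℝ => Real.exp (u * B) - 1 - u * E) (B - E) 0 := by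
    have h3 : HasDerivAt (fun u : ℝ => Real.exp (u * B)) (Real.exp (0 * B) * (1 * B)) 0 :=
      ((hasDerivAt_id (0 : ℝ)).mul_const B).exp
    have h4 : HasDerivAt (fun u : ℝ => u * E) (1 * E) 0 := (hasDerivAt_id (0 : ℝ)).mul_const E
    have h5 := (h3.sub_const 1).fun_sub h4
    simpa using h5
  have hneg : B - E < 0 := by linarith
  have h6 := hd.tendsto_slope_zero_right
  have h7 : ∀ᶠ t in nhdsWithin (0 : ℝ) (Set.Ioi 0),
      t⁻¹ • ((Real.exp ((0 + t) * B) - 1 - (0 + t) * E) - (Real.exp (0 * B) - 1 - 0 * E)) < 0 :=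
    h6.eventually (gt_mem_nhds hneg)
  have h8 : ∀ᶠ t in nhdsWithin (0 : ℝ) (Set.Ioi 0), (0 : ℝ) < t := self_mem_nhdsWithin
  obtain ⟨t, ht1, ht2⟩ := (h7.and h8).exists
  have h9 := h2 t ht2.le
  simp only [zero_add, zero_mul, Real.exp_zero, sub_self, sub_zero, smul_eq_mul] at ht1
  have h10 : 0 ≤ t⁻¹ * (Real.exp (t * B) - 1 - t * E) :=
    mul_nonneg (inv_pos.2 ht2).le (by linarith)
  linarith

end subG

/-- the field as a function of one family of coins -/
def yq (b : Fin p.nc → ℝ) (c : LC p n) : ℝ := ∑ g, b g * zl c g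

theorem yb_eq (b : Fin p.nc → ℝ) (l : LS p n) : yb b l = yq b l.1 := rfl

theorem L2_eq (l : LS p n) : L2 lam l = yq (lam (Fin.last N)) l.2 := rfl

theorem eE_exp_yq (b : Fin p.nc → ℝ) (s : ℝ) :
    eE (uQ (LC p n)) (fun c => Real.exp (s * yq b c)) ≤
      Real.exp (s ^ 2 * (∑ g, b g ^ 2) / 2) := by
  have e1 : (fun c : LC p n => Real.exp (s * yq b c)) =
      fun c => ∏ g, (fun g (m : Fin n → Bool) => Real.exp (s * b g * CSys.zc n m)) g (c g) := by
    funext c
    rw [← Real.exp_sum]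
    congr 1
    unfold yq
    rw [Finset.mul_sum]
    refine Finset.sum_congr rfl fun g _ => ?_
    rw [mul_assoc]
    rfl
  rw [e1, eE_uQ_prod (fun g (m : Fin n → Bool) => Real.exp (s * b g * CSys.zc n m))]
  have e2 : Real.exp (s ^ 2 * (∑ g, b g ^ 2) / 2) = ∏ g, Real.exp ((s * b g) ^ 2 / 2) := by
    rw [← Real.exp_sum]
    congr 1
    rw [Finset.mul_sum, Finset.sum_div]
    exact Finset.sum_congr rfl fun g _ => by ring
  rw [e2]
  exact Finset.prod_le_prod (fun g _ => eE_nonneg uQ_isProb fun _ => (Real.exp_pos _).le)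
    fun g _ => eE_exp_zc (s * b g)

theorem eE_yq_sq (b : Fin p.nc → ℝ) :
    eE (uQ (LC p n)) (fun c => yq b c ^ 2) ≤ ∑ g, b g ^ 2 :=
  subG_sq uQ_isProb (eE_exp_yq b)

theorem lsP_eq : lsP p n = pP (uQ (LC p n)) (uQ (LC p n)) := by
  funext l
  unfold lsP pP uQ
  have : Fintype.card (LS p n) = Fintype.card (LC p n) * Fintype.card (LC p n) :=
    Fintype.card_prod _ _
  rw [this]
  push_cast
  rw [mul_inv]

/-- **(SM4)** -/
theorem sm4 (b : Fin p.nc → ℝ) : eE (lsP p n) (fun l => yb b l ^ 2) ≤ ∑ g, b g ^ 2 := by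
  rw [lsP_eq]
  exact (le_of_eq (eE_prod_fst (Q := uQ (LC p n)) uQ_isProb (fun c : LC p n => yq b c ^ 2))).trans
    (eE_yq_sq b)

/-- **(SM4)** for the small field -/
theorem sm4' : eE (lsP p n) (fun l => L2 lam l ^ 2) ≤ ∑ g, lam (Fin.last N) g ^ 2 := by
  rw [lsP_eq]
  exact (le_of_eq (eE_prod_snd (P := uQ (LC p n)) uQ_isProb
    (fun c : LC p n => yq (lam (Fin.last N)) c ^ 2))).trans (eE_yq_sq _)

/-- some value is below the mean -/
theorem exists_le_eE {Λ : Type*} [Fintype Λ] {Q : Λ → ℝ} (hQ : IsProb Q) (f : Λ → ℝ) :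
    ∃ c, f c ≤ eE Q f := by
  by_contra hc
  have hc : ∀ c, eE Q f < f c := by
    intro c
    by_contra h
    exact hc ⟨c, not_lt.1 h⟩
  have hne : Nonempty Λ := by
    by_contra hne
    rw [not_nonempty_iff] at hne
    have := hQ.sum
    simp at this
  have h1 : ∑ c, Q c * eE Q f < ∑ c, Q c * f c :=
    Finset.sum_lt_sum_of_nonempty Finset.univ_nonempty fun c _ =>
      mul_lt_mul_of_pos_left (hc c) (hQ.pos c)
  rw [← Finset.sum_mul, hQ.sum, one_mul] at h1
  exact lt_irrefl _ h1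

/-- **second moment of the field of the new site**, general first factor -/
theorem eE_tl_yb_sq_le (𝓕 : Filt Ω) (h : 𝓕.L = p.L) (hP : IsProb P) {x : ℕ → ℝ} (hx : IsExpo x)
    {Y : Ω × LS p n → ℝ} {b : Fin p.nc → ℝ} {B2 : ℝ} (hB : ∑ g, b g ^ 2 ≤ B2)
    (hY : ∀ w (l l' : LS p n), l.2 = l'.2 → |Y (w, l) - Y (w, l')| ≤ |yb b l - yb b l'|) :
    eE (tl (pP P (lsP p n)) (pfil 𝓕 (lsF p n) h) x Y) (fun w => yb b w.2 ^ 2) ≤
      36 * (1 + B2) ^ 2 := by
  have hQ0 : IsProb (uQ (LC p n)) := uQ_isProb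
  have hb0 : 0 ≤ ∑ g, b g ^ 2 := Finset.sum_nonneg fun _ _ => sq_nonneg _
  have hB0 : 0 ≤ B2 := hb0.trans hB
  set T : ℝ := 1 + B2 with hT
  have hT1 : 1 ≤ T := by rw [hT]; linarith
  have hT0 : 0 < T := by linarith
  rw [show (fun w : Ω × LS p n => yb b w.2 ^ 2) = fun w => (fun c => yq b c ^ 2) w.2.1 from rfl,
    eE_tl_asIso 𝓕 h hP hx Y (fun c => yq b c ^ 2)]
  have hm := eE_yq_sq (n := n) b
  obtain ⟨c0, hc0⟩ := exists_le_eE hQ0 (fun c : LC p n => yq b c ^ 2)
  have hc0' : yq b c0 ^ 2 ≤ B2 := hc0.trans (hm.trans hB)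
  have h1 := eE_tl_snd_le (𝓕 := pfil 𝓕 (lcF p n) h) (𝓖 := lcF p n) (x := x)
    (P := pP P (uQ (LC p n))) (Q := uQ (LC p n)) (Y := fun v => Y ((asE Ω p n).symm v))
    (l := fun c => |yq b c|) (h := fun c => yq b c ^ 2) (c0 := c0) (r0 := |yq b c0|)
    (α := 1 / (8 * T)) h (pP_isProb hP hQ0) hQ0 hx (fun w c => by
      refine (hY w.1 ((asE Ω p n).symm (w, c)).2 ((asE Ω p n).symm (w, c0)).2 rfl).trans ?_
      exact abs_sub _ _)
  -- linear moments
  have h2 : eE (uQ (LC p n)) (fun c => |yq b c|) ≤ T / 2 := by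
    have h3 : eE (uQ (LC p n)) (fun c => |yq b c|) ≤
        eE (uQ (LC p n)) (fun c => 1 / 2 + 1 / 2 * yq b c ^ 2) := by
      refine eE_mono hQ0 fun c => ?_
      have := abs_le_half (yq b c)
      linarith
    rw [eE_add, eE_const hQ0, eE_smul] at h3
    linarith
  have h4 : |yq b c0| ≤ T / 2 := by
    have := abs_le_half (yq b c0)
    linarith
  -- exponential moments
  have h5 : eE (uQ (LC p n)) (fun c => Real.exp (|yq b c| + 1 / (8 * T) * yq b c ^ 2)) ≤
      Real.exp (2 * T) * 2 := by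
    have h6 : eE (uQ (LC p n)) (fun c => Real.exp (1 / 4 * ((Real.sqrt T)⁻¹ * yq b c) ^ 2)) ≤
        2 := by
      refine subG_exp_sq hQ0 fun s => ?_
      have h7 := eE_exp_yq (n := n) b (s * (Real.sqrt T)⁻¹)
      have e1 : (fun c : LC p n => Real.exp (s * (Real.sqrt T)⁻¹ * yq b c)) =
          fun c => Real.exp (s * ((Real.sqrt T)⁻¹ * yq b c)) := by
        funext c; rw [mul_assoc]
      rw [e1] at h7
      refine h7.trans (Real.exp_le_exp.2 ?_)
      rw [mul_pow, inv_pow, Real.sq_sqrt hT0.le]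
      have h8 : T⁻¹ * (∑ g, b g ^ 2) ≤ 1 := by
        rw [inv_mul_le_iff₀ hT0]; linarith
      have h9 := mul_le_mul_of_nonneg_left h8 (sq_nonneg s)
      linarith
    have h10 : ∀ c : LC p n, Real.exp (|yq b c| + 1 / (8 * T) * yq b c ^ 2) ≤
        Real.exp (2 * T) * Real.exp (1 / 4 * ((Real.sqrt T)⁻¹ * yq b c) ^ 2) := by
      intro c
      rw [← Real.exp_add]
      apply Real.exp_le_exp.2
      rw [mul_pow, inv_pow, Real.sq_sqrt hT0.le]
      have h11 : 0 ≤ 1 / (8 * T) * (|yq b c| - 4 * T) ^ 2 := by positivity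
      have e2 : 1 / (8 * T) * (|yq b c| - 4 * T) ^ 2 =
          1 / (8 * T) * yq b c ^ 2 - |yq b c| + 2 * T := by
        have := sq_abs (yq b c)
        field_simp
        rw [← this]; ring
      have e3 : 1 / 4 * (T⁻¹ * yq b c ^ 2) = 1 / (8 * T) * yq b c ^ 2 +
          1 / (8 * T) * yq b c ^ 2 := by
        field_simp; ring
      rw [e3]
      linarith
    refine (eE_mono hQ0 h10).trans ?_
    rw [eE_smul]
    exact mul_le_mul_of_nonneg_left h6 (Real.exp_pos _).le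
  have h12 : Real.log (eE (uQ (LC p n))
      (fun c => Real.exp (|yq b c| + 1 / (8 * T) * yq b c ^ 2))) ≤ 2 * T + Real.log 2 := by
    have h0 : 0 < eE (uQ (LC p n))
        (fun c => Real.exp (|yq b c| + 1 / (8 * T) * yq b c ^ 2)) :=
      Finset.sum_pos (fun c _ => mul_pos (hQ0.pos c) (Real.exp_pos _)) Finset.univ_nonempty
    have h13 := Real.log_le_log h0 h5
    rwa [Real.log_mul (Real.exp_pos _).ne' (by norm_num), Real.log_exp] at h13
  have h14 : Real.log 2 ≤ 7 / 10 * T := by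
    have := Real.log_two_lt_d9
    linarith
  have h15 : 1 / (8 * T) * eE (tl (pP (pP P (uQ (LC p n))) (uQ (LC p n)))
        (pfil (pfil 𝓕 (lcF p n) h) (lcF p n) h) x (fun v => Y ((asE Ω p n).symm v)))
        (fun v => yq b v.2 ^ 2) ≤ 9 / 2 * T := by
    linarith
  rw [one_div, inv_mul_le_iff₀ (by positivity)] at h15
  refine h15.trans (le_of_eq ?_)
  ring

/-- **(SM3)** -/
theorem sm3 (U : Mat (Fin (N + 1))) (V : Mat (Fin N)) (d : DD p N) {B2 : ℝ}
    (hB : ∑ g, a (Fin.last N) g ^ 2 ≤ B2) :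
    eE (stQ (n := n) (HN eig W0 a lam V) (HN1 eig W1 a lam U) d)
      (fun w => yb (a (Fin.last N)) w.2 ^ 2) ≤ 36 * (1 + B2) ^ 2 :=
  eE_tl_yb_sq_le (P := G.PP (BU p N n) (HN eig W0 a lam V) d) (G.fil (BU p N n)) rfl
    (G.PP_isProb _ _ _) p.xs_expo hB (fun w l l' hl => Xr_sub eig W0 W1 a lam U V w l l' hl)

/-- the same for the truncated ideal weight -/
theorem sm3' {K : ℝ} (hK : 0 ≤ K) (m1 : ℝ) (b : Fin p.nc → ℝ) (bb : ℝ)
    (v : (Fin N → Bool) → Bool → ℝ) (V : Mat (Fin N)) (Gv : Fin (N + 1) → ℝ)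
    (H0 : SY.SS p n (univ : Finset (Fin N → Bool)) → ℝ) (d : DD p N) {B2 : ℝ}
    (hB : ∑ g, b g ^ 2 ≤ B2) :
    eE (tl (stP p N n H0 d) (stF p N n) p.xs
      (fun w => psi K (redB (WX eig m1 b bb v V Gv) w))) (fun w => yb b w.2 ^ 2) ≤
      36 * (1 + B2) ^ 2 := by
  refine eE_tl_yb_sq_le (P := G.PP (BU p N n) H0 d) (G.fil (BU p N n)) rfl
    (G.PP_isProb _ _ _) p.xs_expo hB (fun w l l' _ => ?_)
  refine (psi_lipschitz hK _ _).trans ?_
  rw [redB_WX, redB_WX]
  refine (wid_sub _ _ _ _ _ _ _).trans ?_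
  have e : bb + yb b ((w, l) : OU p N n × LS p n).2 -
      (bb + yb b ((w, l') : OU p N n × LS p n).2) = yb b l - yb b l' := by
    ring
  rw [e]

/-! ### measurability in the disorder -/

section gen

variable {Θ : Type*} [MeasurableSpace Θ] {Q : Ω → ℝ} {𝓕 : Filt Ω} {x : ℕ → ℝ}

/-- the functional under a tilted law -/
theorem aE_tl (hP : IsProb P) (hx : ∀ k, 0 < x k) (U Y : Ω → ℝ) :
    aE (tl P 𝓕 x U) 𝓕 x Y = aE P 𝓕 x (fun w => U w + Y w) - aE P 𝓕 x U := by
  have hQ := tl_isProb (𝓕 := 𝓕) hP hx U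
  unfold aE
  rw [eE_tl_zero (𝓕 := 𝓕) hP hx U (A_meas hQ hx Y 0), ← eE_sub]
  congr 1
  funext w
  rw [A_cocycle hP hx U Y 0 w]
  ring

theorem meas_aE (hP : IsProb P) (hx : ∀ k, 0 < x k) {Y : Θ → Ω → ℝ}
    (hY : ∀ w, Measurable fun θ => Y θ w) : Measurable fun θ => aE P 𝓕 x (Y θ) := by
  unfold aE
  exact G.meas_eE (fun _ => measurable_const) (G.meas_A hP hx hY 0)

theorem meas_aE_tl (hP : IsProb P) (hx : ∀ k, 0 < x k) {U Y : Θ → Ω → ℝ}
    (hU : ∀ w, Measurable fun θ => U θ w) (hY : ∀ w, Measurable fun θ => Y θ w) :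
    Measurable fun θ => aE (tl P 𝓕 x (U θ)) 𝓕 x (Y θ) := by
  have e : (fun θ => aE (tl P 𝓕 x (U θ)) 𝓕 x (Y θ)) = fun θ =>
      aE P 𝓕 x (fun w => U θ w + Y θ w) - aE P 𝓕 x (U θ) := by
    funext θ
    exact aE_tl hP hx (U θ) (Y θ)
  rw [e]
  exact (meas_aE hP hx fun w => (hU w).add (hY w)).sub (meas_aE hP hx hU)

theorem meas_eE_tl (hP : IsProb P) (hx : ∀ k, 0 < x k) {U O : Θ → Ω → ℝ}
    (hU : ∀ w, Measurable fun θ => U θ w) (hO : ∀ w, Measurable fun θ => O θ w) :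
    Measurable fun θ => eE (tl P 𝓕 x (U θ)) (O θ) :=
  G.meas_eE (G.meas_tl hP hx hU) hO

theorem meas_eE_tl_tl (hP : IsProb P) (hx : ∀ k, 0 < x k) {U Y O : Θ → Ω → ℝ}
    (hU : ∀ w, Measurable fun θ => U θ w) (hY : ∀ w, Measurable fun θ => Y θ w)
    (hO : ∀ w, Measurable fun θ => O θ w) :
    Measurable fun θ => eE (tl (tl P 𝓕 x (U θ)) 𝓕 x (Y θ)) (O θ) := by
  have e : (fun θ => eE (tl (tl P 𝓕 x (U θ)) 𝓕 x (Y θ)) (O θ)) = fun θ =>
      eE (tl P 𝓕 x (fun w => U θ w + Y θ w)) (O θ) := by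
    funext θ
    rw [tl_add hP hx (U θ) (Y θ)]
  rw [e]
  exact meas_eE_tl hP hx (fun w => (hU w).add (hY w)) hO

end gen

section step

variable {Θ : Type*} [MeasurableSpace Θ]

theorem meas_UU {H : Θ → SY.SS p n (univ : Finset (Fin N → Bool)) → ℝ}
    (hH : ∀ s, Measurable fun θ => H θ s) (d : DD p N) (w : OU p N n × LS p n) :
    Measurable fun θ => G.UU (BU p N n) (H θ) d w.1 := by
  unfold G.UU
  exact (hH _).add measurable_const

/-- **(Me)** law of the step -/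
theorem meas_stPh {H : Θ → SY.SS p n (univ : Finset (Fin N → Bool)) → ℝ}
    (hH : ∀ s, Measurable fun θ => H θ s) (d : DD p N) (w : OU p N n × LS p n) :
    Measurable fun θ => stP p N n (H θ) d w := by
  have e : (fun θ => stP p N n (H θ) d w) = fun θ =>
      tl (pP (G.prior (BU p N n)) (lsP p n)) (stF p N n) p.xs
        (fun w => G.UU (BU p N n) (H θ) d w.1) w := by
    funext θ
    rw [stP_eq]
  rw [e]
  exact G.meas_tl (pP_isProb (G.prior_isProb (BU p N n)) lsP_isProb) p.xs_expo.pos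
    (fun w => meas_UU hH d w) w

/-- **(Me)** -/
theorem meas_eE_stP {H : Θ → SY.SS p n (univ : Finset (Fin N → Bool)) → ℝ}
    (hH : ∀ s, Measurable fun θ => H θ s) (d : DD p N) {O : Θ → OU p N n × LS p n → ℝ}
    (hO : ∀ w, Measurable fun θ => O θ w) :
    Measurable fun θ => eE (stP p N n (H θ) d) (O θ) :=
  G.meas_eE (meas_stPh hH d) hO

/-- **(Me)** -/
theorem meas_aE_stP {H : Θ → SY.SS p n (univ : Finset (Fin N → Bool)) → ℝ}
    (hH : ∀ s, Measurable fun θ => H θ s) (d : DD p N) {Y : Θ → OU p N n × LS p n → ℝ}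
    (hY : ∀ w, Measurable fun θ => Y θ w) :
    Measurable fun θ => aE (stP p N n (H θ) d) (stF p N n) p.xs (Y θ) := by
  have h := meas_aE_tl (𝓕 := stF p N n) (x := p.xs)
    (pP_isProb (G.prior_isProb (BU p N n)) (lsP_isProb (p := p) (n := n))) p.xs_expo.pos
    (U := fun θ w => G.UU (BU p N n) (H θ) d w.1) (fun w => meas_UU hH d w) hY
  simp only [stP_eq] at h
  exact h

/-- **(Me)** -/
theorem meas_tl_stP {H : Θ → SY.SS p n (univ : Finset (Fin N → Bool)) → ℝ}
    (hH : ∀ s, Measurable fun θ => H θ s) (d : DD p N) {Y O : Θ → OU p N n × LS p n → ℝ}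
    (hY : ∀ w, Measurable fun θ => Y θ w) (hO : ∀ w, Measurable fun θ => O θ w) :
    Measurable fun θ => eE (tl (stP p N n (H θ) d) (stF p N n) p.xs (Y θ)) (O θ) := by
  have h := meas_eE_tl_tl (𝓕 := stF p N n) (x := p.xs)
    (pP_isProb (G.prior_isProb (BU p N n)) (lsP_isProb (p := p) (n := n))) p.xs_expo.pos
    (U := fun θ w => G.UU (BU p N n) (H θ) d w.1) (fun w => meas_UU hH d w) hY hO
  simp only [stP_eq] at h
  exact h

theorem meas_redB {Ω' : Type*} {U : Θ → Ω' × Bool → ℝ} (hU : ∀ u, Measurable fun θ => U θ u)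
    (w : Ω') : Measurable fun θ => redB (U θ) w := by
  unfold redB
  exact Real.measurable_log.comp (((Real.measurable_exp.comp (hU _)).add
    (Real.measurable_exp.comp (hU _))).div_const 2)

theorem meas_mB {Ω' : Type*} {U : Θ → Ω' × Bool → ℝ} (hU : ∀ u, Measurable fun θ => U θ u)
    (w : Ω') : Measurable fun θ => mB (U θ) w := by
  unfold mB
  have h1 := Real.measurable_exp.comp (hU (w, true))
  have h2 := Real.measurable_exp.comp (hU (w, false))
  exact (h1.sub h2).div (h1.add h2)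

theorem meas_xw {H0 : Θ → SY.SS p n (univ : Finset (Fin N → Bool)) → ℝ}
    {H1 : Θ → SY.SS p n (univ : Finset (Fin (N + 1) → Bool)) → ℝ}
    (h0 : ∀ s, Measurable fun θ => H0 θ s) (h1 : ∀ s, Measurable fun θ => H1 θ s)
    (u : (OU p N n × LS p n) × Bool) : Measurable fun θ => xw (H0 θ) (H1 θ) u := by
  unfold xw
  exact (h1 _).sub (h0 _)

theorem meas_Xr {H0 : Θ → SY.SS p n (univ : Finset (Fin N → Bool)) → ℝ}
    {H1 : Θ → SY.SS p n (univ : Finset (Fin (N + 1) → Bool)) → ℝ}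
    (h0 : ∀ s, Measurable fun θ => H0 θ s) (h1 : ∀ s, Measurable fun θ => H1 θ s)
    (w : OU p N n × LS p n) : Measurable fun θ => Xr (H0 θ) (H1 θ) w := by
  unfold Xr
  exact meas_redB (meas_xw h0 h1) w

/-- expectations under the step law `stQ` -/
theorem meas_eE_stQ {H0 : Θ → SY.SS p n (univ : Finset (Fin N → Bool)) → ℝ}
    {H1 : Θ → SY.SS p n (univ : Finset (Fin (N + 1) → Bool)) → ℝ}
    (h0 : ∀ s, Measurable fun θ => H0 θ s) (h1 : ∀ s, Measurable fun θ => H1 θ s) (d : DD p N)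
    {O : Θ → OU p N n × LS p n → ℝ} (hO : ∀ w, Measurable fun θ => O θ w) :
    Measurable fun θ => eE (stQ (H0 θ) (H1 θ) d) (O θ) := by
  unfold stQ
  exact meas_tl_stP h0 d (meas_Xr h0 h1) hO

end step

/-! ### measurability in the matrices -/

section mat

theorem meas_xU {M : ℕ} (σ : Fin M → Bool) (i : Fin M) :
    Measurable fun U : Mat (Fin M) => SY.xU (Matrix.of U) σ i := by
  unfold SY.xU Matrix.mulVec dotProduct
  refine Finset.measurable_sum _ fun j _ => ?_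
  have : Measurable fun U : Mat (Fin M) => U i j :=
    (measurable_pi_apply j).comp (measurable_pi_apply i)
  exact this.mul_const _

theorem meas_Hs {M : ℕ} (eig : Fin M → ℝ) (t : ℝ) (W : (Fin M → Bool) → ℝ)
    (a lam : Fin M → Fin p.nc → ℝ) (s : SY.SS p n (univ : Finset (Fin M → Bool))) :
    Measurable fun U : Mat (Fin M) => GX.Hs eig t W a lam U s := by
  unfold GX.Hs SY.HS SY.h0q Mag.qd
  refine ((((Finset.measurable_sum _ fun i _ => ?_).const_mul _).const_mul _).add_const _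
    |>.add_const _).add (Finset.measurable_sum _ fun g _ => Finset.measurable_sum _ fun i _ => ?_)
  · exact ((meas_xU s.1.1 i).pow_const 2).const_mul _
  · exact ((meas_xU s.1.1 i).const_mul _).const_mul _

/-- **(Me)** -/
theorem meas_HNq (s : SY.SS p n (univ : Finset (Fin N → Bool))) :
    Measurable fun q : Mat (Fin N) × (Fin (N + 1) → ℝ) => HN eig W0 a lam q.1 s :=
  (meas_Hs _ _ _ _ _ s).comp measurable_fst

/-- **(Me)** -/
theorem meas_HN1q (s : SY.SS p n (univ : Finset (Fin (N + 1) → Bool))) :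
    Measurable fun q : Mat (Fin N) × (Fin (N + 1) → ℝ) => HN1 eig W1 a lam (cplS q.1 q.2) s :=
  (meas_Hs _ _ _ _ _ s).comp measurable_cplS

/-- **(Me)** -/
theorem meas_xwq (u : (OU p N n × LS p n) × Bool) :
    Measurable fun q : Mat (Fin N) × (Fin (N + 1) → ℝ) =>
      xw (HN eig W0 a lam q.1) (HN1 eig W1 a lam (cplS q.1 q.2)) u :=
  meas_xw (meas_HNq eig W0 a lam) (meas_HN1q eig W1 a lam) u

/-- **(Me)** -/
theorem meas_Xrq (w : OU p N n × LS p n) :
    Measurable fun q : Mat (Fin N) × (Fin (N + 1) → ℝ) =>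
      Xr (HN eig W0 a lam q.1) (HN1 eig W1 a lam (cplS q.1 q.2)) w :=
  meas_Xr (meas_HNq eig W0 a lam) (meas_HN1q eig W1 a lam) w

theorem meas_zc {f : Fin N → Mat (Fin N) → ℝ} (hf : ∀ i, Measurable (f i)) :
    Measurable fun q : Mat (Fin N) × (Fin (N + 1) → ℝ) => zc q.2 (fun i => f i q.1) := by
  unfold zc
  refine (Finset.measurable_sum _ fun i _ => ?_).const_mul _
  exact ((measurable_pi_apply _).comp measurable_snd).mul ((hf i).comp measurable_fst)

/-- **(Me)** -/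
theorem meas_Z0 (σ : Fin N → Bool) :
    Measurable fun q : Mat (Fin N) × (Fin (N + 1) → ℝ) => Z0 q.1 q.2 σ :=
  meas_zc (f := fun i V => SY.xU (Matrix.of V) σ i) (meas_xU σ)

/-- **(Me)** -/
theorem meas_Z1 (σ : Fin N → Bool) :
    Measurable fun q : Mat (Fin N) × (Fin (N + 1) → ℝ) => Z1 eig q.1 q.2 σ :=
  meas_zc (f := fun i V => eig i.castSucc * SY.xU (Matrix.of V) σ i)
    fun i => (meas_xU σ i).const_mul _

/-- **(Me)** -/
theorem meas_WX (m1 : ℝ) (b : Fin p.nc → ℝ) (bb : ℝ) (v : (Fin N → Bool) → Bool → ℝ)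
    (u : (OU p N n × LS p n) × Bool) :
    Measurable fun q : Mat (Fin N) × (Fin (N + 1) → ℝ) => WX eig m1 b bb v q.1 q.2 u := by
  unfold WX wx
  have h0 := meas_Z0 (N := N) u.1.1.1.1.1
  have h1 := meas_Z1 eig u.1.1.1.1.1
  exact (((((h0.const_sub _).mul h1).add (((h0.const_sub _).pow_const 2).const_mul _)).add
    ((h0.pow_const 2).const_mul _)).add_const _).add_const _

/-- **(Me)** -/
theorem meas_redWX (m1 : ℝ) (b : Fin p.nc → ℝ) (bb : ℝ) (v : (Fin N → Bool) → Bool → ℝ)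
    (w : OU p N n × LS p n) :
    Measurable fun q : Mat (Fin N) × (Fin (N + 1) → ℝ) =>
      redB (WX eig m1 b bb v q.1 q.2) w :=
  meas_redB (fun u => meas_WX eig m1 b bb v u) w

/-- **(Me)** -/
theorem meas_mBWX (m1 : ℝ) (b : Fin p.nc → ℝ) (bb : ℝ) (v : (Fin N → Bool) → Bool → ℝ)
    (w : OU p N n × LS p n) :
    Measurable fun q : Mat (Fin N) × (Fin (N + 1) → ℝ) =>
      mB (WX eig m1 b bb v q.1 q.2) w :=
  meas_mB (fun u => meas_WX eig m1 b bb v u) w

/-- **(Me)** -/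
theorem meas_psi (K : ℝ) : Measurable (psi K) := by
  unfold psi qq pp
  fun_prop

theorem meas_dpsi (K : ℝ) : Measurable (dpsi K) := by
  unfold dpsi dqq pp
  fun_prop

/-- **(Me)** -/
theorem meas_FF (s : SY.SS p n (univ : Finset (Fin N → Bool))) :
    Measurable fun G : Fin (N + 1) → ℝ => FF lam G s := by
  unfold FF
  exact Finset.measurable_sum _ fun g _ => Finset.measurable_sum _ fun i _ =>
    ((measurable_un _).const_mul _).const_mul _

/-- **(Me)** -/
theorem meas_eF (w : OU p N n × LS p n) :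
    Measurable fun q : Mat (Fin N) × (Fin (N + 1) → ℝ) => eF lam q.1 q.2 w := by
  unfold eF
  have h0 := meas_Z0 (N := N) w.1.1.1.1
  have h1 : Measurable fun q : Mat (Fin N) × (Fin (N + 1) → ℝ) => FF lam q.2 w.1.1 :=
    (meas_FF lam w.1.1).comp measurable_snd
  exact (((continuous_abs.measurable.comp h0).const_add 1).const_mul 2).mul
    ((continuous_abs.measurable.comp h1).add_const _)

end mat

end

end Crest.Agent.R164.ED
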