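import Crest.Agent.R164.EDq6

/-!
# Row 164, L side, module E-DIFF part m (helper562): second moment of the small fields, uniformly in
the number of cells (`M2P`)
-/

set_option autoImplicit false

namespace Crest.Agent.R164.ED

open Finset Crest.Agent.R141 Crest.Agent.R164 Crest.Agent.R164.PF

noncomputable section

variable {p : Par} {M n : ℕ}

/-- exchange of the two indices of the coins -/
def swE : SY.FC p M n ≃ (Fin M → LC p n) where
  toFun c i g := c g i
  invFun c g i := c i g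
  left_inv _ := rfl
  right_inv _ := rfl

theorem eE_uQ_sw (f : (Fin M → LC p n) → ℝ) :
    eE (uQ (SY.FC p M n)) (fun c => f (fun i g => c g i)) = eE (uQ (Fin M → LC p n)) f := by
  rw [eE_uQ, eE_uQ, Fintype.card_congr (swE (p := p) (M := M) (n := n))]
  congr 1
  exact Equiv.sum_comp (swE (p := p) (M := M) (n := n)) f

theorem eE_exp_site {S : ℝ} (hS : 0 < S) {b : Fin p.nc → ℝ} (hb : ∑ g, b g ^ 2 ≤ S) (x : ℝ) :
    eE (uQ (LC p n)) (fun c => Real.exp (x * yq b c + 1 / (8 * S) * yq b c ^ 2)) ≤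
      Real.exp (2 * S * x ^ 2 + Real.log 2) := by
  have hs := Real.sqrt_pos.2 hS
  have hss : Real.sqrt S ^ 2 = S := Real.sq_sqrt hS.le
  have h1 : ∀ s : ℝ, eE (uQ (LC p n)) (fun c => Real.exp (s * (yq b c / Real.sqrt S))) ≤
      Real.exp (s ^ 2 / 2) := by
    intro s
    have h2 := eE_exp_yq (n := n) b (s / Real.sqrt S)
    have e : (fun c : LC p n => Real.exp (s * (yq b c / Real.sqrt S))) =
        fun c => Real.exp (s / Real.sqrt S * yq b c) := by
      funext c; congr 1; ring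
    rw [e]
    refine h2.trans (Real.exp_le_exp.2 ?_)
    rw [div_pow, hss]
    have h3 : s ^ 2 / S * ∑ g, b g ^ 2 ≤ s ^ 2 / S * S :=
      mul_le_mul_of_nonneg_left hb (by positivity)
    have h4 : s ^ 2 / S * S = s ^ 2 := by field_simp
    rw [h4] at h3
    linarith
  have h2 := subG_exp_sq (uQ_isProb (Λ := LC p n)) h1
  have h3 : ∀ c : LC p n, Real.exp (x * yq b c + 1 / (8 * S) * yq b c ^ 2) ≤
      Real.exp (2 * S * x ^ 2) * Real.exp (1 / 4 * (yq b c / Real.sqrt S) ^ 2) := by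
    intro c
    rw [← Real.exp_add]
    apply Real.exp_le_exp.2
    rw [div_pow, hss]
    have h4 : 0 ≤ (4 * S * x - yq b c) ^ 2 / (8 * S) := by positivity
    have e : (4 * S * x - yq b c) ^ 2 / (8 * S) =
        2 * S * x ^ 2 + 1 / 4 * (yq b c ^ 2 / S) - (x * yq b c + 1 / (8 * S) * yq b c ^ 2) := by
      field_simp; ring
    linarith
  refine (eE_mono uQ_isProb h3).trans ?_
  rw [eE_smul, Real.exp_add, Real.exp_log (by norm_num)]
  exact mul_le_mul_of_nonneg_left h2 (Real.exp_pos _).le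

/-- exponential moment of the small fields -/
theorem eE_small_exp {S : ℝ} (hS : 0 < S) {lam : Fin M → Fin p.nc → ℝ}
    (hl : ∀ i, ∑ g, lam i g ^ 2 ≤ S) (x : Fin M → ℝ) :
    eE (uQ (SY.FC p M n)) (fun c => Real.exp (∑ i, (x i * (∑ g, lam i g * SY.zf c g i) +
      1 / (8 * S) * (∑ g, lam i g * SY.zf c g i) ^ 2))) ≤
      Real.exp (∑ i, (2 * S * x i ^ 2 + Real.log 2)) := by
  have e : (fun c : SY.FC p M n => Real.exp (∑ i, (x i * (∑ g, lam i g * SY.zf c g i) +
      1 / (8 * S) * (∑ g, lam i g * SY.zf c g i) ^ 2))) = fun c =>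
      (fun c' : Fin M → LC p n => ∏ i, (fun (i : Fin M) (l : LC p n) =>
        Real.exp (x i * yq (lam i) l + 1 / (8 * S) * yq (lam i) l ^ 2)) i (c' i))
          (fun i g => c g i) := by
    funext c
    rw [Real.exp_sum]
    rfl
  rw [e, eE_uQ_sw (fun c' : Fin M → LC p n => ∏ i, (fun (i : Fin M) (l : LC p n) =>
        Real.exp (x i * yq (lam i) l + 1 / (8 * S) * yq (lam i) l ^ 2)) i (c' i)),
    eE_uQ_prod (κ := Fin M) (M := LC p n)
    (fun (i : Fin M) (l : LC p n) =>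
        Real.exp (x i * yq (lam i) l + 1 / (8 * S) * yq (lam i) l ^ 2)), Real.exp_sum]
  exact Finset.prod_le_prod (fun i _ => eE_nonneg uQ_isProb fun _ => (Real.exp_pos _).le)
    fun i _ => eE_exp_site hS (hl i) (x i)

theorem abs_WW_le0 (hnb : p.nb = 0) (B : G.Base p M) (d : DD p M) (ω : G.Om B) :
    |G.WW B d ω| ≤ cP p := by
  have h := abs_UU_sub_none B (fun _ => 0) d ω
  have e : G.WW B (fun _ => none) ω = 0 := by
    unfold G.WW
    have e1 : ∀ k : Stp p, G.cfac B none k ω = 0 := fun k => rfl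
    have : IsEmpty (Fin p.nb) := by rw [hnb]; infer_instance
    simp only [e1, Finset.sum_const_zero, Finset.univ_eq_empty, Finset.sum_empty, add_zero]
  unfold G.UU at h
  rw [e] at h
  simpa using h

variable {eig : Fin M → ℝ} {W : (Fin M → Bool) → ℝ} {a lam : Fin M → Fin p.nc → ℝ}

/-- the quadratic form of the small fields -/
def qφ (lam : Fin M → Fin p.nc → ℝ) (w : OU p M n) : ℝ :=
  ∑ i, (∑ g, lam i g * SY.zf w.1.2.2 g i) ^ 2

theorem log_prior_le2 (hnb : p.nb = 0) {b A S : ℝ} (hS : 0 < S) {h0 : (Fin M → Bool) → ℝ}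
    (hh : ∀ σ, |h0 σ| ≤ b * M) {x : (Fin M → Bool) → Fin M → ℝ}
    (hx : ∀ σ, ∑ i, x σ i ^ 2 ≤ (M : ℝ)) (ha : ∀ i, ∑ g, a i g ^ 2 ≤ A ^ 2)
    (hl : ∀ i, ∑ g, lam i g ^ 2 ≤ S) (d : DD p M) :
    eE (G.prior (BU p M n)) (fun w => Real.exp (G.UU (BU p M n) (SY.HS h0 a lam x) d w +
      1 / (8 * S) * qφ lam w)) ≤
      Real.exp ((b + A ^ 2 / 2 + 2 * S + Real.log 2) * M + cP p) := by
  have hP := G.prior_isProb (BU p M n)
  have h1 : ∀ w : OU p M n, Real.exp (G.UU (BU p M n) (SY.HS h0 a lam x) d w +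
      1 / (8 * S) * qφ lam w) ≤ Real.exp (b * M + cP p) *
      (Real.exp (∑ g, ∑ i, a i g * sv (w.1.1.1 i) * SY.zf w.1.2.1 g i) *
        Real.exp (∑ i, (x w.1.1.1 i * (∑ g, lam i g * SY.zf w.1.2.2 g i) +
          1 / (8 * S) * (∑ g, lam i g * SY.zf w.1.2.2 g i) ^ 2))) := by
    intro w
    rw [← Real.exp_add, ← Real.exp_add]
    apply Real.exp_le_exp.2
    have h4 := (abs_le.1 (hh w.1.1.1)).2
    have h5 := (abs_le.1 (abs_WW_le0 hnb (BU p M n) d w)).2
    have e1 : ∑ g, ∑ i, a i g * (SY.zf w.1.2.1 g i * sv (w.1.1.1 i)) =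
        ∑ g, ∑ i, a i g * sv (w.1.1.1 i) * SY.zf w.1.2.1 g i :=
      Finset.sum_congr rfl fun g _ => Finset.sum_congr rfl fun i _ => by ring
    have e2 : ∑ g, ∑ i, lam i g * (SY.zf w.1.2.2 g i * x w.1.1.1 i) =
        ∑ i, x w.1.1.1 i * (∑ g, lam i g * SY.zf w.1.2.2 g i) := by
      rw [Finset.sum_comm]
      refine Finset.sum_congr rfl fun i _ => ?_
      rw [Finset.mul_sum]
      exact Finset.sum_congr rfl fun g _ => by ring
    have e3 : G.UU (BU p M n) (SY.HS h0 a lam x) d w =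
        (h0 w.1.1.1 + (∑ g, ∑ i, a i g * (SY.zf w.1.2.1 g i * sv (w.1.1.1 i))) +
        ∑ g, ∑ i, lam i g * (SY.zf w.1.2.2 g i * x w.1.1.1 i)) + G.WW (BU p M n) d w := rfl
    rw [e3, e1, e2, Finset.sum_add_distrib, ← Finset.mul_sum]
    unfold qφ
    linarith
  refine (eE_mono hP h1).trans ?_
  rw [eE_smul]
  have h2 : eE (G.prior (BU p M n)) (fun w =>
      Real.exp (∑ g, ∑ i, a i g * sv (w.1.1.1 i) * SY.zf w.1.2.1 g i) *
        Real.exp (∑ i, (x w.1.1.1 i * (∑ g, lam i g * SY.zf w.1.2.2 g i) +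
          1 / (8 * S) * (∑ g, lam i g * SY.zf w.1.2.2 g i) ^ 2))) ≤
      Real.exp ((A ^ 2 / 2 + 2 * S + Real.log 2) * M) := by
    rw [eE_prior_three (p := p) (n := n) (univ_nonempty (α := Fin M → Bool))
      (fun s c => Real.exp (∑ g, ∑ i, a i g * sv (s.1 i) * SY.zf c g i))
      (fun s c => Real.exp (∑ i, (x s.1 i * (∑ g, lam i g * SY.zf c g i) +
          1 / (8 * S) * (∑ g, lam i g * SY.zf c g i) ^ 2)))]
    have : Nonempty {σ : Fin M → Bool // σ ∈ (univ : Finset (Fin M → Bool))} :=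
      ⟨⟨fun _ => true, mem_univ _⟩⟩
    apply eE_le_of_le uQ_isProb
    intro s
    have h3 := eE_FC_lin (p := p) (N := M) (n := n) (fun g i => a i g * sv (s.1 i))
    have h4 := eE_small_exp (p := p) (M := M) (n := n) hS hl (x s.1)
    refine (mul_le_mul h3 h4 (eE_nonneg uQ_isProb fun _ => (Real.exp_pos _).le)
      (Real.exp_pos _).le).trans ?_
    rw [← Real.exp_add]
    apply Real.exp_le_exp.2
    have e5 : ∑ g, ∑ i, (a i g * sv (s.1 i)) ^ 2 / 2 = ∑ i, (∑ g, a i g ^ 2) / 2 := by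
      rw [Finset.sum_comm]
      refine Finset.sum_congr rfl fun i _ => ?_
      rw [Finset.sum_div]
      refine Finset.sum_congr rfl fun g _ => ?_
      have : sv (s.1 i) ^ 2 = 1 := by
        have h := sv_abs (s.1 i)
        rw [← sq_abs, h]; norm_num
      rw [mul_pow, this, mul_one]
    have h6 : ∑ i, (∑ g, a i g ^ 2) / 2 ≤ ∑ _i : Fin M, A ^ 2 / 2 :=
      Finset.sum_le_sum fun i _ => by linarith [ha i]
    rw [Finset.sum_const, Finset.card_univ, Fintype.card_fin, nsmul_eq_mul] at h6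
    have e7 : ∑ i, (2 * S * x s.1 i ^ 2 + Real.log 2) =
        2 * S * (∑ i, x s.1 i ^ 2) + M * Real.log 2 := by
      rw [Finset.sum_add_distrib, ← Finset.mul_sum]
      simp
    have h8 := mul_le_mul_of_nonneg_left (hx s.1) (by positivity : 0 ≤ 2 * S)
    rw [e5, e7]
    linarith
  have h3 := mul_le_mul_of_nonneg_left h2 (Real.exp_pos (b * M + cP p)).le
  refine h3.trans (le_of_eq ?_)
  rw [← Real.exp_add]
  congr 1
  ring

/-- **(M2')** -/
theorem m2p : M2P := by
  intro p M n hnb hM hc Λ BV A S hS hS1 eig W a lam he hW ha hl U hU d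
  have hP := G.prior_isProb (BU p M n)
  have hx := p.xs_expo
  have hM0 : (0:ℝ) < M := by exact_mod_cast hM
  set h0 := SY.h0q eig (Matrix.of U) 1 W with hh0
  have hb : ∀ σ, |h0 σ| ≤ (Λ / 2 + BV) * M := abs_h0q_le he (by norm_num) hW hU
  set H : SY.SS p n (univ : Finset (Fin M → Bool)) → ℝ :=
    SY.HS h0 a lam (SY.xU (Matrix.of U)) with hH
  have h1 := aE_ge (𝓕 := G.fil (BU p M n)) hP hx.pos
    (fun w => G.UU (BU p M n) H d w + 1 / (8 * S) * qφ lam w) (G.UU (BU p M n) H d)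
  have e : (fun w : OU p M n => (G.UU (BU p M n) H d w + 1 / (8 * S) * qφ lam w) -
      G.UU (BU p M n) H d w) = fun w => 1 / (8 * S) * qφ lam w := by
    funext w; ring
  rw [e, eE_smul] at h1
  have h2 : aE (G.prior (BU p M n)) (G.fil (BU p M n)) p.xs
      (fun w => G.UU (BU p M n) H d w + 1 / (8 * S) * qφ lam w) ≤
      ((Λ / 2 + BV) + A ^ 2 / 2 + 2 * S + Real.log 2) * M + cP p := by
    refine (aE_le_log (𝓕 := G.fil (BU p M n)) hP hx _).trans ?_
    have h3 := log_prior_le2 (n := n) hnb hS hb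
      (fun σ => (sum_xU_sq' hU σ).le) ha hl d
    have h4 : 0 < eE (G.prior (BU p M n)) (fun w => Real.exp
        (G.UU (BU p M n) H d w + 1 / (8 * S) * qφ lam w)) :=
      Finset.sum_pos (fun c _ => mul_pos (hP.pos c) (Real.exp_pos _)) Finset.univ_nonempty
    have h5 := Real.log_le_log h4 h3
    rwa [Real.log_exp] at h5
  have h3 : -((Λ / 2 + BV) * M) ≤ aE (G.prior (BU p M n)) (G.fil (BU p M n)) p.xs
      (G.UU (BU p M n) H d) := by
    have h4 := LPert.LA_le_Phi (p := p) (n := n) (A := univ) univ_nonempty hnb h0 a lam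
      (SY.xU (Matrix.of U)) d
    have h5 := (abs_le.1 (abs_LA_le (A := univ) univ_nonempty hb)).1
    have h6 : G.Phi (BU p M n) H d = aE (G.prior (BU p M n)) (G.fil (BU p M n)) p.xs
      (G.UU (BU p M n) H d) := rfl
    rw [← h6]
    exact h5.trans h4
  have h4 : 1 / (8 * S) * eE (G.PP (BU p M n) H d) (qφ lam) ≤
      ((Λ + 2 * BV) + A ^ 2 / 2 + 2 * S + Real.log 2) * M + cP p := by
    have h5 : tl (G.prior (BU p M n)) (G.fil (BU p M n)) p.xs (G.UU (BU p M n) H d) =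
      G.PP (BU p M n) H d := rfl
    rw [h5] at h1
    linarith
  have hlog : Real.log 2 ≤ 1 := by
    have := Real.log_two_lt_d9
    linarith
  have h5 : ((Λ + 2 * BV) + A ^ 2 / 2 + 2 * S + Real.log 2) * M + cP p ≤
      (Λ + 2 * BV + A ^ 2 / 2 + 4) * M := by
    nlinarith
  have h6 := h4.trans h5
  rw [one_div, inv_mul_le_iff₀ (by positivity)] at h6
  refine h6.trans (le_of_eq ?_)
  unfold CF
  ring

end

end Crest.Agent.R164.ED
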