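import Crest.Agent.R164.EDq8
import Crest.Agent.R164.EDm

/-!
# Row 164, L side, module E-DIFF (helper562): `EDIFF0`
-/

set_option autoImplicit false

namespace Crest.Agent.R164.ED

/-- **E-DIFF in `ED` names** -/
theorem ediff0 : EDIFF0 := ediff0_of m2p

end Crest.Agent.R164.ED
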