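import Crest.Agent.R164.EDiffLG
import Crest.Agent.R164.EDq9

/-! Row 164: the unconditional form of `EDIFF` (helper562's `ED.ediff0` + the bridge `LG.ediff`). -/

namespace Crest.Agent.R164.LG

theorem ediff' (X : Glob) : EDIFF X := ediff X Crest.Agent.R164.ED.ediff0

end Crest.Agent.R164.LG
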