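import Crest.Agent.R164.EDc
import Crest.Agent.R164.LIbp

/-!
# Row 164, L side (helper494): translation of the E-DIFF data to the names of the L system `LD`

* (N1) Hamiltonians, free energies, laws;
* (N2) the increment of the potential;
* (N3) invariance under the exchange of the last site / row;
* (N4) observables at the last site and group averages.
-/

set_option autoImplicit false
set_option linter.unusedSectionVars false

namespace Crest.Agent.R164.ED

open Finset MeasureTheory Crest.Agent.R141 Crest.Agent.R164 Crest.Agent.R164.Haar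
open Crest.ProbabilityR.InvariantGlass (spinVec)

noncomputable section

variable {p : Par} {N n K J : ℕ}

/-! ### (N1) -/

/-- labels with a new eigenvalue label -/
abbrev sk (kap : Fin N → Fin (K + 1)) (k : Fin (K + 1)) : Fin (N + 1) → Fin (K + 1) :=
  Fin.snoc (α := fun _ => Fin (K + 1)) kap k

/-- labels with a new group label -/
abbrev sj (lab : Fin N → Fin J) (j : Fin J) : Fin (N + 1) → Fin J :=
  Fin.snoc (α := fun _ => Fin J) lab j

/-- eigenvalues -/
def eigS (val : Fin (K + 1) → ℝ) (kap : Fin N → Fin (K + 1)) (k : Fin (K + 1))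
    (i : Fin (N + 1)) : ℝ := val (sk kap k i)

/-- main strengths -/
def aS (θ : LD.Prm p K J) (lab : Fin N → Fin J) (j : Fin J) (i : Fin (N + 1)) : Fin p.nc → ℝ :=
  θ.am (sj lab j i)

/-- small strengths -/
def lmS (θ : LD.Prm p K J) (kap : Fin N → Fin (K + 1)) (k : Fin (K + 1)) (i : Fin (N + 1)) :
    Fin p.nc → ℝ := θ.lm (sk kap k i)

/-- potential of the `N`-system -/
abbrev W0S (c t : Fin J → ℝ) (Kp : ℝ) (θ : LD.Prm p K J) (lab : Fin N → Fin J) :
    (Fin N → Bool) → ℝ := LD.VL c t Kp θ.el lab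

/-- potential of the `(N+1)`-system -/
abbrev W1S (c t : Fin J → ℝ) (Kp : ℝ) (θ : LD.Prm p K J) (lab : Fin N → Fin J) (j : Fin J) :
    (Fin (N + 1) → Bool) → ℝ := LD.VL c t Kp θ.el (sj lab j)

theorem sk_castSucc (kap : Fin N → Fin (K + 1)) (k : Fin (K + 1)) (i : Fin N) :
    sk kap k i.castSucc = kap i := Fin.snoc_castSucc _ _ _

theorem sk_last (kap : Fin N → Fin (K + 1)) (k : Fin (K + 1)) :
    sk kap k (Fin.last N) = k := Fin.snoc_last _ _

theorem sj_castSucc (lab : Fin N → Fin J) (j : Fin J) (i : Fin N) :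
    sj lab j i.castSucc = lab i := Fin.snoc_castSucc _ _ _

theorem sj_last (lab : Fin N → Fin J) (j : Fin J) :
    sj lab j (Fin.last N) = j := Fin.snoc_last _ _

variable (val : Fin (K + 1) → ℝ) (c t : Fin J → ℝ) (Kp : ℝ) (θ : LD.Prm p K J)
  (kap : Fin N → Fin (K + 1)) (lab : Fin N → Fin J) (k : Fin (K + 1)) (j : Fin J)

theorem eigS_castSucc (i : Fin N) : eigS val kap k i.castSucc = val (kap i) := by
  unfold eigS; rw [sk_castSucc]

theorem eigS_last : eigS val kap k (Fin.last N) = val k := by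
  unfold eigS; rw [sk_last]

theorem aS_castSucc (i : Fin N) : aS θ lab j i.castSucc = θ.am (lab i) := by
  unfold aS; rw [sj_castSucc]

theorem aS_last : aS θ lab j (Fin.last N) = θ.am j := by
  unfold aS; rw [sj_last]

theorem lmS_castSucc (i : Fin N) : lmS θ kap k i.castSucc = θ.lm (kap i) := by
  unfold lmS; rw [sk_castSucc]

theorem lmS_last : lmS θ kap k (Fin.last N) = θ.lm k := by
  unfold lmS; rw [sk_last]

/-- the Hamiltonian of the `N`-system. -/
theorem HL_eq_HN (V : Mat (Fin N)) :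
    LD.HL n val c t Kp θ kap lab V =
      HN (eigS val kap k) (W0S c t Kp θ lab) (aS θ lab j) (lmS θ kap k) V := by
  have e1 : (fun i : Fin N => eigS val kap k i.castSucc) = fun i => val (kap i) :=
    funext fun i => eigS_castSucc val kap k i
  have e2 : (fun i : Fin N => aS θ lab j i.castSucc) = fun i => θ.am (lab i) :=
    funext fun i => aS_castSucc θ lab j i
  have e3 : (fun i : Fin N => lmS θ kap k i.castSucc) = fun i => θ.lm (kap i) :=
    funext fun i => lmS_castSucc θ kap k i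
  unfold HN
  rw [e1, e2, e3]
  rfl

/-- the Hamiltonian of the `(N+1)`-system. -/
theorem HL_snoc (U : Mat (Fin (N + 1))) :
    LD.HL n val c t Kp θ (sk kap k) (sj lab j) U =
      HN1 (eigS val kap k) (W1S c t Kp θ lab j) (aS θ lab j) (lmS θ kap k) U := rfl

theorem B_eq : LD.B p N n = BU p N n := rfl

theorem PhU_eq (V : Mat (Fin N)) :
    LD.PhU n val c t Kp θ kap lab V = Ed p N (fun d => G.Phi (BU p N n)
      (HN (eigS val kap k) (W0S c t Kp θ lab) (aS θ lab j) (lmS θ kap k) V) d) := by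
  rw [← HL_eq_HN]
  rfl

theorem PhU_snoc (U : Mat (Fin (N + 1))) :
    LD.PhU n val c t Kp θ (sk kap k) (sj lab j) U = Ed p (N + 1) (fun d =>
      G.Phi (BU p (N + 1) n)
        (HN1 (eigS val kap k) (W1S c t Kp θ lab j) (aS θ lab j) (lmS θ kap k) U) d) := rfl

theorem EPh_eq (mu : Measure (Mat (Fin N))) :
    LD.EPh mu n val c t Kp θ kap lab = ∫ V, Ed p N (fun d => G.Phi (BU p N n)
      (HN (eigS val kap k) (W0S c t Kp θ lab) (aS θ lab j) (lmS θ kap k) V) d) ∂mu := by
  unfold LD.EPh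
  simp only [PhU_eq val c t Kp θ kap lab k j]

theorem EPh_snoc (nu : Measure (Mat (Fin (N + 1)))) :
    LD.EPh nu n val c t Kp θ (sk kap k) (sj lab j) = ∫ U, Ed p (N + 1) (fun d =>
      G.Phi (BU p (N + 1) n)
        (HN1 (eigS val kap k) (W1S c t Kp θ lab j) (aS θ lab j) (lmS θ kap k) U) d) ∂nu := rfl

theorem PL_eq_PP (V : Mat (Fin N)) (d : DD p N) :
    LD.PL n val c t Kp θ kap lab V d = G.PP (BU p N n)
      (HN (eigS val kap k) (W0S c t Kp θ lab) (aS θ lab j) (lmS θ kap k) V) d := by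
  rw [← HL_eq_HN]
  rfl

theorem PL_snoc_eq_PP (U : Mat (Fin (N + 1))) (d : DD p (N + 1)) :
    LD.PL n val c t Kp θ (sk kap k) (sj lab j) U d = G.PP (BU p (N + 1) n)
      (HN1 (eigS val kap k) (W1S c t Kp θ lab j) (aS θ lab j) (lmS θ kap k) U) d := rfl

/-! ### (N2) -/

theorem sv_eq_ite (e : Bool) : sv e = if e then 1 else -1 := rfl

/-- the increment of the potential -/
theorem vT_eq (σ : Fin N → Bool) (e : Bool) :
    vT (W0S c t Kp θ lab) (W1S c t Kp θ lab j) σ e =
      (if t j = 0 then 0 else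
        c j * sv e - Kp * ((Mag.mag lab σ j - t j) ^ 2 +
          2 * (Mag.mag lab σ j - t j) * (sv e - Mag.mag lab σ j) +
          (sv e - Mag.mag lab σ j) ^ 2 / (Mag.rJ lab j + 1))) + θ.el j * sv e := by
  have h := Mag.PEN_snoc c t Kp lab σ j e
  have h2 : ∑ i : Fin (N + 1), θ.el (sj lab j i) *
      spinVec (Fin.snoc (α := fun _ => Bool) σ e : Fin (N + 1) → Bool) i =
      ∑ i : Fin N, θ.el (lab i) * spinVec σ i + θ.el j * sv e := by
    rw [Fin.sum_univ_castSucc]
    congr 1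
    · refine Finset.sum_congr rfl fun i _ => ?_
      rw [sj_castSucc]
      congr 1
      unfold spinVec
      rw [Fin.snoc_castSucc]
    · rw [sj_last, spinVec_snoc_last]
  unfold vT W0S W1S LD.VL
  rw [h2]
  rw [← sv_eq_ite] at h
  linarith

/-- constant part of the linearised increment -/
def cstL (t : Fin J → ℝ) (Kp mb : ℝ) (j : Fin J) : ℝ :=
  if t j = 0 then 0 else Kp * (mb ^ 2 - t j ^ 2)

/-- linear part of the linearised increment -/
def bbL (c t : Fin J → ℝ) (Kp : ℝ) (el : Fin J → ℝ) (mb : ℝ) (j : Fin J) : ℝ :=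
  (if t j = 0 then 0 else c j - 2 * Kp * (mb - t j)) + el j

theorem abs_sv_sub_mag (σ : Fin N → Bool) (e : Bool) :
    (sv e - Mag.mag lab σ j) ^ 2 ≤ 4 := by
  have h1 := abs_le.1 (Mag.abs_mag_le lab σ j)
  have h2 := abs_le.1 (sv_abs e).le
  nlinarith [h1.1, h1.2, h2.1, h2.2]

/-- the linearisation of the increment around the mean magnetisation -/
theorem vT_lin (hKp : 0 ≤ Kp) {mb : ℝ} (hmb : |mb| ≤ 1) (σ : Fin N → Bool) (e : Bool) :
    |vT (W0S c t Kp θ lab) (W1S c t Kp θ lab j) σ e -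
      (cstL t Kp mb j + bbL c t Kp θ.el mb j * sv e)| ≤
      4 * Kp * |Mag.mag lab σ j - mb| + 4 * Kp / (Mag.rJ lab j + 1) := by
  have hr := Mag.rJ_nonneg lab j
  have hr1 : 0 < Mag.rJ lab j + 1 := by linarith
  rw [vT_eq]
  unfold cstL bbL
  by_cases h0 : t j = 0
  · simp only [h0, if_true]
    have e1 : (0 : ℝ) + θ.el j * sv e - (0 + (0 + θ.el j) * sv e) = 0 := by ring
    rw [e1, abs_zero]
    positivity
  · simp only [if_neg h0]
    set m := Mag.mag lab σ j
    set s := sv e
    have hm := Mag.abs_mag_le lab σ j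
    have hs : |s| ≤ 1 := (sv_abs e).le
    have h4 := abs_sv_sub_mag lab j σ e
    have e1 : c j * s - Kp * ((m - t j) ^ 2 + 2 * (m - t j) * (s - m) +
        (s - m) ^ 2 / (Mag.rJ lab j + 1)) + θ.el j * s -
        (Kp * (mb ^ 2 - t j ^ 2) + (c j - 2 * Kp * (mb - t j) + θ.el j) * s) =
        Kp * ((m - mb) * (m + mb - 2 * s)) - Kp * ((s - m) ^ 2 / (Mag.rJ lab j + 1)) := by
      ring
    rw [e1]
    refine (abs_sub _ _).trans ?_
    have h5 : |m + mb - 2 * s| ≤ 4 := by
      rw [abs_le]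
      have a1 := abs_le.1 hm
      have a2 := abs_le.1 hmb
      have a3 := abs_le.1 hs
      constructor <;> linarith [a1.1, a1.2, a2.1, a2.2, a3.1, a3.2]
    have h6 : |Kp * ((m - mb) * (m + mb - 2 * s))| ≤ 4 * Kp * |m - mb| := by
      rw [abs_mul, abs_mul, abs_of_nonneg hKp]
      have := mul_le_mul_of_nonneg_left h5 (abs_nonneg (m - mb))
      nlinarith [abs_nonneg (m - mb)]
    have h7 : |Kp * ((s - m) ^ 2 / (Mag.rJ lab j + 1))| ≤ 4 * Kp / (Mag.rJ lab j + 1) := by
      rw [abs_of_nonneg (by positivity), mul_div_assoc', div_le_div_iff_of_pos_right hr1]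
      nlinarith
    linarith

/-- bound of the increment of the potential -/
theorem abs_vT_le (hKp : 0 ≤ Kp) (ht : ∀ j, |t j| ≤ 1) {R : ℝ} (hR : ∀ j, |θ.el j| ≤ R)
    (σ : Fin N → Bool) (e : Bool) :
    |vT (W0S c t Kp θ lab) (W1S c t Kp θ lab j) σ e| ≤ |c j| + 12 * Kp + R := by
  have hr := Mag.rJ_nonneg lab j
  have hr1 : 1 ≤ Mag.rJ lab j + 1 := by linarith
  have hs : |sv e| = 1 := sv_abs e
  have hR1 := hR j
  have hR2 : |θ.el j * sv e| ≤ R := by rw [abs_mul, hs, mul_one]; exact hR1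
  rw [vT_eq]
  refine (abs_add_le _ _).trans ?_
  suffices h : |if t j = 0 then (0 : ℝ) else
        c j * sv e - Kp * ((Mag.mag lab σ j - t j) ^ 2 +
          2 * (Mag.mag lab σ j - t j) * (sv e - Mag.mag lab σ j) +
          (sv e - Mag.mag lab σ j) ^ 2 / (Mag.rJ lab j + 1))| ≤ |c j| + 12 * Kp by linarith
  split_ifs with h0
  · rw [abs_zero]; positivity
  · refine (abs_sub _ _).trans ?_
    rw [abs_mul, hs, mul_one, abs_mul, abs_of_nonneg hKp]
    have h4 := abs_sv_sub_mag lab j σ e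
    have hm := abs_le.1 (Mag.abs_mag_le lab σ j)
    have htj := abs_le.1 (ht j)
    have hse := abs_le.1 hs.le
    set m := Mag.mag lab σ j
    set s := sv e
    have h5 : (s - m) ^ 2 / (Mag.rJ lab j + 1) ≤ 4 := by
      rw [div_le_iff₀ (by linarith)]
      nlinarith
    have h6 : 0 ≤ (s - m) ^ 2 / (Mag.rJ lab j + 1) := by positivity
    have h7 : (m - t j) ^ 2 + 2 * (m - t j) * (s - m) = (m - t j) * (2 * s - m - t j) := by ring
    have h8 : |(m - t j) * (2 * s - m - t j)| ≤ 2 * 4 := by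
      rw [abs_mul]
      refine mul_le_mul ?_ ?_ (abs_nonneg _) (by norm_num)
      · rw [abs_le]; constructor <;> linarith [hm.1, hm.2, htj.1, htj.2]
      · rw [abs_le]; constructor <;> linarith [hm.1, hm.2, htj.1, htj.2, hse.1, hse.2]
    have h9 := abs_le.1 h8
    have h10 : |(m - t j) ^ 2 + 2 * (m - t j) * (s - m) + (s - m) ^ 2 / (Mag.rJ lab j + 1)| ≤ 12 := by
      rw [h7, abs_le]
      constructor <;> linarith [h9.1, h9.2]
    have := mul_le_mul_of_nonneg_left h10 hKp
    linarith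

/-- bound of the potentials -/
theorem abs_W1S_le (hKp : 0 ≤ Kp) (ht : ∀ j, |t j| ≤ 1) {R : ℝ} (hR : ∀ j, |θ.el j| ≤ R)
    (σ : Fin (N + 1) → Bool) :
    |W1S c t Kp θ lab j σ| ≤ (∑ j, |c j| + 4 * Kp + R) * ((N : ℝ) + 1) := by
  have h := LS2.abs_VL_le c t Kp (lab := sj lab j) ht hKp hR σ
  push_cast at h
  exact h

theorem abs_W0S_le (hKp : 0 ≤ Kp) (ht : ∀ j, |t j| ≤ 1) {R : ℝ} (hR : ∀ j, |θ.el j| ≤ R)
    (σ : Fin N → Bool) :
    |W0S c t Kp θ lab σ| ≤ (∑ j, |c j| + 4 * Kp + R) * N :=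
  LS2.abs_VL_le c t Kp (lab := lab) ht hKp hR σ

/-! ### (N3) -/

/-- invariance of the potential under permutations of the sites that preserve the labels. -/
theorem VL_perm {M : ℕ} (el : Fin J → ℝ) (L : Fin M → Fin J) (π : Equiv.Perm (Fin M))
    (hπ : ∀ i, L (π i) = L i) (σ : Fin M → Bool) :
    LD.VL c t Kp el L (fun i => σ (π i)) = LD.VL c t Kp el L σ := by
  have hS : ∀ j, Mag.SJ L (fun i => σ (π i)) j = Mag.SJ L σ j := by
    intro j
    unfold Mag.SJ
    rw [Finset.sum_filter, Finset.sum_filter,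
      ← Equiv.sum_comp π (fun r => if L r = j then spinVec σ r else 0)]
    simp only [hπ]
    rfl
  unfold LD.VL
  congr 1
  · unfold Mag.PEN
    simp only [hS]
  · rw [← Equiv.sum_comp π (fun i => el (L i) * spinVec σ i)]
    simp only [hπ]
    rfl

theorem swap_label {M : ℕ} {α : Type*} (L : Fin M → α) {a b : Fin M} (h : L a = L b)
    (i : Fin M) : L (Equiv.swap a b i) = L i := by
  by_cases h1 : i = a
  · subst h1; rw [Equiv.swap_apply_left]; exact h.symm
  · by_cases h2 : i = b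
    · subst h2; rw [Equiv.swap_apply_right]; exact h
    · rw [Equiv.swap_apply_of_ne_of_ne h1 h2]

/-- exchange of the last site -/
theorem inv_site {i : Fin (N + 1)} (hi : sj lab j i = j) :
    GX.Inv 1 (Equiv.swap (Fin.last N) i) (eigS val kap k) (W1S c t Kp θ lab j) (aS θ lab j)
      (lmS θ kap k) where
  eig _ := rfl
  lam _ := rfl
  a i' := by
    unfold aS
    rw [swap_label (sj lab j) (by rw [sj_last, hi]) i']
  V σ := VL_perm c t Kp θ.el (sj lab j) _
    (fun i' => swap_label (sj lab j) (by rw [sj_last, hi]) i') σ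

/-- exchange of the last row -/
theorem inv_row {i : Fin (N + 1)} (hi : sk kap k i = k) :
    GX.Inv (Equiv.swap (Fin.last N) i) 1 (eigS val kap k) (W1S c t Kp θ lab j) (aS θ lab j)
      (lmS θ kap k) where
  eig i' := by
    unfold eigS
    rw [swap_label (sk kap k) (by rw [sk_last, hi]) i']
  lam i' := by
    unfold lmS
    rw [swap_label (sk kap k) (by rw [sk_last, hi]) i']
  a _ := rfl
  V _ := rfl

/-! ### (N4) -/

theorem mem_univ_perm {M : ℕ} (π : Equiv.Perm (Fin M)) :
    ∀ σ : Fin M → Bool, (fun i => σ (π i)) ∈ (Finset.univ : Finset (Fin M → Bool)) ↔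
      σ ∈ (Finset.univ : Finset (Fin M → Bool)) := fun _ => by simp

/-- the action of a pair of permutations on the configurations -/
abbrev pOu (ρ π : Equiv.Perm (Fin (N + 1))) : G.Om (LD.B p (N + 1) n) ≃ G.Om (LD.B p (N + 1) n) :=
  GX.pO (LD.univ_ne (N + 1)) ρ π (mem_univ_perm π)

variable {nu : Measure (Mat (Fin (N + 1)))} [IsProbabilityMeasure nu]

/-- exchange of the last site with a site of the same group -/
theorem EO_site (hnu : RHaar nu) {i : Fin (N + 1)} (hi : sj lab j i = j)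
    (O : Mat (Fin (N + 1)) → DD p (N + 1) → G.Om (LD.B p (N + 1) n) → ℝ) :
    LD.EO nu n val c t Kp θ (sk kap k) (sj lab j) (fun U d ω =>
      O (GX.pU 1 (Equiv.swap (Fin.last N) i) U) (GX.pD (Equiv.swap (Fin.last N) i) d)
        (pOu 1 (Equiv.swap (Fin.last N) i) ω)) =
      LD.EO nu n val c t Kp θ (sk kap k) (sj lab j) O :=
  GX.exchange (hA := LD.univ_ne (N + 1)) (n := n) (t := 1) hnu
    (inv_site (p := p) val c t Kp θ kap lab k j hi) (mem_univ_perm _) O

/-- exchange of the last row with a row of the same block -/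
theorem EO_row (hnu : RHaar nu) {i : Fin (N + 1)} (hi : sk kap k i = k)
    (O : Mat (Fin (N + 1)) → DD p (N + 1) → G.Om (LD.B p (N + 1) n) → ℝ) :
    LD.EO nu n val c t Kp θ (sk kap k) (sj lab j) (fun U d ω =>
      O (GX.pU (Equiv.swap (Fin.last N) i) 1 U) (GX.pD 1 d)
        (pOu (Equiv.swap (Fin.last N) i) 1 ω)) =
      LD.EO nu n val c t Kp θ (sk kap k) (sj lab j) O :=
  GX.exchange (hA := LD.univ_ne (N + 1)) (n := n) (t := 1) hnu
    (inv_row (p := p) val c t Kp θ kap lab k j hi) (mem_univ_perm _) O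

theorem rJ_sj_pos : 0 < Mag.rJ (sj lab j) j := by
  unfold Mag.rJ
  have : 0 < (Finset.univ.filter fun r => sj lab j r = j).card :=
    Finset.card_pos.mpr ⟨Fin.last N, by simp⟩
  exact_mod_cast this

theorem rJ_sj : Mag.rJ (sj lab j) j = Mag.rJ lab j + 1 := by
  unfold Mag.rJ
  rw [Finset.card_filter, Finset.card_filter, Fin.sum_univ_castSucc]
  simp only [sj_castSucc, sj_last, if_true]
  push_cast
  rfl

/-- **site averages**: a family of site observables that is equivariant under the exchanges of the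
sites has the same mean at the last site as its group average. -/
theorem EO_group (hnu : RHaar nu)
    (O : Fin (N + 1) → Mat (Fin (N + 1)) → DD p (N + 1) → G.Om (LD.B p (N + 1) n) → ℝ)
    (hO : ∀ i, LD.OAdm nu (O i))
    (heq : ∀ (π : Equiv.Perm (Fin (N + 1))) i U d ω, sj lab j (π i) = sj lab j i →
      (∀ i', sj lab j (π i') = sj lab j i') →
      O i (GX.pU 1 π U) (GX.pD π d) (pOu 1 π ω) = O (π i) U d ω) :
    LD.EO nu n val c t Kp θ (sk kap k) (sj lab j) (fun U d ω => (Mag.rJ (sj lab j) j)⁻¹ *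
      ∑ i, if sj lab j i = j then O i U d ω else 0) =
      LD.EO nu n val c t Kp θ (sk kap k) (sj lab j) (O (Fin.last N)) := by
  have h1 : ∀ i, sj lab j i = j →
      LD.EO nu n val c t Kp θ (sk kap k) (sj lab j) (O i) =
      LD.EO nu n val c t Kp θ (sk kap k) (sj lab j) (O (Fin.last N)) := by
    intro i hi
    rw [← EO_site val c t Kp θ kap lab k j hnu hi (O (Fin.last N))]
    congr 1
    funext U d ω
    have hsw : ∀ i', sj lab j (Equiv.swap (Fin.last N) i i') = sj lab j i' :=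
      fun i' => swap_label (sj lab j) (by rw [sj_last, hi]) i'
    rw [heq (Equiv.swap (Fin.last N) i) (Fin.last N) U d ω (hsw _) hsw, Equiv.swap_apply_left]
  have hA : ∀ i ∈ (Finset.univ.filter fun i => sj lab j i = j), LD.OAdm nu (O i) :=
    fun i _ => hO i
  have e : (fun (U : Mat (Fin (N + 1))) (d : DD p (N + 1)) (ω : G.Om (LD.B p (N + 1) n)) =>
      (Mag.rJ (sj lab j) j)⁻¹ * ∑ i, if sj lab j i = j then O i U d ω else 0) =
      fun U d ω => (Mag.rJ (sj lab j) j)⁻¹ *
        ∑ i ∈ (Finset.univ.filter fun i => sj lab j i = j), O i U d ω := by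
    funext U d ω
    rw [Finset.sum_filter]
  rw [e, LD.EO_smul val c t Kp θ (sk kap k) (sj lab j) (LD.OAdm.sum _ hA),
    LD.EO_sum val c t Kp θ (sk kap k) (sj lab j) _ hA,
    Finset.sum_congr rfl fun i hi => h1 i (Finset.mem_filter.1 hi).2, Finset.sum_const,
    nsmul_eq_mul]
  have hr := rJ_sj_pos lab j
  have hc : (((Finset.univ.filter fun i => sj lab j i = j).card : ℕ) : ℝ) =
      Mag.rJ (sj lab j) j := rfl
  rw [hc, inv_mul_cancel_left₀ hr.ne']

/-- **(N4)**: the field observable of the last site. -/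
theorem EO_TO_last (hnu : RHaar nu) (g : Fin p.nc) :
    LD.EO nu n val c t Kp θ (sk kap k) (sj lab j)
      (fun _ _ w => SY.zf w.1.2.1 g (Fin.last N) * sv (w.1.1.1 (Fin.last N))) =
      LD.EO nu n val c t Kp θ (sk kap k) (sj lab j)
        (fun _ _ w => LD.TO n (sj lab j) j g w) :=
  (EO_group val c t Kp θ kap lab k j hnu
    (fun i _ _ w => SY.zf w.1.2.1 g i * sv (w.1.1.1 i))
    (fun i => LD.OAdm.const fun _ w => SY.zf w.1.2.1 g i * sv (w.1.1.1 i))
    (fun π i U d ω _ _ => rfl)).symm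

/-- **(N4)**: the spin of the last site. -/
theorem EO_MO_last (hnu : RHaar nu) :
    LD.EO nu n val c t Kp θ (sk kap k) (sj lab j) (fun _ _ w => sv (w.1.1.1 (Fin.last N))) =
      LD.EO nu n val c t Kp θ (sk kap k) (sj lab j) (fun _ _ w => LD.MO n (sj lab j) j w) := by
  simp only [LD.MO_eq]
  exact (EO_group val c t Kp θ kap lab k j hnu
    (fun i _ _ w => sv (w.1.1.1 i))
    (fun i => LD.OAdm.const fun _ w => sv (w.1.1.1 i))
    (fun π i U d ω _ _ => rfl)).symm

/-- the overlap of the last site at level `l`. -/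
theorem EO_RJ_last (hnu : RHaar nu) (l : ℕ) :
    LD.EO nu n val c t Kp θ (sk kap k) (sj lab j) (fun U d w =>
      (cE (LD.PL n val c t Kp θ (sk kap k) (sj lab j) U d) ((G.fil (LD.B p (N + 1) n)).F l)
        (fun w => sv (w.1.1.1 (Fin.last N))) w) ^ 2) =
      LD.EO nu n val c t Kp θ (sk kap k) (sj lab j) (fun U d w =>
        LD.RJ n (LD.PL n val c t Kp θ (sk kap k) (sj lab j) U d) (sj lab j) j l w) := by
  refine (EO_group val c t Kp θ kap lab k j hnu
    (fun i U d w => (cE (LD.PL n val c t Kp θ (sk kap k) (sj lab j) U d)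
      ((G.fil (LD.B p (N + 1) n)).F l) (fun w => sv (w.1.1.1 i)) w) ^ 2)
    (fun i => ⟨fun d ω => ?_, fun d => ⟨1, ?_⟩⟩) (fun π i U d ω _ hπ => ?_)).symm
  · exact (G.meas_cE (P := fun U => LD.PL n val c t Kp θ (sk kap k) (sj lab j) U d)
        (f := fun _ w => sv (w.1.1.1 i))
        (fun ω => LD.meas_PL val c t Kp θ (sk kap k) (sj lab j) d ω)
        (fun _ => measurable_const) _ ω).pow_const 2
  · refine Filter.Eventually.of_forall fun U ω => ?_
    rw [abs_of_nonneg (sq_nonneg _)]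
    exact LD.cE_sv_sq_le (LD.PL_isProb val c t Kp θ (sk kap k) (sj lab j) U d) i _ ω
  · have hI : GX.Inv (p := p) 1 π (eigS val kap k) (W1S c t Kp θ lab j) (aS θ lab j)
        (lmS θ kap k) := by
      refine ⟨fun _ => rfl, fun _ => rfl, fun i' => ?_, fun σ => ?_⟩
      · unfold aS; rw [hπ]
      · exact VL_perm c t Kp θ.el (sj lab j) π hπ σ
    have h := GX.cE_PP_pO (hA := LD.univ_ne (N + 1)) (n := n) (t := 1) (hπ := mem_univ_perm π)
      hI U d l (fun w => sv (w.1.1.1 i)) ω
    have h2 : cE (LD.PL n val c t Kp θ (sk kap k) (sj lab j) (GX.pU 1 π U) (GX.pD π d))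
        ((G.fil (LD.B p (N + 1) n)).F l) (fun w => sv (w.1.1.1 i)) (pOu 1 π ω) =
        cE (LD.PL n val c t Kp θ (sk kap k) (sj lab j) U d)
        ((G.fil (LD.B p (N + 1) n)).F l) (fun w => sv (w.1.1.1 (π i))) ω := h
    rw [h2]

end

end Crest.Agent.R164.ED
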