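import Crest.Agent.R164.LGDef
import Crest.Agent.R164.LIbp

/-!
Row 164, L side (helper494): (GL4) = `LG.IBPM`, in the exact form of `LGDef`.
-/

set_option autoImplicit false
set_option linter.unusedSectionVars false

namespace Crest.Agent.R164.LG

open Finset MeasureTheory Filter Topology Crest.Agent.R141 Crest.Agent.R164 Crest.Agent.R164.Haar
open Crest.Agent.R164.LD (Prm HL EPh EO PL TO RJ MO)

noncomputable section

variable (X : Glob)

/-- counts of the labels in a good configuration. -/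
theorem cnt_ge {d0 : ℝ} (hd : Small X d0) {N : ℕ} {L : Fin N → X.LB}
    (hL : LabAvg.Good X.al d0 L) (x : X.LB) : d0 * N ≤ (LabAvg.cnt L x : ℝ) := by
  have h1 := (abs_le.1 (hL x)).1
  have h2 := hd.2 x
  have hN : (0 : ℝ) ≤ N := Nat.cast_nonneg N
  have h3 := mul_le_mul_of_nonneg_left h2 hN
  linarith

/-- size of the groups in a good configuration -/
theorem rJ_ge {d0 : ℝ} (hd : Small X d0) {N : ℕ} {L : Fin N → X.LB}
    (hL : LabAvg.Good X.al d0 L) (j : Fin X.J) : d0 * N ≤ Mag.rJ (Glob.lab L) j := by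
  refine (cnt_ge X hd hL (0, j)).trans ?_
  unfold Mag.rJ LabAvg.cnt
  have : (Finset.univ.filter fun i => L i = ((0 : Fin (X.K + 1)), j)).card ≤
      (Finset.univ.filter fun i => Glob.lab L i = j).card := by
    refine Finset.card_le_card fun i hi => ?_
    rw [Finset.mem_filter] at hi ⊢
    refine ⟨hi.1, ?_⟩
    unfold Glob.lab
    rw [hi.2]
  exact_mod_cast this

/-- size of the blocks in a good configuration -/
theorem rK_ge {d0 : ℝ} (hd : Small X d0) {N : ℕ} {L : Fin N → X.LB}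
    (hL : LabAvg.Good X.al d0 L) (k : Fin (X.K + 1)) (j : Fin X.J) :
    d0 * N ≤ ((Finset.univ.filter fun i => Glob.kap L i = k).card : ℝ) := by
  refine (cnt_ge X hd hL (k, j)).trans ?_
  unfold LabAvg.cnt
  have : (Finset.univ.filter fun i => L i = (k, j)).card ≤
      (Finset.univ.filter fun i => Glob.kap L i = k).card := by
    refine Finset.card_le_card fun i hi => ?_
    rw [Finset.mem_filter] at hi ⊢
    refine ⟨hi.1, ?_⟩
    unfold Glob.kap
    rw [hi.2]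
  exact_mod_cast this

theorem abs_am_le {p : Par} {E A S : ℝ} {θ : Prm p X.K X.J} (h : Bd X E A S θ) (j : Fin X.J)
    (g : Fin p.nc) : |θ.am j g| ≤ |A| := by
  have h1 := h.am j
  have h2 : θ.am j g ^ 2 ≤ ∑ g, θ.am j g ^ 2 :=
    Finset.single_le_sum (f := fun g => θ.am j g ^ 2) (fun _ _ => sq_nonneg _) (Finset.mem_univ g)
  exact sq_le_sq.1 (h2.trans h1)

theorem sum_Ico_eq (p : Par) (g : Fin p.nc) (f : ℕ → ℝ) :
    ∑ g' ∈ Ico (g : ℕ) p.nc, f g' = ∑ g' : Fin p.nc, if g ≤ g' then f g' else 0 := by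
  have h1 : (∑ g' : Fin p.nc, if g ≤ g' then f g' else 0) =
      ∑ i ∈ Finset.range p.nc, if (g : ℕ) ≤ i then f i else 0 := by
    rw [Finset.sum_range]
    rfl
  rw [h1, ← Finset.sum_filter]
  refine Finset.sum_congr ?_ fun _ _ => rfl
  ext i
  simp only [Finset.mem_Ico, Finset.mem_filter, Finset.mem_range]
  tauto

/-- **(GL4)** -/
theorem ibpm (E A S d0 : ℝ) (hd : Small X d0) (p : Par) {ε : ℝ} (hε : 0 < ε) :
    ∃ n0 : ℕ, ∀ N : ℕ, 0 < N → ∀ n : ℕ, n0 ≤ n → ∀ Kp : ℝ,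
    ∀ θ : Prm p X.K X.J, Bd X E A S θ → ∀ L : Fin N → X.LB, LabAvg.Good X.al d0 L →
    ∀ (j : Fin X.J) (g : Fin p.nc),
    |Eo X n Kp θ L (fun _ _ ω => TO n (Glob.lab L) j g ω) -
      θ.am j g * (1 - ((p.nc : ℝ) + 1)⁻¹ * ∑ g' ∈ Ico (g : ℕ) p.nc,
        Eo X n Kp θ L (fun U d ω => RJ n (Pl X n Kp θ L U d) (Glob.lab L) j (p.mt g') ω))| ≤
      ε := by
  refine ⟨max 1 (Nat.ceil (max ((8 * |A|) ^ 2) ((52 * A ^ 2 / ε) ^ 2))), ?_⟩
  intro N hN' n hn Kp θ hθ L hL j g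
  have hNr : (0 : ℝ) < N := by exact_mod_cast hN'
  have hn1 : 0 < n := lt_of_lt_of_le one_pos ((le_max_left _ _).trans hn)
  have hn2 : max ((8 * |A|) ^ 2) ((52 * A ^ 2 / ε) ^ 2) ≤ (n : ℝ) :=
    (Nat.le_ceil _).trans (by exact_mod_cast (le_max_right _ _).trans hn)
  have h8 : 8 * |A| ≤ Real.sqrt n := Real.le_sqrt_of_sq_le ((le_max_left _ _).trans hn2)
  have h52 : 52 * A ^ 2 / ε ≤ Real.sqrt n := Real.le_sqrt_of_sq_le ((le_max_right _ _).trans hn2)
  have hr : 0 < Mag.rJ (Glob.lab L) j :=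
    lt_of_lt_of_le (mul_pos hd.1 hNr) (rJ_ge X hd hL j)
  have ha := abs_am_le X hθ j g
  have := X.hnu N
  have h := LD.EO_TO (mu := X.nu N) (n := n) X.val X.c X.t Kp θ (Glob.kap L) (Glob.lab L) hN' hn1
    j g hr (by linarith)
  refine h.trans ?_
  have hsn : 0 < Real.sqrt n := Real.sqrt_pos.mpr (by exact_mod_cast hn1)
  rw [div_le_iff₀ hsn]
  rw [div_le_iff₀ hε] at h52
  have h3 : θ.am j g ^ 2 ≤ A ^ 2 := sq_le_sq.2 ha
  nlinarith

/-! ### Concentration and comparison of the group observables from the structure error -/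

section conc

variable {p : Par} {N : ℕ}

/-- means and concentration errors of a direction in the names `Eo`. -/
theorem mV_eq (n : ℕ) (Kp : ℝ) (θ : Prm p X.K X.J) (L : Fin N → X.LB)
    {V : Mat (Fin N) → (LD.B p N n).S → ℝ} {r : ℝ}
    {O : Mat (Fin N) → DD p N → G.Om (LD.B p N n) → ℝ} (hO : LD.OAdm (X.nu N) O)
    (hV : ∀ U d ω, V U ω.1 = r * O U d ω) :
    LS2.mV (B := LD.B p N n) (X.nu N) (Hm X n Kp θ L) V = r * Eo X n Kp θ L O := by
  have := X.hnu N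
  unfold Eo
  rw [LD.EO_eq_dv X.val X.c X.t Kp θ (Glob.kap L) (Glob.lab L) hO, ← LS2.dv_smul]
  unfold LS2.mV
  congr 1
  funext d U
  rw [← eE_smul]
  simp only [hV U d]
  rfl

theorem mN_eq (n : ℕ) (Kp : ℝ) (θ : Prm p X.K X.J) (L : Fin N → X.LB)
    {V : Mat (Fin N) → (LD.B p N n).S → ℝ} {r : ℝ}
    {O : Mat (Fin N) → DD p N → G.Om (LD.B p N n) → ℝ} (hO : LD.OAdm (X.nu N) O)
    (hV : ∀ U d ω, V U ω.1 = r * O U d ω) :
    LS2.mN (LD.B p N n) (X.nu N) (Hm X n Kp θ L) V = (r / N) * Eo X n Kp θ L O := by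
  unfold LS2.mN
  rw [mV_eq X n Kp θ L hO hV]
  ring

theorem cerr_eq (n : ℕ) (Kp : ℝ) (θ : Prm p X.K X.J) (L : Fin N → X.LB)
    {V : Mat (Fin N) → (LD.B p N n).S → ℝ} {r : ℝ} (hr : 0 ≤ r)
    {O : Mat (Fin N) → DD p N → G.Om (LD.B p N n) → ℝ} (hO : LD.OAdm (X.nu N) O)
    (hV : ∀ U d ω, V U ω.1 = r * O U d ω) :
    LS2.cerr (LD.B p N n) (X.nu N) (Hm X n Kp θ L) V =
      (r / N) * Eo X n Kp θ L (fun U d ω => |O U d ω - Eo X n Kp θ L O|) := by
  have := X.hnu N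
  have hc : LD.OAdm (X.nu N) (fun (_ : Mat (Fin N)) (_ : DD p N) (_ : G.Om (LD.B p N n)) =>
    Eo X n Kp θ L O) := LD.OAdm.const fun _ _ => _
  unfold LS2.cerr
  rw [mV_eq X n Kp θ L hO hV]
  set m := Eo X n Kp θ L O with hm
  have e1 : Eo X n Kp θ L (fun U d ω => |O U d ω - m|) =
      LS2.dv (X.nu N) (fun d U => eE (PL n X.val X.c X.t Kp θ (Glob.kap L) (Glob.lab L) U d)
        (fun ω => |O U d ω - m|)) :=
    LD.EO_eq_dv X.val X.c X.t Kp θ (Glob.kap L) (Glob.lab L) (hO.sub hc).abs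
  rw [e1, div_mul_eq_mul_div, div_eq_inv_mul]
  congr 1
  rw [← LS2.dv_smul r]
  congr 1
  funext d U
  rw [← eE_smul]
  show eE (G.PP (LD.B p N n) (Hm X n Kp θ L U) d) _ =
    eE (G.PP (LD.B p N n) (Hm X n Kp θ L U) d) _
  congr 1
  funext ω
  rw [hV U d, ← mul_sub, abs_mul, abs_of_nonneg hr]

theorem sum_spin_eq (n : ℕ) (L : Fin N → X.LB) (j : Fin X.J) (hr : 0 < Mag.rJ (Glob.lab L) j)
    (ω : G.Om (LD.B p N n)) :
    (∑ i, if Glob.lab L i = j then Crest.ProbabilityR.InvariantGlass.spinVec ω.1.1.1 i else 0) =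
      Mag.rJ (Glob.lab L) j * MO n (Glob.lab L) j ω := by
  rw [LD.MO_eq, mul_inv_cancel_left₀ hr.ne']
  rfl

theorem rJ_snoc (L : Fin N → X.LB) (l : X.LB) (j : Fin X.J) :
    Mag.rJ (Glob.lab (Fin.snoc L l : Fin (N + 1) → X.LB)) j =
      Mag.rJ (Glob.lab L) j + if l.2 = j then 1 else 0 := by
  unfold Mag.rJ Glob.lab
  rw [Finset.card_filter, Finset.card_filter, Fin.sum_univ_castSucc]
  simp only [Fin.snoc_castSucc, Fin.snoc_last]
  push_cast
  split_ifs <;> simp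

theorem rJ_le (L : Fin N → X.LB) (j : Fin X.J) : Mag.rJ (Glob.lab L) j ≤ N := by
  unfold Mag.rJ
  have := Finset.card_filter_le (Finset.univ : Finset (Fin N)) (fun r => Glob.lab L r = j)
  rw [Finset.card_univ, Fintype.card_fin] at this
  exact_mod_cast this

theorem abs_Eo_MO_le {M' : ℕ} (hM : 0 < M') (n : ℕ) (Kp : ℝ) (θ : Prm p X.K X.J)
    (L : Fin M' → X.LB) (j : Fin X.J) :
    |Eo X n Kp θ L (fun _ _ ω => MO n (Glob.lab L) j ω)| ≤ 1 := by
  have := X.hnu M'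
  refine LD.abs_EO_le X.val X.c X.t Kp θ (Glob.kap L) (Glob.lab L) hM
    (LD.adm_MO (Glob.lab L) j) fun d => Filter.Eventually.of_forall fun U => ?_
  exact LS2.abs_eE_le (LD.PL_isProb X.val X.c X.t Kp θ (Glob.kap L) (Glob.lab L) U d)
    fun ω => Mag.abs_mag_le (Glob.lab L) ω.1.1.1 j

/-- a bound for the main field means of the `(N+1)`-system. -/
theorem abs_T1_le (E A S : ℝ) (p : Par) :
    ∃ n0 : ℕ, ∀ N : ℕ, ∀ n : ℕ, n0 ≤ n → ∀ Kp : ℝ,
    ∀ θ : Prm p X.K X.J, Bd X E A S θ → ∀ L : Fin N → X.LB,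
    ∀ (k : Fin (X.K + 1)) (j : Fin X.J) (g : Fin p.nc),
    |T1 X n Kp θ L k j g| ≤ |A| * 2 + 1 := by
  refine ⟨max 1 (Nat.ceil (max ((8 * |A|) ^ 2) ((52 * A ^ 2) ^ 2))), ?_⟩
  intro N n hn Kp θ hθ L k j g
  set L' : Fin (N + 1) → X.LB := Fin.snoc L (k, j) with hL'
  have hn1 : 0 < n := lt_of_lt_of_le one_pos ((le_max_left _ _).trans hn)
  have hn2 : max ((8 * |A|) ^ 2) ((52 * A ^ 2) ^ 2) ≤ (n : ℝ) :=
    (Nat.le_ceil _).trans (by exact_mod_cast (le_max_right _ _).trans hn)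
  have h8 : 8 * |A| ≤ Real.sqrt n := Real.le_sqrt_of_sq_le ((le_max_left _ _).trans hn2)
  have h52 : 52 * A ^ 2 ≤ Real.sqrt n := Real.le_sqrt_of_sq_le ((le_max_right _ _).trans hn2)
  have hr : 0 < Mag.rJ (Glob.lab L') j := by
    rw [hL', rJ_snoc, if_pos rfl]
    have := Mag.rJ_nonneg (Glob.lab L) j
    linarith
  have ha := abs_am_le X hθ j g
  have := X.hnu (N + 1)
  have h := LD.EO_TO (mu := X.nu (N + 1)) (n := n) X.val X.c X.t Kp θ (Glob.kap L')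
    (Glob.lab L') (Nat.succ_pos N) hn1 j g hr (by linarith)
  have hsn : 0 < Real.sqrt n := Real.sqrt_pos.mpr (by exact_mod_cast hn1)
  have h1 : 52 * (θ.am j g) ^ 2 / Real.sqrt n ≤ 1 := by
    rw [div_le_one hsn]
    have h3 : θ.am j g ^ 2 ≤ A ^ 2 := sq_le_sq.2 ha
    linarith
  set Sg : ℝ := ∑ g' ∈ Ico (g : ℕ) p.nc,
        EO (X.nu (N + 1)) n X.val X.c X.t Kp θ (Glob.kap L') (Glob.lab L')
          (fun U d ω => RJ n (PL n X.val X.c X.t Kp θ (Glob.kap L') (Glob.lab L') U d)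
            (Glob.lab L') j (p.mt g') ω) with hSg
  have hS0 : |((p.nc : ℝ) + 1)⁻¹ * Sg| ≤ 1 := by
    have h2 : |Sg| ≤ p.nc := by
      rw [hSg]
      refine (Finset.abs_sum_le_sum_abs _ _).trans ?_
      calc _ ≤ ∑ _g' ∈ Ico (g : ℕ) p.nc, (1 : ℝ) := by
            refine Finset.sum_le_sum fun g' _ => ?_
            refine LD.abs_EO_le X.val X.c X.t Kp θ (Glob.kap L') (Glob.lab L') (Nat.succ_pos N)
              (LD.adm_RJ X.val X.c X.t Kp θ (Glob.kap L') (Glob.lab L') j (p.mt g'))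
              fun d => Filter.Eventually.of_forall fun U => ?_
            refine LS2.abs_eE_le (LD.PL_isProb X.val X.c X.t Kp θ (Glob.kap L') (Glob.lab L')
              U d) fun ω => ?_
            rw [abs_of_nonneg (LD.RJ_nonneg n _ _ j _ ω)]
            exact LD.RJ_le_one (LD.PL_isProb X.val X.c X.t Kp θ (Glob.kap L') (Glob.lab L') U d)
              _ j _ ω
        _ ≤ p.nc := by
            rw [Finset.sum_const, nsmul_eq_mul, mul_one, Nat.card_Ico]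
            exact_mod_cast Nat.sub_le _ _
    rw [abs_mul, abs_of_pos (by positivity : (0 : ℝ) < ((p.nc : ℝ) + 1)⁻¹),
      inv_mul_le_iff₀ (by positivity)]
    linarith
  have h4 : |θ.am j g * (1 - ((p.nc : ℝ) + 1)⁻¹ * Sg)| ≤ |A| * 2 := by
    rw [abs_mul]
    refine mul_le_mul ha ?_ (abs_nonneg _) (abs_nonneg _)
    refine (abs_sub _ _).trans ?_
    rw [abs_one]; linarith
  have h5 : T1 X n Kp θ L k j g = EO (X.nu (N + 1)) n X.val X.c X.t Kp θ (Glob.kap L')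
    (Glob.lab L') (fun _ _ ω => TO n (Glob.lab L') j g ω) := rfl
  rw [h5]
  have h6 := abs_sub_abs_le_abs_sub (EO (X.nu (N + 1)) n X.val X.c X.t Kp θ (Glob.kap L')
    (Glob.lab L') (fun _ _ ω => TO n (Glob.lab L') j g ω))
    (θ.am j g * (1 - ((p.nc : ℝ) + 1)⁻¹ * Sg))
  linarith

end conc

end

end Crest.Agent.R164.LG
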