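import Crest.Agent.R164.EDp
import Crest.Agent.R164.EDn
import Crest.Agent.R164.CavBr
import Crest.Agent.R164.LIbpm

/-!
Row 164, L side (helper466): (GL7) `LG.EDIFF` from the E-DIFF theorem `ED.EDIFF0` in `ED` names.
-/

set_option autoImplicit false
set_option linter.unusedSectionVars false

namespace Crest.Agent.R164.EDL

open Crest.Agent.R164.LG
open Finset MeasureTheory Filter Topology Crest.Agent.R141 Crest.Agent.R164 Crest.Agent.R164.Haar
open Crest.Agent.R164.LD (Prm HL EPh EO PL TO RJ MO)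
open Crest.Agent.R164.ED (sk sj eigS aS lmS W0S W1S cstL bbL HN HN1 vT BU)

noncomputable section

variable (X : Glob) {p : Par} {N : ℕ}

theorem kap_snoc (L : Fin N → X.LB) (k : Fin (X.K + 1)) (j : Fin X.J) :
    Glob.kap (Fin.snoc L (k, j) : Fin (N + 1) → X.LB) = sk (Glob.kap L) k := by
  funext i
  unfold Glob.kap sk
  refine Fin.lastCases ?_ (fun i => ?_) i
  · rw [Fin.snoc_last, Fin.snoc_last]
  · rw [Fin.snoc_castSucc, Fin.snoc_castSucc]

theorem lab_snoc (L : Fin N → X.LB) (k : Fin (X.K + 1)) (j : Fin X.J) :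
    Glob.lab (Fin.snoc L (k, j) : Fin (N + 1) → X.LB) = sj (Glob.lab L) j := by
  funext i
  unfold Glob.lab sj
  refine Fin.lastCases ?_ (fun i => ?_) i
  · rw [Fin.snoc_last, Fin.snoc_last]
  · rw [Fin.snoc_castSucc, Fin.snoc_castSucc]

theorem al_pos (x : X.LB) : 0 < X.al x := by
  have h : (0:ℝ) < ((X.γ x.2 : ℚ) : ℝ) := by exact_mod_cast X.hγ x.2
  exact mul_pos (X.hw _) h

theorem w_le_one (k : Fin (X.K + 1)) : X.w k ≤ 1 := by
  rw [← X.hs]
  exact Finset.single_le_sum (f := X.w) (fun i _ => (X.hw i).le) (Finset.mem_univ k)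

theorem al_le_one (x : X.LB) : X.al x ≤ 1 := by
  unfold Glob.al LabTr.pr
  have h1 := w_le_one X x.1
  have h2 : ((X.γ x.2 : ℚ) : ℝ) ≤ 1 := by
    have h3 : (∑ j, ((X.γ j : ℚ) : ℝ)) = 1 := by exact_mod_cast X.hγs
    rw [← h3]
    exact Finset.single_le_sum (f := fun j => ((X.γ j : ℚ) : ℝ))
      (fun i _ => by exact_mod_cast (X.hγ i).le) (Finset.mem_univ x.2)
  have h4 : (0:ℝ) ≤ ((X.γ x.2 : ℚ) : ℝ) := by exact_mod_cast (X.hγ x.2).le
  calc X.w x.1 * ((X.γ x.2 : ℚ) : ℝ) ≤ 1 * 1 := mul_le_mul h1 h2 h4 zero_le_one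
    _ = 1 := one_mul 1

/-- a positive lower bound of the halves of the proportions -/
def g0 : ℝ := (1 + ∑ x, 2 * (X.al x)⁻¹)⁻¹

theorem g0_pos : 0 < g0 X := by
  unfold g0
  have : 0 ≤ ∑ x, 2 * (X.al x)⁻¹ :=
    Finset.sum_nonneg fun x _ => mul_nonneg zero_le_two (inv_nonneg.2 (al_pos X x).le)
  positivity

theorem g0_le (x : X.LB) : g0 X ≤ X.al x / 2 := by
  unfold g0
  have h0 := al_pos X x
  have h1 : 2 * (X.al x)⁻¹ ≤ ∑ x, 2 * (X.al x)⁻¹ :=
    Finset.single_le_sum (f := fun x => 2 * (X.al x)⁻¹)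
      (fun x _ => mul_nonneg zero_le_two (inv_nonneg.2 (al_pos X x).le)) (Finset.mem_univ x)
  have h2 : 2 * (X.al x)⁻¹ ≤ 1 + ∑ x, 2 * (X.al x)⁻¹ := by linarith
  have h3 : 0 < 2 * (X.al x)⁻¹ := by positivity
  have h4 := inv_anti₀ h3 h2
  refine h4.trans (le_of_eq ?_)
  rw [mul_inv, inv_inv]
  ring

theorem cnt_ge' {d0 : ℝ} (hd : Small X d0) {L : Fin N → X.LB}
    (hL : LabAvg.Good X.al d0 L) (x : X.LB) : g0 X * N ≤ (LabAvg.cnt L x : ℝ) := by
  have h1 := (abs_le.1 (hL x)).1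
  have h2 := hd.2 x
  have h5 := g0_le X x
  have hN : (0 : ℝ) ≤ N := Nat.cast_nonneg N
  have h3 := mul_le_mul_of_nonneg_left h2 hN
  have h6 := mul_le_mul_of_nonneg_left h5 hN
  linarith

/-- the sites of the group of the last site -/
theorem site_count {d0 : ℝ} (hd : Small X d0) {L : Fin N → X.LB} (hL : LabAvg.Good X.al d0 L)
    (j : Fin X.J) : g0 X * ((N + 1 : ℕ) : ℝ) ≤
      ((Finset.univ.filter fun i => sj (Glob.lab L) j i = j).card : ℝ) := by
  have h1 := cnt_ge' X hd hL (0, j)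
  have h2 : (LabAvg.cnt L ((0 : Fin (X.K + 1)), j) : ℝ) + 1 ≤
      ((Finset.univ.filter fun i => sj (Glob.lab L) j i = j).card : ℝ) := by
    rw [Finset.card_filter, Fin.sum_univ_castSucc]
    simp only [ED.sj_castSucc, ED.sj_last, if_true]
    push_cast
    refine add_le_add ?_ le_rfl
    unfold LabAvg.cnt
    rw [Finset.card_filter]
    push_cast
    refine Finset.sum_le_sum fun i _ => ?_
    by_cases h : L i = ((0 : Fin (X.K + 1)), j)
    · have : Glob.lab L i = j := by unfold Glob.lab; rw [h]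
      rw [if_pos h, if_pos this]
    · rw [if_neg h]
      split_ifs <;> norm_num
  have h3 := g0_le X ((0 : Fin (X.K + 1)), j)
  have h4 := al_le_one X ((0 : Fin (X.K + 1)), j)
  push_cast
  nlinarith

/-- the rows of the block of the last row -/
theorem row_count {d0 : ℝ} (hd : Small X d0) {L : Fin N → X.LB} (hL : LabAvg.Good X.al d0 L)
    (k : Fin (X.K + 1)) (j : Fin X.J) : g0 X * ((N + 1 : ℕ) : ℝ) ≤
      ((Finset.univ.filter fun i => sk (Glob.kap L) k i = k).card : ℝ) := by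
  have h1 := cnt_ge' X hd hL (k, j)
  have h2 : (LabAvg.cnt L (k, j) : ℝ) + 1 ≤
      ((Finset.univ.filter fun i => sk (Glob.kap L) k i = k).card : ℝ) := by
    rw [Finset.card_filter, Fin.sum_univ_castSucc]
    simp only [ED.sk_castSucc, ED.sk_last, if_true]
    push_cast
    refine add_le_add ?_ le_rfl
    unfold LabAvg.cnt
    rw [Finset.card_filter]
    push_cast
    refine Finset.sum_le_sum fun i _ => ?_
    by_cases h : L i = (k, j)
    · have : Glob.kap L i = k := by unfold Glob.kap; rw [h]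
      rw [if_pos h, if_pos this]
    · rw [if_neg h]
      split_ifs <;> norm_num
  have h3 := g0_le X (k, j)
  have h4 := al_le_one X (k, j)
  push_cast
  nlinarith

/-- the mean eigenvalue of a good label vector -/
theorem mean_eig {d0 : ℝ} (hN : 0 < N) {L : Fin N → X.LB}
    (hL : LabAvg.Good X.al d0 L) :
    |(N : ℝ)⁻¹ * ∑ i : Fin N, X.val (Glob.kap L i) - EG.m1 X.w X.val| ≤
      (∑ k, |X.val k|) * (X.J * d0) := by
  have hN' : (0:ℝ) < N := by exact_mod_cast hN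
  have hγs : (∑ j, ((X.γ j : ℚ) : ℝ)) = 1 := by exact_mod_cast X.hγs
  -- grouping
  have e1 : ∑ i : Fin N, X.val (Glob.kap L i) =
      ∑ x : X.LB, (LabAvg.cnt L x : ℝ) * X.val x.1 := by
    have h1 : ∀ i : Fin N, X.val (Glob.kap L i) =
        ∑ x : X.LB, if L i = x then X.val x.1 else 0 := by
      intro i
      rw [Finset.sum_ite_eq Finset.univ (L i) (fun x : X.LB => X.val x.1),
        if_pos (Finset.mem_univ _)]
      rfl
    rw [Finset.sum_congr rfl fun i _ => h1 i, Finset.sum_comm]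
    refine Finset.sum_congr rfl fun x _ => ?_
    unfold LabAvg.cnt
    rw [Finset.card_filter]
    push_cast
    rw [Finset.sum_mul]
    refine Finset.sum_congr rfl fun i _ => ?_
    split_ifs <;> ring
  have e2 : EG.m1 X.w X.val = ∑ x : X.LB, X.al x * X.val x.1 := by
    unfold EG.m1 Glob.al LabTr.pr
    rw [Fintype.sum_prod_type]
    refine Finset.sum_congr rfl fun k _ => ?_
    simp only
    rw [← Finset.sum_mul, ← Finset.mul_sum, hγs, mul_one]
  rw [e1, e2, Finset.mul_sum, ← Finset.sum_sub_distrib]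
  refine (Finset.abs_sum_le_sum_abs _ _).trans ?_
  have h3 : ∀ x : X.LB, |(N : ℝ)⁻¹ * ((LabAvg.cnt L x : ℝ) * X.val x.1) - X.al x * X.val x.1| ≤
      |X.val x.1| * d0 := by
    intro x
    have e3 : (N : ℝ)⁻¹ * ((LabAvg.cnt L x : ℝ) * X.val x.1) - X.al x * X.val x.1 =
        X.val x.1 * ((N : ℝ)⁻¹ * ((LabAvg.cnt L x : ℝ) - N * X.al x)) := by
      field_simp
    rw [e3, abs_mul]
    refine mul_le_mul_of_nonneg_left ?_ (abs_nonneg _)
    rw [abs_mul, abs_of_pos (inv_pos.2 hN')]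
    have := mul_le_mul_of_nonneg_left (hL x) (inv_pos.2 hN').le
    refine this.trans (le_of_eq ?_)
    field_simp
  refine (Finset.sum_le_sum fun x _ => h3 x).trans (le_of_eq ?_)
  rw [Fintype.sum_prod_type]
  simp only [Finset.sum_const, Finset.card_univ, Fintype.card_fin, nsmul_eq_mul]
  rw [Finset.sum_mul]
  exact Finset.sum_congr rfl fun k _ => by ring

/-- bound of the eigenvalues -/
def Lam : ℝ := ∑ k, |X.val k|

theorem Lam_nonneg : 0 ≤ Lam X := Finset.sum_nonneg fun _ _ => abs_nonneg _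

theorem abs_val_le (k : Fin (X.K + 1)) : |X.val k| ≤ Lam X :=
  Finset.single_le_sum (f := fun k => |X.val k|) (fun _ _ => abs_nonneg _) (Finset.mem_univ k)

theorem abs_m1_le : |EG.m1 X.w X.val| ≤ Lam X := by
  unfold EG.m1 Lam
  refine (Finset.abs_sum_le_sum_abs _ _).trans (Finset.sum_le_sum fun k _ => ?_)
  rw [abs_mul, abs_of_pos (X.hw k)]
  calc X.w k * |X.val k| ≤ 1 * |X.val k| :=
        mul_le_mul_of_nonneg_right (w_le_one X k) (abs_nonneg _)
    _ = |X.val k| := one_mul _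

/-- bound of the potentials -/
def BB (E Kmax : ℝ) : ℝ := ∑ j, |X.c j| + 12 * Kmax + |E|

theorem abs_c_le (j : Fin X.J) : |X.c j| ≤ ∑ j, |X.c j| :=
  Finset.single_le_sum (f := fun j => |X.c j|) (fun _ _ => abs_nonneg _) (Finset.mem_univ j)

theorem ehyp {E A Kmax η d0 : ℝ} (hd : Small X d0) {Kp : ℝ} (hKp : 0 ≤ Kp) (hKm : Kp ≤ Kmax)
    {θ : Prm p X.K X.J} (hθ : Bd X E A η θ) {L : Fin N → X.LB} (hL : LabAvg.Good X.al d0 L)
    (k : Fin (X.K + 1)) (j : Fin X.J) :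
    ED.EHyp (X.nu N) (X.nu (N + 1)) (eigS X.val (Glob.kap L) k)
      (W0S X.c X.t Kp θ (Glob.lab L)) (W1S X.c X.t Kp θ (Glob.lab L) j)
      (aS θ (Glob.lab L) j) (lmS θ (Glob.kap L) k) (Lam X) (EG.m1 X.w X.val)
      (BB X E Kmax) (BB X E Kmax) A (g0 X) η := by
  have ht : ∀ j, |X.t j| ≤ 1 := fun j => (X.ht j).le
  have hR : ∀ j, |θ.el j| ≤ |E| := fun j => (hθ.el j).trans (le_abs_self E)
  have hN0 : (0:ℝ) ≤ N := Nat.cast_nonneg N
  have hB1 : ∑ j, |X.c j| + 4 * Kp + |E| ≤ BB X E Kmax := by unfold BB; linarith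
  refine ⟨X.hnu N, X.hnu (N + 1), X.hR N, X.hR (N + 1), fun i => abs_val_le X _, abs_m1_le X,
    fun σ => ?_, fun σ => ?_, fun σ c => ?_, fun i => hθ.am _, fun i => hθ.lm _,
    ⟨Finset.univ.filter fun i => sj (Glob.lab L) j i = j, site_count X hd hL j, fun i hi => ?_⟩,
    ⟨Finset.univ.filter fun i => sk (Glob.kap L) k i = k, row_count X hd hL k j,
      fun i hi => ?_⟩⟩
  · exact (ED.abs_W0S_le X.c X.t Kp θ (Glob.lab L) hKp ht hR σ).trans
      (mul_le_mul_of_nonneg_right hB1 hN0)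
  · refine (ED.abs_W1S_le X.c X.t Kp θ (Glob.lab L) j hKp ht hR σ).trans ?_
    push_cast
    exact mul_le_mul_of_nonneg_right hB1 (by positivity)
  · refine (ED.abs_vT_le X.c X.t Kp θ (Glob.lab L) j hKp ht hR σ c).trans ?_
    have := abs_c_le X j
    unfold BB
    linarith
  · exact ED.inv_site X.val X.c X.t Kp θ (Glob.kap L) (Glob.lab L) k j (Finset.mem_filter.1 hi).2
  · exact ED.inv_row X.val X.c X.t Kp θ (Glob.kap L) (Glob.lab L) k j (Finset.mem_filter.1 hi).2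

/-- the fluctuation of the increment of the potential -/
def Dl (Kp : ℝ) (L : Fin N → X.LB) (mb : Fin X.J → ℝ) (j : Fin X.J) (σ : Fin N → Bool) : ℝ :=
  if X.t j = 0 then 0 else
    4 * Kp * |Mag.mag (Glob.lab L) σ j - mb j| + 4 * Kp / (Mag.rJ (Glob.lab L) j + 1)

theorem dhyp {n : ℕ} (hN : 0 < N) {E A Kmax η d0 δ : ℝ} (hd : Small X d0) {Kp : ℝ}
    (hKp : 0 ≤ Kp) (hKm : Kp ≤ Kmax) {θ : Prm p X.K X.J} (hθ : Bd X E A η θ) {L : Fin N → X.LB}
    (hL : LabAvg.Good X.al d0 L) {mb : Fin X.J → ℝ} (hmb : ∀ j, |mb j| ≤ 1) {dc : ℝ}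
    (hdc : ∀ j, X.t j ≠ 0 →
      Eo X n Kp θ L (fun _ _ ω => |MO n (Glob.lab L) j ω - mb j|) ≤ dc)
    (hδ0 : 0 ≤ δ) (hδ : 4 * Kmax * dc + 4 * Kmax / (g0 X * N) ≤ δ)
    (k : Fin (X.K + 1)) (j : Fin X.J) :
    ED.DHyp (X.nu N) n (eigS X.val (Glob.kap L) k)
      (W0S X.c X.t Kp θ (Glob.lab L)) (W1S X.c X.t Kp θ (Glob.lab L) j)
      (aS θ (Glob.lab L) j) (lmS θ (Glob.kap L) k) (cc X Kp mb j) (bb X Kp θ.el mb j)
      (BB X E Kmax) (Dl X Kp L mb j) δ := by
  have ht : ∀ j, |X.t j| ≤ 1 := fun j => (X.ht j).le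
  have hc := abs_c_le X j
  have hcs0 : 0 ≤ ∑ j, |X.c j| := Finset.sum_nonneg fun _ _ => abs_nonneg _
  have hE0 := abs_nonneg E
  have hEl : |θ.el j| ≤ |E| := (hθ.el j).trans (le_abs_self E)
  have hr0 : 0 ≤ Mag.rJ (Glob.lab L) j := Mag.rJ_nonneg _ _
  have hm1 := abs_le.1 (hmb j)
  have ht1 := abs_le.1 (ht j)
  refine ⟨?_, ?_, fun σ => ?_, fun σ e => ?_, ?_⟩
  · unfold cc BB
    split_ifs
    · rw [abs_zero]; linarith
    · rw [abs_mul, abs_of_nonneg hKp]
      have h1 : |mb j ^ 2 - X.t j ^ 2| ≤ 1 := by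
        rw [abs_le]
        constructor <;> nlinarith [hm1.1, hm1.2, ht1.1, ht1.2]
      have h2 := mul_le_mul_of_nonneg_left h1 hKp
      linarith
  · unfold bb BB
    refine (abs_add_le _ _).trans ?_
    have h1 : |if X.t j = 0 then (0:ℝ) else X.c j - 2 * Kp * (mb j - X.t j)| ≤
        |X.c j| + 4 * Kp := by
      split_ifs
      · rw [abs_zero]; positivity
      · refine (abs_sub _ _).trans ?_
        have h2 : |2 * Kp * (mb j - X.t j)| ≤ 4 * Kp := by
          rw [abs_mul, abs_of_nonneg (by positivity : 0 ≤ 2 * Kp)]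
          have h3 : |mb j - X.t j| ≤ 2 := by
            rw [abs_le]; constructor <;> linarith [hm1.1, hm1.2, ht1.1, ht1.2]
          nlinarith [mul_le_mul_of_nonneg_left h3 hKp]
        linarith
    linarith
  · unfold Dl
    split_ifs
    · exact le_rfl
    · have : 0 ≤ 4 * Kp / (Mag.rJ (Glob.lab L) j + 1) := by positivity
      have : 0 ≤ 4 * Kp * |Mag.mag (Glob.lab L) σ j - mb j| := by positivity
      linarith
  · have h1 := ED.vT_lin X.c X.t Kp θ (Glob.lab L) j hKp (hmb j) σ e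
    by_cases h0 : X.t j = 0
    · have h2 := ED.vT_eq X.c X.t Kp θ (Glob.lab L) j σ e
      rw [h2]
      unfold cc bb Dl
      simp only [if_pos h0]
      have e1 : (0 : ℝ) + θ.el j * sv e - (0 + (0 + θ.el j) * sv e) = 0 := by ring
      rw [e1, abs_zero]
    · have e1 : Dl X Kp L mb j σ = 4 * Kp * |Mag.mag (Glob.lab L) σ j - mb j| +
          4 * Kp / (Mag.rJ (Glob.lab L) j + 1) := by
        unfold Dl; rw [if_neg h0]
      rw [e1]
      exact h1
  · have hn := X.hnu N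
    have e1 : ∫ V, Ed p N (fun d => eE (G.PP (BU p N n) (HN (eigS X.val (Glob.kap L) k)
          (W0S X.c X.t Kp θ (Glob.lab L)) (aS θ (Glob.lab L) j) (lmS θ (Glob.kap L) k) V) d)
          (fun w => Dl X Kp L mb j w.1.1.1)) ∂(X.nu N) =
        Eo X n Kp θ L (fun _ _ w => Dl X Kp L mb j w.1.1.1) := by
      unfold Eo EO
      simp only [ED.PL_eq_PP X.val X.c X.t Kp θ (Glob.kap L) (Glob.lab L) k j]
    rw [e1]
    by_cases h0 : X.t j = 0
    · have e2 : (fun (_ : Mat (Fin N)) (_ : DD p N) (w : G.Om (LD.B p N n)) =>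
          Dl X Kp L mb j w.1.1.1) = fun _ _ _ => (0:ℝ) := by
        funext _ _ w
        unfold Dl
        rw [if_pos h0]
      rw [e2]
      unfold Eo
      rw [LD.EO_const X.val X.c X.t Kp θ (Glob.kap L) (Glob.lab L) hN 0]
      exact hδ0
    · have e2 : (fun (_ : Mat (Fin N)) (_ : DD p N) (w : G.Om (LD.B p N n)) =>
          Dl X Kp L mb j w.1.1.1) = fun _ _ w =>
          4 * Kp * |MO n (Glob.lab L) j w - mb j| +
            4 * Kp / (Mag.rJ (Glob.lab L) j + 1) := by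
        funext _ _ w
        unfold Dl
        rw [if_neg h0]
        rfl
      have hA1 : LD.OAdm (p := p) (n := n) (X.nu N)
          (fun _ _ ω => |MO n (Glob.lab L) j ω - mb j|) :=
        LD.OAdm.const fun _ ω => |MO n (Glob.lab L) j ω - mb j|
      rw [e2]
      have e3 : Eo X n Kp θ L (fun _ _ w => 4 * Kp * |MO n (Glob.lab L) j w - mb j| +
            4 * Kp / (Mag.rJ (Glob.lab L) j + 1)) =
          4 * Kp * Eo X n Kp θ L (fun _ _ w => |MO n (Glob.lab L) j w - mb j|) +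
            4 * Kp / (Mag.rJ (Glob.lab L) j + 1) := by
        unfold Eo
        rw [LD.EO_add X.val X.c X.t Kp θ (Glob.kap L) (Glob.lab L) (hA1.smul (4 * Kp))
          (LD.OAdm.const fun _ _ => 4 * Kp / (Mag.rJ (Glob.lab L) j + 1)),
          LD.EO_smul X.val X.c X.t Kp θ (Glob.kap L) (Glob.lab L) hA1,
          LD.EO_const X.val X.c X.t Kp θ (Glob.kap L) (Glob.lab L) hN]
      rw [e3]
      have hdj := hdc j h0
      have hN' : (0:ℝ) < N := by exact_mod_cast hN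
      have hg := g0_pos X
      have hr1 : g0 X * N ≤ Mag.rJ (Glob.lab L) j + 1 := by
        have h1 := cnt_ge' X hd hL (0, j)
        have h2 : (LabAvg.cnt L ((0 : Fin (X.K + 1)), j) : ℝ) ≤ Mag.rJ (Glob.lab L) j := by
          unfold Mag.rJ LabAvg.cnt
          have : (Finset.univ.filter fun i => L i = ((0 : Fin (X.K + 1)), j)).card ≤
              (Finset.univ.filter fun i => Glob.lab L i = j).card := by
            refine Finset.card_le_card fun i hi => ?_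
            rw [Finset.mem_filter] at hi ⊢
            refine ⟨hi.1, ?_⟩
            unfold Glob.lab
            rw [hi.2]
          exact_mod_cast this
        linarith
      have hdc0 : 0 ≤ Eo X n Kp θ L (fun _ _ w => |MO n (Glob.lab L) j w - mb j|) := by
        unfold Eo
        have h1 := LD.EO_mono' X.val X.c X.t Kp θ (Glob.kap L) (Glob.lab L)
          (LD.OAdm.const (mu := X.nu N) (n := n) (p := p) fun _ _ => (0:ℝ)) hA1
          (fun d => Filter.Eventually.of_forall fun U ω => abs_nonneg _)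
        rw [LD.EO_const X.val X.c X.t Kp θ (Glob.kap L) (Glob.lab L) hN] at h1
        exact h1
      have hKm0 : 0 ≤ Kmax := hKp.trans hKm
      have h4 : 4 * Kp * Eo X n Kp θ L (fun _ _ w => |MO n (Glob.lab L) j w - mb j|) ≤
          4 * Kmax * dc := by
        have : 4 * Kp * Eo X n Kp θ L (fun _ _ w => |MO n (Glob.lab L) j w - mb j|) ≤
            4 * Kmax * Eo X n Kp θ L (fun _ _ w => |MO n (Glob.lab L) j w - mb j|) :=
          mul_le_mul_of_nonneg_right (by linarith) hdc0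
        exact this.trans (mul_le_mul_of_nonneg_left hdj (by linarith))
      have h5 : 4 * Kp / (Mag.rJ (Glob.lab L) j + 1) ≤ 4 * Kmax / (g0 X * N) := by
        refine div_le_div₀ (by linarith) (by linarith) (by positivity) hr1
      linarith

theorem ph_snoc (n : ℕ) (Kp : ℝ) (θ : Prm p X.K X.J) (L : Fin N → X.LB)
    (k : Fin (X.K + 1)) (j : Fin X.J) :
    Ph X n Kp θ (Fin.snoc L (k, j) : Fin (N + 1) → X.LB) =
      ED.IP (X.nu (N + 1)) n (HN1 (eigS X.val (Glob.kap L) k)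
        (W1S X.c X.t Kp θ (Glob.lab L) j) (aS θ (Glob.lab L) j) (lmS θ (Glob.kap L) k)) := by
  unfold Ph
  rw [kap_snoc, lab_snoc]
  rfl

theorem ph_eq (n : ℕ) (Kp : ℝ) (θ : Prm p X.K X.J) (L : Fin N → X.LB)
    (k : Fin (X.K + 1)) (j : Fin X.J) :
    Ph X n Kp θ L = ED.IP (X.nu N) n (HN (eigS X.val (Glob.kap L) k)
        (W0S X.c X.t Kp θ (Glob.lab L)) (aS θ (Glob.lab L) j) (lmS θ (Glob.kap L) k)) :=
  ED.EPh_eq X.val X.c X.t Kp θ (Glob.kap L) (Glob.lab L) k j (X.nu N)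

theorem t1_eq (n : ℕ) (Kp : ℝ) (θ : Prm p X.K X.J) (L : Fin N → X.LB)
    (k : Fin (X.K + 1)) (j : Fin X.J) (g : Fin p.nc) :
    T1 X n Kp θ L k j g = GX.EE (p := p) (n := n)
      (univ_nonempty (α := Fin (N + 1) → Bool)) (X.nu (N + 1)) (eigS X.val (Glob.kap L) k) 1
      (W1S X.c X.t Kp θ (Glob.lab L) j) (aS θ (Glob.lab L) j) (lmS θ (Glob.kap L) k)
      (fun _ _ w => SY.zf w.1.2.1 g (Fin.last N) * sv (w.1.1.1 (Fin.last N))) := by
  have := X.hnu (N + 1)
  unfold T1 Eo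
  rw [kap_snoc, lab_snoc]
  exact (ED.EO_TO_last X.val X.c X.t Kp θ (Glob.kap L) (Glob.lab L) k j (X.hR (N + 1)) g).symm

theorem m1_eq (n : ℕ) (Kp : ℝ) (θ : Prm p X.K X.J) (L : Fin N → X.LB)
    (k : Fin (X.K + 1)) (j : Fin X.J) :
    M1 X n Kp θ L k j = GX.EE (p := p) (n := n)
      (univ_nonempty (α := Fin (N + 1) → Bool)) (X.nu (N + 1)) (eigS X.val (Glob.kap L) k) 1
      (W1S X.c X.t Kp θ (Glob.lab L) j) (aS θ (Glob.lab L) j) (lmS θ (Glob.kap L) k)
      (fun _ _ w => sv (w.1.1.1 (Fin.last N))) := by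
  have := X.hnu (N + 1)
  unfold M1 Eo
  rw [kap_snoc, lab_snoc]
  exact (ED.EO_MO_last X.val X.c X.t Kp θ (Glob.kap L) (Glob.lab L) k j (X.hR (N + 1))).symm

theorem cavF_eq' (n : ℕ) (Kp : ℝ) (θ : Prm p X.K X.J) (L : Fin N → X.LB) {tr : ℝ}
    (htr : 0 ≤ tr) (k : Fin (X.K + 1)) (j : Fin X.J) (b : ℝ) (a : Fin p.nc → ℝ) :
    cavF X n Kp θ L tr k b a =
      ED.cavF (X.nu N) n (HN (eigS X.val (Glob.kap L) k) (W0S X.c X.t Kp θ (Glob.lab L))
        (aS θ (Glob.lab L) j) (lmS θ (Glob.kap L) k)) (eigS X.val (Glob.kap L) k)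
        (EG.m1 X.w X.val) a b 0 tr := by
  rw [CavG.lgCavF_eq X n Kp θ L htr k b a (eig := eigS X.val (Glob.kap L) k)
    (fun i => ED.eigS_castSucc X.val (Glob.kap L) k i) (ED.eigS_last X.val (Glob.kap L) k)]
  congr 1
  funext V
  exact ED.HL_eq_HN X.val X.c X.t Kp θ (Glob.kap L) (Glob.lab L) k j V

/-- **(GL7)** -/
theorem ediff (h : ED.EDIFF0) : EDIFF X := by
  intro E A Kmax
  obtain ⟨Cd, hCd, h1⟩ := h (Lam X) (BB X E Kmax) (BB X E Kmax) A (g0 X) (g0_pos X)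
  refine ⟨Cd, hCd, fun ε hε => ?_⟩
  obtain ⟨K0, h2⟩ := h1 ε hε
  refine ⟨max K0 0, fun tr htr => ?_⟩
  have htr0 : 0 ≤ tr := (le_max_right _ _).trans htr
  obtain ⟨η, hη, h3⟩ := h2 tr ((le_max_left _ _).trans htr)
  have hL0 := Lam_nonneg X
  have hJ0 : (0:ℝ) ≤ X.J := Nat.cast_nonneg _
  have hg := g0_pos X
  refine ⟨η, η / (Lam X * X.J + 1), hη, by positivity, fun d0 hd hd1 p hp => ?_⟩
  obtain ⟨Na, h4⟩ := h3 p hp
  have hK1 : 0 < |Kmax| + 1 := by positivity
  refine ⟨η / (8 * (|Kmax| + 1)), by positivity,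
    max (max Na 1) (Nat.ceil (8 * |Kmax| / (g0 X * η))), fun N hN => ⟨1, ?_⟩⟩
  intro n hn Kp hKp hKm θ hθ L hL mb hmb hdc k j
  have hNa : Na ≤ N := (le_max_left _ _).trans ((le_max_left _ _).trans hN)
  have hN1 : 1 ≤ N := (le_max_right _ _).trans ((le_max_left _ _).trans hN)
  have hN2 : 8 * |Kmax| / (g0 X * η) ≤ N :=
    (Nat.le_ceil _).trans (by exact_mod_cast (le_max_right _ _).trans hN)
  have hN' : (0:ℝ) < N := by exact_mod_cast hN1
  have hKm0 : 0 ≤ Kmax := hKp.trans hKm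
  rw [abs_of_nonneg hKm0] at hN2 hdc hK1
  have hδ : 4 * Kmax * (η / (8 * (Kmax + 1))) + 4 * Kmax / (g0 X * N) ≤ η := by
    have a1 : 4 * Kmax * (η / (8 * (Kmax + 1))) ≤ η / 2 := by
      rw [mul_div_assoc', div_le_div_iff₀ (by positivity) (by norm_num)]
      nlinarith
    have a2 : 4 * Kmax / (g0 X * N) ≤ η / 2 := by
      rw [div_le_iff₀ (by positivity)] at hN2 ⊢
      nlinarith
    linarith
  have hmean : |(N : ℝ)⁻¹ * ∑ i : Fin N, eigS X.val (Glob.kap L) k i.castSucc -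
      EG.m1 X.w X.val| ≤ η := by
    simp only [ED.eigS_castSucc]
    refine (mean_eig X hN1 hL).trans ?_
    have hd0 := hd.1
    have a1 : Lam X * (X.J * d0) ≤ Lam X * X.J * (η / (Lam X * X.J + 1)) := by
      rw [← mul_assoc]
      exact mul_le_mul_of_nonneg_left hd1 (by positivity)
    refine a1.trans ?_
    rw [mul_div_assoc', div_le_iff₀ (by positivity)]
    nlinarith [mul_nonneg hL0 hJ0]
  have h5 := h4 N hNa n (by omega) (X.nu N) (X.nu (N + 1)) (eigS X.val (Glob.kap L) k)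
    (W0S X.c X.t Kp θ (Glob.lab L)) (W1S X.c X.t Kp θ (Glob.lab L) j)
    (aS θ (Glob.lab L) j) (lmS θ (Glob.kap L) k) (EG.m1 X.w X.val) (cc X Kp mb j)
    (bb X Kp θ.el mb j) (Dl X Kp L mb j)
    (ehyp X hd hKp hKm hθ hL k j)
    (dhyp X hN1 hd hKp hKm hθ hL hmb hdc hη.le hδ k j) hmean
  rw [← ph_snoc, ← ph_eq, ED.aS_last] at h5
  obtain ⟨h6, h7, h8⟩ := h5
  refine ⟨?_, fun g s hs => ?_, fun s hs => ?_⟩
  · rw [cavF_eq' X n Kp θ L htr0 k j]
    exact h6
  · rw [cavF_eq' X n Kp θ L htr0 k j, cavF_eq' X n Kp θ L htr0 k j, t1_eq]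
    exact h7 g s hs
  · rw [cavF_eq' X n Kp θ L htr0 k j, cavF_eq' X n Kp θ L htr0 k j, m1_eq]
    exact h8 s hs

end

end Crest.Agent.R164.EDL

namespace Crest.Agent.R164.LG

/-- **(GL7)** -/
theorem ediff (X : Glob) (h : ED.EDIFF0) : EDIFF X := EDL.ediff X h

end Crest.Agent.R164.LG
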