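import Crest.Agent.R164.EDe
import Crest.Agent.R164.EDf
import Crest.Agent.R164.CavF

/-!
# Row 164, L side, module E-DIFF (helper562): the statement of the E-DIFF theorem in `ED` names

`EDIFF0` is proved in `EDq.lean`; `LG.EDIFF` follows from it by translation.
-/

set_option autoImplicit false

namespace Crest.Agent.R164.ED

open MeasureTheory
open Finset Crest.Agent.R141 Crest.Agent.R164 Crest.Agent.R164.PF Crest.Agent.R164.Haar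

noncomputable section

variable {p : Par} {N : ℕ}

/-- Standing hypotheses of E-DIFF: the `(N+1)`-system `HN1 eig W1 a lam` and the `N`-system
`HN eig W0 a lam`; `Λ, BV, B, A, γ0` are fixed numbers, `S` bounds the small fields. -/
structure EHyp (μ : Measure (Mat (Fin N))) (ν : Measure (Mat (Fin (N + 1))))
    (eig : Fin (N + 1) → ℝ) (W0 : (Fin N → Bool) → ℝ) (W1 : (Fin (N + 1) → Bool) → ℝ)
    (a lam : Fin (N + 1) → Fin p.nc → ℝ) (Λ m1 BV B A γ0 S : ℝ) : Prop where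
  pμ : IsProbabilityMeasure μ
  pν : IsProbabilityMeasure ν
  rμ : RHaar μ
  rν : RHaar ν
  he : ∀ i, |eig i| ≤ Λ
  hm : |m1| ≤ Λ
  hW0 : ∀ σ, |W0 σ| ≤ BV * N
  hW1 : ∀ σ, |W1 σ| ≤ BV * ((N + 1 : ℕ) : ℝ)
  hv : ∀ σ c, |vT W0 W1 σ c| ≤ B
  ha : ∀ i, ∑ g, a i g ^ 2 ≤ A ^ 2
  hl : ∀ i, ∑ g, lam i g ^ 2 ≤ S
  /-- sites exchangeable with the last one -/
  gr : ∃ Gr : Finset (Fin (N + 1)), γ0 * ((N + 1 : ℕ) : ℝ) ≤ Gr.card ∧
    ∀ j ∈ Gr, GX.Inv 1 (Equiv.swap (Fin.last N) j) eig W1 a lam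
  /-- rows exchangeable with the last one -/
  cl : ∃ Cl : Finset (Fin (N + 1)), γ0 * ((N + 1 : ℕ) : ℝ) ≤ Cl.card ∧
    ∀ i ∈ Cl, GX.Inv (Equiv.swap (Fin.last N) i) 1 eig W1 a lam

/-- the increment of the potential is `cs + bb e` up to `Δ`, which is small in the mean under the
`N`-system -/
structure DHyp (μ : Measure (Mat (Fin N))) (n : ℕ) (eig : Fin (N + 1) → ℝ)
    (W0 : (Fin N → Bool) → ℝ) (W1 : (Fin (N + 1) → Bool) → ℝ)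
    (a lam : Fin (N + 1) → Fin p.nc → ℝ) (cs bb B : ℝ) (Δ : (Fin N → Bool) → ℝ) (δ : ℝ) : Prop where
  hcs : |cs| ≤ B
  hbb : |bb| ≤ B
  h0 : ∀ σ, 0 ≤ Δ σ
  hΔ : ∀ σ c, |vT W0 W1 σ c - (cs + bb * sv c)| ≤ Δ σ
  avg : ∫ V, Ed p N (fun d => eE (G.PP (BU p N n) (HN eig W0 a lam V) d)
    (fun w => Δ w.1.1.1)) ∂μ ≤ δ

/-- averaged free energy of the `N`-system (not divided by `N`) -/
def IP {M : ℕ} (μ : Measure (Mat (Fin M))) (n : ℕ)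
    (H : Mat (Fin M) → SY.SS p n (univ : Finset (Fin M → Bool)) → ℝ) : ℝ :=
  ∫ V, Ed p M (fun d => G.Phi (BU p M n) (H V) d) ∂μ

/-- **E-DIFF in `ED` names** -/
def EDIFF0 : Prop := ∀ Λ BV B A γ0 : ℝ, 0 < γ0 → ∃ Cd : ℝ, 0 ≤ Cd ∧ ∀ ε : ℝ, 0 < ε →
  ∃ K0 : ℝ, ∀ K : ℝ, K0 ≤ K → ∃ η : ℝ, 0 < η ∧ ∀ p : Par, p.nb = 0 → ∃ Na : ℕ, ∀ N : ℕ, Na ≤ N →
  ∀ n : ℕ, 0 < n →
  ∀ (μ : Measure (Mat (Fin N))) (ν : Measure (Mat (Fin (N + 1)))) (eig : Fin (N + 1) → ℝ)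
    (W0 : (Fin N → Bool) → ℝ) (W1 : (Fin (N + 1) → Bool) → ℝ)
    (a lam : Fin (N + 1) → Fin p.nc → ℝ) (m1 cs bb : ℝ) (Δ : (Fin N → Bool) → ℝ),
  EHyp μ ν eig W0 W1 a lam Λ m1 BV B A γ0 η → DHyp μ n eig W0 W1 a lam cs bb B Δ η →
  |(N : ℝ)⁻¹ * ∑ i : Fin N, eig i.castSucc - m1| ≤ η →
  (cs + cavF μ n (HN eig W0 a lam) eig m1 (a (Fin.last N)) bb 0 K ≤
    IP ν n (HN1 eig W1 a lam) - IP μ n (HN eig W0 a lam) + ε) ∧
  (∀ (g : Fin p.nc) (s : ℝ), |s| ≤ 1 →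
    |cavF μ n (HN eig W0 a lam) eig m1
        (Function.update (a (Fin.last N)) g (a (Fin.last N) g + s)) bb 0 K -
      cavF μ n (HN eig W0 a lam) eig m1 (a (Fin.last N)) bb 0 K -
      s * GX.EE (p := p) (n := n) (univ_nonempty (α := Fin (N + 1) → Bool)) ν eig 1 W1 a lam
        (fun _ _ w => SY.zf w.1.2.1 g (Fin.last N) * sv (w.1.1.1 (Fin.last N)))| ≤
      Cd * (|s| * Real.sqrt |s|) + |s| * ε) ∧
  (∀ s : ℝ, |s| ≤ 1 →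
    |cavF μ n (HN eig W0 a lam) eig m1 (a (Fin.last N)) (bb + s) 0 K -
      cavF μ n (HN eig W0 a lam) eig m1 (a (Fin.last N)) bb 0 K -
      s * GX.EE (p := p) (n := n) (univ_nonempty (α := Fin (N + 1) → Bool)) ν eig 1 W1 a lam
        (fun _ _ w => sv (w.1.1.1 (Fin.last N)))| ≤
      Cd * (|s| * Real.sqrt |s|) + |s| * ε)

end

end Crest.Agent.R164.ED
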