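import Crest.Agent.R164.GXch2

/-!
Row 164 (helper39): exchangeability, the concrete bounds (T1)-(T5) used by the cavity step.
-/

set_option autoImplicit false

namespace Crest.Agent.R164.GX

open Finset MeasureTheory Crest.Agent.R141 Crest.Agent.R164 Crest.Agent.R164.SY
  Crest.Agent.R164.Haar Crest.Agent.R164.Rot Crest.Agent.R164.RotRel

noncomputable section

variable {p : Par} {N n : ℕ} {A : Finset (Fin N → Bool)} {hA : A.Nonempty}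
  {eig : Fin N → ℝ} {t : ℝ} {V : (Fin N → Bool) → ℝ} {a lam : Fin N → Fin p.nc → ℝ}
  {μ : Measure (Fin N → Fin N → ℝ)} [IsProbabilityMeasure μ]

/-! ### Norm identities -/

theorem spinVec_sq (σ : Fin N → Bool) (q : Fin N) :
    Crest.ProbabilityR.InvariantGlass.spinVec σ q ^ 2 = 1 := by
  unfold Crest.ProbabilityR.InvariantGlass.spinVec
  split_ifs <;> norm_num

theorem sum_xU_sq {U : Fin N → Fin N → ℝ} (hU : U ∈ OK N) (σ : Fin N → Bool) :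
    ∑ i, xU (Matrix.of U) σ i ^ 2 = N := by
  simp only [xU_eq]
  rw [OK_norm hU]
  simp only [spinVec_sq]
  simp

/-- columns: `∑_j (∑_i U_ij w_i)² = ∑ w_i²` -/
theorem OK_norm_col {U : Fin N → Fin N → ℝ} (hU : U ∈ OK N) (w : Fin N → ℝ) :
    ∑ j, (∑ i, U i j * w i) ^ 2 = ∑ i, w i ^ 2 := by
  have hU' : Haar.tr U ∈ OK N := of_tr_mem hU
  have := OK_norm hU' w
  exact this

/-! ### (T1): row coordinates -/

theorem rowEqv_x : RowEqv (hA := hA) (n := n)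
    (fun i U (_ : DD p N) ω => xU (Matrix.of U) ω.1.1.1 i ^ 2) := by
  intro ρ i U d ω
  show xU (Matrix.of (pU ρ 1 U)) (pO hA ρ 1 (one_mem_iff A) ω).1.1.1 i ^ 2 = _
  rw [xU_pO]

theorem continuous_x_sq (i : Fin N) (ω : G.Om (base p n A hA)) :
    Continuous fun U : Fin N → Fin N → ℝ => xU (Matrix.of U) ω.1.1.1 i ^ 2 :=
  (continuous_xU ω.1.1.1 i).pow 2

/-- **(T1)**: `#Cl E x_{i0}² ≤ N` -/
theorem T1 (hμ : RHaar μ) (hN : 0 < N) {i0 : Fin N} {Cl : Finset (Fin N)}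
    (hCl : ∀ i ∈ Cl, Inv (Equiv.swap i0 i) 1 eig V a lam) :
    (Cl.card : ℝ) * EE (n := n) hA μ eig t V a lam
      (fun U _ ω => xU (Matrix.of U) ω.1.1.1 i0 ^ 2) ≤ N := by
  have h := EE_row_le (t := t) hμ (O := fun i U (_ : DD p N) ω => xU (Matrix.of U) ω.1.1.1 i ^ 2)
    (R := fun _ _ _ => (N : ℝ)) (rowEqv_x (hA := hA) (n := n)) hCl
    (fun i _ ω => continuous_x_sq i ω)
    (fun _ _ _ _ => sq_nonneg _) (fun _ _ => continuous_const)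
    (fun U hU _ ω => (sum_xU_sq hU _).le)
  rwa [EE_const hN] at h

/-! ### (T2): the local field -/

/-- the local field `(J s)_j`, `J = Uᵀ diag(eig) U` -/
def Js (eig : Fin N → ℝ) (U : Fin N → Fin N → ℝ) (σ : Fin N → Bool) (j : Fin N) : ℝ :=
  ∑ i, U i j * (eig i * xU (Matrix.of U) σ i)

theorem continuous_Js (σ : Fin N → Bool) (j : Fin N) :
    Continuous fun U : Fin N → Fin N → ℝ => Js eig U σ j := by
  unfold Js
  refine continuous_finsetSum _ fun i _ => Continuous.mul ?_ (continuous_const.mul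
    (continuous_xU σ i))
  fun_prop

theorem sum_Js_sq {Λ : ℝ} (hΛ : ∀ i, |eig i| ≤ Λ) {U : Fin N → Fin N → ℝ} (hU : U ∈ OK N)
    (σ : Fin N → Bool) : ∑ j, Js eig U σ j ^ 2 ≤ Λ ^ 2 * N := by
  unfold Js
  rw [OK_norm_col hU]
  have h1 : ∀ i, (eig i * xU (Matrix.of U) σ i) ^ 2 ≤ Λ ^ 2 * xU (Matrix.of U) σ i ^ 2 := by
    intro i
    rw [mul_pow]
    refine mul_le_mul_of_nonneg_right ?_ (sq_nonneg _)
    rw [← sq_abs]
    exact pow_le_pow_left₀ (abs_nonneg _) (hΛ i) 2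
  refine (Finset.sum_le_sum fun i _ => h1 i).trans ?_
  rw [← Finset.mul_sum, sum_xU_sq hU]

theorem colEqv_Js : ColEqv (hA := hA) (n := n)
    (fun j U (_ : DD p N) ω => Js eig U ω.1.1.1 j ^ 2) := by
  intro π hπ j U d ω
  show Js eig (pU 1 π U) (pO hA 1 π hπ ω).1.1.1 j ^ 2 = _
  congr 1
  unfold Js
  refine Finset.sum_congr rfl fun i _ => ?_
  rw [xU_pO]
  rfl

/-- **(T2)**: `#Gr E (J s)_{j0}² ≤ Λ² N` -/
theorem T2 (hμ : RHaar μ) (hN : 0 < N) {Λ : ℝ} (hΛ : ∀ i, |eig i| ≤ Λ) {j0 : Fin N}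
    {Gr : Finset (Fin N)} (hGr : ∀ j ∈ Gr, Inv 1 (Equiv.swap j0 j) eig V a lam)
    (hπ : ∀ j ∈ Gr, ∀ σ : Fin N → Bool, (fun i => σ (Equiv.swap j0 j i)) ∈ A ↔ σ ∈ A) :
    (Gr.card : ℝ) * EE (n := n) hA μ eig t V a lam (fun U _ ω => Js eig U ω.1.1.1 j0 ^ 2) ≤
      Λ ^ 2 * N := by
  have h := EE_col_le (t := t) hμ (O := fun j U (_ : DD p N) ω => Js eig U ω.1.1.1 j ^ 2)
    (R := fun _ _ _ => Λ ^ 2 * (N : ℝ)) (colEqv_Js (hA := hA) (n := n)) hGr hπ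
    (fun j _ ω => (continuous_Js ω.1.1.1 j).pow 2)
    (fun _ _ _ _ => sq_nonneg _) (fun _ _ => continuous_const)
    (fun U hU _ ω => sum_Js_sq hΛ hU _)
  rwa [EE_const hN] at h

/-! ### (T3), (T4): the small fields -/

/-- the total small field at row `i` -/
def sphi (lam : Fin N → Fin p.nc → ℝ) (c : FC p N n) (i : Fin N) : ℝ :=
  ∑ g, lam i g * zf c g i

theorem colEqv_sphi : ColEqv (hA := hA) (n := n)
    (fun j U (_ : DD p N) ω => (∑ i, sphi lam ω.1.2.2 i * U i j) ^ 2) := by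
  intro π hπ j U d ω
  show (∑ i, sphi lam (pO hA 1 π hπ ω).1.2.2 i * (pU 1 π U) i j) ^ 2 = _
  have h1 : ∀ i, sphi lam (pO hA 1 π hπ ω).1.2.2 i = sphi lam ω.1.2.2 i := by
    intro i
    unfold sphi
    refine Finset.sum_congr rfl fun g _ => ?_
    rw [zf_small]
    rfl
  simp only [h1]
  rfl

/-- **(T3)**: `#Gr E (∑_i φ_i U_{i j0})² ≤ E ∑ φ_i²` -/
theorem T3 (hμ : RHaar μ) {j0 : Fin N}
    {Gr : Finset (Fin N)} (hGr : ∀ j ∈ Gr, Inv 1 (Equiv.swap j0 j) eig V a lam)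
    (hπ : ∀ j ∈ Gr, ∀ σ : Fin N → Bool, (fun i => σ (Equiv.swap j0 j i)) ∈ A ↔ σ ∈ A) :
    (Gr.card : ℝ) * EE (n := n) hA μ eig t V a lam
        (fun U _ ω => (∑ i, sphi lam ω.1.2.2 i * U i j0) ^ 2) ≤
      EE (n := n) hA μ eig t V a lam (fun _ _ ω => ∑ i, sphi lam ω.1.2.2 i ^ 2) := by
  refine EE_col_le (t := t) hμ
    (O := fun j U (_ : DD p N) ω => (∑ i, sphi lam ω.1.2.2 i * U i j) ^ 2)
    (R := fun _ _ ω => ∑ i, sphi lam ω.1.2.2 i ^ 2) (colEqv_sphi (hA := hA) (n := n)) hGr hπ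
    (fun j _ ω => by fun_prop)
    (fun _ _ _ _ => sq_nonneg _) (fun _ _ => continuous_const)
    (fun U hU _ ω => ?_)
  have h := OK_norm_col hU (fun i => sphi lam ω.1.2.2 i)
  rw [← h]
  refine Finset.sum_le_sum fun j _ => ?_
  refine le_of_eq ?_
  congr 1
  exact Finset.sum_congr rfl fun i _ => mul_comm _ _

/-- equivariance of the small field of a row, for rows with the same strengths -/
theorem sphi_row {ρ : Equiv.Perm (Fin N)} (hlam : ∀ i, lam (ρ i) = lam i)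
    (ω : G.Om (base p n A hA)) (i : Fin N) :
    sphi lam (pO hA ρ 1 (one_mem_iff A) ω).1.2.2 i = sphi lam ω.1.2.2 (ρ i) := by
  unfold sphi
  refine Finset.sum_congr rfl fun g _ => ?_
  rw [zf_small, hlam]

/-- **(T4)**: `#Cl E φ_{i0}² = ∑_{i ∈ Cl} E φ_i²` -/
theorem T4 (hμ : RHaar μ) {i0 : Fin N} {Cl : Finset (Fin N)}
    (hCl : ∀ i ∈ Cl, Inv (Equiv.swap i0 i) 1 eig V a lam) :
    (Cl.card : ℝ) * EE (n := n) hA μ eig t V a lam (fun _ _ ω => sphi lam ω.1.2.2 i0 ^ 2) =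
      ∑ i ∈ Cl, EE (n := n) hA μ eig t V a lam (fun _ _ ω => sphi lam ω.1.2.2 i ^ 2) := by
  have h1 : ∀ i ∈ Cl, EE (n := n) hA μ eig t V a lam (fun _ _ ω => sphi lam ω.1.2.2 i0 ^ 2) =
      EE (n := n) hA μ eig t V a lam (fun _ _ ω => sphi lam ω.1.2.2 i ^ 2) := by
    intro i hi
    have h1 := exchange (n := n) (hA := hA) (t := t) hμ (hCl i hi) (one_mem_iff A)
      (fun _ _ ω => sphi lam ω.1.2.2 i0 ^ 2)
    rw [← h1]
    have h2 : ∀ ω : G.Om (base p n A hA),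
        sphi lam (pO hA (Equiv.swap i0 i) 1 (one_mem_iff A) ω).1.2.2 i0 =
          sphi lam ω.1.2.2 i := by
      intro ω
      rw [sphi_row (hCl i hi).lam, Equiv.swap_apply_left]
    simp only [h2]
  rw [← Finset.sum_congr rfl h1, Finset.sum_const, nsmul_eq_mul]

/-- **(T4)**: `#Cl E φ_{i0}² ≤ E ∑_i φ_i²` -/
theorem T4' (hμ : RHaar μ) {i0 : Fin N} {Cl : Finset (Fin N)}
    (hCl : ∀ i ∈ Cl, Inv (Equiv.swap i0 i) 1 eig V a lam) :
    (Cl.card : ℝ) * EE (n := n) hA μ eig t V a lam (fun _ _ ω => sphi lam ω.1.2.2 i0 ^ 2) ≤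
      EE (n := n) hA μ eig t V a lam (fun _ _ ω => ∑ i, sphi lam ω.1.2.2 i ^ 2) := by
  rw [T4 hμ hCl, ← EE_sum (O := fun i _ _ ω => sphi lam ω.1.2.2 i ^ 2) hμ Cl
    fun _ _ _ _ => continuous_const]
  refine EE_mono hμ (fun _ _ => continuous_const) (fun _ _ => continuous_const)
    fun U _ d ω => ?_
  exact Finset.sum_le_sum_of_subset_of_nonneg (Finset.subset_univ _) fun _ _ _ => sq_nonneg _

/-! ### (T5): main fields and spins -/

/-- **(T5)** for an arbitrary observable attached to the sites -/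
theorem T5 (hμ : RHaar μ) {O : Fin N → (Fin N → Fin N → ℝ) → DD p N → G.Om (base p n A hA) → ℝ}
    (hO : ColEqv O) {j0 : Fin N}
    {Gr : Finset (Fin N)} (hGr : ∀ j ∈ Gr, Inv 1 (Equiv.swap j0 j) eig V a lam)
    (hπ : ∀ j ∈ Gr, ∀ σ : Fin N → Bool, (fun i => σ (Equiv.swap j0 j i)) ∈ A ↔ σ ∈ A) :
    (Gr.card : ℝ) * EE hA μ eig t V a lam (O j0) = ∑ j ∈ Gr, EE hA μ eig t V a lam (O j) :=
  EE_col_avg hμ hO hGr hπ

theorem colEqv_z_spin (g : Fin p.nc) : ColEqv (hA := hA) (n := n)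
    (fun j (_ : Fin N → Fin N → ℝ) (_ : DD p N) ω => zf ω.1.2.1 g j * sv (ω.1.1.1 j)) := by
  intro π hπ j U d ω
  show zf (pO hA 1 π hπ ω).1.2.1 g j * sv ((pO hA 1 π hπ ω).1.1.1 j) = _
  rw [zf_main, pO_spin]

theorem colEqv_z_sq (g : Fin p.nc) : ColEqv (hA := hA) (n := n)
    (fun j (_ : Fin N → Fin N → ℝ) (_ : DD p N) ω => zf ω.1.2.1 g j ^ 2) := by
  intro π hπ j U d ω
  show zf (pO hA 1 π hπ ω).1.2.1 g j ^ 2 = _
  rw [zf_main]

theorem colEqv_spin : ColEqv (hA := hA) (n := n)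
    (fun j (_ : Fin N → Fin N → ℝ) (_ : DD p N) ω => sv (ω.1.1.1 j)) := by
  intro π hπ j U d ω
  show sv ((pO hA 1 π hπ ω).1.1.1 j) = _
  rw [pO_spin]

/-- `#Gr E z_{j0,g} s_{j0} = ∑_{Gr} E z_{j,g} s_j` -/
theorem T5_z (hμ : RHaar μ) (g : Fin p.nc) {j0 : Fin N}
    {Gr : Finset (Fin N)} (hGr : ∀ j ∈ Gr, Inv 1 (Equiv.swap j0 j) eig V a lam)
    (hπ : ∀ j ∈ Gr, ∀ σ : Fin N → Bool, (fun i => σ (Equiv.swap j0 j i)) ∈ A ↔ σ ∈ A) :
    (Gr.card : ℝ) * EE (n := n) hA μ eig t V a lam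
        (fun _ _ ω => zf ω.1.2.1 g j0 * sv (ω.1.1.1 j0)) =
      ∑ j ∈ Gr, EE (n := n) hA μ eig t V a lam
        (fun _ _ ω => zf ω.1.2.1 g j * sv (ω.1.1.1 j)) :=
  EE_col_avg (O := fun j _ _ ω => zf ω.1.2.1 g j * sv (ω.1.1.1 j)) hμ (colEqv_z_spin g) hGr hπ

/-- `#Gr E s_{j0} = ∑_{Gr} E s_j` -/
theorem T5_spin (hμ : RHaar μ) {j0 : Fin N}
    {Gr : Finset (Fin N)} (hGr : ∀ j ∈ Gr, Inv 1 (Equiv.swap j0 j) eig V a lam)
    (hπ : ∀ j ∈ Gr, ∀ σ : Fin N → Bool, (fun i => σ (Equiv.swap j0 j i)) ∈ A ↔ σ ∈ A) :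
    (Gr.card : ℝ) * EE (n := n) hA μ eig t V a lam (fun _ _ ω => sv (ω.1.1.1 j0)) =
      ∑ j ∈ Gr, EE (n := n) hA μ eig t V a lam (fun _ _ ω => sv (ω.1.1.1 j)) :=
  EE_col_avg (O := fun j _ _ ω => sv (ω.1.1.1 j)) hμ colEqv_spin hGr hπ

/-- `#Gr E z_{j0,g}² ≤ E ∑_j z_{j,g}²` -/
theorem T6 (hμ : RHaar μ) (g : Fin p.nc) {j0 : Fin N}
    {Gr : Finset (Fin N)} (hGr : ∀ j ∈ Gr, Inv 1 (Equiv.swap j0 j) eig V a lam)
    (hπ : ∀ j ∈ Gr, ∀ σ : Fin N → Bool, (fun i => σ (Equiv.swap j0 j i)) ∈ A ↔ σ ∈ A) :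
    (Gr.card : ℝ) * EE (n := n) hA μ eig t V a lam (fun _ _ ω => zf ω.1.2.1 g j0 ^ 2) ≤
      EE (n := n) hA μ eig t V a lam (fun _ _ ω => ∑ j, zf ω.1.2.1 g j ^ 2) :=
  EE_col_le (t := t) hμ (O := fun j _ _ ω => zf ω.1.2.1 g j ^ 2) (colEqv_z_sq g) hGr hπ
    (fun _ _ _ => continuous_const) (fun _ _ _ _ => sq_nonneg _) (fun _ _ => continuous_const)
    (fun _ _ _ _ => le_rfl)

/-! ### Constructors for the hypotheses -/

theorem swap_fix {κ : Type*} {f : Fin N → κ} {j j' : Fin N} (h : f j = f j') (i : Fin N) :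
    f (Equiv.swap j j' i) = f i := by
  rw [Equiv.swap_apply_def]
  split_ifs with h1 h2
  · rw [h1, h]
  · rw [h2, h]
  · rfl

/-- swap of two sites with the same main strengths, `V` invariant -/
theorem Inv.col_swap {j0 j : Fin N} (ha : a j0 = a j)
    (hV : ∀ σ : Fin N → Bool, V (fun i => σ (Equiv.swap j0 j i)) = V σ) :
    Inv 1 (Equiv.swap j0 j) eig V a lam :=
  ⟨fun _ => rfl, fun _ => rfl, swap_fix ha, hV⟩

/-- swap of two rows with the same eigenvalue and the same small strengths -/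
theorem Inv.row_swap {i0 i : Fin N} (heig : eig i0 = eig i) (hlam : lam i0 = lam i) :
    Inv (Equiv.swap i0 i) 1 eig V a lam :=
  ⟨swap_fix heig, swap_fix hlam, fun _ => rfl, fun _ => rfl⟩

theorem univ_mem_iff (π : Equiv.Perm (Fin N)) (σ : Fin N → Bool) :
    (fun i => σ (π i)) ∈ (univ : Finset (Fin N → Bool)) ↔ σ ∈ (univ : Finset (Fin N → Bool)) := by
  simp

end

end Crest.Agent.R164.GX
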