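import Crest.Agent.R164.TLaw
import Crest.Agent.R164.GXch3

/-!
# Row 164, L side (helper278): moments under the true law of the step, part 2

`(TL1)`: second moments of `Z0`, `Z1`, `FF`, `L2` under the step law.
-/

set_option autoImplicit false

namespace Crest.Agent.R164.TLaw

open Finset MeasureTheory Crest.Agent.R141 Crest.Agent.R164 Crest.Agent.R164.PF
  Crest.Agent.R164.Haar Crest.Agent.R164.ED
open Crest.ProbabilityR.InvariantGlass

noncomputable section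

variable {p : Par} {N n : ℕ}

/-! ### pointwise bounds on the good event -/

/-- last column of the coupled matrix -/
theorem cplS_last {G : Fin (N + 1) → ℝ} (hG : nrm G ≠ 0) (V : Mat (Fin N)) (i : Fin (N + 1)) :
    cplS V G i (Fin.last N) = un G i := by
  unfold cplS
  rw [Matrix.mul_apply, Fin.sum_univ_castSucc]
  simp only [Matrix.of_apply, ext_castSucc_last, mul_zero, Finset.sum_const_zero, zero_add,
    ext_last_last, mul_one]
  exact Qs_last (sum_un hG) i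

theorem abs_un_le {G : Fin (N + 1) → ℝ} (hG : nrm G ≠ 0) (i : Fin (N + 1)) : |un G i| ≤ 1 := by
  have hu1 : un G i ^ 2 ≤ 1 := by
    rw [← sum_un hG]
    exact Finset.single_le_sum (f := fun i => un G i ^ 2) (fun i _ => sq_nonneg _)
      (Finset.mem_univ _)
  rw [← sq_abs] at hu1
  exact (sq_le_one_iff₀ (abs_nonneg _)).1 hu1

theorem abs_sg (u : Fin (N + 1) → ℝ) : |sg u| = 1 := by
  have : |sg u| ^ 2 = 1 := by rw [sq_abs, sq]; exact sg_mul_self _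
  exact (pow_eq_one_iff_of_nonneg (abs_nonneg _) two_ne_zero).1 this

/-- the last coordinate of `U s` for the coupled matrix -/
abbrev Xl (V : Mat (Fin N)) (G : Fin (N + 1) → ℝ) (σ : Fin N → Bool) (b : Bool) : ℝ :=
  SY.xU (Matrix.of (cplS V G)) (Fin.snoc (α := fun _ => Bool) σ b) (Fin.last N)

theorem abs_gz_le {G : Fin (N + 1) → ℝ} (hG : nrm G ≠ 0) (V : Mat (Fin N))
    (σ : Fin N → Bool) (b : Bool) : |gz G (SY.xU (Matrix.of V) σ)| ≤ |Xl V G σ b| + 1 := by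
  have h := xU_last hG V σ b
  have h1 : |gz G (SY.xU (Matrix.of V) σ)| = |sg (un G) * gz G (SY.xU (Matrix.of V) σ)| := by
    rw [abs_mul, abs_sg, one_mul]
  have h2 : sg (un G) * gz G (SY.xU (Matrix.of V) σ) =
      Xl V G σ b - un G (Fin.last N) * sv b := by
    show _ = SY.xU _ _ _ - _
    rw [h]; ring
  rw [h1, h2]
  refine (abs_sub _ _).trans ?_
  have h3 : |un G (Fin.last N) * sv b| ≤ 1 := by
    rw [abs_mul, sv_abs, mul_one]; exact abs_un_le hG _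
  linarith

theorem Z0_eq (hN : 1 ≤ N) {G : Fin (N + 1) → ℝ} (hG : G ∈ Gd N) (V : Mat (Fin N))
    (σ : Fin N → Bool) : Z0 V G σ = nu G * gz G (SY.xU (Matrix.of V) σ) := by
  rw [gz_eq hN]
  unfold Z0
  field_simp [(nu_pos hN hG).ne']

/-- bound of `Z0` -/
theorem Z0_sq_le (hN : 1 ≤ N) {G : Fin (N + 1) → ℝ} (hG : G ∈ Gd N) (V : Mat (Fin N))
    (σ : Fin N → Bool) (b : Bool) : Z0 V G σ ^ 2 ≤ 8 * Xl V G σ b ^ 2 + 8 := by
  rw [Z0_eq hN hG, mul_pow]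
  have h1 := nu_mem hN hG
  have h2 : nu G ^ 2 ≤ 4 := by nlinarith [h1.1, h1.2]
  have h3 := abs_gz_le (nrm_ne hG) V σ b
  have h4 : gz G (SY.xU (Matrix.of V) σ) ^ 2 ≤ 2 * Xl V G σ b ^ 2 + 2 := by
    have a1 := abs_nonneg (gz G (SY.xU (Matrix.of V) σ))
    have a2 := abs_nonneg (Xl V G σ b)
    have h5 := sq_le_sq' (by linarith) h3
    rw [sq_abs] at h5
    have h6 := sq_abs (Xl V G σ b)
    nlinarith [sq_nonneg (|Xl V G σ b| - 1)]
  calc nu G ^ 2 * gz G (SY.xU (Matrix.of V) σ) ^ 2 ≤ 4 * (2 * Xl V G σ b ^ 2 + 2) :=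
        mul_le_mul h2 h4 (sq_nonneg _) (by norm_num)
    _ = _ := by ring

theorem Js_last {G : Fin (N + 1) → ℝ} (hG : nrm G ≠ 0) (V : Mat (Fin N))
    (eig : Fin (N + 1) → ℝ) (σ : Fin N → Bool) (b : Bool) :
    GX.Js eig (cplS V G) (Fin.snoc (α := fun _ => Bool) σ b) (Fin.last N) =
      gk G (fun i => eig i.castSucc) (SY.xU (Matrix.of V) σ) +
        mu_ (fun i => eig i.castSucc) G * (sv b - rr G * gz G (SY.xU (Matrix.of V) σ)) +
        un G (Fin.last N) * (eig (Fin.last N) * Xl V G σ b) := by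
  unfold GX.Js
  rw [Fin.sum_univ_castSucc]
  simp only [cplS_last hG, xU_castSucc hG]
  congr 1
  unfold gk mu_
  rw [Finset.sum_mul, ← Finset.sum_add_distrib]
  refine Finset.sum_congr rfl fun i _ => ?_
  ring

theorem abs_mu_le {G : Fin (N + 1) → ℝ} (hG : nrm G ≠ 0) {e : Fin N → ℝ} {Λ : ℝ}
    (hΛ0 : 0 ≤ Λ) (he : ∀ i, |e i| ≤ Λ) : |mu_ e G| ≤ Λ := by
  unfold mu_
  refine (Finset.abs_sum_le_sum_abs _ _).trans ?_
  have h1 : ∑ i : Fin N, |e i * un G i.castSucc ^ 2| ≤ ∑ i : Fin N, Λ * un G i.castSucc ^ 2 := by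
    refine Finset.sum_le_sum fun i _ => ?_
    rw [abs_mul, abs_of_nonneg (sq_nonneg (un G i.castSucc))]
    exact mul_le_mul_of_nonneg_right (he i) (sq_nonneg _)
  refine h1.trans ?_
  rw [← Finset.mul_sum]
  have h2 : ∑ i : Fin N, un G i.castSucc ^ 2 ≤ 1 := by
    have := sum_un hG
    rw [Fin.sum_univ_castSucc] at this
    linarith [sq_nonneg (un G (Fin.last N))]
  calc Λ * ∑ i : Fin N, un G i.castSucc ^ 2 ≤ Λ * 1 := mul_le_mul_of_nonneg_left h2 hΛ0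
    _ = Λ := mul_one _

theorem Z1_eq (hN : 1 ≤ N) {G : Fin (N + 1) → ℝ} (hG : G ∈ Gd N) (V : Mat (Fin N))
    (eig : Fin (N + 1) → ℝ) (σ : Fin N → Bool) :
    Z1 eig V G σ = nu G * gk G (fun i => eig i.castSucc) (SY.xU (Matrix.of V) σ) := by
  rw [gk_eq hN]
  unfold Z1
  field_simp [(nu_pos hN hG).ne']

/-- bound of `Z1` -/
theorem Z1_sq_le (hN : 1 ≤ N) {G : Fin (N + 1) → ℝ} (hG : G ∈ Gd N) (V : Mat (Fin N))
    {eig : Fin (N + 1) → ℝ} {Λ : ℝ} (hΛ : ∀ i, |eig i| ≤ Λ) (σ : Fin N → Bool) (b : Bool) :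
    Z1 eig V G σ ^ 2 ≤ 12 * GX.Js eig (cplS V G) (Fin.snoc (α := fun _ => Bool) σ b)
      (Fin.last N) ^ 2 + 48 * Λ ^ 2 * Xl V G σ b ^ 2 + 48 * Λ ^ 2 := by
  have hΛ0 : 0 ≤ Λ := (abs_nonneg _).trans (hΛ (Fin.last N))
  have hn := nrm_ne hG
  have h1 := nu_mem hN hG
  have h2 : nu G ^ 2 ≤ 4 := by nlinarith [h1.1, h1.2]
  have h3 := abs_gz_le hn V σ b
  have h4 := Js_last hn V eig σ b
  have h5 := rr_mem G hn
  have h6 : |mu_ (fun i : Fin N => eig i.castSucc) G| ≤ Λ := abs_mu_le hn hΛ0 fun i => hΛ _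
  rw [Z1_eq hN hG, mul_pow]
  set J := GX.Js eig (cplS V G) (Fin.snoc (α := fun _ => Bool) σ b) (Fin.last N)
  set g := gk G (fun i => eig i.castSucc) (SY.xU (Matrix.of V) σ)
  set z := gz G (SY.xU (Matrix.of V) σ)
  set x := Xl V G σ b
  have h7 : g = J - mu_ (fun i : Fin N => eig i.castSucc) G * (sv b - rr G * z) -
      un G (Fin.last N) * (eig (Fin.last N) * x) := by rw [h4]; ring
  have h8 : |mu_ (fun i : Fin N => eig i.castSucc) G * (sv b - rr G * z)| ≤ Λ * (2 + |x|) := by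
    rw [abs_mul]
    refine mul_le_mul h6 ?_ (abs_nonneg _) hΛ0
    refine (abs_sub _ _).trans ?_
    rw [sv_abs, abs_mul, abs_of_nonneg (by linarith [h5.1] : 0 ≤ rr G)]
    have : rr G * |z| ≤ 1 * (|x| + 1) := mul_le_mul h5.2 h3 (abs_nonneg _) zero_le_one
    linarith
  have h9 : |un G (Fin.last N) * (eig (Fin.last N) * x)| ≤ Λ * |x| := by
    rw [abs_mul, abs_mul]
    calc |un G (Fin.last N)| * (|eig (Fin.last N)| * |x|) ≤ 1 * (Λ * |x|) :=
          mul_le_mul (abs_un_le hn _) (mul_le_mul_of_nonneg_right (hΛ _) (abs_nonneg _))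
            (by positivity) zero_le_one
      _ = _ := one_mul _
  have h10 : |g| ≤ |J| + 2 * Λ * (1 + |x|) := by
    rw [h7]
    have e1 := abs_sub (J - mu_ (fun i : Fin N => eig i.castSucc) G * (sv b - rr G * z))
      (un G (Fin.last N) * (eig (Fin.last N) * x))
    have e2 := abs_sub J (mu_ (fun i : Fin N => eig i.castSucc) G * (sv b - rr G * z))
    linarith
  have h11 : g ^ 2 ≤ 3 * J ^ 2 + 12 * Λ ^ 2 * x ^ 2 + 12 * Λ ^ 2 := by
    have a1 := abs_nonneg g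
    have a2 := abs_nonneg J
    have a3 := mul_nonneg hΛ0 (abs_nonneg x)
    have e3 := sq_le_sq' (by linarith) h10
    rw [sq_abs] at e3
    have e4 : (|J| + 2 * Λ * (1 + |x|)) ^ 2 ≤ 3 * |J| ^ 2 + 3 * (2 * Λ) ^ 2 +
        3 * (2 * Λ * |x|) ^ 2 := by
      nlinarith [sq_nonneg (|J| - 2 * Λ), sq_nonneg (|J| - 2 * Λ * |x|),
        sq_nonneg (2 * Λ - 2 * Λ * |x|)]
    have e5 : 3 * |J| ^ 2 + 3 * (2 * Λ) ^ 2 + 3 * (2 * Λ * |x|) ^ 2 =
        3 * J ^ 2 + 12 * Λ ^ 2 * x ^ 2 + 12 * Λ ^ 2 := by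
      rw [sq_abs, mul_pow (2 * Λ) |x|, sq_abs]; ring
    linarith
  calc nu G ^ 2 * g ^ 2 ≤ 4 * (3 * J ^ 2 + 12 * Λ ^ 2 * x ^ 2 + 12 * Λ ^ 2) :=
        mul_le_mul h2 h11 (sq_nonneg _) (by norm_num)
    _ = _ := by ring

variable {lam : Fin (N + 1) → Fin p.nc → ℝ}

theorem sphi_gl_last (hnb : p.nb = 0) (w : OU p N n × LS p n) (b : Bool) :
    GX.sphi lam (gl hnb (w, b)).1.2.2 (Fin.last N) = L2 lam w.2 := by
  unfold GX.sphi L2
  refine Finset.sum_congr rfl fun g _ => ?_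
  exact congrArg (fun t => lam (Fin.last N) g * t) (zf_gl2_last w.1.1 w.2 b g)

theorem sphi_gl_castSucc (hnb : p.nb = 0) (w : OU p N n × LS p n) (b : Bool) (i : Fin N) :
    GX.sphi lam (gl hnb (w, b)).1.2.2 i.castSucc =
      ∑ g, lam i.castSucc g * SY.zf w.1.1.2.2 g i := by
  unfold GX.sphi
  refine Finset.sum_congr rfl fun g _ => ?_
  exact congrArg (fun t => lam i.castSucc g * t) (zf_gl2_castSucc w.1.1 w.2 b g i)

theorem sum_sphi_gl (hnb : p.nb = 0) {G : Fin (N + 1) → ℝ} (hG : nrm G ≠ 0) (V : Mat (Fin N))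
    (w : OU p N n × LS p n) (b : Bool) :
    ∑ i, GX.sphi lam (gl hnb (w, b)).1.2.2 i * cplS V G i (Fin.last N) =
      FF lam G w.1.1 + L2 lam w.2 * un G (Fin.last N) := by
  rw [Fin.sum_univ_castSucc]
  simp only [cplS_last hG, sphi_gl_last, sphi_gl_castSucc]
  congr 1
  unfold FF
  rw [Finset.sum_comm]
  refine Finset.sum_congr rfl fun i _ => ?_
  rw [Finset.sum_mul]
  refine Finset.sum_congr rfl fun g _ => ?_
  ring

/-- bound of `FF` -/
theorem FF_sq_le (hnb : p.nb = 0) {G : Fin (N + 1) → ℝ} (hG : nrm G ≠ 0) (V : Mat (Fin N))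
    (w : OU p N n × LS p n) (b : Bool) :
    FF lam G w.1.1 ^ 2 ≤
      2 * (∑ i, GX.sphi lam (gl hnb (w, b)).1.2.2 i * cplS V G i (Fin.last N)) ^ 2 +
        2 * GX.sphi lam (gl hnb (w, b)).1.2.2 (Fin.last N) ^ 2 := by
  rw [sum_sphi_gl hnb hG V w b, sphi_gl_last]
  have h1 := abs_un_le hG (Fin.last N)
  have h2 : un G (Fin.last N) ^ 2 ≤ 1 := by
    rw [← sq_abs]; exact pow_le_one₀ (abs_nonneg _) h1
  have h3 : (L2 lam w.2 * un G (Fin.last N)) ^ 2 ≤ L2 lam w.2 ^ 2 := by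
    rw [mul_pow]
    calc L2 lam w.2 ^ 2 * un G (Fin.last N) ^ 2 ≤ L2 lam w.2 ^ 2 * 1 :=
          mul_le_mul_of_nonneg_left h2 (sq_nonneg _)
      _ = _ := mul_one _
  have e : FF lam G w.1.1 = (FF lam G w.1.1 + L2 lam w.2 * un G (Fin.last N)) -
      L2 lam w.2 * un G (Fin.last N) := by ring
  set P := FF lam G w.1.1 + L2 lam w.2 * un G (Fin.last N)
  set Q := L2 lam w.2 * un G (Fin.last N)
  rw [e]
  nlinarith [sq_nonneg (P + Q)]

/-! ### admissible observables -/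

theorem bdd_of_fin (f : OU p (N + 1) n → ℝ) (ω : OU p (N + 1) n) : f ω ≤ ∑ ω', |f ω'| :=
  (le_abs_self _).trans (Finset.single_le_sum (f := fun ω' => |f ω'|) (fun _ _ => abs_nonneg _)
    (Finset.mem_univ ω))

variable {O O' : Mat (Fin (N + 1)) → DD p (N + 1) → OU p (N + 1) n → ℝ}

theorem Adm.add (h : Adm O) (h' : Adm O') : Adm (fun U d ω => O U d ω + O' U d ω) where
  meas d ω := (h.meas d ω).add (h'.meas d ω)
  nn U d ω := add_nonneg (h.nn U d ω) (h'.nn U d ω)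
  bdd := by
    obtain ⟨C, hC⟩ := h.bdd
    obtain ⟨C', hC'⟩ := h'.bdd
    exact ⟨C + C', fun U hU d ω => add_le_add (hC U hU d ω) (hC' U hU d ω)⟩

theorem Adm.smul (h : Adm O) {c : ℝ} (hc : 0 ≤ c) : Adm (fun U d ω => c * O U d ω) where
  meas d ω := (h.meas d ω).const_mul c
  nn U d ω := mul_nonneg hc (h.nn U d ω)
  bdd := by
    obtain ⟨C, hC⟩ := h.bdd
    exact ⟨c * C, fun U hU d ω => mul_le_mul_of_nonneg_left (hC U hU d ω) hc⟩

theorem adm_const {c : ℝ} (hc : 0 ≤ c) :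
    Adm (fun (_ : Mat (Fin (N + 1))) (_ : DD p (N + 1)) (_ : OU p (N + 1) n) => c) where
  meas _ _ := measurable_const
  nn _ _ _ := hc
  bdd := ⟨c, fun _ _ _ _ => le_rfl⟩

theorem adm_x (i : Fin (N + 1)) : Adm (fun (U : Mat (Fin (N + 1))) (_ : DD p (N + 1))
    (ω : OU p (N + 1) n) => SY.xU (Matrix.of U) ω.1.1.1 i ^ 2) where
  meas _ ω := (GX.continuous_x_sq i ω).measurable
  nn _ _ _ := sq_nonneg _
  bdd := by
    refine ⟨((N + 1 : ℕ) : ℝ), fun U hU _ ω => ?_⟩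
    rw [← GX.sum_xU_sq hU ω.1.1.1]
    exact Finset.single_le_sum (f := fun i => SY.xU (Matrix.of U) ω.1.1.1 i ^ 2)
      (fun _ _ => sq_nonneg _) (Finset.mem_univ i)

theorem adm_Js (eig : Fin (N + 1) → ℝ) (j : Fin (N + 1)) :
    Adm (fun (U : Mat (Fin (N + 1))) (_ : DD p (N + 1))
      (ω : OU p (N + 1) n) => GX.Js eig U ω.1.1.1 j ^ 2) where
  meas _ ω := ((GX.continuous_Js ω.1.1.1 j).pow 2).measurable
  nn _ _ _ := sq_nonneg _
  bdd := by
    refine ⟨(∑ i, |eig i|) ^ 2 * ((N + 1 : ℕ) : ℝ), fun U hU _ ω => ?_⟩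
    have h1 : ∀ i, |eig i| ≤ ∑ i, |eig i| := fun i =>
      Finset.single_le_sum (f := fun i => |eig i|) (fun _ _ => abs_nonneg _) (Finset.mem_univ i)
    refine le_trans ?_ (GX.sum_Js_sq h1 hU ω.1.1.1)
    exact Finset.single_le_sum (f := fun j => GX.Js eig U ω.1.1.1 j ^ 2)
      (fun _ _ => sq_nonneg _) (Finset.mem_univ j)

theorem adm_sphi (i : Fin (N + 1)) :
    Adm (fun (_ : Mat (Fin (N + 1))) (_ : DD p (N + 1))
      (ω : OU p (N + 1) n) => GX.sphi lam ω.1.2.2 i ^ 2) where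
  meas _ _ := measurable_const
  nn _ _ _ := sq_nonneg _
  bdd := ⟨∑ ω : OU p (N + 1) n, |GX.sphi lam ω.1.2.2 i ^ 2|, fun _ _ _ ω =>
    bdd_of_fin (fun ω => GX.sphi lam ω.1.2.2 i ^ 2) ω⟩

theorem adm_sphiU (j : Fin (N + 1)) :
    Adm (fun (U : Mat (Fin (N + 1))) (_ : DD p (N + 1))
      (ω : OU p (N + 1) n) => (∑ i, GX.sphi lam ω.1.2.2 i * U i j) ^ 2) where
  meas _ ω := by
    refine Measurable.pow_const ?_ 2
    refine Finset.measurable_sum _ fun i _ => Measurable.const_mul ?_ _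
    exact (measurable_pi_apply j).comp (measurable_pi_apply i)
  nn _ _ _ := sq_nonneg _
  bdd := by
    refine ⟨∑ ω : OU p (N + 1) n, |∑ i, GX.sphi lam ω.1.2.2 i ^ 2|, fun U hU _ ω => ?_⟩
    refine le_trans ?_ (bdd_of_fin (fun ω => ∑ i, GX.sphi lam ω.1.2.2 i ^ 2) ω)
    have h1 := GX.OK_norm_col (U := U) hU (fun i => GX.sphi lam ω.1.2.2 i)
    show _ ≤ ∑ i, GX.sphi lam ω.1.2.2 i ^ 2
    rw [← h1]
    have h2 : (∑ i, GX.sphi lam ω.1.2.2 i * U i j) ^ 2 =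
        (∑ i, U i j * GX.sphi lam ω.1.2.2 i) ^ 2 := by
      congr 1
      exact Finset.sum_congr rfl fun i _ => mul_comm _ _
    rw [h2]
    exact Finset.single_le_sum (f := fun j => (∑ i, U i j * GX.sphi lam ω.1.2.2 i) ^ 2)
      (fun _ _ => sq_nonneg _) (Finset.mem_univ j)

/-! ### (TL1) -/

section main

variable {eig : Fin (N + 1) → ℝ} {W0 : (Fin N → Bool) → ℝ} {W1 : (Fin (N + 1) → Bool) → ℝ}
  {a : Fin (N + 1) → Fin p.nc → ℝ}
  {μ : Measure (Mat (Fin N))} [IsProbabilityMeasure μ]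
  {ν : Measure (Mat (Fin (N + 1)))} [IsProbabilityMeasure ν]

theorem EE1_add (hν : RHaar ν) (O O' : Mat (Fin (N + 1)) → DD p (N + 1) → OU p (N + 1) n → ℝ)
    (hO : ∀ d ω, Continuous fun U => O U d ω) (hO' : ∀ d ω, Continuous fun U => O' U d ω) :
    EE1 eig W1 a lam ν (fun U d ω => O U d ω + O' U d ω) =
      EE1 eig W1 a lam ν O + EE1 eig W1 a lam ν O' := GX.EE_add hν hO hO'

theorem EE1_smul (c : ℝ) (O : Mat (Fin (N + 1)) → DD p (N + 1) → OU p (N + 1) n → ℝ) :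
    EE1 eig W1 a lam ν (fun U d ω => c * O U d ω) = c * EE1 eig W1 a lam ν O := GX.EE_smul c O

theorem EE1_const (c : ℝ) :
    EE1 (n := n) eig W1 a lam ν (fun _ _ _ => c) = c := GX.EE_const (Nat.succ_pos N) c

theorem EE1_x_le (hν : RHaar ν) {Cl : Finset (Fin (N + 1))}
    (hCl : ∀ i ∈ Cl, GX.Inv (Equiv.swap (Fin.last N) i) 1 eig W1 a lam) (hc : Cl.Nonempty) :
    EE1 (n := n) eig W1 a lam ν (fun U _ ω => SY.xU (Matrix.of U) ω.1.1.1 (Fin.last N) ^ 2) ≤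
      ((N : ℝ) + 1) / Cl.card := by
  have h := GX.T1 (n := n) (hA := univ_nonempty) (t := 1) hν (Nat.succ_pos N) hCl
  have hc' : (0 : ℝ) < Cl.card := by exact_mod_cast hc.card_pos
  rw [le_div_iff₀ hc', mul_comm]
  push_cast at h
  exact h

theorem measurable_xUV (σ : Fin N → Bool) (i : Fin N) :
    Measurable fun q : Mat (Fin N) × (Fin (N + 1) → ℝ) => SY.xU (Matrix.of q.1) σ i :=
  (GX.continuous_xU σ i).measurable.comp measurable_fst

theorem measurable_G (i : Fin (N + 1)) :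
    Measurable fun q : Mat (Fin N) × (Fin (N + 1) → ℝ) => q.2 i :=
  (measurable_pi_apply i).comp measurable_snd

theorem measurable_Z0 (σ : Fin N → Bool) :
    Measurable fun q : Mat (Fin N) × (Fin (N + 1) → ℝ) => Z0 q.1 q.2 σ := by
  unfold Z0 zc
  exact Measurable.const_mul (Finset.measurable_sum _ fun i _ =>
    (measurable_G _).mul (measurable_xUV σ i)) _

theorem measurable_Z1 (eig : Fin (N + 1) → ℝ) (σ : Fin N → Bool) :
    Measurable fun q : Mat (Fin N) × (Fin (N + 1) → ℝ) => Z1 eig q.1 q.2 σ := by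
  unfold Z1 zc
  exact Measurable.const_mul (Finset.measurable_sum _ fun i _ =>
    (measurable_G _).mul ((measurable_xUV σ i).const_mul _)) _

theorem measurable_FF (s : SY.SS p n (univ : Finset (Fin N → Bool))) :
    Measurable fun q : Mat (Fin N) × (Fin (N + 1) → ℝ) => FF lam q.2 s := by
  unfold FF
  refine Finset.measurable_sum _ fun g _ => Finset.measurable_sum _ fun i _ =>
    Measurable.const_mul (Measurable.const_mul ?_ _) _
  exact (measurable_un _).comp measurable_snd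

/-- **(TL1)** for `Z0` -/
theorem tl1_Z0 (hnb : p.nb = 0) (hN : 0 < N) (hT : p.nc * p.T ≤ N) (hμ : RHaar μ) (hν : RHaar ν)
    {Cl : Finset (Fin (N + 1))}
    (hCl : ∀ i ∈ Cl, GX.Inv (Equiv.swap (Fin.last N) i) 1 eig W1 a lam) (hc : Cl.Nonempty) :
    IntegrableOn (ST (n := n) eig W0 W1 a lam (fun q _ w => Z0 q.1 q.2 w.1.1.1.1 ^ 2)) (GdP N)
      (μ.prod (gam (Fin (N + 1)))) ∧
    ∫ q in GdP N, ST (n := n) eig W0 W1 a lam (fun q _ w => Z0 q.1 q.2 w.1.1.1.1 ^ 2) q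
      ∂(μ.prod (gam (Fin (N + 1)))) ≤ 24 * (1 + ((N : ℝ) + 1) / Cl.card) := by
  have hO : Adm (fun (U : Mat (Fin (N + 1))) (_ : DD p (N + 1)) (ω : OU p (N + 1) n) =>
      8 * SY.xU (Matrix.of U) ω.1.1.1 (Fin.last N) ^ 2 + 8) :=
    ((adm_x (Fin.last N)).smul (by norm_num)).add (adm_const (by norm_num))
  have h := ST_main (eig := eig) (W0 := W0) (W1 := W1) (a := a) (lam := lam)
    (F := fun q _ w => Z0 q.1 q.2 w.1.1.1.1 ^ 2) hnb hN hT hμ hν hO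
    (fun d w => (measurable_Z0 w.1.1.1.1).pow_const 2) (fun q d w => sq_nonneg _)
    (fun q hq d w b => Z0_sq_le hN hq q.1 w.1.1.1.1 b)
  refine ⟨h.1, h.2.trans ?_⟩
  have e : EE1 (n := n) eig W1 a lam ν (fun U _ ω =>
      8 * SY.xU (Matrix.of U) ω.1.1.1 (Fin.last N) ^ 2 + 8) =
      8 * EE1 (n := n) eig W1 a lam ν
        (fun U _ ω => SY.xU (Matrix.of U) ω.1.1.1 (Fin.last N) ^ 2) + 8 := by
    rw [EE1_add hν (fun U _ ω => 8 * SY.xU (Matrix.of U) ω.1.1.1 (Fin.last N) ^ 2)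
      (fun _ _ _ => 8) (fun d ω => (GX.continuous_x_sq (Fin.last N) ω).const_mul 8)
      (fun _ _ => continuous_const), EE1_smul 8
        (fun U _ ω => SY.xU (Matrix.of U) ω.1.1.1 (Fin.last N) ^ 2), EE1_const]
  have h1 := EE1_x_le (n := n) hν hCl hc
  rw [e]
  linarith

/-- **(TL1)** for `Z1` -/
theorem tl1_Z1 (hnb : p.nb = 0) (hN : 0 < N) (hT : p.nc * p.T ≤ N) (hμ : RHaar μ) (hν : RHaar ν)
    {Λ : ℝ} (hΛ : ∀ i, |eig i| ≤ Λ) {Cl Gr : Finset (Fin (N + 1))}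
    (hCl : ∀ i ∈ Cl, GX.Inv (Equiv.swap (Fin.last N) i) 1 eig W1 a lam) (hc : Cl.Nonempty)
    (hGr : ∀ j ∈ Gr, GX.Inv 1 (Equiv.swap (Fin.last N) j) eig W1 a lam) (hg : Gr.Nonempty) :
    IntegrableOn (ST (n := n) eig W0 W1 a lam (fun q _ w => Z1 eig q.1 q.2 w.1.1.1.1 ^ 2)) (GdP N)
      (μ.prod (gam (Fin (N + 1)))) ∧
    ∫ q in GdP N, ST (n := n) eig W0 W1 a lam (fun q _ w => Z1 eig q.1 q.2 w.1.1.1.1 ^ 2) q
      ∂(μ.prod (gam (Fin (N + 1)))) ≤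
      144 * Λ ^ 2 * (1 + ((N : ℝ) + 1) / Cl.card + ((N : ℝ) + 1) / Gr.card) := by
  have hO : Adm (fun (U : Mat (Fin (N + 1))) (_ : DD p (N + 1)) (ω : OU p (N + 1) n) =>
      12 * GX.Js eig U ω.1.1.1 (Fin.last N) ^ 2 +
        (48 * Λ ^ 2) * SY.xU (Matrix.of U) ω.1.1.1 (Fin.last N) ^ 2 + 48 * Λ ^ 2) :=
    (((adm_Js eig (Fin.last N)).smul (by norm_num)).add ((adm_x (Fin.last N)).smul
      (by positivity))).add (adm_const (by positivity))
  have h := ST_main (eig := eig) (W0 := W0) (W1 := W1) (a := a) (lam := lam)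
    (F := fun q _ w => Z1 eig q.1 q.2 w.1.1.1.1 ^ 2) hnb hN hT hμ hν hO
    (fun d w => (measurable_Z1 eig w.1.1.1.1).pow_const 2) (fun q d w => sq_nonneg _)
    (fun q hq d w b => Z1_sq_le hN hq q.1 hΛ w.1.1.1.1 b)
  refine ⟨h.1, h.2.trans ?_⟩
  have e : EE1 (n := n) eig W1 a lam ν (fun U _ ω =>
      12 * GX.Js eig U ω.1.1.1 (Fin.last N) ^ 2 +
        (48 * Λ ^ 2) * SY.xU (Matrix.of U) ω.1.1.1 (Fin.last N) ^ 2 + 48 * Λ ^ 2) =
      12 * EE1 (n := n) eig W1 a lam ν (fun U _ ω => GX.Js eig U ω.1.1.1 (Fin.last N) ^ 2) +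
      (48 * Λ ^ 2) * EE1 (n := n) eig W1 a lam ν
        (fun U _ ω => SY.xU (Matrix.of U) ω.1.1.1 (Fin.last N) ^ 2) + 48 * Λ ^ 2 := by
    have c1 : ∀ (d : DD p (N + 1)) (ω : OU p (N + 1) n), Continuous
        fun U : Mat (Fin (N + 1)) => 12 * GX.Js eig U ω.1.1.1 (Fin.last N) ^ 2 := fun d ω =>
      ((GX.continuous_Js ω.1.1.1 (Fin.last N)).pow 2).const_mul 12
    have c2 : ∀ (d : DD p (N + 1)) (ω : OU p (N + 1) n), Continuous
        fun U : Mat (Fin (N + 1)) => (48 * Λ ^ 2) *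
          SY.xU (Matrix.of U) ω.1.1.1 (Fin.last N) ^ 2 := fun d ω =>
      (GX.continuous_x_sq (Fin.last N) ω).const_mul _
    rw [EE1_add hν (fun U _ ω => 12 * GX.Js eig U ω.1.1.1 (Fin.last N) ^ 2 +
        (48 * Λ ^ 2) * SY.xU (Matrix.of U) ω.1.1.1 (Fin.last N) ^ 2) (fun _ _ _ => 48 * Λ ^ 2)
        (fun d ω => (c1 d ω).add (c2 d ω)) (fun _ _ => continuous_const),
      EE1_add hν (fun U _ ω => 12 * GX.Js eig U ω.1.1.1 (Fin.last N) ^ 2)
        (fun U _ ω => (48 * Λ ^ 2) * SY.xU (Matrix.of U) ω.1.1.1 (Fin.last N) ^ 2) c1 c2,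
      EE1_smul 12 (fun U _ ω => GX.Js eig U ω.1.1.1 (Fin.last N) ^ 2),
      EE1_smul (48 * Λ ^ 2) (fun U _ ω => SY.xU (Matrix.of U) ω.1.1.1 (Fin.last N) ^ 2), EE1_const]
  have h1 := EE1_x_le (n := n) hν hCl hc
  have h2 := GX.T2 (n := n) (hA := univ_nonempty) (t := 1) hν (Nat.succ_pos N) hΛ hGr
    (fun j _ => GX.univ_mem_iff _)
  have hg' : (0 : ℝ) < Gr.card := by exact_mod_cast hg.card_pos
  have h3 : EE1 (n := n) eig W1 a lam ν (fun U _ ω => GX.Js eig U ω.1.1.1 (Fin.last N) ^ 2) ≤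
      Λ ^ 2 * (((N : ℝ) + 1) / Gr.card) := by
    rw [← mul_div_assoc, le_div_iff₀ hg', mul_comm]
    push_cast at h2
    exact h2
  rw [e]
  have h4 : (48 * Λ ^ 2) * EE1 (n := n) eig W1 a lam ν
        (fun U _ ω => SY.xU (Matrix.of U) ω.1.1.1 (Fin.last N) ^ 2) ≤
      (48 * Λ ^ 2) * (((N : ℝ) + 1) / Cl.card) := mul_le_mul_of_nonneg_left h1 (by positivity)
  have h5 : 0 ≤ Λ ^ 2 * (((N : ℝ) + 1) / Gr.card) := by positivity
  nlinarith

/-- the average of `Σ φ_i²` -/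
def Eφ (n : ℕ) (eig : Fin (N + 1) → ℝ) (W1 : (Fin (N + 1) → Bool) → ℝ)
    (a lam : Fin (N + 1) → Fin p.nc → ℝ) (ν : Measure (Mat (Fin (N + 1)))) : ℝ :=
  EE1 (n := n) eig W1 a lam ν (fun _ _ ω => ∑ i, GX.sphi lam ω.1.2.2 i ^ 2)

theorem Eφ_le (hν : RHaar ν) {C : ℝ}
    (h : ∀ U : Mat (Fin (N + 1)), Matrix.of U ∈ Matrix.orthogonalGroup (Fin (N + 1)) ℝ → ∀ d,
      eE (G.PP (BU p (N + 1) n) (HN1 eig W1 a lam U) d)
        (fun ω => ∑ i, (∑ g, lam i g * SY.zf ω.1.2.2 g i) ^ 2) ≤ C) :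
    Eφ n eig W1 a lam ν ≤ C := by
  have h1 : ∫ _U : Mat (Fin (N + 1)), C ∂ν = C := by simp
  rw [← h1]
  unfold Eφ EE1 GX.EE
  refine integral_mono_ae (GX.integrable_Ed hν fun _ _ => continuous_const)
    (integrable_const _) ?_
  filter_upwards [hν.mem] with U hU
  refine le_trans (Ed_mono p (N + 1) fun d => h U hU d) (le_of_eq ?_)
  exact Ed_const p (Nat.succ_pos N) C

theorem EE1_sphi_le (hν : RHaar ν) {Cl : Finset (Fin (N + 1))}
    (hCl : ∀ i ∈ Cl, GX.Inv (Equiv.swap (Fin.last N) i) 1 eig W1 a lam) (hc : Cl.Nonempty) :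
    EE1 (n := n) eig W1 a lam ν (fun _ _ ω => GX.sphi lam ω.1.2.2 (Fin.last N) ^ 2) ≤
      Eφ n eig W1 a lam ν / Cl.card := by
  have h := GX.T4' (n := n) (hA := univ_nonempty) (t := 1) hν hCl
  have hc' : (0 : ℝ) < Cl.card := by exact_mod_cast hc.card_pos
  rw [le_div_iff₀ hc', mul_comm]
  exact h

/-- **(TL1)** for `L2` -/
theorem tl1_L2 (hnb : p.nb = 0) (hN : 0 < N) (hT : p.nc * p.T ≤ N) (hμ : RHaar μ) (hν : RHaar ν)
    {Cl : Finset (Fin (N + 1))}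
    (hCl : ∀ i ∈ Cl, GX.Inv (Equiv.swap (Fin.last N) i) 1 eig W1 a lam) (hc : Cl.Nonempty) :
    IntegrableOn (ST (n := n) eig W0 W1 a lam (fun _ _ w => L2 lam w.2 ^ 2)) (GdP N)
      (μ.prod (gam (Fin (N + 1)))) ∧
    ∫ q in GdP N, ST (n := n) eig W0 W1 a lam (fun _ _ w => L2 lam w.2 ^ 2) q
      ∂(μ.prod (gam (Fin (N + 1)))) ≤ 3 * (Eφ n eig W1 a lam ν / Cl.card) := by
  have h := ST_main (eig := eig) (W0 := W0) (W1 := W1) (a := a) (lam := lam)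
    (F := fun _ _ w => L2 lam w.2 ^ 2) hnb hN hT hμ hν (adm_sphi (n := n) (lam := lam) (Fin.last N))
    (fun d w => measurable_const) (fun q d w => sq_nonneg _)
    (fun q hq d w b => le_of_eq (congrArg (fun t : ℝ => t ^ 2) (sphi_gl_last hnb w b).symm))
  exact ⟨h.1, h.2.trans (mul_le_mul_of_nonneg_left (EE1_sphi_le hν hCl hc) (by norm_num))⟩

/-- **(TL1)** for `FF` -/
theorem tl1_FF (hnb : p.nb = 0) (hN : 0 < N) (hT : p.nc * p.T ≤ N) (hμ : RHaar μ) (hν : RHaar ν)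
    {Cl Gr : Finset (Fin (N + 1))}
    (hCl : ∀ i ∈ Cl, GX.Inv (Equiv.swap (Fin.last N) i) 1 eig W1 a lam) (hc : Cl.Nonempty)
    (hGr : ∀ j ∈ Gr, GX.Inv 1 (Equiv.swap (Fin.last N) j) eig W1 a lam) (hg : Gr.Nonempty) :
    IntegrableOn (ST (n := n) eig W0 W1 a lam (fun q _ w => FF lam q.2 w.1.1 ^ 2)) (GdP N)
      (μ.prod (gam (Fin (N + 1)))) ∧
    ∫ q in GdP N, ST (n := n) eig W0 W1 a lam (fun q _ w => FF lam q.2 w.1.1 ^ 2) q
      ∂(μ.prod (gam (Fin (N + 1)))) ≤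
      6 * (Eφ n eig W1 a lam ν / Cl.card + Eφ n eig W1 a lam ν / Gr.card) := by
  have hO : Adm (fun (U : Mat (Fin (N + 1))) (_ : DD p (N + 1)) (ω : OU p (N + 1) n) =>
      2 * (∑ i, GX.sphi lam ω.1.2.2 i * U i (Fin.last N)) ^ 2 +
        2 * GX.sphi lam ω.1.2.2 (Fin.last N) ^ 2) :=
    ((adm_sphiU (Fin.last N)).smul (by norm_num)).add ((adm_sphi (Fin.last N)).smul (by norm_num))
  have h := ST_main (eig := eig) (W0 := W0) (W1 := W1) (a := a) (lam := lam)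
    (F := fun q _ w => FF lam q.2 w.1.1 ^ 2) hnb hN hT hμ hν hO
    (fun d w => (measurable_FF w.1.1).pow_const 2) (fun q d w => sq_nonneg _)
    (fun q hq d w b => FF_sq_le hnb (nrm_ne hq) q.1 w b)
  refine ⟨h.1, h.2.trans ?_⟩
  have e : EE1 (n := n) eig W1 a lam ν (fun U _ ω =>
      2 * (∑ i, GX.sphi lam ω.1.2.2 i * U i (Fin.last N)) ^ 2 +
        2 * GX.sphi lam ω.1.2.2 (Fin.last N) ^ 2) =
      2 * EE1 (n := n) eig W1 a lam ν
        (fun U _ ω => (∑ i, GX.sphi lam ω.1.2.2 i * U i (Fin.last N)) ^ 2) +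
      2 * EE1 (n := n) eig W1 a lam ν
        (fun _ _ ω => GX.sphi lam ω.1.2.2 (Fin.last N) ^ 2) := by
    have c1 : ∀ (d : DD p (N + 1)) (ω : OU p (N + 1) n), Continuous
        fun U : Mat (Fin (N + 1)) => 2 * (∑ i, GX.sphi lam ω.1.2.2 i * U i (Fin.last N)) ^ 2 := by
      intro d ω
      refine Continuous.const_mul (Continuous.pow (continuous_finsetSum _ fun i _ =>
        Continuous.const_mul ?_ _) 2) _
      fun_prop
    rw [EE1_add hν (fun U _ ω => 2 * (∑ i, GX.sphi lam ω.1.2.2 i * U i (Fin.last N)) ^ 2)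
        (fun _ _ ω => 2 * GX.sphi lam ω.1.2.2 (Fin.last N) ^ 2) c1 (fun _ _ => continuous_const),
      EE1_smul 2 (fun U _ ω => (∑ i, GX.sphi lam ω.1.2.2 i * U i (Fin.last N)) ^ 2),
      EE1_smul 2 (fun _ _ ω => GX.sphi lam ω.1.2.2 (Fin.last N) ^ 2)]
  have h1 := EE1_sphi_le (n := n) hν hCl hc
  have h2 := GX.T3 (n := n) (hA := univ_nonempty) (t := 1) hν hGr (fun j _ => GX.univ_mem_iff _)
  have hg' : (0 : ℝ) < Gr.card := by exact_mod_cast hg.card_pos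
  have h3 : EE1 (n := n) eig W1 a lam ν
        (fun U _ ω => (∑ i, GX.sphi lam ω.1.2.2 i * U i (Fin.last N)) ^ 2) ≤
      Eφ n eig W1 a lam ν / Gr.card := by
    rw [le_div_iff₀ hg', mul_comm]
    exact h2
  rw [e]
  linarith

end main

end

end Crest.Agent.R164.TLaw
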