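import Crest.Agent.R164.EDe
import Crest.Agent.R164.EDh
import Crest.Agent.R164.TLaw2
import Crest.Agent.R164.EDp

/-!
# Row 164, L side, module E-DIFF part j (helper639): remainder terms on the good set
-/

set_option autoImplicit false

namespace Crest.Agent.R164.ED

open MeasureTheory ProbabilityTheory Filter
open Finset Crest.Agent.R141 Crest.Agent.R164 Crest.Agent.R164.PF Crest.Agent.R164.Haar
open Crest.ProbabilityR.InvariantGlass
open Crest.Agent.R164.TLaw (GdP measurableSet_GdP)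

noncomputable section

/-! ### generic integrals -/

section gen

variable {Θ : Type*} [MeasurableSpace Θ] {ρ : Measure Θ} [IsProbabilityMeasure ρ]

omit [IsProbabilityMeasure ρ] in
theorem sqrt_mul_int_le {A : Set Θ} {k G H : Θ → ℝ} (hkm : Measurable k) (hk0 : ∀ θ, 0 ≤ k θ)
    (hk : IntegrableOn k A ρ) (hGm : Measurable G) (hG0 : ∀ θ, 0 ≤ G θ)
    (hGH : ∀ θ, G θ ^ 2 ≤ H θ) (hH : IntegrableOn H A ρ) :
    IntegrableOn (fun θ => Real.sqrt (k θ) * G θ) A ρ ∧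
      ∫ θ in A, Real.sqrt (k θ) * G θ ∂ρ ≤
        Real.sqrt (∫ θ in A, k θ ∂ρ) * Real.sqrt (∫ θ in A, H θ ∂ρ) := by
  have hsm : Measurable fun θ => Real.sqrt (k θ) := hkm.sqrt
  have hG2 : IntegrableOn (fun θ => G θ ^ 2) A ρ := by
    refine hH.mono' (hGm.pow_const 2).aestronglyMeasurable (Eventually.of_forall fun θ => ?_)
    rw [Real.norm_eq_abs, abs_of_nonneg (sq_nonneg _)]
    exact hGH θ
  have hk2 : IntegrableOn (fun θ => Real.sqrt (k θ) ^ 2) A ρ := by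
    have e : (fun θ => Real.sqrt (k θ) ^ 2) = k := funext fun θ => Real.sq_sqrt (hk0 θ)
    rw [e]; exact hk
  have hkG : IntegrableOn (fun θ => Real.sqrt (k θ) * G θ) A ρ := by
    refine (hk2.add hG2).mono' (hsm.mul hGm).aestronglyMeasurable (Eventually.of_forall fun θ => ?_)
    rw [Real.norm_eq_abs, abs_of_nonneg (mul_nonneg (Real.sqrt_nonneg _) (hG0 θ))]
    show _ ≤ Real.sqrt (k θ) ^ 2 + G θ ^ 2
    nlinarith [sq_nonneg (Real.sqrt (k θ) - G θ), sq_nonneg (Real.sqrt (k θ)), sq_nonneg (G θ)]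
  refine ⟨hkG, ?_⟩
  refine (cs hk2 hG2 hkG).trans ?_
  rw [← Real.sqrt_mul (setIntegral_nonneg_of_ae_restrict (Eventually.of_forall hk0))]
  refine Real.sqrt_le_sqrt (mul_le_mul (le_of_eq ?_) ?_ (integral_nonneg fun θ => sq_nonneg _)
    (integral_nonneg hk0))
  · exact integral_congr_ae (Eventually.of_forall fun θ => Real.sq_sqrt (hk0 θ))
  · exact integral_mono hG2 hH hGH

theorem int_le_sqrt {A : Set Θ} {G H : Θ → ℝ} (hGm : Measurable G) (hG0 : ∀ θ, 0 ≤ G θ)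
    (hGH : ∀ θ, G θ ^ 2 ≤ H θ) (hH : IntegrableOn H A ρ) :
    IntegrableOn G A ρ ∧ ∫ θ in A, G θ ∂ρ ≤ Real.sqrt (∫ θ in A, H θ ∂ρ) := by
  have h := sqrt_mul_int_le (k := fun _ => (1:ℝ)) (A := A) measurable_const
    (fun _ => zero_le_one) (integrable_const _).integrableOn hGm hG0 hGH hH
  simp only [Real.sqrt_one, one_mul] at h
  refine ⟨h.1, h.2.trans ?_⟩
  have h1 : Real.sqrt (∫ _θ in A, (1:ℝ) ∂ρ) ≤ 1 := by
    rw [Real.sqrt_le_one, setIntegral_const, smul_eq_mul, mul_one]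
    exact measureReal_le_one
  exact mul_le_of_le_one_left (Real.sqrt_nonneg _) h1

variable {p : Par} {N : ℕ}

theorem sq_Ed_le (hN : 0 < N) (f : DD p N → ℝ) : Ed p N f ^ 2 ≤ Ed p N (fun d => f d ^ 2) := by
  have h1 : 0 ≤ Ed p N (fun d => (f d - Ed p N f) ^ 2) := Ed_nonneg fun d => sq_nonneg _
  have e : Ed p N (fun d => (f d - Ed p N f) ^ 2) = Ed p N (fun d => f d ^ 2) - Ed p N f ^ 2 := by
    have e1 : (fun d => (f d - Ed p N f) ^ 2) = fun d => (f d ^ 2 + (-(2 * Ed p N f)) * f d) +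
        Ed p N f ^ 2 := by
      funext d; ring
    rw [e1, Ed_add p N (fun d => f d ^ 2 + (-(2 * Ed p N f)) * f d) (fun _ => Ed p N f ^ 2),
      Ed_add, Ed_smul, Ed_const p hN]
    ring
  rw [e] at h1
  linarith

/-- **(J3)** Jensen -/
theorem j3 (hN : 0 < N) {A : Set Θ} {F : Θ → DD p N → ℝ} (hm : ∀ d, Measurable fun θ => F θ d)
    (h0 : ∀ θ d, 0 ≤ F θ d) (hi : IntegrableOn (fun θ => Ed p N (F θ)) A ρ) :
    IntegrableOn (fun θ => Ed p N (fun d => Real.sqrt (F θ d))) A ρ ∧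
      ∫ θ in A, Ed p N (fun d => Real.sqrt (F θ d)) ∂ρ ≤
        Real.sqrt (∫ θ in A, Ed p N (F θ) ∂ρ) := by
  refine int_le_sqrt (meas_Ed fun d => (hm d).sqrt) (fun θ => Ed_nonneg fun d => Real.sqrt_nonneg _)
    (fun θ => ?_) hi
  refine (sq_Ed_le hN _).trans (le_of_eq ?_)
  congr 1
  funext d
  exact Real.sq_sqrt (h0 θ d)

/-! ### averages under a law family -/

variable {Ω : Type*} [Fintype Ω]

/-- average over the pointers and over a law family (`TLaw.ST` is the case of the step law) -/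
def AV (Q F : Θ → DD p N → Ω → ℝ) (θ : Θ) : ℝ := Ed p N (fun d => eE (Q θ d) (F θ d))

/-- law family -/
structure LawF (Q : Θ → DD p N → Ω → ℝ) : Prop where
  prob : ∀ θ d, IsProb (Q θ d)
  meas : ∀ d w, Measurable fun θ => Q θ d w

variable {Q F F' : Θ → DD p N → Ω → ℝ}

theorem LawF.measurable_AV (hQ : LawF Q) (hF : ∀ d w, Measurable fun θ => F θ d w) :
    Measurable (AV Q F) := meas_Ed fun d => G.meas_eE (fun w => hQ.meas d w) (fun w => hF d w)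

theorem LawF.AV_nonneg (hQ : LawF Q) {θ : Θ} (hF : ∀ d w, 0 ≤ F θ d w) : 0 ≤ AV Q F θ :=
  Ed_nonneg fun d => eE_nonneg (hQ.prob θ d) (hF d)

theorem LawF.AV_mono (hQ : LawF Q) {θ : Θ} (hF : ∀ d w, F θ d w ≤ F' θ d w) :
    AV Q F θ ≤ AV Q F' θ := Ed_mono p N fun d => eE_mono (hQ.prob θ d) (hF d)

omit [MeasurableSpace Θ] in
theorem AV_add (Q F F' : Θ → DD p N → Ω → ℝ) (θ : Θ) :
    AV Q (fun θ d w => F θ d w + F' θ d w) θ = AV Q F θ + AV Q F' θ := by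
  unfold AV
  rw [← Ed_add]
  congr 1
  funext d
  rw [← eE_add]

omit [MeasurableSpace Θ] in
theorem AV_mul (Q F : Θ → DD p N → Ω → ℝ) (k : Θ → ℝ) (θ : Θ) :
    AV Q (fun θ d w => k θ * F θ d w) θ = k θ * AV Q F θ := by
  unfold AV
  rw [← Ed_smul]
  congr 1
  funext d
  exact eE_smul _ _ _

theorem LawF.AV_const (hQ : LawF Q) (hN : 0 < N) (c : ℝ) (θ : Θ) :
    AV Q (fun _ _ _ => c) θ = c := by
  unfold AV
  have : ∀ d, eE (Q θ d) (fun _ => c) = c := fun d => eE_const (hQ.prob θ d) c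
  simp only [this]
  exact Ed_const p hN c

theorem LawF.sq_AV_le (hQ : LawF Q) (hN : 0 < N) (θ : Θ) :
    AV Q F θ ^ 2 ≤ AV Q (fun θ d w => F θ d w ^ 2) θ := by
  unfold AV
  refine (sq_Ed_le hN _).trans (Ed_mono p N fun d => ?_)
  have h := hQ.prob θ d
  have h1 : 0 ≤ eE (Q θ d) (fun w => (F θ d w - eE (Q θ d) (F θ d)) ^ 2) :=
    eE_nonneg h fun w => sq_nonneg _
  set m := eE (Q θ d) (F θ d) with hm
  have e1 : (fun w => (F θ d w - m) ^ 2) = fun w => (F θ d w ^ 2 + (-(2 * m)) * F θ d w) + m ^ 2 := by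
    funext w; ring
  rw [e1, eE_add (Q θ d) (fun w => F θ d w ^ 2 + (-(2 * m)) * F θ d w) (fun _ => m ^ 2),
    eE_add, eE_smul, eE_const h, ← hm] at h1
  show m ^ 2 ≤ eE (Q θ d) (fun w => F θ d w ^ 2)
  nlinarith

theorem LawF.integrableOn_of_bdd (hQ : LawF Q) (hN : 0 < N) {A : Set Θ}
    (hF : ∀ d w, Measurable fun θ => F θ d w) {C : ℝ} (h0 : ∀ θ d w, 0 ≤ F θ d w)
    (hC : ∀ θ d w, F θ d w ≤ C) : IntegrableOn (AV Q F) A ρ := by
  refine Integrable.of_bound (hQ.measurable_AV hF).aestronglyMeasurable C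
    (Eventually.of_forall fun θ => ?_)
  rw [Real.norm_eq_abs, abs_of_nonneg (hQ.AV_nonneg (h0 θ))]
  refine (hQ.AV_mono (F' := fun _ _ _ => C) (hC θ)).trans (le_of_eq ?_)
  exact hQ.AV_const hN C θ

end gen

section main

variable {p : Par} {N n : ℕ} {μ : Measure (Mat (Fin N))} [IsProbabilityMeasure μ]
  {eig : Fin (N + 1) → ℝ} {lam : Fin (N + 1) → Fin p.nc → ℝ} {Λ m1 S z0 z1 fz lz : ℝ}
  {Q : Mat (Fin N) × (Fin (N + 1) → ℝ) → DD p N → OU p N n × LS p n → ℝ}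

theorem rho_GdP (f : (Fin (N + 1) → ℝ) → ℝ) :
    ∫ q in GdP N, f q.2 ∂(rho μ) = ∫ G in Gd N, f G ∂(gam (Fin (N + 1))) := by
  have h1 : (fun q : Mat (Fin N) × (Fin (N + 1) → ℝ) => (GdP N).indicator (fun q => f q.2) q) =
      fun q => (Gd N).indicator f q.2 := by
    funext q
    rfl
  rw [← integral_indicator measurableSet_GdP, ← integral_indicator measurableSet_Gd, h1]
  have := integral_fun_snd (μ := μ) (ν := gam (Fin (N + 1))) ((Gd N).indicator f)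
  rw [this]
  simp

theorem rho_intOn {f : (Fin (N + 1) → ℝ) → ℝ} (hf : IntegrableOn f (Gd N) (gam (Fin (N + 1)))) :
    IntegrableOn (fun q : Mat (Fin N) × (Fin (N + 1) → ℝ) => f q.2) (GdP N) (rho μ) := by
  rw [← integrable_indicator_iff measurableSet_GdP]
  have h1 : (GdP N).indicator (fun q : Mat (Fin N) × (Fin (N + 1) → ℝ) => f q.2) =
      fun q => (Gd N).indicator f q.2 := by
    funext q
    rfl
  rw [h1]
  exact ((integrable_indicator_iff measurableSet_Gd).2 hf).comp_snd μ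

theorem intgOn_kp (hN : 1 ≤ N) {e : Fin N → ℝ} (he : ∀ i, |e i| ≤ Λ) (m1 : ℝ) :
    IntegrableOn (fun G : Fin (N + 1) → ℝ => kp e m1 G) (Gd N) (gam (Fin (N + 1))) ∧
      ∫ G in Gd N, kp e m1 G ∂(gam (Fin (N + 1))) ≤
        Real.sqrt (384 * ((1 + Λ ^ 2) / N + ((N : ℝ)⁻¹ * ∑ i, e i - m1) ^ 2)) := by
  have h := int_le_sqrt (ρ := gam (Fin (N + 1))) (A := Gd N) (measurable_kp e m1)
    (kp_nonneg e m1) (fun _ => le_rfl) (intgOn_kp_sq hN he m1)
  exact ⟨h.1, h.2.trans (Real.sqrt_le_sqrt (int_kp_sq hN he m1))⟩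

/-- second moments under a law family on the good set -/
structure MomQ (μ : Measure (Mat (Fin N))) (eig : Fin (N + 1) → ℝ)
    (Q : Mat (Fin N) × (Fin (N + 1) → ℝ) → DD p N → OU p N n × LS p n → ℝ) (z0 z1 : ℝ) : Prop where
  i0 : IntegrableOn (AV Q fun q _ w => Z0 q.1 q.2 w.1.1.1.1 ^ 2) (GdP N) (rho μ)
  b0 : ∫ q in GdP N, AV Q (fun q _ w => Z0 q.1 q.2 w.1.1.1.1 ^ 2) q ∂(rho μ) ≤ z0
  i1 : IntegrableOn (AV Q fun q _ w => Z1 eig q.1 q.2 w.1.1.1.1 ^ 2) (GdP N) (rho μ)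
  b1 : ∫ q in GdP N, AV Q (fun q _ w => Z1 eig q.1 q.2 w.1.1.1.1 ^ 2) q ∂(rho μ) ≤ z1

/-- second moments of the small fields under a law family on the good set -/
structure MomL (μ : Measure (Mat (Fin N))) (lam : Fin (N + 1) → Fin p.nc → ℝ)
    (Q : Mat (Fin N) × (Fin (N + 1) → ℝ) → DD p N → OU p N n × LS p n → ℝ) (fz lz : ℝ) : Prop where
  iF : IntegrableOn (AV Q fun q _ w => FF lam q.2 w.1.1 ^ 2) (GdP N) (rho μ)
  bF : ∫ q in GdP N, AV Q (fun q _ w => FF lam q.2 w.1.1 ^ 2) q ∂(rho μ) ≤ fz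
  iL : IntegrableOn (AV Q fun _ _ w => L2 lam w.2 ^ 2) (GdP N) (rho μ)
  bL : ∫ q in GdP N, AV Q (fun _ _ w => L2 lam w.2 ^ 2) q ∂(rho μ) ≤ lz

theorem setInt_const_le {A : Set (Mat (Fin N) × (Fin (N + 1) → ℝ))} {c : ℝ} (hc : 0 ≤ c) :
    ∫ _q in A, c ∂(rho μ) ≤ c := by
  rw [setIntegral_const, smul_eq_mul]
  exact mul_le_of_le_one_left hc measureReal_le_one

/-- average of `1 + Z0² + Z1²` -/
theorem MomQ.qf (hQ : LawF Q) (hN : 0 < N) (h : MomQ μ eig Q z0 z1) :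
    IntegrableOn (AV Q fun q _ w => qf (e0 eig) (SY.xU (Matrix.of q.1) w.1.1.1.1) q.2)
      (GdP N) (rho μ) ∧
    ∫ q in GdP N, AV Q (fun q _ w => ED.qf (e0 eig) (SY.xU (Matrix.of q.1) w.1.1.1.1) q.2) q
      ∂(rho μ) ≤ 1 + z0 + z1 := by
  have e1 : (AV Q fun q _ w => ED.qf (e0 eig) (SY.xU (Matrix.of q.1) w.1.1.1.1) q.2) = fun q =>
      (1 + AV Q (fun q _ w => Z0 q.1 q.2 w.1.1.1.1 ^ 2) q) +
        AV Q (fun q _ w => Z1 eig q.1 q.2 w.1.1.1.1 ^ 2) q := by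
    funext q
    have e2 : (fun (q : Mat (Fin N) × (Fin (N + 1) → ℝ)) (_ : DD p N) (w : OU p N n × LS p n) =>
        ED.qf (e0 eig) (SY.xU (Matrix.of q.1) w.1.1.1.1) q.2) = fun q d w =>
        (fun q _ w => 1 + Z0 q.1 q.2 w.1.1.1.1 ^ 2 : _ → DD p N → OU p N n × LS p n → ℝ) q d w +
        (fun q _ w => Z1 eig q.1 q.2 w.1.1.1.1 ^ 2 : _ → DD p N → OU p N n × LS p n → ℝ) q d w := rfl
    rw [e2, AV_add]
    congr 1
    have e3 := AV_add Q (fun _ _ _ => (1:ℝ)) (fun q _ w => Z0 q.1 q.2 w.1.1.1.1 ^ 2) q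
    rw [hQ.AV_const hN] at e3
    exact e3
  have hi1 : IntegrableOn (fun _ : Mat (Fin N) × (Fin (N + 1) → ℝ) => (1:ℝ)) (GdP N) (rho μ) :=
    (integrable_const _).integrableOn
  rw [e1]
  refine ⟨(hi1.add h.i0).add h.i1, ?_⟩
  have e5 : ∫ q in GdP N, (((1:ℝ) + AV Q (fun q _ w => Z0 q.1 q.2 w.1.1.1.1 ^ 2) q) +
        AV Q (fun q _ w => Z1 eig q.1 q.2 w.1.1.1.1 ^ 2) q) ∂(rho μ) =
      ∫ q in GdP N, ((1:ℝ) + AV Q (fun q _ w => Z0 q.1 q.2 w.1.1.1.1 ^ 2) q) ∂(rho μ) +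
        ∫ q in GdP N, AV Q (fun q _ w => Z1 eig q.1 q.2 w.1.1.1.1 ^ 2) q ∂(rho μ) :=
    integral_add (hi1.add h.i0) h.i1
  have e4 : ∫ q in GdP N, ((1:ℝ) + AV Q (fun q _ w => Z0 q.1 q.2 w.1.1.1.1 ^ 2) q) ∂(rho μ) =
      ∫ _q in GdP N, (1:ℝ) ∂(rho μ) +
        ∫ q in GdP N, AV Q (fun q _ w => Z0 q.1 q.2 w.1.1.1.1 ^ 2) q ∂(rho μ) :=
    integral_add hi1 h.i0
  refine (le_of_eq e5).trans ?_
  rw [e4]
  have := setInt_const_le (μ := μ) (A := GdP N) (c := 1) zero_le_one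
  linarith [h.b0, h.b1]

/-- the error of the coupling -/
def eJ (eig : Fin (N + 1) → ℝ) (lam : Fin (N + 1) → Fin p.nc → ℝ) (Λ m1 : ℝ)
    (q : Mat (Fin N) × (Fin (N + 1) → ℝ)) (w : OU p N n × LS p n) : ℝ :=
  10 * (1 + Λ) * (kp (e0 eig) m1 q.2 * qf (e0 eig) (SY.xU (Matrix.of q.1) w.1.1.1.1) q.2) +
    eF lam q.1 q.2 w

theorem eF_nonneg (lam : Fin (N + 1) → Fin p.nc → ℝ) (V : Mat (Fin N)) (G : Fin (N + 1) → ℝ)
    (w : OU p N n × LS p n) : 0 ≤ eF lam V G w := by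
  unfold eF
  positivity

theorem eJ_nonneg (hΛ : 0 ≤ Λ) (q : Mat (Fin N) × (Fin (N + 1) → ℝ)) (w : OU p N n × LS p n) :
    0 ≤ eJ eig lam Λ m1 q w := by
  unfold eJ
  have h1 := kp_nonneg (e0 eig) m1 q.2
  have h2 := qf_ge_one (e0 eig) (SY.xU (Matrix.of q.1) w.1.1.1.1) q.2
  have h3 : 0 ≤ kp (e0 eig) m1 q.2 * qf (e0 eig) (SY.xU (Matrix.of q.1) w.1.1.1.1) q.2 :=
    mul_nonneg h1 (by linarith)
  have h4 := eF_nonneg lam q.1 q.2 w
  positivity

theorem measurable_eJ (Λ m1 : ℝ) (w : OU p N n × LS p n) :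
    Measurable fun q : Mat (Fin N) × (Fin (N + 1) → ℝ) => eJ eig lam Λ m1 q w := by
  unfold eJ
  exact ((((measurable_kp (e0 eig) m1).comp measurable_snd).mul
    (measurable_qf2 eig w.1.1.1.1)).const_mul _).add (meas_eF lam w)

/-- **(J1)** -/
theorem j1 (hQ : LawF Q) (hN : 1 ≤ N) (he : ∀ i, |eig i| ≤ Λ) (hS : 0 < S)
    (h : MomQ μ eig Q z0 z1) (hl : MomL μ lam Q fz lz) :
    IntegrableOn (AV Q fun q _ w => min 1 (eJ eig lam Λ m1 q w)) (GdP N) (rho μ) ∧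
    ∫ q in GdP N, AV Q (fun q _ w => min 1 (eJ eig lam Λ m1 q w)) q ∂(rho μ) ≤
      Real.sqrt (10 * (1 + Λ)) *
        Real.sqrt (∫ G in Gd N, kp (e0 eig) m1 G ∂(gam (Fin (N + 1)))) *
        Real.sqrt (1 + z0 + z1) + 4 * Real.sqrt S * (1 + z0) + (fz + lz) / Real.sqrt S := by
  have hΛ : 0 ≤ Λ := (abs_nonneg _).trans (he (Fin.last N))
  have hN' : 0 < N := hN
  have hsS : 0 < Real.sqrt S := Real.sqrt_pos.2 hS
  have hi := hQ.integrableOn_of_bdd (ρ := rho μ) (A := GdP N) hN'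
    (F := fun q _ w => min 1 (eJ eig lam Λ m1 q w)) (fun d w => measurable_const.min
      (measurable_eJ Λ m1 w)) (C := 1) (fun q d w => le_min zero_le_one (eJ_nonneg hΛ q w))
    (fun q d w => min_le_left _ _)
  refine ⟨hi, ?_⟩
  -- the majorant
  set G1 : Mat (Fin N) × (Fin (N + 1) → ℝ) → ℝ := AV Q fun q _ w =>
    Real.sqrt (qf (e0 eig) (SY.xU (Matrix.of q.1) w.1.1.1.1) q.2) with hG1
  have hq0 : ∀ (q : Mat (Fin N) × (Fin (N + 1) → ℝ)) (w : OU p N n × LS p n),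
      0 ≤ qf (e0 eig) (SY.xU (Matrix.of q.1) w.1.1.1.1) q.2 := fun q w => by
    linarith [qf_ge_one (e0 eig) (SY.xU (Matrix.of q.1) w.1.1.1.1) q.2]
  obtain ⟨hqi, hqb⟩ := h.qf hQ hN'
  have hkp := intgOn_kp (N := N) hN (e := e0 eig) (fun i => he _) m1
  have hcs := sqrt_mul_int_le (ρ := rho μ) (A := GdP N)
    (k := fun q : Mat (Fin N) × (Fin (N + 1) → ℝ) => kp (e0 eig) m1 q.2) (G := G1)
    (H := AV Q fun q _ w => qf (e0 eig) (SY.xU (Matrix.of q.1) w.1.1.1.1) q.2)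
    ((measurable_kp (e0 eig) m1).comp measurable_snd) (fun q => kp_nonneg _ _ _)
    (rho_intOn hkp.1)
    (hQ.measurable_AV fun d w => (measurable_qf2 eig w.1.1.1.1).sqrt)
    (fun q => hQ.AV_nonneg fun d w => Real.sqrt_nonneg _)
    (fun q => (hQ.sq_AV_le hN' q).trans (le_of_eq (by
      congr 1
      funext q d w
      exact Real.sq_sqrt (hq0 q w)))) hqi
  have hi1 : IntegrableOn (fun _ : Mat (Fin N) × (Fin (N + 1) → ℝ) => (1:ℝ)) (GdP N) (rho μ) :=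
    (integrable_const _).integrableOn
  have hpt : ∀ q : Mat (Fin N) × (Fin (N + 1) → ℝ),
      AV Q (fun q _ w => min 1 (eJ eig lam Λ m1 q w)) q ≤
      Real.sqrt (10 * (1 + Λ)) * (Real.sqrt (kp (e0 eig) m1 q.2) * G1 q) +
        (4 * Real.sqrt S * (1 + AV Q (fun q _ w => Z0 q.1 q.2 w.1.1.1.1 ^ 2) q) +
        (Real.sqrt S)⁻¹ * (AV Q (fun q _ w => FF lam q.2 w.1.1 ^ 2) q +
          AV Q (fun _ _ w => L2 lam w.2 ^ 2) q)) := by
    intro q
    have h1 : AV Q (fun q _ w => min 1 (eJ eig lam Λ m1 q w)) q ≤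
        AV Q (fun q _ w => (Real.sqrt (10 * (1 + Λ)) * Real.sqrt (kp (e0 eig) m1 q.2)) *
          Real.sqrt (qf (e0 eig) (SY.xU (Matrix.of q.1) w.1.1.1.1) q.2) +
          (4 * Real.sqrt S * (1 + Z0 q.1 q.2 w.1.1.1.1 ^ 2) +
          (Real.sqrt S)⁻¹ * (FF lam q.2 w.1.1 ^ 2 + L2 lam w.2 ^ 2))) q := by
      refine hQ.AV_mono fun d w => ?_
      have h2 := eF_le lam hsS q.1 q.2 w
      have h3 : (FF lam q.2 w.1.1 ^ 2 + L2 lam w.2 ^ 2) / Real.sqrt S =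
          (Real.sqrt S)⁻¹ * (FF lam q.2 w.1.1 ^ 2 + L2 lam w.2 ^ 2) := by
        rw [div_eq_inv_mul]
      rw [h3] at h2
      have hk := kp_nonneg (e0 eig) m1 q.2
      have hc : 0 ≤ 10 * (1 + Λ) := by positivity
      set x := 10 * (1 + Λ) * (kp (e0 eig) m1 q.2 *
        qf (e0 eig) (SY.xU (Matrix.of q.1) w.1.1.1.1) q.2) with hx
      have hx0 : 0 ≤ x := mul_nonneg hc (mul_nonneg hk (hq0 q w))
      have h4 : Real.sqrt (10 * (1 + Λ)) * Real.sqrt (kp (e0 eig) m1 q.2) *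
          Real.sqrt (qf (e0 eig) (SY.xU (Matrix.of q.1) w.1.1.1.1) q.2) = Real.sqrt x := by
        rw [hx, Real.sqrt_mul hc, Real.sqrt_mul hk, mul_assoc]
      have h5 : min 1 x ≤ Real.sqrt x := by
        rcases le_total x 1 with h6 | h6
        · rw [min_eq_right h6]
          refine Real.le_sqrt_of_sq_le ?_
          nlinarith
        · rw [min_eq_left h6]
          exact Real.one_le_sqrt.2 h6
      have h6 : min 1 (eJ eig lam Λ m1 q w) ≤ min 1 x + eF lam q.1 q.2 w := by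
        have h7 := eF_nonneg lam q.1 q.2 w
        show min 1 (x + eF lam q.1 q.2 w) ≤ _
        rcases le_total x 1 with h8 | h8
        · rw [min_eq_right h8]; exact min_le_right _ _
        · rw [min_eq_left h8]; linarith [min_le_left 1 (x + eF lam q.1 q.2 w)]
      show min 1 (eJ eig lam Λ m1 q w) ≤
        Real.sqrt (10 * (1 + Λ)) * Real.sqrt (kp (e0 eig) m1 q.2) *
          Real.sqrt (qf (e0 eig) (SY.xU (Matrix.of q.1) w.1.1.1.1) q.2) + _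
      rw [h4]
      linarith
    refine h1.trans (le_of_eq ?_)
    rw [AV_add Q (fun q _ w => (Real.sqrt (10 * (1 + Λ)) * Real.sqrt (kp (e0 eig) m1 q.2)) *
          Real.sqrt (qf (e0 eig) (SY.xU (Matrix.of q.1) w.1.1.1.1) q.2))
      (fun q _ w => 4 * Real.sqrt S * (1 + Z0 q.1 q.2 w.1.1.1.1 ^ 2) +
          (Real.sqrt S)⁻¹ * (FF lam q.2 w.1.1 ^ 2 + L2 lam w.2 ^ 2)) q,
      AV_mul Q (fun q _ w => Real.sqrt (qf (e0 eig) (SY.xU (Matrix.of q.1) w.1.1.1.1) q.2))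
        (fun q => Real.sqrt (10 * (1 + Λ)) * Real.sqrt (kp (e0 eig) m1 q.2)) q,
      AV_add Q (fun q _ w => 4 * Real.sqrt S * (1 + Z0 q.1 q.2 w.1.1.1.1 ^ 2))
        (fun q _ w => (Real.sqrt S)⁻¹ * (FF lam q.2 w.1.1 ^ 2 + L2 lam w.2 ^ 2)) q,
      AV_mul Q (fun q _ w => 1 + Z0 q.1 q.2 w.1.1.1.1 ^ 2) (fun _ => 4 * Real.sqrt S) q,
      AV_mul Q (fun q _ w => FF lam q.2 w.1.1 ^ 2 + L2 lam w.2 ^ 2) (fun _ => (Real.sqrt S)⁻¹) q,
      AV_add Q (fun _ _ _ => (1:ℝ)) (fun q _ w => Z0 q.1 q.2 w.1.1.1.1 ^ 2) q,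
      AV_add Q (fun q _ w => FF lam q.2 w.1.1 ^ 2) (fun _ _ w => L2 lam w.2 ^ 2) q,
      hQ.AV_const hN', ← hG1]
    ring
  have j1 : IntegrableOn (fun q : Mat (Fin N) × (Fin (N + 1) → ℝ) =>
      Real.sqrt (10 * (1 + Λ)) * (Real.sqrt (kp (e0 eig) m1 q.2) * G1 q)) (GdP N) (rho μ) :=
    hcs.1.const_mul _
  have j2 : IntegrableOn (fun q : Mat (Fin N) × (Fin (N + 1) → ℝ) =>
      4 * Real.sqrt S * (1 + AV Q (fun q _ w => Z0 q.1 q.2 w.1.1.1.1 ^ 2) q)) (GdP N) (rho μ) :=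
    (hi1.add h.i0).const_mul _
  have j3 : IntegrableOn (fun q : Mat (Fin N) × (Fin (N + 1) → ℝ) =>
      (Real.sqrt S)⁻¹ * (AV Q (fun q _ w => FF lam q.2 w.1.1 ^ 2) q +
          AV Q (fun _ _ w => L2 lam w.2 ^ 2) q)) (GdP N) (rho μ) := (hl.iF.add hl.iL).const_mul _
  refine (setIntegral_mono hi (j1.add (j2.add j3)) hpt).trans ?_
  have k1 : ∫ q in GdP N, (Real.sqrt (10 * (1 + Λ)) * (Real.sqrt (kp (e0 eig) m1 q.2) * G1 q) +
        (4 * Real.sqrt S * (1 + AV Q (fun q _ w => Z0 q.1 q.2 w.1.1.1.1 ^ 2) q) +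
        (Real.sqrt S)⁻¹ * (AV Q (fun q _ w => FF lam q.2 w.1.1 ^ 2) q +
          AV Q (fun _ _ w => L2 lam w.2 ^ 2) q))) ∂(rho μ) =
      Real.sqrt (10 * (1 + Λ)) *
        ∫ q in GdP N, Real.sqrt (kp (e0 eig) m1 q.2) * G1 q ∂(rho μ) +
      (4 * Real.sqrt S * (∫ _q in GdP N, (1:ℝ) ∂(rho μ) +
        ∫ q in GdP N, AV Q (fun q _ w => Z0 q.1 q.2 w.1.1.1.1 ^ 2) q ∂(rho μ)) +
      (Real.sqrt S)⁻¹ * (∫ q in GdP N, AV Q (fun q _ w => FF lam q.2 w.1.1 ^ 2) q ∂(rho μ) +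
        ∫ q in GdP N, AV Q (fun _ _ w => L2 lam w.2 ^ 2) q ∂(rho μ))) := by
    refine (integral_add j1 (j2.add j3)).trans ?_
    congr 1
    · exact integral_const_mul _ _
    · refine (integral_add j2 j3).trans ?_
      congr 1
      · refine (integral_const_mul _ _).trans ?_
        congr 1
        exact integral_add hi1 h.i0
      · refine (integral_const_mul _ _).trans ?_
        congr 1
        exact integral_add hl.iF hl.iL
  refine (le_of_eq k1).trans ?_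
  have e9 : ∫ q in GdP N, kp (e0 eig) m1 q.2 ∂(rho μ) =
      ∫ G in Gd N, kp (e0 eig) m1 G ∂(gam (Fin (N + 1))) := rho_GdP (kp (e0 eig) m1)
  have b1 : Real.sqrt (10 * (1 + Λ)) *
        ∫ q in GdP N, Real.sqrt (kp (e0 eig) m1 q.2) * G1 q ∂(rho μ) ≤
      Real.sqrt (10 * (1 + Λ)) *
        Real.sqrt (∫ G in Gd N, kp (e0 eig) m1 G ∂(gam (Fin (N + 1)))) *
        Real.sqrt (1 + z0 + z1) := by
    rw [mul_assoc]
    refine mul_le_mul_of_nonneg_left (hcs.2.trans ?_) (Real.sqrt_nonneg _)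
    rw [e9]
    exact mul_le_mul_of_nonneg_left (Real.sqrt_le_sqrt hqb) (Real.sqrt_nonneg _)
  have b2 : 4 * Real.sqrt S * (∫ _q in GdP N, (1:ℝ) ∂(rho μ) +
        ∫ q in GdP N, AV Q (fun q _ w => Z0 q.1 q.2 w.1.1.1.1 ^ 2) q ∂(rho μ)) ≤
      4 * Real.sqrt S * (1 + z0) :=
    mul_le_mul_of_nonneg_left (add_le_add (setInt_const_le zero_le_one) h.b0) (by positivity)
  have b3 : (Real.sqrt S)⁻¹ * (∫ q in GdP N, AV Q (fun q _ w => FF lam q.2 w.1.1 ^ 2) q ∂(rho μ) +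
        ∫ q in GdP N, AV Q (fun _ _ w => L2 lam w.2 ^ 2) q ∂(rho μ)) ≤
      (fz + lz) / Real.sqrt S := by
    rw [div_eq_inv_mul]
    exact mul_le_mul_of_nonneg_left (add_le_add hl.bF hl.bL) (by positivity)
  linarith

/-- **(J2)** -/
theorem j2 (hQ : LawF Q) (hN : 1 ≤ N) (he : ∀ i, |eig i| ≤ Λ) (hm : |m1| ≤ Λ)
    (h : MomQ μ eig Q z0 z1) {K B Y bb : ℝ} (hK : 0 < K) (b : Fin p.nc → ℝ)
    {v : (Fin N → Bool) → Bool → ℝ} (hv : ∀ σ c, |v σ c| ≤ B)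
    (hY : ∀ q d, eE (Q q d) (fun w => yb b w.2 ^ 2) ≤ Y) :
    IntegrableOn (AV Q fun q _ w => if K < |redB (WX eig m1 b bb v q.1 q.2) w| then (1:ℝ) else 0)
      (GdP N) (rho μ) ∧
    ∫ q in GdP N, AV Q (fun q _ w => if K < |redB (WX eig m1 b bb v q.1 q.2) w| then (1:ℝ) else 0) q
      ∂(rho μ) ≤ (1 / K) * ((1 + 2 * Λ) * (1 + z0 + z1) + B + |bb| + Real.sqrt Y) := by
  have hΛ : 0 ≤ Λ := (abs_nonneg _).trans (he (Fin.last N))
  have hB0 : 0 ≤ B := (abs_nonneg _).trans (hv (fun _ => true) true)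
  have hN' : 0 < N := hN
  have hi := hQ.integrableOn_of_bdd (ρ := rho μ) (A := GdP N) hN'
    (F := fun q _ w => if K < |redB (WX eig m1 b bb v q.1 q.2) w| then (1:ℝ) else 0)
    (fun d w => Measurable.ite (measurableSet_lt measurable_const
      (continuous_abs.measurable.comp (meas_redWX eig m1 b bb v w))) measurable_const
      measurable_const) (C := 1) (fun q d w => by split_ifs <;> norm_num)
    (fun q d w => by split_ifs <;> norm_num)
  refine ⟨hi, ?_⟩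
  obtain ⟨hqi, hqb⟩ := h.qf hQ hN'
  have hi1 : IntegrableOn (fun _ : Mat (Fin N) × (Fin (N + 1) → ℝ) => B + |bb| + Real.sqrt Y)
    (GdP N) (rho μ) := (integrable_const _).integrableOn
  have hpt : ∀ q : Mat (Fin N) × (Fin (N + 1) → ℝ),
      AV Q (fun q _ w => if K < |redB (WX eig m1 b bb v q.1 q.2) w| then (1:ℝ) else 0) q ≤
      (1 / K) * ((1 + 2 * Λ) *
        AV Q (fun q _ w => qf (e0 eig) (SY.xU (Matrix.of q.1) w.1.1.1.1) q.2) q +
        (B + |bb| + Real.sqrt Y)) := by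
    intro q
    have h1 : AV Q (fun q _ w => if K < |redB (WX eig m1 b bb v q.1 q.2) w| then (1:ℝ) else 0) q ≤
        AV Q (fun q _ w => (1 / K) * ((1 + 2 * Λ) *
          qf (e0 eig) (SY.xU (Matrix.of q.1) w.1.1.1.1) q.2 + ((B + |bb|) + |yb b w.2|))) q := by
      refine hQ.AV_mono fun d w => ?_
      have h2 : |redB (WX eig m1 b bb v q.1 q.2) w| ≤ (1 + 2 * Λ) *
          qf (e0 eig) (SY.xU (Matrix.of q.1) w.1.1.1.1) q.2 + B + |bb + yb b w.2| :=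
        abs_redB_le fun c => abs_WX_le eig he hm b bb hv q.1 q.2 (w, c)
      have h3 := abs_add_le bb (yb b w.2)
      have h4 : 0 ≤ |redB (WX eig m1 b bb v q.1 q.2) w| := abs_nonneg _
      show (if K < |redB (WX eig m1 b bb v q.1 q.2) w| then (1:ℝ) else 0) ≤ _
      have h5 : (1 / K) * |redB (WX eig m1 b bb v q.1 q.2) w| ≤ (1 / K) * ((1 + 2 * Λ) *
          qf (e0 eig) (SY.xU (Matrix.of q.1) w.1.1.1.1) q.2 + ((B + |bb|) + |yb b w.2|)) :=
        mul_le_mul_of_nonneg_left (by linarith) (by positivity)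
      refine le_trans ?_ h5
      split_ifs with hc
      · rw [one_div, ← div_eq_inv_mul, le_div_iff₀ hK, one_mul]
        exact hc.le
      · positivity
    refine h1.trans ?_
    rw [AV_mul Q (fun q _ w => (1 + 2 * Λ) *
          qf (e0 eig) (SY.xU (Matrix.of q.1) w.1.1.1.1) q.2 + ((B + |bb|) + |yb b w.2|))
        (fun _ => 1 / K) q,
      AV_add Q (fun q _ w => (1 + 2 * Λ) * qf (e0 eig) (SY.xU (Matrix.of q.1) w.1.1.1.1) q.2)
        (fun q _ w => (B + |bb|) + |yb b w.2|) q,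
      AV_mul Q (fun q _ w => qf (e0 eig) (SY.xU (Matrix.of q.1) w.1.1.1.1) q.2)
        (fun _ => 1 + 2 * Λ) q,
      AV_add Q (fun _ _ _ => B + |bb|) (fun q _ w => |yb b w.2|) q, hQ.AV_const hN']
    have h6 : AV Q (fun q _ w => |yb b w.2|) q ≤ Real.sqrt Y := by
      refine Real.le_sqrt_of_sq_le ?_
      refine (hQ.sq_AV_le hN' q).trans ?_
      have h7 : AV Q (fun q _ w => |yb b w.2| ^ 2) q ≤ Ed p N (fun _ => Y) := by
        refine Ed_mono p N fun d => ?_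
        have e : (fun w : OU p N n × LS p n => |yb b w.2| ^ 2) = fun w => yb b w.2 ^ 2 :=
          funext fun w => sq_abs _
        rw [e]
        exact hY q d
      refine h7.trans (le_of_eq (Ed_const p hN' Y))
    exact mul_le_mul_of_nonneg_left (by linarith) (by positivity)
  have j1 : IntegrableOn (fun q : Mat (Fin N) × (Fin (N + 1) → ℝ) => (1 + 2 * Λ) *
        AV Q (fun q _ w => qf (e0 eig) (SY.xU (Matrix.of q.1) w.1.1.1.1) q.2) q)
        (GdP N) (rho μ) := hqi.const_mul _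
  refine (setIntegral_mono hi ((j1.add hi1).const_mul (1 / K)) hpt).trans ?_
  have k1 : ∫ q in GdP N, (1 / K) * ((1 + 2 * Λ) *
        AV Q (fun q _ w => qf (e0 eig) (SY.xU (Matrix.of q.1) w.1.1.1.1) q.2) q +
        (B + |bb| + Real.sqrt Y)) ∂(rho μ) = (1 / K) * ((1 + 2 * Λ) *
      ∫ q in GdP N, AV Q (fun q _ w => qf (e0 eig) (SY.xU (Matrix.of q.1) w.1.1.1.1) q.2) q
        ∂(rho μ) + ∫ _q in GdP N, (B + |bb| + Real.sqrt Y) ∂(rho μ)) := by
    refine (integral_const_mul _ _).trans ?_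
    congr 1
    refine (integral_add j1 hi1).trans ?_
    congr 1
    exact integral_const_mul _ _
  refine (le_of_eq k1).trans ?_
  refine mul_le_mul_of_nonneg_left ?_ (by positivity)
  have b1 := mul_le_mul_of_nonneg_left hqb (show 0 ≤ 1 + 2 * Λ by linarith)
  have b2 := setInt_const_le (μ := μ) (A := GdP N) (c := B + |bb| + Real.sqrt Y) (by positivity)
  linarith

end main

/-! ### the step law -/

section step

open Crest.Agent.R164.TLaw (SQ ST Eφ SQ_isProb measurable_SQ tl1_Z0 tl1_Z1 tl1_FF tl1_L2)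

variable {p : Par} {N n : ℕ} {eig : Fin (N + 1) → ℝ} {W0 : (Fin N → Bool) → ℝ}
  {W1 : (Fin (N + 1) → Bool) → ℝ} {a lam : Fin (N + 1) → Fin p.nc → ℝ}

/-- the step law as a law family -/
theorem stLaw : LawF (Θ := Mat (Fin N) × (Fin (N + 1) → ℝ))
    (fun q d => SQ (n := n) eig W0 W1 a lam q d) where
  prob q d := SQ_isProb q d
  meas d w := measurable_SQ d w

theorem AV_SQ (F : Mat (Fin N) × (Fin (N + 1) → ℝ) → DD p N → OU p N n × LS p n → ℝ) :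
    AV (fun q d => SQ eig W0 W1 a lam q d) F = ST eig W0 W1 a lam F := rfl

variable {μ : Measure (Mat (Fin N))} {ν : Measure (Mat (Fin (N + 1)))} {Λ m1 BV B A γ0 S : ℝ}

theorem EHyp.momQ (D : EHyp μ ν eig W0 W1 a lam Λ m1 BV B A γ0 S) (hγ : 0 < γ0)
    (hnb : p.nb = 0) (hN : 0 < N) (hT : p.nc * p.T ≤ N) :
    MomQ μ eig (fun q d => SQ (n := n) eig W0 W1 a lam q d) (24 * (1 + 1 / γ0))
      (144 * Λ ^ 2 * (1 + 1 / γ0 + 1 / γ0)) := by
  have := D.pμ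
  have := D.pν
  obtain ⟨Gr, hGr, hGr2⟩ := D.gr
  obtain ⟨Cl, hCl, hCl2⟩ := D.cl
  have hN1 : (0:ℝ) < ((N + 1 : ℕ) : ℝ) := by positivity
  have hg : Gr.Nonempty := by
    rw [← Finset.card_pos]
    have : (0:ℝ) < Gr.card := lt_of_lt_of_le (by positivity) hGr
    exact_mod_cast this
  have hc : Cl.Nonempty := by
    rw [← Finset.card_pos]
    have : (0:ℝ) < Cl.card := lt_of_lt_of_le (by positivity) hCl
    exact_mod_cast this
  have hg' : (0:ℝ) < Gr.card := by exact_mod_cast hg.card_pos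
  have hc' : (0:ℝ) < Cl.card := by exact_mod_cast hc.card_pos
  have r1 : ((N : ℝ) + 1) / Cl.card ≤ 1 / γ0 := by
    rw [div_le_div_iff₀ hc' hγ]
    push_cast at hCl
    linarith
  have r2 : ((N : ℝ) + 1) / Gr.card ≤ 1 / γ0 := by
    rw [div_le_div_iff₀ hg' hγ]
    push_cast at hGr
    linarith
  have h0 := tl1_Z0 (n := n) (W0 := W0) hnb hN hT D.rμ D.rν hCl2 hc
  have h1 := tl1_Z1 (n := n) (W0 := W0) hnb hN hT D.rμ D.rν D.he hCl2 hc hGr2 hg
  exact ⟨h0.1, h0.2.trans (mul_le_mul_of_nonneg_left (by linarith) (by norm_num)),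
    h1.1, h1.2.trans (mul_le_mul_of_nonneg_left (by linarith) (by positivity))⟩

theorem EHyp.momL (D : EHyp μ ν eig W0 W1 a lam Λ m1 BV B A γ0 S) (hγ : 0 < γ0)
    (hnb : p.nb = 0) (hN : 0 < N) (hT : p.nc * p.T ≤ N) {Cφ : ℝ} (hC : 0 ≤ Cφ) (hS : 0 ≤ S)
    (hφ : Eφ n eig W1 a lam ν ≤ Cφ * S * ((N : ℝ) + 1)) :
    MomL μ lam (fun q d => SQ (n := n) eig W0 W1 a lam q d) (12 * (Cφ * S / γ0))
      (3 * (Cφ * S / γ0)) := by
  have := D.pμ
  have := D.pν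
  obtain ⟨Gr, hGr, hGr2⟩ := D.gr
  obtain ⟨Cl, hCl, hCl2⟩ := D.cl
  have hN1 : (0:ℝ) < ((N + 1 : ℕ) : ℝ) := by positivity
  have hg : Gr.Nonempty := by
    rw [← Finset.card_pos]
    have : (0:ℝ) < Gr.card := lt_of_lt_of_le (by positivity) hGr
    exact_mod_cast this
  have hc : Cl.Nonempty := by
    rw [← Finset.card_pos]
    have : (0:ℝ) < Cl.card := lt_of_lt_of_le (by positivity) hCl
    exact_mod_cast this
  have hg' : (0:ℝ) < Gr.card := by exact_mod_cast hg.card_pos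
  have hc' : (0:ℝ) < Cl.card := by exact_mod_cast hc.card_pos
  have hCS : 0 ≤ Cφ * S := mul_nonneg hC hS
  push_cast at hCl hGr
  have r1 : Eφ n eig W1 a lam ν / Cl.card ≤ Cφ * S / γ0 := by
    rw [div_le_div_iff₀ hc' hγ]
    nlinarith [mul_le_mul_of_nonneg_left hCl hCS, mul_le_mul_of_nonneg_right hφ hγ.le]
  have r2 : Eφ n eig W1 a lam ν / Gr.card ≤ Cφ * S / γ0 := by
    rw [div_le_div_iff₀ hg' hγ]
    nlinarith [mul_le_mul_of_nonneg_left hGr hCS, mul_le_mul_of_nonneg_right hφ hγ.le]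
  have h0 := tl1_FF (n := n) (W0 := W0) hnb hN hT D.rμ D.rν hCl2 hc hGr2 hg
  have h1 := tl1_L2 (n := n) (W0 := W0) hnb hN hT D.rμ D.rν hCl2 hc
  exact ⟨h0.1, h0.2.trans (by linarith), h1.1, h1.2.trans (by linarith)⟩

end step

end

end Crest.Agent.R164.ED
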