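import Crest.Agent.R164.EDg
import Crest.Agent.R164.EDp

/-!
# Row 164, L side, module E-DIFF part q1 (helper562): lower bound of the step
-/

set_option autoImplicit false

namespace Crest.Agent.R164.ED

open MeasureTheory ProbabilityTheory Filter
open Finset Crest.Agent.R141 Crest.Agent.R164 Crest.Agent.R164.PF Crest.Agent.R164.Haar
open Crest.ProbabilityR.InvariantGlass

noncomputable section

variable {p : Par} {N n : ℕ}

/-- the good event in the product space -/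
def GP (N : ℕ) : Set (Mat (Fin N) × (Fin (N + 1) → ℝ)) := Prod.snd ⁻¹' (Gd N)

theorem measurableSet_GP : MeasurableSet (GP N) := measurable_snd measurableSet_Gd

theorem rho_GP_compl {μ : Measure (Mat (Fin N))} [IsProbabilityMeasure μ] :
    ((rho μ) (GP N)ᶜ).toReal ≤ 500 / ((N : ℝ) + 1) ^ 2 := by
  have h : (GP N)ᶜ = Set.univ ×ˢ (Gd N)ᶜ := by
    ext q; simp [GP]
  rw [h, Measure.prod_prod, measure_univ, one_mul]
  exact gam_Gd_compl

variable {eig : Fin (N + 1) → ℝ} {W0 : (Fin N → Bool) → ℝ} {W1 : (Fin (N + 1) → Bool) → ℝ}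
  {a lam : Fin (N + 1) → Fin p.nc → ℝ} {Λ m1 S : ℝ}

/-- the coupling error, un-integrated -/
def g1 (eig : Fin (N + 1) → ℝ) (lam : Fin (N + 1) → Fin p.nc → ℝ) (Λ m1 : ℝ)
    (q : Mat (Fin N) × (Fin (N + 1) → ℝ)) (w : OU p N n × LS p n) : ℝ :=
  10 * (1 + Λ) * (kp (e0 eig) m1 q.2 * qf (e0 eig) (SY.xU (Matrix.of q.1) w.1.1.1.1) q.2) +
    eF lam q.1 q.2 w

theorem g1_le_gR (hS : 0 < S) {q : Mat (Fin N) × (Fin (N + 1) → ℝ)} (hq : q ∈ GP N)
    (w : OU p N n × LS p n) : g1 eig lam Λ m1 q w ≤ gR eig lam Λ m1 (Real.sqrt S) q w := by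
  unfold g1 gR
  rw [Set.indicator_of_mem (show q.2 ∈ Gd N from hq)]
  have h := eF_le lam (Real.sqrt_pos.2 hS) q.1 q.2 w
  have h2 : FF lam q.2 w.1.1 = ∑ i, phi lam w.1.1 i * un q.2 i.castSucc := FF_eq lam q.2 w.1.1
  rw [h2] at h
  exact add_le_add le_rfl h

theorem g1_nonneg (hΛ : 0 ≤ Λ) (q : Mat (Fin N) × (Fin (N + 1) → ℝ)) (w : OU p N n × LS p n) :
    0 ≤ g1 eig lam Λ m1 q w := by
  unfold g1 eF
  have h1 := kp_nonneg (e0 eig) m1 q.2
  have h2 := qf_ge_one (e0 eig) (SY.xU (Matrix.of q.1) w.1.1.1.1) q.2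
  have h3 : 0 ≤ kp (e0 eig) m1 q.2 * qf (e0 eig) (SY.xU (Matrix.of q.1) w.1.1.1.1) q.2 :=
    mul_nonneg h1 (by linarith)
  positivity

/-- the difference of the exponents, with the true potential -/
theorem xw_sub_v (hN : 1 ≤ N) (he : ∀ i, |eig i| ≤ Λ) (hm : |m1| ≤ Λ)
    {q : Mat (Fin N) × (Fin (N + 1) → ℝ)} (hq : q ∈ GP N) (w : OU p N n × LS p n) (c : Bool) :
    |xw (HN eig W0 a lam q.1) (HN1 eig W1 a lam (cplS q.1 q.2)) (w, c) -
      WX eig m1 (a (Fin.last N)) 0 (vT W0 W1) q.1 q.2 (w, c)| ≤ g1 eig lam Λ m1 q w :=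
  xw_sub_le eig W0 W1 a lam hN he hm (show q.2 ∈ Gd N from hq) q.1 (w, c)

/-- the difference of the exponents, with the linearised potential -/
theorem xw_sub_c (hN : 1 ≤ N) (he : ∀ i, |eig i| ≤ Λ) (hm : |m1| ≤ Λ) {cs bb : ℝ}
    {Δ : (Fin N → Bool) → ℝ} (hΔ : ∀ σ c, |vT W0 W1 σ c - (cs + bb * sv c)| ≤ Δ σ)
    {q : Mat (Fin N) × (Fin (N + 1) → ℝ)} (hq : q ∈ GP N) (w : OU p N n × LS p n) (c : Bool) :
    |(xw (HN eig W0 a lam q.1) (HN1 eig W1 a lam (cplS q.1 q.2)) (w, c) - cs) -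
      WX eig m1 (a (Fin.last N)) bb (fun _ _ => 0) q.1 q.2 (w, c)| ≤
      g1 eig lam Λ m1 q w + Δ w.1.1.1.1 := by
  have h1 := xw_sub_v (W0 := W0) (W1 := W1) (a := a) (lam := lam) hN he hm hq w c
  have h2 := hΔ w.1.1.1.1 c
  have e1 : (xw (HN eig W0 a lam q.1) (HN1 eig W1 a lam (cplS q.1 q.2)) (w, c) - cs) -
      WX eig m1 (a (Fin.last N)) bb (fun _ _ => 0) q.1 q.2 (w, c) =
      (xw (HN eig W0 a lam q.1) (HN1 eig W1 a lam (cplS q.1 q.2)) (w, c) -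
      WX eig m1 (a (Fin.last N)) 0 (vT W0 W1) q.1 q.2 (w, c)) +
      (vT W0 W1 w.1.1.1.1 c - (cs + bb * sv c)) := by
    unfold WX wx
    ring
  rw [e1]
  exact (abs_add_le _ _).trans (add_le_add h1 h2)

theorem redB_sub_const {Ω : Type*} (U : Ω × Bool → ℝ) (c : ℝ) (w : Ω) :
    redB (fun u => U u - c) w = redB U w - c := by
  have h := redB_add (fun _ : Ω => -c) U w
  have e1 : (fun u : Ω × Bool => U u - c) = fun u => (fun _ : Ω => -c) u.1 + U u := by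
    funext u; ring
  rw [e1, h]; ring

/-- measurability of the ideal exponents -/
theorem measurable_Z0 (σ : Fin N → Bool) :
    Measurable fun q : Mat (Fin N) × (Fin (N + 1) → ℝ) => Z0 q.1 q.2 σ :=
  measurable_zc2 (f := fun V => SY.xU (Matrix.of V) σ) fun i => measurable_xU _ i

theorem measurable_Z1 (eig : Fin (N + 1) → ℝ) (σ : Fin N → Bool) :
    Measurable fun q : Mat (Fin N) × (Fin (N + 1) → ℝ) => Z1 eig q.1 q.2 σ :=
  measurable_zc2 (f := fun V i => eig i.castSucc * SY.xU (Matrix.of V) σ i)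
    fun i => (measurable_xU _ i).const_mul _

end

end Crest.Agent.R164.ED
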