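import Crest.Agent.R164.EDq2

/-!
# Row 164, L side, module E-DIFF part q3 (helper562): comparison of the magnetisations (O2, O3)
-/

set_option autoImplicit false

namespace Crest.Agent.R164.ED

open MeasureTheory ProbabilityTheory Filter
open Finset Crest.Agent.R141 Crest.Agent.R164 Crest.Agent.R164.PF Crest.Agent.R164.Haar
open Crest.ProbabilityR.InvariantGlass

noncomputable section

section gen

variable {Ω : Type*} [Fintype Ω] {P : Ω → ℝ} {𝓕 : Filt Ω} {x : ℕ → ℝ} {K : ℝ}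

theorem sqrt_le_lin {t θ : ℝ} (ht : 0 ≤ t) (hθ : 0 < θ) : Real.sqrt t ≤ t / (2 * θ) + θ / 2 := by
  have h1 := Real.sq_sqrt ht
  have h2 : 0 ≤ (Real.sqrt t - θ) ^ 2 / (2 * θ) := by positivity
  have e : (Real.sqrt t - θ) ^ 2 / (2 * θ) = t / (2 * θ) + θ / 2 - Real.sqrt t := by
    rw [sub_sq, h1]; field_simp; ring
  linarith

theorem tl_add_const (hP : IsProb P) (hx : ∀ k, 0 < x k) (X : Ω → ℝ) (c : ℝ) :
    tl P 𝓕 x (fun w => X w + c) = tl P 𝓕 x X := by
  have h := tl_add (𝓕 := 𝓕) hP hx X (fun _ => c)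
  rw [h]
  exact tl_const (tl_isProb hP hx X) hx c

omit [Fintype Ω] in
theorem mB_sub_const (U : Ω × Bool → ℝ) (c : ℝ) (w : Ω) : mB (fun u => U u - c) w = mB U w := by
  rw [mB_eq, mB_eq, mg2_eq, mg2_eq]
  congr 1
  ring

/-- linearised form of `(AL2')` -/
theorem mag_compare_lin (hP : IsProb P) (hx : IsExpo x) (hK : 0 ≤ K) (U U' : Ω × Bool → ℝ)
    (h : Ω → ℝ) {M θ : ℝ} (hM1 : 1 ≤ M) (hθ : 0 < θ)
    (hMX : eE (tl P 𝓕 x (redB U)) (fun w => h w ^ 2) ≤ M)
    (hMY : eE (tl P 𝓕 x (fun w => psi K (redB U' w))) (fun w => h w ^ 2) ≤ M) :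
    |eE (tl P 𝓕 x (redB U)) (fun w => mB U w * h w) -
      eE (tl P 𝓕 x (fun w => psi K (redB U' w)))
        (fun w => dpsi K (redB U' w) * mB U' w * h w)| ≤
      4 * Real.sqrt M / θ *
        (eE (tl P 𝓕 x (redB U)) (fun w => min 1 (dm U U' w)) +
          eE (tl P 𝓕 x (redB U)) (fun w => if K < |redB U' w| then 1 else 0) +
          Real.exp (2 * (K + 1)) * eE P (dm U U') +
          eE P (fun w => if redB U' w < -K then |redB U' w| else 0)) +
        16 * Real.sqrt M * θ := by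
  refine (eE_mag_compare hP hx hK U U' h hM1 hMX hMY).trans ?_
  have hQX : IsProb (tl P 𝓕 x (redB U)) := tl_isProb hP hx.pos _
  set q1 := eE (tl P 𝓕 x (redB U)) (fun w => min 1 (dm U U' w))
  set q2 := eE (tl P 𝓕 x (redB U)) (fun w => if K < |redB U' w| then 1 else 0)
  set q3 := eE P (dm U U')
  set q4 := eE P (fun w => if redB U' w < -K then |redB U' w| else 0)
  have hq10 : 0 ≤ q1 := eE_nonneg hQX fun w => le_min zero_le_one (dm_nonneg _ _ w)
  have hq20 : 0 ≤ q2 := eE_nonneg hQX fun w => by split_ifs <;> norm_num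
  have hq30 : 0 ≤ q3 := eE_nonneg hP fun w => dm_nonneg _ _ w
  have hq40 : 0 ≤ q4 := eE_nonneg hP fun w => by
    split_ifs
    · exact abs_nonneg _
    · exact le_rfl
  have e1 : Real.exp (K + 1) * Real.sqrt q3 = Real.sqrt (Real.exp (2 * (K + 1)) * q3) := by
    have e2 : Real.exp (2 * (K + 1)) = Real.exp (K + 1) ^ 2 := by
      rw [← Real.exp_nat_mul]; norm_num
    rw [Real.sqrt_mul (Real.exp_pos _).le, e2, Real.sqrt_sq (Real.exp_pos _).le]
  rw [e1]
  have s1 := sqrt_le_lin hq10 hθ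
  have s2 := sqrt_le_lin hq20 hθ
  have s3 := sqrt_le_lin (mul_nonneg (Real.exp_pos (2 * (K + 1))).le hq30) hθ
  have s4 := sqrt_le_lin hq40 hθ
  have hM0 : 0 ≤ 8 * Real.sqrt M := by positivity
  calc 8 * Real.sqrt M * (Real.sqrt q1 + Real.sqrt q2 +
        Real.sqrt (Real.exp (2 * (K + 1)) * q3) + Real.sqrt q4) ≤
      8 * Real.sqrt M * ((q1 / (2 * θ) + θ / 2) + (q2 / (2 * θ) + θ / 2) +
        (Real.exp (2 * (K + 1)) * q3 / (2 * θ) + θ / 2) + (q4 / (2 * θ) + θ / 2)) :=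
        mul_le_mul_of_nonneg_left (by linarith) hM0
    _ = _ := by field_simp; ring

/-- `E 1[W < -K] |W| ≤ E Q / K` -/
theorem eE_neg_le (hP : IsProb P) (hK : 0 < K) {W Q : Ω → ℝ} (hQ : ∀ w, W w ^ 2 ≤ Q w) :
    eE P (fun w => if W w < -K then |W w| else 0) ≤ (1 / K) * eE P Q := by
  rw [← eE_smul]
  refine eE_mono hP fun w => ?_
  have h5 := hQ w
  split_ifs with h
  · rw [one_div, ← div_eq_inv_mul, le_div_iff₀ hK]
    have h6 : K ≤ |W w| := by rw [abs_of_neg (by linarith)]; linarith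
    have h7 := sq_abs (W w)
    nlinarith [abs_nonneg (W w)]
  · exact mul_nonneg (by positivity) ((sq_nonneg _).trans h5)

/-- change of law for the mean of a small quantity -/
theorem min_one_change (hP : IsProb P) (hx : IsExpo x) (hK : 0 ≤ K) (U V : Ω × Bool → ℝ)
    {D : Ω → ℝ} (hD : ∀ w, 0 ≤ D w) :
    eE (tl P 𝓕 x (redB U)) (fun w => min 1 (D w)) ≤ Real.exp (2 * (K + 1)) * eE P D +
      (2 * (eE (tl P 𝓕 x (redB U)) (fun w => min 1 (dm U V w)) +
        eE (tl P 𝓕 x (redB U)) (fun w => if K < |redB V w| then 1 else 0)) +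
      2 * (Real.exp (2 * (K + 1)) * eE P (dm U V) +
        Real.exp 1 * eE P (fun w => if redB V w < -K then |redB V w| else 0))) := by
  have h1 := dTV_redB_psi (𝓕 := 𝓕) hP hx hK U V
  have h2 := abs_eE_sub_le (P := tl P 𝓕 x (redB U))
    (Q := tl P 𝓕 x (fun w => psi K (redB V w))) (O := fun w => min 1 (D w)) (c := 1)
    (fun w => by
      rw [abs_of_nonneg (le_min zero_le_one (hD w))]; exact min_le_left _ _)
  rw [one_mul] at h2
  have h3 : eE (tl P 𝓕 x (fun w => psi K (redB V w))) (fun w => min 1 (D w)) ≤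
      Real.exp (2 * (K + 1)) * eE P D := by
    refine (eE_mono (tl_isProb hP hx.pos _) fun w => min_le_right 1 (D w)).trans ?_
    exact eE_tl_le hP hx (fun w => abs_psi_le hK _) hD
  have h4 := (abs_le.1 h2).2
  linarith

end gen

variable {p : Par} {N n : ℕ}
variable {eig : Fin (N + 1) → ℝ} {W0 : (Fin N → Bool) → ℝ} {W1 : (Fin (N + 1) → Bool) → ℝ}
  {a lam : Fin (N + 1) → Fin p.nc → ℝ} {Λ m1 S Cφ : ℝ}

theorem stQ_eq_sub (H0 : SY.SS p n (univ : Finset (Fin N → Bool)) → ℝ)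
    (H1 : SY.SS p n (univ : Finset (Fin (N + 1) → Bool)) → ℝ) (d : DD p N) (cs : ℝ) :
    tl (stP p N n H0 d) (stF p N n) p.xs (redB fun u => xw H0 H1 u - cs) = stQ H0 H1 d := by
  have e : (redB fun u => xw H0 H1 u - cs) = fun w => Xr H0 H1 w + (-cs) := by
    funext w
    rw [redB_sub_const]
    rfl
  rw [e]
  exact tl_add_const (stP_isProb H0 d) p.xs_expo.pos _ _

theorem stQ_eq_tl (H0 : SY.SS p n (univ : Finset (Fin N → Bool)) → ℝ)
    (H1 : SY.SS p n (univ : Finset (Fin (N + 1) → Bool)) → ℝ) (d : DD p N) :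
    tl (stP p N n H0 d) (stF p N n) p.xs (redB (xw H0 H1)) = stQ H0 H1 d := rfl

/-- the `K`-exceedance indicator of the ideal weight -/
def exK (K : ℝ) (eig : Fin (N + 1) → ℝ) (m1 : ℝ) (b : Fin p.nc → ℝ) (bb : ℝ)
    (v : (Fin N → Bool) → Bool → ℝ) (q : Mat (Fin N) × (Fin (N + 1) → ℝ))
    (w : OU p N n × LS p n) : ℝ :=
  if K < |redB (WX eig m1 b bb v q.1 q.2) w| then 1 else 0

/-- **pointwise comparison of the magnetisations** -/
theorem mag_pt (hN : 1 ≤ N) (he : ∀ i, |eig i| ≤ Λ) (hm : |m1| ≤ Λ) (hS : 0 < S)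
    {cs bb B K : ℝ} (hK : 0 < K) {Δ : (Fin N → Bool) → ℝ} (hΔ0 : ∀ σ, 0 ≤ Δ σ)
    (hΔ : ∀ σ c, |vT W0 W1 σ c - (cs + bb * sv c)| ≤ Δ σ) (hv : ∀ σ c, |vT W0 W1 σ c| ≤ B)
    {q : Mat (Fin N) × (Fin (N + 1) → ℝ)} (hq : q ∈ GP N) (d : DD p N)
    (h : OU p N n × LS p n → ℝ) {M θ : ℝ} (hM1 : 1 ≤ M) (hθ : 0 < θ)
    (hMX : eE (stQ (n := n) (HN eig W0 a lam q.1) (HN1 eig W1 a lam (cplS q.1 q.2)) d)
      (fun w => h w ^ 2) ≤ M)
    (hMY : eE (tl (stP p N n (HN eig W0 a lam q.1) d) (stF p N n) p.xs (fun w => psi K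
      (redB (WX eig m1 (a (Fin.last N)) bb (fun _ _ => 0) q.1 q.2) w))) (fun w => h w ^ 2) ≤ M) :
    |eE (stQ (n := n) (HN eig W0 a lam q.1) (HN1 eig W1 a lam (cplS q.1 q.2)) d)
        (fun w => mB (xw (HN eig W0 a lam q.1) (HN1 eig W1 a lam (cplS q.1 q.2))) w * h w) -
      eE (tl (stP p N n (HN eig W0 a lam q.1) d) (stF p N n) p.xs (fun w => psi K
        (redB (WX eig m1 (a (Fin.last N)) bb (fun _ _ => 0) q.1 q.2) w)))
        (fun w => dpsi K (redB (WX eig m1 (a (Fin.last N)) bb (fun _ _ => 0) q.1 q.2) w) *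
          mB (WX eig m1 (a (Fin.last N)) bb (fun _ _ => 0) q.1 q.2) w * h w)| ≤
      4 * Real.sqrt M / θ *
        (3 * eE (stQ (n := n) (HN eig W0 a lam q.1) (HN1 eig W1 a lam (cplS q.1 q.2)) d)
            (fun w => min 1 (g1 eig lam Λ m1 q w)) +
          2 * eE (stQ (n := n) (HN eig W0 a lam q.1) (HN1 eig W1 a lam (cplS q.1 q.2)) d)
            (exK K eig m1 (a (Fin.last N)) 0 (vT W0 W1) q) +
          eE (stQ (n := n) (HN eig W0 a lam q.1) (HN1 eig W1 a lam (cplS q.1 q.2)) d)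
            (exK K eig m1 (a (Fin.last N)) bb (fun _ _ => 0) q) +
          Real.exp (2 * (K + 1)) * (3 * eE (stP p N n (HN eig W0 a lam q.1) d)
              (gR eig lam Λ m1 (Real.sqrt S) q) +
            2 * eE (stP p N n (HN eig W0 a lam q.1) d) (fun w => Δ w.1.1.1.1)) +
          1 / K * (2 * Real.exp 1 * eE (stP p N n (HN eig W0 a lam q.1) d)
              (gQ eig Λ B 0 (a (Fin.last N)) q) +
            eE (stP p N n (HN eig W0 a lam q.1) d) (gQ eig Λ 0 bb (a (Fin.last N)) q))) +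
        16 * Real.sqrt M * θ := by
  set H0 := HN (n := n) eig W0 a lam q.1 with hH0
  set H1 := HN1 (n := n) eig W1 a lam (cplS q.1 q.2) with hH1
  set U : (OU p N n × LS p n) × Bool → ℝ := fun u => xw H0 H1 u - cs with hU
  set Wc : (OU p N n × LS p n) × Bool → ℝ :=
    WX eig m1 (a (Fin.last N)) bb (fun _ _ => 0) q.1 q.2 with hWc
  set Wv : (OU p N n × LS p n) × Bool → ℝ :=
    WX eig m1 (a (Fin.last N)) 0 (vT W0 W1) q.1 q.2 with hWv
  have hP : IsProb (stP p N n H0 d) := stP_isProb H0 d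
  have hx : IsExpo p.xs := p.xs_expo
  have hΛ0 : 0 ≤ Λ := (abs_nonneg _).trans hm
  have eQ : tl (stP p N n H0 d) (stF p N n) p.xs (redB U) = stQ H0 H1 d := stQ_eq_sub H0 H1 d cs
  have eQ' : tl (stP p N n H0 d) (stF p N n) p.xs (redB (xw H0 H1)) = stQ H0 H1 d := rfl
  have hQ : IsProb (stQ H0 H1 d) := stQ_isProb H0 H1 d
  have hmain := mag_compare_lin (P := stP p N n H0 d) (𝓕 := stF p N n) (x := p.xs) hP hx hK.le
    U Wc h hM1 hθ (by rw [eQ]; exact hMX) hMY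
  rw [eQ] at hmain
  have em : (fun w => mB U w * h w) = fun w => mB (xw H0 H1) w * h w := by
    funext w
    rw [hU, mB_sub_const]
  rw [em] at hmain
  refine hmain.trans (add_le_add (mul_le_mul_of_nonneg_left ?_ (by positivity)) le_rfl)
  -- pointwise bounds
  have hdm : ∀ w, dm U Wc w ≤ g1 eig lam Λ m1 q w + Δ w.1.1.1.1 := fun w =>
    max_le (xw_sub_c hN he hm hΔ hq w true) (xw_sub_c hN he hm hΔ hq w false)
  have hdv : ∀ w, dm (xw H0 H1) Wv w ≤ g1 eig lam Λ m1 q w := fun w =>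
    max_le (xw_sub_v hN he hm hq w true) (xw_sub_v hN he hm hq w false)
  have hg0 : ∀ w : OU p N n × LS p n, 0 ≤ g1 eig lam Λ m1 q w := fun w => g1_nonneg hΛ0 q w
  -- the first term
  have b1 : eE (stQ H0 H1 d) (fun w => min 1 (dm U Wc w)) ≤
      eE (stQ H0 H1 d) (fun w => min 1 (g1 eig lam Λ m1 q w)) +
        eE (stQ H0 H1 d) (fun w => min 1 (Δ w.1.1.1.1)) := by
    rw [← eE_add]
    exact eE_mono hQ fun w => (min_le_min_left 1 (hdm w)).trans
      (min_one_add_le (hg0 w) (hΔ0 _))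
  have b2 := min_one_change (P := stP p N n H0 d) (𝓕 := stF p N n) (x := p.xs) hP hx hK.le
    (xw H0 H1) Wv (D := fun w => Δ w.1.1.1.1) (fun w => hΔ0 _)
  rw [eQ'] at b2
  have b3 : eE (stQ H0 H1 d) (fun w => min 1 (dm (xw H0 H1) Wv w)) ≤
      eE (stQ H0 H1 d) (fun w => min 1 (g1 eig lam Λ m1 q w)) :=
    eE_mono hQ fun w => min_le_min_left 1 (hdv w)
  have b4 : eE (stP p N n H0 d) (dm (xw H0 H1) Wv) ≤
      eE (stP p N n H0 d) (gR eig lam Λ m1 (Real.sqrt S) q) :=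
    eE_mono hP fun w => (hdv w).trans (g1_le_gR hS hq w)
  have b5 : eE (stP p N n H0 d) (dm U Wc) ≤
      eE (stP p N n H0 d) (gR eig lam Λ m1 (Real.sqrt S) q) +
        eE (stP p N n H0 d) (fun w => Δ w.1.1.1.1) := by
    rw [← eE_add]
    exact eE_mono hP fun w => (hdm w).trans (add_le_add (g1_le_gR hS hq w) le_rfl)
  have b6 : eE (stP p N n H0 d) (fun w => if redB Wv w < -K then |redB Wv w| else 0) ≤
      (1 / K) * eE (stP p N n H0 d) (gQ eig Λ B 0 (a (Fin.last N)) q) :=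
    eE_neg_le hP hK fun w => sq_redB_WX_le he hm (a (Fin.last N)) hv q w
  have b7 : eE (stP p N n H0 d) (fun w => if redB Wc w < -K then |redB Wc w| else 0) ≤
      (1 / K) * eE (stP p N n H0 d) (gQ eig Λ 0 bb (a (Fin.last N)) q) :=
    eE_neg_le hP hK fun w => sq_redB_WX_le he hm (a (Fin.last N)) (v := fun _ _ => 0)
      (fun σ c => by simp) q w
  have x1 : eE (stQ H0 H1 d) (fun w => if K < |redB Wv w| then (1:ℝ) else 0) =
      eE (stQ H0 H1 d) (exK K eig m1 (a (Fin.last N)) 0 (vT W0 W1) q) := rfl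
  have x2 : eE (stQ H0 H1 d) (fun w => if K < |redB Wc w| then (1:ℝ) else 0) =
      eE (stQ H0 H1 d) (exK K eig m1 (a (Fin.last N)) bb (fun _ _ => 0) q) := rfl
  rw [x1] at b2
  rw [x2]
  set E := Real.exp (2 * (K + 1)) with hE
  have hE0 : 0 ≤ E := (Real.exp_pos _).le
  have b4' := mul_le_mul_of_nonneg_left b4 hE0
  have b5' := mul_le_mul_of_nonneg_left b5 hE0
  have b6' := mul_le_mul_of_nonneg_left b6 (Real.exp_pos 1).le
  clear_value E
  have e9 : 1 / K * (2 * Real.exp 1 * eE (stP p N n H0 d) (gQ eig Λ B 0 (a (Fin.last N)) q) +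
      eE (stP p N n H0 d) (gQ eig Λ 0 bb (a (Fin.last N)) q)) =
      2 * (Real.exp 1 * (1 / K * eE (stP p N n H0 d) (gQ eig Λ B 0 (a (Fin.last N)) q))) +
      1 / K * eE (stP p N n H0 d) (gQ eig Λ 0 bb (a (Fin.last N)) q) := by ring
  rw [e9]
  linarith

end

end Crest.Agent.R164.ED
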