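import Crest.Agent.R164.EDq3

/-!
# Row 164, L side, module E-DIFF part q4 (helper562): integrated comparison of the magnetisations
-/

set_option autoImplicit false

namespace Crest.Agent.R164.ED

open MeasureTheory ProbabilityTheory Filter
open Finset Crest.Agent.R141 Crest.Agent.R164 Crest.Agent.R164.PF Crest.Agent.R164.Haar
open Crest.ProbabilityR.InvariantGlass

noncomputable section

/-- closeness of two integrals with two error functions -/
theorem int_close2 {α : Type*} [MeasurableSpace α] {ρ : Measure α} [IsProbabilityMeasure ρ]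
    {G : Set α} (hG : MeasurableSet G) {a f R T : α → ℝ} (ia : Integrable a ρ)
    (jf : Integrable f ρ) (iR : Integrable R ρ) (iT : Integrable T ρ)
    (nR : ∀ q, 0 ≤ R q) (nT : ∀ q, 0 ≤ T q) {c jR BT t M γ : ℝ} (hc : 0 ≤ c) (ht : 0 ≤ t)
    (bR : ∫ q in G, R q ∂ρ ≤ jR) (bT : ∫ q, T q ∂ρ ≤ BT)
    (h : ∀ᵐ q ∂ρ, q ∈ G → |a q - f q| ≤ c * (R q + T q) + t)
    (hM : ∀ᵐ q ∂ρ, |a q| + |f q| ≤ M) (hg : (ρ Gᶜ).toReal ≤ γ) :
    |∫ q, a q ∂ρ - ∫ q, f q ∂ρ| ≤ c * (jR + BT) + t + M * γ := by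
  have iR' : Integrable (fun q => G.indicator R q) ρ := iR.indicator hG
  have i1 : Integrable (fun q => c * (G.indicator R q + T q)) ρ := (iR'.add iT).const_mul _
  have ir : Integrable (fun q => c * (G.indicator R q + T q) + t) ρ := i1.add (integrable_const t)
  have hmain := int_close hG ia jf ir (fun q => by
    have := Set.indicator_nonneg (s := G) (fun q _ => nR q) q
    have := nT q
    positivity) (h.mono fun q hq hqG => by
      rw [Set.indicator_of_mem hqG]; exact hq hqG) hM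
  have hr : ∫ q, (c * (G.indicator R q + T q) + t) ∂ρ ≤ c * (jR + BT) + t := by
    rw [integral_add i1 (integrable_const t), integral_const_mul, integral_add iR' iT,
      integral_indicator hG, integral_const]
    simp only [probReal_univ, smul_eq_mul, one_mul]
    have := mul_le_mul_of_nonneg_left (add_le_add bR bT) hc
    linarith
  obtain ⟨q, hq⟩ := hM.exists
  have hM0 : 0 ≤ M := (add_nonneg (abs_nonneg _) (abs_nonneg _)).trans hq
  have hg2 := mul_le_mul_of_nonneg_left hg hM0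
  linarith

variable {p : Par} {N n : ℕ}
variable {eig : Fin (N + 1) → ℝ} {W0 : (Fin N → Bool) → ℝ} {W1 : (Fin (N + 1) → Bool) → ℝ}
  {a lam : Fin (N + 1) → Fin p.nc → ℝ} {Λ m1 S Cφ : ℝ}

/-- averaged magnetisation of the true step -/
def stM (n : ℕ) (eig : Fin (N + 1) → ℝ) (W0 : (Fin N → Bool) → ℝ)
    (W1 : (Fin (N + 1) → Bool) → ℝ) (a lam : Fin (N + 1) → Fin p.nc → ℝ)
    (h : OU p N n × LS p n → ℝ) (q : Mat (Fin N) × (Fin (N + 1) → ℝ)) : ℝ :=
  Ed p N (fun d => eE (stQ (n := n) (HN eig W0 a lam q.1) (HN1 eig W1 a lam (cplS q.1 q.2)) d)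
    (fun w => mB (xw (HN eig W0 a lam q.1) (HN1 eig W1 a lam (cplS q.1 q.2))) w * h w))

/-- averaged magnetisation of the ideal step -/
def stT (n : ℕ) (eig : Fin (N + 1) → ℝ) (W0 : (Fin N → Bool) → ℝ)
    (a lam : Fin (N + 1) → Fin p.nc → ℝ) (m1 : ℝ) (b : Fin p.nc → ℝ) (bb K : ℝ)
    (h : OU p N n × LS p n → ℝ) (q : Mat (Fin N) × (Fin (N + 1) → ℝ)) : ℝ :=
  Ed p N (fun d => eE (tl (stP p N n (HN eig W0 a lam q.1) d) (stF p N n) p.xs (fun w => psi K
      (redB (WX eig m1 b bb (fun _ _ => 0) q.1 q.2) w)))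
    (fun w => dpsi K (redB (WX eig m1 b bb (fun _ _ => 0) q.1 q.2) w) *
      mB (WX eig m1 b bb (fun _ _ => 0) q.1 q.2) w * h w))

/-! ### measurability -/

theorem measurable_dqq : Measurable dqq := by
  unfold dqq pp
  fun_prop

theorem measurable_dpsi (K : ℝ) : Measurable (dpsi K) := by
  unfold dpsi
  exact (measurable_const.sub (measurable_dqq.comp (measurable_id.sub_const K))).sub
    (measurable_dqq.comp (measurable_id.neg.sub_const K))

theorem measurable_mB {Z : Type*} [MeasurableSpace Z] {Ω : Type*} {U : Z → Ω × Bool → ℝ}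
    (hU : ∀ u, Measurable fun z => U z u) (w : Ω) : Measurable fun z => mB (U z) w := by
  unfold mB
  exact ((Real.measurable_exp.comp (hU _)).sub (Real.measurable_exp.comp (hU _))).div
    ((Real.measurable_exp.comp (hU _)).add (Real.measurable_exp.comp (hU _)))

theorem tl_stP_eq (H0 : SY.SS p n (univ : Finset (Fin N → Bool)) → ℝ) (d : DD p N)
    (X : OU p N n × LS p n → ℝ) :
    tl (stP p N n H0 d) (stF p N n) p.xs X = tl (pP (G.prior (BU p N n)) (lsP p n)) (stF p N n)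
      p.xs (fun w => G.UU (BU p N n) H0 d w.1 + X w) := by
  have hPL : IsProb (pP (G.prior (BU p N n)) (lsP p n)) := pP_isProb (G.prior_isProb _) lsP_isProb
  have h3 := tl_add (𝓕 := stF p N n) hPL p.xs_expo.pos
    (fun w => G.UU (BU p N n) H0 d w.1) X
  rw [stP_eq] at h3
  exact h3.symm

theorem measurable_tl_stP (W0 : (Fin N → Bool) → ℝ)
    {X : Mat (Fin N) × (Fin (N + 1) → ℝ) → OU p N n × LS p n → ℝ}
    (hX : ∀ w, Measurable fun q => X q w) (d : DD p N) (w : OU p N n × LS p n) :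
    Measurable fun q : Mat (Fin N) × (Fin (N + 1) → ℝ) =>
      tl (stP p N n (HN eig W0 a lam q.1) d) (stF p N n) p.xs (X q) w := by
  simp only [tl_stP_eq]
  refine G.meas_tl (pP_isProb (G.prior_isProb _) lsP_isProb) p.xs_expo.pos (fun ω => ?_) w
  refine Measurable.add ?_ (hX ω)
  exact G.meas_UU (BU p N n) (H := fun q : Mat (Fin N) × (Fin (N + 1) → ℝ) =>
    HN eig W0 a lam q.1) (fun s => (meas_HN eig W0 a lam s).comp measurable_fst) d ω.1

theorem measurable_stM (h : OU p N n × LS p n → ℝ) :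
    Measurable (stM n eig W0 W1 a lam h) := by
  unfold stM
  refine meas_Ed fun d => G.meas_eE (fun w => TLaw.measurable_SQ d w) fun w => ?_
  exact (measurable_mB (fun u => TLaw.measurable_xw u) w).mul_const _

theorem measurable_stT (b : Fin p.nc → ℝ) (bb K : ℝ) (h : OU p N n × LS p n → ℝ) :
    Measurable (stT n eig W0 a lam m1 b bb K h) := by
  unfold stT
  refine meas_Ed fun d => G.meas_eE (fun w => measurable_tl_stP W0
    (fun w => (measurable_psi K).comp (measurable_redB_WX b bb _ w)) d w) fun w => ?_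
  exact (((measurable_dpsi K).comp (measurable_redB_WX b bb _ w)).mul
    (measurable_mB (fun u => measurable_WX b bb _ u) w)).mul_const _

theorem measurable_FF (s : SY.SS p n (univ : Finset (Fin N → Bool))) :
    Measurable fun G : Fin (N + 1) → ℝ => FF lam G s := by
  have e : (fun G : Fin (N + 1) → ℝ => FF lam G s) =
      fun G => ∑ i, phi lam s i * un G i.castSucc := funext fun G => FF_eq lam G s
  rw [e]
  exact measurable_sum_un (phi lam s)

theorem measurable_g1 (w : OU p N n × LS p n) :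
    Measurable fun q : Mat (Fin N) × (Fin (N + 1) → ℝ) => g1 eig lam Λ m1 q w := by
  have h1 := measurable_Z0 (N := N) w.1.1.1.1
  have h2 := measurable_qf2 eig w.1.1.1.1
  have h3 : Measurable fun q : Mat (Fin N) × (Fin (N + 1) → ℝ) => kp (e0 eig) m1 q.2 :=
    (measurable_kp (e0 eig) m1).comp measurable_snd
  have h4 : Measurable fun q : Mat (Fin N) × (Fin (N + 1) → ℝ) => FF lam q.2 w.1.1 :=
    (measurable_FF w.1.1).comp measurable_snd
  unfold g1 eF
  exact ((h3.mul h2).const_mul _).add (((measurable_const.add h1.norm).const_mul 2).mul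
    (h4.norm.add measurable_const))

theorem measurable_exK (K : ℝ) (b : Fin p.nc → ℝ) (bb : ℝ) (v : (Fin N → Bool) → Bool → ℝ)
    (w : OU p N n × LS p n) :
    Measurable fun q : Mat (Fin N) × (Fin (N + 1) → ℝ) => exK K eig m1 b bb v q w := by
  unfold exK
  exact Measurable.ite (measurableSet_lt measurable_const (measurable_redB_WX b bb v w).norm)
    measurable_const measurable_const

theorem exK_mem (K : ℝ) (b : Fin p.nc → ℝ) (bb : ℝ) (v : (Fin N → Bool) → Bool → ℝ)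
    (q : Mat (Fin N) × (Fin (N + 1) → ℝ)) (w : OU p N n × LS p n) :
    0 ≤ exK K eig m1 b bb v q w ∧ exK K eig m1 b bb v q w ≤ 1 := by
  unfold exK
  split_ifs <;> norm_num

/-- step averages of functions with values in `[0, 1]` -/
theorem ST_unit (hN : 0 < N) {μ : Measure (Mat (Fin N))} [IsProbabilityMeasure μ]
    {F : Mat (Fin N) × (Fin (N + 1) → ℝ) → DD p N → OU p N n × LS p n → ℝ}
    (hF : ∀ d w, Measurable fun q => F q d w) (h0 : ∀ q d w, 0 ≤ F q d w)
    (h1 : ∀ q d w, F q d w ≤ 1) :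
    Integrable (TLaw.ST eig W0 W1 a lam F) (rho μ) ∧ ∀ q, 0 ≤ TLaw.ST eig W0 W1 a lam F q := by
  refine ⟨?_, TLaw.ST_nonneg h0⟩
  refine Integrable.of_bound (TLaw.measurable_ST hF).aestronglyMeasurable 1 ?_
  refine Eventually.of_forall fun q => ?_
  rw [Real.norm_eq_abs]
  refine abs_Ed_le hN fun d => ?_
  have hP := TLaw.SQ_isProb (n := n) (eig := eig) (W0 := W0) (W1 := W1) (a := a) (lam := lam) q d
  rw [abs_of_nonneg (eE_nonneg hP fun w => h0 q d w)]
  have := eE_mono hP (g := fun _ => (1:ℝ)) fun w => h1 q d w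
  rwa [eE_const hP] at this

/-- mean of a bounded magnetisation times `h` -/
theorem abs_eE_mul_le {Ω : Type*} [Fintype Ω] {P : Ω → ℝ} (hP : IsProb P) {m h : Ω → ℝ}
    (hm : ∀ w, |m w| ≤ 1) {M : ℝ} (hM : eE P (fun w => h w ^ 2) ≤ M) :
    |eE P (fun w => m w * h w)| ≤ Real.sqrt M := by
  refine (abs_eE_le_eE_abs hP _).trans (le_trans ?_ (eE_abs_le_sqrt hP hM))
  refine eE_mono hP fun w => ?_
  rw [abs_mul]
  exact mul_le_of_le_one_left (abs_nonneg _) (hm w)

theorem abs_dpsi_mB_le {Ω : Type*} {K : ℝ} (hK : 0 ≤ K) (U : Ω × Bool → ℝ) (w : Ω) :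
    |dpsi K (redB U w) * mB U w| ≤ 1 := by
  rw [abs_mul, abs_of_nonneg (dpsi_mem hK _).1]
  calc _ ≤ 1 * 1 := mul_le_mul (dpsi_mem hK _).2 (abs_mB_le U w) (abs_nonneg _) zero_le_one
    _ = 1 := one_mul 1

set_option maxHeartbeats 1000000 in
/-- **integrated comparison of the magnetisations** -/
theorem mag_int {μ : Measure (Mat (Fin N))} [IsProbabilityMeasure μ]
    (D : EDat μ n eig W0 a lam Λ m1 S Cφ) {cs bb B K A2 δ Dm j1 j2 j3 M θ : ℝ} (hK : 0 < K)
    {Δ : (Fin N → Bool) → ℝ} (hΔ0 : ∀ σ, 0 ≤ Δ σ) (hDm : ∀ σ, Δ σ ≤ Dm)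
    (hΔ : ∀ σ c, |vT W0 W1 σ c - (cs + bb * sv c)| ≤ Δ σ) (hv : ∀ σ c, |vT W0 W1 σ c| ≤ B)
    (hδ : ∫ V, Ed p N (fun d => eE (G.PP (BU p N n) (HN eig W0 a lam V) d)
      (fun w => Δ w.1.1.1)) ∂μ ≤ δ)
    (hy : eE (lsP p n) (fun l => yb (a (Fin.last N)) l ^ 2) ≤ A2) (hA2 : 0 ≤ A2)
    (h : OU p N n × LS p n → ℝ) (hM1 : 1 ≤ M) (hθ : 0 < θ)
    (hMX : ∀ᵐ q ∂(rho μ), ∀ d, eE (stQ (n := n) (HN eig W0 a lam q.1)
      (HN1 eig W1 a lam (cplS q.1 q.2)) d) (fun w => h w ^ 2) ≤ M)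
    (hMY : ∀ᵐ q ∂(rho μ), ∀ d, eE (tl (stP p N n (HN eig W0 a lam q.1) d) (stF p N n) p.xs
      (fun w => psi K (redB (WX eig m1 (a (Fin.last N)) bb (fun _ _ => 0) q.1 q.2) w)))
      (fun w => h w ^ 2) ≤ M)
    (hj1 : ∫ q in GP N, TLaw.ST (n := n) eig W0 W1 a lam
      (fun q _ w => min 1 (g1 eig lam Λ m1 q w)) q ∂(rho μ) ≤ j1)
    (hj2 : ∫ q in GP N, TLaw.ST (n := n) eig W0 W1 a lam
      (fun q _ w => exK K eig m1 (a (Fin.last N)) 0 (vT W0 W1) q w) q ∂(rho μ) ≤ j2)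
    (hj3 : ∫ q in GP N, TLaw.ST (n := n) eig W0 W1 a lam
      (fun q _ w => exK K eig m1 (a (Fin.last N)) bb (fun _ _ => 0) q w) q ∂(rho μ) ≤ j3) :
    |∫ q, stM n eig W0 W1 a lam h q ∂(rho μ) -
      ∫ q, stT n eig W0 a lam m1 (a (Fin.last N)) bb K h q ∂(rho μ)| ≤
      4 * Real.sqrt M / θ * ((3 * j1 + 2 * j2 + j3) +
        (Real.exp (2 * (K + 1)) * (3 * (680 * (1 + Λ) ^ 3 * kapN eig Λ m1 +
          (9 + 2 * Cφ) * Real.sqrt S) + 2 * δ) +
          1 / K * (2 * Real.exp 1 * Cw Λ B 0 A2 + Cw Λ 0 bb A2))) +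
        16 * Real.sqrt M * θ + (Real.sqrt M + Real.sqrt M) * (500 / ((N : ℝ) + 1) ^ 2) := by
  have hN' : 0 < N := D.hN
  have E1 := D.avg_gR
  have E2 := D.avg_gQ (B := 0) (bb := bb) hy hA2
  have E2v := D.avg_gQ (B := B) (bb := 0) hy hA2
  have E3 := avg_Δ (p := p) (n := n) (eig := eig) (W0 := W0) (a := a) (lam := lam) hN' (μ := μ)
    Δ (Dm := Dm) (fun σ => by rw [abs_of_nonneg (hΔ0 σ)]; exact hDm σ)
  rw [← E3.2] at hδ
  have hΛ0 : 0 ≤ Λ := (abs_nonneg _).trans D.hm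
  have U1 := ST_unit (n := n) (eig := eig) (W0 := W0) (W1 := W1) (a := a) (lam := lam) hN' (μ := μ)
    (F := fun q _ w => min 1 (g1 eig lam Λ m1 q w))
    (fun d w => measurable_const.min (measurable_g1 w))
    (fun q d w => le_min zero_le_one (g1_nonneg hΛ0 q w)) (fun q d w => min_le_left _ _)
  have U2 := ST_unit (n := n) (eig := eig) (W0 := W0) (W1 := W1) (a := a) (lam := lam) hN' (μ := μ)
    (F := fun q _ w => exK K eig m1 (a (Fin.last N)) 0 (vT W0 W1) q w)
    (fun d w => measurable_exK K _ _ _ w) (fun q d w => (exK_mem K _ _ _ q w).1)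
    (fun q d w => (exK_mem K _ _ _ q w).2)
  have U3 := ST_unit (n := n) (eig := eig) (W0 := W0) (W1 := W1) (a := a) (lam := lam) hN' (μ := μ)
    (F := fun q _ w => exK K eig m1 (a (Fin.last N)) bb (fun _ _ => 0) q w)
    (fun d w => measurable_exK K _ _ _ w) (fun q d w => (exK_mem K _ _ _ q w).1)
    (fun q d w => (exK_mem K _ _ _ q w).2)
  set S1 := TLaw.ST (n := n) eig W0 W1 a lam (fun q _ w => min 1 (g1 eig lam Λ m1 q w)) with hS1
  set S2 := TLaw.ST (n := n) eig W0 W1 a lam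
      (fun q _ w => exK K eig m1 (a (Fin.last N)) 0 (vT W0 W1) q w) with hS2
  set S3 := TLaw.ST (n := n) eig W0 W1 a lam
      (fun q _ w => exK K eig m1 (a (Fin.last N)) bb (fun _ _ => 0) q w) with hS3
  set F1 : Mat (Fin N) × (Fin (N + 1) → ℝ) → ℝ := fun q => Ed p N (fun d =>
    eE (stP p N n (HN eig W0 a lam q.1) d) (gR eig lam Λ m1 (Real.sqrt S) q)) with hF1
  set F2 : Mat (Fin N) × (Fin (N + 1) → ℝ) → ℝ := fun q => Ed p N (fun d =>
    eE (stP p N n (HN eig W0 a lam q.1) d) (fun w => Δ w.1.1.1.1)) with hF2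
  set F3 : Mat (Fin N) × (Fin (N + 1) → ℝ) → ℝ := fun q => Ed p N (fun d =>
    eE (stP p N n (HN eig W0 a lam q.1) d) (gQ eig Λ B 0 (a (Fin.last N)) q)) with hF3
  set F4 : Mat (Fin N) × (Fin (N + 1) → ℝ) → ℝ := fun q => Ed p N (fun d =>
    eE (stP p N n (HN eig W0 a lam q.1) d) (gQ eig Λ 0 bb (a (Fin.last N)) q)) with hF4
  have n1 : ∀ q, 0 ≤ F1 q := fun q => Ed_nonneg fun d => eE_nonneg (stP_isProb _ _)
    fun w => gR_nonneg eig lam hΛ0 (Real.sqrt_pos.2 D.hS) m1 q w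
  have n2 : ∀ q, 0 ≤ F2 q := fun q => Ed_nonneg fun d => eE_nonneg (stP_isProb _ _)
    fun w => hΔ0 _
  have n3 : ∀ q, 0 ≤ F3 q := fun q => Ed_nonneg fun d => eE_nonneg (stP_isProb _ _)
    fun w => by unfold gQ; positivity
  have n4 : ∀ q, 0 ≤ F4 q := fun q => Ed_nonneg fun d => eE_nonneg (stP_isProb _ _)
    fun w => by unfold gQ; positivity
  have hsM : 0 ≤ Real.sqrt M := Real.sqrt_nonneg _
  -- bounds of the two averages
  have hbM : ∀ᵐ q ∂(rho μ), |stM n eig W0 W1 a lam h q| ≤ Real.sqrt M :=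
    hMX.mono fun q hq => abs_Ed_le hN' fun d =>
      abs_eE_mul_le (stQ_isProb _ _ d) (fun w => abs_mB_le _ w) (hq d)
  have hbT : ∀ᵐ q ∂(rho μ), |stT n eig W0 a lam m1 (a (Fin.last N)) bb K h q| ≤ Real.sqrt M :=
    hMY.mono fun q hq => abs_Ed_le hN' fun d =>
      abs_eE_mul_le (tl_isProb (stP_isProb _ d) p.xs_expo.pos _)
        (fun w => abs_dpsi_mB_le hK.le _ w) (hq d)
  have iM : Integrable (stM n eig W0 W1 a lam h) (rho μ) :=
    Integrable.of_bound (measurable_stM h).aestronglyMeasurable (Real.sqrt M)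
      (hbM.mono fun q hq => by rwa [Real.norm_eq_abs])
  have iT : Integrable (stT n eig W0 a lam m1 (a (Fin.last N)) bb K h) (rho μ) :=
    Integrable.of_bound (measurable_stT _ _ _ h).aestronglyMeasurable (Real.sqrt M)
      (hbT.mono fun q hq => by rwa [Real.norm_eq_abs])
  -- the error functions
  have iR : Integrable (fun q => 3 * S1 q + 2 * S2 q + S3 q) (rho μ) :=
    ((U1.1.const_mul 3).add (U2.1.const_mul 2)).add U3.1
  have iE : Integrable (fun q => Real.exp (2 * (K + 1)) * (3 * F1 q + 2 * F2 q) +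
      1 / K * (2 * Real.exp 1 * F3 q + F4 q)) (rho μ) :=
    (((E1.1.const_mul 3).add (E3.1.const_mul 2)).const_mul _).add
      (((E2v.1.const_mul (2 * Real.exp 1)).add E2.1).const_mul _)
  have bR : ∫ q in GP N, (3 * S1 q + 2 * S2 q + S3 q) ∂(rho μ) ≤ 3 * j1 + 2 * j2 + j3 := by
    have i1 := (U1.1.const_mul 3).integrableOn (s := GP N)
    have i2 := (U2.1.const_mul 2).integrableOn (s := GP N)
    have i3 := U3.1.integrableOn (s := GP N)
    have i12 : IntegrableOn (fun q => 3 * S1 q + 2 * S2 q) (GP N) (rho μ) := i1.add i2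
    rw [integral_add i12 i3, integral_add i1 i2, integral_const_mul, integral_const_mul]
    linarith
  have bE : ∫ q, (Real.exp (2 * (K + 1)) * (3 * F1 q + 2 * F2 q) +
      1 / K * (2 * Real.exp 1 * F3 q + F4 q)) ∂(rho μ) ≤
      Real.exp (2 * (K + 1)) * (3 * (680 * (1 + Λ) ^ 3 * kapN eig Λ m1 +
          (9 + 2 * Cφ) * Real.sqrt S) + 2 * δ) +
          1 / K * (2 * Real.exp 1 * Cw Λ B 0 A2 + Cw Λ 0 bb A2) := by
    have i1 : Integrable (fun q => 3 * F1 q) (rho μ) := E1.1.const_mul 3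
    have i2 : Integrable (fun q => 2 * F2 q) (rho μ) := E3.1.const_mul 2
    have i3 : Integrable (fun q => 2 * Real.exp 1 * F3 q) (rho μ) := E2v.1.const_mul _
    have i12 : Integrable (fun q => 3 * F1 q + 2 * F2 q) (rho μ) := i1.add i2
    have i34 : Integrable (fun q => 2 * Real.exp 1 * F3 q + F4 q) (rho μ) := i3.add E2.1
    have i12' : Integrable (fun q => Real.exp (2 * (K + 1)) * (3 * F1 q + 2 * F2 q)) (rho μ) :=
      i12.const_mul _
    have i34' : Integrable (fun q => 1 / K * (2 * Real.exp 1 * F3 q + F4 q)) (rho μ) :=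
      i34.const_mul _
    rw [integral_add i12' i34', integral_const_mul, integral_const_mul, integral_add i1 i2,
      integral_add i3 E2.1, integral_const_mul, integral_const_mul, integral_const_mul]
    have hb1 : 3 * ∫ q, F1 q ∂(rho μ) + 2 * ∫ q, F2 q ∂(rho μ) ≤
        3 * (680 * (1 + Λ) ^ 3 * kapN eig Λ m1 + (9 + 2 * Cφ) * Real.sqrt S) + 2 * δ := by
      have := E1.2
      linarith
    have hb2 : 2 * Real.exp 1 * ∫ q, F3 q ∂(rho μ) + ∫ q, F4 q ∂(rho μ) ≤
        2 * Real.exp 1 * Cw Λ B 0 A2 + Cw Λ 0 bb A2 := by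
      have h1 := mul_le_mul_of_nonneg_left E2v.2 (by positivity : 0 ≤ 2 * Real.exp 1)
      have h2 := E2.2
      linarith
    exact add_le_add (mul_le_mul_of_nonneg_left hb1 (Real.exp_pos _).le)
      (mul_le_mul_of_nonneg_left hb2 (by positivity))
  refine int_close2 (ρ := rho μ) (measurableSet_GP (N := N)) iM iT iR iE
    (fun q => by
      have := U1.2 q
      have := U2.2 q
      have := U3.2 q
      positivity)
    (fun q => by
      have := n1 q
      have := n2 q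
      have := n3 q
      have := n4 q
      positivity) (by positivity) (by positivity) bR bE ?_
    (by filter_upwards [hbM, hbT] with q h1 h2; exact add_le_add h1 h2)
    (rho_GP_compl (N := N) (μ := μ))
  filter_upwards [hMX, hMY] with q h1 h2 hq
  have h3 : ∀ d : DD p N, _ := fun d => mag_pt (W0 := W0) (W1 := W1) (a := a) (lam := lam) D.hN
    D.he D.hm D.hS hK hΔ0 hΔ hv hq d h hM1 hθ (h1 d) (h2 d)
  have h4 : |stM n eig W0 W1 a lam h q - stT n eig W0 a lam m1 (a (Fin.last N)) bb K h q| ≤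
      Ed p N (fun d => |eE (stQ (n := n) (HN eig W0 a lam q.1)
        (HN1 eig W1 a lam (cplS q.1 q.2)) d)
        (fun w => mB (xw (HN eig W0 a lam q.1) (HN1 eig W1 a lam (cplS q.1 q.2))) w * h w) -
      eE (tl (stP p N n (HN eig W0 a lam q.1) d) (stF p N n) p.xs (fun w => psi K
        (redB (WX eig m1 (a (Fin.last N)) bb (fun _ _ => 0) q.1 q.2) w)))
        (fun w => dpsi K (redB (WX eig m1 (a (Fin.last N)) bb (fun _ _ => 0) q.1 q.2) w) *
          mB (WX eig m1 (a (Fin.last N)) bb (fun _ _ => 0) q.1 q.2) w * h w)|) := by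
    unfold stM stT Ed
    rw [← Finset.sum_sub_distrib]
    refine (Finset.abs_sum_le_sum_abs _ _).trans (Finset.sum_le_sum fun d _ => ?_)
    rw [← mul_sub, abs_mul, abs_of_nonneg (dw_nonneg p N d)]
  refine h4.trans ((Ed_mono p N h3).trans (le_of_eq ?_))
  simp only [Ed_add, Ed_smul, Ed_const p hN']
  show 4 * Real.sqrt M / θ * (3 * S1 q + 2 * S2 q + S3 q +
    Real.exp (2 * (K + 1)) * (3 * F1 q + 2 * F2 q) +
      1 / K * (2 * Real.exp 1 * F3 q + F4 q)) + 16 * Real.sqrt M * θ = _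
  rw [add_assoc (3 * S1 q + 2 * S2 q + S3 q)]

end

end Crest.Agent.R164.ED
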