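import Crest.Agent.R164.GXch

/-!
Row 164 (helper39): consequences of the exchangeability of the finite system: averages over the group
of a site and over the class of a row.
-/

set_option autoImplicit false

namespace Crest.Agent.R164.GX

open Finset MeasureTheory Crest.Agent.R141 Crest.Agent.R164 Crest.Agent.R164.SY
  Crest.Agent.R164.Haar Crest.Agent.R164.Rot Crest.Agent.R164.RotRel

noncomputable section

variable {p : Par} {N n : ℕ} {A : Finset (Fin N → Bool)} {hA : A.Nonempty}
  {eig : Fin N → ℝ} {t : ℝ} {V : (Fin N → Bool) → ℝ} {a lam : Fin N → Fin p.nc → ℝ}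

/-! ### Continuity and integrability -/

theorem xU_eq (U : Fin N → Fin N → ℝ) (σ : Fin N → Bool) (i : Fin N) :
    xU (Matrix.of U) σ i = ∑ j, U i j * Crest.ProbabilityR.InvariantGlass.spinVec σ j := rfl

theorem continuous_xU (σ : Fin N → Bool) (i : Fin N) :
    Continuous fun U : Fin N → Fin N → ℝ => xU (Matrix.of U) σ i := by
  simp only [xU_eq]
  fun_prop

theorem continuous_Hs (s : SS p n A) :
    Continuous fun U : Fin N → Fin N → ℝ => Hs eig t V a lam U s := by
  unfold Hs HS h0q Mag.qd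
  refine Continuous.add (Continuous.add (Continuous.add (continuous_const.mul
    (continuous_const.mul ?_)) continuous_const) continuous_const) ?_
  · exact continuous_finsetSum _ fun i _ => continuous_const.mul
      ((continuous_xU s.1.1 i).pow 2)
  · exact continuous_finsetSum _ fun g _ => continuous_finsetSum _ fun i _ =>
      continuous_const.mul (continuous_const.mul (continuous_xU s.1.1 i))

theorem continuous_UU (d : DD p N) (ω : G.Om (base p n A hA)) :
    Continuous fun U : Fin N → Fin N → ℝ => G.UU (base p n A hA) (Hs eig t V a lam U) d ω := by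
  unfold G.UU
  exact (continuous_Hs (eig := eig) (t := t) (V := V) (a := a) (lam := lam) ω.1).add
    continuous_const

theorem continuous_Ed {O : (Fin N → Fin N → ℝ) → DD p N → G.Om (base p n A hA) → ℝ}
    (hO : ∀ d ω, Continuous fun U => O U d ω) :
    Continuous fun U => Ed p N (fun d =>
      eE (G.PP (base p n A hA) (Hs eig t V a lam U) d) (O U d)) := by
  unfold Ed G.PP
  exact continuous_finsetSum _ fun d _ => continuous_const.mul
    (continuous_eE_tl (G.prior_isProb _) p.xs_expo.pos (fun ω => continuous_UU d ω) (hO d))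

theorem RHaar_OK {μ : Measure (Fin N → Fin N → ℝ)} (hμ : RHaar μ) : ∀ᵐ U ∂μ, U ∈ OK N := hμ.mem

variable {μ : Measure (Fin N → Fin N → ℝ)} [IsProbabilityMeasure μ]

theorem integrable_Ed (hμ : RHaar μ)
    {O : (Fin N → Fin N → ℝ) → DD p N → G.Om (base p n A hA) → ℝ}
    (hO : ∀ d ω, Continuous fun U => O U d ω) :
    Integrable (fun U => Ed p N (fun d =>
      eE (G.PP (base p n A hA) (Hs eig t V a lam U) d) (O U d))) μ :=
  integrable_cont (RHaar_OK hμ) (continuous_Ed hO)

/-! ### Linearity and monotonicity of the full average -/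

theorem EE_congr (hμ : RHaar μ) {O O' : (Fin N → Fin N → ℝ) → DD p N → G.Om (base p n A hA) → ℝ}
    (h : ∀ U ∈ OK N, ∀ d ω, O U d ω = O' U d ω) :
    EE hA μ eig t V a lam O = EE hA μ eig t V a lam O' := by
  unfold EE
  refine integral_congr_ae ?_
  filter_upwards [RHaar_OK hμ] with U hU
  have h1 : ∀ d, O U d = O' U d := fun d => funext fun ω => h U hU d ω
  simp only [h1]

theorem EE_mono (hμ : RHaar μ) {O O' : (Fin N → Fin N → ℝ) → DD p N → G.Om (base p n A hA) → ℝ}
    (hO : ∀ d ω, Continuous fun U => O U d ω) (hO' : ∀ d ω, Continuous fun U => O' U d ω)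
    (h : ∀ U ∈ OK N, ∀ d ω, O U d ω ≤ O' U d ω) :
    EE hA μ eig t V a lam O ≤ EE hA μ eig t V a lam O' := by
  unfold EE
  refine integral_mono_ae (integrable_Ed hμ hO) (integrable_Ed hμ hO') ?_
  filter_upwards [RHaar_OK hμ] with U hU
  refine Ed_mono _ _ fun d => ?_
  exact eE_mono (G.PP_isProb _ _ _) fun ω => h U hU d ω

theorem EE_add (hμ : RHaar μ) {O O' : (Fin N → Fin N → ℝ) → DD p N → G.Om (base p n A hA) → ℝ}
    (hO : ∀ d ω, Continuous fun U => O U d ω) (hO' : ∀ d ω, Continuous fun U => O' U d ω) :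
    EE hA μ eig t V a lam (fun U d ω => O U d ω + O' U d ω) =
      EE hA μ eig t V a lam O + EE hA μ eig t V a lam O' := by
  unfold EE
  rw [← integral_add (integrable_Ed hμ hO) (integrable_Ed hμ hO')]
  congr 1; funext U
  rw [← Ed_add]
  congr 1; funext d
  rw [← eE_add]

theorem EE_smul (c : ℝ) (O : (Fin N → Fin N → ℝ) → DD p N → G.Om (base p n A hA) → ℝ) :
    EE hA μ eig t V a lam (fun U d ω => c * O U d ω) = c * EE hA μ eig t V a lam O := by
  unfold EE
  rw [← integral_const_mul]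
  congr 1; funext U
  rw [← Ed_smul]
  congr 1; funext d
  unfold eE
  rw [Finset.mul_sum]
  exact Finset.sum_congr rfl fun ω _ => by ring

theorem EE_const (hN : 0 < N) (c : ℝ) :
    EE (n := n) hA μ eig t V a lam (fun _ _ _ => c) = c := by
  unfold EE
  have h1 : ∀ U, Ed p N (fun d => eE (G.PP (base p n A hA) (Hs eig t V a lam U) d)
      (fun _ => c)) = c := by
    intro U
    have h2 : ∀ d, eE (G.PP (base p n A hA) (Hs eig t V a lam U) d) (fun _ => c) = c :=
      fun d => eE_const (G.PP_isProb (base p n A hA) _ d) c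
    simp only [h2]
    exact Ed_const p hN c
  simp only [h1]
  simp

theorem EE_sum (hμ : RHaar μ) {ι : Type*} (s : Finset ι)
    {O : ι → (Fin N → Fin N → ℝ) → DD p N → G.Om (base p n A hA) → ℝ}
    (hO : ∀ j ∈ s, ∀ d ω, Continuous fun U => O j U d ω) :
    EE hA μ eig t V a lam (fun U d ω => ∑ j ∈ s, O j U d ω) =
      ∑ j ∈ s, EE hA μ eig t V a lam (O j) := by
  classical
  induction s using Finset.induction_on with
  | empty =>
    simp only [Finset.sum_empty]
    have := EE_smul (n := n) (hA := hA) (μ := μ) (eig := eig) (t := t) (V := V) (a := a)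
      (lam := lam) 0 (fun _ _ _ => 0)
    simpa using this
  | insert j s hj ih =>
    rw [Finset.sum_insert hj, ← ih fun j' hj' => hO j' (Finset.mem_insert_of_mem hj')]
    simp only [Finset.sum_insert hj]
    refine EE_add hμ (hO j (Finset.mem_insert_self _ _)) fun d ω => ?_
    exact continuous_finsetSum _ fun j' hj' => hO j' (Finset.mem_insert_of_mem hj') d ω

/-! ### Swaps of two sites, of two rows -/

theorem pD_one (d : DD p N) : pD 1 d = d := by
  funext k
  unfold pD
  cases d k <;> rfl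

/-- equivariance of a family of observables attached to the sites -/
def ColEqv (O : Fin N → (Fin N → Fin N → ℝ) → DD p N → G.Om (base p n A hA) → ℝ) : Prop :=
  ∀ (π : Equiv.Perm (Fin N)) (hπ : ∀ σ : Fin N → Bool, (fun j => σ (π j)) ∈ A ↔ σ ∈ A)
    (j : Fin N) (U : Fin N → Fin N → ℝ) (d : DD p N) (ω : G.Om (base p n A hA)),
    O j (pU 1 π U) (pD π d) (pO hA 1 π hπ ω) = O (π j) U d ω

theorem one_mem_iff (A : Finset (Fin N → Bool)) (σ : Fin N → Bool) :
    (fun j => σ ((1 : Equiv.Perm (Fin N)) j)) ∈ A ↔ σ ∈ A := Iff.rfl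

/-- equivariance of a family of observables attached to the rows -/
def RowEqv (O : Fin N → (Fin N → Fin N → ℝ) → DD p N → G.Om (base p n A hA) → ℝ) : Prop :=
  ∀ (ρ : Equiv.Perm (Fin N)) (i : Fin N) (U : Fin N → Fin N → ℝ) (d : DD p N)
    (ω : G.Om (base p n A hA)),
    O i (pU ρ 1 U) d (pO hA ρ 1 (one_mem_iff A) ω) = O (ρ i) U d ω

section Grp

variable (hμ : RHaar μ)
include hμ

/-- two sites which may be swapped -/
theorem EE_col_eq {O : Fin N → (Fin N → Fin N → ℝ) → DD p N → G.Om (base p n A hA) → ℝ}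
    (hO : ColEqv O) {j j' : Fin N} (h : Inv 1 (Equiv.swap j j') eig V a lam)
    (hπ : ∀ σ : Fin N → Bool, (fun i => σ (Equiv.swap j j' i)) ∈ A ↔ σ ∈ A) :
    EE hA μ eig t V a lam (O j) = EE hA μ eig t V a lam (O j') := by
  have h1 := exchange (hA := hA) (t := t) hμ h hπ (O j)
  have h2 : (fun U d ω => O j (pU 1 (Equiv.swap j j') U) (pD (Equiv.swap j j') d)
      (pO hA 1 (Equiv.swap j j') hπ ω)) = O j' := by
    funext U d ω
    rw [hO _ hπ, Equiv.swap_apply_left]
  rw [h2] at h1
  exact h1.symm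

/-- two rows which may be swapped -/
theorem EE_row_eq {O : Fin N → (Fin N → Fin N → ℝ) → DD p N → G.Om (base p n A hA) → ℝ}
    (hO : RowEqv O) {i i' : Fin N} (h : Inv (Equiv.swap i i') 1 eig V a lam) :
    EE hA μ eig t V a lam (O i) = EE hA μ eig t V a lam (O i') := by
  have h1 := exchange (hA := hA) (t := t) hμ h (one_mem_iff A) (O i)
  have h2 : (fun U d ω => O i (pU (Equiv.swap i i') 1 U) (pD 1 d)
      (pO hA (Equiv.swap i i') 1 (one_mem_iff A) ω)) = O i' := by
    funext U d ω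
    rw [pD_one, hO, Equiv.swap_apply_left]
  rw [h2] at h1
  exact h1.symm

/-- average over a set of sites which may be swapped with `j0` -/
theorem EE_col_avg {O : Fin N → (Fin N → Fin N → ℝ) → DD p N → G.Om (base p n A hA) → ℝ}
    (hO : ColEqv O) {j0 : Fin N} {Gr : Finset (Fin N)}
    (hGr : ∀ j ∈ Gr, Inv 1 (Equiv.swap j0 j) eig V a lam)
    (hπ : ∀ j ∈ Gr, ∀ σ : Fin N → Bool, (fun i => σ (Equiv.swap j0 j i)) ∈ A ↔ σ ∈ A) :
    (Gr.card : ℝ) * EE hA μ eig t V a lam (O j0) = ∑ j ∈ Gr, EE hA μ eig t V a lam (O j) := by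
  rw [← Finset.sum_congr rfl fun j hj => EE_col_eq (t := t) hμ hO (hGr j hj) (hπ j hj)]
  rw [Finset.sum_const, nsmul_eq_mul]

/-- average over a set of rows which may be swapped with `i0` -/
theorem EE_row_avg {O : Fin N → (Fin N → Fin N → ℝ) → DD p N → G.Om (base p n A hA) → ℝ}
    (hO : RowEqv O) {i0 : Fin N} {Cl : Finset (Fin N)}
    (hCl : ∀ i ∈ Cl, Inv (Equiv.swap i0 i) 1 eig V a lam) :
    (Cl.card : ℝ) * EE hA μ eig t V a lam (O i0) = ∑ i ∈ Cl, EE hA μ eig t V a lam (O i) := by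
  rw [← Finset.sum_congr rfl fun i hi => EE_row_eq (t := t) hμ hO (hCl i hi)]
  rw [Finset.sum_const, nsmul_eq_mul]

/-- upper bound through the sum over all sites -/
theorem EE_col_le {O : Fin N → (Fin N → Fin N → ℝ) → DD p N → G.Om (base p n A hA) → ℝ}
    (hO : ColEqv O) {j0 : Fin N} {Gr : Finset (Fin N)}
    (hGr : ∀ j ∈ Gr, Inv 1 (Equiv.swap j0 j) eig V a lam)
    (hπ : ∀ j ∈ Gr, ∀ σ : Fin N → Bool, (fun i => σ (Equiv.swap j0 j i)) ∈ A ↔ σ ∈ A)
    (hc : ∀ j d ω, Continuous fun U => O j U d ω) (h0 : ∀ j U d ω, 0 ≤ O j U d ω)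
    {R : (Fin N → Fin N → ℝ) → DD p N → G.Om (base p n A hA) → ℝ}
    (hcR : ∀ d ω, Continuous fun U => R U d ω)
    (hR : ∀ U ∈ OK N, ∀ d ω, ∑ j, O j U d ω ≤ R U d ω) :
    (Gr.card : ℝ) * EE hA μ eig t V a lam (O j0) ≤ EE hA μ eig t V a lam R := by
  rw [EE_col_avg (t := t) hμ hO hGr hπ, ← EE_sum hμ _ fun j _ => hc j]
  refine EE_mono hμ (fun d ω => continuous_finsetSum _ fun j _ => hc j d ω) hcR
    fun U hU d ω => ?_
  exact (Finset.sum_le_sum_of_subset_of_nonneg (Finset.subset_univ _)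
    fun j _ _ => h0 j U d ω).trans (hR U hU d ω)

/-- upper bound through the sum over all rows -/
theorem EE_row_le {O : Fin N → (Fin N → Fin N → ℝ) → DD p N → G.Om (base p n A hA) → ℝ}
    (hO : RowEqv O) {i0 : Fin N} {Cl : Finset (Fin N)}
    (hCl : ∀ i ∈ Cl, Inv (Equiv.swap i0 i) 1 eig V a lam)
    (hc : ∀ j d ω, Continuous fun U => O j U d ω) (h0 : ∀ j U d ω, 0 ≤ O j U d ω)
    {R : (Fin N → Fin N → ℝ) → DD p N → G.Om (base p n A hA) → ℝ}
    (hcR : ∀ d ω, Continuous fun U => R U d ω)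
    (hR : ∀ U ∈ OK N, ∀ d ω, ∑ j, O j U d ω ≤ R U d ω) :
    (Cl.card : ℝ) * EE hA μ eig t V a lam (O i0) ≤ EE hA μ eig t V a lam R := by
  rw [EE_row_avg (t := t) hμ hO hCl, ← EE_sum hμ _ fun j _ => hc j]
  refine EE_mono hμ (fun d ω => continuous_finsetSum _ fun j _ => hc j d ω) hcR
    fun U hU d ω => ?_
  exact (Finset.sum_le_sum_of_subset_of_nonneg (Finset.subset_univ _)
    fun j _ _ => h0 j U d ω).trans (hR U hU d ω)

end Grp

end

end Crest.Agent.R164.GX
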