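import Crest.Agent.R164.EDe
import Crest.Agent.R164.EDf
import Crest.Agent.R164.EDh
import Crest.Agent.R164.EDp
import Crest.Agent.R164.GXch2

/-!
# Row 164, L side, module E-DIFF part t (helper436): the increment of the averaged free energy and the
observables of the last site, in terms of the step from `N` to `N + 1` sites

* `(TT1)` `eE_gl_odd`, `eE_gl_even`, `tt1_z`, `tt1_one`;
* `(TT0)` `tt0`, `tt0_int1`, `tt0_int0`, `tt0_intq`, `tt0_ae`;
* `(TT2)` `tt2`;
* `(TT3)` `tt3_z`, `tt3_one`, `tt3_int_z`, `tt3_int_one`.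
-/

set_option autoImplicit false

namespace Crest.Agent.R164.ED

open MeasureTheory Finset Crest.Agent.R141 Crest.Agent.R164 Crest.Agent.R164.PF
  Crest.Agent.R164.Haar Crest.Agent.R164.Rot Crest.Agent.R164.RotRel

noncomputable section

variable {p : Par} {N n : ℕ}

/-! ### (TT1) -/

section tt1

variable (H0 : SY.SS p n (univ : Finset (Fin N → Bool)) → ℝ)
  (H1 : SY.SS p n (univ : Finset (Fin (N + 1) → Bool)) → ℝ)

/-- odd observables of the last spin -/
theorem eE_gl_odd (hnb : p.nb = 0) (d : DD p N) {O : OU p (N + 1) n → ℝ}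
    {o : OU p N n × LS p n → ℝ} (h : ∀ w b, O (gl hnb (w, b)) = o w * sv b) :
    eE (G.PP (BU p (N + 1) n) H1 (F4.liftD p N d)) O =
      eE (stQ H0 H1 d) (fun w => mB (xw H0 H1) w * o w) := by
  rw [eE_gl H0 H1 hnb d O]
  congr 1
  funext w
  rw [h, h]
  have e1 : sv true = 1 := rfl
  have e2 : sv false = -1 := rfl
  have e3 : Real.exp (Xr H0 H1 w) =
      (Real.exp (xw H0 H1 (w, true)) + Real.exp (xw H0 H1 (w, false))) / 2 := exp_redB _ _
  have e4 : 0 < Real.exp (xw H0 H1 (w, true)) + Real.exp (xw H0 H1 (w, false)) := by positivity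
  rw [e1, e2, Real.exp_sub, Real.exp_sub, e3]
  unfold mB
  field_simp
  ring

/-- observables which do not depend on the last spin -/
theorem eE_gl_even (hnb : p.nb = 0) (d : DD p N) {O : OU p (N + 1) n → ℝ}
    {o : OU p N n × LS p n → ℝ} (h : ∀ w b, O (gl hnb (w, b)) = o w) :
    eE (G.PP (BU p (N + 1) n) H1 (F4.liftD p N d)) O = eE (stQ H0 H1 d) o := by
  rw [eE_gl H0 H1 hnb d O]
  congr 1
  funext w
  rw [h, h]
  have e3 : Real.exp (Xr H0 H1 w) =
      (Real.exp (xw H0 H1 (w, true)) + Real.exp (xw H0 H1 (w, false))) / 2 := exp_redB _ _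
  have e4 : 0 < Real.exp (xw H0 H1 (w, true)) + Real.exp (xw H0 H1 (w, false)) := by positivity
  rw [Real.exp_sub, Real.exp_sub, e3]
  field_simp

/-- **(TT1)** for the main field times the spin -/
theorem tt1_z (hnb : p.nb = 0) (d : DD p N) (g : Fin p.nc) :
    eE (G.PP (BU p (N + 1) n) H1 (F4.liftD p N d))
      (fun w => SY.zf w.1.2.1 g (Fin.last N) * sv (w.1.1.1 (Fin.last N))) =
      eE (stQ H0 H1 d) (fun w => mB (xw H0 H1) w * zl w.2.1 g) := by
  exact eE_gl_odd H0 H1 hnb d (o := fun w => zl w.2.1 g) fun w b =>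
    congrArg₂ (fun x y : ℝ => x * y) (zf_gl_last w.1.1 w.2 b g)
      (congrArg sv (spin_gl_last w.1.1 w.2 b))

/-- **(TT1)** for the spin -/
theorem tt1_one (hnb : p.nb = 0) (d : DD p N) :
    eE (G.PP (BU p (N + 1) n) H1 (F4.liftD p N d)) (fun w => sv (w.1.1.1 (Fin.last N))) =
      eE (stQ H0 H1 d) (fun w => mB (xw H0 H1) w * 1) := by
  exact eE_gl_odd H0 H1 hnb d (o := fun _ => 1) fun w b =>
    (congrArg sv (spin_gl_last w.1.1 w.2 b)).trans (one_mul _).symm

/-- **(TT1)** for the square of the main field -/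
theorem tt1_sq (hnb : p.nb = 0) (d : DD p N) (g : Fin p.nc) :
    eE (G.PP (BU p (N + 1) n) H1 (F4.liftD p N d))
      (fun w => SY.zf w.1.2.1 g (Fin.last N) ^ 2) =
      eE (stQ H0 H1 d) (fun w => zl w.2.1 g ^ 2) := by
  exact eE_gl_even H0 H1 hnb d (o := fun w => zl w.2.1 g ^ 2) fun w b =>
    congrArg (fun x : ℝ => x ^ 2) (zf_gl_last w.1.1 w.2 b g)

end tt1

/-! ### removal of the pointers -/

/-- size of the log-weight of the pointers -/
def cP (p : Par) : ℝ := p.nc * p.T * p.τ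

theorem cP_nonneg (p : Par) : 0 ≤ cP p := by
  have := p.hτ0
  unfold cP
  positivity

theorem abs_UU_sub_none {M : ℕ} (B : G.Base p M) (H : B.S → ℝ) (d : DD p M) (ω : G.Om B) :
    |G.UU B H d ω - G.UU B H (fun _ => none) ω| ≤ cP p := by
  unfold G.UU G.WW
  have e1 : ∀ k : Stp p, G.cfac B none k ω = 0 := fun k => rfl
  simp only [e1, Finset.sum_const_zero]
  have e2 : H ω.1 + ((∑ i, ∑ b, G.gfac B i b ω) + ∑ k, G.cfac B (d k) k ω) -
      (H ω.1 + ((∑ i, ∑ b, G.gfac B i b ω) + 0)) = ∑ k, G.cfac B (d k) k ω := by ring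
  rw [e2]
  unfold cP
  refine (Finset.abs_sum_le_sum_abs _ _).trans ?_
  refine (Finset.sum_le_sum fun k _ => abs_cfac_le B (d k) k ω).trans ?_
  simp

theorem abs_Phi_sub_none {M : ℕ} (B : G.Base p M) (H : B.S → ℝ) (d : DD p M) :
    |G.Phi B H d - G.Phi B H (fun _ => none)| ≤ cP p :=
  aE_abs_sub_le (𝓕 := G.fil B) (G.prior_isProb B) p.xs_expo.pos (abs_UU_sub_none B H d)

theorem eE_PP_le_none {M : ℕ} (B : G.Base p M) (H : B.S → ℝ) (d : DD p M) {f : G.Om B → ℝ}
    (hf : ∀ ω, 0 ≤ f ω) :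
    eE (G.PP B H d) f ≤ Real.exp (2 * cP p) * eE (G.PP B H (fun _ => none)) f := by
  have h1 : G.PP B H d = tl (G.PP B H (fun _ => none)) (G.fil B) p.xs
      (fun ω => G.UU B H d ω - G.UU B H (fun _ => none) ω) := by
    have h2 := tl_add (𝓕 := G.fil B) (G.prior_isProb B) p.xs_expo.pos
      (G.UU B H (fun _ => none)) (fun ω => G.UU B H d ω - G.UU B H (fun _ => none) ω)
    have h3 : (fun ω => G.UU B H (fun _ => none) ω +
        (G.UU B H d ω - G.UU B H (fun _ => none) ω)) = G.UU B H d := by funext ω; ring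
    rw [h3] at h2
    exact h2
  rw [h1]
  exact eE_tl_le (G.PP_isProb B H _) p.xs_expo (abs_UU_sub_none B H d) hf

theorem emb_eq_lift (d : DD p N) : EDlaw.emb p d = F4.liftD p N d := rfl

theorem lift_none : F4.liftD p N (fun _ => none) = fun _ => none := rfl

/-! ### (TT2) -/

variable (eig : Fin (N + 1) → ℝ) (W0 : (Fin N → Bool) → ℝ) (W1 : (Fin (N + 1) → Bool) → ℝ)
  (a lam : Fin (N + 1) → Fin p.nc → ℝ)

/-- the constant of (TT2) -/
def cT (p : Par) : ℝ := 32 * Real.exp (2 * cP p)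

theorem cT_nonneg (p : Par) : 0 ≤ cT p := by unfold cT; positivity

/-- **(TT2)** -/
theorem tt2 (hnb : p.nb = 0) (U : Mat (Fin (N + 1))) (d : DD p (N + 1)) (g : Fin p.nc) :
    eE (G.PP (BU p (N + 1) n) (HN1 eig W1 a lam U) d)
      (fun w => SY.zf w.1.2.1 g (Fin.last N) ^ 2) ≤ cT p * (1 + a (Fin.last N) g ^ 2) := by
  have h1 := eE_PP_le_none (BU p (N + 1) n) (HN1 eig W1 a lam U) d
    (f := fun w => SY.zf w.1.2.1 g (Fin.last N) ^ 2) (fun _ => sq_nonneg _)
  have h2 := tt1_sq (n := n) (HN eig (fun _ => 0) a lam (fun _ _ => 0)) (HN1 eig W1 a lam U) hnb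
    (fun _ => none) g
  have h3 := sm2 (n := n) eig (fun _ => 0) W1 a lam U (fun _ _ => 0) (fun _ => none) g
  rw [← h2] at h3
  calc _ ≤ _ := h1
    _ ≤ Real.exp (2 * cP p) * (32 * (1 + a (Fin.last N) g ^ 2)) :=
        mul_le_mul_of_nonneg_left h3 (Real.exp_pos _).le
    _ = _ := by unfold cT; ring

/-! ### integrability -/

variable {μ : Measure (Mat (Fin N))} [IsProbabilityMeasure μ]
  {ν : Measure (Mat (Fin (N + 1)))} [IsProbabilityMeasure ν]

theorem cont_Ed_Phi {M : ℕ} (eig : Fin M → ℝ) (t : ℝ) (V : (Fin M → Bool) → ℝ)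
    (a lam : Fin M → Fin p.nc → ℝ) :
    Continuous fun U : Mat (Fin M) => Ed p M (fun d => G.Phi (BU p M n)
      (GX.Hs eig t V a lam U) d) := by
  unfold Ed G.Phi eE
  exact continuous_finsetSum _ fun d _ => continuous_const.mul
    (continuous_finsetSum _ fun ω _ => continuous_const.mul
      (continuous_A (G.prior_isProb _) p.xs_expo.pos
        (fun ω => GX.continuous_UU (eig := eig) (t := t) (V := V) (a := a) (lam := lam) d ω) 0 ω))

theorem cont_Ed_Phi_lift (t : ℝ) (V : (Fin (N + 1) → Bool) → ℝ) :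
    Continuous fun U : Mat (Fin (N + 1)) => Ed p N (fun d => G.Phi (BU p (N + 1) n)
      (GX.Hs eig t V a lam U) (F4.liftD p N d)) := by
  unfold Ed G.Phi eE
  exact continuous_finsetSum _ fun d _ => continuous_const.mul
    (continuous_finsetSum _ fun ω _ => continuous_const.mul
      (continuous_A (G.prior_isProb _) p.xs_expo.pos
        (fun ω => GX.continuous_UU (eig := eig) (t := t) (V := V) (a := a) (lam := lam)
          (F4.liftD p N d) ω) 0 ω))

theorem cont_Ed_eE_lift (t : ℝ) (V : (Fin (N + 1) → Bool) → ℝ) (O : OU p (N + 1) n → ℝ) :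
    Continuous fun U : Mat (Fin (N + 1)) => Ed p N (fun d => eE (G.PP (BU p (N + 1) n)
      (GX.Hs eig t V a lam U) (F4.liftD p N d)) O) := by
  unfold Ed G.PP
  exact continuous_finsetSum _ fun d _ => continuous_const.mul
    (continuous_eE_tl (G.prior_isProb _) p.xs_expo.pos
      (fun ω => GX.continuous_UU (eig := eig) (t := t) (V := V) (a := a) (lam := lam)
        (F4.liftD p N d) ω) fun _ => continuous_const)

/-- a continuous function of the coupled matrix is integrable -/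
theorem integrable_cplS (hμ : RHaar μ) (hν : RHaar ν) {f : Mat (Fin (N + 1)) → ℝ}
    (hf : Continuous f) : Integrable (fun q => f (cplS q.1 q.2)) (rho μ) := by
  have h1 : Integrable f ν := integrable_cont (GX.RHaar_OK hν) hf
  rw [← cplS_law hμ hν] at h1
  unfold cplSLaw at h1
  exact h1.comp_measurable measurable_cplS

theorem integrable_fst (hμ : RHaar μ) {f : Mat (Fin N) → ℝ}
    (hf : Continuous f) : Integrable (fun q => f q.1) (rho μ) :=
  (integrable_cont (GX.RHaar_OK hμ) hf).comp_fst _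

theorem integral_fst' (f : Mat (Fin N) → ℝ) :
    ∫ q, f q.1 ∂(rho μ) = ∫ V, f V ∂μ := by
  have h := integral_fun_fst (μ := μ) (ν := gam (Fin (N + 1))) f
  simpa using h

/-! ### (TT0) -/

/-- the integrand of the exact increment -/
def incr (p : Par) (n : ℕ) (eig : Fin (N + 1) → ℝ) (W0 : (Fin N → Bool) → ℝ)
    (W1 : (Fin (N + 1) → Bool) → ℝ) (a lam : Fin (N + 1) → Fin p.nc → ℝ)
    (q : Mat (Fin N) × (Fin (N + 1) → ℝ)) : ℝ :=
  Ed p N (fun d => aE (stP p N n (HN eig W0 a lam q.1) d) (stF p N n) p.xs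
    (Xr (HN eig W0 a lam q.1) (HN1 eig W1 a lam (cplS q.1 q.2))))

theorem incr_eq (hnb : p.nb = 0) (q : Mat (Fin N) × (Fin (N + 1) → ℝ)) :
    incr p n eig W0 W1 a lam q =
      Ed p N (fun d => G.Phi (BU p (N + 1) n) (HN1 eig W1 a lam (cplS q.1 q.2))
        (F4.liftD p N d)) - Ed p N (fun d => G.Phi (BU p N n) (HN eig W0 a lam q.1) d) := by
  have h1 : ∀ d, aE (stP p N n (HN eig W0 a lam q.1) d) (stF p N n) p.xs
      (Xr (HN eig W0 a lam q.1) (HN1 eig W1 a lam (cplS q.1 q.2))) =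
      G.Phi (BU p (N + 1) n) (HN1 eig W1 a lam (cplS q.1 q.2)) (F4.liftD p N d) -
        G.Phi (BU p N n) (HN eig W0 a lam q.1) d := by
    intro d
    rw [Phi_gl (HN eig W0 a lam q.1) (HN1 eig W1 a lam (cplS q.1 q.2)) hnb d]
    ring
  unfold incr
  simp only [h1]
  unfold Ed
  rw [← Finset.sum_sub_distrib]
  exact Finset.sum_congr rfl fun d _ => by ring

theorem tt0_int1 (hν : RHaar ν) : Integrable (fun U : Mat (Fin (N + 1)) =>
    Ed p (N + 1) (fun d => G.Phi (BU p (N + 1) n) (HN1 eig W1 a lam U) d)) ν :=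
  integrable_cont (GX.RHaar_OK hν) (cont_Ed_Phi eig 1 W1 a lam)

theorem tt0_int0 (hμ : RHaar μ) : Integrable (fun V : Mat (Fin N) =>
    Ed p N (fun d => G.Phi (BU p N n) (HN eig W0 a lam V) d)) μ :=
  integrable_cont (GX.RHaar_OK hμ) (cont_Ed_Phi _ 1 W0 _ _)

/-- integrability of the exact increment -/
theorem tt0_intq (hnb : p.nb = 0) (hμ : RHaar μ) (hν : RHaar ν) :
    Integrable (fun q : Mat (Fin N) × (Fin (N + 1) → ℝ) => Ed p N (fun d =>
      aE (stP p N n (HN eig W0 a lam q.1) d) (stF p N n) p.xs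
        (Xr (HN eig W0 a lam q.1) (HN1 eig W1 a lam (cplS q.1 q.2))))) (rho μ) := by
  have h1 := integrable_cplS hμ hν (cont_Ed_Phi_lift (p := p) (N := N) (n := n) eig a lam 1 W1)
  have h2 := integrable_fst hμ (cont_Ed_Phi (p := p) (n := n) (fun i : Fin N => eig i.castSucc) 1 W0
    (fun i => a i.castSucc) (fun i => lam i.castSucc))
  refine (h1.sub h2).congr (Filter.Eventually.of_forall fun q => ?_)
  exact (incr_eq eig W0 W1 a lam hnb q).symm

/-- **(TT0)** the increment of the averaged free energy -/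
theorem tt0 (hnb : p.nb = 0) (hN : 0 < N) (hμ : RHaar μ) (hν : RHaar ν) :
    |IP ν n (HN1 eig W1 a lam) - IP μ n (HN eig W0 a lam) -
      ∫ q, Ed p N (fun d => aE (stP p N n (HN eig W0 a lam q.1) d) (stF p N n) p.xs
        (Xr (HN eig W0 a lam q.1) (HN1 eig W1 a lam (cplS q.1 q.2)))) ∂(rho μ)| ≤
      (p.nc * p.T) ^ 2 * p.τ / ((N : ℝ) + 1) := by
  have c1 := cont_Ed_Phi (p := p) (n := n) eig 1 W1 a lam
  have c2 := cont_Ed_Phi_lift (p := p) (N := N) (n := n) eig a lam 1 W1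
  have i1 := integrable_cplS hμ hν c1
  have i2 := integrable_cplS hμ hν c2
  have c0 := cont_Ed_Phi (p := p) (n := n) (fun i : Fin N => eig i.castSucc) 1 W0
    (fun i => a i.castSucc) (fun i => lam i.castSucc)
  have i0 := integrable_fst hμ c0
  have e1 : IP ν n (HN1 eig W1 a lam) = ∫ q, Ed p (N + 1) (fun d => G.Phi (BU p (N + 1) n)
      (HN1 eig W1 a lam (cplS q.1 q.2)) d) ∂(rho μ) :=
    cplS_integral hμ hν _ c1.aestronglyMeasurable
  have e0 : IP μ n (HN eig W0 a lam) = ∫ q, Ed p N (fun d => G.Phi (BU p N n)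
      (HN eig W0 a lam q.1) d) ∂(rho μ) := (integral_fst' _).symm
  have e2 : ∫ q, Ed p N (fun d => aE (stP p N n (HN eig W0 a lam q.1) d) (stF p N n) p.xs
        (Xr (HN eig W0 a lam q.1) (HN1 eig W1 a lam (cplS q.1 q.2)))) ∂(rho μ) =
      (∫ q, Ed p N (fun d => G.Phi (BU p (N + 1) n) (HN1 eig W1 a lam (cplS q.1 q.2))
        (F4.liftD p N d)) ∂(rho μ)) - ∫ q, Ed p N (fun d => G.Phi (BU p N n)
      (HN eig W0 a lam q.1) d) ∂(rho μ) := by
    rw [← integral_sub i2 i0]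
    exact integral_congr_ae (Filter.Eventually.of_forall fun q => incr_eq eig W0 W1 a lam hnb q)
  rw [e1, e0, e2]
  have e3 : (∫ q, Ed p (N + 1) (fun d => G.Phi (BU p (N + 1) n)
      (HN1 eig W1 a lam (cplS q.1 q.2)) d) ∂(rho μ)) - (∫ q, Ed p N (fun d => G.Phi (BU p N n)
      (HN eig W0 a lam q.1) d) ∂(rho μ)) -
      ((∫ q, Ed p N (fun d => G.Phi (BU p (N + 1) n) (HN1 eig W1 a lam (cplS q.1 q.2))
        (F4.liftD p N d)) ∂(rho μ)) - ∫ q, Ed p N (fun d => G.Phi (BU p N n)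
      (HN eig W0 a lam q.1) d) ∂(rho μ)) =
      ∫ q, (Ed p (N + 1) (fun d => G.Phi (BU p (N + 1) n)
      (HN1 eig W1 a lam (cplS q.1 q.2)) d) - Ed p N (fun d => G.Phi (BU p (N + 1) n)
        (HN1 eig W1 a lam (cplS q.1 q.2)) (F4.liftD p N d))) ∂(rho μ) := by
    rw [integral_sub i1 i2]
    ring
  rw [e3, ← Real.norm_eq_abs]
  have hb : ∀ q : Mat (Fin N) × (Fin (N + 1) → ℝ), ‖Ed p (N + 1) (fun d =>
      G.Phi (BU p (N + 1) n) (HN1 eig W1 a lam (cplS q.1 q.2)) d) - Ed p N (fun d =>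
        G.Phi (BU p (N + 1) n) (HN1 eig W1 a lam (cplS q.1 q.2)) (F4.liftD p N d))‖ ≤
      (p.nc * p.T) ^ 2 * p.τ / ((N : ℝ) + 1) := by
    intro q
    rw [Real.norm_eq_abs]
    have h1 := EDlaw.Ed_succ_sub p hN (fun d => G.Phi (BU p (N + 1) n)
      (HN1 eig W1 a lam (cplS q.1 q.2)) d) (G.Phi (BU p (N + 1) n)
      (HN1 eig W1 a lam (cplS q.1 q.2)) (fun _ => none)) (M := cP p)
      (fun d => abs_Phi_sub_none _ _ d)
    simp only [emb_eq_lift] at h1
    refine h1.trans (le_of_eq ?_)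
    unfold cP
    ring
  have h2 := norm_integral_le_of_norm_le_const (μ := rho μ) (Filter.Eventually.of_forall hb)
  simpa using h2

omit [IsProbabilityMeasure μ] in
/-- a.e. bound of the increment, from bounds of the free energies -/
theorem tt0_ae (hnb : p.nb = 0) (hN : 0 < N) (hμ : RHaar μ) {c0 c1 : ℝ}
    (h0 : ∀ V : Mat (Fin N), Matrix.of V ∈ Matrix.orthogonalGroup (Fin N) ℝ → ∀ d,
      |G.Phi (BU p N n) (HN eig W0 a lam V) d| ≤ c0)
    (h1 : ∀ U : Mat (Fin (N + 1)), Matrix.of U ∈ Matrix.orthogonalGroup (Fin (N + 1)) ℝ → ∀ d,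
      |G.Phi (BU p (N + 1) n) (HN1 eig W1 a lam U) d| ≤ c1) :
    ∀ᵐ q ∂(rho μ), |Ed p N (fun d => aE (stP p N n (HN eig W0 a lam q.1) d) (stF p N n) p.xs
        (Xr (HN eig W0 a lam q.1) (HN1 eig W1 a lam (cplS q.1 q.2))))| ≤ c0 + c1 := by
  have a1 : ∀ᵐ q ∂(rho μ), nrm q.2 ≠ 0 :=
    (Measure.quasiMeasurePreserving_snd).ae gam_nrm_ne_zero
  have a2 : ∀ᵐ q ∂(rho μ), Matrix.of q.1 ∈ Matrix.orthogonalGroup (Fin N) ℝ :=
    (Measure.quasiMeasurePreserving_fst).ae hμ.mem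
  filter_upwards [a1, a2] with q hq1 hq2
  have h3 := h0 q.1 hq2
  have h4 := h1 _ (cplS_mem hq2 hq1)
  have h5 : ∀ d, |aE (stP p N n (HN eig W0 a lam q.1) d) (stF p N n) p.xs
        (Xr (HN eig W0 a lam q.1) (HN1 eig W1 a lam (cplS q.1 q.2)))| ≤ c0 + c1 := by
    intro d
    have h6 := Phi_gl (n := n) (HN eig W0 a lam q.1) (HN1 eig W1 a lam (cplS q.1 q.2)) hnb d
    have h7 := h3 d
    have h8 := h4 (F4.liftD p N d)
    rw [abs_le] at h7 h8 ⊢
    constructor <;> linarith [h7.1, h7.2, h8.1, h8.2]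
  have h6 := Ed_mono p N fun d => (abs_le.1 (h5 d)).2
  have h7 := Ed_mono p N fun d => (abs_le.1 (h5 d)).1
  rw [Ed_const p hN] at h6 h7
  exact abs_le.2 ⟨h7, h6⟩

/-! ### (TT3) -/

/-- general form: `ν`-average of an observable and its average over the step -/
theorem tt3_gen (hN : 0 < N) (hμ : RHaar μ) (hν : RHaar ν)
    (O : OU p (N + 1) n → ℝ) {M : ℝ}
    (hM : ∀ (U : Mat (Fin (N + 1))) (d : DD p (N + 1)),
      |eE (G.PP (BU p (N + 1) n) (HN1 eig W1 a lam U) d) O| ≤ M) :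
    |GX.EE (p := p) (n := n) (univ_nonempty (α := Fin (N + 1) → Bool)) ν eig 1 W1 a lam
        (fun _ _ w => O w) -
      ∫ q, Ed p N (fun d => eE (G.PP (BU p (N + 1) n) (HN1 eig W1 a lam (cplS q.1 q.2))
        (F4.liftD p N d)) O) ∂(rho μ)| ≤ p.nc * p.T * M / ((N : ℝ) + 1) := by
  have c1 : Continuous fun U : Mat (Fin (N + 1)) => Ed p (N + 1) (fun d =>
      eE (G.PP (BU p (N + 1) n) (GX.Hs eig 1 W1 a lam U) d) O) :=
    GX.continuous_Ed (O := fun _ _ w => O w) fun _ _ => continuous_const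
  have c2 := cont_Ed_eE_lift (p := p) (N := N) (n := n) eig a lam 1 W1 O
  have i1 := integrable_cplS hμ hν c1
  have i2 := integrable_cplS hμ hν c2
  have e1 : GX.EE (p := p) (n := n) (univ_nonempty (α := Fin (N + 1) → Bool)) ν eig 1 W1 a lam
      (fun _ _ w => O w) = ∫ q, Ed p (N + 1) (fun d => eE (G.PP (BU p (N + 1) n)
        (HN1 eig W1 a lam (cplS q.1 q.2)) d) O) ∂(rho μ) :=
    cplS_integral hμ hν _ c1.aestronglyMeasurable
  rw [e1, ← integral_sub i1 i2, ← Real.norm_eq_abs]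
  have hb : ∀ q : Mat (Fin N) × (Fin (N + 1) → ℝ), ‖Ed p (N + 1) (fun d =>
      eE (G.PP (BU p (N + 1) n) (HN1 eig W1 a lam (cplS q.1 q.2)) d) O) - Ed p N (fun d =>
        eE (G.PP (BU p (N + 1) n) (HN1 eig W1 a lam (cplS q.1 q.2)) (F4.liftD p N d)) O)‖ ≤
      p.nc * p.T * M / ((N : ℝ) + 1) := by
    intro q
    rw [Real.norm_eq_abs]
    have h1 := EDlaw.Ed_succ_sub p hN (fun d => eE (G.PP (BU p (N + 1) n)
      (HN1 eig W1 a lam (cplS q.1 q.2)) d) O) 0 (M := M) (fun d => by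
        rw [sub_zero]; exact hM _ d)
    simp only [emb_eq_lift] at h1
    exact h1
  have h2 := norm_integral_le_of_norm_le_const (μ := rho μ) (Filter.Eventually.of_forall hb)
  simpa using h2

theorem abs_eE_z_le (hnb : p.nb = 0) (U : Mat (Fin (N + 1))) (d : DD p (N + 1)) (g : Fin p.nc) :
    |eE (G.PP (BU p (N + 1) n) (HN1 eig W1 a lam U) d)
      (fun w => SY.zf w.1.2.1 g (Fin.last N) * sv (w.1.1.1 (Fin.last N)))| ≤
      Real.sqrt (cT p) * (1 + |a (Fin.last N) g|) := by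
  have hP := G.PP_isProb (BU p (N + 1) n) (HN1 eig W1 a lam U) d
  have h1 := abs_eE_le_eE_abs hP
    (fun w => SY.zf w.1.2.1 g (Fin.last N) * sv (w.1.1.1 (Fin.last N)))
  have e1 : (fun w : OU p (N + 1) n =>
      |SY.zf w.1.2.1 g (Fin.last N) * sv (w.1.1.1 (Fin.last N))|) =
      fun w => |SY.zf w.1.2.1 g (Fin.last N)| := by
    funext w
    rw [abs_mul, sv_abs, mul_one]
  rw [e1] at h1
  have h2 := eE_abs_le_sqrt hP (tt2 (n := n) eig W1 a lam hnb U d g)
  refine (h1.trans h2).trans ?_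
  rw [Real.sqrt_mul (cT_nonneg p)]
  refine mul_le_mul_of_nonneg_left ?_ (Real.sqrt_nonneg _)
  rw [Real.sqrt_le_left (by positivity)]
  have := sq_abs (a (Fin.last N) g)
  nlinarith [abs_nonneg (a (Fin.last N) g)]

/-- **(TT3)** main field times the spin of the last site -/
theorem tt3_z (hnb : p.nb = 0) (hN : 0 < N) (hμ : RHaar μ) (hν : RHaar ν) (g : Fin p.nc) :
    |GX.EE (p := p) (n := n) (univ_nonempty (α := Fin (N + 1) → Bool)) ν eig 1 W1 a lam
        (fun _ _ w => SY.zf w.1.2.1 g (Fin.last N) * sv (w.1.1.1 (Fin.last N))) -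
      ∫ q, Ed p N (fun d => eE (stQ (n := n) (HN eig W0 a lam q.1) (HN1 eig W1 a lam (cplS q.1 q.2)) d)
        (fun w => mB (xw (HN eig W0 a lam q.1) (HN1 eig W1 a lam (cplS q.1 q.2))) w *
          zl w.2.1 g)) ∂(rho μ)| ≤
      p.nc * p.T * (Real.sqrt (cT p) * (1 + |a (Fin.last N) g|)) / ((N : ℝ) + 1) := by
  have h := tt3_gen (p := p) (n := n) eig W1 a lam hN hμ hν
    (fun w => SY.zf w.1.2.1 g (Fin.last N) * sv (w.1.1.1 (Fin.last N)))
    (fun U d => abs_eE_z_le eig W1 a lam hnb U d g)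
  have e : ∀ (q : Mat (Fin N) × (Fin (N + 1) → ℝ)) (d : DD p N),
      eE (G.PP (BU p (N + 1) n) (HN1 eig W1 a lam (cplS q.1 q.2)) (F4.liftD p N d))
        (fun w => SY.zf w.1.2.1 g (Fin.last N) * sv (w.1.1.1 (Fin.last N))) =
      eE (stQ (n := n) (HN eig W0 a lam q.1) (HN1 eig W1 a lam (cplS q.1 q.2)) d)
        (fun w => mB (xw (HN eig W0 a lam q.1) (HN1 eig W1 a lam (cplS q.1 q.2))) w *
          zl w.2.1 g) := fun q d => tt1_z _ _ hnb d g
  simp only [e] at h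
  exact h

/-- **(TT3)** spin of the last site -/
theorem tt3_one (hnb : p.nb = 0) (hN : 0 < N) (hμ : RHaar μ) (hν : RHaar ν) :
    |GX.EE (p := p) (n := n) (univ_nonempty (α := Fin (N + 1) → Bool)) ν eig 1 W1 a lam
        (fun _ _ w => sv (w.1.1.1 (Fin.last N))) -
      ∫ q, Ed p N (fun d => eE (stQ (n := n) (HN eig W0 a lam q.1) (HN1 eig W1 a lam (cplS q.1 q.2)) d)
        (fun w => mB (xw (HN eig W0 a lam q.1) (HN1 eig W1 a lam (cplS q.1 q.2))) w * 1))
          ∂(rho μ)| ≤ p.nc * p.T / ((N : ℝ) + 1) := by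
  have h := tt3_gen (p := p) (n := n) eig W1 a lam hN hμ hν
    (fun w => sv (w.1.1.1 (Fin.last N))) (M := 1) (fun U d => by
      have hP := G.PP_isProb (BU p (N + 1) n) (HN1 eig W1 a lam U) d
      refine (abs_eE_le_eE_abs hP _).trans (le_of_eq ?_)
      have e1 : (fun w : OU p (N + 1) n => |sv (w.1.1.1 (Fin.last N))|) = fun _ => (1 : ℝ) := by
        funext w; exact sv_abs _
      rw [e1, eE_const hP])
  have e : ∀ (q : Mat (Fin N) × (Fin (N + 1) → ℝ)) (d : DD p N),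
      eE (G.PP (BU p (N + 1) n) (HN1 eig W1 a lam (cplS q.1 q.2)) (F4.liftD p N d))
        (fun w => sv (w.1.1.1 (Fin.last N))) =
      eE (stQ (n := n) (HN eig W0 a lam q.1) (HN1 eig W1 a lam (cplS q.1 q.2)) d)
        (fun w => mB (xw (HN eig W0 a lam q.1) (HN1 eig W1 a lam (cplS q.1 q.2))) w * 1) :=
    fun q d => tt1_one _ _ hnb d
  simp only [e, mul_one] at h
  simpa only [mul_one] using h

theorem tt3_int_z (hnb : p.nb = 0) (hμ : RHaar μ) (hν : RHaar ν) (g : Fin p.nc) :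
    Integrable (fun q : Mat (Fin N) × (Fin (N + 1) → ℝ) => Ed p N (fun d =>
      eE (stQ (n := n) (HN eig W0 a lam q.1) (HN1 eig W1 a lam (cplS q.1 q.2)) d)
        (fun w => mB (xw (HN eig W0 a lam q.1) (HN1 eig W1 a lam (cplS q.1 q.2))) w *
          zl w.2.1 g))) (rho μ) := by
  have h := integrable_cplS hμ hν (cont_Ed_eE_lift (p := p) (N := N) (n := n) eig a lam 1 W1
    (fun w => SY.zf w.1.2.1 g (Fin.last N) * sv (w.1.1.1 (Fin.last N))))
  refine h.congr (Filter.Eventually.of_forall fun q => ?_)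
  simp only
  congr 1
  funext d
  exact tt1_z _ _ hnb d g

theorem tt3_int_one (hnb : p.nb = 0) (hμ : RHaar μ) (hν : RHaar ν) :
    Integrable (fun q : Mat (Fin N) × (Fin (N + 1) → ℝ) => Ed p N (fun d =>
      eE (stQ (n := n) (HN eig W0 a lam q.1) (HN1 eig W1 a lam (cplS q.1 q.2)) d)
        (fun w => mB (xw (HN eig W0 a lam q.1) (HN1 eig W1 a lam (cplS q.1 q.2))) w * 1)))
          (rho μ) := by
  have h := integrable_cplS hμ hν (cont_Ed_eE_lift (p := p) (N := N) (n := n) eig a lam 1 W1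
    (fun w => sv (w.1.1.1 (Fin.last N))))
  refine h.congr (Filter.Eventually.of_forall fun q => ?_)
  simp only
  congr 1
  funext d
  exact tt1_one _ _ hnb d

end

end Crest.Agent.R164.ED
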