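import Crest.Agent.R164.Mag1

/-!
Row 164 (helper552): gauge symmetry, penalty, increments of the penalty, dyadic average.
-/

set_option autoImplicit false

namespace Crest.Agent.R164.Mag

open MeasureTheory Set Filter Topology
open Crest.ProbabilityR.InvariantGlass

/-- number of sites of the group `j` -/
noncomputable def rJ {N J : ℕ} (lab : Fin N → Fin J) (j : Fin J) : ℝ :=
  ((Finset.univ.filter fun r => lab r = j).card : ℝ)

/-- total spin of the group `j` -/
noncomputable def SJ {N J : ℕ} (lab : Fin N → Fin J) (σ : Fin N → Bool) (j : Fin J) : ℝ :=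
  ∑ r ∈ Finset.univ.filter (fun r => lab r = j), spinVec σ r

theorem mag_eq {N J : ℕ} (lab : Fin N → Fin J) (σ : Fin N → Bool) (j : Fin J) :
    mag lab σ j = SJ lab σ j / rJ lab j := rfl

theorem rJ_nonneg {N J : ℕ} (lab : Fin N → Fin J) (j : Fin J) : 0 ≤ rJ lab j := Nat.cast_nonneg _

theorem SJ_eq {N J : ℕ} (lab : Fin N → Fin J) (σ : Fin N → Bool) (j : Fin J) :
    SJ lab σ j = rJ lab j * mag lab σ j := by
  unfold mag SJ rJ
  rcases Nat.eq_zero_or_pos (Finset.univ.filter fun r => lab r = j).card with h | h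
  · rw [Finset.card_eq_zero] at h
    rw [h]; simp
  · have h' : ((Finset.univ.filter fun r => lab r = j).card : ℝ) ≠ 0 := by
      exact_mod_cast h.ne'
    field_simp

theorem sum_rJ {N J : ℕ} (lab : Fin N → Fin J) : ∑ j, rJ lab j = N := by
  unfold rJ
  rw [← Nat.cast_sum, ← Finset.card_eq_sum_card_fiberwise
    (fun x _ => Finset.mem_coe.2 (Finset.mem_univ (lab x)))]
  simp

/-- the linear part: field `c j` on the groups with `t j ≠ 0` -/
noncomputable def LIN {N J : ℕ} (c t : Fin J → ℝ) (lab : Fin N → Fin J) (σ : Fin N → Bool) : ℝ :=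
  ∑ j, if t j = 0 then 0 else c j * SJ lab σ j

/-- the squared distance of the magnetisations to the target, `∑ r_j (m_j - t_j)^2` -/
noncomputable def QD {N J : ℕ} (t : Fin J → ℝ) (lab : Fin N → Fin J) (σ : Fin N → Bool) : ℝ :=
  ∑ j, if t j = 0 then 0 else rJ lab j * (SJ lab σ j / rJ lab j - t j) ^ 2

/-- the penalty `∑_{t_j ≠ 0} [c_j S_j - K r_j (S_j / r_j - t_j)^2]` -/
noncomputable def PEN {N J : ℕ} (c t : Fin J → ℝ) (K : ℝ) (lab : Fin N → Fin J)
    (σ : Fin N → Bool) : ℝ :=
  ∑ j, if t j = 0 then 0 else c j * SJ lab σ j - K * (rJ lab j * (SJ lab σ j / rJ lab j - t j) ^ 2)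

theorem PEN_eq {N J : ℕ} (c t : Fin J → ℝ) (K : ℝ) (lab : Fin N → Fin J) (σ : Fin N → Bool) :
    PEN c t K lab σ = LIN c t lab σ - K * QD t lab σ := by
  unfold PEN LIN QD
  rw [Finset.mul_sum, ← Finset.sum_sub_distrib]
  refine Finset.sum_congr rfl fun j _ => ?_
  split_ifs <;> ring

theorem QD_nonneg {N J : ℕ} (t : Fin J → ℝ) (lab : Fin N → Fin J) (σ : Fin N → Bool) :
    0 ≤ QD t lab σ := by
  unfold QD
  refine Finset.sum_nonneg fun j _ => ?_
  split_ifs
  · exact le_rfl
  · exact mul_nonneg (rJ_nonneg lab j) (sq_nonneg _)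

theorem QD_le {N J : ℕ} {t : Fin J → ℝ} (ht : ∀ j, |t j| ≤ 1) (lab : Fin N → Fin J)
    (σ : Fin N → Bool) : QD t lab σ ≤ 4 * N := by
  unfold QD
  calc ∑ j, (if t j = 0 then 0 else rJ lab j * (SJ lab σ j / rJ lab j - t j) ^ 2)
      ≤ ∑ j, rJ lab j * 4 := by
        refine Finset.sum_le_sum fun j _ => ?_
        split_ifs
        · exact mul_nonneg (rJ_nonneg lab j) (by norm_num)
        · refine mul_le_mul_of_nonneg_left ?_ (rJ_nonneg lab j)
          rw [← mag_eq]
          have h1 := abs_le.1 (abs_mag_le lab σ j)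
          have h2 := abs_le.1 (ht j)
          nlinarith [h1.1, h1.2, h2.1, h2.2]
    _ = 4 * N := by rw [← Finset.sum_mul, sum_rJ]; ring

theorem LIN_eq {N J : ℕ} (c t : Fin J → ℝ) (lab : Fin N → Fin J) (σ : Fin N → Bool) :
    LIN c t lab σ = ∑ r : Fin N, (if t (lab r) = 0 then 0 else c (lab r)) * spinVec σ r := by
  rw [field_eq lab (fun j => if t j = 0 then 0 else c j) σ]
  unfold LIN
  refine Finset.sum_congr rfl fun j _ => ?_
  have := SJ_eq lab σ j
  unfold rJ at this
  rw [← this]
  split_ifs <;> ring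

theorem abs_LIN_le {N J : ℕ} (c t : Fin J → ℝ) (lab : Fin N → Fin J) (σ : Fin N → Bool) :
    |LIN c t lab σ| ≤ (∑ j, |c j|) * N := by
  rw [LIN_eq]
  refine (Finset.abs_sum_le_sum_abs _ _).trans ?_
  have : ∀ r : Fin N, |(if t (lab r) = 0 then 0 else c (lab r)) * spinVec σ r| ≤ ∑ j, |c j| := by
    intro r
    rw [abs_mul, abs_spinVec, mul_one]
    have h : |c (lab r)| ≤ ∑ j, |c j| :=
      Finset.single_le_sum (f := fun j => |c j|) (fun _ _ => abs_nonneg _) (Finset.mem_univ _)
    split_ifs
    · rw [abs_zero]; exact (abs_nonneg _).trans h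
    · exact h
  refine (Finset.sum_le_sum fun r _ => this r).trans ?_
  simp [mul_comm]

theorem abs_PEN_le {N J : ℕ} (c : Fin J → ℝ) {t : Fin J → ℝ} (ht : ∀ j, |t j| ≤ 1) {K : ℝ}
    (hK : 0 ≤ K) (lab : Fin N → Fin J) (σ : Fin N → Bool) :
    |PEN c t K lab σ| ≤ (∑ j, |c j| + 4 * K) * N := by
  rw [PEN_eq]
  refine (abs_sub _ _).trans ?_
  rw [abs_of_nonneg (mul_nonneg hK (QD_nonneg t lab σ))]
  have h1 := abs_LIN_le c t lab σ
  have h2 := mul_le_mul_of_nonneg_left (QD_le ht lab σ) hK
  linarith

/-- The increment of the penalty when a site of the group `j` with spin `e` is added. -/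
theorem PEN_snoc {N J : ℕ} (c t : Fin J → ℝ) (K : ℝ) (lab : Fin N → Fin J)
    (σ : Fin N → Bool) (j : Fin J) (e : Bool) :
    PEN c t K (Fin.snoc (α := fun _ => Fin J) lab j) (Fin.snoc (α := fun _ => Bool) σ e) -
      PEN c t K lab σ =
      if t j = 0 then 0 else
        c j * (if e then 1 else -1) - K * ((mag lab σ j - t j) ^ 2 +
          2 * (mag lab σ j - t j) * ((if e then 1 else -1) - mag lab σ j) +
          ((if e then 1 else -1) - mag lab σ j) ^ 2 / (rJ lab j + 1)) := by
  classical
  set ev : ℝ := if e then 1 else -1 with hev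
  have hr : ∀ j', rJ (Fin.snoc (α := fun _ => Fin J) lab j) j' =
      rJ lab j' + if j = j' then 1 else 0 := by
    intro j'
    unfold rJ
    rw [Finset.card_filter, Finset.card_filter, Fin.sum_univ_castSucc]
    simp only [Fin.snoc_castSucc, Fin.snoc_last]
    push_cast
    split_ifs <;> simp
  have hS : ∀ j', SJ (Fin.snoc (α := fun _ => Fin J) lab j)
      (Fin.snoc (α := fun _ => Bool) σ e) j' = SJ lab σ j' + if j = j' then ev else 0 := by
    intro j'
    unfold SJ
    rw [Finset.sum_filter, Finset.sum_filter, Fin.sum_univ_castSucc]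
    simp only [Fin.snoc_castSucc, Fin.snoc_last, spinVec]
    rfl
  unfold PEN
  rw [← Finset.sum_sub_distrib, Finset.sum_eq_single j]
  · rw [hr, hS, if_pos rfl, if_pos rfl]
    by_cases h0 : t j = 0
    · simp [h0]
    · rw [if_neg h0, if_neg h0, if_neg h0]
      have hrn := rJ_nonneg lab j
      have e1 : SJ lab σ j = rJ lab j * mag lab σ j := SJ_eq lab σ j
      have e2 : SJ lab σ j / rJ lab j = mag lab σ j := (mag_eq lab σ j).symm
      rw [e2, e1]
      have h1 : (0:ℝ) < rJ lab j + 1 := by linarith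
      field_simp
      ring
  · intro j' _ hj'
    have hne : ¬ (j = j') := fun h => hj' h.symm
    simp only [hr, hS, if_neg hne, add_zero, sub_self]
  · intro h; exact absurd (Finset.mem_univ _) h

/-! ### Midpoint convexity of the pressure in the extra weight -/

theorem pressG_midpoint {N : ℕ} (eig : Fin N → ℝ) (U : Matrix (Fin N) (Fin N) ℝ)
    {A : Finset (Fin N → Bool)} (hA : A.Nonempty) (V V' : (Fin N → Bool) → ℝ) :
    pressG eig U A (fun σ => (V σ + V' σ) / 2) ≤
      (pressG eig U A V + pressG eig U A V') / 2 := by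
  have h1 : (ZG eig U A (fun σ => (V σ + V' σ) / 2)) ^ 2 ≤ ZG eig U A V * ZG eig U A V' := by
    unfold ZG
    have h2 : (∑ σ ∈ A, Real.exp (qd eig U σ + (V σ + V' σ) / 2)) ^ 2 ≤
        (∑ σ ∈ A, Real.exp (qd eig U σ + V σ)) * ∑ σ ∈ A, Real.exp (qd eig U σ + V' σ) := by
      refine Finset.sum_sq_le_sum_mul_sum_of_sq_le_mul A (fun _ _ => (Real.exp_pos _).le)
        (fun _ _ => (Real.exp_pos _).le) (fun σ _ => le_of_eq ?_)
      rw [← Real.exp_add, pow_two, ← Real.exp_add]
      congr 1; ring
    have h3 : (0:ℝ) ≤ ((1 / 2) ^ N) ^ 2 := by positivity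
    nlinarith [mul_le_mul_of_nonneg_left h2 h3]
  have hp := ZG_pos eig U hA V
  have hp' := ZG_pos eig U hA V'
  have hpm := ZG_pos eig U hA (fun σ => (V σ + V' σ) / 2)
  have h4 := Real.log_le_log (by positivity) h1
  rw [Real.log_pow, Real.log_mul hp.ne' hp'.ne'] at h4
  unfold pressG
  push_cast at h4
  have h5 := mul_le_mul_of_nonneg_left h4 (by positivity : (0:ℝ) ≤ 1 / (N:ℝ))
  linarith

/-! ### Gauge symmetry -/

section gauge

variable {Ω : Type*} [MeasurableSpace Ω] {P : Measure Ω} [IsProbabilityMeasure P]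
  {N : ℕ} {W : Ω → (Fin N → Fin N → ℝ)} (hW : Measurable W)
  (horth : ∀ᵐ ω ∂P, Matrix.of (W ω) ∈ Matrix.orthogonalGroup (Fin N) ℝ)
  (hHaar : ∀ O : Matrix (Fin N) (Fin N) ℝ, O ∈ Matrix.orthogonalGroup (Fin N) ℝ →
      P.map (fun ω => fun i j => (Matrix.of (W ω) * O) i j) = P.map W)
include hW hHaar

/-- changing the signs of the field on a set of sites does not change the expected pressure -/
theorem gauge (eig c : Fin N → ℝ) (T : Fin N → Bool) :
    ∫ ω, pressureFieldN eig (Matrix.of (W ω)) (fun r => if T r then -c r else c r) ∂P =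
      ∫ ω, pressureFieldN eig (Matrix.of (W ω)) c ∂P := by
  classical
  set d : Fin N → ℝ := fun r => if T r then -1 else 1 with hd
  have hdd : ∀ r, d r * d r = 1 := fun r => by simp only [hd]; split_ifs <;> norm_num
  set O : Matrix (Fin N) (Fin N) ℝ := Matrix.diagonal d with hO
  have hOm : O ∈ Matrix.orthogonalGroup (Fin N) ℝ := by
    rw [Matrix.mem_orthogonalGroup_iff]
    simp only [hO]
    rw [Matrix.diagonal_transpose, Matrix.diagonal_mul_diagonal]
    have : (fun i => d i * d i) = fun _ => 1 := by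
      funext i
      exact hdd i
    rw [this]
    exact Matrix.diagonal_one
  -- pressure at `U O`
  have hpt : ∀ U : Matrix (Fin N) (Fin N) ℝ,
      pressureFieldN eig (U * O) c =
        pressureFieldN eig U (fun r => if T r then -c r else c r) := by
    intro U
    unfold pressureFieldN
    congr 2
    congr 1
    set flip : (Fin N → Bool) → (Fin N → Bool) := fun σ r => if T r then !(σ r) else σ r with hfl
    have hinv : Function.Involutive flip := by
      intro σ
      funext r
      simp only [hfl]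
      split_ifs <;> simp
    have hs : ∀ σ r, spinVec (flip σ) r = d r * spinVec σ r := by
      intro σ r
      simp only [hfl, hd, spinVec]
      by_cases hT : T r = true
      · simp only [hT, if_true]
        cases σ r <;> simp
      · simp only [hT]
        simp
    refine Fintype.sum_bijective flip hinv.bijective _ _ fun σ => ?_
    congr 1
    have e1 : (U * O).mulVec (spinVec σ) = U.mulVec (spinVec (flip σ)) := by
      rw [← Matrix.mulVec_mulVec]
      congr 1
      funext r
      simp only [hO]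
      rw [Matrix.mulVec_diagonal, hs]
    rw [e1]
    congr 1
    refine Finset.sum_congr rfl fun r _ => ?_
    rw [hs]
    simp only [hd]
    split_ifs
    · have := hdd r; ring
    · ring
  have hmeas : Measurable (fun U : Fin N → Fin N → ℝ => pressureFieldN eig (Matrix.of U) c) :=
    measurable_pressureFieldN (Ω := Fin N → Fin N → ℝ) eig measurable_id c
  have h1 : ∫ ω, pressureFieldN eig (Matrix.of (W ω)) c ∂P =
      ∫ U, pressureFieldN eig (Matrix.of U) c ∂(P.map W) := by
    rw [integral_map hW.aemeasurable hmeas.aestronglyMeasurable]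
  rw [h1, ← hHaar O hOm, integral_map]
  · refine integral_congr_ae (Eventually.of_forall fun ω => ?_)
    have : (Matrix.of fun i j => (Matrix.of (W ω) * O) i j) = Matrix.of (W ω) * O := by
      ext i j; rfl
    simp only [this]
    exact (hpt _).symm
  · have : Measurable fun ω => fun i j => (Matrix.of (W ω) * O) i j := by
      refine measurable_pi_lambda _ fun i => measurable_pi_lambda _ fun j => ?_
      simp only [Matrix.mul_apply, Matrix.of_apply]
      refine Finset.measurable_sum _ fun k _ => ?_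
      exact ((measurable_pi_apply k).comp ((measurable_pi_apply i).comp hW)).mul_const _
    exact this.aemeasurable
  · exact hmeas.aestronglyMeasurable

include horth

/-- removing the field on a set of sites does not increase the expected pressure -/
theorem gauge_le (eig c : Fin N → ℝ) (T : Fin N → Bool) :
    ∫ ω, pressureFieldN eig (Matrix.of (W ω)) (fun r => if T r then 0 else c r) ∂P ≤
      ∫ ω, pressureFieldN eig (Matrix.of (W ω)) c ∂P := by
  have h1 : ∀ ω, pressureFieldN eig (Matrix.of (W ω)) (fun r => if T r then 0 else c r) ≤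
      (pressureFieldN eig (Matrix.of (W ω)) c +
        pressureFieldN eig (Matrix.of (W ω)) (fun r => if T r then -c r else c r)) / 2 := by
    intro ω
    rw [← pressG_univ, ← pressG_univ, ← pressG_univ]
    have h2 := pressG_midpoint eig (Matrix.of (W ω)) (A := Finset.univ) Finset.univ_nonempty
      (fun σ => ∑ r : Fin N, c r * spinVec σ r)
      (fun σ => ∑ r : Fin N, (if T r then -c r else c r) * spinVec σ r)
    refine le_trans (le_of_eq ?_) h2
    congr 1
    funext σ
    rw [← Finset.sum_add_distrib, Finset.sum_div]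
    refine Finset.sum_congr rfl fun r _ => ?_
    split_ifs <;> ring
  have i1 := integrable_pressureFieldN P eig hW horth (fun r => if T r then 0 else c r)
  have i2 := integrable_pressureFieldN P eig hW horth c
  have i3 := integrable_pressureFieldN P eig hW horth (fun r => if T r then -c r else c r)
  have h3 := integral_mono i1 ((i2.add i3).div_const 2) h1
  have e : ∫ ω, (pressureFieldN eig (Matrix.of (W ω)) c +
        pressureFieldN eig (Matrix.of (W ω)) (fun r => if T r then -c r else c r)) / 2 ∂P =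
      ∫ ω, pressureFieldN eig (Matrix.of (W ω)) c ∂P := by
    rw [integral_div, integral_add i2 i3, gauge hW hHaar]
    ring
  have h4 : ∫ ω, ((fun ω => pressureFieldN eig (Matrix.of (W ω)) c) +
        fun ω => pressureFieldN eig (Matrix.of (W ω)) (fun r => if T r then -c r else c r)) ω / 2
          ∂P = ∫ ω, pressureFieldN eig (Matrix.of (W ω)) c ∂P := e
  rw [h4] at h3
  exact h3

/-- **The expected pressure dominates every penalised expected pressure.** -/
theorem press_ge_pen {J : ℕ} (eig : Fin N → ℝ) (c t : Fin J → ℝ) (lab : Fin N → Fin J) {K : ℝ}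
    (hK : 0 ≤ K) :
    ∫ ω, pressG eig (Matrix.of (W ω)) Finset.univ (PEN c t K lab) ∂P ≤
      ∫ ω, pressureFieldN eig (Matrix.of (W ω)) (fun r => c (lab r)) ∂P := by
  classical
  have h1 := gauge_le hW horth hHaar eig (fun r => c (lab r)) (fun r => decide (t (lab r) = 0))
  refine le_trans ?_ h1
  have i1 := integrable_pressG P eig hW horth (A := Finset.univ) Finset.univ_nonempty
    (PEN c t K lab)
  have i2 := integrable_pressureFieldN P eig hW horth
    (fun r => if decide (t (lab r) = 0) then 0 else c (lab r))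
  refine integral_mono i1 i2 fun ω => ?_
  show pressG eig (Matrix.of (W ω)) Finset.univ (PEN c t K lab) ≤ _
  rw [← pressG_univ]
  have h2 := pressG_mono (eig := eig) (U := Matrix.of (W ω)) (A := Finset.univ)
    (A' := Finset.univ) Finset.univ_nonempty (Finset.Subset.refl _)
    (V := PEN c t K lab)
    (V' := fun σ => ∑ r : Fin N, (if decide (t (lab r) = 0) then 0 else c (lab r)) * spinVec σ r)
    (d := 0) le_rfl (fun σ _ => by
      rw [PEN_eq, LIN_eq]
      have := mul_nonneg hK (QD_nonneg t lab σ)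
      simp only [decide_eq_true_eq]
      linarith)
  linarith

end gauge

/-! ### The dyadic average -/

/-- telescoping over dyadic penalty strengths -/
theorem kavg (K0 : ℝ) (f D : ℕ → ℝ)
    (h : ∀ i, (K0 * 2 ^ (i + 1) - K0 * 2 ^ i) * D (i + 1) ≤ f i - f (i + 1)) (I : ℕ) :
    ∑ i ∈ Finset.range I, K0 * 2 ^ (i + 1) * D (i + 1) ≤ 2 * (f 0 - f I) := by
  have h1 : ∀ i, K0 * 2 ^ (i + 1) * D (i + 1) ≤ 2 * (f i - f (i + 1)) := by
    intro i
    have := h i
    have e : K0 * 2 ^ (i + 1) * D (i + 1) = 2 * ((K0 * 2 ^ (i + 1) - K0 * 2 ^ i) * D (i + 1)) := by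
      rw [pow_succ]; ring
    rw [e]
    linarith
  refine (Finset.sum_le_sum fun i _ => h1 i).trans ?_
  rw [← Finset.mul_sum, Finset.sum_range_sub' f I]

end Crest.Agent.R164.Mag
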