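import Crest.Agent.R164.Mag0

/-!
Row 164 (helper552): evenness in the starting point, monotonicity in the prescribed mean spin, the
two abstract bounds (UB), (LB), and the covering bound.
-/

set_option autoImplicit false

namespace Crest.Agent.R164.Mag

open MeasureTheory Set Filter Topology
open Crest.ProbabilityR.InvariantGlass

/-! ### Evenness -/

theorem gauss_neg (f : ℝ → ℝ) :
    ∫ g, f (-g) ∂(ProbabilityTheory.gaussianReal 0 1) =
      ∫ g, f g ∂(ProbabilityTheory.gaussianReal 0 1) := by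
  have h1 : (ProbabilityTheory.gaussianReal 0 1).map (fun x : ℝ => -x) =
      ProbabilityTheory.gaussianReal 0 1 := by
    have := ProbabilityTheory.gaussianReal_map_neg (μ := 0) (v := 1)
    simpa using this
  have h2 : MeasurableEmbedding (fun x : ℝ => -x) := (Homeomorph.neg ℝ).measurableEmbedding
  conv_rhs => rw [← h1]
  rw [h2.integral_map]

theorem gaussOp_even {f : ℝ → ℝ} (hf : ∀ z, f (-z) = f z) (a v z : ℝ) :
    gaussOp a v f (-z) = gaussOp a v f z := by
  have h : ∀ F : ℝ → ℝ, (∀ z, F (-z) = F z) →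
      ∫ g, F (-z + Real.sqrt v * g) ∂(ProbabilityTheory.gaussianReal 0 1) =
        ∫ g, F (z + Real.sqrt v * g) ∂(ProbabilityTheory.gaussianReal 0 1) := by
    intro F hF
    rw [← gauss_neg]
    congr 1
    funext g
    rw [← hF]
    congr 1
    ring
  unfold gaussOp
  split_ifs with h0
  · exact h f hf
  · congr 2
    exact h (fun y => Real.exp (a * f y)) (fun y => by rw [hf])

theorem foldr_even {k : ℕ} (w hv : Fin k → ℝ) (l : List (Fin k)) (z : ℝ) :
    l.foldr (fun i acc => gaussOp (leftEnd w i) (increment hv i) acc)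
      (fun z => Real.log (Real.cosh z)) (-z) =
    l.foldr (fun i acc => gaussOp (leftEnd w i) (increment hv i) acc)
      (fun z => Real.log (Real.cosh z)) z := by
  induction l generalizing z with
  | nil => simp
  | cons i l ih =>
    simp only [List.foldr_cons]
    exact gaussOp_even ih _ _ _

theorem fieldValueAt_neg {k : ℕ} (b : ℝ) (w hv : Fin k → ℝ) :
    fieldValueAt (-b) w hv = fieldValueAt b w hv := by
  unfold fieldValueAt
  rw [foldr_even]

theorem constrainedFieldValue_mono {k : ℕ} {s s' : ℝ} (h : |s'| ≤ |s|) (w hv : Fin k → ℝ) :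
    constrainedFieldValue s w hv ≤ constrainedFieldValue s' w hv := by
  unfold constrainedFieldValue
  refine le_iInf fun b => ?_
  rcases le_total (fieldValueAt b w hv - b * s) (fieldValueAt b w hv - (-b) * s) with h1 | h1
  · refine (iInf_le _ b).trans (EReal.coe_le_coe_iff.2 ?_)
    have h2 : |b * s| = b * s := abs_of_nonneg (by linarith)
    have h3 : b * s' ≤ |b * s| := by
      refine (le_abs_self _).trans ?_
      rw [abs_mul, abs_mul]
      exact mul_le_mul_of_nonneg_left h (abs_nonneg _)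
    linarith
  · refine (iInf_le _ (-b)).trans (EReal.coe_le_coe_iff.2 ?_)
    rw [fieldValueAt_neg]
    have h2 : |b * s| = -(b * s) := abs_of_nonpos (by linarith)
    have h3 : b * s' ≤ |b * s| := by
      refine (le_abs_self _).trans ?_
      rw [abs_mul, abs_mul]
      exact mul_le_mul_of_nonneg_left h (abs_nonneg _)
    linarith

/-! ### Real prescribed mean spins -/

/-- group value at real prescribed mean spins -/
noncomputable def gfvR {J k : ℕ} (γ : Fin J → ℚ) (m : Fin J → ℝ) (w hv : Fin k → ℝ) : EReal :=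
  ∑ j : Fin J, (((γ j : ℚ) : ℝ) : EReal) * constrainedFieldValue (m j) w hv

/-- constrained entropy part at real prescribed mean spins -/
noncomputable def cepR {J : ℕ} (γ : Fin J → ℚ) (m : Fin J → ℝ) (p : ℝ → ℝ) : EReal :=
  ⨆ (k : ℕ) (w : Fin k → ℝ) (hv : Fin k → ℝ) (_ : IsStepField w hv),
    gfvR γ m w hv +
      (((1 / 2) * ∫ s in Set.Ioo (0 : ℝ) 1, p s * stepFn w hv s : ℝ) : EReal)

/-- `V(m) = inf_p [S_m(p) + G(p)]` at real prescribed mean spins -/
noncomputable def VR (μ : Measure ℝ) (lamPlus : ℝ) {J : ℕ} (γ : Fin J → ℚ) (m : Fin J → ℝ) :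
    EReal :=
  ⨅ (p : ℝ → ℝ) (_ : IsTrialPath p), cepR γ m p + ((spectralPart μ lamPlus p : ℝ) : EReal)

theorem cepR_rat {J : ℕ} (γ m : Fin J → ℚ) (p : ℝ → ℝ) :
    cepR γ (fun j => ((m j : ℚ) : ℝ)) p = constrainedEntropyPart γ m p := rfl

theorem gfvR_mono {J k : ℕ} {γ : Fin J → ℚ} (hγ : ∀ j, 0 < γ j) {m m' : Fin J → ℝ}
    (h : ∀ j, |m' j| ≤ |m j|) (w hv : Fin k → ℝ) : gfvR γ m w hv ≤ gfvR γ m' w hv := by
  unfold gfvR
  refine Finset.sum_le_sum fun j _ => ?_
  refine mul_le_mul_of_nonneg_left (constrainedFieldValue_mono (h j) w hv) ?_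
  have : (0:ℝ) ≤ ((γ j : ℚ) : ℝ) := by exact_mod_cast (hγ j).le
  exact EReal.coe_nonneg.2 this

theorem VR_mono (μ : Measure ℝ) (lamPlus : ℝ) {J : ℕ} {γ : Fin J → ℚ} (hγ : ∀ j, 0 < γ j)
    {m m' : Fin J → ℝ} (h : ∀ j, |m' j| ≤ |m j|) :
    VR μ lamPlus γ m ≤ VR μ lamPlus γ m' := by
  unfold VR cepR
  refine iInf_mono fun p => iInf_mono fun _ => add_le_add ?_ le_rfl
  exact iSup_mono fun k => iSup_mono fun w => iSup_mono fun hv => iSup_mono fun _ =>
    add_le_add (gfvR_mono hγ h w hv) le_rfl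

theorem magneticValue_eq (μ : Measure ℝ) (lamPlus : ℝ) {J : ℕ} (c : Fin J → ℝ) (γ : Fin J → ℚ) :
    magneticValue μ lamPlus c γ = ⨆ (m : Fin J → ℚ) (_ : ∀ j, (-1 : ℚ) < m j ∧ m j < 1),
      ((∑ j : Fin J, ((γ j : ℚ) : ℝ) * c j * ((m j : ℚ) : ℝ) : ℝ) : EReal) +
        VR μ lamPlus γ (fun j => ((m j : ℚ) : ℝ)) := rfl

/-! ### Magnetisations and boxes -/

/-- magnetisation of the group `j` -/
noncomputable def mag {N J : ℕ} (lab : Fin N → Fin J) (σ : Fin N → Bool) (j : Fin J) : ℝ :=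
  (∑ r ∈ Finset.univ.filter (fun r => lab r = j), spinVec σ r) /
    ((Finset.univ.filter fun r => lab r = j).card : ℝ)

/-- configurations whose magnetisations lie in the box -/
noncomputable def boxSet {N J : ℕ} (lab : Fin N → Fin J) (l u : Fin J → ℝ) :
    Finset (Fin N → Bool) := by
  classical
  exact Finset.univ.filter fun σ => ∀ j, l j ≤ mag lab σ j ∧ mag lab σ j ≤ u j

theorem mem_boxSet {N J : ℕ} {lab : Fin N → Fin J} {l u : Fin J → ℝ} {σ : Fin N → Bool} :
    σ ∈ boxSet lab l u ↔ ∀ j, l j ≤ mag lab σ j ∧ mag lab σ j ≤ u j := by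
  classical
  unfold boxSet
  simp

theorem abs_mag_le {N J : ℕ} (lab : Fin N → Fin J) (σ : Fin N → Bool) (j : Fin J) :
    |mag lab σ j| ≤ 1 := by
  unfold mag
  rcases Nat.eq_zero_or_pos (Finset.univ.filter fun r => lab r = j).card with h | h
  · rw [h]; simp
  · have h' : (0:ℝ) < ((Finset.univ.filter fun r => lab r = j).card : ℝ) := by exact_mod_cast h
    rw [abs_div, abs_of_pos h', div_le_one h']
    refine (Finset.abs_sum_le_sum_abs _ _).trans ?_
    simp [abs_spinVec]

/-- field term as a sum over groups -/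
theorem field_eq {N J : ℕ} (lab : Fin N → Fin J) (c : Fin J → ℝ) (σ : Fin N → Bool) :
    ∑ r : Fin N, c (lab r) * spinVec σ r =
      ∑ j, c j * (((Finset.univ.filter fun r => lab r = j).card : ℝ) * mag lab σ j) := by
  have h1 : ∀ j, ((Finset.univ.filter fun r => lab r = j).card : ℝ) * mag lab σ j =
      ∑ r ∈ Finset.univ.filter (fun r => lab r = j), spinVec σ r := by
    intro j
    unfold mag
    rcases Nat.eq_zero_or_pos (Finset.univ.filter fun r => lab r = j).card with h | h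
    · rw [Finset.card_eq_zero] at h
      rw [h]; simp
    · have h' : ((Finset.univ.filter fun r => lab r = j).card : ℝ) ≠ 0 := by
        exact_mod_cast h.ne'
      field_simp
  simp only [h1, Finset.mul_sum]
  rw [← Finset.sum_fiberwise Finset.univ lab (fun r => c (lab r) * spinVec σ r)]
  refine Finset.sum_congr rfl fun j _ => Finset.sum_congr rfl fun r hr => ?_
  rw [(Finset.mem_filter.1 hr).2]

section defs

variable {Ω : Type} [MeasurableSpace Ω] (μ : Measure ℝ) (lamPlus : ℝ)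
  (eig : (N : ℕ) → Fin N → ℝ) (P : Measure Ω) (Us : (N : ℕ) → Ω → (Fin N → Fin N → ℝ))

/-- **(UB)** the upper bound for box-restricted systems without field -/
def UB : Prop :=
  ∀ (J : ℕ) (γ : Fin J → ℚ), (∀ j, 0 < γ j) → ∑ j, γ j = 1 →
    ∀ lab : (N : ℕ) → Fin N → Fin J,
    (∀ j : Fin J, Tendsto
      (fun N : ℕ => ((Finset.univ.filter fun r : Fin N => lab N r = j).card : ℝ) / (N : ℝ))
      atTop (nhds ((γ j : ℚ) : ℝ))) →
    ∀ l u : Fin J → ℝ, (∀ j, l j < u j) → (∀ j, -1 ≤ l j ∧ u j ≤ 1) →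
    ∀ m : Fin J → ℚ, (∀ j, (-1 : ℚ) < m j ∧ m j < 1) →
    (∀ j, ∀ x ∈ Icc (l j) (u j), |((m j : ℚ) : ℝ)| ≤ |x| ∧ 0 ≤ ((m j : ℚ) : ℝ) * x) →
    ∀ p : ℝ → ℝ, IsTrialPath p → ∀ r : ℝ,
    constrainedEntropyPart γ m p + ((spectralPart μ lamPlus p : ℝ) : EReal) ≤ (r : EReal) →
    ∀ ε : ℝ, 0 < ε → ∀ᶠ N : ℕ in atTop,
      ∫ ω, pressG (eig N) (Matrix.of (Us N ω)) (boxSet (lab N) l u) (fun _ => 0) ∂P ≤ r + ε

/-- **(LB)** the lower bound near a prescribed target of mean spins -/
def LB : Prop :=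
  ∀ (J : ℕ) (cval : Fin J → ℝ) (γ : Fin J → ℚ), (∀ j, 0 < γ j) → ∑ j, γ j = 1 →
    ∀ lab : (N : ℕ) → Fin N → Fin J,
    (∀ j : Fin J, Tendsto
      (fun N : ℕ => ((Finset.univ.filter fun r : Fin N => lab N r = j).card : ℝ) / (N : ℝ))
      atTop (nhds ((γ j : ℚ) : ℝ))) →
    ∀ t : Fin J → ℝ, (∀ j, |t j| < 1) → ∀ ε : ℝ, 0 < ε → ∀ r : ℝ,
    (∀ m' : Fin J → ℝ, (∀ j, |m' j - t j| ≤ ε) → (∀ j, t j = 0 → m' j = 0) →
      (r : EReal) ≤ ((∑ j : Fin J, ((γ j : ℚ) : ℝ) * cval j * m' j : ℝ) : EReal) +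
        VR μ lamPlus γ m') →
    ∀ᶠ N : ℕ in atTop, r - ε ≤
      ∫ ω, pressureFieldN (eig N) (Matrix.of (Us N ω)) (fun r => cval (lab N r)) ∂P

end defs

/-! ### The covering bound -/

/-- monotonicity with a shift of any sign -/
theorem pressG_le_add {N : ℕ} (hN : 0 < N) {eig : Fin N → ℝ} {U : Matrix (Fin N) (Fin N) ℝ}
    {A : Finset (Fin N → Bool)} (hA : A.Nonempty) {V V' : (Fin N → Bool) → ℝ}
    {d : ℝ} (hV : ∀ σ ∈ A, V σ ≤ V' σ + d * N) :
    pressG eig U A V ≤ pressG eig U A V' + d := by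
  have hN' : (0:ℝ) < N := by exact_mod_cast hN
  have h1 : ZG eig U A V ≤ Real.exp (d * N) * ZG eig U A V' := by
    unfold ZG
    rw [← mul_left_comm]
    refine mul_le_mul_of_nonneg_left ?_ (by positivity)
    rw [Finset.mul_sum]
    refine Finset.sum_le_sum fun σ hσ => ?_
    rw [← Real.exp_add]
    exact Real.exp_le_exp.2 (by linarith [hV σ hσ])
  have h2 := Real.log_le_log (ZG_pos eig U hA V) h1
  rw [Real.log_mul (Real.exp_pos _).ne' (ZG_pos eig U hA V').ne', Real.log_exp] at h2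
  have h3 := mul_le_mul_of_nonneg_left h2 (by positivity : (0:ℝ) ≤ 1 / (N:ℝ))
  rw [mul_add] at h3
  have e : 1 / (N:ℝ) * (d * N) = d := by field_simp
  rw [e] at h3
  unfold pressG
  linarith

theorem integral_pressG_le_add {Ω : Type*} [MeasurableSpace Ω] (P : Measure Ω)
    [IsProbabilityMeasure P] {N : ℕ} (hN : 0 < N) (eig : Fin N → ℝ)
    {W : Ω → (Fin N → Fin N → ℝ)} (hW : Measurable W)
    (horth : ∀ᵐ ω ∂P, Matrix.of (W ω) ∈ Matrix.orthogonalGroup (Fin N) ℝ)
    {A : Finset (Fin N → Bool)} (hA : A.Nonempty) {V V' : (Fin N → Bool) → ℝ}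
    {d : ℝ} (hV : ∀ σ ∈ A, V σ ≤ V' σ + d * N) :
    ∫ ω, pressG eig (Matrix.of (W ω)) A V ∂P ≤ ∫ ω, pressG eig (Matrix.of (W ω)) A V' ∂P + d := by
  have h1 := integrable_pressG P eig hW horth hA V
  have h2 := integrable_pressG P eig hW horth hA V'
  have h3 : ∫ ω, pressG eig (Matrix.of (W ω)) A V ∂P ≤
      ∫ ω, (pressG eig (Matrix.of (W ω)) A V' + d) ∂P :=
    integral_mono h1 (h2.add (integrable_const _)) fun ω => pressG_le_add hN hA hV
  rw [integral_add h2 (integrable_const _)] at h3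
  simpa using h3

/-- pathwise covering bound -/
theorem pressG_cover {N : ℕ} (hN : 0 < N) {eig : Fin N → ℝ} {U : Matrix (Fin N) (Fin N) ℝ}
    {ι : Type*} [Fintype ι] [Nonempty ι] (A : ι → Finset (Fin N → Bool))
    (hcov : ∀ σ, ∃ b, σ ∈ A b) (V : (Fin N → Bool) → ℝ) {x : ℝ}
    (hx : ∀ b, (A b).Nonempty → pressG eig U (A b) V ≤ x) :
    pressG eig U Finset.univ V ≤ x + Real.log (Fintype.card ι) / N := by
  classical
  have hN' : (0:ℝ) < N := by exact_mod_cast hN
  have hcard : (0:ℝ) < Fintype.card ι := by exact_mod_cast Fintype.card_pos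
  have h1 : ∀ b, ZG eig U (A b) V ≤ Real.exp (N * x) := by
    intro b
    rcases (A b).eq_empty_or_nonempty with h | h
    · rw [h]; unfold ZG; simp [Real.exp_nonneg]
    · have h2 := hx b h
      unfold pressG at h2
      have h3 : Real.log (ZG eig U (A b) V) ≤ N * x := by
        have := mul_le_mul_of_nonneg_left h2 hN'.le
        rwa [← mul_assoc, mul_one_div_cancel hN'.ne', one_mul] at this
      have := Real.exp_le_exp.2 h3
      rwa [Real.exp_log (ZG_pos eig U h V)] at this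
  have h2 : ZG eig U Finset.univ V ≤ ∑ b, ZG eig U (A b) V := by
    unfold ZG
    rw [← Finset.mul_sum]
    refine mul_le_mul_of_nonneg_left ?_ (by positivity)
    have h3 : ∀ σ, Real.exp (qd eig U σ + V σ) ≤
        ∑ b, if σ ∈ A b then Real.exp (qd eig U σ + V σ) else 0 := by
      intro σ
      obtain ⟨b, hb⟩ := hcov σ
      have := Finset.single_le_sum
        (f := fun b => if σ ∈ A b then Real.exp (qd eig U σ + V σ) else 0)
        (fun b _ => by split_ifs <;> positivity) (Finset.mem_univ b)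
      simp only [if_pos hb] at this
      exact this
    refine (Finset.sum_le_sum fun σ _ => h3 σ).trans ?_
    rw [Finset.sum_comm]
    refine Finset.sum_le_sum fun b _ => ?_
    rw [← Finset.sum_filter]
    simp
  have h3 : ZG eig U Finset.univ V ≤ Fintype.card ι * Real.exp (N * x) := by
    refine h2.trans ((Finset.sum_le_sum fun b _ => h1 b).trans ?_)
    rw [Finset.sum_const, Finset.card_univ, nsmul_eq_mul]
  have h4 := Real.log_le_log (ZG_pos eig U Finset.univ_nonempty V) h3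
  rw [Real.log_mul hcard.ne' (Real.exp_pos _).ne', Real.log_exp] at h4
  unfold pressG
  have h5 := mul_le_mul_of_nonneg_left h4 (by positivity : (0:ℝ) ≤ 1 / (N:ℝ))
  have e : 1 / (N:ℝ) * (Real.log (Fintype.card ι) + N * x) =
      x + Real.log (Fintype.card ι) / N := by field_simp; ring
  rw [e] at h5
  exact h5

/-- covering bound in expectation -/
theorem expect_cover {Ω : Type*} [MeasurableSpace Ω] {P : Measure Ω} [IsProbabilityMeasure P]
    {N : ℕ} (hN : 2 < N) {eig : Fin N → ℝ} {Λ : ℝ} (hΛ : ∀ i, |eig i| ≤ Λ)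
    {W : Ω → (Fin N → Fin N → ℝ)} (hW : Measurable W)
    (horth : ∀ᵐ ω ∂P, Matrix.of (W ω) ∈ Matrix.orthogonalGroup (Fin N) ℝ)
    (hHaar : ∀ O : Matrix (Fin N) (Fin N) ℝ, O ∈ Matrix.orthogonalGroup (Fin N) ℝ →
      P.map (fun ω => fun i j => (Matrix.of (W ω) * O) i j) = P.map W)
    {ι : Type*} [Fintype ι] [Nonempty ι] (A : ι → Finset (Fin N → Bool))
    (hcov : ∀ σ, ∃ b, σ ∈ A b) (V : (Fin N → Bool) → ℝ) {r : ℝ}
    (hr : ∀ b, (A b).Nonempty → ∫ ω, pressG eig (Matrix.of (W ω)) (A b) V ∂P ≤ r) :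
    ∫ ω, pressG eig (Matrix.of (W ω)) Finset.univ V ∂P ≤
      r + Real.log (Fintype.card ι) / N +
        Fintype.card ι * Real.sqrt (2 * Λ ^ 2 / ((N : ℝ) - 2)) := by
  classical
  have hN0 : 0 < N := by omega
  set X : ι → Ω → ℝ := fun b ω => pressG eig (Matrix.of (W ω)) (A b) V with hX
  set D : ι → Ω → ℝ := fun b ω => if (A b).Nonempty then |X b ω - ∫ ω', X b ω' ∂P| else 0 with hD
  have hDint : ∀ b, Integrable (D b) P := by
    intro b
    by_cases h : (A b).Nonempty
    · simp only [hD, if_pos h]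
      exact ((integrable_pressG P eig hW horth h V).sub (integrable_const _)).abs
    · simp only [hD, if_neg h]
      exact integrable_const _
  have hpath : ∀ ω, pressG eig (Matrix.of (W ω)) Finset.univ V ≤
      (r + ∑ b, D b ω) + Real.log (Fintype.card ι) / N := by
    intro ω
    refine pressG_cover hN0 A hcov V ?_
    intro b hb
    have h1 : X b ω - ∫ ω', X b ω' ∂P ≤ D b ω := by
      simp only [hD, if_pos hb]
      exact le_abs_self _
    have h2 : D b ω ≤ ∑ b', D b' ω := by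
      refine Finset.single_le_sum (f := fun b' => D b' ω) (fun b' _ => ?_) (Finset.mem_univ b)
      simp only [hD]
      split_ifs
      · exact abs_nonneg _
      · exact le_rfl
    have h3 := hr b hb
    have h4 : X b ω = pressG eig (Matrix.of (W ω)) (A b) V := rfl
    have h5 : ∫ ω', X b ω' ∂P = ∫ ω, pressG eig (Matrix.of (W ω)) (A b) V ∂P := rfl
    linarith
  have hint := integrable_pressG P eig hW horth (A := Finset.univ) Finset.univ_nonempty V
  have hsumint : Integrable (fun ω => ∑ b, D b ω) P := integrable_finsetSum _ fun b _ => hDint b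
  have h1 : ∫ ω, pressG eig (Matrix.of (W ω)) Finset.univ V ∂P ≤
      ∫ ω, ((r + ∑ b, D b ω) + Real.log (Fintype.card ι) / N) ∂P :=
    integral_mono hint (((integrable_const _).add hsumint).add (integrable_const _)) hpath
  have h2 : ∫ ω, ((r + ∑ b, D b ω) + Real.log (Fintype.card ι) / N) ∂P =
      r + ∑ b, ∫ ω, D b ω ∂P + Real.log (Fintype.card ι) / N := by
    have e1 : ∫ ω, ((r + ∑ b, D b ω) + Real.log (Fintype.card ι) / N) ∂P =
        ∫ ω, (r + ∑ b, D b ω) ∂P + ∫ _ω, Real.log (Fintype.card ι) / N ∂P :=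
      integral_add ((integrable_const _).add hsumint) (integrable_const _)
    have e2 : ∫ ω, (r + ∑ b, D b ω) ∂P = ∫ _ω, r ∂P + ∫ ω, ∑ b, D b ω ∂P :=
      integral_add (integrable_const _) hsumint
    rw [e1, e2, integral_finsetSum _ fun b _ => hDint b]
    simp
  have h3 : ∑ b, ∫ ω, D b ω ∂P ≤ ∑ _b : ι, Real.sqrt (2 * Λ ^ 2 / ((N : ℝ) - 2)) := by
    refine Finset.sum_le_sum fun b _ => ?_
    by_cases h : (A b).Nonempty
    · simp only [hD, if_pos h]
      exact abs_dev_leG hW horth hHaar hN hΛ h V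
    · simp only [hD, if_neg h, integral_zero]
      exact Real.sqrt_nonneg _
  rw [Finset.sum_const, Finset.card_univ, nsmul_eq_mul] at h3
  rw [h2] at h1
  linarith

end Crest.Agent.R164.Mag
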