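import Crest.Agent.R164.USys2
import Crest.Agent.R164.LPen
import Crest.Agent.R164.Mag1

/-!
Row 164, upper bound (helper552): the pressure is dominated by the function of the contact argument;
the boxes are eventually nonempty.
-/

set_option autoImplicit false
set_option linter.unusedSectionVars false

namespace Crest.Agent.R164.US

open Finset MeasureTheory Crest.Agent.R141 Crest.Agent.R164
open Crest.ProbabilityR.InvariantGlass

noncomputable section

variable {p : Par} {N n : ℕ} {A : Finset (Fin N → Bool)}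
variable {κ : Type} [Fintype κ] [DecidableEq κ]

/-! ### Conditional expectation at the last step -/

/-- conditional expectation at the step before the last one: only the spins are averaged -/
theorem cE_pred (hA : A.Nonempty) (f : G.Om (SY.base p n A hA) → ℝ)
    (ω : G.Om (SY.base p n A hA)) :
    cE (G.prior (SY.base p n A hA)) ((G.fil (SY.base p n A hA)).F (p.L - 1)) f ω =
      (A.card : ℝ)⁻¹ * ∑ σ : {σ : Fin N → Bool // σ ∈ A},
        f (((σ, ω.1.2) : SY.SS p n A), ω.2) := by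
  classical
  have hL := SY.L_pos (p := p)
  have hcA : (0:ℝ) < (A.card : ℝ) := by exact_mod_cast hA.card_pos
  set e : {σ : Fin N → Bool // σ ∈ A} → G.Om (SY.base p n A hA) :=
    fun σ => (((σ, ω.1.2) : SY.SS p n A), ω.2) with he
  have hinj : Function.Injective e := by
    intro σ σ' h
    have : ((σ, ω.1.2) : SY.SS p n A) = (σ', ω.1.2) := (Prod.ext_iff.1 h).1
    exact (Prod.ext_iff.1 this).1
  have hfil : (univ.filter fun ω' => (G.fil (SY.base p n A hA)).F (p.L - 1) ω ω') =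
      univ.image e := by
    ext ω'
    simp only [mem_filter, mem_univ, true_and, mem_image]
    constructor
    · intro h
      have h : G.frel (SY.base p n A hA) (p.L - 1) ω ω' := h
      have h3 : SY.srel (p.L - 1) ω.1 ω'.1 := h.2.2
      have e1 : ω.2.1 = ω'.2.1 := by
        funext i b g
        refine h.1 i b g ?_
        have := p.mt_lt_L g.2
        omega
      have e2 : ω.2.2 = ω'.2.2 := by
        funext g t
        refine h.2.1 g t ?_
        have := (p.ct_lt_mt t.2).trans (p.mt_lt_L g.2)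
        omega
      have e3 : ω.1.2.1 = ω'.1.2.1 := by
        funext g
        refine h3.1 g ?_
        have := p.mt_lt_L g.2
        omega
      have e4 : ω.1.2.2 = ω'.1.2.2 := by
        funext g
        refine h3.2.1 g ?_
        have := p.mt_lt_L g.2
        omega
      refine ⟨ω'.1.1, ?_⟩
      rw [he]
      exact Prod.ext (Prod.ext rfl (Prod.ext e3 e4)) (Prod.ext e1 e2)
    · rintro ⟨σ, rfl⟩
      show G.frel (SY.base p n A hA) (p.L - 1) ω _
      refine ⟨fun _ _ _ _ => rfl, fun _ _ _ => rfl, fun _ _ => rfl, fun _ _ => rfl, fun h => ?_⟩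
      omega
  have hpr : ∀ ω', G.prior (SY.base p n A hA) ω' = (Fintype.card (SY.SS p n A) : ℝ)⁻¹ *
      (Fintype.card (G.Lab p N) : ℝ)⁻¹ := fun ω' => rfl
  have hc : (0:ℝ) < (Fintype.card (SY.SS p n A) : ℝ)⁻¹ * (Fintype.card (G.Lab p N) : ℝ)⁻¹ := by
    rw [← hpr ω]; exact (G.prior_isProb _).pos ω
  unfold cE
  have hfil' : (univ.filter fun ω' => (G.fil (SY.base p n A hA)).F (p.L - 1) ω ω') =
      univ.image e := hfil
  rw [show (∑ ω' ∈ univ.filter (fun ω' => (G.fil (SY.base p n A hA)).F (p.L - 1) ω ω'),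
      G.prior (SY.base p n A hA) ω' * f ω') = ∑ ω' ∈ univ.image e,
      G.prior (SY.base p n A hA) ω' * f ω' by rw [← hfil'],
    show (∑ ω' ∈ univ.filter (fun ω' => (G.fil (SY.base p n A hA)).F (p.L - 1) ω ω'),
      G.prior (SY.base p n A hA) ω') = ∑ ω' ∈ univ.image e,
      G.prior (SY.base p n A hA) ω' by rw [← hfil'],
    Finset.sum_image (fun _ _ _ _ h => hinj h), Finset.sum_image (fun _ _ _ _ h => hinj h)]
  simp only [hpr]
  rw [← Finset.mul_sum, Finset.sum_const, Finset.card_univ, Fintype.card_coe, nsmul_eq_mul]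
  field_simp
  rfl

/-- the free energy dominates the averaged last step -/
theorem Phi_ge (hA : A.Nonempty) (H : SY.SS p n A → ℝ) (d : DD p N) (hb : p.nb = 0) :
    eE (G.prior (SY.base p n A hA)) (fun ω => Real.log ((A.card : ℝ)⁻¹ *
      ∑ σ : {σ : Fin N → Bool // σ ∈ A}, Real.exp (H (σ, ω.1.2)))) ≤
      G.Phi (SY.base p n A hA) H d := by
  have hP := G.prior_isProb (SY.base p n A hA)
  have hx := p.xs_expo.pos
  have hL := SY.L_pos (p := p)
  have hcA : (0:ℝ) < (A.card : ℝ) := by exact_mod_cast hA.card_pos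
  have hWW : ∀ ω, 0 ≤ G.WW (SY.base p n A hA) d ω := by
    intro ω
    unfold G.WW
    refine add_nonneg (le_of_eq ?_) (Finset.sum_nonneg fun k _ => ?_)
    · have : IsEmpty (Fin p.nb) := by rw [hb]; infer_instance
      simp
    · unfold G.cfac
      split
      · exact le_rfl
      · refine mul_nonneg p.hτ0.le (mul_nonneg ?_ (G.cv_nonneg _ _ _))
        split_ifs <;> norm_num
  have h1 : ∀ ω, Real.log ((A.card : ℝ)⁻¹ * ∑ σ : {σ : Fin N → Bool // σ ∈ A},
      Real.exp (H (σ, ω.1.2))) ≤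
      Crest.Agent.R141.A (G.prior (SY.base p n A hA)) (G.fil (SY.base p n A hA)) p.xs
        (G.UU (SY.base p n A hA) H d) (p.L - 1) ω := by
    intro ω
    rw [A_step hP hx _ (p.L - 1), Nat.sub_add_cancel hL,
      A_of_ge (𝓕 := G.fil (SY.base p n A hA)) _ (le_refl p.L)]
    unfold pm
    rw [p.xs_last le_rfl, div_one, one_mul]
    rw [cE_pred]
    have : Nonempty {σ : Fin N → Bool // σ ∈ A} := ⟨⟨hA.choose, hA.choose_spec⟩⟩
    refine Real.log_le_log (mul_pos (inv_pos.2 hcA)
      (Finset.sum_pos (fun _ _ => Real.exp_pos _) univ_nonempty)) ?_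
    refine mul_le_mul_of_nonneg_left (Finset.sum_le_sum fun σ _ => ?_) (inv_pos.2 hcA).le
    rw [one_mul]
    refine Real.exp_le_exp.2 ?_
    unfold G.UU
    have := hWW (((σ, ω.1.2) : SY.SS p n A), ω.2)
    linarith
  unfold G.Phi
  refine (eE_mono hP h1).trans ?_
  rw [← eE_cE hP ((G.fil (SY.base p n A hA)).F 0) (Crest.Agent.R141.A _ _ _ _ (p.L - 1))]
  exact eE_mono hP (A_super hP hx _ (Nat.zero_le _))

/-! ### Flip of all coins -/

/-- the field part of the Hamiltonian -/
def fp (a : Fin p.nc → ℝ) (lam : Fin N → Fin p.nc → ℝ) (x : (Fin N → Bool) → Fin N → ℝ)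
    (c : SY.FC p N n × SY.FC p N n) (σ : Fin N → Bool) : ℝ :=
  (∑ g, a g * ∑ i, SY.zf c.1 g i * sv (σ i)) + ∑ g, ∑ i, lam i g * (SY.zf c.2 g i * x σ i)

theorem HH_fp (h0 : (Fin N → Bool) → ℝ) (a : Fin p.nc → ℝ) (lam : Fin N → Fin p.nc → ℝ)
    (x : (Fin N → Bool) → Fin N → ℝ) (s : SY.SS p n A) :
    SY.HH h0 a lam x s = h0 s.1.1 + fp a lam x s.2 s.1.1 := by
  unfold SY.HH fp
  ring

theorem HS_fp (h0 : (Fin N → Bool) → ℝ) (a : Fin p.nc → ℝ) (lam : Fin N → Fin p.nc → ℝ)
    (x : (Fin N → Bool) → Fin N → ℝ) (s : SY.SS p n A) :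
    SY.HS h0 (fun _ => a) lam x s = h0 s.1.1 + fp a lam x s.2 s.1.1 := by
  rw [← SY.HH_eq_HS]
  exact HH_fp h0 a lam x s

/-- flip of all coins -/
def nf (c : SY.FC p N n) : SY.FC p N n := fun g i t => !(c g i t)

theorem zf_nf (c : SY.FC p N n) (g : Fin p.nc) (i : Fin N) : SY.zf (nf c) g i = - SY.zf c g i := by
  unfold SY.zf nf
  simp only [SY.sv_not, Finset.sum_neg_distrib, mul_neg]

theorem nf_nf (c : SY.FC p N n) : nf (nf c) = c := by
  funext g i t
  simp [nf]

theorem fp_nf (a : Fin p.nc → ℝ) (lam : Fin N → Fin p.nc → ℝ) (x : (Fin N → Bool) → Fin N → ℝ)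
    (c : SY.FC p N n × SY.FC p N n) (σ : Fin N → Bool) :
    fp a lam x (nf c.1, nf c.2) σ = - fp a lam x c σ := by
  unfold fp
  simp only [zf_nf, neg_mul, mul_neg, Finset.sum_neg_distrib]
  ring

/-- flip of all coins, as a permutation -/
def nfl (hA : A.Nonempty) : G.Om (SY.base p n A hA) ≃ G.Om (SY.base p n A hA) where
  toFun ω := ((ω.1.1, nf ω.1.2.1, nf ω.1.2.2), ω.2)
  invFun ω := ((ω.1.1, nf ω.1.2.1, nf ω.1.2.2), ω.2)
  left_inv ω := by
    refine Prod.ext (Prod.ext rfl (Prod.ext ?_ ?_)) rfl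
    · exact nf_nf _
    · exact nf_nf _
  right_inv ω := by
    refine Prod.ext (Prod.ext rfl (Prod.ext ?_ ?_)) rfl
    · exact nf_nf _
    · exact nf_nf _

theorem eE_nfl (hA : A.Nonempty) (f : G.Om (SY.base p n A hA) → ℝ) :
    eE (G.prior (SY.base p n A hA)) (fun ω => f (nfl hA ω)) =
      eE (G.prior (SY.base p n A hA)) f := by
  unfold eE
  exact Equiv.sum_comp (nfl hA) (fun ω => G.prior (SY.base p n A hA) ω * f ω)

/-- the pressure is dominated by the enriched free energy -/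
theorem press_le_Phi (hA : A.Nonempty) (hN : 0 < N) (hb : p.nb = 0) (lab : Fin N → κ)
    (th : κ → ℝ) (η : ℝ) (a : Fin p.nc → ℝ) (l : κ × Fin p.nc → ℝ) (U : Fin N → Fin N → ℝ)
    (d : DD p N) :
    (N : ℝ) * Mag.pressG (fun i => th (lab i)) (Matrix.of U) A (fun _ => 0) -
      Real.log ((1 / 2) ^ N * (A.card : ℝ)) ≤
      G.Phi (SY.base p n A hA) (HF A n lab th η 1 a l U) d := by
  have hN' : (0:ℝ) < N := by exact_mod_cast hN
  have hcA : (0:ℝ) < (A.card : ℝ) := by exact_mod_cast hA.card_pos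
  set eig : Fin N → ℝ := fun i => th (lab i) with heig
  set V : SY.FC p N n × SY.FC p N n → (Fin N → Bool) → ℝ :=
    fp a (lamF lab η l) (SY.xU (Matrix.of U)) with hV
  have hP := G.prior_isProb (SY.base p n A hA)
  refine le_trans ?_ (Phi_ge hA _ d hb)
  have h1 : ∀ ω : G.Om (SY.base p n A hA), Real.log ((A.card : ℝ)⁻¹ *
      ∑ σ : {σ : Fin N → Bool // σ ∈ A}, Real.exp (HF A n lab th η 1 a l U (σ, ω.1.2))) =
      (N : ℝ) * Mag.pressG eig (Matrix.of U) A (V ω.1.2) -
        Real.log ((1 / 2) ^ N * (A.card : ℝ)) := by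
    intro ω
    have e1 : ∑ σ : {σ : Fin N → Bool // σ ∈ A}, Real.exp (HF A n lab th η 1 a l U (σ, ω.1.2)) =
        ∑ σ ∈ A, Real.exp (Mag.qd eig (Matrix.of U) σ + V ω.1.2 σ) := by
      rw [← Finset.sum_coe_sort A]
      refine Finset.sum_congr rfl fun σ _ => ?_
      congr 1
      unfold HF
      refine (HS_fp _ a (lamF lab η l) (SY.xU (Matrix.of U))
        ((σ, ω.1.2) : SY.SS p n A)).trans ?_
      simp only [SY.h0q, one_mul, add_zero]
      rfl
    have hS : 0 < ∑ σ ∈ A, Real.exp (Mag.qd eig (Matrix.of U) σ + V ω.1.2 σ) :=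
      Finset.sum_pos (fun _ _ => Real.exp_pos _) hA
    rw [e1]
    unfold Mag.pressG Mag.ZG
    rw [Real.log_mul (inv_pos.2 hcA).ne' hS.ne', Real.log_mul (by positivity) hS.ne',
      Real.log_mul (by positivity) hcA.ne', Real.log_inv]
    field_simp
    ring
  simp only [h1]
  have h2 : ∀ ω : G.Om (SY.base p n A hA),
      (N : ℝ) * Mag.pressG eig (Matrix.of U) A (fun _ => 0) -
        Real.log ((1 / 2) ^ N * (A.card : ℝ)) ≤
      1 / 2 * (((N : ℝ) * Mag.pressG eig (Matrix.of U) A (V ω.1.2) -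
        Real.log ((1 / 2) ^ N * (A.card : ℝ))) +
        ((N : ℝ) * Mag.pressG eig (Matrix.of U) A (V (nfl hA ω).1.2) -
        Real.log ((1 / 2) ^ N * (A.card : ℝ)))) := by
    intro ω
    have h3 := Mag.pressG_midpoint eig (Matrix.of U) hA (V ω.1.2) (V (nfl hA ω).1.2)
    have e2 : (fun σ => (V ω.1.2 σ + V (nfl hA ω).1.2 σ) / 2) = fun _ => 0 := by
      funext σ
      have : V (nfl hA ω).1.2 σ = - V ω.1.2 σ := fp_nf _ _ _ _ σ
      rw [this]; ring
    rw [e2] at h3
    have h4 := mul_le_mul_of_nonneg_left h3 hN'.le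
    linarith
  calc (N : ℝ) * Mag.pressG eig (Matrix.of U) A (fun _ => 0) -
        Real.log ((1 / 2) ^ N * (A.card : ℝ))
      = eE (G.prior (SY.base p n A hA)) (fun _ =>
        (N : ℝ) * Mag.pressG eig (Matrix.of U) A (fun _ => 0) -
        Real.log ((1 / 2) ^ N * (A.card : ℝ))) := (eE_const hP _).symm
    _ ≤ eE (G.prior (SY.base p n A hA)) (fun ω => 1 / 2 *
        (((N : ℝ) * Mag.pressG eig (Matrix.of U) A (V ω.1.2) -
        Real.log ((1 / 2) ^ N * (A.card : ℝ))) +
        ((N : ℝ) * Mag.pressG eig (Matrix.of U) A (V (nfl hA ω).1.2) -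
        Real.log ((1 / 2) ^ N * (A.card : ℝ))))) := eE_mono hP h2
    _ = _ := by
        rw [eE_smul, eE_add, eE_nfl hA (fun ω => (N : ℝ) * Mag.pressG eig (Matrix.of U) A
          (V ω.1.2) - Real.log ((1 / 2) ^ N * (A.card : ℝ)))]
        ring

section measure

variable (hA : A.Nonempty) {ν : Measure (Fin N → Fin N → ℝ)} [IsProbabilityMeasure ν]
variable (hν : ∀ᵐ U ∂ν, U ∈ Rot.OK N)

include hν in
/-- **(M2a)** the averaged pressure is dominated by the function of the contact argument. -/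
theorem press_le_FN (hN : 0 < N) (hb : p.nb = 0) (lab : Fin N → κ)
    (th : κ → ℝ) (η : ℝ) (a : Fin p.nc → ℝ) (l : κ × Fin p.nc → ℝ) :
    ∫ U, Mag.pressG (fun i => th (lab i)) (Matrix.of U) A (fun _ => 0) ∂ν ≤
      FN n hA ν lab th η 1 a l + 1 / 2 * ∑ g, a g ^ 2 := by
  have hN' : (0:ℝ) < N := by exact_mod_cast hN
  set X : ℝ := ∫ U, Mag.pressG (fun i => th (lab i)) (Matrix.of U) A (fun _ => 0) ∂ν with hX
  set K : ℝ := Real.log ((1 / 2) ^ N * (A.card : ℝ)) with hK
  have hint : Integrable (fun U : Fin N → Fin N → ℝ =>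
      Mag.pressG (fun i => th (lab i)) (Matrix.of U) A (fun _ => 0)) ν :=
    Mag.integrable_pressG ν _ (W := fun U => U) measurable_id hν hA _
  obtain ⟨c, _, hc⟩ := ae_bound hν (continuous_HF (A := A) (n := n) lab th η 1 a l)
  have h1 : ∀ d, (N : ℝ) * X - K ≤
      ∫ U, G.Phi (SY.base p n A hA) (HF A n lab th η 1 a l U) d ∂ν := by
    intro d
    have h2 : ∫ U, ((N : ℝ) * Mag.pressG (fun i => th (lab i)) (Matrix.of U) A (fun _ => 0) - K)
        ∂ν = (N : ℝ) * X - K := by
      rw [integral_sub (hint.const_mul _) (integrable_const _), integral_const_mul,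
        integral_const, probReal_univ, one_smul]
    rw [← h2]
    refine integral_mono ((hint.const_mul _).sub (integrable_const _))
      (integrable_Phi (SY.base p n A hA) ν
        (fun s => (continuous_HF lab th η 1 a l s).measurable) hc d) fun U => ?_
    exact press_le_Phi hA hN hb lab th η a l U d
  have h3 : (N : ℝ) * X - K ≤ FP n hA ν lab th η 1 a l := by
    unfold FP EP Ed
    calc (N : ℝ) * X - K = ∑ d, dw p N d * ((N : ℝ) * X - K) := by
          rw [← Finset.sum_mul, dw_sum p hN, one_mul]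
      _ ≤ _ := Finset.sum_le_sum fun d _ => mul_le_mul_of_nonneg_left (h1 d) (dw_nonneg p N d)
  have h4 := mul_le_mul_of_nonneg_left h3 (inv_pos.2 hN').le
  have h5 : (N : ℝ)⁻¹ * ((N : ℝ) * X - K) = X - (N : ℝ)⁻¹ * K := by
    rw [mul_sub, inv_mul_cancel_left₀ hN'.ne']
  rw [h5] at h4
  unfold FN
  linarith

end measure

/-! ### Nonempty boxes -/

/-- a box is nonempty as soon as every group is large -/
theorem boxSet_nonempty_of {J : ℕ} (lab : Fin N → Fin J) {l u : Fin J → ℝ}
    (hlu : ∀ j, l j < u j) (hb : ∀ j, -1 ≤ l j ∧ u j ≤ 1)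
    (hc : ∀ j, 2 / (u j - l j) ≤ ((univ.filter fun r => lab r = j).card : ℝ)) :
    (Mag.boxSet lab l u).Nonempty := by
  classical
  set F : Fin J → Finset (Fin N) := fun j => univ.filter fun r => lab r = j with hF
  have hk : ∀ j, ∃ k : ℕ, k ≤ (F j).card ∧ l j * (F j).card ≤ 2 * (k : ℝ) - (F j).card ∧
      2 * (k : ℝ) - (F j).card ≤ u j * (F j).card := by
    intro j
    have h1 := hc j
    have hd : 0 < u j - l j := sub_pos.2 (hlu j)
    rw [div_le_iff₀ hd] at h1
    have h1 : 2 ≤ ((F j).card : ℝ) * (u j - l j) := h1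
    have h0 : (0:ℝ) ≤ (F j).card := Nat.cast_nonneg _
    have hx0 : 0 ≤ ((F j).card : ℝ) * (1 + l j) / 2 := by
      have := (hb j).1
      have : 0 ≤ 1 + l j := by linarith
      positivity
    have h2 := Nat.le_ceil (((F j).card : ℝ) * (1 + l j) / 2)
    have h3 := Nat.ceil_lt_add_one hx0
    set k := ⌈((F j).card : ℝ) * (1 + l j) / 2⌉₊ with hkdef
    have h4 : 2 * (k : ℝ) - (F j).card ≤ u j * (F j).card := by nlinarith
    refine ⟨k, ?_, by linarith, h4⟩
    have h5 : (k : ℝ) ≤ ((F j).card : ℝ) := by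
      have := mul_le_mul_of_nonneg_right (hb j).2 h0
      linarith
    exact_mod_cast h5
  choose k hk1 hk2 hk3 using hk
  have hT : ∀ j, ∃ T : Finset (Fin N), T ⊆ F j ∧ T.card = k j := fun j =>
    Finset.exists_subset_card_eq (hk1 j)
  choose T hT1 hT2 using hT
  refine ⟨fun r => decide (r ∈ T (lab r)), ?_⟩
  rw [Mag.mem_boxSet]
  intro j
  have h0 : (0:ℝ) < (F j).card := by
    have h1 := hc j
    have hd : 0 < u j - l j := sub_pos.2 (hlu j)
    exact lt_of_lt_of_le (by positivity) h1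
  have e : ∑ r ∈ F j, spinVec (fun r => decide (r ∈ T (lab r))) r =
      2 * (k j : ℝ) - (F j).card := by
    have e1 : ∀ r ∈ F j, spinVec (fun r => decide (r ∈ T (lab r))) r =
        2 * (if r ∈ T j then (1:ℝ) else 0) - 1 := by
      intro r hr
      have hr : lab r = j := (Finset.mem_filter.1 hr).2
      unfold spinVec
      simp only [hr, decide_eq_true_eq]
      split_ifs <;> norm_num
    rw [Finset.sum_congr rfl e1, Finset.sum_sub_distrib, ← Finset.mul_sum, Finset.sum_ite_mem,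
      Finset.inter_eq_right.2 (hT1 j)]
    simp [hT2]
  show l j ≤ (∑ r ∈ F j, spinVec (fun r => decide (r ∈ T (lab r))) r) / ((F j).card : ℝ) ∧
    (∑ r ∈ F j, spinVec (fun r => decide (r ∈ T (lab r))) r) / ((F j).card : ℝ) ≤ u j
  rw [e, le_div_iff₀ h0, div_le_iff₀ h0]
  exact ⟨hk2 j, hk3 j⟩

/-- **(M2b)** the boxes are eventually nonempty. -/
theorem boxSet_nonempty {J : ℕ} {γ : Fin J → ℚ} (hγ : ∀ j, 0 < γ j)
    {lab : (N : ℕ) → Fin N → Fin J}
    (hprop : ∀ j : Fin J, Filter.Tendsto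
      (fun N : ℕ => ((Finset.univ.filter fun r : Fin N => lab N r = j).card : ℝ) / (N : ℝ))
      Filter.atTop (nhds ((γ j : ℚ) : ℝ)))
    {l u : Fin J → ℝ} (hlu : ∀ j, l j < u j) (hb : ∀ j, -1 ≤ l j ∧ u j ≤ 1) :
    ∀ᶠ N : ℕ in Filter.atTop, (Mag.boxSet (lab N) l u).Nonempty := by
  have h : ∀ j, ∀ᶠ N : ℕ in Filter.atTop,
      2 / (u j - l j) ≤ ((univ.filter fun r : Fin N => lab N r = j).card : ℝ) := by
    intro j
    have hγ' : (0:ℝ) < ((γ j : ℚ) : ℝ) := by exact_mod_cast hγ j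
    have h1 : Filter.Tendsto (fun N : ℕ =>
        (((Finset.univ.filter fun r : Fin N => lab N r = j).card : ℝ) / (N : ℝ)) * (N : ℝ))
        Filter.atTop Filter.atTop :=
      Filter.Tendsto.pos_mul_atTop hγ' (hprop j) tendsto_natCast_atTop_atTop
    filter_upwards [h1.eventually_ge_atTop (2 / (u j - l j)), Filter.eventually_gt_atTop 0]
      with N h2 h3
    have h3' : (N : ℝ) ≠ 0 := by exact_mod_cast h3.ne'
    rwa [div_mul_cancel₀ _ h3'] at h2
  filter_upwards [Filter.eventually_all.2 h] with N hN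
  exact boxSet_nonempty_of (lab N) hlu hb hN

end

end Crest.Agent.R164.US
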