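import Crest.Agent.R164.GSys
import Crest.Agent.R141.SysF4

/-!
Row 164: (F2) and (F3) for the enriched system over a general base (port of `R141/SysF4.lean`).
-/

set_option autoImplicit false

namespace Crest.Agent.R164.G

open Finset Crest.Agent.R141 Crest.Agent.R141.SysIC Crest.Agent.R141.SysF

noncomputable section

variable {p : Par} {N : ℕ} (B : Base p N)

/-- the base filtration -/
def SFil : Filt B.S where
  F := B.SF
  anti := B.anti
  L := p.L
  bot := B.bot

/-- the free energy of the base -/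
def Phi0 (H : B.S → ℝ) : ℝ := eE B.q (A B.q (SFil B) p.xs H 0)

/-! ### pointwise bounds -/

theorem gfac_ge (i : Fin N) (b : Fin p.nb) (ω : Om B) :
    - vb p b (ω.2.1 i b) ≤ gfac B i b ω := by
  unfold gfac
  have hs := B.hf i ω.1
  have hg := gval_abs p b (ω.2.1 i b)
  rcases vb_mem p b (ω.2.1 i b) with h | h
  · rw [gval_of_vb_zero p b _ h, h]; simp
  · rw [h]
    have h1 : |gval p b (ω.2.1 i b) * B.f i ω.1| ≤ 1 / 2 := by
      rw [abs_mul]
      calc |gval p b (ω.2.1 i b)| * |B.f i ω.1| ≤ 1 / 2 * 1 :=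
            mul_le_mul hg hs (abs_nonneg _) (by norm_num)
        _ = 1 / 2 := by ring
    have h2 := (abs_le.mp h1).1
    have h3 : (1 / 2 : ℝ) ≤ 1 + gval p b (ω.2.1 i b) * B.f i ω.1 := by linarith
    have h4 : Real.log (1 / 2) ≤ Real.log (1 + gval p b (ω.2.1 i b) * B.f i ω.1) :=
      Real.log_le_log (by norm_num) h3
    have h5 : Real.log (1 / 2) = - Real.log 2 := by rw [one_div, Real.log_inv]
    have h6 := Real.log_two_lt_d9
    linarith

theorem exp_gfac_le (i : Fin N) (b : Fin p.nb) (ω : Om B) :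
    Real.exp (gfac B i b ω) ≤ 1 + 1 / 2 * vb p b (ω.2.1 i b) := by
  unfold gfac
  have hs := B.hf i ω.1
  have hg := gval_abs p b (ω.2.1 i b)
  have h1 : |gval p b (ω.2.1 i b) * B.f i ω.1| ≤ 1 / 2 := by
    rw [abs_mul]
    calc |gval p b (ω.2.1 i b)| * |B.f i ω.1| ≤ 1 / 2 * 1 :=
          mul_le_mul hg hs (abs_nonneg _) (by norm_num)
      _ = 1 / 2 := by ring
  have h2 := (abs_le.mp h1)
  rw [Real.exp_log (by linarith [h2.1])]
  rcases vb_mem p b (ω.2.1 i b) with h | h
  · rw [gval_of_vb_zero p b _ h, h]; simp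
  · rw [h]; linarith [h2.2]

theorem cfac_mem (o : Option (Crd p N)) (k : Stp p) (ω : Om B) :
    0 ≤ cfac B o k ω ∧ cfac B o k ω ≤ p.τ := by
  have hτ := p.hτ0
  unfold cfac
  cases o with
  | none => exact ⟨le_refl _, hτ.le⟩
  | some c =>
    have h1 := cv_nonneg B c ω
    have h2 := cv_le_one B c ω
    show 0 ≤ p.τ * ((if ω.2.2 k.1 k.2 = true then 1 else 0) * cv B c ω) ∧
      p.τ * ((if ω.2.2 k.1 k.2 = true then 1 else 0) * cv B c ω) ≤ p.τ
    split_ifs
    · constructor
      · positivity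
      · nlinarith
    · constructor
      · simp
      · simp only [zero_mul, mul_zero]; exact hτ.le

/-! ### labels as an independent coordinate -/

theorem ic_labs : IC (prior B) (fil B).F (fun ω => ω.2.1)
    (fun ω c => (ω.1, c, ω.2.2)) (unif (Fin N → Fin p.nb → Fin p.nc → Fin p.Q)) (labsF p N) where
  get_upd ω c := rfl
  upd_get ω := rfl
  upd_upd ω c c' := rfl
  prob ω c := rfl
  rel k ω ω' c := by
    constructor
    · intro h
      have h : frel B k ω ω' := h
      exact ⟨⟨fun _ _ _ _ => rfl, h.2.1, h.2.2⟩, h.1⟩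
    · rintro ⟨h, h'⟩
      have h : frel B k (ω.1, c, ω.2.2) (ω'.1, c, ω'.2.2) := h
      exact ⟨h', h.2.1, h.2.2⟩

theorem labsF_zero : labsF p N 0 = ⊤ := by
  ext l l'
  constructor
  · intro _; trivial
  · intro _ i b g hg
    exfalso; unfold Par.mt at hg
    have : 0 < ((g : ℕ) + 1) * (p.T + 1) := by positivity
    omega

/-! ### projection to the base -/

theorem cE_fst (k : ℕ) (f : B.S → ℝ) (ω : Om B) :
    cE (prior B) ((fil B).F k) (fun w => f w.1) ω = cE B.q (B.SF k) f ω.1 := by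
  classical
  have hcard : (0 : ℝ) < (Fintype.card (Lab p N) : ℝ) := by exact_mod_cast Fintype.card_pos
  set g : Lab p N → Prop := fun l =>
    (∀ (i : Fin N) (b : Fin p.nb) (g : Fin p.nc), p.mt g ≤ k → ω.2.1 i b g = l.1 i b g) ∧
    (∀ (g : Fin p.nc) (t : Fin p.T), p.ct g t ≤ k → ω.2.2 g t = l.2 g t) with hg
  have hgω : g ω.2 := ⟨fun _ _ _ _ => rfl, fun _ _ _ => rfl⟩
  have hnum : (0 : ℝ) < ((Finset.univ.filter g).card : ℝ) := by
    exact_mod_cast Finset.card_pos.2 ⟨ω.2, by simp [hgω]⟩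
  refine cE_proj (r' := (fil B).F k) (r := B.SF k) (P' := prior B) (P := B.q)
    (fun w : Om B => w.1) ω (((Finset.univ.filter g).card : ℝ) * (Fintype.card (Lab p N) : ℝ)⁻¹)
    (by positivity) ?_ ?_ f
  · intro ω'' h
    have h : frel B k ω ω'' := h
    exact h.2.2
  · intro s hs
    have e1 : (∑ ω'' ∈ (Finset.univ.filter (fun ω'' : Om B => ω''.1 = s ∧ (fil B).F k ω ω'')),
        prior B ω'') = ∑ l ∈ Finset.univ.filter g, B.q s * (Fintype.card (Lab p N) : ℝ)⁻¹ := by
      symm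
      refine Finset.sum_bij (fun l _ => ((s, l) : Om B)) ?_ ?_ ?_ ?_
      · intro l hl
        simp only [Finset.mem_filter, Finset.mem_univ, true_and] at hl ⊢
        show frel B k ω (s, l)
        exact ⟨hl.1, hl.2, hs⟩
      · intro l _ l' _ h
        exact (Prod.ext_iff.1 h).2
      · intro ω'' hω''
        simp only [Finset.mem_filter, Finset.mem_univ, true_and] at hω''
        obtain ⟨h1, h2⟩ := hω''
        have h2 : frel B k ω ω'' := h2
        refine ⟨ω''.2, ?_, ?_⟩
        · simp only [Finset.mem_filter, Finset.mem_univ, true_and]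
          exact ⟨h2.1, h2.2.1⟩
        · subst h1; rfl
      · intro l _; rfl
    rw [e1, Finset.sum_const, nsmul_eq_mul]
    ring

theorem eE_fst (f : B.S → ℝ) : eE (prior B) (fun w => f w.1) = eE B.q f := by
  have hcard : (0 : ℝ) < (Fintype.card (Lab p N) : ℝ) := by exact_mod_cast Fintype.card_pos
  unfold eE prior
  rw [Fintype.sum_prod_type]
  refine Finset.sum_congr rfl fun s _ => ?_
  simp only [Finset.sum_const, Finset.card_univ, nsmul_eq_mul]
  field_simp

theorem A_fst (H : B.S → ℝ) (k : ℕ) (ω : Om B) :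
    A (prior B) (fil B) p.xs (fun w => H w.1) k ω = A B.q (SFil B) p.xs H k ω.1 :=
  A_proj (𝓕' := fil B) (𝓕 := SFil B) (prior_isProb B) B.hq p.xs_expo.pos (fun w : Om B => w.1)
    (fun k f ω' => cE_fst B k f ω') H k ω

/-! ### (F2) -/

/-- Pointwise bounds for the enrichment under a tilt by the base. -/
theorem A_WW_bounds (H : B.S → ℝ) (d : DD p N) (ω : Om B) :
    -(N * (p.nb * (p.Q : ℝ)⁻¹)) ≤
      A (tl (prior B) (fil B) p.xs (fun ω => H ω.1)) (fil B) p.xs (WW B d) 0 ω ∧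
    A (tl (prior B) (fil B) p.xs (fun ω => H ω.1)) (fil B) p.xs (WW B d) 0 ω ≤
      N * (p.nb * (1 / 2 * (p.Q : ℝ)⁻¹)) + p.τ * Fintype.card (Stp p) := by
  have hP := prior_isProb B
  have hx := p.xs_expo.pos
  have hQ0 : (0 : ℝ) ≤ (p.Q : ℝ)⁻¹ := by positivity
  set Q := tl (prior B) (fil B) p.xs (fun ω => H ω.1) with hQdef
  have hQ : IsProb Q := tl_isProb hP hx _
  have hic : IC Q (fil B).F (fun ω => ω.2.1)
      (fun ω c => (ω.1, c, ω.2.2)) (unif (Fin N → Fin p.nb → Fin p.nc → Fin p.Q)) (labsF p N) :=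
    (ic_labs B).tl_inv hP (by have := nonemptyQ p; exact unif_isProb _) hx (fun _ _ => rfl)
  have hu : IsProb (unif (Fin N → Fin p.nb → Fin p.nc → Fin p.Q)) := by
    have := nonemptyQ p; exact unif_isProb _
  have hcoord : ∀ g : (Fin N → Fin p.nb → Fin p.nc → Fin p.Q) → ℝ,
      cE Q ((fil B).F 0) (fun ω => g ω.2.1) ω = eE (unif _) g := by
    intro g
    rw [hic.cE_coord hQ hu 0 g ω, labsF_zero, eE_top hu]
  constructor
  · refine le_trans ?_ (cE_le_A (𝓕 := fil B) hQ hx (WW B d) 0 ω)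
    have h1 : cE Q ((fil B).F 0) (fun ω => - ∑ i, ∑ b, vb p b (ω.2.1 i b)) ω ≤
        cE Q ((fil B).F 0) (WW B d) ω := by
      apply cE_mono' hQ
      intro ω
      unfold WW
      have h2 : - ∑ i, ∑ b, vb p b (ω.2.1 i b) ≤ ∑ i, ∑ b, gfac B i b ω := by
        rw [← Finset.sum_neg_distrib]
        refine Finset.sum_le_sum fun i _ => ?_
        rw [← Finset.sum_neg_distrib]
        exact Finset.sum_le_sum fun b _ => gfac_ge B i b ω
      have h3 : 0 ≤ ∑ k, cfac B (d k) k ω :=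
        Finset.sum_nonneg fun k _ => (cfac_mem B (d k) k ω).1
      linarith
    have h2 : cE Q ((fil B).F 0) (fun ω => - ∑ i, ∑ b, vb p b (ω.2.1 i b)) ω =
        -(N * (p.nb * (p.Q : ℝ)⁻¹)) := by
      rw [hcoord (fun l => - ∑ i, ∑ b, vb p b (l i b))]
      have e : (fun l : Fin N → Fin p.nb → Fin p.nc → Fin p.Q => - ∑ i, ∑ b, vb p b (l i b)) =
          fun l => (-1) * ∑ i, ∑ b, vb p b (l i b) := by funext l; ring
      rw [e, eE_smul, eE_sum]
      have h4 : ∀ i : Fin N, eE (unif (Fin N → Fin p.nb → Fin p.nc → Fin p.Q))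
          (fun l => ∑ b, vb p b (l i b)) = p.nb * (p.Q : ℝ)⁻¹ := by
        intro i
        have := nonemptyQ p
        rw [unif_coord (ι := Fin N) (Λ := Fin p.nb → Fin p.nc → Fin p.Q) i
          (fun l => ∑ b, vb p b (l b)), eE_sum]
        have h5 : ∀ b : Fin p.nb, eE (unif (Fin p.nb → Fin p.nc → Fin p.Q))
            (fun l => vb p b (l b)) = (p.Q : ℝ)⁻¹ := by
          intro b
          rw [unif_coord (ι := Fin p.nb) (Λ := Fin p.nc → Fin p.Q) b (vb p b), eE_vb]
        rw [Finset.sum_congr rfl fun b _ => h5 b, Finset.sum_const, Finset.card_univ,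
          Fintype.card_fin, nsmul_eq_mul]
      rw [Finset.sum_congr rfl fun i _ => h4 i, Finset.sum_const, Finset.card_univ,
        Fintype.card_fin, nsmul_eq_mul]
      ring
    linarith
  · refine (A_le_log (𝓕 := fil B) hQ p.xs_expo (WW B d) 0 ω).trans ?_
    have hpos : 0 < cE Q ((fil B).F 0) (fun w => Real.exp (WW B d w)) ω :=
      cE_pos hQ (fun _ => Real.exp_pos _) ω
    rw [Real.log_le_iff_le_exp hpos]
    have h1 : cE Q ((fil B).F 0) (fun w => Real.exp (WW B d w)) ω ≤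
        cE Q ((fil B).F 0) (fun ω => Real.exp (p.τ * Fintype.card (Stp p)) *
          ∏ i, ∏ b, (1 + 1 / 2 * vb p b (ω.2.1 i b))) ω := by
      apply cE_mono' hQ
      intro ω
      unfold WW
      rw [Real.exp_add, mul_comm]
      apply mul_le_mul
      · apply Real.exp_le_exp.mpr
        calc ∑ k, cfac B (d k) k ω ≤ ∑ _k : Stp p, p.τ :=
              Finset.sum_le_sum fun k _ => (cfac_mem B (d k) k ω).2
          _ = p.τ * Fintype.card (Stp p) := by
              rw [Finset.sum_const, Finset.card_univ, nsmul_eq_mul, mul_comm]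
      · rw [Real.exp_sum]
        refine Finset.prod_le_prod (fun _ _ => (Real.exp_pos _).le) fun i _ => ?_
        rw [Real.exp_sum]
        exact Finset.prod_le_prod (fun _ _ => (Real.exp_pos _).le) fun b _ => exp_gfac_le B i b ω
      · exact (Real.exp_pos _).le
      · exact (Real.exp_pos _).le
    refine h1.trans ?_
    rw [cE_smul, hcoord (fun l => ∏ i, ∏ b, (1 + 1 / 2 * vb p b (l i b))),
      add_comm (N * (p.nb * (1 / 2 * (p.Q : ℝ)⁻¹)) : ℝ), Real.exp_add]
    exact mul_le_mul_of_nonneg_left (eE_labs_prod p N) (Real.exp_pos _).le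

theorem Phi_sub_Phi0 (H : B.S → ℝ) (d : DD p N) :
    Phi B H d - Phi0 B H =
      eE (prior B) (A (tl (prior B) (fil B) p.xs (fun ω => H ω.1)) (fil B) p.xs (WW B d) 0) := by
  have hP := prior_isProb B
  have hx := p.xs_expo.pos
  unfold Phi Phi0
  have e : A (prior B) (fil B) p.xs (UU B H d) 0 = fun ω =>
      A (prior B) (fil B) p.xs (fun ω => H ω.1) 0 ω +
        A (tl (prior B) (fil B) p.xs (fun ω => H ω.1)) (fil B) p.xs (WW B d) 0 ω := by
    funext ω
    exact A_cocycle (𝓕 := fil B) hP hx (fun ω => H ω.1) (WW B d) 0 ω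
  have e2 : eE (prior B) (A (prior B) (fil B) p.xs (fun ω => H ω.1) 0) =
      eE B.q (A B.q (SFil B) p.xs H 0) := by
    rw [← eE_fst B]
    congr 1
    funext ω
    exact A_fst B H 0 ω
  rw [e, eE_add, e2]
  ring

/-- (F2): the enrichment changes the free energy by at most `N nb/Q + τ #coins`. -/
theorem Phi_F2 (H : B.S → ℝ) (d : DD p N) :
    |Phi B H d - Phi0 B H| ≤ N * (p.nb * (p.Q : ℝ)⁻¹) + p.τ * Fintype.card (Stp p) := by
  have hP := prior_isProb B
  have hQ0 : (0 : ℝ) ≤ (p.Q : ℝ)⁻¹ := by positivity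
  have hτ := p.hτ0
  rw [Phi_sub_Phi0, abs_le]
  constructor
  · have h1 := eE_mono hP fun ω => (A_WW_bounds B H d ω).1
    rw [eE_const hP] at h1
    have h2 : 0 ≤ p.τ * Fintype.card (Stp p) := by positivity
    linarith
  · have h1 := eE_le_of_le hP fun ω => (A_WW_bounds B H d ω).2
    have h2 : (N : ℝ) * (p.nb * (1 / 2 * (p.Q : ℝ)⁻¹)) ≤ N * (p.nb * (p.Q : ℝ)⁻¹) := by
      apply mul_le_mul_of_nonneg_left _ (Nat.cast_nonneg _)
      apply mul_le_mul_of_nonneg_left _ (Nat.cast_nonneg _)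
      linarith
    linarith

/-- (F2) averaged over the outer randomness. -/
theorem EPhi_F2 (hN : 0 < N) (H : B.S → ℝ) :
    |EPhi B H - Phi0 B H| ≤ N * (p.nb * (p.Q : ℝ)⁻¹) + p.τ * Fintype.card (Stp p) := by
  unfold EPhi
  set c := N * (p.nb * (p.Q : ℝ)⁻¹) + p.τ * Fintype.card (Stp p) with hc
  have h1 : Ed p N (Phi B H) ≤ Phi0 B H + c := by
    rw [← Ed_const p hN (Phi0 B H + c)]
    refine Ed_mono p N fun d => ?_
    have := (abs_le.1 (Phi_F2 B H d)).2
    linarith
  have h2 : Phi0 B H - c ≤ Ed p N (Phi B H) := by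
    rw [← Ed_const p hN (Phi0 B H - c)]
    refine Ed_mono p N fun d => ?_
    have := (abs_le.1 (Phi_F2 B H d)).1
    linarith
  rw [abs_le]; constructor <;> linarith

/-! ### (F3) -/

theorem Phi_F3 {H H' : B.S → ℝ} {a : ℝ} (h : ∀ s, |H s - H' s| ≤ a) (d : DD p N) :
    |Phi B H d - Phi B H' d| ≤ a := by
  have hP := prior_isProb B
  have hx := p.xs_expo.pos
  unfold Phi
  have h1 : ∀ ω, |A (prior B) (fil B) p.xs (UU B H d) 0 ω -
      A (prior B) (fil B) p.xs (UU B H' d) 0 ω| ≤ a := by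
    intro ω
    apply A_sub_abs_le hP hx
    intro w
    unfold UU
    have e : H w.1 + WW B d w - (H' w.1 + WW B d w) = H w.1 - H' w.1 := by ring
    rw [e]; exact h w.1
  rw [← eE_sub]
  exact (eE_abs_le hP _).trans (eE_le_of_le hP h1)

theorem Phi0_F3 {H H' : B.S → ℝ} {a : ℝ} (h : ∀ s, |H s - H' s| ≤ a) :
    |Phi0 B H - Phi0 B H'| ≤ a := by
  have hP := B.hq
  have hx := p.xs_expo.pos
  unfold Phi0
  have h1 : ∀ ω, |A B.q (SFil B) p.xs H 0 ω - A B.q (SFil B) p.xs H' 0 ω| ≤ a :=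
    fun ω => A_sub_abs_le hP hx (fun w => h w) 0 ω
  rw [← eE_sub]
  exact (eE_abs_le hP _).trans (eE_le_of_le hP h1)

theorem EPhi_F3 (hN : 0 < N) {H H' : B.S → ℝ} {a : ℝ} (h : ∀ s, |H s - H' s| ≤ a) :
    |EPhi B H - EPhi B H'| ≤ a := by
  unfold EPhi
  have h1 : Ed p N (Phi B H) ≤ Ed p N (Phi B H') + a := by
    rw [← Ed_const p hN a, ← Ed_add]
    refine Ed_mono p N fun d => ?_
    have := (abs_le.1 (Phi_F3 B h d)).2
    linarith
  have h2 : Ed p N (Phi B H') ≤ Ed p N (Phi B H) + a := by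
    rw [← Ed_const p hN a, ← Ed_add]
    refine Ed_mono p N fun d => ?_
    have := (abs_le.1 (Phi_F3 B h d)).1
    linarith
  rw [abs_le]; constructor <;> linarith

/-- monotonicity in the Hamiltonian -/
theorem Phi_mono {H H' : B.S → ℝ} (h : ∀ s, H s ≤ H' s) (d : DD p N) :
    Phi B H d ≤ Phi B H' d := by
  have hP := prior_isProb B
  have hx := p.xs_expo.pos
  unfold Phi
  apply eE_mono hP
  intro ω
  apply A_mono hP hx
  intro w
  unfold UU
  have := h w.1
  linarith

theorem Phi0_mono {H H' : B.S → ℝ} (h : ∀ s, H s ≤ H' s) : Phi0 B H ≤ Phi0 B H' := by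
  have hx := p.xs_expo.pos
  unfold Phi0
  exact eE_mono B.hq fun ω => A_mono B.hq hx h 0 ω

theorem Phi_add_const (H : B.S → ℝ) (c : ℝ) (d : DD p N) :
    Phi B (fun s => H s + c) d = Phi B H d + c := by
  have hP := prior_isProb B
  have hx := p.xs_expo.pos
  unfold Phi
  have e : A (prior B) (fil B) p.xs (UU B (fun s => H s + c) d) 0 =
      fun ω => A (prior B) (fil B) p.xs (UU B H d) 0 ω + c := by
    funext ω
    rw [← A_add_const hP hx]
    congr 1
    funext w
    unfold UU; ring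
  rw [e, eE_add, eE_const hP]

theorem Phi0_add_const (H : B.S → ℝ) (c : ℝ) :
    Phi0 B (fun s => H s + c) = Phi0 B H + c := by
  have hx := p.xs_expo.pos
  unfold Phi0
  have e : A B.q (SFil B) p.xs (fun s => H s + c) 0 =
      fun ω => A B.q (SFil B) p.xs H 0 ω + c := by
    funext ω
    exact A_add_const B.hq hx H c 0 ω
  rw [e, eE_add, eE_const B.hq]

end

end Crest.Agent.R164.G
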