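import Crest.Agent.R164.Sys164
import Crest.Agent.R164.GF4
import Crest.Agent.R164.CoinG

/-!
Row 164 (helper399): the `t = 0` value of the finite system with coin fields.

Independent coordinates of the base system and the backward induction over the cells.
-/

set_option autoImplicit false

namespace Crest.Agent.R164.Z

open Finset Crest.Agent.R141 Crest.Agent.R141.SysF Crest.Agent.R141.SysIC Crest.Agent.R164 Crest.Agent.R164.SY Crest.Agent.R164.CoinG

noncomputable section

variable {p : Par} {N n : ℕ} {K : Finset (Fin N → Bool)} (hK : K.Nonempty)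

/-! ### the base system with explicit types -/

/-- uniform law -/
def qS (p : Par) {N : ℕ} (n : ℕ) (K : Finset (Fin N → Bool)) : SS p n K → ℝ :=
  fun _ => (Fintype.card (SS p n K) : ℝ)⁻¹

/-- base filtration -/
def filS (p : Par) {N : ℕ} (n : ℕ) {K : Finset (Fin N → Bool)} (hK : K.Nonempty) :
    Filt (SS p n K) where
  F := sfil p n K
  anti := (base p n K hK).anti
  L := p.L
  bot := (base p n K hK).bot

include hK in
theorem qS_isProb : IsProb (qS p n K) := (base p n K hK).hq

theorem Phi0_eq (H : SS p n K → ℝ) :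
    G.Phi0 (base p n K hK) H = eE (qS p n K) (R141.A (qS p n K) (filS p n hK) p.xs H 0) := rfl

theorem filS_F (k : ℕ) : (filS p n hK).F k = sfil p n K k := rfl

/-! ### independent coordinates -/

/-- trivial before step `m`, discrete from step `m` on -/
def stepF (Λ : Type) (m k : ℕ) : Setoid Λ := if m ≤ k then ⊥ else ⊤

theorem stepF_lt (Λ : Type) {m k : ℕ} (h : k < m) : stepF Λ m k = ⊤ := if_neg (by omega)

theorem stepF_iff {Λ : Type} {m k : ℕ} {c c' : Λ} : stepF Λ m k c c' ↔ (m ≤ k → c = c') := by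
  by_cases h : m ≤ k
  · rw [stepF, if_pos h]
    exact ⟨fun h' _ => h', fun h' => h' h⟩
  · rw [stepF, if_neg h]
    exact ⟨fun _ h' => absurd h' h, fun _ => trivial⟩

/-- the main coins of the cell `g` -/
theorem ic_main (g : Fin p.nc) : IC (qS p n K) (sfil p n K)
    (fun s : SS p n K => s.2.1 g) (fun s c => (s.1, Function.update s.2.1 g c, s.2.2))
    (unif (Fin N → Fin n → Bool)) (stepF _ (p.mt g)) where
  get_upd ω c := by simp
  upd_get ω := by
    show (ω.1, Function.update ω.2.1 g (ω.2.1 g), ω.2.2) = ω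
    rw [Function.update_eq_self]
  upd_upd ω c c' := by
    show (ω.1, Function.update (Function.update ω.2.1 g c) g c', ω.2.2) =
      (ω.1, Function.update ω.2.1 g c', ω.2.2)
    rw [Function.update_idem]
  prob ω c := rfl
  rel k ω ω' c := by
    show srel k ω ω' ↔ srel k _ _ ∧ _
    rw [stepF_iff]
    constructor
    · intro h
      refine ⟨⟨fun g' hg' => ?_, h.2.1, h.2.2⟩, fun hg => h.1 g hg⟩
      by_cases hgg : g' = g
      · subst hgg; simp
      · simp only [Function.update_of_ne hgg]; exact h.1 g' hg'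
    · rintro ⟨h, h'⟩
      refine ⟨fun g' hg' => ?_, h.2.1, h.2.2⟩
      by_cases hgg : g' = g
      · subst hgg; exact h' hg'
      · have := h.1 g' hg'
        simpa only [Function.update_of_ne hgg] using this

/-- all small coins -/
theorem ic_small : IC (qS p n K) (sfil p n K)
    (fun s : SS p n K => s.2.2) (fun s c => (s.1, s.2.1, c))
    (unif (FC p N n)) (fun k => ⟨fun c c' => ∀ g : Fin p.nc, p.mt g ≤ k → c g = c' g,
      ⟨fun _ _ _ => rfl, fun h g hg => (h g hg).symm,
        fun h h' g hg => (h g hg).trans (h' g hg)⟩⟩) where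
  get_upd ω c := rfl
  upd_get ω := rfl
  upd_upd ω c c' := rfl
  prob ω c := rfl
  rel k ω ω' c := by
    show srel k ω ω' ↔ srel k _ _ ∧ (∀ g : Fin p.nc, p.mt g ≤ k → ω.2.2 g = ω'.2.2 g)
    constructor
    · intro h
      exact ⟨⟨h.1, fun _ _ => rfl, h.2.2⟩, h.2.1⟩
    · rintro ⟨h, h'⟩
      exact ⟨h.1, h', h.2.2⟩

/-- the spins -/
theorem ic_spin : IC (qS p n K) (sfil p n K)
    (fun s : SS p n K => s.1) (fun s σ => (σ, s.2))
    (unif {σ : Fin N → Bool // σ ∈ K}) (stepF _ p.L) where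
  get_upd ω c := rfl
  upd_get ω := rfl
  upd_upd ω c c' := rfl
  prob ω c := rfl
  rel k ω ω' c := by
    show srel k ω ω' ↔ srel k _ _ ∧ _
    rw [stepF_iff]
    constructor
    · intro h
      exact ⟨⟨h.1, h.2.1, fun _ => rfl⟩, h.2.2⟩
    · rintro ⟨h, h'⟩
      exact ⟨h.1, h.2.1, h'⟩

/-! ### product averages -/

/-- the average over the coins of one cell of a product over the sites -/
theorem avg_sites (φ : Fin N → ℝ → ℝ) :
    eE (unif (Fin N → Fin n → Bool)) (fun c => ∏ i, φ i ((Real.sqrt n)⁻¹ * ∑ t, sv (c i t))) =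
      ∏ i, bavg n (φ i) := by
  rw [unif_prod (fun i (c : Fin n → Bool) => φ i ((Real.sqrt n)⁻¹ * ∑ t, sv (c t)))]
  refine Finset.prod_congr rfl fun i _ => ?_
  unfold eE unif bavg
  rw [← Finset.mul_sum, Fintype.card_fun, Fintype.card_bool, Fintype.card_fin]
  congr 1
  simp

/-- the average over all coins of a product over cells and sites -/
theorem avg_cells (φ : Fin p.nc → Fin N → ℝ → ℝ) :
    eE (unif (FC p N n)) (fun c => ∏ g, ∏ i, φ g i (zf c g i)) = ∏ g, ∏ i, bavg n (φ g i) := by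
  have h := unif_prod (fun g (c : Fin N → Fin n → Bool) =>
    ∏ i, φ g i ((Real.sqrt n)⁻¹ * ∑ t, sv (c i t)))
  refine h.trans (Finset.prod_congr rfl fun g _ => avg_sites (φ g))

/-! ### backward induction -/

/-- partial main field at site `i` of the cells before `m` -/
def yF (a : Fin p.nc → ℝ) (m : ℕ) (c : FC p N n) (i : Fin N) : ℝ :=
  ∑ g : Fin p.nc, if (g : ℕ) < m then a g * zf c g i else 0

theorem yF_zero (a : Fin p.nc → ℝ) (c : FC p N n) (i : Fin N) : yF a 0 c i = 0 := by
  unfold yF; simp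

theorem yF_last (a : Fin p.nc → ℝ) (c : FC p N n) (i : Fin N) :
    yF a p.nc c i = ∑ g, a g * zf c g i := by
  unfold yF
  exact Finset.sum_congr rfl fun g _ => if_pos g.2

theorem yF_congr {a : Fin p.nc → ℝ} {m : ℕ} {c c' : FC p N n}
    (h : ∀ g : Fin p.nc, (g : ℕ) < m → c g = c' g) (i : Fin N) : yF a m c i = yF a m c' i := by
  unfold yF
  refine Finset.sum_congr rfl fun g _ => ?_
  split_ifs with hg
  · unfold zf; rw [h g hg]
  · rfl

theorem yF_succ (a : Fin p.nc → ℝ) (g : Fin p.nc) (c : FC p N n) (i : Fin N) :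
    yF a (g + 1) c i = yF a g c i + a g * zf c g i := by
  unfold yF
  have h : ∀ g' : Fin p.nc, (if (g' : ℕ) < (g : ℕ) + 1 then a g' * zf c g' i else 0) =
      (if (g' : ℕ) < (g : ℕ) then a g' * zf c g' i else 0) +
        if g' = g then a g' * zf c g' i else 0 := by
    intro g'
    simp only [Fin.ext_iff]
    rcases lt_trichotomy (g' : ℕ) (g : ℕ) with h | h | h
    · rw [if_pos (by omega), if_pos h, if_neg (by omega), add_zero]
    · rw [if_pos (by omega), if_neg (by omega), if_pos h, zero_add]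
    · rw [if_neg (by omega), if_neg (by omega), if_neg (by omega), add_zero]
  simp only [h, Finset.sum_add_distrib]
  simp

/-- the main Hamiltonian -/
def Hm (a : Fin p.nc → ℝ) (s : SS p n K) : ℝ := ∑ g, a g * ∑ i, zf s.2.1 g i * sv (s.1.1 i)

theorem Hm_eq (a : Fin p.nc → ℝ) (s : SS p n K) :
    Hm a s = ∑ i, sv (s.1.1 i) * yF a p.nc s.2.1 i := by
  unfold Hm
  simp only [Finset.mul_sum, yF_last]
  rw [Finset.sum_comm]
  refine Finset.sum_congr rfl fun i _ => Finset.sum_congr rfl fun g _ => by ring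

theorem st_L : p.nc * (p.T + 1) < p.L := by unfold Par.L; omega

theorem tail_eq (g : Fin p.nc) : (List.finRange p.nc).drop g = g :: (List.finRange p.nc).drop (g + 1) := by
  rw [List.drop_eq_getElem_cons (by simp)]
  simp

/-- the coins of the cells before `m` are revealed at step `m * (T + 1)` -/
theorem yF_meas (a : Fin p.nc → ℝ) (m : ℕ) (i : Fin N) {s s' : SS p n K}
    (h : srel (m * (p.T + 1)) s s') : yF a m s.2.1 i = yF a m s'.2.1 i := by
  refine yF_congr (fun g hg => h.1 g ?_) i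
  unfold Par.mt
  exact Nat.mul_le_mul_right _ hg

theorem spin_nonempty (hK : K.Nonempty) : Nonempty {σ : Fin N → Bool // σ ∈ K} :=
  ⟨⟨hK.choose, hK.choose_spec⟩⟩

include hK in
/-- the last step -/
theorem cE_spin (f : SS p n K → ℝ) (s : SS p n K) :
    cE (qS p n K) (sfil p n K (p.nc * (p.T + 1))) f s =
      cE (qS p n K) (sfil p n K (p.nc * (p.T + 1)))
        (fun s' : SS p n K => eE (unif {σ : Fin N → Bool // σ ∈ K}) (fun σ => f (σ, s'.2))) s := by
  have := spin_nonempty hK
  have hq : IsProb (unif {σ : Fin N → Bool // σ ∈ K}) := unif_isProb _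
  rw [(ic_spin (n := n) (p := p) (K := K)).cE_eq hq]
  simp only [stepF_lt _ (st_L (p := p)), eE_top hq]

/-- a cell step -/
theorem cE_cell (g : Fin p.nc) (f : SS p n K → ℝ) (s : SS p n K) :
    cE (qS p n K) (sfil p n K (g * (p.T + 1))) f s =
      cE (qS p n K) (sfil p n K (g * (p.T + 1)))
        (fun s' : SS p n K => eE (unif (Fin N → Fin n → Bool))
          (fun c => f (s'.1, Function.update s'.2.1 g c, s'.2.2))) s := by
  have hq : IsProb (unif (Fin N → Fin n → Bool)) := unif_isProb _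
  have hlt : (g : ℕ) * (p.T + 1) < p.mt g := by
    unfold Par.mt
    exact Nat.mul_lt_mul_of_pos_right (Nat.lt_succ_self _) (Nat.succ_pos _)
  rw [(ic_main (n := n) (K := K) g).cE_eq hq]
  simp only [stepF_lt _ hlt, eE_top hq]

/-- BACKWARD INDUCTION: the `t = 0` upper bound. -/
theorem A_main_le (a : Fin p.nc → ℝ) {ρ : Fin N → ℝ → ℝ} {c0 : ℝ}
    (hlast : ∀ y : Fin N → ℝ, eE (unif {σ : Fin N → Bool // σ ∈ K})
      (fun σ => Real.exp (∑ i, sv (σ.1 i) * y i)) ≤ Real.exp (c0 + ∑ i, ρ i (y i))) :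
    ∀ j, j ≤ p.nc → ∀ s : SS p n K,
      A (qS p n K) (filS p n hK) p.xs (Hm a) ((p.nc - j) * (p.T + 1)) s ≤
        c0 + ∑ i, cRec n (fun g : Fin p.nc => p.xi g) a ((List.finRange p.nc).drop (p.nc - j))
          (ρ i) (yF a (p.nc - j) s.2.1 i) := by
  have hP := qS_isProb (p := p) (n := n) hK
  have hx := p.xs_expo.pos
  intro j
  induction j with
  | zero =>
    intro _ s
    rw [Nat.sub_zero, List.drop_of_length_le (by simp)]
    rw [A_collapse (𝓕 := filS p n hK) hP hx one_pos (Hm a) st_L.le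
      (fun j h1 h2 => p.xs_last (by unfold Par.L; omega)) s,
      A_of_ge (𝓕 := filS p n hK) (k := p.L) (Hm a) (le_refl p.L)]
    unfold pm
    rw [div_one, one_mul, Real.log_le_iff_le_exp (cE_pos hP (fun _ => Real.exp_pos _) s)]
    have h1 := cE_spin hK (fun s' => Real.exp (1 * Hm a s')) s
    refine (le_of_eq h1).trans ?_
    have h2 : ∀ s' : SS p n K, eE (unif {σ : Fin N → Bool // σ ∈ K})
        (fun σ => Real.exp (1 * Hm a ((σ, s'.2) : SS p n K))) ≤
        Real.exp (c0 + ∑ i, ρ i (yF a p.nc s'.2.1 i)) := by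
      intro s'
      have h3 := hlast (yF a p.nc s'.2.1)
      simp only [one_mul, Hm_eq]
      exact h3
    refine (cE_mono' hP h2 s).trans (le_of_eq ?_)
    refine cE_of_meas hP ?_ s
    intro s1 s2 h12
    have h12 : srel _ s1 s2 := h12
    simp only [yF_meas a p.nc _ h12]
  | succ j ih =>
    intro hj s
    obtain ⟨g, hg⟩ : ∃ g : Fin p.nc, (g : ℕ) = p.nc - (j + 1) := ⟨⟨p.nc - (j + 1), by omega⟩, rfl⟩
    have hg1 : p.nc - j = (g : ℕ) + 1 := by omega
    have ih' := ih (by omega)
    rw [hg1] at ih'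
    rw [← hg, tail_eq]
    set W : SS p n K → ℝ := fun s => c0 + ∑ i, cRec n (fun g : Fin p.nc => p.xi g) a
      ((List.finRange p.nc).drop (g + 1)) (ρ i) (yF a (g + 1) s.2.1 i) with hW
    have hxi : 0 < p.xi g := by unfold Par.xi; positivity
    rw [A_collapse (𝓕 := filS p n hK) hP hx hxi (Hm a)
      (Nat.mul_le_mul_right (p.T + 1) (Nat.le_succ (g : ℕ)))
      (fun j h1 h2 => p.xs_cell g.2 h1 h2) s]
    refine (pm_mono hP hxi s (fun s' _ => ih' s')).trans (le_of_eq ?_)
    -- the average over the cell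
    have h2 : ∀ s' : SS p n K, eE (unif (Fin N → Fin n → Bool))
        (fun c => Real.exp (p.xi g * W (s'.1, Function.update s'.2.1 g c, s'.2.2))) =
        Real.exp (p.xi g * (c0 + ∑ i, cRec n (fun g : Fin p.nc => p.xi g) a
          (g :: (List.finRange p.nc).drop (g + 1)) (ρ i) (yF a g s'.2.1 i))) := by
      intro s'
      set R : Fin N → ℝ → ℝ := fun i => cRec n (fun g : Fin p.nc => p.xi g) a
        ((List.finRange p.nc).drop (g + 1)) (ρ i) with hR
      have e1 : ∀ c : Fin N → Fin n → Bool,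
          Real.exp (p.xi g * W (s'.1, Function.update s'.2.1 g c, s'.2.2)) =
          Real.exp (p.xi g * c0) * ∏ i, (fun i z => Real.exp (p.xi g * R i
            (yF a g s'.2.1 i + a g * z))) i ((Real.sqrt n)⁻¹ * ∑ t, sv (c i t)) := by
        intro c
        rw [← Real.exp_sum, ← Real.exp_add, hW]
        congr 1
        simp only
        rw [mul_add, Finset.mul_sum]
        congr 1
        refine Finset.sum_congr rfl fun i _ => ?_
        rw [yF_succ]
        have e2 : yF a g (Function.update s'.2.1 g c) i = yF a g s'.2.1 i := by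
          refine yF_congr (fun g' hg' => ?_) i
          rw [Function.update_of_ne]
          intro h; rw [h] at hg'; exact lt_irrefl _ hg'
        have e3 : zf (Function.update s'.2.1 g c) g i = (Real.sqrt n)⁻¹ * ∑ t, sv (c i t) := by
          unfold zf; simp
        rw [e2, e3]
      simp only [e1]
      rw [eE_smul, avg_sites (fun i z => Real.exp (p.xi g * R i (yF a g s'.2.1 i + a g * z))), mul_add, Real.exp_add, Finset.mul_sum, Real.exp_sum]
      congr 1
      refine Finset.prod_congr rfl fun i _ => ?_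
      exact (exp_coinOp n hxi (a g) (R i) (yF a g s'.2.1 i)).symm
    unfold pm
    have h1 := cE_cell g (fun s' => Real.exp (p.xi g * W s')) s
    have h3 : cE (qS p n K) ((filS p n hK).F (g * (p.T + 1)))
        (fun s' => Real.exp (p.xi g * W s')) s =
        Real.exp (p.xi g * (c0 + ∑ i, cRec n (fun g : Fin p.nc => p.xi g) a
          (g :: (List.finRange p.nc).drop (g + 1)) (ρ i) (yF a g s.2.1 i))) := by
      refine h1.trans ?_
      simp only [h2]
      refine cE_of_meas hP ?_ s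
      intro s1 s2 h12
      have h12 : srel _ s1 s2 := h12
      simp only [yF_meas a g _ h12]
    rw [h3, Real.log_exp]
    field_simp

/-- the main part of the base free energy -/
theorem Phi0_main_le (a : Fin p.nc → ℝ) {ρ : Fin N → ℝ → ℝ} {c0 : ℝ}
    (hlast : ∀ y : Fin N → ℝ, eE (unif {σ : Fin N → Bool // σ ∈ K})
      (fun σ => Real.exp (∑ i, sv (σ.1 i) * y i)) ≤ Real.exp (c0 + ∑ i, ρ i (y i))) :
    G.Phi0 (base p n K hK) (Hm a) ≤
      c0 + ∑ i, cRec n (fun g : Fin p.nc => p.xi g) a (List.finRange p.nc) (ρ i) 0 := by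
  have hP := qS_isProb (p := p) (n := n) hK
  rw [Phi0_eq]
  refine eE_le_of_le hP fun s => ?_
  have h := A_main_le hK a hlast p.nc le_rfl s
  simpa [yF_zero] using h

/-- the small part of the Hamiltonian -/
def Vs (lam : Fin N → Fin p.nc → ℝ) (x : (Fin N → Bool) → Fin N → ℝ) (s : SS p n K) : ℝ :=
  ∑ g, ∑ i, lam i g * (zf s.2.2 g i * x s.1.1 i)

theorem HH_split (h0 : (Fin N → Bool) → ℝ) (a : Fin p.nc → ℝ) (lam : Fin N → Fin p.nc → ℝ)
    (x : (Fin N → Bool) → Fin N → ℝ) (s : SS p n K) :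
    HH h0 a lam x s = h0 s.1.1 + (Hm a s + Vs lam x s) := by
  unfold HH Hm Vs; ring

/-- the small fields cost at most `κ / 2` -/
theorem small_le (a : Fin p.nc → ℝ) (lam : Fin N → Fin p.nc → ℝ)
    (x : (Fin N → Bool) → Fin N → ℝ) {κ : ℝ}
    (hκ : ∀ σ ∈ K, ∑ g, ∑ i, (lam i g * x σ i) ^ 2 ≤ κ) :
    G.Phi0 (base p n K hK) (fun s : SS p n K => Hm a s + Vs lam x s) ≤
      G.Phi0 (base p n K hK) (Hm a) + κ / 2 := by
  have hP := qS_isProb (p := p) (n := n) hK
  have hx := p.xs_expo.pos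
  set Q := tl (qS p n K) (filS p n hK) p.xs (Hm a) with hQd
  have hQ : IsProb Q := tl_isProb hP hx _
  have hF0 : (filS p n hK).F 0 = ⊤ := base_SF_zero hK
  rw [Phi0_eq, Phi0_eq]
  have hco : R141.A (qS p n K) (filS p n hK) p.xs (fun s => Hm a s + Vs lam x s) 0 =
      fun s => R141.A (qS p n K) (filS p n hK) p.xs (Hm a) 0 s +
        R141.A Q (filS p n hK) p.xs (Vs lam x) 0 s := by
    funext s
    exact A_cocycle hP hx (Hm a) (Vs lam x) 0 s
  rw [hco, eE_add]
  refine add_le_add le_rfl (eE_le_of_le hP fun s => ?_)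
  refine (A_le_log hQ p.xs_expo (Vs lam x) 0 s).trans ?_
  rw [hF0, eE_top hQ, Real.log_le_iff_le_exp
    (by
      have := cE_pos hQ (r := ⊤) (f := fun w => Real.exp (Vs lam x w)) (fun _ => Real.exp_pos _) s
      rwa [eE_top hQ] at this)]
  -- average over the small coins
  have hic : IC Q (filS p n hK).F (fun s : SS p n K => s.2.2) (fun s c => (s.1, s.2.1, c))
      (unif (FC p N n)) _ :=
    (ic_small (p := p) (n := n) (K := K)).tl_inv (𝓕 := filS p n hK) hP (unif_isProb _) hx
      (U := Hm a) (fun _ _ => rfl)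
  have h1 := hic.top.cE_eq (unif_isProb _) 0 (fun w => Real.exp (Vs lam x w)) s
  simp only [eE_top hQ, eE_top (unif_isProb (FC p N n))] at h1
  rw [h1]
  refine eE_le_of_le hQ fun s' => ?_
  have e1 : ∀ c : FC p N n, Real.exp (Vs lam x ((s'.1, s'.2.1, c) : SS p n K)) =
      ∏ g, ∏ i, (fun g i z => Real.exp (lam i g * x s'.1.1 i * z)) g i (zf c g i) := by
    intro c
    simp only [← Real.exp_sum]
    congr 1
    unfold Vs
    refine Finset.sum_congr rfl fun g _ => Finset.sum_congr rfl fun i _ => ?_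
    ring
  simp only [e1]
  rw [avg_cells (fun g i z => Real.exp (lam i g * x s'.1.1 i * z))]
  calc ∏ g, ∏ i, bavg n (fun z => Real.exp (lam i g * x s'.1.1 i * z))
      ≤ ∏ g, ∏ i, Real.exp ((lam i g * x s'.1.1 i) ^ 2 / 2) := by
        refine Finset.prod_le_prod (fun g _ => Finset.prod_nonneg fun i _ =>
          (bavg_pos n fun _ => Real.exp_pos _).le) fun g _ => ?_
        exact Finset.prod_le_prod (fun i _ => (bavg_pos n fun _ => Real.exp_pos _).le)
          fun i _ => bavg_exp_le n _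
    _ = Real.exp ((∑ g, ∑ i, (lam i g * x s'.1.1 i) ^ 2) / 2) := by
        simp only [← Real.exp_sum, Finset.sum_div]
    _ ≤ Real.exp (κ / 2) := by
        apply Real.exp_le_exp.2
        have := hκ s'.1.1 s'.1.2
        linarith

/-- GENERAL UPPER BOUND at `t = 0` (arbitrary last-step functions `ρ`). -/
theorem Phi_le (h0 : (Fin N → Bool) → ℝ) {C0 : ℝ} (hh0 : ∀ σ ∈ K, h0 σ ≤ C0)
    (a : Fin p.nc → ℝ) (lam : Fin N → Fin p.nc → ℝ)
    (x : (Fin N → Bool) → Fin N → ℝ) {κ : ℝ}
    (hκ : ∀ σ ∈ K, ∑ g, ∑ i, (lam i g * x σ i) ^ 2 ≤ κ)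
    {ρ : Fin N → ℝ → ℝ} {c0 : ℝ}
    (hlast : ∀ y : Fin N → ℝ, eE (unif {σ : Fin N → Bool // σ ∈ K})
      (fun σ => Real.exp (∑ i, sv (σ.1 i) * y i)) ≤ Real.exp (c0 + ∑ i, ρ i (y i)))
    (d : DD p N) :
    G.Phi (base p n K hK) (HH h0 a lam x) d ≤
      C0 + c0 + ∑ i, cRec n (fun g : Fin p.nc => p.xi g) a (List.finRange p.nc) (ρ i) 0 + κ / 2 +
        (N * (p.nb * (p.Q : ℝ)⁻¹) + p.τ * Fintype.card (Stp p)) := by
  have h1 := (abs_le.1 (G.Phi_F2 (base p n K hK) (HH h0 a lam x) d)).2
  have hs : ∀ s : SS p n K, HH h0 a lam x s ≤ (Hm a s + Vs lam x s) + C0 := by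
    intro s
    rw [HH_split]
    have := hh0 s.1.1 s.1.2
    linarith
  have h2 : G.Phi0 (base p n K hK) (HH h0 a lam x) ≤
      G.Phi0 (base p n K hK) (fun s : SS p n K => (Hm a s + Vs lam x s) + C0) :=
    G.Phi0_mono (base p n K hK) hs
  have h3 := G.Phi0_add_const (base p n K hK) (fun s : SS p n K => Hm a s + Vs lam x s) C0
  have h4 := small_le (n := n) hK a lam x hκ
  have h5 := Phi0_main_le (n := n) hK a hlast
  have h6 : G.Phi0 (base p n K hK) (HH h0 a lam x) ≤
      (c0 + ∑ i, cRec n (fun g : Fin p.nc => p.xi g) a (List.finRange p.nc) (ρ i) 0 + κ / 2) + C0 :=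
    h2.trans (h3.le.trans (add_le_add (h4.trans (add_le_add h5 le_rfl)) le_rfl))
  linarith

end

end Crest.Agent.R164.Z
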