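import Crest.Agent.R164.LDef
import Crest.Agent.R164.UPress
import Crest.Agent.R164.ZSys

/-!
Row 164, L side (helper552), module (GL1): the averaged enriched free energy of the L system is
close to the penalised pressure when the perturbation fields are small.
-/

set_option autoImplicit false
set_option linter.unusedSectionVars false

namespace Crest.Agent.R164.LPert

open Finset MeasureTheory Crest.Agent.R141 Crest.Agent.R141.SysF Crest.Agent.R141.SysIC
  Crest.Agent.R164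
open Crest.Agent.R164.Haar
open Crest.ProbabilityR.InvariantGlass

noncomputable section

variable {p : Par} {N n : ℕ} {A : Finset (Fin N → Bool)}

/-- the field part of `HS` -/
def fs (a lam : Fin N → Fin p.nc → ℝ) (x : (Fin N → Bool) → Fin N → ℝ)
    (c : SY.FC p N n × SY.FC p N n) (σ : Fin N → Bool) : ℝ :=
  (∑ g, ∑ i, a i g * (SY.zf c.1 g i * sv (σ i))) + ∑ g, ∑ i, lam i g * (SY.zf c.2 g i * x σ i)

theorem HS_fs (h0 : (Fin N → Bool) → ℝ) (a lam : Fin N → Fin p.nc → ℝ)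
    (x : (Fin N → Bool) → Fin N → ℝ) (s : SY.SS p n A) :
    SY.HS h0 a lam x s = h0 s.1.1 + fs a lam x s.2 s.1.1 := by
  unfold SY.HS fs
  ring

theorem fs_nf (a lam : Fin N → Fin p.nc → ℝ) (x : (Fin N → Bool) → Fin N → ℝ)
    (c : SY.FC p N n × SY.FC p N n) (σ : Fin N → Bool) :
    fs a lam x (US.nf c.1, US.nf c.2) σ = - fs a lam x c σ := by
  unfold fs
  simp only [US.zf_nf, neg_mul, mul_neg, Finset.sum_neg_distrib]
  ring

/-- logarithm of the uniform average over `A` -/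
def LA (A : Finset (Fin N → Bool)) (h0 : (Fin N → Bool) → ℝ) : ℝ :=
  Real.log ((A.card : ℝ)⁻¹ * ∑ σ ∈ A, Real.exp (h0 σ))

theorem LA_pos (hA : A.Nonempty) (h0 : (Fin N → Bool) → ℝ) :
    0 < (A.card : ℝ)⁻¹ * ∑ σ ∈ A, Real.exp (h0 σ) := by
  have hcA : (0:ℝ) < (A.card : ℝ) := by exact_mod_cast hA.card_pos
  exact mul_pos (inv_pos.2 hcA) (Finset.sum_pos (fun _ _ => Real.exp_pos _) hA)

theorem LA_midpoint (hA : A.Nonempty) (h0 V : (Fin N → Bool) → ℝ) :
    2 * LA A h0 ≤ LA A (fun σ => h0 σ + V σ) + LA A (fun σ => h0 σ - V σ) := by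
  have h1 : (∑ σ ∈ A, Real.exp (h0 σ)) ^ 2 ≤
      (∑ σ ∈ A, Real.exp (h0 σ + V σ)) * ∑ σ ∈ A, Real.exp (h0 σ - V σ) := by
    refine Finset.sum_sq_le_sum_mul_sum_of_sq_le_mul A (fun _ _ => (Real.exp_pos _).le)
      (fun _ _ => (Real.exp_pos _).le) (fun σ _ => le_of_eq ?_)
    rw [← Real.exp_add, pow_two, ← Real.exp_add]
    congr 1; ring
  have hp := LA_pos hA h0
  have hp1 := LA_pos hA (fun σ => h0 σ + V σ)
  have hp2 := LA_pos hA (fun σ => h0 σ - V σ)
  have h2 : ((A.card : ℝ)⁻¹ * ∑ σ ∈ A, Real.exp (h0 σ)) ^ 2 ≤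
      ((A.card : ℝ)⁻¹ * ∑ σ ∈ A, Real.exp (h0 σ + V σ)) *
        ((A.card : ℝ)⁻¹ * ∑ σ ∈ A, Real.exp (h0 σ - V σ)) := by
    have := mul_le_mul_of_nonneg_left h1 (sq_nonneg ((A.card : ℝ)⁻¹))
    nlinarith
  have h3 := Real.log_le_log (by positivity) h2
  rw [Real.log_pow, Real.log_mul hp1.ne' hp2.ne'] at h3
  unfold LA
  push_cast at h3
  exact h3

/-- LOWER BOUND -/
theorem LA_le_Phi (hA : A.Nonempty) (hb : p.nb = 0) (h0 : (Fin N → Bool) → ℝ)
    (a lam : Fin N → Fin p.nc → ℝ) (x : (Fin N → Bool) → Fin N → ℝ) (d : DD p N) :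
    LA A h0 ≤ G.Phi (SY.base p n A hA) (SY.HS h0 a lam x) d := by
  have hP := G.prior_isProb (SY.base p n A hA)
  refine le_trans ?_ (US.Phi_ge hA _ d hb)
  have h1 : ∀ ω : G.Om (SY.base p n A hA), Real.log ((A.card : ℝ)⁻¹ *
      ∑ σ : {σ : Fin N → Bool // σ ∈ A}, Real.exp (SY.HS h0 a lam x (σ, ω.1.2))) =
      LA A (fun σ => h0 σ + fs a lam x ω.1.2 σ) := by
    intro ω
    unfold LA
    congr 2
    rw [← Finset.sum_coe_sort A]
    refine Finset.sum_congr rfl fun σ _ => ?_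
    rw [HS_fs]
  simp only [h1]
  have h2 : ∀ ω : G.Om (SY.base p n A hA), LA A h0 ≤
      1 / 2 * (LA A (fun σ => h0 σ + fs a lam x ω.1.2 σ) +
        LA A (fun σ => h0 σ + fs a lam x (US.nfl hA ω).1.2 σ)) := by
    intro ω
    have h3 := LA_midpoint hA h0 (fs a lam x ω.1.2)
    have e2 : (fun σ => h0 σ + fs a lam x (US.nfl hA ω).1.2 σ) =
        fun σ => h0 σ - fs a lam x ω.1.2 σ := by
      funext σ
      have : fs a lam x (US.nfl hA ω).1.2 σ = - fs a lam x ω.1.2 σ := fs_nf _ _ _ _ σ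
      rw [this]; ring
    rw [e2]
    linarith
  calc LA A h0 = eE (G.prior (SY.base p n A hA)) (fun _ => LA A h0) := (eE_const hP _).symm
    _ ≤ eE (G.prior (SY.base p n A hA)) (fun ω => 1 / 2 *
        (LA A (fun σ => h0 σ + fs a lam x ω.1.2 σ) +
        LA A (fun σ => h0 σ + fs a lam x (US.nfl hA ω).1.2 σ))) := eE_mono hP h2
    _ = _ := by
        rw [eE_smul, eE_add, US.eE_nfl hA (fun ω => LA A (fun σ => h0 σ + fs a lam x ω.1.2 σ))]
        ring

/-- average over the spins, then over the coins -/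
theorem eE_qS (hA : A.Nonempty) (f : SY.SS p n A → ℝ) :
    eE (Z.qS p n A) f = (A.card : ℝ)⁻¹ * ∑ σ : {σ : Fin N → Bool // σ ∈ A},
      eE (unif (SY.FC p N n)) (fun c => eE (unif (SY.FC p N n)) (fun c' => f (σ, c, c'))) := by
  have hcA : (0:ℝ) < (A.card : ℝ) := by exact_mod_cast hA.card_pos
  have hcF : (0:ℝ) < (Fintype.card (SY.FC p N n) : ℝ) := by exact_mod_cast Fintype.card_pos
  unfold eE Z.qS unif
  rw [← Finset.mul_sum, Fintype.sum_prod_type]
  simp only [Fintype.sum_prod_type, ← Finset.mul_sum]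
  rw [Fintype.card_prod, Fintype.card_prod, Fintype.card_coe]
  push_cast
  field_simp

/-- exponential moment of the fields -/
theorem exp_fs (a lam : Fin N → Fin p.nc → ℝ) (x : (Fin N → Bool) → Fin N → ℝ)
    (σ : Fin N → Bool) {κ : ℝ}
    (hκ : ∑ g, ∑ i, ((a i g) ^ 2 + (lam i g * x σ i) ^ 2) ≤ κ) :
    eE (unif (SY.FC p N n)) (fun c => eE (unif (SY.FC p N n)) (fun c' =>
      Real.exp (fs a lam x (c, c') σ))) ≤ Real.exp (κ / 2) := by
  have e1 : ∀ c c' : SY.FC p N n, Real.exp (fs a lam x (c, c') σ) =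
      (∏ g, ∏ i, (fun g i z => Real.exp (a i g * sv (σ i) * z)) g i (SY.zf c g i)) *
      (∏ g, ∏ i, (fun g i z => Real.exp (lam i g * x σ i * z)) g i (SY.zf c' g i)) := by
    intro c c'
    simp only [← Real.exp_sum]
    rw [← Real.exp_add]
    congr 1
    unfold fs
    congr 1
    · refine Finset.sum_congr rfl fun g _ => Finset.sum_congr rfl fun i _ => ?_
      ring
    · refine Finset.sum_congr rfl fun g _ => Finset.sum_congr rfl fun i _ => ?_
      ring
  have e2 : ∀ c : SY.FC p N n, eE (unif (SY.FC p N n)) (fun c' =>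
      Real.exp (fs a lam x (c, c') σ)) =
      (∏ g, ∏ i, CoinG.bavg n (fun z => Real.exp (lam i g * x σ i * z))) *
      (∏ g, ∏ i, (fun g i z => Real.exp (a i g * sv (σ i) * z)) g i (SY.zf c g i)) := by
    intro c
    simp only [e1]
    rw [eE_smul, Z.avg_cells (fun g i z => Real.exp (lam i g * x σ i * z)), mul_comm]
  simp only [e2]
  rw [eE_smul]
  have e3 := Z.avg_cells (p := p) (n := n) (fun g i z => Real.exp (a i g * sv (σ i) * z))
  rw [e3]
  have h1 : ∀ β : Fin p.nc → Fin N → ℝ,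
      ∏ g, ∏ i, CoinG.bavg n (fun z => Real.exp (β g i * z)) ≤
        Real.exp ((∑ g, ∑ i, (β g i) ^ 2) / 2) := by
    intro β
    calc ∏ g, ∏ i, CoinG.bavg n (fun z => Real.exp (β g i * z))
        ≤ ∏ g, ∏ i, Real.exp ((β g i) ^ 2 / 2) := by
          refine Finset.prod_le_prod (fun g _ => Finset.prod_nonneg fun i _ =>
            (CoinG.bavg_pos n fun _ => Real.exp_pos _).le) fun g _ => ?_
          exact Finset.prod_le_prod (fun i _ => (CoinG.bavg_pos n fun _ => Real.exp_pos _).le)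
            fun i _ => CoinG.bavg_exp_le n _
      _ = _ := by simp only [← Real.exp_sum, Finset.sum_div]
  have h2 := h1 (fun g i => lam i g * x σ i)
  have h3 := h1 (fun g i => a i g * sv (σ i))
  have hpos : 0 ≤ ∏ g, ∏ i, CoinG.bavg n (fun z => Real.exp (a i g * sv (σ i) * z)) :=
    Finset.prod_nonneg fun g _ => Finset.prod_nonneg fun i _ =>
      (CoinG.bavg_pos n fun _ => Real.exp_pos _).le
  calc (∏ g, ∏ i, CoinG.bavg n (fun z => Real.exp (lam i g * x σ i * z))) *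
        ∏ g, ∏ i, CoinG.bavg n (fun z => Real.exp (a i g * sv (σ i) * z))
      ≤ Real.exp ((∑ g, ∑ i, (lam i g * x σ i) ^ 2) / 2) *
        Real.exp ((∑ g, ∑ i, (a i g * sv (σ i)) ^ 2) / 2) :=
        mul_le_mul h2 h3 hpos (Real.exp_pos _).le
    _ ≤ Real.exp (κ / 2) := by
        rw [← Real.exp_add]
        refine Real.exp_le_exp.2 ?_
        have e4 : ∀ g i, (a i g * sv (σ i)) ^ 2 = (a i g) ^ 2 := by
          intro g i
          have : sv (σ i) ^ 2 = 1 := by cases σ i <;> simp [sv]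
          rw [mul_pow, this, mul_one]
        simp only [e4]
        simp only [Finset.sum_add_distrib] at hκ
        linarith

/-- UPPER BOUND -/
theorem Phi_le_LA (hA : A.Nonempty) (hb : p.nb = 0) (h0 : (Fin N → Bool) → ℝ)
    (a lam : Fin N → Fin p.nc → ℝ) (x : (Fin N → Bool) → Fin N → ℝ) {κ : ℝ}
    (hκ : ∀ σ ∈ A, ∑ g, ∑ i, ((a i g) ^ 2 + (lam i g * x σ i) ^ 2) ≤ κ) (d : DD p N) :
    G.Phi (SY.base p n A hA) (SY.HS h0 a lam x) d ≤
      LA A h0 + κ / 2 + p.τ * Fintype.card (Stp p) := by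
  have hcA : (0:ℝ) < (A.card : ℝ) := by exact_mod_cast hA.card_pos
  have h1 := (abs_le.1 (G.Phi_F2 (SY.base p n A hA) (SY.HS h0 a lam x) d)).2
  rw [hb] at h1
  have hP := Z.qS_isProb (p := p) (n := n) hA
  have hF0 : (Z.filS p n hA).F 0 = ⊤ := SY.base_SF_zero hA
  have h2 : G.Phi0 (SY.base p n A hA) (SY.HS h0 a lam x) ≤ LA A h0 + κ / 2 := by
    rw [Z.Phi0_eq]
    refine eE_le_of_le hP fun s => ?_
    refine (A_le_log hP p.xs_expo _ 0 s).trans ?_
    rw [hF0, eE_top hP, eE_qS hA]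
    have h3 : ∀ σ : {σ : Fin N → Bool // σ ∈ A},
        eE (unif (SY.FC p N n)) (fun c => eE (unif (SY.FC p N n)) (fun c' =>
          Real.exp (SY.HS h0 a lam x ((σ, c, c') : SY.SS p n A)))) ≤
        Real.exp (h0 σ.1) * Real.exp (κ / 2) := by
      intro σ
      have e1 : ∀ c c' : SY.FC p N n, Real.exp (SY.HS h0 a lam x ((σ, c, c') : SY.SS p n A)) =
          Real.exp (h0 σ.1) * Real.exp (fs a lam x (c, c') σ.1) := by
        intro c c'
        rw [HS_fs, Real.exp_add]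
      simp only [e1, eE_smul]
      exact mul_le_mul_of_nonneg_left (exp_fs a lam x σ.1 (hκ σ.1 σ.2)) (Real.exp_pos _).le
    have h4 : (A.card : ℝ)⁻¹ * ∑ σ : {σ : Fin N → Bool // σ ∈ A},
        eE (unif (SY.FC p N n)) (fun c => eE (unif (SY.FC p N n)) (fun c' =>
          Real.exp (SY.HS h0 a lam x ((σ, c, c') : SY.SS p n A)))) ≤
        ((A.card : ℝ)⁻¹ * ∑ σ ∈ A, Real.exp (h0 σ)) * Real.exp (κ / 2) := by
      rw [mul_assoc]
      refine mul_le_mul_of_nonneg_left ?_ (inv_pos.2 hcA).le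
      rw [Finset.sum_mul, ← Finset.sum_coe_sort A (fun σ => Real.exp (h0 σ) * Real.exp (κ / 2))]
      exact Finset.sum_le_sum fun σ _ => h3 σ
    have h5 : 0 < (A.card : ℝ)⁻¹ * ∑ σ : {σ : Fin N → Bool // σ ∈ A},
        eE (unif (SY.FC p N n)) (fun c => eE (unif (SY.FC p N n)) (fun c' =>
          Real.exp (SY.HS h0 a lam x ((σ, c, c') : SY.SS p n A)))) := by
      rw [← eE_qS hA (fun s => Real.exp (SY.HS h0 a lam x s))]
      have := cE_pos hP (r := ⊤) (f := fun w => Real.exp (SY.HS h0 a lam x w))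
        (fun _ => Real.exp_pos _) s
      rwa [eE_top hP] at this
    refine (Real.log_le_log h5 h4).trans (le_of_eq ?_)
    rw [Real.log_mul (LA_pos hA h0).ne' (Real.exp_pos _).ne', Real.log_exp]
    rfl
  have h6 : (N : ℝ) * (((0 : ℕ) : ℝ) * (p.Q : ℝ)⁻¹) = 0 := by simp
  rw [h6] at h1
  linarith

/-- `LA` and the pressure -/
theorem LA_eq_pressG (hA : A.Nonempty) (hN : 0 < N) (eig : Fin N → ℝ)
    (U : Matrix (Fin N) (Fin N) ℝ) (V : (Fin N → Bool) → ℝ) :
    LA A (SY.h0q eig U 1 V) = (N : ℝ) * Mag.pressG eig U A V -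
      Real.log ((1 / 2) ^ N * (A.card : ℝ)) := by
  have hN' : (0:ℝ) < N := by exact_mod_cast hN
  have hcA : (0:ℝ) < (A.card : ℝ) := by exact_mod_cast hA.card_pos
  have hS : 0 < ∑ σ ∈ A, Real.exp (Mag.qd eig U σ + V σ) :=
    Finset.sum_pos (fun _ _ => Real.exp_pos _) hA
  unfold LA SY.h0q Mag.pressG Mag.ZG
  simp only [one_mul]
  rw [Real.log_mul (inv_pos.2 hcA).ne' hS.ne', Real.log_mul (by positivity) hS.ne',
    Real.log_mul (by positivity) hcA.ne', Real.log_inv]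
  field_simp
  ring

theorem log_univ (N : ℕ) :
    Real.log ((1 / 2) ^ N * ((Finset.univ : Finset (Fin N → Bool)).card : ℝ)) = 0 := by
  rw [Finset.card_univ, Fintype.card_fun, Fintype.card_bool, Fintype.card_fin]
  push_cast
  rw [← mul_pow]
  norm_num

/-! ### The L system -/

variable {K J : ℕ} {val : Fin (K + 1) → ℝ} {c t : Fin J → ℝ} {Kp : ℝ} {θ : LD.Prm p K J}
  {kap : Fin N → Fin (K + 1)} {lab : Fin N → Fin J}

/-- change of the linear fields -/
theorem pressG_VL {El : ℝ} (hN : 0 < N) (hel : ∀ j, |θ.el j| ≤ El) (eig : Fin N → ℝ)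
    (U : Matrix (Fin N) (Fin N) ℝ) :
    |Mag.pressG eig U univ (LD.VL c t Kp θ.el lab) - Mag.pressG eig U univ
      (Mag.PEN c t Kp lab)| ≤ El := by
  have h1 : ∀ σ : Fin N → Bool, |∑ i, θ.el (lab i) * spinVec σ i| ≤ El * N := by
    intro σ
    refine (Finset.abs_sum_le_sum_abs _ _).trans ?_
    calc ∑ i, |θ.el (lab i) * spinVec σ i| ≤ ∑ _i : Fin N, El := by
          refine Finset.sum_le_sum fun i _ => ?_
          rw [abs_mul, abs_spinVec, mul_one]
          exact hel _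
      _ = El * N := by simp [mul_comm]
  have h2 := Mag.pressG_le_add (eig := eig) (U := U) (A := univ) hN Finset.univ_nonempty
    (V := LD.VL c t Kp θ.el lab) (V' := Mag.PEN c t Kp lab) (d := El) (fun σ _ => by
      unfold LD.VL
      have := (abs_le.1 (h1 σ)).2
      linarith)
  have h3 := Mag.pressG_le_add (eig := eig) (U := U) (A := univ) hN Finset.univ_nonempty
    (V := Mag.PEN c t Kp lab) (V' := LD.VL c t Kp θ.el lab) (d := El) (fun σ _ => by
      unfold LD.VL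
      have := (abs_le.1 (h1 σ)).1
      linarith)
  rw [abs_le]
  constructor <;> linarith

/-- **(GL1), for every matrix.** -/
theorem PhU_pert (hb : p.nb = 0) (hN : 0 < N) {El : ℝ} {Am Lm : Fin p.nc → ℝ}
    (hel : ∀ j, |θ.el j| ≤ El) (ham : ∀ j g, |θ.am j g| ≤ Am g)
    (hlm : ∀ k g, |θ.lm k g| ≤ Lm g) {U : Mat (Fin N)}
    (hU : Matrix.of U ∈ Matrix.orthogonalGroup (Fin N) ℝ) :
    |LD.PhU n val c t Kp θ kap lab U - (N : ℝ) * Mag.pressG (fun i => val (kap i)) (Matrix.of U)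
      univ (Mag.PEN c t Kp lab)| ≤
      N * (El + 1 / 2 * ∑ g, (Am g) ^ 2 + 1 / 2 * ∑ g, (Lm g) ^ 2) +
        p.τ * Fintype.card (Stp p) := by
  have hN' : (0:ℝ) < N := by exact_mod_cast hN
  set X := (N : ℝ) * Mag.pressG (fun i => val (kap i)) (Matrix.of U) univ (Mag.PEN c t Kp lab)
    with hX
  set κ : ℝ := N * (∑ g, (Am g) ^ 2 + ∑ g, (Lm g) ^ 2) with hκd
  have hτ : 0 ≤ p.τ * Fintype.card (Stp p) := mul_nonneg p.hτ0.le (Nat.cast_nonneg _)
  have hκ0 : 0 ≤ κ := by positivity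
  have hκ : ∀ σ ∈ (univ : Finset (Fin N → Bool)), ∑ g, ∑ i, ((θ.am (lab i) g) ^ 2 +
      (θ.lm (kap i) g * SY.xU (Matrix.of U) σ i) ^ 2) ≤ κ := by
    intro σ _
    have hx : ∑ i, (SY.xU (Matrix.of U) σ i) ^ 2 = N := by
      unfold SY.xU
      rw [sq_sum_mulVec hU, Mag.spin_sq_sum]
    have h1 : ∀ g, ∑ i, ((θ.am (lab i) g) ^ 2 + (θ.lm (kap i) g *
        SY.xU (Matrix.of U) σ i) ^ 2) ≤ N * (Am g) ^ 2 + N * (Lm g) ^ 2 := by
      intro g
      rw [Finset.sum_add_distrib]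
      refine add_le_add ?_ ?_
      · calc ∑ i, (θ.am (lab i) g) ^ 2 ≤ ∑ _i : Fin N, (Am g) ^ 2 :=
              Finset.sum_le_sum fun i _ => sq_le_sq' (by
                have := (abs_le.1 (ham (lab i) g)).1; linarith) (abs_le.1 (ham (lab i) g)).2
          _ = N * (Am g) ^ 2 := by simp
      · calc ∑ i, (θ.lm (kap i) g * SY.xU (Matrix.of U) σ i) ^ 2 ≤
            ∑ i, (Lm g) ^ 2 * (SY.xU (Matrix.of U) σ i) ^ 2 := by
              refine Finset.sum_le_sum fun i _ => ?_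
              rw [mul_pow]
              refine mul_le_mul_of_nonneg_right ?_ (sq_nonneg _)
              exact sq_le_sq' (by
                have := (abs_le.1 (hlm (kap i) g)).1; linarith) (abs_le.1 (hlm (kap i) g)).2
          _ = N * (Lm g) ^ 2 := by rw [← Finset.mul_sum, hx, mul_comm]
    refine (Finset.sum_le_sum fun g _ => h1 g).trans (le_of_eq ?_)
    rw [Finset.sum_add_distrib, ← Finset.mul_sum, ← Finset.mul_sum, hκd]
    ring
  have hV := pressG_VL (c := c) (t := t) (Kp := Kp) (θ := θ) (lab := lab) hN hel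
    (fun i => val (kap i)) (Matrix.of U)
  have hV' : |(N : ℝ) * Mag.pressG (fun i => val (kap i)) (Matrix.of U) univ
      (LD.VL c t Kp θ.el lab) - X| ≤ N * El := by
    rw [hX, ← mul_sub, abs_mul, abs_of_pos hN']
    exact mul_le_mul_of_nonneg_left hV hN'.le
  have h1 : ∀ d : DD p N, |G.Phi (LD.B p N n) (LD.HL n val c t Kp θ kap lab U) d - X| ≤
      N * El + κ / 2 + p.τ * Fintype.card (Stp p) := by
    intro d
    have hlo := LA_le_Phi (p := p) (n := n) (LD.univ_ne N) hb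
      (SY.h0q (fun i => val (kap i)) (Matrix.of U) 1 (LD.VL c t Kp θ.el lab))
      (fun i g => θ.am (lab i) g) (fun i g => θ.lm (kap i) g) (SY.xU (Matrix.of U)) d
    have hup := Phi_le_LA (p := p) (n := n) (LD.univ_ne N) hb
      (SY.h0q (fun i => val (kap i)) (Matrix.of U) 1 (LD.VL c t Kp θ.el lab))
      (fun i g => θ.am (lab i) g) (fun i g => θ.lm (kap i) g) (SY.xU (Matrix.of U)) hκ d
    rw [LA_eq_pressG (LD.univ_ne N) hN, log_univ, sub_zero] at hlo hup
    have h2 := abs_le.1 hV'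
    show |G.Phi (SY.base p n univ (LD.univ_ne N)) (SY.HS (SY.h0q (fun i => val (kap i))
      (Matrix.of U) 1 (LD.VL c t Kp θ.el lab)) (fun i g => θ.am (lab i) g)
      (fun i g => θ.lm (kap i) g) (SY.xU (Matrix.of U))) d - X| ≤ _
    rw [abs_le]
    constructor <;> linarith [h2.1, h2.2]
  have h3 : LD.PhU n val c t Kp θ kap lab U - X =
      ∑ d, dw p N d * (G.Phi (LD.B p N n) (LD.HL n val c t Kp θ kap lab U) d - X) := by
    simp only [mul_sub, Finset.sum_sub_distrib, ← Finset.sum_mul]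
    rw [dw_sum p hN, one_mul]
    rfl
  rw [h3]
  refine (Finset.abs_sum_le_sum_abs _ _).trans ?_
  calc ∑ d, |dw p N d * (G.Phi (LD.B p N n) (LD.HL n val c t Kp θ kap lab U) d - X)|
      ≤ ∑ d, dw p N d * (N * El + κ / 2 + p.τ * Fintype.card (Stp p)) := by
        refine Finset.sum_le_sum fun d _ => ?_
        rw [abs_mul, abs_of_nonneg (dw_nonneg p N d)]
        exact mul_le_mul_of_nonneg_left (h1 d) (dw_nonneg p N d)
    _ = N * El + κ / 2 + p.τ * Fintype.card (Stp p) := by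
        rw [← Finset.sum_mul, dw_sum p hN, one_mul]
    _ = _ := by rw [hκd]; ring

theorem continuous_HL (s : SY.SS p n (univ : Finset (Fin N → Bool))) :
    Continuous fun U : Mat (Fin N) => LD.HL n val c t Kp θ kap lab U s := by
  unfold LD.HL SY.HS SY.h0q SY.xU Mag.qd
  simp only [Matrix.mulVec, dotProduct, Matrix.of_apply]
  fun_prop

section measure

variable {mu : Measure (Mat (Fin N))} [IsProbabilityMeasure mu]
variable (hmu : ∀ᵐ U ∂mu, Matrix.of U ∈ Matrix.orthogonalGroup (Fin N) ℝ)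

include hmu

theorem ae_bound_HL : ∃ C, 0 ≤ C ∧ ∀ᵐ U ∂mu, ∀ s : SY.SS p n (univ : Finset (Fin N → Bool)),
    |LD.HL n val c t Kp θ kap lab U s| ≤ C := by
  obtain ⟨C, hC0, hC⟩ := Rot.exists_bound
    (fun (U : Fin N → Fin N → ℝ) (s : SY.SS p n (univ : Finset (Fin N → Bool))) =>
      LD.HL n val c t Kp θ kap lab U s) (fun s => continuous_HL s)
  refine ⟨C, hC0, ?_⟩
  filter_upwards [hmu] with U hU s
  exact hC U hU s

theorem integrable_Phi (d : DD p N) : Integrable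
    (fun U : Mat (Fin N) => G.Phi (LD.B p N n) (LD.HL n val c t Kp θ kap lab U) d) mu := by
  obtain ⟨C, _, hC⟩ := ae_bound_HL (n := n) (p := p) (val := val) (c := c) (t := t) (Kp := Kp)
    (θ := θ) (kap := kap) (lab := lab) hmu
  exact US.integrable_Phi (LD.B p N n) mu
    (H := fun U : Mat (Fin N) => LD.HL n val c t Kp θ kap lab U)
    (fun s => (continuous_HL s).measurable) hC d

theorem integrable_PhU :
    Integrable (fun U : Mat (Fin N) => LD.PhU n val c t Kp θ kap lab U) mu := by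
  unfold LD.PhU G.EPhi Ed
  exact integrable_finsetSum _ fun d _ => (integrable_Phi hmu d).const_mul _

/-- **(GL1)** -/
theorem EPh_pert (hb : p.nb = 0) (hN : 0 < N) {El : ℝ} {Am Lm : Fin p.nc → ℝ}
    (hel : ∀ j, |θ.el j| ≤ El) (ham : ∀ j g, |θ.am j g| ≤ Am g)
    (hlm : ∀ k g, |θ.lm k g| ≤ Lm g) :
    |LD.EPh mu n val c t Kp θ kap lab - ∫ U, (N : ℝ) * Mag.pressG (fun i => val (kap i))
      (Matrix.of U) univ (Mag.PEN c t Kp lab) ∂mu| ≤
      N * (El + 1 / 2 * ∑ g, (Am g) ^ 2 + 1 / 2 * ∑ g, (Lm g) ^ 2) +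
        p.τ * Fintype.card (Stp p) := by
  have h1 : Integrable (fun U : Mat (Fin N) => LD.PhU n val c t Kp θ kap lab U) mu :=
    integrable_PhU hmu
  have h2 : Integrable (fun U : Mat (Fin N) => (N : ℝ) * Mag.pressG (fun i => val (kap i))
      (Matrix.of U) univ (Mag.PEN c t Kp lab)) mu :=
    (Mag.integrable_pressG mu _ (W := fun U => U) measurable_id hmu Finset.univ_nonempty _).const_mul _
  unfold LD.EPh
  rw [← integral_sub h1 h2]
  have h3 := norm_integral_le_of_norm_le_const (μ := mu)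
    (f := fun U : Mat (Fin N) => LD.PhU n val c t Kp θ kap lab U -
      (N : ℝ) * Mag.pressG (fun i => val (kap i)) (Matrix.of U) univ (Mag.PEN c t Kp lab))
    (C := N * (El + 1 / 2 * ∑ g, (Am g) ^ 2 + 1 / 2 * ∑ g, (Lm g) ^ 2) +
        p.τ * Fintype.card (Stp p)) (by
      filter_upwards [hmu] with U hU
      rw [Real.norm_eq_abs]
      exact PhU_pert hb hN hel ham hlm hU)
  rwa [Real.norm_eq_abs, probReal_univ, mul_one] at h3

/-- **(GL1)**, form for large `N`, with the pressure outside -/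
theorem EPh_pert_le (hb : p.nb = 0) (hN : 0 < N) {El : ℝ} {Am Lm : Fin p.nc → ℝ}
    (hel : ∀ j, |θ.el j| ≤ El) (ham : ∀ j g, |θ.am j g| ≤ Am g)
    (hlm : ∀ k g, |θ.lm k g| ≤ Lm g) {e1 : ℝ}
    (hs : El + 1 / 2 * ∑ g, (Am g) ^ 2 + 1 / 2 * ∑ g, (Lm g) ^ 2 ≤ e1 / 2)
    (hNa : p.τ * Fintype.card (Stp p) ≤ e1 / 2 * N) :
    |LD.EPh mu n val c t Kp θ kap lab - N * ∫ U, Mag.pressG (fun i => val (kap i))
      (Matrix.of U) univ (Mag.PEN c t Kp lab) ∂mu| ≤ e1 * N := by
  have h := EPh_pert (n := n) (c := c) (t := t) (Kp := Kp) (kap := kap) (lab := lab) (val := val)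
    hmu hb hN hel ham hlm
  rw [integral_const_mul] at h
  have h1 := mul_le_mul_of_nonneg_left hs (Nat.cast_nonneg (α := ℝ) N)
  linarith

end measure

/-- the constant of the a priori bound of the penalised pressure -/
def CgP (val : Fin (K + 1) → ℝ) (c : Fin J → ℝ) (Km : ℝ) : ℝ :=
  (∑ k, |val k|) / 2 + (∑ j, |c j| + 4 * Km) + Real.log 2

theorem abs_pressG_PEN (ht : ∀ j, |t j| ≤ 1) (hK0 : 0 ≤ Kp) {Km : ℝ} (hKm : Kp ≤ Km)
    {U : Mat (Fin N)} (hU : Matrix.of U ∈ Matrix.orthogonalGroup (Fin N) ℝ) :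
    |Mag.pressG (fun i => val (kap i)) (Matrix.of U) univ (Mag.PEN c t Kp lab)| ≤
      CgP val c Km := by
  have h1 : ∀ i, |val (kap i)| ≤ ∑ k, |val k| := fun i =>
    Finset.single_le_sum (f := fun k => |val k|) (fun _ _ => abs_nonneg _) (Finset.mem_univ _)
  have hc0 : 0 ≤ ∑ j, |c j| := Finset.sum_nonneg fun _ _ => abs_nonneg _
  have h2 := Mag.abs_pressG_le (eig := fun i => val (kap i)) h1
    (Finset.sum_nonneg fun _ _ => abs_nonneg _) hU (A := univ) Finset.univ_nonempty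
    (V := Mag.PEN c t Kp lab) (C := ∑ j, |c j| + 4 * Kp) (by positivity)
    (fun σ _ => Mag.abs_PEN_le c ht hK0 lab σ)
  unfold CgP
  linarith

theorem abs_int_pressG_PEN {mu : Measure (Mat (Fin N))} [IsProbabilityMeasure mu]
    (hmu : ∀ᵐ U ∂mu, Matrix.of U ∈ Matrix.orthogonalGroup (Fin N) ℝ)
    (ht : ∀ j, |t j| ≤ 1) (hK0 : 0 ≤ Kp) {Km : ℝ} (hKm : Kp ≤ Km) :
    |∫ U, Mag.pressG (fun i => val (kap i)) (Matrix.of U) univ (Mag.PEN c t Kp lab) ∂mu| ≤
      CgP val c Km := by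
  have h3 := norm_integral_le_of_norm_le_const (μ := mu)
    (f := fun U : Mat (Fin N) => Mag.pressG (fun i => val (kap i)) (Matrix.of U) univ
      (Mag.PEN c t Kp lab)) (C := CgP val c Km) (by
      filter_upwards [hmu] with U hU
      rw [Real.norm_eq_abs]
      exact abs_pressG_PEN ht hK0 hKm hU)
  rwa [Real.norm_eq_abs, probReal_univ, mul_one] at h3

end

end Crest.Agent.R164.LPert
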