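import Crest.Agent.R164.EDq4
import Crest.Agent.R164.EDt
import Crest.Agent.R164.EDj
import Crest.Agent.R164.LPert

/-!
# Row 164, L side, module E-DIFF part q5 (helper562): difference quotients of the ideal functional
-/

set_option autoImplicit false

namespace Crest.Agent.R164.ED

open MeasureTheory ProbabilityTheory Filter
open Finset Crest.Agent.R141 Crest.Agent.R164 Crest.Agent.R164.PF Crest.Agent.R164.Haar
open Crest.ProbabilityR.InvariantGlass

noncomputable section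

variable {p : Par} {N n : ℕ}
variable {eig : Fin (N + 1) → ℝ} {W0 : (Fin N → Bool) → ℝ} {W1 : (Fin (N + 1) → Bool) → ℝ}
  {a lam : Fin (N + 1) → Fin p.nc → ℝ} {Λ m1 S Cφ : ℝ}

theorem yb_update (b : Fin p.nc → ℝ) (g : Fin p.nc) (s : ℝ) (l : LS p n) :
    yb (Function.update b g (b g + s)) l = yb b l + s * zl l.1 g := by
  unfold yb
  have e : ∀ c, Function.update b g (b g + s) c * zl l.1 c =
      b c * zl l.1 c + (if c = g then s * zl l.1 g else 0) := by
    intro c
    by_cases h : c = g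
    · subst h
      rw [Function.update_self, if_pos rfl]; ring
    · rw [Function.update_of_ne h, if_neg h, add_zero]
  simp only [e, Finset.sum_add_distrib, Finset.sum_ite_eq', Finset.mem_univ, if_true]

theorem WX_update (b : Fin p.nc → ℝ) (g : Fin p.nc) (s bb : ℝ)
    (v : (Fin N → Bool) → Bool → ℝ) (V : Mat (Fin N)) (G : Fin (N + 1) → ℝ) :
    WX (n := n) eig m1 (Function.update b g (b g + s)) bb v V G =
      sh (WX (n := n) eig m1 b bb v V G) (fun w => zl w.2.1 g) s := by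
  funext u
  unfold sh WX wx
  rw [yb_update]
  ring

theorem WX_bb (b : Fin p.nc → ℝ) (s bb : ℝ) (v : (Fin N → Bool) → Bool → ℝ) (V : Mat (Fin N))
    (G : Fin (N + 1) → ℝ) :
    WX (n := n) eig m1 b (bb + s) v V G = sh (WX (n := n) eig m1 b bb v V G) (fun _ => 1) s := by
  funext u
  unfold sh WX wx
  ring

/-- difference quotient of the ideal functional -/
theorem quot_main {μ : Measure (Mat (Fin N))} [IsProbabilityMeasure μ] (hN : 0 < N) {K : ℝ}
    (hK : 0 ≤ K) {b b' : Fin p.nc → ℝ} {bb bb' : ℝ} {h : OU p N n × LS p n → ℝ} {s : ℝ}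
    (hs : |s| ≤ 1)
    (hW : ∀ q : Mat (Fin N) × (Fin (N + 1) → ℝ), WX (n := n) eig m1 b' bb' (fun _ _ => 0) q.1 q.2 =
      sh (WX (n := n) eig m1 b bb (fun _ _ => 0) q.1 q.2) h s)
    {M : ℝ} (hM1 : 1 ≤ M)
    (hM : ∀ (q : Mat (Fin N) × (Fin (N + 1) → ℝ)) (d : DD p N) (s' : ℝ), |s'| ≤ 1 →
      eE (tl (stP p N n (HN eig W0 a lam q.1) d) (stF p N n) p.xs (fun w => psi K
        (redB (sh (WX eig m1 b bb (fun _ _ => 0) q.1 q.2) h s') w))) (fun w => h w ^ 2) ≤ M) :
    |cavF μ n (HN eig W0 a lam) eig m1 b' bb' 0 K - cavF μ n (HN eig W0 a lam) eig m1 b bb 0 K -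
      s * ∫ q, stT n eig W0 a lam m1 b bb K h q ∂(rho μ)| ≤ 6 * M * (|s| * Real.sqrt |s|) := by
  have hbT : ∀ q, |stT n eig W0 a lam m1 b bb K h q| ≤ Real.sqrt M := by
    intro q
    refine abs_Ed_le hN fun d => abs_eE_mul_le (tl_isProb (stP_isProb _ d) p.xs_expo.pos _)
        (fun w => abs_dpsi_mB_le hK _ w) ?_
    have h1 := hM q d 0 (by norm_num)
    rwa [sh_zero] at h1
  have iT : Integrable (stT n eig W0 a lam m1 b bb K h) (rho μ) :=
    Integrable.of_bound (measurable_stT _ _ _ h).aestronglyMeasurable (Real.sqrt M)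
      (Eventually.of_forall fun q => by rw [Real.norm_eq_abs]; exact hbT q)
  have i1 := integrable_stC (n := n) (eig := eig) (W0 := W0) (a := a) (lam := lam) (m1 := m1)
    hN (μ := μ) hK b' bb'
  have i2 := integrable_stC (n := n) (eig := eig) (W0 := W0) (a := a) (lam := lam) (m1 := m1)
    hN (μ := μ) hK b bb
  have i12 : Integrable (fun q => stC n eig W0 a lam m1 b' bb' K q -
    stC n eig W0 a lam m1 b bb K q) (rho μ) := i1.sub i2
  rw [cavF_eq, cavF_eq, ← integral_sub i1 i2, ← integral_const_mul,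
    ← integral_sub i12 (iT.const_mul s), ← Real.norm_eq_abs]
  have hb : ∀ q, ‖stC n eig W0 a lam m1 b' bb' K q - stC n eig W0 a lam m1 b bb K q -
      s * stT n eig W0 a lam m1 b bb K h q‖ ≤ 6 * M * (|s| * Real.sqrt |s|) := by
    intro q
    rw [Real.norm_eq_abs]
    have e : stC n eig W0 a lam m1 b' bb' K q - stC n eig W0 a lam m1 b bb K q -
      s * stT n eig W0 a lam m1 b bb K h q = Ed p N (fun d =>
        aE (stP p N n (HN eig W0 a lam q.1) d) (stF p N n) p.xs
          (fun w => psi K (redB (sh (WX eig m1 b bb (fun _ _ => 0) q.1 q.2) h s) w)) -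
        aE (stP p N n (HN eig W0 a lam q.1) d) (stF p N n) p.xs
          (fun w => psi K (redB (WX eig m1 b bb (fun _ _ => 0) q.1 q.2) w)) -
        s * eE (tl (stP p N n (HN eig W0 a lam q.1) d) (stF p N n) p.xs (fun w => psi K
          (redB (WX eig m1 b bb (fun _ _ => 0) q.1 q.2) w)))
          (fun w => dpsi K (redB (WX eig m1 b bb (fun _ _ => 0) q.1 q.2) w) *
            mB (WX eig m1 b bb (fun _ _ => 0) q.1 q.2) w * h w)) := by
      unfold stC stT Ed
      rw [hW q, Finset.mul_sum, ← Finset.sum_sub_distrib, ← Finset.sum_sub_distrib]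
      exact Finset.sum_congr rfl fun d _ => by ring
    rw [e]
    refine abs_Ed_le hN fun d => ?_
    exact aE_sh_expand (stP_isProb _ d) p.xs_expo hK _ h hM1 hs (fun s' hs' => hM q d s' hs')
  have h3 := norm_integral_le_of_norm_le_const (μ := rho μ) (Eventually.of_forall hb)
  simpa using h3

/-- the bound of the second moments of the labels -/
def MM (A : ℝ) : ℝ := 32 * (1 + (|A| + 1) ^ 2)

theorem one_le_MM (A : ℝ) : 1 ≤ MM A := by
  unfold MM
  nlinarith [sq_nonneg (|A| + 1)]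

theorem abs_le_of_sum_sq {b : Fin p.nc → ℝ} {A : ℝ} (hb : ∑ g, b g ^ 2 ≤ A ^ 2) (g : Fin p.nc) :
    |b g| ≤ |A| := by
  have h1 : b g ^ 2 ≤ A ^ 2 :=
    (Finset.single_le_sum (f := fun g => b g ^ 2) (fun i _ => sq_nonneg _)
      (Finset.mem_univ g)).trans hb
  exact sq_le_sq.1 h1

theorem MM_bound {x A : ℝ} (hx : |x| ≤ |A| + 1) : 32 * (1 + x ^ 2) ≤ MM A := by
  unfold MM
  have : x ^ 2 ≤ (|A| + 1) ^ 2 := by
    rw [← sq_abs x]
    exact pow_le_pow_left₀ (abs_nonneg _) hx 2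
  linarith

/-- **(O2) up to constants** -/
theorem O2_core {μ : Measure (Mat (Fin N))} {ν : Measure (Mat (Fin (N + 1)))}
    [IsProbabilityMeasure μ] [IsProbabilityMeasure ν] (hnb : p.nb = 0) (hN : 0 < N)
    (hμ : RHaar μ) (hν : RHaar ν) {K A bb e1 : ℝ} (hK : 0 ≤ K)
    (hA : ∑ g, a (Fin.last N) g ^ 2 ≤ A ^ 2) (g : Fin p.nc)
    (hmag : |∫ q, stM n eig W0 W1 a lam (fun w => zl w.2.1 g) q ∂(rho μ) -
      ∫ q, stT n eig W0 a lam m1 (a (Fin.last N)) bb K (fun w => zl w.2.1 g) q ∂(rho μ)| ≤ e1)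
    (s : ℝ) (hs : |s| ≤ 1) :
    |cavF μ n (HN eig W0 a lam) eig m1
        (Function.update (a (Fin.last N)) g (a (Fin.last N) g + s)) bb 0 K -
      cavF μ n (HN eig W0 a lam) eig m1 (a (Fin.last N)) bb 0 K -
      s * GX.EE (p := p) (n := n) (univ_nonempty (α := Fin (N + 1) → Bool)) ν eig 1 W1 a lam
        (fun _ _ w => SY.zf w.1.2.1 g (Fin.last N) * sv (w.1.1.1 (Fin.last N)))| ≤
      6 * MM A * (|s| * Real.sqrt |s|) + |s| * (e1 +
        p.nc * p.T * (Real.sqrt (cT p) * (1 + |A|)) / ((N : ℝ) + 1)) := by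
  have hg := abs_le_of_sum_sq hA g
  have h1 := quot_main (W0 := W0) (a := a) (lam := lam) (μ := μ) hN hK (b := a (Fin.last N))
    (b' := Function.update (a (Fin.last N)) g (a (Fin.last N) g + s)) (bb := bb) (bb' := bb)
    (h := fun w : OU p N n × LS p n => zl w.2.1 g) hs
    (fun q => WX_update _ g s bb _ q.1 q.2) (one_le_MM A) (fun q d s' hs' => by
      rw [← WX_update]
      refine (sm1 hK eig m1 _ bb _ q.1 q.2 (HN eig W0 a lam q.1) d g).trans ?_
      rw [Function.update_self]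
      exact MM_bound ((abs_add_le _ _).trans (add_le_add hg hs')))
  have h2 := tt3_z (n := n) eig W0 W1 a lam hnb hN hμ hν g
  have h2' : |GX.EE (p := p) (n := n) (univ_nonempty (α := Fin (N + 1) → Bool)) ν eig 1 W1 a lam
        (fun _ _ w => SY.zf w.1.2.1 g (Fin.last N) * sv (w.1.1.1 (Fin.last N))) -
      ∫ q, stM n eig W0 W1 a lam (fun w => zl w.2.1 g) q ∂(rho μ)| ≤
      p.nc * p.T * (Real.sqrt (cT p) * (1 + |A|)) / ((N : ℝ) + 1) := by
    refine h2.trans ?_
    gcongr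
  set X := cavF μ n (HN eig W0 a lam) eig m1
        (Function.update (a (Fin.last N)) g (a (Fin.last N) g + s)) bb 0 K -
      cavF μ n (HN eig W0 a lam) eig m1 (a (Fin.last N)) bb 0 K
  set E := GX.EE (p := p) (n := n) (univ_nonempty (α := Fin (N + 1) → Bool)) ν eig 1 W1 a lam
        (fun _ _ w => SY.zf w.1.2.1 g (Fin.last N) * sv (w.1.1.1 (Fin.last N)))
  set IM := ∫ q, stM n eig W0 W1 a lam (fun w => zl w.2.1 g) q ∂(rho μ)
  set IT := ∫ q, stT n eig W0 a lam m1 (a (Fin.last N)) bb K (fun w => zl w.2.1 g) q ∂(rho μ)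
  have e9 : X - s * E = (X - s * IT) + s * (-(E - IM) - (IM - IT)) := by ring
  rw [e9]
  refine (abs_add_le _ _).trans (add_le_add h1 ?_)
  rw [abs_mul]
  refine mul_le_mul_of_nonneg_left ?_ (abs_nonneg _)
  refine (abs_sub _ _).trans ?_
  rw [abs_neg]
  linarith

/-- **(O3) up to constants** -/
theorem O3_core {μ : Measure (Mat (Fin N))} {ν : Measure (Mat (Fin (N + 1)))}
    [IsProbabilityMeasure μ] [IsProbabilityMeasure ν] (hnb : p.nb = 0) (hN : 0 < N)
    (hμ : RHaar μ) (hν : RHaar ν) {K A bb e1 : ℝ} (hK : 0 ≤ K)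
    (hmag : |∫ q, stM n eig W0 W1 a lam (fun _ => 1) q ∂(rho μ) -
      ∫ q, stT n eig W0 a lam m1 (a (Fin.last N)) bb K (fun _ => 1) q ∂(rho μ)| ≤ e1)
    (s : ℝ) (hs : |s| ≤ 1) :
    |cavF μ n (HN eig W0 a lam) eig m1 (a (Fin.last N)) (bb + s) 0 K -
      cavF μ n (HN eig W0 a lam) eig m1 (a (Fin.last N)) bb 0 K -
      s * GX.EE (p := p) (n := n) (univ_nonempty (α := Fin (N + 1) → Bool)) ν eig 1 W1 a lam
        (fun _ _ w => sv (w.1.1.1 (Fin.last N)))| ≤
      6 * MM A * (|s| * Real.sqrt |s|) + |s| * (e1 + p.nc * p.T / ((N : ℝ) + 1)) := by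
  have h1 := quot_main (W0 := W0) (a := a) (lam := lam) (μ := μ) hN hK (b := a (Fin.last N))
    (b' := a (Fin.last N)) (bb := bb) (bb' := bb + s)
    (h := fun _ : OU p N n × LS p n => 1) hs
    (fun q => WX_bb _ s bb _ q.1 q.2) (one_le_MM A) (fun q d s' hs' => by
      have hP := tl_isProb (𝓕 := stF p N n) (stP_isProb (HN eig W0 a lam q.1) d) p.xs_expo.pos
        (fun w => psi K (redB (sh (WX eig m1 (a (Fin.last N)) bb (fun _ _ => 0) q.1 q.2)
          (fun _ : OU p N n × LS p n => 1) s') w))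
      have := eE_const hP ((1:ℝ) ^ 2)
      rw [this]
      simpa using one_le_MM A)
  have h2 := tt3_one (n := n) eig W0 W1 a lam hnb hN hμ hν
  have h2' : |GX.EE (p := p) (n := n) (univ_nonempty (α := Fin (N + 1) → Bool)) ν eig 1 W1 a lam
        (fun _ _ w => sv (w.1.1.1 (Fin.last N))) -
      ∫ q, stM n eig W0 W1 a lam (fun _ => 1) q ∂(rho μ)| ≤ p.nc * p.T / ((N : ℝ) + 1) := h2
  set X := cavF μ n (HN eig W0 a lam) eig m1 (a (Fin.last N)) (bb + s) 0 K -
      cavF μ n (HN eig W0 a lam) eig m1 (a (Fin.last N)) bb 0 K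
  set E := GX.EE (p := p) (n := n) (univ_nonempty (α := Fin (N + 1) → Bool)) ν eig 1 W1 a lam
        (fun _ _ w => sv (w.1.1.1 (Fin.last N)))
  set IM := ∫ q, stM n eig W0 W1 a lam (fun _ => 1) q ∂(rho μ)
  set IT := ∫ q, stT n eig W0 a lam m1 (a (Fin.last N)) bb K (fun _ => 1) q ∂(rho μ)
  have e9 : X - s * E = (X - s * IT) + s * (-(E - IM) - (IM - IT)) := by ring
  rw [e9]
  refine (abs_add_le _ _).trans (add_le_add h1 ?_)
  rw [abs_mul]
  refine mul_le_mul_of_nonneg_left ?_ (abs_nonneg _)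
  refine (abs_sub _ _).trans ?_
  rw [abs_neg]
  linarith

end

end Crest.Agent.R164.ED
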