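import Crest.Agent.R164.EDq5

/-!
# Row 164, L side, module E-DIFF part q6 (helper562): the three outputs with explicit errors
-/

set_option autoImplicit false

namespace Crest.Agent.R164.ED

open MeasureTheory ProbabilityTheory Filter
open Finset Crest.Agent.R141 Crest.Agent.R164 Crest.Agent.R164.PF Crest.Agent.R164.Haar
open Crest.ProbabilityR.InvariantGlass

noncomputable section

/-! ### crude bound of the free energy -/

theorem abs_LA_le {M : ℕ} {A : Finset (Fin M → Bool)} (hA : A.Nonempty)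
    {h0 : (Fin M → Bool) → ℝ} {c : ℝ} (h : ∀ σ, |h0 σ| ≤ c) : |LPert.LA A h0| ≤ c := by
  have hcA : (0:ℝ) < (A.card : ℝ) := by exact_mod_cast hA.card_pos
  have hpos := LPert.LA_pos hA h0
  have h1 : (A.card : ℝ)⁻¹ * ∑ σ ∈ A, Real.exp (h0 σ) ≤ Real.exp c := by
    have : ∑ σ ∈ A, Real.exp (h0 σ) ≤ ∑ _σ ∈ A, Real.exp c :=
      Finset.sum_le_sum fun σ _ => Real.exp_le_exp.2 (abs_le.1 (h σ)).2
    rw [Finset.sum_const, nsmul_eq_mul] at this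
    rw [inv_mul_le_iff₀ hcA]
    exact this
  have h2 : Real.exp (-c) ≤ (A.card : ℝ)⁻¹ * ∑ σ ∈ A, Real.exp (h0 σ) := by
    have : ∑ _σ ∈ A, Real.exp (-c) ≤ ∑ σ ∈ A, Real.exp (h0 σ) :=
      Finset.sum_le_sum fun σ _ => Real.exp_le_exp.2 (abs_le.1 (h σ)).1
    rw [Finset.sum_const, nsmul_eq_mul] at this
    rw [le_inv_mul_iff₀ hcA]
    exact this
  unfold LPert.LA
  rw [abs_le]
  constructor
  · rw [← Real.log_exp (-c)]
    exact Real.log_le_log (Real.exp_pos _) h2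
  · rw [← Real.log_exp c]
    exact Real.log_le_log hpos h1

/-- **(M1')** -/
theorem abs_Phi_le2 {p : Par} {M n : ℕ} (hnb : p.nb = 0) {eig : Fin M → ℝ} {W : (Fin M → Bool) → ℝ}
    {a lam : Fin M → Fin p.nc → ℝ} {Λ BV A S : ℝ} (he : ∀ i, |eig i| ≤ Λ)
    (hW : ∀ σ, |W σ| ≤ BV * M) (ha : ∀ i, ∑ g, a i g ^ 2 ≤ A ^ 2) (hl : ∀ i, ∑ g, lam i g ^ 2 ≤ S)
    {U : Mat (Fin M)} (hU : Matrix.of U ∈ Matrix.orthogonalGroup (Fin M) ℝ) (d : DD p M) :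
    |G.Phi (BU p M n) (GX.Hs eig 1 W a lam U) d| ≤ (Λ / 2 + BV + (A ^ 2 + S) / 2) * M + cP p := by
  have hb : ∀ σ, |SY.h0q eig (Matrix.of U) 1 W σ| ≤ (Λ / 2 + BV) * M :=
    abs_h0q_le he (by norm_num) hW hU
  have h1 := LPert.LA_le_Phi (p := p) (n := n) (A := univ) univ_nonempty hnb
    (SY.h0q eig (Matrix.of U) 1 W) a lam (SY.xU (Matrix.of U)) d
  have hκ : ∀ σ ∈ (univ : Finset (Fin M → Bool)), ∑ g, ∑ i, ((a i g) ^ 2 +
      (lam i g * SY.xU (Matrix.of U) σ i) ^ 2) ≤ (A ^ 2 + S) * M := by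
    intro σ _
    rw [Finset.sum_comm]
    have h2 : ∀ i : Fin M, ∑ g, ((a i g) ^ 2 + (lam i g * SY.xU (Matrix.of U) σ i) ^ 2) ≤
        A ^ 2 + S * SY.xU (Matrix.of U) σ i ^ 2 := by
      intro i
      rw [Finset.sum_add_distrib]
      refine add_le_add (ha i) ?_
      have : ∑ g, (lam i g * SY.xU (Matrix.of U) σ i) ^ 2 =
          (∑ g, lam i g ^ 2) * SY.xU (Matrix.of U) σ i ^ 2 := by
        rw [Finset.sum_mul]
        exact Finset.sum_congr rfl fun g _ => by ring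
      rw [this]
      exact mul_le_mul_of_nonneg_right (hl i) (sq_nonneg _)
    refine (Finset.sum_le_sum fun i _ => h2 i).trans (le_of_eq ?_)
    rw [Finset.sum_add_distrib, ← Finset.mul_sum, sum_xU_sq' hU]
    simp
    ring
  have h2 := LPert.Phi_le_LA (p := p) (n := n) (A := univ) univ_nonempty hnb
    (SY.h0q eig (Matrix.of U) 1 W) a lam (SY.xU (Matrix.of U)) hκ d
  have h3 := abs_LA_le (A := univ) univ_nonempty hb
  have e1 : p.τ * (Fintype.card (Stp p) : ℝ) = cP p := by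
    unfold cP
    simp only [Fintype.card_prod, Fintype.card_fin]
    push_cast
    ring
  rw [e1] at h2
  have h4 := cP_nonneg p
  have h5 : 0 ≤ (A ^ 2 + S) * M := by
    refine le_trans ?_ (hκ (fun _ => true) (mem_univ _))
    exact Finset.sum_nonneg fun g _ => Finset.sum_nonneg fun i _ => by positivity
  show |G.Phi (BU p M n) (SY.HS (SY.h0q eig (Matrix.of U) 1 W) a lam (SY.xU (Matrix.of U))) d| ≤ _
  rw [abs_le] at h3 ⊢
  constructor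
  · linarith [h3.1]
  · linarith [h3.2]

/-! ### the remaining input -/

/-- the constant of the second moment of the small fields -/
def CF (Λ BV A : ℝ) : ℝ := 8 * (Λ + 2 * BV + A ^ 2 / 2 + 4)

/-- second moment of the small fields, uniformly in the number of cells -/
def M2P : Prop := ∀ {p : Par} {M n : ℕ} (_ : p.nb = 0) (_ : 0 < M) (_ : cP p ≤ M)
  {Λ BV A S : ℝ} (_ : 0 < S) (_ : S ≤ 1) {eig : Fin M → ℝ} {W : (Fin M → Bool) → ℝ}
  {a lam : Fin M → Fin p.nc → ℝ} (_ : ∀ i, |eig i| ≤ Λ) (_ : ∀ σ, |W σ| ≤ BV * M)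
  (_ : ∀ i, ∑ g, a i g ^ 2 ≤ A ^ 2) (_ : ∀ i, ∑ g, lam i g ^ 2 ≤ S) {U : Mat (Fin M)}
  (_ : Matrix.of U ∈ Matrix.orthogonalGroup (Fin M) ℝ) (d : DD p M),
  eE (G.PP (BU p M n) (GX.Hs eig 1 W a lam U) d)
    (fun w => ∑ i, (∑ g, lam i g * SY.zf w.1.2.2 g i) ^ 2) ≤ CF Λ BV A * S * M

variable {p : Par} {N n : ℕ} {μ : Measure (Mat (Fin N))} {ν : Measure (Mat (Fin (N + 1)))}
variable {eig : Fin (N + 1) → ℝ} {W0 : (Fin N → Bool) → ℝ} {W1 : (Fin (N + 1) → Bool) → ℝ}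
  {a lam : Fin (N + 1) → Fin p.nc → ℝ} {Λ m1 BV B A γ0 S : ℝ}

theorem EHyp.edat (D : EHyp μ ν eig W0 W1 a lam Λ m1 BV B A γ0 S) (h2 : M2P) (hnb : p.nb = 0)
    (hN : 1 ≤ N) (hc : cP p ≤ N) (hS : 0 < S) (hS1 : S ≤ 1) (hC : 0 ≤ CF Λ BV A) :
    EDat μ n eig W0 a lam Λ m1 S (CF Λ BV A) where
  hN := hN
  he := D.he
  hm := D.hm
  hS := hS
  hC := hC
  ort := D.rμ.mem
  hφ V hV d := by
    have h := h2 (p := p) (n := n) hnb hN hc hS hS1 (eig := fun i : Fin N => eig i.castSucc)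
      (W := W0) (a := fun i => a i.castSucc) (lam := fun i => lam i.castSucc)
      (fun i => D.he _) D.hW0 (fun i => D.ha _) (fun i => D.hl _) hV d
    exact h
  hL := (sm4' (n := n) lam).trans (D.hl _)

theorem EHyp.Ephi (D : EHyp μ ν eig W0 W1 a lam Λ m1 BV B A γ0 S) (h2 : M2P) (hnb : p.nb = 0)
    (hc : cP p ≤ N) (hS : 0 < S) (hS1 : S ≤ 1) :
    TLaw.Eφ n eig W1 a lam ν ≤ CF Λ BV A * S * ((N : ℝ) + 1) := by
  have := D.pν
  refine TLaw.Eφ_le D.rν fun U hU d => ?_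
  have h := h2 (p := p) (n := n) hnb (Nat.succ_pos N) (by push_cast; linarith) hS hS1
    (eig := eig) (W := W1) (a := a) (lam := lam) D.he D.hW1 D.ha D.hl hU d
  push_cast at h
  exact h

/-- the constants -/
def z0C (γ0 : ℝ) : ℝ := 24 * (1 + 1 / γ0)
/-- the constants -/
def z1C (Λ γ0 : ℝ) : ℝ := 144 * Λ ^ 2 * (1 + 1 / γ0 + 1 / γ0)

/-- first error term -/
theorem EHyp.j1_le (D : EHyp μ ν eig W0 W1 a lam Λ m1 BV B A γ0 S) (h2 : M2P) (hnb : p.nb = 0)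
    (hγ : 0 < γ0) (hN : 1 ≤ N) (hT : p.nc * p.T ≤ N) (hc : cP p ≤ N) (hS : 0 < S) (hS1 : S ≤ 1)
    (hC : 0 ≤ CF Λ BV A) (hN2 : (1 + Λ ^ 2) / N ≤ S ^ 2)
    (hmean : |(N : ℝ)⁻¹ * ∑ i : Fin N, eig i.castSucc - m1| ≤ S) :
    ∫ q in GP N, TLaw.ST (n := n) eig W0 W1 a lam
      (fun q _ w => min 1 (g1 eig lam Λ m1 q w)) q ∂(rho μ) ≤
      Real.sqrt S * (Real.sqrt (10 * (1 + Λ)) * Real.sqrt 28 *
        Real.sqrt (1 + z0C γ0 + z1C Λ γ0) + 4 * (1 + z0C γ0) + 15 * (CF Λ BV A / γ0)) := by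
  have := D.pμ
  have := D.pν
  have hN' : 0 < N := hN
  have hQ := D.momQ (n := n) hγ hnb hN' hT
  have hL := D.momL (n := n) hγ hnb hN' hT hC hS.le (D.Ephi h2 hnb hc hS hS1)
  have h := (j1 (m1 := m1) stLaw hN D.he hS hQ hL).2
  have hk := (intgOn_kp hN (e := e0 eig) (fun i => D.he _) m1).2
  have hk2 : ∫ G in Gd N, kp (e0 eig) m1 G ∂(gam (Fin (N + 1))) ≤ 28 * S := by
    refine hk.trans ?_
    rw [Real.sqrt_le_left (by positivity)]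
    have h3 : ((N : ℝ)⁻¹ * ∑ i, e0 eig i - m1) ^ 2 ≤ S ^ 2 := by
      rw [← sq_abs]
      exact pow_le_pow_left₀ (abs_nonneg _) hmean 2
    nlinarith
  have hs1 : Real.sqrt (∫ G in Gd N, kp (e0 eig) m1 G ∂(gam (Fin (N + 1)))) ≤
      Real.sqrt 28 * Real.sqrt S := by
    rw [← Real.sqrt_mul (by norm_num)]
    exact Real.sqrt_le_sqrt hk2
  have hss : S / Real.sqrt S = Real.sqrt S := Real.div_sqrt
  have e1 : (12 * (CF Λ BV A * S / γ0) + 3 * (CF Λ BV A * S / γ0)) / Real.sqrt S =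
      15 * (CF Λ BV A / γ0) * Real.sqrt S := by
    calc _ = 15 * (CF Λ BV A / γ0) * (S / Real.sqrt S) := by ring
      _ = _ := by rw [hss]
  rw [e1] at h
  refine h.trans ?_
  have h4 : Real.sqrt (10 * (1 + Λ)) * Real.sqrt (∫ G in Gd N, kp (e0 eig) m1 G
      ∂(gam (Fin (N + 1)))) * Real.sqrt (1 + z0C γ0 + z1C Λ γ0) ≤
      Real.sqrt (10 * (1 + Λ)) * (Real.sqrt 28 * Real.sqrt S) *
        Real.sqrt (1 + z0C γ0 + z1C Λ γ0) := by gcongr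
  have e2 : Real.sqrt S * (Real.sqrt (10 * (1 + Λ)) * Real.sqrt 28 *
        Real.sqrt (1 + z0C γ0 + z1C Λ γ0) + 4 * (1 + z0C γ0) + 15 * (CF Λ BV A / γ0)) =
      Real.sqrt (10 * (1 + Λ)) * (Real.sqrt 28 * Real.sqrt S) *
        Real.sqrt (1 + z0C γ0 + z1C Λ γ0) + 4 * Real.sqrt S * (1 + z0C γ0) +
        15 * (CF Λ BV A / γ0) * Real.sqrt S := by ring
  rw [e2]
  have e3 : (1 : ℝ) + 24 * (1 + 1 / γ0) + 144 * Λ ^ 2 * (1 + 1 / γ0 + 1 / γ0) =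
      1 + z0C γ0 + z1C Λ γ0 := rfl
  have e4 : (24 : ℝ) * (1 + 1 / γ0) = z0C γ0 := rfl
  rw [e3, e4]
  linarith

/-- second and third error terms -/
theorem EHyp.j2_le (D : EHyp μ ν eig W0 W1 a lam Λ m1 BV B A γ0 S) (hnb : p.nb = 0)
    (hγ : 0 < γ0) (hN : 1 ≤ N) (hT : p.nc * p.T ≤ N) {K bb B' : ℝ} (hK : 0 < K)
    {v : (Fin N → Bool) → Bool → ℝ} (hv : ∀ σ c, |v σ c| ≤ B') :
    ∫ q in GP N, TLaw.ST (n := n) eig W0 W1 a lam
      (fun q _ w => exK K eig m1 (a (Fin.last N)) bb v q w) q ∂(rho μ) ≤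
      (1 / K) * ((1 + 2 * Λ) * (1 + z0C γ0 + z1C Λ γ0) + B' + |bb| +
        Real.sqrt (36 * (1 + A ^ 2) ^ 2)) := by
  have := D.pμ
  have := D.pν
  have hQ := D.momQ (n := n) hγ hnb (show 0 < N from hN) hT
  exact (j2 (m1 := m1) stLaw hN D.he D.hm hQ hK (a (Fin.last N)) hv
    (fun q d => sm3 (n := n) eig W0 W1 a lam (cplS q.1 q.2) q.1 d (D.ha _))).2

theorem kapN_le (hS : 0 < S) (hN2 : (1 + Λ ^ 2) / N ≤ S ^ 2)
    (hmean : |(N : ℝ)⁻¹ * ∑ i : Fin N, eig i.castSucc - m1| ≤ S) : kapN eig Λ m1 ≤ 2 * S := by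
  unfold kapN
  rw [Real.sqrt_le_left (by positivity)]
  have h3 : ((N : ℝ)⁻¹ * ∑ i, e0 eig i - m1) ^ 2 ≤ S ^ 2 := by
    rw [← sq_abs]
    exact pow_le_pow_left₀ (abs_nonneg _) hmean 2
  nlinarith

theorem Cw_mono {B bb A2 B' bb' : ℝ} (hB : B ^ 2 ≤ B' ^ 2) (hbb : bb ^ 2 ≤ bb' ^ 2) :
    Cw Λ B bb A2 ≤ Cw Λ B' bb' A2 := by
  unfold Cw
  linarith

end

end Crest.Agent.R164.ED
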