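import Crest.Agent.R164.EDq6

/-!
# Row 164, L side, module E-DIFF part q7 (helper562): choice of the constants
-/

set_option autoImplicit false

namespace Crest.Agent.R164.ED

open MeasureTheory ProbabilityTheory Filter
open Finset Crest.Agent.R141 Crest.Agent.R164 Crest.Agent.R164.PF Crest.Agent.R164.Haar
open Crest.ProbabilityR.InvariantGlass

noncomputable section

/-- constants of the final estimate -/
def sMC (A : ℝ) : ℝ := Real.sqrt (MM A)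
/-- constants of the final estimate -/
def thC (A ε : ℝ) : ℝ := ε / (64 * sMC A)
/-- constants of the final estimate -/
def cC (A ε : ℝ) : ℝ := 4 * sMC A / thC A ε
/-- constants of the final estimate -/
def CWC (Λ B A : ℝ) : ℝ := Cw Λ B B (A ^ 2)
/-- constants of the final estimate -/
def JC (Λ B A γ0 : ℝ) : ℝ :=
  (1 + 2 * Λ) * (1 + z0C γ0 + z1C Λ γ0) + B + B + Real.sqrt (36 * (1 + A ^ 2) ^ 2)
/-- constants of the final estimate -/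
def J1C (Λ BV A γ0 : ℝ) : ℝ := Real.sqrt (10 * (1 + Λ)) * Real.sqrt 28 *
        Real.sqrt (1 + z0C γ0 + z1C Λ γ0) + 4 * (1 + z0C γ0) + 15 * (CF Λ BV A / γ0)
/-- the requirement on `K` -/
def RK (Λ B A γ0 ε : ℝ) : ℝ :=
  cC A ε * (3 * JC Λ B A γ0 + (2 * Real.exp 1 + 1) * CWC Λ B A) + Real.exp 1 * CWC Λ B A
/-- the requirement on `η` -/
def RE (Λ BV A γ0 ε K : ℝ) : ℝ :=
  cC A ε * (3 * J1C Λ BV A γ0 + Real.exp (2 * (K + 1)) *
    (3 * (1360 * (1 + Λ) ^ 3 + (9 + 2 * CF Λ BV A)) + 2)) +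
  Real.exp (2 * (K + 1)) * (1360 * (1 + Λ) ^ 3 + (9 + 2 * CF Λ BV A) + 1)
/-- the requirement on `N` -/
def RN (p : Par) (Λ BV B A K : ℝ) : ℝ :=
  1000 * sMC A + p.nc * p.T * (Real.sqrt (cT p) * (1 + |A|)) + p.nc * p.T +
  (p.nc * p.T) ^ 2 * p.τ +
  500 * (2 * (Λ / 2 + BV + (A ^ 2 + 1) / 2) + 2 * cP p + (B + (K + 1)))

variable {Λ BV B A γ0 ε K : ℝ}

theorem sMC_pos : 0 < sMC A := Real.sqrt_pos.2 (lt_of_lt_of_le one_pos (one_le_MM A))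

theorem thC_pos (hε : 0 < ε) : 0 < thC A ε := by
  have := sMC_pos (A := A)
  unfold thC
  positivity

theorem cC_pos (hε : 0 < ε) : 0 < cC A ε := by
  have := sMC_pos (A := A)
  have := thC_pos (A := A) hε
  unfold cC
  positivity

theorem z0C_nonneg (hγ : 0 < γ0) : 0 ≤ z0C γ0 := by unfold z0C; positivity

theorem z1C_nonneg (hγ : 0 < γ0) : 0 ≤ z1C Λ γ0 := by unfold z1C; positivity

theorem CWC_nonneg : 0 ≤ CWC Λ B A := by unfold CWC Cw; positivity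

theorem JC_nonneg (hΛ : 0 ≤ Λ) (hB : 0 ≤ B) (hγ : 0 < γ0) : 0 ≤ JC Λ B A γ0 := by
  have := z0C_nonneg hγ
  have := z1C_nonneg (Λ := Λ) hγ
  unfold JC
  positivity

theorem CF_nonneg (hΛ : 0 ≤ Λ) (hBV : 0 ≤ BV) : 0 ≤ CF Λ BV A := by unfold CF; positivity

theorem J1C_nonneg (hΛ : 0 ≤ Λ) (hBV : 0 ≤ BV) (hγ : 0 < γ0) : 0 ≤ J1C Λ BV A γ0 := by
  have := z0C_nonneg hγ
  have := CF_nonneg (A := A) hΛ hBV
  unfold J1C
  positivity

theorem RK_nonneg (hΛ : 0 ≤ Λ) (hB : 0 ≤ B) (hγ : 0 < γ0) (hε : 0 < ε) :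
    0 ≤ RK Λ B A γ0 ε := by
  have := cC_pos (A := A) hε
  have := JC_nonneg (A := A) hΛ hB hγ
  have := CWC_nonneg (Λ := Λ) (B := B) (A := A)
  unfold RK
  positivity

theorem RE_nonneg (hΛ : 0 ≤ Λ) (hBV : 0 ≤ BV) (hγ : 0 < γ0) (hε : 0 < ε) :
    0 ≤ RE Λ BV A γ0 ε K := by
  have := cC_pos (A := A) hε
  have := J1C_nonneg (A := A) hΛ hBV hγ
  have := CF_nonneg (A := A) hΛ hBV
  unfold RE
  positivity

/-- the choice of `η` -/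
def etaC (Λ BV A γ0 ε K : ℝ) : ℝ := min 1 (((ε / 8) / (RE Λ BV A γ0 ε K + 1)) ^ 2)

theorem etaC_pos (hΛ : 0 ≤ Λ) (hBV : 0 ≤ BV) (hγ : 0 < γ0) (hε : 0 < ε) :
    0 < etaC Λ BV A γ0 ε K := by
  have := RE_nonneg (A := A) (K := K) hΛ hBV hγ hε
  unfold etaC
  exact lt_min one_pos (by positivity)

theorem etaC_le_one : etaC Λ BV A γ0 ε K ≤ 1 := min_le_left _ _

theorem sqrt_etaC (hΛ : 0 ≤ Λ) (hBV : 0 ≤ BV) (hγ : 0 < γ0) (hε : 0 < ε) :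
    Real.sqrt (etaC Λ BV A γ0 ε K) * RE Λ BV A γ0 ε K ≤ ε / 8 := by
  have h := RE_nonneg (A := A) (K := K) hΛ hBV hγ hε
  have h1 : Real.sqrt (etaC Λ BV A γ0 ε K) ≤ (ε / 8) / (RE Λ BV A γ0 ε K + 1) := by
    rw [Real.sqrt_le_left (by positivity)]
    exact min_le_right _ _
  calc Real.sqrt (etaC Λ BV A γ0 ε K) * RE Λ BV A γ0 ε K ≤
      (ε / 8) / (RE Λ BV A γ0 ε K + 1) * (RE Λ BV A γ0 ε K + 1) :=
        mul_le_mul h1 (by linarith) h (by positivity)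
    _ = ε / 8 := by field_simp

variable {p : Par} {N n : ℕ} {μ : Measure (Mat (Fin N))} {ν : Measure (Mat (Fin (N + 1)))}
variable {eig : Fin (N + 1) → ℝ} {W0 : (Fin N → Bool) → ℝ} {W1 : (Fin (N + 1) → Bool) → ℝ}
  {a lam : Fin (N + 1) → Fin p.nc → ℝ} {m1 S cs bb : ℝ} {Δ : (Fin N → Bool) → ℝ}

/-- what is needed of `N` -/
structure NOK (p : Par) (N : ℕ) (Λ BV B A ε K S : ℝ) : Prop where
  h1 : 1 ≤ N
  hT : p.nc * p.T ≤ N
  hc : cP p ≤ N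
  h2 : (1 + Λ ^ 2) / N ≤ S ^ 2
  hR : RN p Λ BV B A K ≤ (ε / 8) * ((N : ℝ) + 1)

theorem fin_alg {c a1 a2 a3 a4 a5 x1 x2 g e : ℝ} (hc : 0 ≤ c) (q1 : 2 * a2 + a3 + a5 ≤ x1)
    (q3 : 3 * a1 + a4 ≤ x2) (q2 : c * x1 ≤ e) (q4 : c * x2 ≤ e) (q6 : g ≤ e) :
    c * (3 * a1 + 2 * a2 + a3 + (a4 + a5)) + 2 * e + g ≤ 5 * e := by
  have r1 := mul_le_mul_of_nonneg_left q1 hc
  have r2 := mul_le_mul_of_nonneg_left q3 hc
  have e1 : c * (3 * a1 + 2 * a2 + a3 + (a4 + a5)) =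
    c * (2 * a2 + a3 + a5) + c * (3 * a1 + a4) := by ring
  rw [e1]
  linarith

set_option maxHeartbeats 2000000 in
/-- the error of the magnetisations -/
theorem mag_final (h2 : M2P) (hnb : p.nb = 0) (hγ : 0 < γ0) (hε : 0 < ε) (hΛ : 0 ≤ Λ)
    (hBV : 0 ≤ BV) (hB : 0 ≤ B) (hK1 : 1 ≤ K) (hK : RK Λ B A γ0 ε ≤ (ε / 8) * K)
    (hS : 0 < S) (hS1 : S ≤ 1) (hSR : Real.sqrt S * RE Λ BV A γ0 ε K ≤ ε / 8)
    (hNN : NOK p N Λ BV B A ε K S)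
    (D : EHyp μ ν eig W0 W1 a lam Λ m1 BV B A γ0 S)
    (H : DHyp μ n eig W0 W1 a lam cs bb B Δ S)
    (hmean : |(N : ℝ)⁻¹ * ∑ i : Fin N, eig i.castSucc - m1| ≤ S)
    (h : OU p N n × LS p n → ℝ)
    (hMX : ∀ᵐ q ∂(rho μ), ∀ d, eE (stQ (n := n) (HN eig W0 a lam q.1)
      (HN1 eig W1 a lam (cplS q.1 q.2)) d) (fun w => h w ^ 2) ≤ MM A)
    (hMY : ∀ᵐ q ∂(rho μ), ∀ d, eE (tl (stP p N n (HN eig W0 a lam q.1) d) (stF p N n) p.xs
      (fun w => psi K (redB (WX eig m1 (a (Fin.last N)) bb (fun _ _ => 0) q.1 q.2) w)))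
      (fun w => h w ^ 2) ≤ MM A) :
    |∫ q, stM n eig W0 W1 a lam h q ∂(rho μ) -
      ∫ q, stT n eig W0 a lam m1 (a (Fin.last N)) bb K h q ∂(rho μ)| ≤ 5 * (ε / 8) := by
  have := D.pμ
  have := D.pν
  have hK0 : 0 < K := by linarith
  have hC := CF_nonneg (A := A) hΛ hBV
  have hED := D.edat (n := n) h2 hnb hNN.h1 hNN.hc hS hS1 hC
  have hj1 := D.j1_le (n := n) h2 hnb hγ hNN.h1 hNN.hT hNN.hc hS hS1 hC hNN.h2 hmean
  have hj2 := D.j2_le (n := n) hnb hγ hNN.h1 hNN.hT hK0 (bb := 0) D.hv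
  have hj3 := D.j2_le (n := n) hnb hγ hNN.h1 hNN.hT hK0 (bb := bb) (B' := 0)
    (v := fun _ _ => 0) (fun σ c => by simp)
  obtain ⟨Dm, hDm⟩ : ∃ Dm : ℝ, ∀ σ, Δ σ ≤ Dm := by
    obtain ⟨σ0, -, h0⟩ := Finset.exists_max_image (univ : Finset (Fin N → Bool)) Δ univ_nonempty
    exact ⟨Δ σ0, fun σ => h0 σ (mem_univ _)⟩
  have hy : eE (lsP p n) (fun l => yb (a (Fin.last N)) l ^ 2) ≤ A ^ 2 :=
    (sm4 (a (Fin.last N))).trans (D.ha _)
  have hmain := mag_int (n := n) hED (B := B) (A2 := A ^ 2) (M := MM A) (θ := thC A ε) hK0 H.h0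
    hDm H.hΔ D.hv H.avg hy (sq_nonneg _) h (one_le_MM A) (thC_pos hε) hMX hMY hj1 hj2 hj3
  refine hmain.trans ?_
  have hkap := kapN_le (eig := eig) (Λ := Λ) (m1 := m1) hS hNN.h2 hmean
  have hSs : S ≤ Real.sqrt S := Real.le_sqrt_of_sq_le (by nlinarith)
  have hsS := Real.sqrt_nonneg S
  have hE := Real.exp_pos (2 * (K + 1))
  have hc := cC_pos (A := A) hε
  have hsM := sMC_pos (A := A)
  have hCW := CWC_nonneg (Λ := Λ) (B := B) (A := A)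
  have hJ := JC_nonneg (A := A) hΛ hB hγ
  have hJ1 := J1C_nonneg (A := A) hΛ hBV hγ
  have hZ : 0 ≤ (1 + 2 * Λ) * (1 + z0C γ0 + z1C Λ γ0) := by
    have := z0C_nonneg hγ
    have := z1C_nonneg (Λ := Λ) hγ
    positivity
  -- the parts of `RK`
  have p2 : (1 + 2 * Λ) * (1 + z0C γ0 + z1C Λ γ0) + B + |(0:ℝ)| +
      Real.sqrt (36 * (1 + A ^ 2) ^ 2) ≤ JC Λ B A γ0 := by
    unfold JC
    rw [abs_zero]
    linarith
  have p3 : (1 + 2 * Λ) * (1 + z0C γ0 + z1C Λ γ0) + 0 + |bb| +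
      Real.sqrt (36 * (1 + A ^ 2) ^ 2) ≤ JC Λ B A γ0 := by
    unfold JC
    have := H.hbb
    linarith
  have p4 : Cw Λ B 0 (A ^ 2) ≤ CWC Λ B A :=
    Cw_mono le_rfl (by rw [zero_pow two_ne_zero]; exact sq_nonneg _)
  have p5 : Cw Λ 0 bb (A ^ 2) ≤ CWC Λ B A := by
    refine Cw_mono (by rw [zero_pow two_ne_zero]; exact sq_nonneg _) ?_
    rw [← sq_abs bb]
    exact pow_le_pow_left₀ (abs_nonneg _) H.hbb 2
  have hK' : (1 / K) * RK Λ B A γ0 ε ≤ ε / 8 := by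
    rw [one_div, ← div_eq_inv_mul, div_le_iff₀ hK0]
    exact hK
  have q1 : 2 * ((1 / K) * ((1 + 2 * Λ) * (1 + z0C γ0 + z1C Λ γ0) + B + |(0:ℝ)| +
      Real.sqrt (36 * (1 + A ^ 2) ^ 2))) + (1 / K) * ((1 + 2 * Λ) * (1 + z0C γ0 + z1C Λ γ0) +
      0 + |bb| + Real.sqrt (36 * (1 + A ^ 2) ^ 2)) +
      1 / K * (2 * Real.exp 1 * Cw Λ B 0 (A ^ 2) + Cw Λ 0 bb (A ^ 2)) ≤
      (1 / K) * (3 * JC Λ B A γ0 + (2 * Real.exp 1 + 1) * CWC Λ B A) := by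
    have hk : 0 ≤ 1 / K := by positivity
    have he := (Real.exp_pos 1).le
    have r4 := mul_le_mul_of_nonneg_left p4 (by positivity : 0 ≤ 2 * Real.exp 1)
    have r5 := mul_le_mul_of_nonneg_left (show 2 * ((1 + 2 * Λ) * (1 + z0C γ0 + z1C Λ γ0) + B +
      |(0:ℝ)| + Real.sqrt (36 * (1 + A ^ 2) ^ 2)) + ((1 + 2 * Λ) * (1 + z0C γ0 + z1C Λ γ0) +
      0 + |bb| + Real.sqrt (36 * (1 + A ^ 2) ^ 2)) + (2 * Real.exp 1 * Cw Λ B 0 (A ^ 2) +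
      Cw Λ 0 bb (A ^ 2)) ≤ 3 * JC Λ B A γ0 + (2 * Real.exp 1 + 1) * CWC Λ B A by linarith) hk
    linarith
  have q2 : cC A ε * ((1 / K) * (3 * JC Λ B A γ0 + (2 * Real.exp 1 + 1) * CWC Λ B A)) ≤
      ε / 8 := by
    refine le_trans ?_ hK'
    have e : cC A ε * ((1 / K) * (3 * JC Λ B A γ0 + (2 * Real.exp 1 + 1) * CWC Λ B A)) =
        (1 / K) * (cC A ε * (3 * JC Λ B A γ0 + (2 * Real.exp 1 + 1) * CWC Λ B A)) := by ring
    rw [e]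
    refine mul_le_mul_of_nonneg_left ?_ (by positivity)
    unfold RK
    have : 0 ≤ Real.exp 1 * CWC Λ B A := by positivity
    linarith
  -- the parts of `RE`
  have q3 : 3 * (Real.sqrt S * J1C Λ BV A γ0) + Real.exp (2 * (K + 1)) *
      (3 * (680 * (1 + Λ) ^ 3 * kapN eig Λ m1 + (9 + 2 * CF Λ BV A) * Real.sqrt S) + 2 * S) ≤
      Real.sqrt S * (3 * J1C Λ BV A γ0 + Real.exp (2 * (K + 1)) *
        (3 * (1360 * (1 + Λ) ^ 3 + (9 + 2 * CF Λ BV A)) + 2)) := by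
    have r1 : 680 * (1 + Λ) ^ 3 * kapN eig Λ m1 ≤ 680 * (1 + Λ) ^ 3 * (2 * Real.sqrt S) :=
      mul_le_mul_of_nonneg_left (by linarith) (by positivity)
    have r2 := mul_le_mul_of_nonneg_left (show 3 * (680 * (1 + Λ) ^ 3 * kapN eig Λ m1 +
      (9 + 2 * CF Λ BV A) * Real.sqrt S) + 2 * S ≤ 3 * (680 * (1 + Λ) ^ 3 * (2 * Real.sqrt S) +
      (9 + 2 * CF Λ BV A) * Real.sqrt S) + 2 * Real.sqrt S by linarith) hE.le
    have e : Real.sqrt S * (3 * J1C Λ BV A γ0 + Real.exp (2 * (K + 1)) *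
        (3 * (1360 * (1 + Λ) ^ 3 + (9 + 2 * CF Λ BV A)) + 2)) =
        3 * (Real.sqrt S * J1C Λ BV A γ0) + Real.exp (2 * (K + 1)) *
        (3 * (680 * (1 + Λ) ^ 3 * (2 * Real.sqrt S) +
      (9 + 2 * CF Λ BV A) * Real.sqrt S) + 2 * Real.sqrt S) := by ring
    rw [e]
    linarith
  have q4 : cC A ε * (Real.sqrt S * (3 * J1C Λ BV A γ0 + Real.exp (2 * (K + 1)) *
        (3 * (1360 * (1 + Λ) ^ 3 + (9 + 2 * CF Λ BV A)) + 2))) ≤ ε / 8 := by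
    refine le_trans ?_ hSR
    have e : cC A ε * (Real.sqrt S * (3 * J1C Λ BV A γ0 + Real.exp (2 * (K + 1)) *
        (3 * (1360 * (1 + Λ) ^ 3 + (9 + 2 * CF Λ BV A)) + 2))) =
        Real.sqrt S * (cC A ε * (3 * J1C Λ BV A γ0 + Real.exp (2 * (K + 1)) *
        (3 * (1360 * (1 + Λ) ^ 3 + (9 + 2 * CF Λ BV A)) + 2))) := by ring
    rw [e]
    refine mul_le_mul_of_nonneg_left ?_ hsS
    unfold RE
    have : 0 ≤ Real.exp (2 * (K + 1)) * (1360 * (1 + Λ) ^ 3 + (9 + 2 * CF Λ BV A) + 1) := by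
      positivity
    linarith
  -- the parts independent of `S`, `K`
  have q5 : 16 * Real.sqrt (MM A) * thC A ε = 2 * (ε / 8) := by
    show 16 * sMC A * (ε / (64 * sMC A)) = 2 * (ε / 8)
    field_simp
    ring
  have hN1 : (0:ℝ) < (N : ℝ) + 1 := by positivity
  have q6 : (Real.sqrt (MM A) + Real.sqrt (MM A)) * (500 / ((N : ℝ) + 1) ^ 2) ≤ ε / 8 := by
    have e : (Real.sqrt (MM A) + Real.sqrt (MM A)) * (500 / ((N : ℝ) + 1) ^ 2) =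
        (1000 * sMC A / ((N : ℝ) + 1)) / ((N : ℝ) + 1) := by
      show (sMC A + sMC A) * (500 / ((N : ℝ) + 1) ^ 2) = _
      field_simp
      ring
    rw [e]
    have r1 : 1000 * sMC A / ((N : ℝ) + 1) ≤ ε / 8 := by
      rw [div_le_iff₀ hN1]
      refine le_trans ?_ hNN.hR
      unfold RN
      have := cP_nonneg p
      have := p.hτ0
      have : 0 ≤ Real.sqrt (cT p) := Real.sqrt_nonneg _
      have : 0 ≤ (p.nc : ℝ) * p.T * (Real.sqrt (cT p) * (1 + |A|)) + p.nc * p.T +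
        (p.nc * p.T) ^ 2 * p.τ +
        500 * (2 * (Λ / 2 + BV + (A ^ 2 + 1) / 2) + 2 * cP p + (B + (K + 1))) := by positivity
      linarith
    have r2 : 1000 * sMC A / ((N : ℝ) + 1) / ((N : ℝ) + 1) ≤ 1000 * sMC A / ((N : ℝ) + 1) := by
      refine div_le_self (by positivity) ?_
      have : (0:ℝ) ≤ N := by positivity
      linarith
    exact r2.trans r1
  have e7 : 4 * Real.sqrt (MM A) / thC A ε = cC A ε := rfl
  rw [q5, e7]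
  have e8 : Real.sqrt (10 * (1 + Λ)) * Real.sqrt 28 * Real.sqrt (1 + z0C γ0 + z1C Λ γ0) +
      4 * (1 + z0C γ0) + 15 * (CF Λ BV A / γ0) = J1C Λ BV A γ0 := rfl
  rw [e8]
  exact fin_alg hc.le q1 q3 q2 q4 q6

end

end Crest.Agent.R164.ED
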