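import Crest.Agent.R164.EDq7

/-!
# Row 164, L side, module E-DIFF part q8 (helper562): `EDIFF0` from the moment bound `M2P`
-/

set_option autoImplicit false

namespace Crest.Agent.R164.ED

open MeasureTheory ProbabilityTheory Filter
open Finset Crest.Agent.R141 Crest.Agent.R164 Crest.Agent.R164.PF Crest.Agent.R164.Haar
open Crest.ProbabilityR.InvariantGlass

noncomputable section

variable {Λ BV B A γ0 ε K : ℝ}
variable {p : Par} {N n : ℕ} {μ : Measure (Mat (Fin N))} {ν : Measure (Mat (Fin (N + 1)))}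
variable {eig : Fin (N + 1) → ℝ} {W0 : (Fin N → Bool) → ℝ} {W1 : (Fin (N + 1) → Bool) → ℝ}
  {a lam : Fin (N + 1) → Fin p.nc → ℝ} {m1 S cs bb : ℝ} {Δ : (Fin N → Bool) → ℝ}

theorem RN_parts (hΛ : 0 ≤ Λ) (hBV : 0 ≤ BV) (hB : 0 ≤ B) (hK : 0 ≤ K) :
    0 ≤ 1000 * sMC A ∧ (0:ℝ) ≤ p.nc * p.T * (Real.sqrt (cT p) * (1 + |A|)) ∧
      (0:ℝ) ≤ p.nc * p.T ∧ (0:ℝ) ≤ (p.nc * p.T) ^ 2 * p.τ ∧
      0 ≤ 500 * (2 * (Λ / 2 + BV + (A ^ 2 + 1) / 2) + 2 * cP p + (B + (K + 1))) := by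
  have h1 := sMC_pos (A := A)
  have h2 := cP_nonneg p
  have h3 := p.hτ0
  have h4 : 0 ≤ Real.sqrt (cT p) := Real.sqrt_nonneg _
  refine ⟨by positivity, by positivity, by positivity, by positivity, by positivity⟩

/-- a part of `RN` over `N + 1` -/
theorem part_le {R x e t : ℝ} (ht : 0 < t) (h1 : x ≤ R) (h2 : R ≤ e * t) : x / t ≤ e := by
  rw [div_le_iff₀ ht]
  exact h1.trans h2

set_option maxHeartbeats 2000000 in
/-- **(O1), final** -/
theorem O1_final (h2 : M2P) (hnb : p.nb = 0) (hγ : 0 < γ0) (hε : 0 < ε) (hΛ : 0 ≤ Λ)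
    (hBV : 0 ≤ BV) (hB : 0 ≤ B) (hK1 : 1 ≤ K) (hK : RK Λ B A γ0 ε ≤ (ε / 8) * K)
    (hS : 0 < S) (hS1 : S ≤ 1) (hSR : Real.sqrt S * RE Λ BV A γ0 ε K ≤ ε / 8)
    (hNN : NOK p N Λ BV B A ε K S)
    (D : EHyp μ ν eig W0 W1 a lam Λ m1 BV B A γ0 S)
    (H : DHyp μ n eig W0 W1 a lam cs bb B Δ S)
    (hmean : |(N : ℝ)⁻¹ * ∑ i : Fin N, eig i.castSucc - m1| ≤ S) :
    cs + cavF μ n (HN eig W0 a lam) eig m1 (a (Fin.last N)) bb 0 K ≤
      IP ν n (HN1 eig W1 a lam) - IP μ n (HN eig W0 a lam) + ε := by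
  have := D.pμ
  have := D.pν
  have hK0 : 0 < K := by linarith
  have hN' : 0 < N := hNN.h1
  have hN1 : (0:ℝ) < (N : ℝ) + 1 := by positivity
  have hC := CF_nonneg (A := A) hΛ hBV
  have hED := D.edat (n := n) h2 hnb hNN.h1 hNN.hc hS hS1 hC
  obtain ⟨Dm, hDm⟩ : ∃ Dm : ℝ, ∀ σ, Δ σ ≤ Dm := by
    obtain ⟨σ0, -, h0⟩ := Finset.exists_max_image (univ : Finset (Fin N → Bool)) Δ univ_nonempty
    exact ⟨Δ σ0, fun σ => h0 σ (mem_univ _)⟩
  have hy : eE (lsP p n) (fun l => yb (a (Fin.last N)) l ^ 2) ≤ A ^ 2 :=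
    (sm4 (a (Fin.last N))).trans (D.ha _)
  have hae := tt0_ae (n := n) eig W0 W1 a lam hnb hN' D.rμ
    (c0 := (Λ / 2 + BV + (A ^ 2 + S) / 2) * N + cP p)
    (c1 := (Λ / 2 + BV + (A ^ 2 + S) / 2) * ((N + 1 : ℕ) : ℝ) + cP p)
    (fun V hV d => abs_Phi_le2 (n := n) hnb (eig := fun i : Fin N => eig i.castSucc) (W := W0)
      (a := fun i => a i.castSucc) (lam := fun i => lam i.castSucc) (fun i => D.he _) D.hW0
      (fun i => D.ha _) (fun i => D.hl _) hV d)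
    (fun U hU d => abs_Phi_le2 (n := n) hnb (eig := eig) (W := W1) (a := a) (lam := lam) D.he D.hW1
      D.ha D.hl hU d)
  have hmain := O1_core (n := n) (W1 := W1) hED (cs := cs) (bb := bb) (K := K) (A2 := A ^ 2)
    (δ := S) hK0 H.h0 hDm H.hΔ H.avg hy (sq_nonneg _) hae
  have htt := (abs_le.1 (tt0 (n := n) eig W0 W1 a lam hnb hN' D.rμ D.rν)).1
  have hkap := kapN_le (eig := eig) (Λ := Λ) (m1 := m1) hS hNN.h2 hmean
  have hSs : S ≤ Real.sqrt S := Real.le_sqrt_of_sq_le (by nlinarith)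
  have hsS := Real.sqrt_nonneg S
  have hE := Real.exp_pos (2 * (K + 1))
  have hc := cC_pos (A := A) hε
  have hCW := CWC_nonneg (Λ := Λ) (B := B) (A := A)
  have hJ := JC_nonneg (A := A) hΛ hB hγ
  have hJ1 := J1C_nonneg (A := A) hΛ hBV hγ
  obtain ⟨n1, n2, n3, n4, n5⟩ := RN_parts (p := p) (A := A) (K := K) hΛ hBV hB hK0.le
  -- `RE` part
  have q3 : Real.exp (2 * (K + 1)) * (680 * (1 + Λ) ^ 3 * kapN eig Λ m1 +
        (9 + 2 * CF Λ BV A) * Real.sqrt S + S) ≤ ε / 8 := by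
    have r1 : 680 * (1 + Λ) ^ 3 * kapN eig Λ m1 ≤ 680 * (1 + Λ) ^ 3 * (2 * Real.sqrt S) :=
      mul_le_mul_of_nonneg_left (by linarith) (by positivity)
    have r2 := mul_le_mul_of_nonneg_left (show 680 * (1 + Λ) ^ 3 * kapN eig Λ m1 +
        (9 + 2 * CF Λ BV A) * Real.sqrt S + S ≤ 680 * (1 + Λ) ^ 3 * (2 * Real.sqrt S) +
        (9 + 2 * CF Λ BV A) * Real.sqrt S + Real.sqrt S by linarith) hE.le
    refine r2.trans (le_trans ?_ hSR)
    have e : Real.exp (2 * (K + 1)) * (680 * (1 + Λ) ^ 3 * (2 * Real.sqrt S) +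
        (9 + 2 * CF Λ BV A) * Real.sqrt S + Real.sqrt S) = Real.sqrt S *
        (Real.exp (2 * (K + 1)) * (1360 * (1 + Λ) ^ 3 + (9 + 2 * CF Λ BV A) + 1)) := by ring
    rw [e]
    refine mul_le_mul_of_nonneg_left ?_ hsS
    unfold RE
    have : 0 ≤ cC A ε * (3 * J1C Λ BV A γ0 + Real.exp (2 * (K + 1)) *
      (3 * (1360 * (1 + Λ) ^ 3 + (9 + 2 * CF Λ BV A)) + 2)) := by positivity
    linarith
  -- `RK` part
  have q4 : Real.exp 1 / K * Cw Λ 0 bb (A ^ 2) ≤ ε / 8 := by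
    have p5 : Cw Λ 0 bb (A ^ 2) ≤ CWC Λ B A := by
      refine Cw_mono (by rw [zero_pow two_ne_zero]; exact sq_nonneg _) ?_
      rw [← sq_abs bb]
      exact pow_le_pow_left₀ (abs_nonneg _) H.hbb 2
    have r1 := mul_le_mul_of_nonneg_left p5 (by positivity : 0 ≤ Real.exp 1 / K)
    refine r1.trans ?_
    rw [div_mul_eq_mul_div, div_le_iff₀ hK0]
    refine le_trans ?_ hK
    unfold RK
    have : 0 ≤ cC A ε * (3 * JC Λ B A γ0 + (2 * Real.exp 1 + 1) * CWC Λ B A) := by positivity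
    linarith
  -- `RN` parts
  have q5 : ((p.nc : ℝ) * p.T) ^ 2 * p.τ / ((N : ℝ) + 1) ≤ ε / 8 :=
    part_le hN1 (by unfold RN; linarith) hNN.hR
  have q6 : ((Λ / 2 + BV + (A ^ 2 + S) / 2) * N + cP p +
      ((Λ / 2 + BV + (A ^ 2 + S) / 2) * ((N + 1 : ℕ) : ℝ) + cP p) + (|cs| + (K + 1))) *
      (500 / ((N : ℝ) + 1) ^ 2) ≤ ε / 8 := by
    have hcs := H.hcs
    have hcP := cP_nonneg p
    set T0 : ℝ := Λ / 2 + BV + (A ^ 2 + 1) / 2 with hT0
    have hT0n : 0 ≤ T0 := by rw [hT0]; positivity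
    have hT1 : Λ / 2 + BV + (A ^ 2 + S) / 2 ≤ T0 := by rw [hT0]; linarith
    have hNn : (0:ℝ) ≤ N := by positivity
    have r1 : (Λ / 2 + BV + (A ^ 2 + S) / 2) * N + cP p +
      ((Λ / 2 + BV + (A ^ 2 + S) / 2) * ((N + 1 : ℕ) : ℝ) + cP p) + (|cs| + (K + 1)) ≤
      (2 * T0 + 2 * cP p + (B + (K + 1))) * ((N : ℝ) + 1) := by
      push_cast
      have r2 := mul_le_mul_of_nonneg_right hT1 hNn
      have r3 := mul_le_mul_of_nonneg_right hT1 hN1.le
      have r4 : 0 ≤ (2 * cP p + (B + (K + 1))) * N := by positivity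
      nlinarith
    have r5 : (Λ / 2 + BV + (A ^ 2 + S) / 2) * N + cP p +
      ((Λ / 2 + BV + (A ^ 2 + S) / 2) * ((N + 1 : ℕ) : ℝ) + cP p) + (|cs| + (K + 1)) *
      1 ≤ (2 * T0 + 2 * cP p + (B + (K + 1))) * ((N : ℝ) + 1) := by rw [mul_one]; exact r1
    have r6 := mul_le_mul_of_nonneg_right r1 (by positivity : 0 ≤ 500 / ((N : ℝ) + 1) ^ 2)
    refine r6.trans ?_
    have e : (2 * T0 + 2 * cP p + (B + (K + 1))) * ((N : ℝ) + 1) * (500 / ((N : ℝ) + 1) ^ 2) =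
        500 * (2 * T0 + 2 * cP p + (B + (K + 1))) / ((N : ℝ) + 1) := by
      field_simp
    rw [e]
    exact part_le hN1 (by unfold RN; linarith) hNN.hR
  have e1 : ∫ q, Ed p N (fun d => aE (stP p N n (HN eig W0 a lam q.1) d) (stF p N n) p.xs
        (Xr (HN eig W0 a lam q.1) (HN1 eig W1 a lam (cplS q.1 q.2)))) ∂(rho μ) =
      ∫ q, stA n eig W0 W1 a lam q ∂(rho μ) := rfl
  rw [e1] at htt
  linarith

set_option maxHeartbeats 1000000 in
/-- **E-DIFF in `ED` names**, from the moment bound -/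
theorem ediff0_of (h2 : M2P) : EDIFF0 := by
  intro Λ BV B A γ0 hγ
  have hMM := one_le_MM A
  refine ⟨6 * MM A, by linarith, ?_⟩
  intro ε hε
  by_cases hs : 0 ≤ Λ ∧ 0 ≤ BV ∧ 0 ≤ B
  swap
  · -- the hypotheses are contradictory
    refine ⟨0, fun K _ => ⟨1, one_pos, fun p _ => ⟨0, fun N _ n _ μ ν eig W0 W1 a lam m1 cs bb Δ
      D H _ => ?_⟩⟩⟩
    exfalso
    apply hs
    refine ⟨(abs_nonneg _).trans (D.he (Fin.last N)), ?_, (abs_nonneg _).trans
      (D.hv (fun _ => true) true)⟩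
    have h1 := (abs_nonneg _).trans (D.hW1 fun _ => true)
    have h3 : (0:ℝ) < ((N + 1 : ℕ) : ℝ) := by positivity
    exact nonneg_of_mul_nonneg_left h1 h3
  obtain ⟨hΛ, hBV, hB⟩ := hs
  refine ⟨max 1 (8 / ε * RK Λ B A γ0 ε), fun K hK => ?_⟩
  have hK1 : 1 ≤ K := (le_max_left _ _).trans hK
  have hK0 : 0 < K := by linarith
  have hK2 : RK Λ B A γ0 ε ≤ (ε / 8) * K := by
    have h1 := (le_max_right 1 (8 / ε * RK Λ B A γ0 ε)).trans hK
    have h3 := mul_le_mul_of_nonneg_left h1 (by positivity : 0 ≤ ε / 8)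
    have e : ε / 8 * (8 / ε * RK Λ B A γ0 ε) = RK Λ B A γ0 ε := by field_simp
    rwa [e] at h3
  have hS : 0 < etaC Λ BV A γ0 ε K := etaC_pos hΛ hBV hγ hε
  have hS1 : etaC Λ BV A γ0 ε K ≤ 1 := etaC_le_one
  have hSR := sqrt_etaC (A := A) (K := K) hΛ hBV hγ hε
  refine ⟨etaC Λ BV A γ0 ε K, hS, fun p hnb => ?_⟩
  set S := etaC Λ BV A γ0 ε K with hSdef
  -- the choice of `Na`
  obtain ⟨Na, hNa⟩ := exists_nat_ge (1 + p.nc * p.T + cP p + (1 + Λ ^ 2) / S ^ 2 +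
    8 / ε * RN p Λ BV B A K)
  have hRN : 0 ≤ RN p Λ BV B A K := by
    obtain ⟨n1, n2, n3, n4, n5⟩ := RN_parts (p := p) (A := A) (K := K) hΛ hBV hB hK0.le
    unfold RN
    linarith
  refine ⟨Na, fun N hN n hn μ ν eig W0 W1 a lam m1 cs bb Δ D H hmean => ?_⟩
  have hNN : NOK p N Λ BV B A ε K S := by
    have hN2 : (Na : ℝ) ≤ N := by exact_mod_cast hN
    have hcP := cP_nonneg p
    have t1 : 0 ≤ (1 + Λ ^ 2) / S ^ 2 := by positivity
    have t2 : 0 ≤ 8 / ε * RN p Λ BV B A K := by positivity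
    have t3 : (0:ℝ) ≤ p.nc * p.T := by positivity
    have hN0 : (0:ℝ) < N := by linarith
    refine ⟨?_, ?_, ?_, ?_, ?_⟩
    · have : (1:ℝ) ≤ N := by linarith
      exact_mod_cast this
    · have : (p.nc : ℝ) * p.T ≤ N := by linarith
      exact_mod_cast this
    · linarith
    · rw [div_le_iff₀ hN0]
      have : (1 + Λ ^ 2) / S ^ 2 ≤ N := by linarith
      rw [div_le_iff₀ (by positivity)] at this
      linarith
    · have h1 : 8 / ε * RN p Λ BV B A K ≤ (N : ℝ) + 1 := by linarith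
      have h3 := mul_le_mul_of_nonneg_left h1 (by positivity : 0 ≤ ε / 8)
      have e : ε / 8 * (8 / ε * RN p Λ BV B A K) = RN p Λ BV B A K := by field_simp
      rwa [e] at h3
  have := D.pμ
  have := D.pν
  have hN' : 0 < N := hNN.h1
  have hN1 : (0:ℝ) < (N : ℝ) + 1 := by positivity
  obtain ⟨n1, n2, n3, n4, n5⟩ := RN_parts (p := p) (A := A) (K := K) hΛ hBV hB hK0.le
  refine ⟨O1_final h2 hnb hγ hε hΛ hBV hB hK1 hK2 hS hS1 hSR hNN D H hmean, ?_, ?_⟩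
  · intro g s hs
    have hg := abs_le_of_sum_sq (D.ha (Fin.last N)) g
    have hmag := mag_final h2 hnb hγ hε hΛ hBV hB hK1 hK2 hS hS1 hSR hNN D H hmean
      (fun w => zl w.2.1 g)
      (Eventually.of_forall fun q d => (sm2 (n := n) eig W0 W1 a lam (cplS q.1 q.2) q.1 d g).trans
        (MM_bound (by linarith)))
      (Eventually.of_forall fun q d => (sm1 hK0.le eig m1 (a (Fin.last N)) bb _ q.1 q.2
        (HN eig W0 a lam q.1) d g).trans (MM_bound (by linarith)))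
    refine (O2_core hnb hN' D.rμ D.rν hK0.le (D.ha _) g hmag s hs).trans ?_
    have q : (p.nc : ℝ) * p.T * (Real.sqrt (cT p) * (1 + |A|)) / ((N : ℝ) + 1) ≤ ε / 8 :=
      part_le hN1 (by unfold RN; linarith) hNN.hR
    refine add_le_add le_rfl (mul_le_mul_of_nonneg_left ?_ (abs_nonneg _))
    linarith
  · intro s hs
    have hmag := mag_final h2 hnb hγ hε hΛ hBV hB hK1 hK2 hS hS1 hSR hNN D H hmean
      (fun _ : OU p N n × LS p n => 1)
      (Eventually.of_forall fun q d => by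
        have h := eE_const (stQ_isProb (n := n) (HN eig W0 a lam q.1)
          (HN1 eig W1 a lam (cplS q.1 q.2)) d) ((1:ℝ) ^ 2)
        rw [h]
        simpa using one_le_MM A)
      (Eventually.of_forall fun q d => by
        have h := eE_const (tl_isProb (𝓕 := stF p N n) (stP_isProb (HN eig W0 a lam q.1) d)
          p.xs_expo.pos (fun w => psi K
            (redB (WX eig m1 (a (Fin.last N)) bb (fun _ _ => 0) q.1 q.2) w))) ((1:ℝ) ^ 2)
        rw [h]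
        simpa using one_le_MM A)
    refine (O3_core (A := A) hnb hN' D.rμ D.rν hK0.le hmag s hs).trans ?_
    have q : (p.nc : ℝ) * p.T / ((N : ℝ) + 1) ≤ ε / 8 :=
      part_le hN1 (by unfold RN; linarith) hNN.hR
    refine add_le_add le_rfl (mul_le_mul_of_nonneg_left ?_ (abs_nonneg _))
    linarith

end

end Crest.Agent.R164.ED
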