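import Crest.Agent.R164.GaussTilt
import Crest.Agent.R164.CavG1

/-!
Row 164, exact value of the nested Gaussian functional, part 1: one step of the recursion
(helper716).
-/

set_option autoImplicit false

namespace Crest.Agent.R164.EG

open MeasureTheory ProbabilityTheory ENNReal
open Crest.Agent.R164.GTilt (γ lintegral_add_gauss lintegral_gaussianReal)

noncomputable section

theorem pdf_QI (A B g : ℝ) (w : NNReal) {s : ℝ} (hs : 0 < s) (hsd : s = 1 - 2 * A)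
    (hw : (w : ℝ) = s⁻¹) :
    gaussianPDFReal 0 1 g * Real.exp (A * g ^ 2 + B * g) =
      (Real.sqrt s)⁻¹ * Real.exp (B ^ 2 / (2 * s)) * gaussianPDFReal (B / s) w g := by
  have hs0 : s ≠ 0 := hs.ne'
  unfold gaussianPDFReal
  simp only [NNReal.coe_one, mul_one, hw, sub_zero]
  have h3 : Real.sqrt (2 * Real.pi * s⁻¹) = Real.sqrt (2 * Real.pi) * (Real.sqrt s)⁻¹ := by
    rw [Real.sqrt_mul (by positivity), Real.sqrt_inv]
  rw [h3, mul_inv, inv_inv]
  have h4 : Real.sqrt s ≠ 0 := (Real.sqrt_pos.mpr hs).ne'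
  have h5 : (Real.sqrt s)⁻¹ * Real.exp (B ^ 2 / (2 * s)) *
      ((Real.sqrt (2 * Real.pi))⁻¹ * Real.sqrt s * Real.exp (-(g - B / s) ^ 2 / (2 * s⁻¹))) =
      ((Real.sqrt s)⁻¹ * Real.sqrt s) * (Real.sqrt (2 * Real.pi))⁻¹ *
      (Real.exp (B ^ 2 / (2 * s)) * Real.exp (-(g - B / s) ^ 2 / (2 * s⁻¹))) := by ring
  rw [h5, inv_mul_cancel₀ h4, one_mul, ← Real.exp_add, mul_assoc, ← Real.exp_add]
  congr 2
  have hA : A = (1 - s) / 2 := by linarith
  rw [hA]
  field_simp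
  ring

/-- Gaussian change of variables with a quadratic weight. -/
theorem QI (A B : ℝ) (hA : 0 < 1 - 2 * A) (h : ℝ → ℝ≥0∞) (hm : Measurable h) :
    ∫⁻ g, ENNReal.ofReal (Real.exp (A * g ^ 2 + B * g)) * h g ∂γ =
      ENNReal.ofReal ((Real.sqrt (1 - 2 * A))⁻¹ * Real.exp (B ^ 2 / (2 * (1 - 2 * A)))) *
        ∫⁻ x, h (B / (1 - 2 * A) + (Real.sqrt (1 - 2 * A))⁻¹ * x) ∂γ := by
  set s := 1 - 2 * A with hsdef
  have hsi : 0 ≤ s⁻¹ := by positivity
  obtain ⟨w, hw⟩ : ∃ w : NNReal, (w : ℝ) = s⁻¹ := ⟨Real.toNNReal s⁻¹, Real.coe_toNNReal _ hsi⟩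
  have hmap : γ.map (fun x => (Real.sqrt s)⁻¹ * x + B / s) = gaussianReal (B / s) w := by
    have e : (fun x : ℝ => (Real.sqrt s)⁻¹ * x + B / s) = (· + B / s) ∘ ((Real.sqrt s)⁻¹ * ·) := rfl
    rw [e, ← Measure.map_map (by fun_prop) (by fun_prop), gaussianReal_map_const_mul,
      gaussianReal_map_add_const]
    simp only [mul_zero, zero_add, mul_one]
    congr 1
    ext
    rw [hw]
    show ((Real.sqrt s)⁻¹) ^ 2 = s⁻¹
    rw [inv_pow, Real.sq_sqrt hA.le]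
  have hwne : w ≠ 0 := by
    intro h
    rw [h] at hw
    simp only [NNReal.coe_zero] at hw
    exact (inv_ne_zero hA.ne') hw.symm
  have hR : ∫⁻ x, h (B / s + (Real.sqrt s)⁻¹ * x) ∂γ = ∫⁻ z, h z ∂(gaussianReal (B / s) w) := by
    rw [← hmap, lintegral_map hm (by fun_prop)]
    refine lintegral_congr fun x => ?_
    congr 1
    ring
  have hEm : Measurable (fun g : ℝ => ENNReal.ofReal (Real.exp (A * g ^ 2 + B * g))) := by fun_prop
  have hL := lintegral_gaussianReal 0 one_ne_zero (hEm.mul hm)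
  simp only [Pi.mul_apply] at hL
  have hC := lintegral_const_mul (ENNReal.ofReal ((Real.sqrt s)⁻¹ *
    Real.exp (B ^ 2 / (2 * s)))) ((measurable_gaussianPDF (B / s) w).mul hm) (μ := volume)
  simp only [Pi.mul_apply] at hC
  rw [hR, hL, lintegral_gaussianReal (B / s) hwne hm, ← hC]
  refine lintegral_congr fun z => ?_
  have hgoal : gaussianPDF 0 1 z * ENNReal.ofReal (Real.exp (A * z ^ 2 + B * z)) =
      ENNReal.ofReal ((Real.sqrt s)⁻¹ * Real.exp (B ^ 2 / (2 * s))) * gaussianPDF (B / s) w z := by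
    unfold gaussianPDF
    rw [← ENNReal.ofReal_mul (gaussianPDFReal_nonneg _ _ _), ← ENNReal.ofReal_mul (by positivity)]
    congr 1
    exact pdf_QI A B z w hA hsdef hw
  rw [← mul_assoc, hgoal, mul_assoc]

/-- total mass version -/
theorem QI_one (A B C : ℝ) (hA : 0 < 1 - 2 * A) :
    ∫⁻ g, ENNReal.ofReal (Real.exp (A * g ^ 2 + B * g + C)) ∂γ =
      ENNReal.ofReal ((Real.sqrt (1 - 2 * A))⁻¹ * Real.exp (B ^ 2 / (2 * (1 - 2 * A)) + C)) := by
  have h := QI A B hA (fun _ => ENNReal.ofReal (Real.exp C)) measurable_const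
  simp only [lintegral_const, measure_univ, mul_one] at h
  have h1 : ∀ g : ℝ, ENNReal.ofReal (Real.exp (A * g ^ 2 + B * g + C)) =
      ENNReal.ofReal (Real.exp (A * g ^ 2 + B * g)) * ENNReal.ofReal (Real.exp C) := by
    intro g
    rw [← ENNReal.ofReal_mul (Real.exp_pos _).le, ← Real.exp_add]
  simp only [h1]
  rw [h, ← ENNReal.ofReal_mul (by positivity), mul_assoc, ← Real.exp_add]

/-- the quadratic part of the recursion -/
def Qf (s θ x z : ℝ) : ℝ := -(θ * x ^ 2 + 2 * x * z - s * z ^ 2) / (2 * (1 + θ * s))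

/-- integrating the first coordinate. -/
theorem Qf_eta {a s σ θ : ℝ} (ha : 0 < a) (hs : s ≤ σ) (h1 : 0 < 1 + θ * s)
    (h2 : 0 < 1 + θ * σ) (u z : ℝ) :
    ∫⁻ g, ENNReal.ofReal (Real.exp (a * Qf s θ (u + Real.sqrt ((σ - s) / a) * g) z)) ∂γ =
      ENNReal.ofReal (Real.sqrt ((1 + θ * s) / (1 + θ * σ)) * Real.exp (a * Qf σ θ u z)) := by
  have n1 : 1 + θ * s ≠ 0 := h1.ne'
  have n2 : 1 + θ * σ ≠ 0 := h2.ne'
  set q := Real.sqrt ((σ - s) / a) with hq
  have hq2 : q ^ 2 = (σ - s) / a := Real.sq_sqrt (div_nonneg (by linarith) ha.le)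
  have hq3 : a * q ^ 2 = σ - s := by rw [hq2]; field_simp
  have hA : 1 - 2 * (-(a * θ * q ^ 2) / (2 * (1 + θ * s))) = (1 + θ * σ) / (1 + θ * s) := by
    have : a * θ * q ^ 2 = θ * (σ - s) := by rw [← hq3]; ring
    rw [this]
    field_simp
    ring
  have hpos : 0 < 1 - 2 * (-(a * θ * q ^ 2) / (2 * (1 + θ * s))) := by rw [hA]; positivity
  have h := QI_one (-(a * θ * q ^ 2) / (2 * (1 + θ * s))) (-(a * q * (θ * u + z)) / (1 + θ * s))
    (a * Qf s θ u z) hpos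
  have e1 : ∀ g : ℝ, a * Qf s θ (u + q * g) z = -(a * θ * q ^ 2) / (2 * (1 + θ * s)) * g ^ 2 +
      -(a * q * (θ * u + z)) / (1 + θ * s) * g + a * Qf s θ u z := by
    intro g
    unfold Qf
    field_simp
    ring
  simp only [e1]
  rw [h, hA]
  congr 1
  have e2 : (Real.sqrt ((1 + θ * σ) / (1 + θ * s)))⁻¹ = Real.sqrt ((1 + θ * s) / (1 + θ * σ)) := by
    rw [← Real.sqrt_inv, inv_div]
  rw [e2]
  congr 2
  have e3 : (-(a * q * (θ * u + z)) / (1 + θ * s)) ^ 2 =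
      a * (σ - s) * (θ * u + z) ^ 2 / (1 + θ * s) ^ 2 := by
    rw [div_pow, ← hq3]; ring
  rw [e3]
  unfold Qf
  have key : (σ - s) * (θ * u + z) ^ 2 - (θ * u ^ 2 + 2 * u * z - s * z ^ 2) * (1 + θ * σ) =
    -(θ * u ^ 2 + 2 * u * z - σ * z ^ 2) * (1 + θ * s) := by ring
  generalize 1 + θ * s = P at *
  generalize 1 + θ * σ = P' at *
  have e4 : a * (σ - s) * (θ * u + z) ^ 2 / P ^ 2 / (2 * (P' / P)) +
      a * (-(θ * u ^ 2 + 2 * u * z - s * z ^ 2) / (2 * P)) =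
      a * ((σ - s) * (θ * u + z) ^ 2 - (θ * u ^ 2 + 2 * u * z - s * z ^ 2) * P') /
        (2 * P' * P) := by
    field_simp
    ring
  rw [e4, key]
  field_simp

/-- One step of the recursion, in standard coordinates. -/
theorem step_core {a s s' ρ θ : ℝ} (ha : 0 < a) (hs' : 0 ≤ s') (hρ : 0 ≤ ρ)
    (hss : s ≤ s' / (1 + s' * ρ)) (h1 : 0 < 1 + θ * s) (h2 : 0 < 1 + (θ + ρ) * s') (x z : ℝ)
    (h : ℝ → ℝ≥0∞) (hm : Measurable h) :
    ∫⁻ g₁, ∫⁻ g₂, ENNReal.ofReal (Real.exp (a * Qf s θ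
        (x + s' / (1 + s' * ρ) * (Real.sqrt (ρ * (1 + s' * ρ) / a) * g₁) +
          Real.sqrt ((s' / (1 + s' * ρ) - s) / a) * g₂)
        (z + ρ * x + Real.sqrt (ρ * (1 + s' * ρ) / a) * g₁))) *
        h (z + ρ * x + Real.sqrt (ρ * (1 + s' * ρ) / a) * g₁) ∂γ ∂γ =
      ENNReal.ofReal (Real.sqrt ((1 + θ * s) / (1 + (θ + ρ) * s')) *
        Real.exp (a * Qf s' (θ + ρ) x z)) * ∫⁻ g, h (z + Real.sqrt (ρ / a) * g) ∂γ := by
  have hE : 0 < 1 + s' * ρ := by positivity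
  have nE : 1 + s' * ρ ≠ 0 := hE.ne'
  set E := 1 + s' * ρ with hEd
  set σ := s' / E with hσ
  have hσE : σ * E = s' := by rw [hσ]; field_simp
  set q := Real.sqrt (ρ * E / a) with hq
  have hq2 : q ^ 2 = ρ * E / a := Real.sq_sqrt (by positivity)
  have hq3 : a * q ^ 2 = ρ * E := by rw [hq2]; field_simp
  have hσ1 : (1 + θ * σ) * E = 1 + (θ + ρ) * s' := by
    have : (1 + θ * σ) * E = E + θ * (σ * E) := by ring
    rw [this, hσE, hEd]; ring
  have h3 : 0 < 1 + θ * σ := by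
    have : 0 < (1 + θ * σ) * E := by rw [hσ1]; exact h2
    exact (pos_iff_pos_of_mul_pos this).2 hE
  have n3 := h3.ne'
  have n2 := h2.ne'
  have n1 := h1.ne'
  -- inner integral
  have hin : ∀ g₁ : ℝ, ∫⁻ g₂, ENNReal.ofReal (Real.exp (a * Qf s θ
        (x + σ * (q * g₁) + Real.sqrt ((σ - s) / a) * g₂) (z + ρ * x + q * g₁))) *
        h (z + ρ * x + q * g₁) ∂γ =
      ENNReal.ofReal (Real.sqrt ((1 + θ * s) / (1 + θ * σ)) * Real.exp (a * Qf σ θ x (z + ρ * x))) *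
      (ENNReal.ofReal (Real.exp (-(s' * ρ) / 2 * g₁ ^ 2 + -(a * x * q) * g₁)) *
        h (z + ρ * x + q * g₁)) := by
    intro g₁
    have hmF : Measurable fun g₂ : ℝ => ENNReal.ofReal (Real.exp (a * Qf s θ
        (x + σ * (q * g₁) + Real.sqrt ((σ - s) / a) * g₂) (z + ρ * x + q * g₁))) := by
      unfold Qf; fun_prop
    rw [lintegral_mul_const _ hmF, Qf_eta ha hss h1 h3,
      ← mul_assoc (ENNReal.ofReal _) (ENNReal.ofReal _)]
    congr 1
    rw [← ENNReal.ofReal_mul (by positivity), mul_assoc, ← Real.exp_add]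
    congr 3
    have e1 : Qf σ θ (x + σ * (q * g₁)) (z + ρ * x + q * g₁) =
        Qf σ θ x (z + ρ * x) - x * (q * g₁) - σ / 2 * (q * g₁) ^ 2 := by
      unfold Qf
      field_simp
      ring
    rw [e1]
    have e2 : a * (σ / 2 * (q * g₁) ^ 2) = s' * ρ / 2 * g₁ ^ 2 := by
      have : a * (σ / 2 * (q * g₁) ^ 2) = (a * q ^ 2) * σ / 2 * g₁ ^ 2 := by ring
      rw [this, hq3]
      have : ρ * E * σ = s' * ρ := by rw [← hσE]; ring
      rw [this]
    have e3 : a * (Qf σ θ x (z + ρ * x) - x * (q * g₁) - σ / 2 * (q * g₁) ^ 2) =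
      a * Qf σ θ x (z + ρ * x) - a * (x * (q * g₁)) - a * (σ / 2 * (q * g₁) ^ 2) := by ring
    rw [e3, e2]
    ring
  simp only [hin]
  have hmh : Measurable fun g₁ : ℝ => h (z + ρ * x + q * g₁) := hm.comp (by fun_prop)
  have hmE : Measurable fun g₁ : ℝ => ENNReal.ofReal (Real.exp (-(s' * ρ) / 2 * g₁ ^ 2 +
    -(a * x * q) * g₁)) := by fun_prop
  have hcm := lintegral_const_mul (ENNReal.ofReal (Real.sqrt ((1 + θ * s) / (1 + θ * σ)) *
    Real.exp (a * Qf σ θ x (z + ρ * x)))) (hmE.mul hmh) (μ := γ)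
  simp only [Pi.mul_apply] at hcm
  rw [hcm]
  have hA : 1 - 2 * (-(s' * ρ) / 2) = E := by rw [hEd]; ring
  have hQ := QI (-(s' * ρ) / 2) (-(a * x * q)) (by rw [hA]; exact hE)
    (fun g₁ => h (z + ρ * x + q * g₁)) hmh
  rw [hQ, hA, ← mul_assoc]
  congr 1
  · rw [← ENNReal.ofReal_mul (by positivity)]
    congr 1
    have e4 : Real.sqrt ((1 + θ * s) / (1 + (θ + ρ) * s')) =
        Real.sqrt ((1 + θ * s) / (1 + θ * σ)) * (Real.sqrt E)⁻¹ := by
      rw [← hσ1, ← Real.sqrt_inv, ← Real.sqrt_mul (by positivity)]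
      congr 1
      field_simp
    have e5 : (-(a * x * q)) ^ 2 / (2 * E) = a * (x ^ 2 * ρ / 2) := by
      have : (-(a * x * q)) ^ 2 = a * x ^ 2 * (a * q ^ 2) := by ring
      rw [this, hq3]
      field_simp
    have e6 : Qf σ θ x (z + ρ * x) + x ^ 2 * ρ / 2 = Qf s' (θ + ρ) x z := by
      have key : -(θ * x ^ 2 + 2 * x * (z + ρ * x) - σ * (z + ρ * x) ^ 2) * E +
          x ^ 2 * ρ * ((1 + θ * σ) * E) = -((θ + ρ) * x ^ 2 + 2 * x * z - s' * z ^ 2) := by
        rw [hσ1]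
        have : -(θ * x ^ 2 + 2 * x * (z + ρ * x) - σ * (z + ρ * x) ^ 2) * E =
          -(θ * x ^ 2 + 2 * x * (z + ρ * x)) * E + (σ * E) * (z + ρ * x) ^ 2 := by ring
        rw [this, hσE, hEd]; ring
      unfold Qf
      rw [← key, ← hσ1]
      generalize 1 + θ * σ = P at *
      field_simp
    rw [e4, e5, ← e6, mul_add, Real.exp_add]
    ring
  · refine lintegral_congr fun g => ?_
    congr 1
    have e7 : q * (-(a * x * q) / E + (Real.sqrt E)⁻¹ * g) = -(ρ * x) + Real.sqrt (ρ / a) * g := by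
      have e8 : q * (-(a * x * q) / E) = -(ρ * x) := by
        have : q * (-(a * x * q) / E) = -((a * q ^ 2) * x) / E := by ring
        rw [this, hq3]; field_simp
      have e9 : q * (Real.sqrt E)⁻¹ = Real.sqrt (ρ / a) := by
        rw [hq, ← Real.sqrt_inv, ← Real.sqrt_mul (by positivity)]
        congr 1
        field_simp
      rw [mul_add, e8, ← mul_assoc, e9]
    rw [e7]
    ring

end

end Crest.Agent.R164.EG
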