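import Crest.Agent.R164.RTrans

/-!
Row 164: comparison/stability of the R-transform, spectral part and variational values.
-/

set_option autoImplicit false

namespace Crest.Agent.R164.RTrans

open MeasureTheory Crest.ProbabilityR.InvariantGlass Set Filter Topology

variable {μ : Measure ℝ} [IsProbabilityMeasure μ] {lo hi : ℝ}

lemma rp_ge (h : μ (Icc lo hi) = 1) {x : ℝ} (hx : 0 < x) : hi ≤ resolventPoint μ hi x := by
  rcases rp_cases h hx with ⟨h1, _⟩ | ⟨h1, _⟩
  · exact h1.le
  · exact h1.ge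

lemma rp_lt_iff (h : μ (Icc lo hi) = 1) {x z : ℝ} (hx : 0 < x) (hz : hi < z) :
    resolventPoint μ hi x < z ↔ G μ z < x := by
  rcases rp_cases h hx with ⟨h1, h2⟩ | ⟨h1, h2⟩
  · constructor
    · intro hlt
      have := G_strictAnti h h1 hlt
      linarith
    · intro hlt
      by_contra hc
      push Not at hc
      have := G_anti h hz hc
      linarith
  · rw [h1]
    exact ⟨fun _ => h2 z hz, fun _ => hz⟩

lemma lt_rp_iff (h : μ (Icc lo hi) = 1) {x z : ℝ} (hx : 0 < x) (hz : hi < z) :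
    z < resolventPoint μ hi x ↔ x < G μ z := by
  rcases rp_cases h hx with ⟨h1, h2⟩ | ⟨h1, h2⟩
  · constructor
    · intro hlt
      have := G_strictAnti h hz hlt
      linarith
    · intro hlt
      by_contra hc
      push Not at hc
      have := G_anti h h1 hc
      linarith
  · rw [h1]
    constructor
    · intro hlt; linarith
    · intro hlt; have := h2 z hz; linarith

variable {ν : Measure ℝ} [IsProbabilityMeasure ν] {lo' hi' : ℝ}

/-- Comparison of resolvent points. -/
lemma rp_compare_le (h : μ (Icc lo hi) = 1) (h' : ν (Icc lo' hi') = 1) (hhi : hi ≤ hi')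
    (hG : ∀ z, hi' < z → G μ z ≤ G ν z) {x : ℝ} (hx : 0 < x) :
    resolventPoint μ hi x ≤ resolventPoint ν hi' x := by
  refine le_of_forall_gt fun z hz => ?_
  have hz' : hi' < z := lt_of_le_of_lt (rp_ge h' hx) hz
  have h1 := (rp_lt_iff h' hx hz').1 hz
  exact (rp_lt_iff h hx (lt_of_le_of_lt hhi hz')).2 (lt_of_le_of_lt (hG z hz') h1)

lemma rp_compare_add (h : μ (Icc lo hi) = 1) (h' : ν (Icc lo' hi') = 1) {ε : ℝ}
    (hhi : hi' ≤ hi + ε) (hG : ∀ z, hi < z → G ν (z + ε) ≤ G μ z) {x : ℝ} (hx : 0 < x) :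
    resolventPoint ν hi' x ≤ resolventPoint μ hi x + ε := by
  rw [← sub_le_iff_le_add]
  refine le_of_forall_gt fun z hz => ?_
  have hz' : hi < z := lt_of_le_of_lt (rp_ge h hx) hz
  have h1 := (rp_lt_iff h hx hz').1 hz
  have h2 := (rp_lt_iff h' hx (z := z + ε) (by linarith)).2 (lt_of_le_of_lt (hG z hz') h1)
  linarith

/-- Comparison of the R-transforms on `[0,1]`. -/
lemma rT_compare (h : μ (Icc lo hi) = 1) (h' : ν (Icc lo' hi') = 1) {ε : ℝ}
    (hhi : hi ≤ hi') (hhi' : hi' ≤ hi + ε) (hG : ∀ z, hi' < z → G μ z ≤ G ν z)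
    (hG' : ∀ z, hi < z → G ν (z + ε) ≤ G μ z) {x : ℝ} (hx : x ∈ Icc (0:ℝ) 1) :
    rTransform μ hi x ≤ rTransform ν hi' x ∧ rTransform ν hi' x ≤ rTransform μ hi x + ε := by
  have pos : ∀ x : ℝ, 0 < x → rTransform μ hi x ≤ rTransform ν hi' x ∧
      rTransform ν hi' x ≤ rTransform μ hi x + ε := by
    intro x hx
    rw [rT_pos hx, rT_pos hx]
    have h1 := rp_compare_le h h' hhi hG hx
    have h2 := rp_compare_add h h' hhi' hG' hx
    exact ⟨by linarith, by linarith⟩
  rcases hx.1.eq_or_lt with h0 | h0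
  · subst h0
    have e1 : ∀ n : ℕ, |rTransform μ hi 0 - rTransform μ hi (1 / ((n:ℝ) + 1))| ≤
        (hi - lo) ^ 2 * (1 + (hi - lo)) * |0 - 1 / ((n:ℝ) + 1)| := by
      intro n
      refine rT_lip h ⟨le_rfl, zero_le_one⟩ ⟨by positivity, ?_⟩
      rw [div_le_one (by positivity)]; linarith [(Nat.cast_nonneg n : (0:ℝ) ≤ n)]
    have e2 : ∀ n : ℕ, |rTransform ν hi' 0 - rTransform ν hi' (1 / ((n:ℝ) + 1))| ≤
        (hi' - lo') ^ 2 * (1 + (hi' - lo')) * |0 - 1 / ((n:ℝ) + 1)| := by
      intro n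
      refine rT_lip h' ⟨le_rfl, zero_le_one⟩ ⟨by positivity, ?_⟩
      rw [div_le_one (by positivity)]; linarith [(Nat.cast_nonneg n : (0:ℝ) ≤ n)]
    have ht0 : Tendsto (fun n : ℕ => 1 / ((n:ℝ) + 1)) atTop (𝓝 0) :=
      tendsto_one_div_add_atTop_nhds_zero_nat
    have t1 : Tendsto (fun n : ℕ => rTransform μ hi (1 / ((n:ℝ) + 1))) atTop
        (𝓝 (rTransform μ hi 0)) := by
      rw [tendsto_iff_dist_tendsto_zero]
      refine squeeze_zero (g := fun n : ℕ => (hi - lo) ^ 2 * (1 + (hi - lo)) * |0 - 1 / ((n:ℝ) + 1)|)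
        (fun _ => dist_nonneg) (fun n => ?_) ?_
      · rw [dist_comm, Real.dist_eq]; exact e1 n
      · have : Tendsto (fun n : ℕ => (hi - lo) ^ 2 * (1 + (hi - lo)) * |0 - 1 / ((n:ℝ) + 1)|) atTop
            (𝓝 ((hi - lo) ^ 2 * (1 + (hi - lo)) * |0 - 0|)) :=
          ((ht0.const_sub 0).abs).const_mul _
        simpa using this
    have t2 : Tendsto (fun n : ℕ => rTransform ν hi' (1 / ((n:ℝ) + 1))) atTop
        (𝓝 (rTransform ν hi' 0)) := by
      rw [tendsto_iff_dist_tendsto_zero]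
      refine squeeze_zero
        (g := fun n : ℕ => (hi' - lo') ^ 2 * (1 + (hi' - lo')) * |0 - 1 / ((n:ℝ) + 1)|)
        (fun _ => dist_nonneg) (fun n => ?_) ?_
      · rw [dist_comm, Real.dist_eq]; exact e2 n
      · have : Tendsto (fun n : ℕ => (hi' - lo') ^ 2 * (1 + (hi' - lo')) * |0 - 1 / ((n:ℝ) + 1)|)
            atTop (𝓝 ((hi' - lo') ^ 2 * (1 + (hi' - lo')) * |0 - 0|)) :=
          ((ht0.const_sub 0).abs).const_mul _
        simpa using this
    constructor
    · exact le_of_tendsto_of_tendsto' t1 t2 (fun n => (pos _ (by positivity)).1)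
    · exact le_of_tendsto_of_tendsto' t2 (t1.add_const ε) (fun n => (pos _ (by positivity)).2)
  · exact pos x h0

/-- Averages of continuous functions: extension of weak convergence to functions continuous on a
neighbourhood of the support. -/
lemma tendsto_avg (h : μ (Icc lo hi) = 1) (eig : (N : ℕ) → Fin N → ℝ)
    (hweak : ∀ φ : ℝ → ℝ, Continuous φ → (∃ C : ℝ, ∀ x, |φ x| ≤ C) →
      Tendsto (fun N : ℕ => (1 / (N : ℝ)) * ∑ i : Fin N, φ (eig N i)) atTop (𝓝 (∫ x, φ x ∂μ)))
    {δ : ℝ} (hδ : 0 < δ)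
    (hext : ∀ᶠ N : ℕ in atTop, ∀ i : Fin N, lo - δ ≤ eig N i ∧ eig N i ≤ hi + δ)
    {φ : ℝ → ℝ} (hφ : ContinuousOn φ (Icc (lo - δ) (hi + δ))) :
    Tendsto (fun N : ℕ => (1 / (N : ℝ)) * ∑ i : Fin N, φ (eig N i)) atTop (𝓝 (∫ x, φ x ∂μ)) := by
  have hlh := lo_le_hi h
  have hle : lo - δ ≤ hi + δ := by linarith
  set ψ : ℝ → ℝ := fun x => φ (projIcc (lo - δ) (hi + δ) hle x) with hψ
  have hψc : Continuous ψ := by
    have : Continuous (fun x : Icc (lo - δ) (hi + δ) => φ x) := hφ.domRestrict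
    exact this.comp continuous_projIcc
  have hψb : ∃ C : ℝ, ∀ x, |ψ x| ≤ C := by
    obtain ⟨C, hC⟩ := isCompact_Icc.exists_bound_of_continuousOn hφ
    exact ⟨C, fun x => hC _ (projIcc (lo - δ) (hi + δ) hle x).2⟩
  have h1 := hweak ψ hψc hψb
  have e : ∫ x, ψ x ∂μ = ∫ x, φ x ∂μ := by
    refine integral_congr_ae ?_
    filter_upwards [ae_mem h] with x hx
    have : x ∈ Icc (lo - δ) (hi + δ) := ⟨by linarith [hx.1], by linarith [hx.2]⟩
    simp only [hψ]
    rw [projIcc_of_mem hle this]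
  rw [e] at h1
  refine h1.congr' ?_
  filter_upwards [hext] with N hN
  congr 1
  refine Finset.sum_congr rfl fun i _ => ?_
  simp only [hψ]
  rw [projIcc_of_mem hle (hN i)]

/-! ### The deficit and the spectral part -/

lemma pos_part_integrable {p : ℝ → ℝ} (hp : IsTrialPath p) (r : ℝ) (hr : 0 ≤ r) :
    IntegrableOn (fun s => max (p s - r) 0) (Ioo (0:ℝ) 1) := by
  refine Measure.integrableOn_of_bounded (M := 1) (by simp) ?_ ?_
  · exact ((hp.1.sub_const r).max measurable_const).aestronglyMeasurable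
  · filter_upwards [ae_restrict_mem measurableSet_Ioo] with s hs
    rw [Real.norm_eq_abs, abs_of_nonneg (le_max_right _ _)]
    exact max_le (by linarith [(hp.2.2 s hs).2]) zero_le_one

lemma deficit_mem {p : ℝ → ℝ} (hp : IsTrialPath p) {r : ℝ} (hr : r ∈ Ioo (0:ℝ) 1) :
    deficit p r ∈ Icc (0:ℝ) 1 := by
  unfold deficit
  have h1 : ∫ s in Ioo (0:ℝ) 1, max (p s - r) 0 ≤ ∫ s in Ioo (0:ℝ) 1, (1 - r) := by
    refine setIntegral_mono_on (pos_part_integrable hp r hr.1.le) (integrable_const _)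
      measurableSet_Ioo ?_
    intro s hs
    exact max_le (by linarith [(hp.2.2 s hs).2]) (by linarith [hr.2])
  have h2 : 0 ≤ ∫ s in Ioo (0:ℝ) 1, max (p s - r) 0 :=
    setIntegral_nonneg measurableSet_Ioo (fun s _ => le_max_right _ _)
  have h3 : ∫ s in Ioo (0:ℝ) 1, (1 - r) = 1 - r := by simp
  rw [h3] at h1
  constructor <;> linarith [hr.1, hr.2]

lemma deficit_sub_le {p q : ℝ → ℝ} (hp : IsTrialPath p) (hq : IsTrialPath q) {r : ℝ}
    (hr : r ∈ Ioo (0:ℝ) 1) :
    |deficit p r - deficit q r| ≤ ∫ s in Ioo (0:ℝ) 1, |p s - q s| := by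
  unfold deficit
  have e : (1 - r - ∫ s in Ioo (0:ℝ) 1, max (p s - r) 0) -
      (1 - r - ∫ s in Ioo (0:ℝ) 1, max (q s - r) 0) =
      ∫ s in Ioo (0:ℝ) 1, (max (q s - r) 0 - max (p s - r) 0) := by
    rw [integral_sub (pos_part_integrable hq r hr.1.le) (pos_part_integrable hp r hr.1.le)]
    ring
  rw [e]
  have hint : IntegrableOn (fun s => |p s - q s|) (Ioo (0:ℝ) 1) := by
    refine Measure.integrableOn_of_bounded (M := 1) (by simp) ?_ ?_
    · exact (hp.1.sub hq.1).abs.aestronglyMeasurable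
    · filter_upwards [ae_restrict_mem measurableSet_Ioo] with s hs
      rw [Real.norm_eq_abs, abs_abs, abs_le]
      have a := hp.2.2 s hs
      have b := hq.2.2 s hs
      constructor <;> linarith [a.1, a.2, b.1, b.2]
  refine (abs_integral_le_integral_abs).trans ?_
  refine setIntegral_mono_on ?_ hint measurableSet_Ioo ?_
  · exact ((pos_part_integrable hq r hr.1.le).sub (pos_part_integrable hp r hr.1.le)).abs
  · intro s _
    calc |max (q s - r) 0 - max (p s - r) 0| ≤ |(q s - r) - (p s - r)| :=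
          abs_max_sub_max_le_abs _ _ _
      _ = |p s - q s| := by rw [abs_sub_comm]; congr 1; ring

lemma deficit_antitone {p : ℝ → ℝ} (hp : IsTrialPath p) {r r' : ℝ} (hr : r ∈ Ioo (0:ℝ) 1)
    (hr' : r' ∈ Ioo (0:ℝ) 1) (hrr : r ≤ r') : deficit p r' ≤ deficit p r := by
  unfold deficit
  have h1 : (∫ s in Ioo (0:ℝ) 1, max (p s - r) 0) ≤
      ∫ s in Ioo (0:ℝ) 1, (max (p s - r') 0 + (r' - r)) := by
    refine setIntegral_mono_on (pos_part_integrable hp r hr.1.le)
      ((pos_part_integrable hp r' hr'.1.le).add (integrable_const _))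
      measurableSet_Ioo ?_
    intro s _
    refine max_le ?_ ?_
    · have := le_max_left (p s - r') 0; linarith
    · have := le_max_right (p s - r') 0; linarith
  rw [integral_add (pos_part_integrable hp r' hr'.1.le) (by simp)] at h1
  have h3 : ∫ s in Ioo (0:ℝ) 1, (r' - r) = r' - r := by simp
  rw [h3] at h1
  linarith

lemma integrand_integrable (h : μ (Icc lo hi) = 1) {p : ℝ → ℝ} (hp : IsTrialPath p) :
    IntegrableOn (fun r => rTransform μ hi (deficit p r)) (Ioo (0:ℝ) 1) := by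
  refine Integrable.mono' (integrable_const (max |lo| |hi|)) ?_ ?_
  · refine AEMeasurable.aestronglyMeasurable ?_
    refine aemeasurable_restrict_of_antitoneOn (μ := volume) (s := Ioo (0:ℝ) 1)
      (f := fun r => rTransform μ hi (deficit p r)) measurableSet_Ioo ?_
    intro r hr r' hr' hrr
    exact rT_mono h (deficit_mem hp hr').1 (deficit_antitone hp hr hr' hrr)
  · filter_upwards [ae_restrict_mem measurableSet_Ioo] with r hr
    have := rT_mem h (deficit_mem hp hr).1
    rw [Real.norm_eq_abs]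
    exact abs_le_max_abs_abs this.1 this.2

lemma spectralPart_lip (h : μ (Icc lo hi) = 1) {p q : ℝ → ℝ} (hp : IsTrialPath p)
    (hq : IsTrialPath q) :
    |spectralPart μ hi p - spectralPart μ hi q| ≤
      (1 / 2) * ((hi - lo) ^ 2 * (1 + (hi - lo))) * ∫ s in Ioo (0:ℝ) 1, |p s - q s| := by
  have hlh := lo_le_hi h
  unfold spectralPart
  rw [← mul_sub, ← integral_sub (integrand_integrable h hp) (integrand_integrable h hq), abs_mul,
    abs_of_nonneg (by norm_num : (0:ℝ) ≤ 1 / 2), mul_assoc]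
  refine mul_le_mul_of_nonneg_left ?_ (by norm_num)
  refine (abs_integral_le_integral_abs).trans ?_
  calc ∫ r in Ioo (0:ℝ) 1, |rTransform μ hi (deficit p r) - rTransform μ hi (deficit q r)|
      ≤ ∫ r in Ioo (0:ℝ) 1, ((hi - lo) ^ 2 * (1 + (hi - lo))) *
          ∫ s in Ioo (0:ℝ) 1, |p s - q s| := by
        refine setIntegral_mono_on
          ((integrand_integrable h hp).sub (integrand_integrable h hq)).abs (integrable_const _)
          measurableSet_Ioo ?_
        intro r hr
        refine (rT_lip h (deficit_mem hp hr) (deficit_mem hq hr)).trans ?_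
        refine mul_le_mul_of_nonneg_left (deficit_sub_le hp hq hr) ?_
        have : 0 ≤ hi - lo := by linarith
        positivity
    _ = _ := by simp

lemma spectralPart_compare (h : μ (Icc lo hi) = 1) (h' : ν (Icc lo' hi') = 1) {ε : ℝ}
    (hR : ∀ x ∈ Icc (0:ℝ) 1, rTransform μ hi x ≤ rTransform ν hi' x ∧
      rTransform ν hi' x ≤ rTransform μ hi x + ε) {p : ℝ → ℝ} (hp : IsTrialPath p) :
    spectralPart μ hi p ≤ spectralPart ν hi' p ∧
      spectralPart ν hi' p ≤ spectralPart μ hi p + ε / 2 := by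
  unfold spectralPart
  constructor
  · refine mul_le_mul_of_nonneg_left ?_ (by norm_num)
    exact setIntegral_mono_on (integrand_integrable h hp) (integrand_integrable h' hp)
      measurableSet_Ioo (fun r hr => (hR _ (deficit_mem hp hr)).1)
  · have h1 : ∫ r in Ioo (0:ℝ) 1, rTransform ν hi' (deficit p r) ≤
        ∫ r in Ioo (0:ℝ) 1, (rTransform μ hi (deficit p r) + ε) :=
      setIntegral_mono_on (integrand_integrable h' hp)
        ((integrand_integrable h hp).add (integrable_const _))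
        measurableSet_Ioo (fun r hr => (hR _ (deficit_mem hp hr)).2)
    rw [integral_add (integrand_integrable h hp) (by simp)] at h1
    have h3 : ∫ s in Ioo (0:ℝ) 1, ε = ε := by simp
    rw [h3] at h1
    linarith

/-! ### Comparison of the variational values -/

lemma ereal_le_add_of_sub {a b : EReal} {c : ℝ} (h : a - (c : EReal) ≤ b) :
    a ≤ b + (c : EReal) := by
  rwa [EReal.sub_le_iff_le_add] at h
  · left; exact EReal.coe_ne_bot c
  · left; exact EReal.coe_ne_top c

/-- A general comparison: `⨅ (S + g) ≤ ⨅ (S + g')` etc. -/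
lemma iInf_compare {ι : Sort*} (P : ι → Prop) (S : ι → EReal) (g g' : ι → ℝ) {c : ℝ}
    (h1 : ∀ i, P i → g i ≤ g' i) (h2 : ∀ i, P i → g' i ≤ g i + c) :
    (⨅ (i : ι) (_ : P i), S i + (g i : EReal)) ≤ (⨅ (i : ι) (_ : P i), S i + (g' i : EReal)) ∧
    (⨅ (i : ι) (_ : P i), S i + (g' i : EReal)) ≤
      (⨅ (i : ι) (_ : P i), S i + (g i : EReal)) + (c : EReal) := by
  constructor
  · refine iInf_mono fun i => iInf_mono fun hi => ?_
    exact add_le_add le_rfl (EReal.coe_le_coe_iff.2 (h1 i hi))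
  · refine ereal_le_add_of_sub ?_
    refine le_iInf fun i => le_iInf fun hi => ?_
    have h3 : (⨅ (i : ι) (_ : P i), S i + (g' i : EReal)) ≤ S i + (g' i : EReal) :=
      iInf₂_le i hi
    have h4 : S i + (g' i : EReal) ≤ (S i + (g i : EReal)) + (c : EReal) := by
      rw [add_assoc, ← EReal.coe_add]
      exact add_le_add le_rfl (EReal.coe_le_coe_iff.2 (h2 i hi))
    have h5 := h3.trans h4
    rw [EReal.sub_le_iff_le_add]
    · exact h5
    · left; exact EReal.coe_ne_bot c
    · left; exact EReal.coe_ne_top c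

lemma variationalValue_compare (h : μ (Icc lo hi) = 1) (h' : ν (Icc lo' hi') = 1) {ε : ℝ}
    (hR : ∀ x ∈ Icc (0:ℝ) 1, rTransform μ hi x ≤ rTransform ν hi' x ∧
      rTransform ν hi' x ≤ rTransform μ hi x + ε) :
    variationalValue μ hi ≤ variationalValue ν hi' ∧
      variationalValue ν hi' ≤ variationalValue μ hi + ((ε / 2 : ℝ) : EReal) := by
  unfold variationalValue
  exact iInf_compare IsTrialPath entropyPart (spectralPart μ hi) (spectralPart ν hi')
    (fun p hp => (spectralPart_compare h h' hR hp).1)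
    (fun p hp => (spectralPart_compare h h' hR hp).2)

lemma magneticValue_compare (h : μ (Icc lo hi) = 1) (h' : ν (Icc lo' hi') = 1) {ε : ℝ}
    (hR : ∀ x ∈ Icc (0:ℝ) 1, rTransform μ hi x ≤ rTransform ν hi' x ∧
      rTransform ν hi' x ≤ rTransform μ hi x + ε) {J : ℕ} (c : Fin J → ℝ) (γ : Fin J → ℚ) :
    magneticValue μ hi c γ ≤ magneticValue ν hi' c γ ∧
      magneticValue ν hi' c γ ≤ magneticValue μ hi c γ + ((ε / 2 : ℝ) : EReal) := by
  unfold magneticValue
  have key := fun m : Fin J → ℚ => iInf_compare IsTrialPath (constrainedEntropyPart γ m)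
    (spectralPart μ hi) (spectralPart ν hi')
    (fun p hp => (spectralPart_compare h h' hR hp).1)
    (fun p hp => (spectralPart_compare h h' hR hp).2)
  constructor
  · refine iSup_mono fun m => iSup_mono fun hm => ?_
    exact add_le_add le_rfl (key m).1
  · refine iSup_le fun m => iSup_le fun hm => ?_
    refine (add_le_add le_rfl (key m).2).trans ?_
    rw [← add_assoc]
    refine add_le_add ?_ le_rfl
    exact le_iSup₂_of_le m hm le_rfl

end Crest.Agent.R164.RTrans
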