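import Crest.Agent.R164.ExactG2
import Crest.Agent.R164.PAlg2

/-!
Row 164, exact value of the nested Gaussian functional, part 3: the algebra of the atomic resolvent
and the whole recursion (helper716).
-/

set_option autoImplicit false

namespace Crest.Agent.R164.EG

open MeasureTheory ProbabilityTheory ENNReal Crest.ProbabilityR.InvariantGlass
open Crest.Agent.R164.PAlg
open Crest.Agent.R164.GTilt (γ Lip)
open Crest.Agent.R164.CavG (gm lin gstep th gval th_zero th_succ)

noncomputable section

variable {K : ℕ} {w val : Fin (K + 1) → ℝ}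

/-- `D^k(x) = w_k / (b(x) - λ_k)` -/
def DK (w val : Fin (K + 1) → ℝ) (x : ℝ) (k : Fin (K + 1)) : ℝ :=
  if 0 < x then w k * (bb w val x - val k)⁻¹ else 0

/-- mean of the spectrum -/
def m1 (w val : Fin (K + 1) → ℝ) : ℝ := ∑ k, w k * val k

section

variable (hv : StrictMono val) (hw : ∀ k, 0 < w k) (hs : ∑ k, w k = 1)
include hv hw hs

theorem bb_anti {x y : ℝ} (hx : 0 < x) (hxy : x ≤ y) : bb w val y ≤ bb w val x := by
  by_contra h
  push Not at h
  have h1 := bb_sum hv hw hs hx
  have h2 := bb_sum hv hw hs (hx.trans_le hxy)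
  have h3 : ∑ k, w k * (bb w val y - val k)⁻¹ < ∑ k, w k * (bb w val x - val k)⁻¹ := by
    refine Finset.sum_lt_sum_of_nonempty Finset.univ_nonempty fun k _ => ?_
    have h4 := bb_gt hv hw hs hx k
    exact mul_lt_mul_of_pos_left (inv_strictAnti₀ (by linarith) (by linarith)) (hw k)
  linarith

theorem sum_DK {x : ℝ} (hx : 0 ≤ x) : ∑ k, DK w val x k = x := by
  rcases hx.eq_or_lt with rfl | hx
  · simp [DK]
  · simp only [DK, if_pos hx]
    exact bb_sum hv hw hs hx

theorem sum_DK_val {x : ℝ} (hx : 0 ≤ x) : ∑ k, DK w val x k * val k = x * RR w val x := by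
  rcases hx.eq_or_lt with rfl | hx
  · simp [DK]
  · simp only [DK, if_pos hx]
    have h1 : ∀ k, w k * (bb w val x - val k)⁻¹ * val k =
        bb w val x * (w k * (bb w val x - val k)⁻¹) - w k := by
      intro k
      have : bb w val x - val k ≠ 0 := by have := bb_gt hv hw hs hx k; intro h; linarith
      field_simp
      ring
    rw [Finset.sum_congr rfl fun k _ => h1 k, Finset.sum_sub_distrib, ← Finset.mul_sum,
      bb_sum hv hw hs hx, hs, RR_eq hx]
    field_simp

theorem sum_DK_val2 {x : ℝ} (hx : 0 ≤ x) :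
    ∑ k, DK w val x k * val k ^ 2 = x * RR w val x ^ 2 + RR w val x - m1 w val := by
  rcases hx.eq_or_lt with rfl | hx
  · simp [DK, RR_zero hw hs, m1]
  · have h0 := sum_DK_val hv hw hs hx.le
    simp only [DK, if_pos hx] at h0 ⊢
    have h1 : ∀ k, w k * (bb w val x - val k)⁻¹ * val k ^ 2 =
        bb w val x * (w k * (bb w val x - val k)⁻¹ * val k) - w k * val k := by
      intro k
      have : bb w val x - val k ≠ 0 := by have := bb_gt hv hw hs hx k; intro h; linarith
      field_simp
      ring
    rw [Finset.sum_congr rfl fun k _ => h1 k, Finset.sum_sub_distrib, ← Finset.mul_sum, h0]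
    have h2 : bb w val x = RR w val x + 1 / x := by rw [RR_eq hx]; ring
    rw [h2]
    unfold m1
    field_simp

theorem DK_mono {x y : ℝ} (hx : 0 ≤ x) (hxy : x ≤ y) (k : Fin (K + 1)) :
    DK w val x k ≤ DK w val y k := by
  rcases hx.eq_or_lt with rfl | hx
  · unfold DK
    rw [if_neg (lt_irrefl _)]
    split_ifs with h
    · have := bb_gt hv hw hs h k
      exact mul_nonneg (hw k).le (inv_nonneg.2 (by linarith))
    · exact le_rfl
  · unfold DK
    rw [if_pos hx, if_pos (hx.trans_le hxy)]
    have h1 := bb_anti hv hw hs hx hxy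
    have h2 := bb_gt hv hw hs (hx.trans_le hxy) k
    exact mul_le_mul_of_nonneg_left (inv_anti₀ (by linarith) (by linarith)) (hw k).le

omit hv hw hs in
theorem theta_eq {x : ℝ} (hx : 0 < x) (l : Fin (K + 1)) :
    1 + (RR w val x - val l) * x = x * (bb w val x - val l) := by
  rw [RR_eq hx]; field_simp; ring

theorem theta_pos {x : ℝ} (hx : 0 ≤ x) (l : Fin (K + 1)) : 0 < 1 + (RR w val x - val l) * x := by
  rcases hx.eq_or_lt with rfl | hx
  · simp
  · rw [theta_eq hx]
    have := bb_gt hv hw hs hx l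
    exact mul_pos hx (by linarith)

theorem cond_s {s s' : ℝ} (h0 : 0 ≤ s) (h1 : s ≤ s') :
    s ≤ s' / (1 + s' * (RR w val s' - RR w val s)) := by
  have hρ := RR_mono hv hw hs h0 h1
  have hE : 0 < 1 + s' * (RR w val s' - RR w val s) := by
    have := mul_nonneg (h0.trans h1) (sub_nonneg.2 hρ); linarith
  rw [le_div_iff₀ hE]
  rcases h0.eq_or_lt with rfl | hs0
  · simpa using h1
  · have h2 := bb_anti hv hw hs hs0 h1
    have hs' := hs0.trans_le h1
    rw [RR_eq hs0, RR_eq hs']
    have h3 : s * (1 + s' * (bb w val s' - 1 / s' - (bb w val s - 1 / s))) =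
        s' + s * s' * (bb w val s' - bb w val s) := by
      field_simp
      ring
    rw [h3]
    have := mul_nonneg (mul_pos hs0 hs').le (sub_nonneg.2 h2)
    linarith

theorem sum_log {x : ℝ} (hx : 0 ≤ x) :
    ∑ l, w l * Real.log (1 + (RR w val x - val l) * x) = -2 * Psi w val x := by
  rcases hx.eq_or_lt with rfl | hx
  · rw [Psi_zero]; simp
  · unfold Psi
    rw [Finset.sum_congr rfl fun l _ => by rw [theta_eq hx l]]
    ring

/-- the bottom identity -/
theorem sum_bot {x : ℝ} (hx : 0 < x) (c : ℝ) :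
    ∑ l, w l * ((RR w val x - val l + x * c) / (1 + (RR w val x - val l) * x)) = x * c := by
  have h1 : ∀ l, w l * ((RR w val x - val l + x * c) / (1 + (RR w val x - val l) * x)) =
      w l * x⁻¹ + (c - (x ^ 2)⁻¹) * (w l * (bb w val x - val l)⁻¹) := by
    intro l
    rw [theta_eq hx l, RR_eq hx]
    have : bb w val x - val l ≠ 0 := by have := bb_gt hv hw hs hx l; intro h; linarith
    field_simp
    ring
  rw [Finset.sum_congr rfl fun l _ => h1 l, Finset.sum_add_distrib, ← Finset.sum_mul,
    ← Finset.mul_sum, hs, bb_sum hv hw hs hx]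
  field_simp
  ring

end

end

end Crest.Agent.R164.EG
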