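import Crest.Agent.R164.ExactG4

/-!
Row 164, exact value of the nested Gaussian functional, part 5: identification with `fieldValueAt`
and the Parisi functional of a step path (helper716).
-/

set_option autoImplicit false

namespace Crest.Agent.R164.EG

open MeasureTheory ProbabilityTheory ENNReal Crest.ProbabilityR.InvariantGlass
open Crest.Agent.R164.PAlg Crest.Agent.R164.Atomic
open Crest.Agent.R164.GTilt (γ Lip lip_log_cosh)
open Crest.Agent.R164.CavG (gm lin gstep th gval th_zero th_succ)

noncomputable section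

theorem foldr_rec {α : Type*} : ∀ (k : ℕ) (F : Fin k → α → α) (x : α) (G : ℕ → α) (_ : G 0 = x)
    (_ : ∀ n (hn : n < k), G (n + 1) = F ⟨k - 1 - n, by omega⟩ (G n)),
    (List.finRange k).foldr F x = G k := by
  intro k
  induction k with
  | zero => intro F x G h0 _; simp [h0]
  | succ k ih =>
    intro F x G h0 hs
    rw [List.finRange_succ, List.foldr_cons, List.foldr_map]
    have h1 := ih (fun i => F i.succ) x G h0 (fun n hn => by
      rw [hs n (by omega)]
      congr 1
      ext
      simp only [Fin.val_succ]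
      omega)
    rw [h1, hs k (by omega)]
    congr 1
    ext
    simp

/-- translation and additive constants pass through `gaussOp`. -/
theorem gaussOp_shift {f : ℝ → ℝ} (hf : Lip f) (a v C b x : ℝ) :
    gaussOp a v (fun t => C + f (t + b)) x = C + gaussOp a v f (x + b) := by
  unfold gaussOp
  have e : ∀ g : ℝ, x + Real.sqrt v * g + b = x + b + Real.sqrt v * g := fun g => by ring
  split_ifs with ha
  · simp only [e]
    rw [integral_add (integrable_const _) (hf.integrable (x + b) (Real.sqrt v))]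
    simp
  · simp only [e, mul_add, Real.exp_add]
    rw [integral_const_mul, Real.log_mul (Real.exp_pos _).ne'
      (hf.int_exp_pos a (x + b) (Real.sqrt v)).ne', Real.log_exp]
    field_simp

theorem gaussOp_one_cosh {v : ℝ} (hv : 0 ≤ v) (x : ℝ) :
    gaussOp 1 v (fun t => Real.log (Real.cosh t)) x = v / 2 + Real.log (Real.cosh x) := by
  unfold gaussOp
  rw [if_neg one_ne_zero]
  have hm : ∀ t : ℝ, ∫ g, Real.exp (t * g) ∂(gaussianReal 0 1) = Real.exp (t ^ 2 / 2) := by
    intro t
    have := mgf_id_gaussianReal (μ := 0) (v := 1)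
    have h2 := congrFun this t
    simp only [mgf, id] at h2
    rw [h2]
    simp
  have e1 : ∀ g : ℝ, Real.exp (1 * Real.log (Real.cosh (x + Real.sqrt v * g))) =
      Real.exp x / 2 * Real.exp (Real.sqrt v * g) + Real.exp (-x) / 2 *
        Real.exp (-Real.sqrt v * g) := by
    intro g
    rw [one_mul, Real.exp_log (Real.cosh_pos _), Real.cosh_eq, neg_add, Real.exp_add, Real.exp_add,
      neg_mul]
    ring
  simp only [e1]
  have i1 : Integrable (fun g : ℝ => Real.exp (Real.sqrt v * g)) (gaussianReal 0 1) :=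
    integrable_exp_mul_gaussianReal _
  have i2 : Integrable (fun g : ℝ => Real.exp (-Real.sqrt v * g)) (gaussianReal 0 1) :=
    integrable_exp_mul_gaussianReal _
  rw [integral_add (i1.const_mul _) (i2.const_mul _), integral_const_mul, integral_const_mul, hm, hm,
    neg_sq, Real.sq_sqrt hv, inv_one, one_mul]
  have e2 : Real.exp x / 2 * Real.exp (v / 2) + Real.exp (-x) / 2 * Real.exp (v / 2) =
      Real.exp (v / 2) * Real.cosh x := by rw [Real.cosh_eq]; ring
  rw [e2, Real.log_mul (Real.exp_pos _).ne' (Real.cosh_pos _).ne', Real.log_exp]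

/-! ### step data in the depth convention -/

section Step

variable {K J : ℕ}

/-- the level index at depth `n ≥ 1`: `J + 1 - n`. -/
def lv (J n : ℕ) : Fin (J + 1) := ⟨J - (n - 1), by omega⟩

/-- exponents: `1` at the leaf, `ζ_{J+1-n}` at depth `n`. -/
def yy (wd : Fin (J + 1) → ℝ) (n : ℕ) : ℝ := if n = 0 then 1 else leftEnd wd (lv J n)

/-- deficits: `0` at the leaf, `D_{J+1-n}` at depth `n`. -/
def SS (wd p : Fin (J + 1) → ℝ) (n : ℕ) : ℝ := if n = 0 then 0 else Dd wd p (lv J n)

/-- accumulated label variances at level `i`. -/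
def Hl (J : ℕ) (vy : ℕ → ℝ) (i : Fin (J + 1)) : ℝ :=
  ∑ n ∈ Finset.Icc (J + 1 - (i : ℕ)) (J + 1), vy n

/-- the recursion without the subtraction. -/
def chainV (b : ℝ) {k : ℕ} (w hv : Fin k → ℝ) : ℝ :=
  (List.finRange k).foldr (fun i acc => gaussOp (leftEnd w i) (increment hv i) acc)
      (fun z => Real.log (Real.cosh z)) b

theorem fieldValueAt_eq_chainV (b : ℝ) (w hv : Fin (J + 1) → ℝ) :
    fieldValueAt b w hv = chainV b w hv - hv (Fin.last J) / 2 := by
  unfold fieldValueAt chainV
  congr 2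
  rw [Finset.sum_eq_single (Fin.last J)]
  · simp
  · intro l _ hl
    refine if_neg fun h => hl ?_
    ext
    simp only [Fin.val_last]
    omega
  · intro h; exact absurd (Finset.mem_univ _) h

theorem increment_zero (hv : Fin (J + 1) → ℝ) : increment hv 0 = hv 0 := by
  unfold increment
  rw [Finset.sum_eq_zero, sub_zero]
  intro l _
  exact if_neg (by simp)

theorem increment_succ (hv : Fin (J + 1) → ℝ) (j : Fin J) :
    increment hv j.succ = hv j.succ - hv j.castSucc := by
  unfold increment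
  congr 1
  rw [Finset.sum_eq_single j.castSucc]
  · simp
  · intro l _ hl
    refine if_neg fun h => hl ?_
    ext
    simp only [Fin.val_succ, Fin.val_castSucc] at h ⊢
    omega
  · intro h; exact absurd (Finset.mem_univ _) h

theorem Hl_zero (vy : ℕ → ℝ) : Hl J vy 0 = vy (J + 1) := by
  unfold Hl; simp

theorem Hl_succ (vy : ℕ → ℝ) (j : Fin J) :
    Hl J vy j.succ = Hl J vy j.castSucc + vy (J - j) := by
  unfold Hl
  have hj := j.2
  have e : Finset.Icc (J + 1 - ((j.succ : Fin (J + 1)) : ℕ)) (J + 1) =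
      insert (J - (j : ℕ)) (Finset.Icc (J + 1 - ((j.castSucc : Fin (J + 1)) : ℕ)) (J + 1)) := by
    ext n
    simp only [Finset.mem_Icc, Finset.mem_insert, Fin.val_succ, Fin.val_castSucc]
    omega
  rw [e, Finset.sum_insert, add_comm]
  simp only [Finset.mem_Icc, Fin.val_castSucc]
  omega

theorem lv_one : lv J 1 = Fin.last J := by ext; simp [lv]

theorem lv_bot : lv J (J + 1) = 0 := by ext; simp [lv]

/-- depth `n ≤ J`, `n ≥ 1` corresponds to `j.succ`, depth `n + 1` to `j.castSucc`. -/
theorem lv_succ {n : ℕ} (h1 : 1 ≤ n) (h2 : n ≤ J) :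
    ∃ j : Fin J, lv J n = j.succ ∧ lv J (n + 1) = j.castSucc ∧ (j : ℕ) = J - n := by
  refine ⟨⟨J - n, by omega⟩, ?_, ?_, rfl⟩
  · ext; simp only [lv, Fin.val_succ]; omega
  · ext; simp only [lv, Fin.val_castSucc]; omega

variable {w val : Fin (K + 1) → ℝ} {wd p : Fin (J + 1) → ℝ}
variable (hv : StrictMono val) (hw : ∀ k, 0 < w k) (hs : ∑ k, w k = 1)
variable (hwd : ∀ i, 0 < wd i) (hwds : ∑ i, wd i = 1) (hp : Monotone p)
  (hp0 : ∀ i, 0 ≤ p i) (hp1 : ∀ i, p i ≤ 1)

include hwd in
theorem yy_pos {n : ℕ} (hn : n ≤ J) : 0 < yy wd n := by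
  unfold yy
  split_ifs with h
  · exact one_pos
  · obtain ⟨j, h1, -, -⟩ := lv_succ (J := J) (Nat.one_le_iff_ne_zero.2 h) hn
    rw [h1]
    exact ze_pos hwd j

include hwd hwds hp hp1 in
theorem SS_mono {n : ℕ} (hn : n ≤ J) : SS wd p n ≤ SS wd p (n + 1) := by
  unfold SS
  rw [if_neg (Nat.succ_ne_zero n)]
  split_ifs with h
  · exact Dd_nonneg hwd hwds hp1 _
  · obtain ⟨j, h1, h2, -⟩ := lv_succ (J := J) (Nat.one_le_iff_ne_zero.2 h) hn
    rw [h1, h2]
    exact Dd_anti hwd hwds hp j

theorem SS_zero : SS wd p 0 = 0 := if_pos rfl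

theorem SS_one : SS wd p 1 = Dd wd p (Fin.last J) := by
  unfold SS; rw [if_neg one_ne_zero, lv_one]

theorem SS_bot : SS wd p (J + 1) = Dd wd p 0 := by
  unfold SS; rw [if_neg (Nat.succ_ne_zero J), lv_bot]

/-- the additive constant for the new eigenvalue `val l` -/
def CC (w val : Fin (K + 1) → ℝ) (wd p : Fin (J + 1) → ℝ) (l : Fin (K + 1)) : ℝ :=
  cst w val (yy wd) (SS wd p) l (J + 1) +
    -(1 / 2) * (p 0 * ((RR w val (Dd wd p 0) - val l + Dd wd p 0 * RD w val (Dd wd p 0)) /
        (1 + (RR w val (Dd wd p 0) - val l) * Dd wd p 0))) +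
    (RR w val (Dd wd p (Fin.last J)) - m1 w val) / 2

include hv hw hs hwd hwds hp hp0 hp1 in
/-- **Exact value of the nested Gaussian functional.** -/
theorem gval_value (b : ℝ) (l : Fin (K + 1)) (hD : 0 < Dd wd p 0) {vy : ℕ → ℝ}
    (hvy : ∀ n, n ≤ J + 1 → 0 ≤ vy n) {v : ℕ → Option (Fin (K + 1)) → ℝ}
    (hvk : ∀ n, n ≤ J → ∀ k, v n (some k) =
      (DK w val (SS wd p (n + 1)) k - DK w val (SS wd p n) k) / yy wd n)
    (hvn : ∀ n, n ≤ J + 1 → v n none = vy n)
    (hvb : ∀ k, v (J + 1) (some k) = p 0 * (w k * ((bb w val (Dd wd p 0) - val k)⁻¹) ^ 2 /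
      g2 w val (bb w val (Dd wd p 0)))) :
    gval J (yy wd) v (WF w val b l) = CC w val wd p l + vy 0 / 2 +
      chainV b wd (fun i => hh w val wd p i + Hl J vy i) := by
  have hg := gval_exact hv hw hs b l (y := yy wd) (S := SS wd p) (vy := vy) (p0 := p 0) (v := v)
    SS_zero (fun n hn => SS_mono hwd hwds hp hp1 hn) (fun n hn => yy_pos hwd hn) hvy hvk hvn
    (by rw [SS_bot]; exact hD) (hp0 0) (by rw [SS_bot]; exact hvb)
  rw [hg, SS_bot]
  set hv' : Fin (J + 1) → ℝ := fun i => hh w val wd p i + Hl J vy i with hhv'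
  set C := (RR w val (Dd wd p (Fin.last J)) - m1 w val) / 2 + vy 0 / 2 with hC
  -- the chain
  set G : ℕ → ℝ → ℝ := fun n => Nat.rec (fun z => Real.log (Real.cosh z))
    (fun n g => gaussOp (leftEnd wd (lv J (n + 1))) (increment hv' (lv J (n + 1))) g) n with hG
  have hG0 : G 0 = fun z => Real.log (Real.cosh z) := rfl
  have hGs : ∀ n, G (n + 1) = gaussOp (leftEnd wd (lv J (n + 1)))
      (increment hv' (lv J (n + 1))) (G n) := fun n => rfl
  have hlip : ∀ n, Lip (G n) := by
    intro n
    induction n with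
    | zero => exact lip_log_cosh
    | succ n ih => rw [hGs]; exact ih.lip_gaussOp (ze_nonneg hwd _) _
  have hchain : chainV b wd hv' = G (J + 1) b := by
    unfold chainV
    rw [foldr_rec (J + 1) (fun i acc => gaussOp (leftEnd wd i) (increment hv' i) acc) _ G hG0
      (fun n hn => by
        rw [hGs]
        have e : lv J (n + 1) = ⟨J + 1 - 1 - n, by omega⟩ := by
          ext; simp only [lv]; omega
        rw [e])]
  have hR0 : RR w val 0 = m1 w val := by rw [RR_zero hw hs]; rfl
  have hfs : ∀ n, n ≤ J → ∀ t, fs w val b (yy wd) (SS wd p) vy (n + 1) t = C + G n (t + b) := by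
    intro n
    induction n with
    | zero =>
      intro _ t
      have e0 : fs w val b (yy wd) (SS wd p) vy (0 + 1) = gaussOp (yy wd 0)
        ((RR w val (SS wd p (0 + 1)) - RR w val (SS wd p 0)) / yy wd 0 + vy 0)
        (fun t => Real.log (Real.cosh (t + b))) := rfl
      have hy0 : yy wd 0 = 1 := if_pos rfl
      rw [e0, hy0, SS_zero, zero_add, SS_one, hR0, div_one]
      have hsh := gaussOp_shift lip_log_cosh 1
        (RR w val (Dd wd p (Fin.last J)) - m1 w val + vy 0) 0 b t
      simp only [zero_add] at hsh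
      have hnn : 0 ≤ RR w val (Dd wd p (Fin.last J)) - m1 w val + vy 0 := by
        have h1 := RR_mono hv hw hs le_rfl (Dd_nonneg hwd hwds hp1 (Fin.last J))
        have h2 := hvy 0 (by omega)
        rw [hR0] at h1
        linarith
      rw [hsh, gaussOp_one_cosh hnn, hG0, hC]
      ring
    | succ n ih =>
      intro hn t
      have e0 : fs w val b (yy wd) (SS wd p) vy (n + 1 + 1) = gaussOp (yy wd (n + 1))
        ((RR w val (SS wd p (n + 1 + 1)) - RR w val (SS wd p (n + 1))) / yy wd (n + 1) +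
          vy (n + 1)) (fs w val b (yy wd) (SS wd p) vy (n + 1)) := rfl
      have e1 : fs w val b (yy wd) (SS wd p) vy (n + 1) = fun t => C + G n (t + b) :=
        funext fun t => ih (by omega) t
      rw [e0, e1, gaussOp_shift (hlip n), hGs]
      obtain ⟨j, h1, h2, h3⟩ := lv_succ (J := J) (n := n + 1) (by omega) (by omega)
      have e2 : yy wd (n + 1) = leftEnd wd (lv J (n + 1)) := if_neg (Nat.succ_ne_zero n)
      have e3 : SS wd p (n + 1) = Dd wd p (lv J (n + 1)) := if_neg (Nat.succ_ne_zero n)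
      have e4 : SS wd p (n + 1 + 1) = Dd wd p (lv J (n + 1 + 1)) :=
        if_neg (Nat.succ_ne_zero (n + 1))
      have e5 : (RR w val (SS wd p (n + 1 + 1)) - RR w val (SS wd p (n + 1))) / yy wd (n + 1) +
          vy (n + 1) = increment hv' (lv J (n + 1)) := by
        rw [e2, e3, e4, h1, h2, increment_succ, hhv']
        simp only
        rw [hh_succ, Hl_succ, h3]
        have : J - (J - (n + 1)) = n + 1 := by omega
        rw [this]
        ring
      rw [e5, e2]
  have e6 : fs w val b (yy wd) (SS wd p) vy (J + 1) = fun t => C + G J (t + b) :=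
    funext fun t => hfs J le_rfl t
  have e7 : increment hv' (lv J (J + 1)) = p 0 * RD w val (Dd wd p 0) + vy (J + 1) := by
    rw [lv_bot, increment_zero, hhv']
    simp only
    rw [hh_zero, Hl_zero]
  have e8 : leftEnd wd (lv J (J + 1)) = 0 := by rw [lv_bot, ze_zero]
  rw [hchain, hGs, e7, e8, e6, gaussOp_shift (hlip J), zero_add, hC]
  unfold CC
  ring

include hv hw hs hwd hwds hp hp0 hp1 in
/-- **Average of the constants.** -/
theorem sum_CC (hD : 0 < Dd wd p 0) : ∑ l, w l * CC w val wd p l =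
    spectralPart (atomic w val) (val (Fin.last K)) (stepFn wd p) +
      (1 / 2) * ∑ i, wd i * (p i * hh w val wd p i) - (1 / 2) * hh w val wd p (Fin.last J) := by
  have h1 := tr_Psi hv hw hs hwd hwds hp hp0 hp1
  unfold CC
  simp only [mul_add]
  rw [Finset.sum_add_distrib, Finset.sum_add_distrib, ← Finset.sum_mul, hs, one_mul,
    sum_cst hv hw hs SS_zero (fun n hn => SS_mono hwd hwds hp hp1 hn) (J + 1) le_rfl]
  have e : ∀ l, w l * (-(1 / 2) * (p 0 * ((RR w val (Dd wd p 0) - val l + Dd wd p 0 *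
      RD w val (Dd wd p 0)) / (1 + (RR w val (Dd wd p 0) - val l) * Dd wd p 0)))) =
      -(1 / 2) * p 0 * (w l * ((RR w val (Dd wd p 0) - val l + Dd wd p 0 *
      RD w val (Dd wd p 0)) / (1 + (RR w val (Dd wd p 0) - val l) * Dd wd p 0))) := by
    intro l; ring
  rw [Finset.sum_congr rfl fun l _ => e l, ← Finset.mul_sum, sum_bot hv hw hs hD]
  have h2 : ∑ i ∈ Finset.range (J + 1), (yy wd i)⁻¹ *
      (Psi w val (SS wd p (i + 1)) - Psi w val (SS wd p i)) =
      Psi w val (Dd wd p (Fin.last J)) + ∑ j : Fin J, (leftEnd wd j.succ)⁻¹ *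
        (Psi w val (Dd wd p j.castSucc) - Psi w val (Dd wd p j.succ)) := by
    rw [Finset.sum_range_succ', add_comm]
    congr 1
    · have hy0 : yy wd 0 = 1 := if_pos rfl
      rw [hy0, SS_zero, zero_add, SS_one, Psi_zero]; ring
    · have h3 : ∀ i ∈ Finset.range J, (yy wd (i + 1))⁻¹ *
          (Psi w val (SS wd p (i + 1 + 1)) - Psi w val (SS wd p (i + 1))) =
          (fun i : ℕ => if h : i < J then (leftEnd wd (⟨J - 1 - i, by omega⟩ : Fin J).succ)⁻¹ *
            (Psi w val (Dd wd p (⟨J - 1 - i, by omega⟩ : Fin J).castSucc) -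
              Psi w val (Dd wd p (⟨J - 1 - i, by omega⟩ : Fin J).succ)) else 0) i := by
        intro i hi
        have hi' := Finset.mem_range.1 hi
        simp only [dif_pos hi']
        have e2 : yy wd (i + 1) = leftEnd wd (lv J (i + 1)) := if_neg (Nat.succ_ne_zero i)
        have e3 : SS wd p (i + 1) = Dd wd p (lv J (i + 1)) := if_neg (Nat.succ_ne_zero i)
        have e4 : SS wd p (i + 1 + 1) = Dd wd p (lv J (i + 1 + 1)) :=
          if_neg (Nat.succ_ne_zero (i + 1))
        have e5 : lv J (i + 1) = (⟨J - 1 - i, by omega⟩ : Fin J).succ := by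
          ext; simp only [lv, Fin.val_succ]; omega
        have e6 : lv J (i + 1 + 1) = (⟨J - 1 - i, by omega⟩ : Fin J).castSucc := by
          ext; simp only [lv, Fin.val_castSucc]; omega
        rw [e2, e3, e4, e5, e6]
      rw [Finset.sum_congr rfl h3, Finset.sum_range]
      rw [← Equiv.sum_comp Fin.revPerm]
      refine Finset.sum_congr rfl fun j _ => ?_
      have hj := j.2
      have h4 : ((Fin.revPerm j : Fin J) : ℕ) < J := (Fin.revPerm j).2
      simp only [dif_pos h4]
      have e7 : (⟨J - 1 - ((Fin.revPerm j : Fin J) : ℕ), by omega⟩ : Fin J) = j := by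
        ext
        simp only [Fin.revPerm_apply, Fin.val_rev]
        omega
      rw [e7]
  rw [h2]
  linarith

end Step

end

end Crest.Agent.R164.EG
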