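import Mathlib
import Crest.Agent.R164.AsConc

set_option autoImplicit false

/-!
Row 164: it is enough to prove the convergence of the expected pressures.
-/

namespace Crest.Agent.R164

open MeasureTheory Filter Topology
open Crest.ProbabilityR.InvariantGlass

section

variable {Ω : Type} [MeasurableSpace Ω] (μ : Measure ℝ) (lamPlus : ℝ) (eig : (N : ℕ) → Fin N → ℝ)
  (P : Measure Ω) (Us : (N : ℕ) → Ω → (Fin N → Fin N → ℝ))

/-- The expectation part of S0248 for all alphabets and labels. -/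
def E248 : Prop :=
  ∀ (J : ℕ) (cval : Fin J → ℝ), Function.Injective cval →
    ∀ γ : Fin J → ℚ, (∀ j, 0 < γ j) → ∑ j, γ j = 1 →
    ∀ lab : (N : ℕ) → Fin N → Fin J,
    (∀ j : Fin J, Tendsto
      (fun N : ℕ => ((Finset.univ.filter fun r : Fin N => lab N r = j).card : ℝ) / (N : ℝ))
      atTop (nhds ((γ j : ℚ) : ℝ))) →
    ∃ F : ℝ, magneticValue μ lamPlus cval γ = (F : EReal) ∧
      Tendsto (fun N : ℕ => ∫ ω, pressureFieldN (eig N) (Matrix.of (Us N ω))
          (fun r => cval (lab N r)) ∂P) atTop (nhds F)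

variable {μ lamPlus eig P Us}

theorem h248_of_e248 [IsProbabilityMeasure P] (lamMinus : ℝ)
    (hext : ∀ ε : ℝ, 0 < ε → ∀ᶠ N : ℕ in atTop, ∀ i : Fin N,
      lamMinus - ε ≤ eig N i ∧ eig N i ≤ lamPlus + ε)
    (hmeas : ∀ N, Measurable (Us N))
    (horth : ∀ N, ∀ᵐ ω ∂P, Matrix.of (Us N ω) ∈ Matrix.orthogonalGroup (Fin N) ℝ)
    (hHaar : ∀ (N : ℕ) (O : Matrix (Fin N) (Fin N) ℝ), O ∈ Matrix.orthogonalGroup (Fin N) ℝ →
      P.map (fun ω => fun i j => (Matrix.of (Us N ω) * O) i j) = P.map (Us N))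
    (h : E248 μ lamPlus eig P Us) : H248 μ lamPlus eig P Us := by
  intro J cval hinj γ hγ hs lab hlab
  obtain ⟨F, h1, h2⟩ := h J cval hinj γ hγ hs lab hlab
  exact ⟨F, h1, h2, AsConc.ae_tendsto_of_expect eig lamMinus lamPlus hext Us hmeas horth hHaar
    (fun N r => cval (lab N r)) F h2⟩

end

end Crest.Agent.R164
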