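import Crest.Agent.R164.FieldList

/-!
Row 164: step fields `Fin k → ℝ` versus lists; the overlap path of a step field (helper92).
-/

set_option autoImplicit false

namespace Crest.Agent.R164.GC

open MeasureTheory ProbabilityTheory Filter Topology Set
open Crest.ProbabilityR.InvariantGlass

noncomputable section

/-- the list of a step field -/
def toL {k : ℕ} (w hv : Fin k → ℝ) : List (ℝ × ℝ) := List.ofFn (fun i => (w i, hv i))

theorem toL_succ {k : ℕ} (w hv : Fin (k + 1) → ℝ) :
    toL w hv = (w 0, hv 0) :: toL (fun i => w i.succ) (fun i => hv i.succ) := by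
  unfold toL
  rw [List.ofFn_succ]

theorem leftEnd_zero {k : ℕ} (w : Fin (k + 1) → ℝ) : leftEnd w 0 = 0 := by
  unfold leftEnd
  refine Finset.sum_eq_zero fun l _ => ?_
  rw [if_neg (by simp)]

theorem leftEnd_succ {k : ℕ} (w : Fin (k + 1) → ℝ) (i : Fin k) :
    leftEnd w i.succ = w 0 + leftEnd (fun i => w i.succ) i := by
  unfold leftEnd
  rw [Fin.sum_univ_succ, if_pos (Fin.succ_pos i)]
  simp only [Fin.succ_lt_succ_iff]

theorem foldr_eq_chain : ∀ (k : ℕ) (a : ℝ) (v w : Fin k → ℝ),
    (List.finRange k).foldr (fun i acc => gaussOp (a + leftEnd w i) (v i) acc)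
      (fun z => Real.log (Real.cosh z)) = chain a (List.ofFn fun i => (v i, w i))
  | 0, a, v, w => by simp [chain]
  | k + 1, a, v, w => by
      rw [List.finRange_succ, List.foldr_cons, List.foldr_map, List.ofFn_succ]
      have h := foldr_eq_chain k (a + w 0) (fun i => v i.succ) (fun i => w i.succ)
      have e : (fun (i : Fin k) (acc : ℝ → ℝ) => gaussOp (a + leftEnd w i.succ) (v i.succ) acc) =
          fun i acc => gaussOp (a + w 0 + leftEnd (fun i => w i.succ) i) (v i.succ) acc := by
        funext i acc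
        rw [leftEnd_succ, add_assoc]
      rw [e, h, leftEnd_zero, add_zero]
      rfl

/-- increments with a given previous value -/
def incr {k : ℕ} (hp : ℝ) (hv : Fin k → ℝ) (i : Fin k) : ℝ :=
  hv i - ((if i.val = 0 then hp else 0) + ∑ l : Fin k, if l.val + 1 = i.val then hv l else 0)

theorem incr_zero {k : ℕ} (hv : Fin k → ℝ) (i : Fin k) : incr 0 hv i = increment hv i := by
  unfold incr increment
  simp

theorem inc_toL : ∀ (k : ℕ) (hp : ℝ) (w hv : Fin k → ℝ),
    inc hp (toL w hv) = List.ofFn (fun i => (incr hp hv i, w i))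
  | 0, hp, w, hv => by simp [toL, inc]
  | k + 1, hp, w, hv => by
      rw [toL_succ, List.ofFn_succ]
      show (hv 0 - hp, w 0) :: inc (hv 0) (toL _ _) = _
      rw [inc_toL k (hv 0)]
      have e0 : incr hp hv 0 = hv 0 - hp := by
        unfold incr
        rw [if_pos (by simp)]
        have : ∑ l : Fin (k + 1), (if l.val + 1 = (0 : Fin (k + 1)).val then hv l else 0) = 0 :=
          Finset.sum_eq_zero fun l _ => if_neg (by simp)
        rw [this, add_zero]
      have e1 : ∀ i : Fin k, incr (hv 0) (fun i => hv i.succ) i = incr hp hv i.succ := by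
        intro i
        unfold incr
        rw [Fin.sum_univ_succ]
        simp only [Fin.val_succ, Fin.val_zero, zero_add, Nat.add_right_cancel_iff,
          Nat.add_eq_zero_iff, one_ne_zero, and_false, if_false]
        congr 2
        by_cases h : i.val = 0
        · rw [if_pos h, if_pos (by omega)]
        · rw [if_neg h, if_neg (by omega)]
      rw [e0]
      simp only [e1]

theorem lastV_toL : ∀ (k : ℕ) (hp : ℝ) (w hv : Fin k → ℝ),
    lastV hp (toL w hv) = (if k = 0 then hp else 0) +
      ∑ l : Fin k, if l.val + 1 = k then hv l else 0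
  | 0, hp, w, hv => by simp [toL, lastV]
  | k + 1, hp, w, hv => by
      rw [toL_succ]
      show lastV (hv 0) (toL _ _) = _
      rw [lastV_toL k (hv 0), Fin.sum_univ_succ]
      simp only [Fin.val_succ, Fin.val_zero, zero_add, Nat.add_right_cancel_iff,
        Nat.add_eq_zero_iff, one_ne_zero, and_false, if_false]
      congr 1
      by_cases h : k = 0
      · rw [if_pos h, if_pos (by omega)]
      · rw [if_neg h, if_neg (by omega)]

/-- **the field value through lists** -/
theorem fieldValueAt_eq {k : ℕ} (b : ℝ) (w hv : Fin k → ℝ) :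
    fieldValueAt b w hv = fvL b (toL w hv) := by
  unfold fieldValueAt fvL
  rw [lastV_toL, inc_toL, ← foldr_eq_chain]
  have e1 : (if k = 0 then (0 : ℝ) else 0) = 0 := by split_ifs <;> rfl
  rw [e1, zero_add]
  simp only [zero_add, incr_zero]

theorem posW_toL {k : ℕ} {w : Fin k → ℝ} (hw : ∀ i, 0 < w i) (hv : Fin k → ℝ) :
    PosW (toL w hv) := by
  intro q hq
  unfold toL at hq
  rw [List.mem_ofFn] at hq
  obtain ⟨i, rfl⟩ := hq
  exact hw i

theorem sumw_toL {k : ℕ} (w hv : Fin k → ℝ) : sumw (toL w hv) = ∑ i, w i := by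
  unfold sumw toL
  rw [List.map_ofFn, List.sum_ofFn]
  rfl

theorem mono_toL : ∀ (k : ℕ) (hp : ℝ) (w hv : Fin k → ℝ), (∀ i, hp ≤ hv i) → Monotone hv →
    Mono hp (toL w hv)
  | 0, hp, w, hv, _, _ => by simp [toL, Mono]
  | k + 1, hp, w, hv, h1, h2 => by
      rw [toL_succ]
      exact ⟨h1 0, mono_toL k (hv 0) _ _ (fun i => h2 (Fin.zero_le _))
        (fun i j hij => h2 (Fin.succ_le_succ_iff.2 hij))⟩

theorem monotone_of_mono : ∀ (k : ℕ) (hp : ℝ) (w hv : Fin k → ℝ), Mono hp (toL w hv) →
    (∀ i, hp ≤ hv i) ∧ Monotone hv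
  | 0, hp, w, hv, _ => ⟨fun i => i.elim0, fun i => i.elim0⟩
  | k + 1, hp, w, hv, h => by
      rw [toL_succ] at h
      obtain ⟨h1, h2⟩ := h
      obtain ⟨h3, h4⟩ := monotone_of_mono k (hv 0) _ _ h2
      have h3' : ∀ i : Fin k, hv 0 ≤ hv i.succ := h3
      have h4' : ∀ i j : Fin k, i ≤ j → hv i.succ ≤ hv j.succ := fun i j hij => h4 hij
      refine ⟨fun i => ?_, fun i j hij => ?_⟩
      · refine Fin.cases h1 (fun i => h1.trans (h3' i)) i
      · revert hij
        refine Fin.cases ?_ (fun i => ?_) i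
        · intro _
          refine Fin.cases le_rfl (fun j => h3' j) j
        · refine Fin.cases ?_ (fun j => ?_) j
          · intro hij
            exact absurd hij (by simp)
          · intro hij
            exact h4' i j (Fin.succ_le_succ_iff.1 hij)

/-- the step function through lists -/
theorem stepSum_eq : ∀ (k : ℕ) (a : ℝ) (w hv : Fin k → ℝ), (∀ i, 0 < w i) → ∀ u, a < u →
    (∑ i : Fin k, if a + leftEnd w i < u ∧ u ≤ a + leftEnd w i + w i then hv i else 0) =
      SL a (toL w hv) u
  | 0, a, w, hv, _, u, _ => by simp [toL, SL]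
  | k + 1, a, w, hv, hw, u, hu => by
      rw [toL_succ, Fin.sum_univ_succ, leftEnd_zero, add_zero]
      have e : ∀ i : Fin k, a + leftEnd w i.succ = a + w 0 + leftEnd (fun i => w i.succ) i := by
        intro i
        rw [leftEnd_succ, add_assoc]
      simp only [e]
      show _ = if u ≤ a + w 0 then hv 0 else SL (a + w 0) (toL _ _) u
      by_cases h : u ≤ a + w 0
      · rw [if_pos ⟨hu, h⟩, if_pos h]
        have : ∑ i : Fin k, (if a + w 0 + leftEnd (fun i => w i.succ) i < u ∧
            u ≤ a + w 0 + leftEnd (fun i => w i.succ) i + w i.succ then hv i.succ else 0) = 0 := by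
          refine Finset.sum_eq_zero fun i _ => if_neg fun hc => ?_
          have h1 := leftEnd_nonneg (w := fun i : Fin k => w i.succ) (fun i => hw i.succ) i
          linarith [hc.1]
        rw [this, add_zero]
      · rw [if_neg (fun hc => h hc.2), if_neg h, zero_add]
        exact stepSum_eq k (a + w 0) (fun i => w i.succ) (fun i => hv i.succ)
          (fun i => hw i.succ) u (not_le.1 h)

theorem stepFn_eq_SL {k : ℕ} {w : Fin k → ℝ} (hw : ∀ i, 0 < w i) (hv : Fin k → ℝ) {u : ℝ}
    (hu : 0 < u) : stepFn w hv u = SL 0 (toL w hv) u := by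
  rw [← stepSum_eq k 0 w hv hw u hu]
  unfold stepFn
  simp only [zero_add]

/-! ### the overlap path -/

/-- `p_j = E φ'_{j+1}(X_{j+1})²` -/
def pp : ℝ → List (ℝ × ℝ) → ℕ → ℝ → ℝ
  | _, [], _ => fun _ => 0
  | a, (v, w) :: L, 0 => tE a v (chain (a + w) L) (fun y => chain1 (a + w) L y ^ 2)
  | a, (v, w) :: L, n + 1 => tE a v (chain (a + w) L) (pp (a + w) L n)

theorem pp_BC : ∀ (L : List (ℝ × ℝ)) (a : ℝ) (n : ℕ), Adm a L → BC (pp a L n) 1
  | [], _, _, _ => ⟨continuous_const, fun _ => by simp [pp]⟩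
  | (v, w) :: L, a, 0, h => by
      have hS := chain_sm L (a + w) h.2.2.2
      have := tE_BC hS.lip a v (hS.B1.pow 2)
      rw [one_pow] at this
      exact this
  | (v, w) :: L, a, n + 1, h => by
      have hS := chain_sm L (a + w) h.2.2.2
      exact tE_BC hS.lip a v (pp_BC L (a + w) n h.2.2.2)

theorem pp_nonneg : ∀ (L : List (ℝ × ℝ)) (a : ℝ) (n : ℕ), Adm a L → ∀ x, 0 ≤ pp a L n x
  | [], _, _, _, _ => le_rfl
  | (v, w) :: L, a, 0, h, x => by
      have hS := chain_sm L (a + w) h.2.2.2
      have := tE_mono hS.lip a v (EG.const 0) (hS.B1.eg.pow 2) (fun y => sq_nonneg _) x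
      rw [tE_const hS.lip] at this
      exact this
  | (v, w) :: L, a, n + 1, h, x => by
      have hS := chain_sm L (a + w) h.2.2.2
      have := tE_mono hS.lip a v (EG.const 0) (pp_BC L (a + w) n h.2.2.2).eg
        (fun y => pp_nonneg L (a + w) n h.2.2.2 y) x
      rw [tE_const hS.lip] at this
      exact this

theorem chain1_sq_le_pp : ∀ (L : List (ℝ × ℝ)) (a : ℝ), L ≠ [] → Adm a L → ∀ x,
    chain1 a L x ^ 2 ≤ pp a L 0 x
  | [], _, h, _, _ => absurd rfl h
  | (v, w) :: L, a, _, h, x => by
      have hS := chain_sm L (a + w) h.2.2.2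
      exact tE_sq_le hS.lip a v hS.B1.eg x

theorem pp_mono : ∀ (L : List (ℝ × ℝ)) (a : ℝ) (n : ℕ), n + 1 < L.length → Adm a L → ∀ x,
    pp a L n x ≤ pp a L (n + 1) x
  | [], _, _, hn, _, _ => by simp at hn
  | (v, w) :: L, a, 0, hn, h, x => by
      have hS := chain_sm L (a + w) h.2.2.2
      have hne : L ≠ [] := by
        rintro rfl
        simp at hn
      exact tE_mono hS.lip a v (hS.B1.eg.pow 2) (pp_BC L (a + w) 0 h.2.2.2).eg
        (fun y => chain1_sq_le_pp L (a + w) hne h.2.2.2 y) x
  | (v, w) :: L, a, n + 1, hn, h, x => by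
      have hS := chain_sm L (a + w) h.2.2.2
      have hn' : n + 1 < L.length := by
        simp only [List.length_cons] at hn
        omega
      exact tE_mono hS.lip a v (pp_BC L (a + w) n h.2.2.2).eg
        (pp_BC L (a + w) (n + 1) h.2.2.2).eg (fun y => pp_mono L (a + w) n hn' h.2.2.2 y) x

theorem tE_sum {ι : Type*} {f : ℝ → ℝ} (hf : Lip1 f) (a v : ℝ) (s : Finset ι) {φ : ι → ℝ → ℝ}
    (hφ : ∀ i, EG (φ i)) (x : ℝ) :
    tE a v f (fun y => ∑ i ∈ s, φ i y) x = ∑ i ∈ s, tE a v f (φ i) x := by
  classical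
  have hE : ∀ s : Finset ι, EG (fun y => ∑ i ∈ s, φ i y) := by
    intro s
    induction s using Finset.induction_on with
    | empty => simpa using EG.const 0
    | insert i s hi ih => simpa [Finset.sum_insert hi] using (hφ i).add ih
  induction s using Finset.induction_on with
  | empty => simpa using tE_const hf a v 0 x
  | insert i s hi ih =>
      simp only [Finset.sum_insert hi]
      rw [tE_add hf a v (hφ i) (hE s), ih]

/-- `PG` as a sum over the cells -/
theorem PG_eq_sum : ∀ (k : ℕ) (a : ℝ) (v w : Fin k → ℝ) (g : ℝ → ℝ),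
    Adm a (List.ofFn fun i => (v i, w i)) → ∀ x,
    PG a (List.ofFn fun i => (v i, w i)) g x = ∑ i : Fin k,
      (∫ u in (a + leftEnd w i)..(a + leftEnd w i + w i), g u) *
        pp a (List.ofFn fun i => (v i, w i)) i x
  | 0, a, v, w, g, _, x => by simp [PG]
  | k + 1, a, v, w, g, h, x => by
      rw [List.ofFn_succ] at h ⊢
      rw [Fin.sum_univ_succ, leftEnd_zero, add_zero]
      set L := List.ofFn fun i : Fin k => (v i.succ, w i.succ) with hL
      have hS := chain_sm L (a + w 0) h.2.2.2
      have hA : Adm (a + w 0) L := h.2.2.2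
      show tE a (v 0) (chain (a + w 0) L) (fun z => (∫ u in a..(a + w 0), g u) *
        chain1 (a + w 0) L z ^ 2 + PG (a + w 0) L g z) x = (∫ u in a..(a + w 0), g u) *
          tE a (v 0) (chain (a + w 0) L) (fun y => chain1 (a + w 0) L y ^ 2) x + _
      have ih := PG_eq_sum k (a + w 0) (fun i => v i.succ) (fun i => w i.succ) g hA
      have e1 : PG (a + w 0) L g = fun z => ∑ i : Fin k,
          (∫ u in (a + w 0 + leftEnd (fun i => w i.succ) i)..(a + w 0 +
            leftEnd (fun i => w i.succ) i + w i.succ), g u) * pp (a + w 0) L i z :=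
        funext ih
      have hEi : ∀ i : Fin k, EG (fun z =>
          (∫ u in (a + w 0 + leftEnd (fun i => w i.succ) i)..(a + w 0 +
            leftEnd (fun i => w i.succ) i + w i.succ), g u) * pp (a + w 0) L i z) :=
        fun i => (pp_BC L (a + w 0) i hA).eg.const_mul _
      obtain ⟨K, hK⟩ := PG_BC L (a + w 0) g hA
      rw [tE_add hS.lip a _ ((hS.B1.eg.pow 2).const_mul _) hK.eg, tE_const_mul, e1,
        tE_sum hS.lip a _ Finset.univ hEi]
      congr 1
      refine Finset.sum_congr rfl fun i _ => ?_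
      rw [tE_const_mul, leftEnd_succ, ← add_assoc]
      rfl

/-- magnetisation `∂_b ℓ_b` -/
def magAt {k : ℕ} (b : ℝ) (w hv : Fin k → ℝ) : ℝ := chain1 0 (inc 0 (toL w hv)) b

/-- overlap values `p_i` -/
def pAt {k : ℕ} (b : ℝ) (w hv : Fin k → ℝ) (i : Fin k) : ℝ := pp 0 (inc 0 (toL w hv)) i b

theorem adm_of_step {k : ℕ} {w hv : Fin k → ℝ} (h : IsStepField w hv) :
    Adm 0 (inc 0 (toL w hv)) :=
  adm_inc _ 0 0 le_rfl (posW_toL h.2.1 hv) (mono_toL k 0 w hv h.2.2.2.2 h.2.2.2.1)
    (by rw [sumw_toL, h.2.2.1, zero_add])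

theorem hasDerivAt_fieldValueAt {k : ℕ} {w hv : Fin k → ℝ} (h : IsStepField w hv) (b : ℝ) :
    HasDerivAt (fun b => fieldValueAt b w hv) (magAt b w hv) b := by
  have e : (fun b => fieldValueAt b w hv) = fun b => fvL b (toL w hv) :=
    funext fun b => fieldValueAt_eq b w hv
  rw [e]
  unfold fvL magAt
  exact ((chain_sm _ _ (adm_of_step h)).d1 b).sub_const _

theorem length_inc : ∀ (M : List (ℝ × ℝ)) (hp : ℝ), (inc hp M).length = M.length
  | [], _ => rfl
  | (w, h) :: M, hp => by
      show ((h - hp, w) :: inc h M).length = _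
      rw [List.length_cons, List.length_cons, length_inc M h]

theorem length_toL {k : ℕ} (w hv : Fin k → ℝ) : (toL w hv).length = k := by
  unfold toL
  rw [List.length_ofFn]

theorem pAt_nonneg {k : ℕ} {w hv : Fin k → ℝ} (h : IsStepField w hv) (b : ℝ) (i : Fin k) :
    0 ≤ pAt b w hv i := pp_nonneg _ _ _ (adm_of_step h) _

theorem pAt_le_one {k : ℕ} {w hv : Fin k → ℝ} (h : IsStepField w hv) (b : ℝ) (i : Fin k) :
    pAt b w hv i ≤ 1 := (le_abs_self _).trans ((pp_BC _ _ _ (adm_of_step h)).bd _)

theorem pAt_mono {k : ℕ} {w hv : Fin k → ℝ} (h : IsStepField w hv) (b : ℝ) :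
    Monotone (pAt b w hv) := by
  have hA := adm_of_step h
  have hlen : (inc 0 (toL w hv)).length = k := by rw [length_inc, length_toL]
  have key : ∀ (d n : ℕ), n + d < k → pp 0 (inc 0 (toL w hv)) n b ≤
      pp 0 (inc 0 (toL w hv)) (n + d) b := by
    intro d
    induction d with
    | zero => intro n _; exact le_rfl
    | succ d ih =>
        intro n hn
        refine (ih n (by omega)).trans ?_
        exact pp_mono _ _ _ (by rw [hlen]; omega) hA _
  intro i j hij
  have h1 : (i : ℕ) ≤ j := hij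
  have := key ((j : ℕ) - i) i (by omega)
  rw [Nat.add_sub_cancel' h1] at this
  exact this

end

end Crest.Agent.R164.GC
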