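import Crest.Agent.R164.FieldCrit

/-!
Row 164: groups; the constrained entropy part at real magnetisations (helper92).
-/

set_option autoImplicit false

namespace Crest.Agent.R164.GC

open MeasureTheory ProbabilityTheory Filter Topology Set
open Crest.ProbabilityR.InvariantGlass

noncomputable section

/-! ### evenness, lower bound, monotonicity in the magnetisation -/

theorem fieldValueAt_neg {k : ℕ} {w : Fin k → ℝ} (hw : ∀ i, 0 < w i) (hv : Fin k → ℝ) (b : ℝ) :
    fieldValueAt (-b) w hv = fieldValueAt b w hv := by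
  unfold fieldValueAt
  rw [(chain_good hw hv (List.finRange k)).even b]

theorem good_le_gaussOp {a : ℝ} (ha : 0 ≤ a) (v : ℝ) {f : ℝ → ℝ} (hf : Good f) (x : ℝ) :
    f x ≤ gaussOp a v f x := by
  have hsym : ∀ (F : ℝ → ℝ), ∫ g, F (-g) ∂gaussianReal 0 1 = ∫ g, F g ∂gaussianReal 0 1 :=
    integral_gauss_neg
  rcases ha.eq_or_lt with rfl | hapos
  · rw [gaussOp_zero]
    unfold H
    have h1 : ∫ g, f (x + Real.sqrt v * g) ∂gaussianReal 0 1 = ∫ g, (f (x + Real.sqrt v * g) +
        f (x + Real.sqrt v * (-g))) / 2 ∂gaussianReal 0 1 := by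
      have hi := hf.integrable v x
      have hi2 : Integrable (fun g : ℝ => f (x + Real.sqrt v * (-g))) (gaussianReal 0 1) := by
        have := (EG.lip hf.lip).int (-Real.sqrt v) x
        refine this.congr (Eventually.of_forall fun g => ?_)
        show f (x + -Real.sqrt v * g) = f (x + Real.sqrt v * (-g))
        ring_nf
      rw [integral_div, integral_add hi hi2, hsym (fun g => f (x + Real.sqrt v * g))]
      ring
    rw [h1]
    have hi2 : Integrable (fun g : ℝ => f (x + Real.sqrt v * (-g))) (gaussianReal 0 1) := by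
      have := (EG.lip hf.lip).int (-Real.sqrt v) x
      refine this.congr (Eventually.of_forall fun g => ?_)
      show f (x + -Real.sqrt v * g) = f (x + Real.sqrt v * (-g))
      ring_nf
    have h2 := integral_mono (integrable_const (f x)) (((hf.integrable v x).add hi2).div_const 2)
      (fun g => by
        have := hf.mid (x + Real.sqrt v * g) (x + Real.sqrt v * (-g))
        have e : (x + Real.sqrt v * g + (x + Real.sqrt v * (-g))) / 2 = x := by ring
        rw [e] at this
        exact this)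
    rw [integral_const] at h2
    simpa using h2
  · rw [gaussOp_ne hapos.ne']
    have hi := hf.integrable_exp ha v x
    have hi2 : Integrable (fun g : ℝ => Real.exp (a * f (x + Real.sqrt v * (-g))))
        (gaussianReal 0 1) := by
      have := (EG.exp_lip hf.lip a).int (-Real.sqrt v) x
      refine this.congr (Eventually.of_forall fun g => ?_)
      show Real.exp (a * f (x + -Real.sqrt v * g)) = Real.exp (a * f (x + Real.sqrt v * (-g)))
      ring_nf
    have h1 : H (Real.sqrt v) (fun y => Real.exp (a * f y)) x =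
        ∫ g, (Real.exp (a * f (x + Real.sqrt v * g)) +
          Real.exp (a * f (x + Real.sqrt v * (-g)))) / 2 ∂gaussianReal 0 1 := by
      rw [integral_div, integral_add hi hi2,
        hsym (fun g => Real.exp (a * f (x + Real.sqrt v * g)))]
      unfold H
      ring
    have h2 := integral_mono (integrable_const (Real.exp (a * f x)))
      ((hi.add hi2).div_const 2)
      (fun g => by
        have h3 := hf.mid (x + Real.sqrt v * g) (x + Real.sqrt v * (-g))
        have e : (x + Real.sqrt v * g + (x + Real.sqrt v * (-g))) / 2 = x := by ring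
        rw [e] at h3
        set A := f (x + Real.sqrt v * g)
        set B := f (x + Real.sqrt v * (-g))
        have h4 : Real.exp (a * f x) ≤ Real.exp (a * A / 2) * Real.exp (a * B / 2) := by
          rw [← Real.exp_add]
          refine Real.exp_le_exp.2 ?_
          have := mul_le_mul_of_nonneg_left h3 ha
          linarith
        have h5 : Real.exp (a * A) = Real.exp (a * A / 2) ^ 2 := by
          rw [sq, ← Real.exp_add]; ring_nf
        have h6 : Real.exp (a * B) = Real.exp (a * B / 2) ^ 2 := by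
          rw [sq, ← Real.exp_add]; ring_nf
        show Real.exp (a * f x) ≤ (Real.exp (a * A) + Real.exp (a * B)) / 2
        rw [h5, h6]
        nlinarith [sq_nonneg (Real.exp (a * A / 2) - Real.exp (a * B / 2))])
    rw [integral_const] at h2
    have h3 : Real.exp (a * f x) ≤ H (Real.sqrt v) (fun y => Real.exp (a * f y)) x := by
      rw [h1]
      simpa using h2
    have h4 := Real.log_le_log (Real.exp_pos _) h3
    rw [Real.log_exp] at h4
    have h5 := mul_le_mul_of_nonneg_left h4 (inv_nonneg.2 ha)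
    rwa [inv_mul_cancel_left₀ hapos.ne'] at h5

theorem logcosh_ge (b : ℝ) : |b| - Real.log 2 ≤ Real.log (Real.cosh b) := by
  rw [sub_le_iff_le_add, ← Real.log_mul (Real.cosh_pos b).ne' two_ne_zero,
    Real.le_log_iff_exp_le (by have := Real.cosh_pos b; positivity), Real.cosh_eq]
  rcases abs_cases b with ⟨h, _⟩ | ⟨h, _⟩
  · rw [h]
    have := Real.exp_pos (-b)
    linarith
  · rw [h]
    have := Real.exp_pos b
    linarith

theorem foldr_ge {k : ℕ} {w : Fin k → ℝ} (hw : ∀ i, 0 < w i) (hv : Fin k → ℝ) :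
    ∀ (L : List (Fin k)) (b : ℝ), Real.log (Real.cosh b) ≤
      (L.foldr (fun i acc => gaussOp (leftEnd w i) (increment hv i) acc)
        (fun z => Real.log (Real.cosh z))) b
  | [], b => le_rfl
  | i :: L, b => by
      rw [List.foldr_cons]
      exact (foldr_ge hw hv L b).trans
        (good_le_gaussOp (leftEnd_nonneg hw i) _ (chain_good hw hv L) b)

/-- last value of a step field -/
def lastF {k : ℕ} (hv : Fin k → ℝ) : ℝ := ∑ l : Fin k, if l.val + 1 = k then hv l else 0

theorem fieldValueAt_ge {k : ℕ} {w : Fin k → ℝ} (hw : ∀ i, 0 < w i) (hv : Fin k → ℝ) (b : ℝ) :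
    |b| - Real.log 2 - lastF hv / 2 ≤ fieldValueAt b w hv := by
  unfold fieldValueAt lastF
  have h1 := foldr_ge hw hv (List.finRange k) b
  have h2 := logcosh_ge b
  linarith

/-- the constrained value is bounded below for `|s| ≤ 1` -/
theorem constrainedFieldValue_ge {k : ℕ} {w : Fin k → ℝ} (hw : ∀ i, 0 < w i) (hv : Fin k → ℝ)
    {s : ℝ} (hs : |s| ≤ 1) :
    ((-Real.log 2 - lastF hv / 2 : ℝ) : EReal) ≤ constrainedFieldValue s w hv := by
  unfold constrainedFieldValue
  refine le_iInf fun b => ?_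
  rw [EReal.coe_le_coe_iff]
  have h1 := fieldValueAt_ge hw hv b
  have h2 : b * s ≤ |b| := by
    calc b * s ≤ |b * s| := le_abs_self _
      _ = |b| * |s| := abs_mul _ _
      _ ≤ |b| * 1 := mul_le_mul_of_nonneg_left hs (abs_nonneg b)
      _ = |b| := mul_one _
  linarith

theorem constrainedFieldValue_ne_bot {k : ℕ} {w : Fin k → ℝ} (hw : ∀ i, 0 < w i)
    (hv : Fin k → ℝ) {s : ℝ} (hs : |s| ≤ 1) : constrainedFieldValue s w hv ≠ ⊥ := by
  intro h
  have := constrainedFieldValue_ge hw hv hs
  rw [h] at this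
  exact absurd this (not_le.2 (EReal.bot_lt_coe _))

theorem constrainedFieldValue_ne_top {k : ℕ} (s : ℝ) (w hv : Fin k → ℝ) :
    constrainedFieldValue s w hv ≠ ⊤ := by
  intro h
  have : constrainedFieldValue s w hv ≤ ((fieldValueAt 0 w hv - 0 * s : ℝ) : EReal) := iInf_le _ 0
  rw [h] at this
  exact absurd this (not_le.2 (EReal.coe_lt_top _))

/-- **monotonicity in the magnetisation** -/
theorem constrainedFieldValue_anti {k : ℕ} {w : Fin k → ℝ} (hw : ∀ i, 0 < w i)
    (hv : Fin k → ℝ) {s s' : ℝ} (h : |s'| ≤ |s|) :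
    constrainedFieldValue s w hv ≤ constrainedFieldValue s' w hv := by
  unfold constrainedFieldValue
  refine le_iInf fun b => ?_
  have key : ∃ b', fieldValueAt b' w hv - b' * s ≤ fieldValueAt b w hv - b * s' := by
    have e1 : fieldValueAt |b| w hv = fieldValueAt b w hv := by
      rcases abs_cases b with ⟨h1, _⟩ | ⟨h1, _⟩
      · rw [h1]
      · rw [h1, fieldValueAt_neg hw]
    have e2 : b * s' ≤ |b| * |s| := by
      calc b * s' ≤ |b * s'| := le_abs_self _
        _ = |b| * |s'| := abs_mul _ _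
        _ ≤ |b| * |s| := mul_le_mul_of_nonneg_left h (abs_nonneg b)
    rcases abs_cases s with ⟨h1, _⟩ | ⟨h1, _⟩
    · refine ⟨|b|, ?_⟩
      rw [e1]
      rw [h1] at e2
      linarith
    · refine ⟨-|b|, ?_⟩
      rw [fieldValueAt_neg hw, e1]
      rw [h1] at e2
      linarith
  obtain ⟨b', hb'⟩ := key
  exact (iInf_le _ b').trans (EReal.coe_le_coe_iff.2 hb')

/-! ### real magnetisations -/

/-- the constrained entropy part at real weights and magnetisations -/
def SR {J : ℕ} (γ m : Fin J → ℝ) (p : ℝ → ℝ) : EReal :=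
  ⨆ (k : ℕ) (w : Fin k → ℝ) (hv : Fin k → ℝ) (_ : IsStepField w hv),
    (∑ j : Fin J, ((γ j : ℝ) : EReal) * constrainedFieldValue (m j) w hv) +
      (((1 / 2) * ∫ s in Set.Ioo (0 : ℝ) 1, p s * stepFn w hv s : ℝ) : EReal)

theorem constrainedEntropyPart_eq_SR {J : ℕ} (γ m : Fin J → ℚ) (p : ℝ → ℝ) :
    constrainedEntropyPart γ m p = SR (fun j => ((γ j : ℚ) : ℝ)) (fun j => ((m j : ℚ) : ℝ)) p :=
  rfl

theorem coe_mul_le_mul {c : ℝ} (hc : 0 ≤ c) {x y : EReal} (h : x ≤ y) :
    (c : EReal) * x ≤ (c : EReal) * y :=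
  mul_le_mul_of_nonneg_left h (by exact_mod_cast hc)

theorem SR_anti {J : ℕ} {γ : Fin J → ℝ} (hγ : ∀ j, 0 ≤ γ j) {m m' : Fin J → ℝ}
    (h : ∀ j, |m' j| ≤ |m j|) (p : ℝ → ℝ) : SR γ m p ≤ SR γ m' p := by
  unfold SR
  refine iSup_mono fun k => iSup_mono fun w => iSup_mono fun hv => iSup_mono fun hS => ?_
  refine add_le_add_left ?_ _
  exact Finset.sum_le_sum fun j _ =>
    coe_mul_le_mul (hγ j) (constrainedFieldValue_anti hS.2.1 hv (h j))

theorem sum_coe {ι : Type*} (s : Finset ι) (f : ι → ℝ) :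
    ((∑ i ∈ s, f i : ℝ) : EReal) = ∑ i ∈ s, ((f i : ℝ) : EReal) := by
  classical
  induction s using Finset.induction_on with
  | empty => simp
  | insert i s hi ih => rw [Finset.sum_insert hi, Finset.sum_insert hi, EReal.coe_add, ih]

/-- group magnetisations of the pair `(b, (w, hv))` -/
def mG {J k : ℕ} (b : Fin J → ℝ) (w hv : Fin k → ℝ) (j : Fin J) : ℝ := magAt (b j) w hv

/-- overlap path of the pair `(b, (w, hv))` with group weights `γ` -/
def pG {J k : ℕ} (γ b : Fin J → ℝ) (w hv : Fin k → ℝ) (u : ℝ) : ℝ :=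
  ∑ j, γ j * pathP (b j) w hv u

theorem pG_eq_stepFn {J k : ℕ} (γ b : Fin J → ℝ) (w hv : Fin k → ℝ) :
    pG γ b w hv = stepFn w (fun i => ∑ j, γ j * pAt (b j) w hv i) := by
  funext u
  unfold pG pathP stepFn
  simp only [Finset.mul_sum]
  rw [Finset.sum_comm]
  refine Finset.sum_congr rfl fun i _ => ?_
  split_ifs
  · rfl
  · simp

/-- **at a critical pair the field attains the supremum** -/
theorem SR_critical_le (hC : Conc) {J k : ℕ} {γ : Fin J → ℝ} (hγ : ∀ j, 0 ≤ γ j)
    (b : Fin J → ℝ) {w hv : Fin k → ℝ} (h : IsStepField w hv) :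
    SR γ (mG b w hv) (pG γ b w hv) ≤
      ((∑ j, γ j * (fieldValueAt (b j) w hv - b j * mG b w hv j) +
        1 / 2 * ∫ u in Ioo (0 : ℝ) 1, pG γ b w hv u * stepFn w hv u : ℝ) : EReal) := by
  unfold SR
  refine iSup_le fun k' => iSup_le fun w' => iSup_le fun hv' => iSup_le fun h' => ?_
  have hne : ∀ j, ∃ A : ℝ, (A : EReal) = constrainedFieldValue (mG b w hv j) w' hv' := by
    intro j
    have h1 := constrainedFieldValue_ne_top (mG b w hv j) w' hv'
    have h2 := constrainedFieldValue_ne_bot h'.2.1 hv' (s := mG b w hv j)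
      (abs_magAt_lt h (b j)).le
    exact ⟨_, EReal.coe_toReal h1 h2⟩
  choose A hA using hne
  have hsum : (∑ j : Fin J, ((γ j : ℝ) : EReal) * constrainedFieldValue (mG b w hv j) w' hv') =
      ((∑ j, γ j * A j : ℝ) : EReal) := by
    rw [sum_coe]
    refine Finset.sum_congr rfl fun j _ => ?_
    rw [← hA j, EReal.coe_mul]
  rw [hsum, ← EReal.coe_add, EReal.coe_le_coe_iff]
  have hle : ∀ j, A j + 1 / 2 * ∫ u in Ioo (0 : ℝ) 1, pathP (b j) w hv u * stepFn w' hv' u ≤
      fieldValueAt (b j) w hv - b j * mG b w hv j +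
        1 / 2 * ∫ u in Ioo (0 : ℝ) 1, pathP (b j) w hv u * stepFn w hv u := by
    intro j
    refine critical hC h h' (b j) (A j) fun b' => ?_
    have h1 : (A j : EReal) ≤ ((fieldValueAt b' w' hv' - b' * magAt (b j) w hv : ℝ) : EReal) := by
      rw [hA j]
      exact iInf_le _ b'
    rwa [EReal.coe_le_coe_iff] at h1
  have hint : ∀ {k' : ℕ} (w' hv' : Fin k' → ℝ), (∀ i, 0 < w' i) →
      ∫ u in Ioo (0 : ℝ) 1, pG γ b w hv u * stepFn w' hv' u =
        ∑ j, γ j * ∫ u in Ioo (0 : ℝ) 1, pathP (b j) w hv u * stepFn w' hv' u := by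
    intro k' w' hv' hw'
    unfold pG
    simp only [Finset.sum_mul]
    rw [integral_finsetSum]
    · refine Finset.sum_congr rfl fun j _ => ?_
      rw [← integral_const_mul]
      refine setIntegral_congr_fun measurableSet_Ioo fun u _ => ?_
      show γ j * pathP (b j) w hv u * stepFn w' hv' u = γ j * (pathP (b j) w hv u * stepFn w' hv' u)
      ring
    · intro j _
      have h1 : IntegrableOn (pathP (b j) w hv) (Ioo 0 1) := integrableOn_stepFn h.2.1 _
      have h2 : IntegrableOn (stepFn w' hv') (Ioo 0 1) := integrableOn_stepFn hw' _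
      obtain ⟨K, hK0, hK⟩ := SL_bdd (toL w' hv')
      have h3 : ∀ᵐ u ∂(volume.restrict (Ioo (0 : ℝ) 1)), ‖stepFn w' hv' u‖ ≤ K := by
        filter_upwards [ae_restrict_mem measurableSet_Ioo] with u hu
        rw [stepFn_eq_SL hw' hv' hu.1, Real.norm_eq_abs]
        exact hK _ _
      have h4 := Integrable.bdd_mul (c := K) (h1.const_mul (γ j)) h2.aestronglyMeasurable h3
      refine h4.congr (Eventually.of_forall fun u => ?_)
      show stepFn w' hv' u * (γ j * pathP (b j) w hv u) = γ j * pathP (b j) w hv u * stepFn w' hv' u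
      ring
  rw [hint w' hv' h'.2.1, hint w hv h.2.1, Finset.mul_sum, Finset.mul_sum,
    ← Finset.sum_add_distrib, ← Finset.sum_add_distrib]
  refine Finset.sum_le_sum fun j _ => ?_
  have := mul_le_mul_of_nonneg_left (hle j) (hγ j)
  linarith

/-! ### step functions as trial paths -/

theorem exists_cell :
    ∀ (a : ℝ) (M : List (ℝ × ℝ)) (u : ℝ), a < u → u ≤ a + sumw M → ∃ q ∈ M, SL a M u = q.2 := by
  intro a M
  induction M generalizing a with
  | nil =>
      intro u h1 h2
      rw [sumw_nil, add_zero] at h2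
      exact absurd h1 (not_lt.2 h2)
  | cons q M ih =>
      obtain ⟨w, h⟩ := q
      intro u h1 h2
      by_cases hu : u ≤ a + w
      · exact ⟨(w, h), List.mem_cons_self, if_pos hu⟩
      · obtain ⟨q, hq, he⟩ := ih (a + w) u (not_le.1 hu) (by rw [sumw_cons] at h2; linarith)
        refine ⟨q, List.mem_cons_of_mem _ hq, ?_⟩
        show (if u ≤ a + w then h else SL (a + w) M u) = q.2
        rw [if_neg hu, he]

theorem mono_le : ∀ (M : List (ℝ × ℝ)) (hp : ℝ), Mono hp M → ∀ q ∈ M, hp ≤ q.2
  | [], _, _, q, hq => by simp at hq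
  | (w, h) :: M, hp, hm, q, hq => by
      rcases List.mem_cons.1 hq with rfl | hq
      · exact hm.1
      · exact hm.1.trans (mono_le M h hm.2 q hq)

theorem SL_mono : ∀ (M : List (ℝ × ℝ)) (a hp : ℝ), PosW M → Mono hp M → ∀ u u', a < u → u ≤ u' →
    u' ≤ a + sumw M → SL a M u ≤ SL a M u'
  | [], _, _, _, _, _, _, _, _, _ => le_rfl
  | (w, h) :: M, a, hp, hP, hm, u, u', hu, huu, hu' => by
      rw [sumw_cons] at hu'
      show (if u ≤ a + w then h else SL (a + w) M u) ≤ if u' ≤ a + w then h else SL (a + w) M u'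
      by_cases h1 : u' ≤ a + w
      · rw [if_pos h1, if_pos (huu.trans h1)]
      · rw [if_neg h1]
        by_cases h2 : u ≤ a + w
        · rw [if_pos h2]
          obtain ⟨q, hq, he⟩ := exists_cell (a + w) M u' (not_le.1 h1) (by linarith)
          rw [he]
          exact mono_le M h hm.2 q hq
        · rw [if_neg h2]
          exact SL_mono M (a + w) h hP.tail hm.2 u u' (not_le.1 h2) huu (by linarith)

theorem isTrialPath_stepFn {k : ℕ} {w p : Fin k → ℝ} (hw : ∀ i, 0 < w i) (hs : ∑ i, w i = 1)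
    (hm : Monotone p) (h0 : ∀ i, 0 ≤ p i) (h1 : ∀ i, p i ≤ 1) : IsTrialPath (stepFn w p) := by
  have hsum : sumw (toL w p) = 1 := by rw [sumw_toL, hs]
  refine ⟨?_, ?_, ?_⟩
  · unfold stepFn
    refine Finset.measurable_sum _ fun i _ => ?_
    exact Measurable.ite (measurableSet_Ioc (a := leftEnd w i) (b := leftEnd w i + w i))
      measurable_const measurable_const
  · intro u hu u' hu' huu
    rw [stepFn_eq_SL hw p hu.1, stepFn_eq_SL hw p hu'.1]
    exact SL_mono _ 0 0 (posW_toL hw p) (mono_toL k 0 w p h0 hm) u u' hu.1 huu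
      (by rw [hsum, zero_add]; exact hu'.2.le)
  · intro u hu
    rw [stepFn_eq_SL hw p hu.1]
    obtain ⟨q, hq, he⟩ := exists_cell 0 (toL w p) u hu.1 (by rw [hsum, zero_add]; exact hu.2.le)
    rw [he]
    unfold toL at hq
    rw [List.mem_ofFn] at hq
    obtain ⟨i, rfl⟩ := hq
    exact ⟨h0 i, h1 i⟩

theorem isTrialPath_pG {J k : ℕ} {γ : Fin J → ℝ} (hγ : ∀ j, 0 ≤ γ j) (hs : ∑ j, γ j ≤ 1)
    (b : Fin J → ℝ) {w hv : Fin k → ℝ} (h : IsStepField w hv) : IsTrialPath (pG γ b w hv) := by
  rw [pG_eq_stepFn]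
  refine isTrialPath_stepFn h.2.1 h.2.2.1 ?_ ?_ ?_
  · intro i i' hi
    exact Finset.sum_le_sum fun j _ => mul_le_mul_of_nonneg_left (pAt_mono h (b j) hi) (hγ j)
  · intro i
    exact Finset.sum_nonneg fun j _ => mul_nonneg (hγ j) (pAt_nonneg h (b j) i)
  · intro i
    calc ∑ j, γ j * pAt (b j) w hv i ≤ ∑ j, γ j * 1 :=
          Finset.sum_le_sum fun j _ => mul_le_mul_of_nonneg_left (pAt_le_one h (b j) i) (hγ j)
      _ = ∑ j, γ j := by simp
      _ ≤ 1 := hs

end

end Crest.Agent.R164.GC
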