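import Crest.Agent.R164.FieldGroup

/-!
Row 164: groups with group-dependent fields (common widths) (helper92, for helper893).
-/

set_option autoImplicit false

namespace Crest.Agent.R164.GC

open MeasureTheory ProbabilityTheory Filter Topology Set
open Crest.ProbabilityR.InvariantGlass

noncomputable section

/-- group magnetisations, group-dependent fields -/
def mG2 {J k : ℕ} (b : Fin J → ℝ) (w : Fin k → ℝ) (hv : Fin J → Fin k → ℝ) (j : Fin J) : ℝ :=
  magAt (b j) w (hv j)

/-- overlap path, group-dependent fields -/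
def pG2 {J k : ℕ} (γ b : Fin J → ℝ) (w : Fin k → ℝ) (hv : Fin J → Fin k → ℝ) (u : ℝ) : ℝ :=
  ∑ j, γ j * pathP (b j) w (hv j) u

theorem pG2_eq_stepFn {J k : ℕ} (γ b : Fin J → ℝ) (w : Fin k → ℝ) (hv : Fin J → Fin k → ℝ) :
    pG2 γ b w hv = stepFn w (fun i => ∑ j, γ j * pAt (b j) w (hv j) i) := by
  funext u
  unfold pG2 pathP stepFn
  simp only [Finset.mul_sum]
  rw [Finset.sum_comm]
  refine Finset.sum_congr rfl fun i _ => ?_
  split_ifs
  · rfl
  · simp

theorem integral_pG2 {J k : ℕ} (γ b : Fin J → ℝ) {w : Fin k → ℝ} {hv : Fin J → Fin k → ℝ}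
    (h : ∀ j, IsStepField w (hv j)) {k' : ℕ} {w' : Fin k' → ℝ} (hw' : ∀ i, 0 < w' i)
    (hv' : Fin k' → ℝ) :
    ∫ u in Ioo (0 : ℝ) 1, pG2 γ b w hv u * stepFn w' hv' u =
      ∑ j, γ j * ∫ u in Ioo (0 : ℝ) 1, pathP (b j) w (hv j) u * stepFn w' hv' u := by
  unfold pG2
  simp only [Finset.sum_mul]
  rw [integral_finsetSum]
  · refine Finset.sum_congr rfl fun j _ => ?_
    rw [← integral_const_mul]
    refine setIntegral_congr_fun measurableSet_Ioo fun u _ => ?_
    show γ j * pathP (b j) w (hv j) u * stepFn w' hv' u =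
      γ j * (pathP (b j) w (hv j) u * stepFn w' hv' u)
    ring
  · intro j _
    have h1 : IntegrableOn (pathP (b j) w (hv j)) (Ioo 0 1) := integrableOn_stepFn (h j).2.1 _
    have h2 : IntegrableOn (stepFn w' hv') (Ioo 0 1) := integrableOn_stepFn hw' _
    obtain ⟨K, hK0, hK⟩ := SL_bdd (toL w' hv')
    have h3 : ∀ᵐ u ∂(volume.restrict (Ioo (0 : ℝ) 1)), ‖stepFn w' hv' u‖ ≤ K := by
      filter_upwards [ae_restrict_mem measurableSet_Ioo] with u hu
      rw [stepFn_eq_SL hw' hv' hu.1, Real.norm_eq_abs]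
      exact hK _ _
    have h4 := Integrable.bdd_mul (c := K) (h1.const_mul (γ j)) h2.aestronglyMeasurable h3
    refine h4.congr (Eventually.of_forall fun u => ?_)
    show stepFn w' hv' u * (γ j * pathP (b j) w (hv j) u) =
      γ j * pathP (b j) w (hv j) u * stepFn w' hv' u
    ring

/-- **critical pairs, group by group** -/
theorem SR_critical_le2 (hC : Conc) {J k : ℕ} {γ : Fin J → ℝ} (hγ : ∀ j, 0 ≤ γ j)
    (b : Fin J → ℝ) {w : Fin k → ℝ} {hv : Fin J → Fin k → ℝ} (h : ∀ j, IsStepField w (hv j)) :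
    SR γ (mG2 b w hv) (pG2 γ b w hv) ≤
      ((∑ j, γ j * (fieldValueAt (b j) w (hv j) - b j * mG2 b w hv j +
        1 / 2 * ∫ u in Ioo (0 : ℝ) 1, pathP (b j) w (hv j) u * stepFn w (hv j) u) : ℝ) :
        EReal) := by
  unfold SR
  refine iSup_le fun k' => iSup_le fun w' => iSup_le fun hv' => iSup_le fun h' => ?_
  have hne : ∀ j, ∃ A : ℝ, (A : EReal) = constrainedFieldValue (mG2 b w hv j) w' hv' := by
    intro j
    have h1 := constrainedFieldValue_ne_top (mG2 b w hv j) w' hv'
    have h2 := constrainedFieldValue_ne_bot h'.2.1 hv' (s := mG2 b w hv j)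
      (abs_magAt_lt (h j) (b j)).le
    exact ⟨_, EReal.coe_toReal h1 h2⟩
  choose A hA using hne
  have hsum : (∑ j : Fin J, ((γ j : ℝ) : EReal) * constrainedFieldValue (mG2 b w hv j) w' hv') =
      ((∑ j, γ j * A j : ℝ) : EReal) := by
    rw [sum_coe]
    refine Finset.sum_congr rfl fun j _ => ?_
    rw [← hA j, EReal.coe_mul]
  rw [hsum, ← EReal.coe_add, EReal.coe_le_coe_iff]
  have hle : ∀ j, A j + 1 / 2 * ∫ u in Ioo (0 : ℝ) 1, pathP (b j) w (hv j) u * stepFn w' hv' u ≤
      fieldValueAt (b j) w (hv j) - b j * mG2 b w hv j +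
        1 / 2 * ∫ u in Ioo (0 : ℝ) 1, pathP (b j) w (hv j) u * stepFn w (hv j) u := by
    intro j
    refine critical hC (h j) h' (b j) (A j) fun b' => ?_
    have h1 : (A j : EReal) ≤
        ((fieldValueAt b' w' hv' - b' * magAt (b j) w (hv j) : ℝ) : EReal) := by
      rw [hA j]
      exact iInf_le _ b'
    rwa [EReal.coe_le_coe_iff] at h1
  rw [integral_pG2 γ b h h'.2.1, Finset.mul_sum, ← Finset.sum_add_distrib]
  refine Finset.sum_le_sum fun j _ => ?_
  have := mul_le_mul_of_nonneg_left (hle j) (hγ j)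
  linarith

theorem isTrialPath_pG2 {J k : ℕ} {γ : Fin J → ℝ} (hγ : ∀ j, 0 ≤ γ j) (hs : ∑ j, γ j ≤ 1)
    (hJ : 0 < J) (b : Fin J → ℝ) {w : Fin k → ℝ} {hv : Fin J → Fin k → ℝ}
    (h : ∀ j, IsStepField w (hv j)) : IsTrialPath (pG2 γ b w hv) := by
  have h0 := h ⟨0, hJ⟩
  rw [pG2_eq_stepFn]
  refine isTrialPath_stepFn h0.2.1 h0.2.2.1 ?_ ?_ ?_
  · intro i i' hi
    exact Finset.sum_le_sum fun j _ => mul_le_mul_of_nonneg_left (pAt_mono (h j) (b j) hi) (hγ j)
  · intro i
    exact Finset.sum_nonneg fun j _ => mul_nonneg (hγ j) (pAt_nonneg (h j) (b j) i)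
  · intro i
    calc ∑ j, γ j * pAt (b j) w (hv j) i ≤ ∑ j, γ j * 1 :=
          Finset.sum_le_sum fun j _ => mul_le_mul_of_nonneg_left (pAt_le_one (h j) (b j) i) (hγ j)
      _ = ∑ j, γ j := by simp
      _ ≤ 1 := hs

/-- `1/2 ∫ pathP · stepFn` as a finite sum -/
theorem integral_pathP_stepFn {k : ℕ} {w hv : Fin k → ℝ} (h : IsStepField w hv) (b : ℝ)
    (hv' : Fin k → ℝ) :
    ∫ u in Ioo (0 : ℝ) 1, pathP b w hv u * stepFn w hv' u =
      ∑ i, w i * (pAt b w hv i * hv' i) := by
  unfold pathP
  rw [integral_stepFn h.2.1 h.2.2.1 _ (integrableOn_stepFn h.2.1 hv')]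
  refine Finset.sum_congr rfl fun i _ => ?_
  have hi := h.2.1 i
  have e : ∫ u in (leftEnd w i)..(leftEnd w i + w i), stepFn w hv' u = w i * hv' i := by
    rw [intervalIntegral.integral_of_le (by linarith)]
    have h1 : ∫ u in Ioc (leftEnd w i) (leftEnd w i + w i), stepFn w hv' u =
        ∫ _u in Ioc (leftEnd w i) (leftEnd w i + w i), hv' i := by
      refine setIntegral_congr_fun measurableSet_Ioc fun u hu => ?_
      show stepFn w hv' u = hv' i
      unfold stepFn
      rw [Finset.sum_eq_single i]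
      · rw [if_pos ⟨hu.1, hu.2⟩]
      · intro l _ hl
        refine if_neg fun hc => ?_
        rcases lt_or_gt_of_ne hl with hlt | hgt
        · -- `l < i`
          have h2 : leftEnd w l + w l ≤ leftEnd w i := by
            unfold leftEnd
            rw [← Finset.sum_filter, ← Finset.sum_filter]
            have hnot : l ∉ Finset.univ.filter (fun m : Fin k => m < l) := by simp
            have e2 : ∑ m ∈ Finset.univ.filter (fun m : Fin k => m < l), w m + w l =
                ∑ m ∈ insert l (Finset.univ.filter (fun m : Fin k => m < l)), w m := by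
              rw [Finset.sum_insert hnot]; ring
            rw [e2]
            refine Finset.sum_le_sum_of_subset_of_nonneg ?_ fun m _ _ => (h.2.1 m).le
            intro m hm
            rw [Finset.mem_insert] at hm
            rcases hm with rfl | hm
            · simp [hlt]
            · simp only [Finset.mem_filter, Finset.mem_univ, true_and] at hm ⊢
              exact hm.trans hlt
          linarith [hc.2, hu.1]
        · have h2 : leftEnd w i + w i ≤ leftEnd w l := by
            unfold leftEnd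
            rw [← Finset.sum_filter, ← Finset.sum_filter]
            have hnot : i ∉ Finset.univ.filter (fun m : Fin k => m < i) := by simp
            have e2 : ∑ m ∈ Finset.univ.filter (fun m : Fin k => m < i), w m + w i =
                ∑ m ∈ insert i (Finset.univ.filter (fun m : Fin k => m < i)), w m := by
              rw [Finset.sum_insert hnot]; ring
            rw [e2]
            refine Finset.sum_le_sum_of_subset_of_nonneg ?_ fun m _ _ => (h.2.1 m).le
            intro m hm
            rw [Finset.mem_insert] at hm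
            rcases hm with rfl | hm
            · simp [hgt]
            · simp only [Finset.mem_filter, Finset.mem_univ, true_and] at hm ⊢
              exact hm.trans hgt
          linarith [hc.1, hu.2]
      · intro hni
        exact absurd (Finset.mem_univ i) hni
    rw [h1, setIntegral_const, Measure.real, Real.volume_Ioc,
      ENNReal.toReal_ofReal (by linarith), smul_eq_mul]
    ring
  rw [e]
  ring

end

end Crest.Agent.R164.GC
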