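import Crest.Agent.R164.GCalc3

/-!
Row 164: step fields as lists, refinement of widths (helper92).
-/

set_option autoImplicit false

namespace Crest.Agent.R164.GC

open MeasureTheory ProbabilityTheory Filter Topology Set
open Crest.ProbabilityR.InvariantGlass

noncomputable section

/-! ### lists of `(w, h)` -/

/-- increments: list of `(v, w)` -/
def inc : ℝ → List (ℝ × ℝ) → List (ℝ × ℝ)
  | _, [] => []
  | hp, (w, h) :: M => (h - hp, w) :: inc h M

/-- last value -/
def lastV : ℝ → List (ℝ × ℝ) → ℝ
  | hp, [] => hp
  | _, (_, h) :: M => lastV h M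

/-- total width -/
def sumw (M : List (ℝ × ℝ)) : ℝ := (M.map Prod.fst).sum

theorem sumw_nil : sumw [] = 0 := rfl

theorem sumw_cons (w h : ℝ) (M : List (ℝ × ℝ)) : sumw ((w, h) :: M) = w + sumw M := by
  simp [sumw]

/-- value of the recursion from a list of `(w, h)` -/
def fvL (b : ℝ) (M : List (ℝ × ℝ)) : ℝ := chain 0 (inc 0 M) b - lastV 0 M / 2

/-- nondecreasing values -/
def Mono : ℝ → List (ℝ × ℝ) → Prop
  | _, [] => True
  | hp, (_, h) :: M => hp ≤ h ∧ Mono h M

/-- positive widths -/
def PosW (M : List (ℝ × ℝ)) : Prop := ∀ q ∈ M, 0 < q.1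

theorem PosW.tail {q : ℝ × ℝ} {M : List (ℝ × ℝ)} (h : PosW (q :: M)) : PosW M :=
  fun r hr => h r (List.mem_cons_of_mem _ hr)

theorem PosW.head {q : ℝ × ℝ} {M : List (ℝ × ℝ)} (h : PosW (q :: M)) : 0 < q.1 :=
  h q List.mem_cons_self

theorem PosW.sumw_nonneg : ∀ {M : List (ℝ × ℝ)}, PosW M → 0 ≤ sumw M
  | [], _ => le_rfl
  | (w, h) :: M, hM => by
      rw [sumw_cons]
      exact add_nonneg hM.head.le (PosW.sumw_nonneg hM.tail)

theorem PosW.eq_nil {M : List (ℝ × ℝ)} (hM : PosW M) (h : sumw M = 0) : M = [] := by
  cases M with
  | nil => rfl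
  | cons q M =>
      exfalso
      obtain ⟨w, h'⟩ := q
      rw [sumw_cons] at h
      have h1 : 0 < w := hM.head
      have := hM.tail.sumw_nonneg
      linarith

theorem adm_inc : ∀ (M : List (ℝ × ℝ)) (a hp : ℝ), 0 ≤ a → PosW M → Mono hp M →
    a + sumw M = 1 → Adm a (inc hp M)
  | [], a, hp, _, _, _, h => by
      rw [sumw_nil, add_zero] at h
      exact h
  | (w, h) :: M, a, hp, ha, hM, hm, hs => by
      have hw : 0 < w := hM.head
      rw [sumw_cons] at hs
      exact ⟨ha, sub_nonneg.2 hm.1, hw.le,
        adm_inc M (a + w) h (by linarith) hM.tail hm.2 (by linarith)⟩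

/-! ### refinement -/

/-- `Ref M L`: the list `M` is obtained from `L` by splitting widths -/
inductive Ref : List (ℝ × ℝ) → List (ℝ × ℝ) → Prop
  | nil : Ref [] []
  | cons (w h : ℝ) {M L : List (ℝ × ℝ)} : Ref M L → Ref ((w, h) :: M) ((w, h) :: L)
  | split (w w1 h : ℝ) {M L : List (ℝ × ℝ)} : Ref M ((w - w1, h) :: L) →
      Ref ((w1, h) :: M) ((w, h) :: L)

theorem gaussOp_var_zero (a : ℝ) (f : ℝ → ℝ) : gaussOp a 0 f = f := by
  funext x
  by_cases ha : a = 0
  · subst ha
    rw [gaussOp_zero, Real.sqrt_zero, H_zero]
  · rw [gaussOp_ne ha, Real.sqrt_zero, H_zero, Real.log_exp]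
    field_simp

theorem tE_var_zero (a : ℝ) (f φ : ℝ → ℝ) : tE a 0 f φ = φ := by
  funext x
  unfold tE
  rw [Real.sqrt_zero, H_zero, H_zero, mul_div_assoc, div_self (Real.exp_pos _).ne', mul_one]

theorem Ref.chain_eq {M L : List (ℝ × ℝ)} (h : Ref M L) :
    ∀ a hp, chain a (inc hp M) = chain a (inc hp L) := by
  induction h with
  | nil => intro a hp; rfl
  | cons w h _ ih =>
      intro a hp
      show gaussOp a (h - hp) (chain (a + w) (inc h _)) = gaussOp a (h - hp) (chain (a + w) _)
      rw [ih]
  | @split w w1 h M L _ ih =>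
      intro a hp
      show gaussOp a (h - hp) (chain (a + w1) (inc h M)) = gaussOp a (h - hp) (chain (a + w) _)
      rw [ih (a + w1) h]
      show gaussOp a (h - hp) (gaussOp (a + w1) (h - h) (chain (a + w1 + (w - w1)) (inc h L))) = _
      rw [sub_self, gaussOp_var_zero]
      have : a + w1 + (w - w1) = a + w := by ring
      rw [this]

theorem Ref.chain1_eq {M L : List (ℝ × ℝ)} (h : Ref M L) :
    ∀ a hp, chain1 a (inc hp M) = chain1 a (inc hp L) := by
  induction h with
  | nil => intro a hp; rfl
  | @cons w h M L hr ih =>
      intro a hp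
      show tE a (h - hp) (chain (a + w) (inc h M)) (chain1 (a + w) (inc h M)) =
        tE a (h - hp) (chain (a + w) (inc h L)) (chain1 (a + w) (inc h L))
      rw [ih, hr.chain_eq]
  | @split w w1 h M L hr ih =>
      intro a hp
      show tE a (h - hp) (chain (a + w1) (inc h M)) (chain1 (a + w1) (inc h M)) =
        tE a (h - hp) (chain (a + w) (inc h L)) (chain1 (a + w) (inc h L))
      rw [ih (a + w1) h, hr.chain_eq (a + w1) h]
      have e1 : chain (a + w1) (inc h ((w - w1, h) :: L)) = chain (a + w) (inc h L) := by
        show gaussOp (a + w1) (h - h) (chain (a + w1 + (w - w1)) (inc h L)) = _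
        rw [sub_self, gaussOp_var_zero]
        have : a + w1 + (w - w1) = a + w := by ring
        rw [this]
      have e2 : chain1 (a + w1) (inc h ((w - w1, h) :: L)) = chain1 (a + w) (inc h L) := by
        show tE (a + w1) (h - h) (chain (a + w1 + (w - w1)) (inc h L))
          (chain1 (a + w1 + (w - w1)) (inc h L)) = _
        rw [sub_self, tE_var_zero]
        have : a + w1 + (w - w1) = a + w := by ring
        rw [this]
      rw [e1, e2]

theorem Ref.lastV_eq {M L : List (ℝ × ℝ)} (h : Ref M L) : ∀ hp, lastV hp M = lastV hp L := by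
  induction h with
  | nil => intro hp; rfl
  | cons w h _ ih => intro hp; exact ih h
  | split w w1 h _ ih => intro hp; exact ih h

theorem Ref.mono {M L : List (ℝ × ℝ)} (h : Ref M L) : ∀ hp, Mono hp L → Mono hp M := by
  induction h with
  | nil => intro hp _; trivial
  | cons w h _ ih => intro hp hm; exact ⟨hm.1, ih h hm.2⟩
  | split w w1 h _ ih => intro hp hm; exact ⟨hm.1, ih h ⟨le_rfl, hm.2⟩⟩

theorem Ref.sumw_eq {M L : List (ℝ × ℝ)} (h : Ref M L) : sumw M = sumw L := by
  induction h with
  | nil => rfl
  | cons w h _ ih => rw [sumw_cons, sumw_cons, ih]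
  | split w w1 h _ ih => rw [sumw_cons, sumw_cons, ih, sumw_cons]; ring

theorem Ref.fvL_eq {M L : List (ℝ × ℝ)} (h : Ref M L) (b : ℝ) : fvL b M = fvL b L := by
  unfold fvL
  rw [h.chain_eq, h.lastV_eq]

/-- value of the step function of a list to the right of `a` -/
def SL : ℝ → List (ℝ × ℝ) → ℝ → ℝ
  | _, [] => fun _ => 0
  | a, (w, h) :: M => fun u => if u ≤ a + w then h else SL (a + w) M u

theorem Ref.SL_eq {M L : List (ℝ × ℝ)} (h : Ref M L) (hM : PosW M) :
    ∀ a u, a < u → SL a M u = SL a L u := by
  induction h with
  | nil => intro a u _; rfl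
  | @cons w h M L hr ih =>
      intro a u hu
      show (if u ≤ a + w then h else SL (a + w) M u) = if u ≤ a + w then h else SL (a + w) L u
      split_ifs with h1
      · rfl
      · exact ih hM.tail _ _ (not_le.1 h1)
  | @split w w1 h M L hr ih =>
      intro a u hu
      have hw1 : 0 < w1 := hM.head
      show (if u ≤ a + w1 then h else SL (a + w1) M u) = if u ≤ a + w then h else SL (a + w) L u
      by_cases h1 : u ≤ a + w1
      · rw [if_pos h1]
        by_cases h2 : u ≤ a + w
        · rw [if_pos h2]
        · -- impossible: `w1 ≤ w`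
          exfalso
          have h3 : sumw M = (w - w1) + sumw L := by rw [hr.sumw_eq, sumw_cons]
          -- positivity of `w - w1`
          have h4 : 0 < w - w1 := by
            have aux : ∀ {A B : List (ℝ × ℝ)}, Ref A B → PosW A → PosW B := by
              intro A B hAB
              induction hAB with
              | nil => exact fun h => h
              | cons w h _ ih =>
                  intro hA q hq
                  rcases List.mem_cons.1 hq with rfl | hq
                  · exact hA.head
                  · exact ih hA.tail q hq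
              | split w w1 h _ ih =>
                  intro hA q hq
                  have h5 := ih hA.tail
                  rcases List.mem_cons.1 hq with rfl | hq
                  · have h6 : 0 < w - w1 := h5.head
                    have h7 : 0 < w1 := hA.head
                    show 0 < w
                    linarith
                  · exact h5.tail q hq
            exact (aux hr hM.tail).head
          linarith
      · rw [if_neg h1]
        rw [ih hM.tail _ _ (not_le.1 h1)]
        show (if u ≤ a + w1 + (w - w1) then h else SL (a + w1 + (w - w1)) L u) = _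
        have : a + w1 + (w - w1) = a + w := by ring
        rw [this]

/-- first components -/
def p1 (q : ℝ × ℝ × ℝ) : ℝ × ℝ := (q.1, q.2.1)

/-- second components -/
def p2 (q : ℝ × ℝ × ℝ) : ℝ × ℝ := (q.1, q.2.2)

/-- **common refinement** -/
theorem exists_merge : ∀ (n : ℕ) (L1 L2 : List (ℝ × ℝ)), L1.length + L2.length ≤ n →
    PosW L1 → PosW L2 → sumw L1 = sumw L2 →
    ∃ M : List (ℝ × ℝ × ℝ), Ref (M.map p1) L1 ∧ Ref (M.map p2) L2 ∧ ∀ q ∈ M, 0 < q.1
  | 0, L1, L2, hn, h1, h2, hs => by
      have e1 : L1 = [] := List.length_eq_zero_iff.1 (by omega)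
      have e2 : L2 = [] := List.length_eq_zero_iff.1 (by omega)
      subst e1 e2
      exact ⟨[], Ref.nil, Ref.nil, by simp⟩
  | n + 1, L1, L2, hn, h1, h2, hs => by
      cases L1 with
      | nil =>
          have e2 : L2 = [] := h2.eq_nil (by rw [← hs, sumw_nil])
          subst e2
          exact ⟨[], Ref.nil, Ref.nil, by simp⟩
      | cons q L1 =>
          obtain ⟨w, h⟩ := q
          cases L2 with
          | nil =>
              exfalso
              rw [sumw_cons, sumw_nil] at hs
              have hw : 0 < w := h1.head
              have := h1.tail.sumw_nonneg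
              linarith
          | cons q' L2 =>
              obtain ⟨w', h'⟩ := q'
              have hw : 0 < w := h1.head
              have hw' : 0 < w' := h2.head
              rw [sumw_cons, sumw_cons] at hs
              simp only [List.length_cons] at hn
              rcases lt_trichotomy w w' with hlt | heq | hgt
              · obtain ⟨M, m1, m2, m3⟩ := exists_merge n L1 ((w' - w, h') :: L2)
                  (by simp only [List.length_cons]; omega) h1.tail
                  (by
                    intro q hq
                    rcases List.mem_cons.1 hq with rfl | hq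
                    · exact sub_pos.2 hlt
                    · exact h2.tail q hq)
                  (by rw [sumw_cons]; linarith)
                refine ⟨(w, h, h') :: M, Ref.cons w h m1, Ref.split w' w h' m2, ?_⟩
                intro q hq
                rcases List.mem_cons.1 hq with rfl | hq
                · exact hw
                · exact m3 q hq
              · subst heq
                obtain ⟨M, m1, m2, m3⟩ := exists_merge n L1 L2 (by omega) h1.tail h2.tail
                  (by linarith)
                refine ⟨(w, h, h') :: M, Ref.cons w h m1, Ref.cons w h' m2, ?_⟩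
                intro q hq
                rcases List.mem_cons.1 hq with rfl | hq
                · exact hw
                · exact m3 q hq
              · obtain ⟨M, m1, m2, m3⟩ := exists_merge n ((w - w', h) :: L1) L2
                  (by simp only [List.length_cons]; omega)
                  (by
                    intro q hq
                    rcases List.mem_cons.1 hq with rfl | hq
                    · exact sub_pos.2 hgt
                    · exact h1.tail q hq) h2.tail
                  (by rw [sumw_cons]; linarith)
                refine ⟨(w', h, h') :: M, Ref.split w w' h m1, Ref.cons w' h' m2, ?_⟩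
                intro q hq
                rcases List.mem_cons.1 hq with rfl | hq
                · exact hw'
                · exact m3 q hq

/-! ### the functional `∫ p g` -/

/-- `∫ p g` for the overlap path `p` of the recursion -/
def PG : ℝ → List (ℝ × ℝ) → (ℝ → ℝ) → ℝ → ℝ
  | _, [], _ => fun _ => 0
  | a, (v, w) :: L, g => tE a v (chain (a + w) L)
      (fun z => (∫ u in a..(a + w), g u) * chain1 (a + w) L z ^ 2 + PG (a + w) L g z)

theorem PG_BC : ∀ (L : List (ℝ × ℝ)) (a : ℝ) (g : ℝ → ℝ), Adm a L → ∃ K, BC (PG a L g) K
  | [], _, _, _ => ⟨_, BC.const 0⟩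
  | (v, w) :: L, a, g, h => by
      obtain ⟨K, hK⟩ := PG_BC L (a + w) g h.2.2.2
      have hS := chain_sm L (a + w) h.2.2.2
      exact ⟨_, tE_BC hS.lip a v (((hS.B1.pow 2).const_mul _).add hK)⟩

theorem Ref.PG_eq {M L : List (ℝ × ℝ)} (h : Ref M L) {g : ℝ → ℝ}
    (hg : ∀ a b, IntervalIntegrable g volume a b) :
    ∀ a hp, PG a (inc hp M) g = PG a (inc hp L) g := by
  induction h with
  | nil => intro a hp; rfl
  | @cons w h M L hr ih =>
      intro a hp
      show tE a (h - hp) (chain (a + w) (inc h M)) (fun z => (∫ u in a..(a + w), g u) *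
        chain1 (a + w) (inc h M) z ^ 2 + PG (a + w) (inc h M) g z) =
        tE a (h - hp) (chain (a + w) (inc h L)) (fun z => (∫ u in a..(a + w), g u) *
        chain1 (a + w) (inc h L) z ^ 2 + PG (a + w) (inc h L) g z)
      rw [ih, hr.chain_eq, hr.chain1_eq]
  | @split w w1 h M L hr ih =>
      intro a hp
      show tE a (h - hp) (chain (a + w1) (inc h M)) (fun z => (∫ u in a..(a + w1), g u) *
        chain1 (a + w1) (inc h M) z ^ 2 + PG (a + w1) (inc h M) g z) =
        tE a (h - hp) (chain (a + w) (inc h L)) (fun z => (∫ u in a..(a + w), g u) *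
        chain1 (a + w) (inc h L) z ^ 2 + PG (a + w) (inc h L) g z)
      have hwe : a + w1 + (w - w1) = a + w := by ring
      have e1 : chain (a + w1) (inc h M) = chain (a + w) (inc h L) := by
        rw [hr.chain_eq]
        show gaussOp (a + w1) (h - h) (chain (a + w1 + (w - w1)) (inc h L)) = _
        rw [sub_self, gaussOp_var_zero, hwe]
      have e2 : chain1 (a + w1) (inc h M) = chain1 (a + w) (inc h L) := by
        rw [hr.chain1_eq]
        show tE (a + w1) (h - h) (chain (a + w1 + (w - w1)) (inc h L))
          (chain1 (a + w1 + (w - w1)) (inc h L)) = _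
        rw [sub_self, tE_var_zero, hwe]
      have e3 : PG (a + w1) (inc h M) g = fun z => (∫ u in (a + w1)..(a + w), g u) *
          chain1 (a + w) (inc h L) z ^ 2 + PG (a + w) (inc h L) g z := by
        rw [ih (a + w1) h]
        show tE (a + w1) (h - h) (chain (a + w1 + (w - w1)) (inc h L)) (fun z =>
          (∫ u in (a + w1)..(a + w1 + (w - w1)), g u) *
          chain1 (a + w1 + (w - w1)) (inc h L) z ^ 2 + PG (a + w1 + (w - w1)) (inc h L) g z) = _
        rw [sub_self, tE_var_zero, hwe]
      rw [e1, e2, e3]
      congr 1
      funext z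
      have e4 : (∫ u in a..(a + w), g u) = (∫ u in a..(a + w1), g u) +
          ∫ u in (a + w1)..(a + w), g u :=
        (intervalIntegral.integral_add_adjacent_intervals (hg _ _) (hg _ _)).symm
      rw [e4]
      ring

/-- `PG` depends only on `g` to the right of `a` -/
theorem PG_congr : ∀ (M : List (ℝ × ℝ)) (a hp : ℝ) {g g' : ℝ → ℝ}, PosW M →
    (∀ u, a < u → g u = g' u) → PG a (inc hp M) g = PG a (inc hp M) g'
  | [], _, _, _, _, _, _ => rfl
  | (w, h) :: M, a, hp, g, g', hM, hg => by
      have hw : 0 < w := hM.head
      show tE a (h - hp) (chain (a + w) (inc h M)) (fun z => (∫ u in a..(a + w), g u) *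
        chain1 (a + w) (inc h M) z ^ 2 + PG (a + w) (inc h M) g z) =
        tE a (h - hp) (chain (a + w) (inc h M)) (fun z => (∫ u in a..(a + w), g' u) *
        chain1 (a + w) (inc h M) z ^ 2 + PG (a + w) (inc h M) g' z)
      rw [PG_congr M (a + w) h hM.tail (fun u hu => hg u (by linarith))]
      have : (∫ u in a..(a + w), g u) = ∫ u in a..(a + w), g' u := by
        rw [intervalIntegral.integral_of_le (by linarith),
          intervalIntegral.integral_of_le (by linarith)]
        refine setIntegral_congr_fun measurableSet_Ioc fun u hu => hg u hu.1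
      rw [this]

theorem PG_sub {g g' : ℝ → ℝ}
    (hg : ∀ a b, IntervalIntegrable g volume a b) (hg' : ∀ a b, IntervalIntegrable g' volume a b) :
    ∀ (M : List (ℝ × ℝ)) (a hp : ℝ), Adm a (inc hp M) → ∀ x,
      PG a (inc hp M) (fun u => g u - g' u) x = PG a (inc hp M) g x - PG a (inc hp M) g' x
  | [], _, _, _, _ => by simp [inc, PG]
  | (w, h) :: M, a, hp, hA, x => by
      have hS := chain_sm (inc h M) (a + w) hA.2.2.2
      obtain ⟨K, hK⟩ := PG_BC (inc h M) (a + w) g hA.2.2.2
      obtain ⟨K', hK'⟩ := PG_BC (inc h M) (a + w) g' hA.2.2.2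
      show tE a (h - hp) (chain (a + w) (inc h M)) (fun z => (∫ u in a..(a + w), (g u - g' u)) *
        chain1 (a + w) (inc h M) z ^ 2 + PG (a + w) (inc h M) (fun u => g u - g' u) z) x =
        tE a (h - hp) (chain (a + w) (inc h M)) (fun z => (∫ u in a..(a + w), g u) *
        chain1 (a + w) (inc h M) z ^ 2 + PG (a + w) (inc h M) g z) x -
        tE a (h - hp) (chain (a + w) (inc h M)) (fun z => (∫ u in a..(a + w), g' u) *
        chain1 (a + w) (inc h M) z ^ 2 + PG (a + w) (inc h M) g' z) x
      rw [← tE_sub hS.lip a _ (((hS.B1.eg.pow 2).const_mul _).add hK.eg)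
        (((hS.B1.eg.pow 2).const_mul _).add hK'.eg)]
      congr 1
      funext z
      rw [PG_sub hg hg' M (a + w) h hA.2.2.2 z,
        intervalIntegral.integral_sub (hg _ _) (hg' _ _)]
      ring

end

end Crest.Agent.R164.GC
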