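import Crest.Agent.R164.FieldGroup2

/-!
Row 164, L side, (TB), (M0), (M1): the field value is convex in the strength of a Gaussian field;
tangent inequality in one main-field strength; evenness and Lipschitz bounds of the magnetisation.
-/

set_option autoImplicit false

namespace Crest.Agent.R164.GC

open MeasureTheory ProbabilityTheory Filter Topology Set
open Crest.ProbabilityR.InvariantGlass

noncomputable section

/-! ### Gibbs inequality and convexity of the Gaussian operator -/

theorem gaussOp_gibbs {a : ℝ} (ha : 0 ≤ a) (v : ℝ) {φ ψ : ℝ → ℝ} (hφ : Lip1 φ) (hψ : Lip1 ψ)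
    (z : ℝ) : gaussOp a v φ z + tE a v φ (fun y => ψ y - φ y) z ≤ gaussOp a v ψ z := by
  rcases ha.eq_or_lt with h0 | hpos
  · rw [← h0, gaussOp_zero, gaussOp_zero, tE_zero, H_sub (EG.lip hψ) (EG.lip hφ)]
    linarith
  · have hE : EG (fun y => Real.exp (a * φ y)) := EG.exp_lip hφ a
    have hE' : EG (fun y => Real.exp (a * ψ y)) := EG.exp_lip hψ a
    have hD : EG (fun y => (ψ y - φ y) * Real.exp (a * φ y)) :=
      ((EG.lip hψ).sub (EG.lip hφ)).mul hE
    set t := Real.sqrt v with ht
    set Z := H t (fun y => Real.exp (a * φ y)) z with hZd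
    set W := H t (fun y => Real.exp (a * ψ y)) z with hWd
    have hZ : 0 < Z := den_pos hφ a t z
    have hW : 0 < W := den_pos hψ a t z
    set m := tE a v φ (fun y => ψ y - φ y) z with hm
    have hmZ : H t (fun y => (ψ y - φ y) * Real.exp (a * φ y)) z = m * Z := by
      rw [hm]
      unfold tE
      rw [← ht, ← hZd, div_mul_cancel₀ _ hZ.ne']
    have key : Real.exp (a * m) * Z ≤ W := by
      have h1 : H t (fun y => Real.exp (a * m) * ((1 - a * m) * Real.exp (a * φ y) +
          a * ((ψ y - φ y) * Real.exp (a * φ y)))) z ≤ W := by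
        refine H_mono (((hE.const_mul _).add (hD.const_mul _)).const_mul _) hE' ?_ t z
        intro y
        have h2 := Real.add_one_le_exp (a * (ψ y - φ y) - a * m)
        have h3 : Real.exp (a * ψ y) = Real.exp (a * m) * Real.exp (a * φ y) *
            Real.exp (a * (ψ y - φ y) - a * m) := by
          rw [← Real.exp_add, ← Real.exp_add]
          congr 1
          ring
        rw [h3]
        have h4 : 0 < Real.exp (a * m) * Real.exp (a * φ y) := by positivity
        have h5 := mul_le_mul_of_nonneg_left h2 h4.le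
        calc _ = Real.exp (a * m) * Real.exp (a * φ y) *
              (a * (ψ y - φ y) - a * m + 1) := by ring
          _ ≤ _ := h5
      rw [H_const_mul, H_add (hE.const_mul _) (hD.const_mul _), H_const_mul, H_const_mul,
        hmZ, ← hZd] at h1
      calc Real.exp (a * m) * Z = Real.exp (a * m) * ((1 - a * m) * Z + a * (m * Z)) := by ring
        _ ≤ W := h1
    rw [gaussOp_ne hpos.ne', gaussOp_ne hpos.ne', ← ht, ← hZd, ← hWd]
    have h6 := Real.log_le_log (by positivity) key
    rw [Real.log_mul (Real.exp_pos _).ne' hZ.ne', Real.log_exp] at h6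
    have h7 := mul_le_mul_of_nonneg_left h6 (inv_nonneg.2 hpos.le)
    have h8 : a⁻¹ * (a * m + Real.log Z) = a⁻¹ * Real.log Z + m := by field_simp; ring
    rw [h8] at h7
    exact h7

theorem gaussOp_convex {a : ℝ} (ha : 0 ≤ a) (v : ℝ) {φ ψ χ : ℝ → ℝ} (hφ : Lip1 φ) (hψ : Lip1 ψ)
    (hχ : Lip1 χ) {t : ℝ} (ht : 0 ≤ t) (ht1 : t ≤ 1)
    (h : ∀ y, χ y ≤ (1 - t) * φ y + t * ψ y) (z : ℝ) :
    gaussOp a v χ z ≤ (1 - t) * gaussOp a v φ z + t * gaussOp a v ψ z := by
  have g1 := gaussOp_gibbs ha v hχ hφ z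
  have g2 := gaussOp_gibbs ha v hχ hψ z
  have e1 : EG (fun y => φ y - χ y) := (EG.lip hφ).sub (EG.lip hχ)
  have e2 : EG (fun y => ψ y - χ y) := (EG.lip hψ).sub (EG.lip hχ)
  have h1 : 0 ≤ (1 - t) * tE a v χ (fun y => φ y - χ y) z +
      t * tE a v χ (fun y => ψ y - χ y) z := by
    rw [← tE_const_mul, ← tE_const_mul, ← tE_add hχ a v (e1.const_mul _) (e2.const_mul _)]
    have := tE_mono hχ a v (EG.const 0) ((e1.const_mul (1 - t)).add (e2.const_mul t)) (by
      intro y
      have := h y
      nlinarith) z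
    rw [tE_const hχ] at this
    exact this
  nlinarith [mul_le_mul_of_nonneg_left g1 (sub_nonneg.2 ht1), mul_le_mul_of_nonneg_left g2 ht]

theorem gaussOp_shift (a v : ℝ) (f : ℝ → ℝ) (x : ℝ) :
    gaussOp a v (fun y => f (x + y)) 0 = gaussOp a v f x := by
  unfold gaussOp
  simp only [zero_add]

theorem Lip1.shift {f : ℝ → ℝ} (hf : Lip1 f) (x : ℝ) : Lip1 (fun y => f (x + y)) := by
  intro y z
  have := hf (x + y) (x + z)
  rwa [add_sub_add_left_eq_sub] at this

/-- joint convexity. -/
def JC (F : ℝ → ℝ → ℝ) : Prop :=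
  ∀ x u x' u' t : ℝ, 0 ≤ t → t ≤ 1 →
    F ((1 - t) * x + t * x') ((1 - t) * u + t * u') ≤ (1 - t) * F x u + t * F x' u'

theorem JC.gOp {F : ℝ → ℝ → ℝ} (hF : JC F) (hL : ∀ u, Lip1 (fun x => F x u)) {a : ℝ}
    (ha : 0 ≤ a) (v : ℝ) : JC (fun x u => gaussOp a v (fun y => F y u) x) := by
  intro x u x' u' t ht ht1
  have := gaussOp_convex ha v ((hL u).shift x) ((hL u').shift x')
    ((hL ((1 - t) * u + t * u')).shift ((1 - t) * x + t * x')) ht ht1 (by
      intro y
      have := hF (x + y) u (x' + y) u' t ht ht1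
      have e : (1 - t) * (x + y) + t * (x' + y) = (1 - t) * x + t * x' + y := by ring
      rwa [e] at this) 0
  rw [gaussOp_shift a v (fun y => F y u) x, gaussOp_shift a v (fun y => F y u') x',
    gaussOp_shift a v (fun y => F y ((1 - t) * u + t * u')) ((1 - t) * x + t * x')] at this
  exact this

theorem integral_gauss_abs (G : ℝ → ℝ) (s : ℝ) :
    ∫ g, G (|s| * g) ∂gaussianReal 0 1 = ∫ g, G (s * g) ∂gaussianReal 0 1 := by
  rcases le_total 0 s with h | h
  · rw [abs_of_nonneg h]
  · rw [abs_of_nonpos h]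
    have := integral_gauss_neg (fun g => G (s * g))
    rw [← this]
    congr 1
    funext g
    congr 1
    ring

theorem gaussOp_sq (a : ℝ) (f : ℝ → ℝ) {s R : ℝ} (hR : 0 < R) (x : ℝ) :
    gaussOp a (s ^ 2) f x = gaussOp a (R ^ 2) (fun y => f (x + s / R * y)) 0 := by
  unfold gaussOp
  rw [Real.sqrt_sq_eq_abs, Real.sqrt_sq hR.le]
  have e : ∀ g : ℝ, s / R * (0 + R * g) = s * g := by
    intro g
    field_simp
    ring
  simp only [e]
  rw [integral_gauss_abs (fun y => f (x + y)) s,
    integral_gauss_abs (fun y => Real.exp (a * f (x + y))) s]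

theorem JC.base {f : ℝ → ℝ} (hf : Lip1 f)
    (hc : ∀ x x' t : ℝ, 0 ≤ t → t ≤ 1 → f ((1 - t) * x + t * x') ≤ (1 - t) * f x + t * f x')
    {a : ℝ} (ha : 0 ≤ a) : JC (fun x s => gaussOp a (s ^ 2) f x) := by
  intro x s x' s' t ht ht1
  set R := max |s| |s'| + 1 with hR
  have hR0 : 0 < R := by
    have : 0 ≤ max |s| |s'| := le_max_of_le_left (abs_nonneg _)
    linarith
  have hs : |s| ≤ R := by have := le_max_left |s| |s'|; linarith
  have hs' : |s'| ≤ R := by have := le_max_right |s| |s'|; linarith
  have hst : |(1 - t) * s + t * s'| ≤ R := by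
    refine (abs_add_le _ _).trans ?_
    rw [abs_mul, abs_mul, abs_of_nonneg ht, abs_of_nonneg (sub_nonneg.2 ht1)]
    nlinarith
  have hL : ∀ r x : ℝ, |r| ≤ R → Lip1 (fun y => f (x + r / R * y)) := by
    intro r x hr y z
    have h1 := hf (x + r / R * y) (x + r / R * z)
    have h2 : |x + r / R * y - (x + r / R * z)| ≤ |y - z| := by
      have : x + r / R * y - (x + r / R * z) = r / R * (y - z) := by ring
      rw [this, abs_mul, abs_div, abs_of_pos hR0]
      have h3 : |r| / R ≤ 1 := (div_le_one hR0).2 hr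
      nlinarith [abs_nonneg (y - z)]
    linarith
  have := gaussOp_convex ha (R ^ 2) (hL s x hs) (hL s' x' hs')
    (hL _ ((1 - t) * x + t * x') hst) ht ht1 (by
      intro y
      have h1 := hc (x + s / R * y) (x' + s' / R * y) t ht ht1
      have e : (1 - t) * (x + s / R * y) + t * (x' + s' / R * y) =
          (1 - t) * x + t * x' + ((1 - t) * s + t * s') / R * y := by ring
      rwa [e] at h1) 0
  rw [← gaussOp_sq a f hR0, ← gaussOp_sq a f hR0, ← gaussOp_sq a f hR0] at this
  exact this

theorem JC.mono {F : ℝ → ℝ → ℝ} (hF : JC F) (he : ∀ x u, F x (-u) = F x u) {x s s' : ℝ}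
    (hs : 0 ≤ s) (h : s ≤ s') : F x s ≤ F x s' := by
  rcases (hs.trans h).eq_or_lt with h0 | h0
  · have : s = s' := le_antisymm h (by rw [← h0]; exact hs)
    rw [this]
  · have h1 := hF x (-s') x s' ((s + s') / (2 * s')) (by positivity) (by
      rw [div_le_one (by positivity)]
      linarith)
    have e1 : (1 - (s + s') / (2 * s')) * x + (s + s') / (2 * s') * x = x := by ring
    have e2 : (1 - (s + s') / (2 * s')) * (-s') + (s + s') / (2 * s') * s' = s := by
      field_simp
      ring
    rw [e1, e2, he] at h1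
    linarith

theorem sqrt_convex {δ : ℝ} (hδ : 0 ≤ δ) (u u' : ℝ) {t : ℝ} (ht : 0 ≤ t) (ht1 : t ≤ 1) :
    Real.sqrt (δ + ((1 - t) * u + t * u') ^ 2) ≤
      (1 - t) * Real.sqrt (δ + u ^ 2) + t * Real.sqrt (δ + u' ^ 2) := by
  set s := Real.sqrt (δ + u ^ 2) with hs
  set s' := Real.sqrt (δ + u' ^ 2) with hs'
  have h0 : 0 ≤ s := Real.sqrt_nonneg _
  have h0' : 0 ≤ s' := Real.sqrt_nonneg _
  have h1 : s ^ 2 = δ + u ^ 2 := Real.sq_sqrt (by positivity)
  have h1' : s' ^ 2 = δ + u' ^ 2 := Real.sq_sqrt (by positivity)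
  have h2 : δ + u * u' ≤ s * s' := by
    refine (le_abs_self _).trans (abs_le_of_sq_le_sq ?_ (mul_nonneg h0 h0'))
    rw [mul_pow, h1, h1']
    nlinarith [mul_nonneg hδ (sq_nonneg (u - u'))]
  rw [Real.sqrt_le_left (by nlinarith)]
  nlinarith [mul_nonneg ht (sub_nonneg.2 ht1)]

theorem JC.sqrt {F : ℝ → ℝ → ℝ} (hF : JC F) (he : ∀ x u, F x (-u) = F x u) {δ : ℝ}
    (hδ : 0 ≤ δ) : JC (fun x u => F x (Real.sqrt (δ + u ^ 2))) := by
  intro x u x' u' t ht ht1
  exact (hF.mono he (Real.sqrt_nonneg _) (sqrt_convex hδ u u' ht ht1)).trans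
    (hF x _ x' _ t ht ht1)

/-! ### the recursion -/

theorem convex_of_sm {f f1 f2 : ℝ → ℝ} {C : ℝ} (h : Sm f f1 f2 C) (h2 : ∀ x, 0 ≤ f2 x)
    (x x' t : ℝ) (ht : 0 ≤ t) (ht1 : t ≤ 1) :
    f ((1 - t) * x + t * x') ≤ (1 - t) * f x + t * f x' := by
  set c := (1 - t) * x + t * x' with hc
  have a1 := tangent h h2 c x
  have a2 := tangent h h2 c x'
  have e : (1 - t) * (f1 c * (x - c)) + t * (f1 c * (x' - c)) = 0 := by
    rw [hc]; ring
  nlinarith [mul_le_mul_of_nonneg_left a1 (sub_nonneg.2 ht1), mul_le_mul_of_nonneg_left a2 ht]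

/-- adding nonnegative variances. -/
theorem adm_ofFn_add : ∀ (k : ℕ) (a : ℝ) (v w d : Fin k → ℝ), (∀ i, 0 ≤ d i) →
    Adm a (List.ofFn fun i => (v i, w i)) → Adm a (List.ofFn fun i => (v i + d i, w i))
  | 0, a, v, w, d, _, h => by
      rw [List.ofFn_zero] at h ⊢
      exact h
  | k + 1, a, v, w, d, hd, h => by
      rw [List.ofFn_succ] at h ⊢
      exact ⟨h.1, add_nonneg h.2.1 (hd 0), h.2.2.1,
        adm_ofFn_add k _ (fun i => v i.succ) (fun i => w i.succ) (fun i => d i.succ)
          (fun i => hd i.succ) h.2.2.2⟩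

/-- **joint convexity of the recursion in the position and in the strength of the Gaussian field
at level `i0`.** -/
theorem chain_JC : ∀ (k : ℕ) (a : ℝ) (v w : Fin k → ℝ) (i0 : Fin k),
    Adm a (List.ofFn fun i => (v i, w i)) →
    JC (fun x u => chain a (List.ofFn fun i => (v i + (if i = i0 then u ^ 2 else 0), w i)) x)
  | 0, _, _, _, i0, _ => i0.elim0
  | k + 1, a, v, w, i0, h => by
      have h' := h
      rw [List.ofFn_succ] at h'
      have hle : 0 ≤ a := h'.1
      refine Fin.cases ?_ (fun j => ?_) i0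
      · -- head
        set L := List.ofFn fun i : Fin k => (v i.succ, w i.succ) with hL
        have hS := chain_sm L (a + w 0) h'.2.2.2
        have hb := JC.base hS.lip (convex_of_sm hS (chain2_nonneg L _ h'.2.2.2)) hle
        have hq := hb.sqrt (fun x u => by simp only [neg_sq]) h'.2.1
        intro x u x' u' t ht ht1
        have := hq x u x' u' t ht ht1
        have e : ∀ u : ℝ, chain a (List.ofFn fun i : Fin (k + 1) =>
            (v i + (if i = 0 then u ^ 2 else 0), w i)) =
            gaussOp a (Real.sqrt (v 0 + u ^ 2) ^ 2) (chain (a + w 0) L) := by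
          intro u
          rw [List.ofFn_succ, Real.sq_sqrt (add_nonneg h'.2.1 (sq_nonneg u))]
          simp only [if_true, Fin.succ_ne_zero, if_false, add_zero]
          rfl
        simp only [e]
        exact this
      · -- tail
        have hA : ∀ u : ℝ, Adm (a + w 0) (List.ofFn fun i : Fin k =>
            (v i.succ + (if i = j then u ^ 2 else 0), w i.succ)) := fun u =>
          adm_ofFn_add k _ (fun i => v i.succ) (fun i => w i.succ)
            (fun i => if i = j then u ^ 2 else 0) (fun i => by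
              by_cases hij : i = j
              · rw [if_pos hij]; positivity
              · rw [if_neg hij]) h'.2.2.2
        have ih := chain_JC k (a + w 0) (fun i => v i.succ) (fun i => w i.succ) j h'.2.2.2
        have hq := ih.gOp (fun u => (chain_sm _ _ (hA u)).lip) hle (v 0)
        intro x u x' u' t ht ht1
        have := hq x u x' u' t ht ht1
        have e : ∀ u : ℝ, chain a (List.ofFn fun i : Fin (k + 1) =>
            (v i + (if i = j.succ then u ^ 2 else 0), w i)) =
            gaussOp a (v 0) (chain (a + w 0) (List.ofFn fun i : Fin k =>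
              (v i.succ + (if i = j then u ^ 2 else 0), w i.succ))) := by
          intro u
          rw [List.ofFn_succ]
          simp only [(Fin.succ_ne_zero j).symm, if_false, add_zero, Fin.succ_inj]
          rfl
        simp only [e]
        exact this

/-! ### directional derivative of the field value -/

theorem fieldValueAt_add_last {k : ℕ} (b : ℝ) (w hv : Fin k → ℝ) :
    fieldValueAt b w hv + lastF hv / 2 = chain 0 (inc 0 (toL w hv)) b := by
  rw [fieldValueAt_eq]
  unfold fvL lastF
  rw [lastV_toL]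
  have e1 : (if k = 0 then (0 : ℝ) else 0) = 0 := by split_ifs <;> rfl
  rw [e1, zero_add]
  ring

/-- the sequence `1/(n+1)`. -/
theorem seq_one_div (n : ℕ) : 0 < (1 : ℝ) / ((n : ℝ) + 1) ∧ (1 : ℝ) / ((n : ℝ) + 1) ≤ 1 := by
  constructor
  · positivity
  · rw [div_le_one (by positivity)]
    have : (0 : ℝ) ≤ n := Nat.cast_nonneg n
    linarith

/-- directional derivative between two step fields with the same widths. -/
theorem dir_deriv {k : ℕ} {w hv hv' : Fin k → ℝ} (h : IsStepField w hv) (h' : IsStepField w hv')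
    (b : ℝ) : Tendsto (fun n : ℕ => (chain 0 (inc 0 (toL w (fun i =>
        (1 - (1 : ℝ) / ((n : ℝ) + 1)) * hv i + (1 : ℝ) / ((n : ℝ) + 1) * hv' i))) b -
        chain 0 (inc 0 (toL w hv)) b) / ((1 : ℝ) / ((n : ℝ) + 1))) atTop
      (𝓝 (1 / 2 * (lastF hv' - lastF hv) -
        1 / 2 * ∑ i, w i * (pAt b w hv i * (hv' i - hv i)))) := by
  set M : List (ℝ × ℝ × ℝ) := List.ofFn (fun i => (w i, hv i, hv' i)) with hMd
  have m1 : M.map p1 = toL w hv := by
    rw [hMd, List.map_ofFn]; rfl
  have m2 : M.map p2 = toL w hv' := by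
    rw [hMd, List.map_ofFn]; rfl
  have mt : ∀ t : ℝ, M.map (ipl t) = toL w (fun i => (1 - t) * hv i + t * hv' i) := by
    intro t
    rw [hMd, List.map_ofFn]; rfl
  have hMpos : ∀ q ∈ M, 0 < q.1 := by
    intro q hq
    rw [hMd, List.mem_ofFn] at hq
    obtain ⟨i, rfl⟩ := hq
    exact h.2.1 i
  have hm2 : Mono 0 (M.map p2) := by
    rw [m2]; exact mono_toL k 0 w hv' h'.2.2.2.2 h'.2.2.2.1
  set T := tri 0 0 M with hT
  have hTA : Adm 0 (T.map pr) := by
    rw [hT, tri_pr, m1]
    exact adm_of_step h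
  obtain ⟨_, hcc⟩ := chain_path T 0 hTA (tri_nonneg M 0 0 hm2)
  have hlim := hcc (fun n : ℕ => (1 : ℝ) / ((n : ℝ) + 1)) (fun _ => b) b seq_one_div
    tendsto_one_div_add_atTop_nhds_zero_nat tendsto_const_nhds
  have hval : ∀ t : ℝ, T.map (sh t) = inc 0 (toL w (fun i => (1 - t) * hv i + t * hv' i)) := by
    intro t
    have e1 := inc_ipl t M 0 0
    rw [mul_zero, mul_zero, add_zero, mt] at e1
    exact e1.symm
  have hd : dsum T = lastF hv' - lastF hv := by
    rw [hT, dsum_tri, m1, m2, lastV_toL, lastV_toL]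
    have e1 : (if k = 0 then (0 : ℝ) else 0) = 0 := by split_ifs <;> rfl
    rw [e1]
    unfold lastF
    ring
  have hSLi : ∀ hv : Fin k → ℝ, IntegrableOn (SL 0 (toL w hv)) (Ioo 0 1) := by
    intro hv
    have h1 := (SL_int (toL w hv) 0 0 1)
    rwa [intervalIntegrable_iff_integrableOn_Ioo_of_le zero_le_one] at h1
  have hWQ : WQ 0 T 0 b = ∑ i, w i * (pAt b w hv i * (hv' i - hv i)) := by
    have e1 := WQ_tri M 0 0 0 hMpos
    rw [sub_zero, m1, m2] at e1
    rw [hT, e1, ← integral_pathP h b (g := fun u => SL 0 (toL w hv') u - SL 0 (toL w hv) u)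
      ((hSLi hv').sub (hSLi hv))]
    have e2 : ∫ u in Ioo (0 : ℝ) 1, pathP b w hv u * (SL 0 (toL w hv') u - SL 0 (toL w hv) u) =
        ∫ u in Ioo (0 : ℝ) 1, pathP b w hv u * stepFn w (fun i => hv' i - hv i) u := by
      refine setIntegral_congr_fun measurableSet_Ioo fun u hu => ?_
      show pathP b w hv u * (SL 0 (toL w hv') u - SL 0 (toL w hv) u) =
        pathP b w hv u * stepFn w (fun i => hv' i - hv i) u
      rw [← stepFn_eq_SL h.2.1 hv hu.1, ← stepFn_eq_SL h.2.1 hv' hu.1]
      congr 1
      unfold stepFn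
      rw [← Finset.sum_sub_distrib]
      refine Finset.sum_congr rfl fun i _ => ?_
      split_ifs
      · rfl
      · ring
    rw [e2]
    exact integral_pathP_stepFn h b _
  have h0 : T.map (sh 0) = inc 0 (toL w hv) := by
    rw [hval 0]
    congr 2
    funext i
    ring
  simp only [hval] at hlim
  have h0' : (fun i => (1 - (0:ℝ)) * hv i + 0 * hv' i) = hv := by
    funext i
    ring
  rw [h0', hd, hWQ] at hlim
  exact hlim

/-! ### tangent inequality in one strength -/

theorem incr_add_step {k : ℕ} (hv : Fin k → ℝ) (i0 : Fin k) (c : ℝ) (i : Fin k) :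
    incr 0 (fun i => hv i + if i0 ≤ i then c else 0) i = incr 0 hv i + if i = i0 then c else 0 := by
  unfold incr
  have h1 : (∑ l : Fin k, if l.val + 1 = i.val then hv l + (if i0 ≤ l then c else 0) else 0) =
      (∑ l : Fin k, if l.val + 1 = i.val then hv l else 0) +
        ∑ l : Fin k, if l.val + 1 = i.val then (if i0 ≤ l then c else 0) else 0 := by
    rw [← Finset.sum_add_distrib]
    refine Finset.sum_congr rfl fun l _ => ?_
    split_ifs <;> simp
  rw [h1]
  have h2 : (∑ l : Fin k, if l.val + 1 = i.val then (if i0 ≤ l then c else 0) else 0) =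
      (if i0 ≤ i then c else 0) - if i = i0 then c else 0 := by
    rcases Nat.eq_zero_or_pos i.val with h0 | hpos
    · rw [Finset.sum_eq_zero (fun l _ => if_neg (by omega))]
      by_cases hi : i = i0
      · rw [if_pos hi, if_pos (le_of_eq hi.symm)]; ring
      · rw [if_neg hi, if_neg]
        · ring
        · intro hle
          apply hi
          apply Fin.ext
          have : i0.val ≤ i.val := hle
          omega
    · rw [Finset.sum_eq_single (⟨i.val - 1, by omega⟩ : Fin k)]
      · rw [if_pos (by show i.val - 1 + 1 = i.val; omega)]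
        by_cases hi : i = i0
        · rw [if_pos hi, if_pos (le_of_eq hi.symm), if_neg]
          · ring
          · intro hle
            have : i0.val ≤ i.val - 1 := hle
            rw [hi] at this hpos
            omega
        · rw [if_neg hi, sub_zero]
          by_cases hle : i0 ≤ i
          · have h3 : i0.val ≤ i.val := hle
            have h4 : i0.val ≠ i.val := fun h => hi (Fin.ext h.symm)
            rw [if_pos hle, if_pos]
            show i0.val ≤ i.val - 1
            omega
          · rw [if_neg hle, if_neg]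
            intro h5
            have : i0.val ≤ i.val - 1 := h5
            exact hle (show i0.val ≤ i.val by omega)
      · intro l _ hl
        rw [if_neg]
        intro h
        apply hl
        apply Fin.ext
        show l.val = i.val - 1
        omega
      · intro h
        exact absurd (Finset.mem_univ _) h
  rw [h2]
  ring

theorem lastF_add_step {k : ℕ} (hv : Fin k → ℝ) (i0 : Fin k) (c : ℝ) :
    lastF (fun i => hv i + if i0 ≤ i then c else 0) = lastF hv + c := by
  unfold lastF
  have hk : 0 < k := Fin.pos i0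
  have key : ∀ g : Fin k → ℝ, (∑ l : Fin k, if l.val + 1 = k then g l else 0) =
      g ⟨k - 1, by omega⟩ := by
    intro g
    rw [Finset.sum_eq_single (⟨k - 1, by omega⟩ : Fin k)]
    · rw [if_pos (by show k - 1 + 1 = k; omega)]
    · intro l _ hl
      rw [if_neg]
      intro h
      apply hl
      apply Fin.ext
      show l.val = k - 1
      omega
    · intro h
      exact absurd (Finset.mem_univ _) h
  rw [key, key, if_pos]
  show i0.val ≤ k - 1
  have := i0.isLt
  omega

/-- **(TB) tangent inequality in one main-field strength.** -/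
theorem main_tangent {k : ℕ} {w hv : Fin k → ℝ} (h : IsStepField w hv) (i0 : Fin k) {a y : ℝ}
    (ha : 0 < a) (hy : 0 ≤ a + y)
    (h0 : IsStepField w (fun i => hv i - if i0 ≤ i then a ^ 2 else 0)) (b : ℝ) :
    (fieldValueAt b w hv + lastF hv / 2) +
        y * a * (1 - ∑ i, if i0 ≤ i then w i * pAt b w hv i else 0) ≤
      fieldValueAt b w (fun i => hv i + if i0 ≤ i then (a + y) ^ 2 - a ^ 2 else 0) +
        lastF (fun i => hv i + if i0 ≤ i then (a + y) ^ 2 - a ^ 2 else 0) / 2 := by
  set S := ∑ i, (if i0 ≤ i then w i * pAt b w hv i else 0) with hS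
  have e0 : (fun i => hv i - if i0 ≤ i then a ^ 2 else 0) =
      fun i => hv i + if i0 ≤ i then -a ^ 2 else 0 := by
    funext i
    split_ifs <;> ring
  set v : Fin k → ℝ := fun i => incr 0 hv i + if i = i0 then -a ^ 2 else 0 with hv0
  have hA : Adm 0 (List.ofFn fun i => (v i, w i)) := by
    have := adm_of_step h0
    rw [e0, inc_toL] at this
    simp only [incr_add_step] at this
    exact this
  have hJ := chain_JC k 0 v w i0 hA
  set V : ℝ → ℝ := fun u => chain 0 (List.ofFn fun i =>
    (v i + (if i = i0 then u ^ 2 else 0), w i)) b with hV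
  have heq : ∀ u : ℝ, chain 0 (inc 0 (toL w (fun i => hv i + if i0 ≤ i then u ^ 2 - a ^ 2 else 0)))
      b = V u := by
    intro u
    rw [inc_toL]
    simp only [incr_add_step, hV, hv0]
    congr 2
    funext i
    congr 1
    by_cases hi : i = i0
    · rw [if_pos hi, if_pos hi, if_pos hi]; ring
    · rw [if_neg hi, if_neg hi, if_neg hi]; ring
  have hconv : ∀ u u' t : ℝ, 0 ≤ t → t ≤ 1 → V ((1 - t) * u + t * u') ≤
      (1 - t) * V u + t * V u' := by
    intro u u' t ht ht1
    have := hJ b u b u' t ht ht1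
    have e : (1 - t) * b + t * b = b := by ring
    rw [e] at this
    exact this
  have hmono : ∀ s s' : ℝ, 0 ≤ s → s ≤ s' → V s ≤ V s' := fun s s' hs hss =>
    hJ.mono (fun x u => by simp only [neg_sq]) hs hss
  -- the path
  set hv' : Fin k → ℝ := fun i => hv i + if i0 ≤ i then a * y else 0 with hhv'
  have hay : 0 ≤ a ^ 2 + a * y := by nlinarith
  have e1 : hv' = fun i => (hv i - if i0 ≤ i then a ^ 2 else 0) +
      if i0 ≤ i then a ^ 2 + a * y else 0 := by
    funext i
    rw [hhv']
    simp only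
    split_ifs <;> ring
  have h' : IsStepField w hv' := by
    refine ⟨h.1, h.2.1, h.2.2.1, ?_, ?_⟩
    · rw [e1]
      refine h0.2.2.2.1.add ?_
      intro i j hij
      simp only
      by_cases hi : i0 ≤ i
      · rw [if_pos hi, if_pos (hi.trans hij)]
      · rw [if_neg hi]
        split_ifs
        · exact hay
        · exact le_rfl
    · intro i
      rw [e1]
      simp only
      refine add_nonneg (h0.2.2.2.2 i) ?_
      split_ifs
      · exact hay
      · exact le_rfl
  have hlim := dir_deriv h h' b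
  have hlast : lastF hv' - lastF hv = a * y := by
    rw [hhv', lastF_add_step]; ring
  have hsum : ∑ i, w i * (pAt b w hv i * (hv' i - hv i)) = a * y * S := by
    rw [hS, Finset.mul_sum]
    refine Finset.sum_congr rfl fun i _ => ?_
    rw [hhv']
    simp only
    split_ifs <;> ring
  rw [hlast, hsum] at hlim
  have hbase : chain 0 (inc 0 (toL w hv)) b = V a := by
    rw [← heq a]
    congr 4
    funext i
    simp
  have hle : ∀ n : ℕ, (chain 0 (inc 0 (toL w (fun i =>
        (1 - (1 : ℝ) / ((n : ℝ) + 1)) * hv i + (1 : ℝ) / ((n : ℝ) + 1) * hv' i))) b -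
        chain 0 (inc 0 (toL w hv)) b) / ((1 : ℝ) / ((n : ℝ) + 1)) ≤
      1 / 2 * (V (a + y) - V a) := by
    intro n
    obtain ⟨ht0, ht1⟩ := seq_one_div n
    set t : ℝ := (1 : ℝ) / ((n : ℝ) + 1) with ht
    have hq : 0 ≤ a ^ 2 + t * (a * y) := by nlinarith [sq_nonneg a]
    have e2 : (fun i => (1 - t) * hv i + t * hv' i) =
        fun i => hv i + if i0 ≤ i then Real.sqrt (a ^ 2 + t * (a * y)) ^ 2 - a ^ 2 else 0 := by
      funext i
      rw [Real.sq_sqrt hq, hhv']
      simp only
      split_ifs <;> ring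
    rw [e2, heq, hbase, div_le_iff₀ ht0]
    have h3 : 0 ≤ a + t / 2 * y := by nlinarith
    have h4 : Real.sqrt (a ^ 2 + t * (a * y)) ≤ a + t / 2 * y := by
      rw [Real.sqrt_le_left h3]
      nlinarith [sq_nonneg (t / 2 * y)]
    have h5 := hmono _ _ (Real.sqrt_nonneg _) h4
    have h6 := hconv a (a + y) (t / 2) (by positivity) (by linarith)
    have e3 : (1 - t / 2) * a + t / 2 * (a + y) = a + t / 2 * y := by ring
    rw [e3] at h6
    nlinarith
  have hfin := le_of_tendsto' hlim hle
  rw [fieldValueAt_add_last, fieldValueAt_add_last, heq, hbase]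
  nlinarith

/-! ### (M0), (M1) -/

theorem magAt_zero {k : ℕ} {w hv : Fin k → ℝ} (h : IsStepField w hv) : magAt 0 w hv = 0 := by
  have h1 := hasDerivAt_fieldValueAt h 0
  have h2 : HasDerivAt (fun b => fieldValueAt (-b) w hv) (magAt (-0) w hv * (-1)) 0 := by
    have h3 := hasDerivAt_fieldValueAt h (-0)
    exact h3.comp 0 (hasDerivAt_neg 0)
  have e : (fun b => fieldValueAt (-b) w hv) = fun b => fieldValueAt b w hv :=
    funext fun b => fieldValueAt_neg h.2.1 hv b
  rw [e, neg_zero] at h2
  have := h1.unique h2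
  linarith

theorem magAt_neg {k : ℕ} {w hv : Fin k → ℝ} (h : IsStepField w hv) (b : ℝ) :
    magAt (-b) w hv = -magAt b w hv := by
  have h1 := hasDerivAt_fieldValueAt h b
  have h2 : HasDerivAt (fun b => fieldValueAt (-b) w hv) (magAt (-b) w hv * (-1)) b :=
    (hasDerivAt_fieldValueAt h (-b)).comp b (hasDerivAt_neg b)
  have e : (fun b => fieldValueAt (-b) w hv) = fun b => fieldValueAt b w hv :=
    funext fun b => fieldValueAt_neg h.2.1 hv b
  rw [e] at h2
  have := h1.unique h2
  linarith

/-- `f'' + a f'^2 ≤ 1` along the recursion. -/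
theorem chain2_heat_le : ∀ (L : List (ℝ × ℝ)) (a : ℝ), Adm a L → ∀ x,
    chain2 a L x + a * chain1 a L x ^ 2 ≤ 1
  | [], a, h, x => by
      have h : a = 1 := h
      subst h
      simp [chain1, chain2]
  | (v, w) :: L, a, h, x => by
      have hS := chain_sm L (a + w) h.2.2.2
      rw [chain_heat h x]
      have := tE_mono hS.lip a v (hS.B2.eg.add ((hS.B1.eg.pow 2).const_mul a)) (EG.const 1) (by
        intro y
        have h1 := chain2_heat_le L (a + w) h.2.2.2 y
        have h2 : 0 ≤ w * chain1 (a + w) L y ^ 2 := mul_nonneg h.2.2.1 (sq_nonneg _)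
        nlinarith) x
      rw [tE_const hS.lip] at this
      exact this

theorem chain2_le_one (L : List (ℝ × ℝ)) (a : ℝ) (h : Adm a L) (x : ℝ) : chain2 a L x ≤ 1 := by
  have h1 := chain2_heat_le L a h x
  have h2 : 0 ≤ a * chain1 a L x ^ 2 := mul_nonneg h.nonneg (sq_nonneg _)
  linarith

theorem magAt_lip {k : ℕ} {w hv : Fin k → ℝ} (h : IsStepField w hv) (b b' : ℝ) :
    |magAt b w hv - magAt b' w hv| ≤ |b - b'| := by
  have hA := adm_of_step h
  have hS := chain_sm _ _ hA
  have h1 := Convex.norm_image_sub_le_of_norm_hasDerivWithin_le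
    (f := chain1 0 (inc 0 (toL w hv))) (f' := chain2 0 (inc 0 (toL w hv))) (C := 1)
    (s := univ) (fun x _ => (hS.d2 x).hasDerivWithinAt) (fun x _ => by
      rw [Real.norm_eq_abs, abs_of_nonneg (chain2_nonneg _ _ hA x)]
      exact chain2_le_one _ _ hA x) convex_univ (mem_univ b') (mem_univ b)
  rw [Real.norm_eq_abs, Real.norm_eq_abs, one_mul] at h1
  exact h1

theorem fieldValueAt_lip {k : ℕ} {w hv : Fin k → ℝ} (h : IsStepField w hv) (b b' : ℝ) :
    |fieldValueAt b w hv - fieldValueAt b' w hv| ≤ |b - b'| := by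
  have hL := (chain_sm _ _ (adm_of_step h)).lip
  rw [fieldValueAt_eq, fieldValueAt_eq]
  unfold fvL
  rw [abs_le]
  have h1 := hL b b'
  have h2 := hL b' b
  rw [abs_sub_comm] at h2
  constructor <;> linarith

/-- the magnetisation is nondecreasing in the field. -/
theorem magAt_mono {k : ℕ} {w hv : Fin k → ℝ} (h : IsStepField w hv) :
    Monotone (fun b => magAt b w hv) := by
  have hA := adm_of_step h
  have hS := chain_sm _ _ hA
  exact monotone_of_deriv_nonneg (fun x => (hS.d2 x).differentiableAt)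
    (fun x => by
      have := (hS.d2 x).deriv
      show 0 ≤ deriv (chain1 0 (inc 0 (toL w hv))) x
      rw [this]
      exact chain2_nonneg _ _ hA x)

end

end Crest.Agent.R164.GC
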