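import Crest.Agent.R164.Mag1

/-!
Row 164 (helper552): E248 from the two abstract bounds (UB) and (LB).
-/

set_option autoImplicit false

namespace Crest.Agent.R164.Mag

open MeasureTheory Set Filter Topology
open Crest.ProbabilityR.InvariantGlass

/-! ### The grid of boxes -/

/-- lower end of the box -/
noncomputable def gl (K : ℕ) {J : ℕ} (κ : Fin J → Fin (2 * K)) (j : Fin J) : ℝ :=
  (((κ j : ℕ) : ℝ) - K) / K

/-- upper end of the box -/
noncomputable def gu (K : ℕ) {J : ℕ} (κ : Fin J → Fin (2 * K)) (j : Fin J) : ℝ :=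
  (((κ j : ℕ) : ℝ) - K + 1) / K

/-- closest rational corner to zero -/
def gm (K : ℕ) {J : ℕ} (κ : Fin J → Fin (2 * K)) (j : Fin J) : ℚ :=
  if K ≤ (κ j : ℕ) then (((κ j : ℕ) : ℚ) - K) / K else (((κ j : ℕ) : ℚ) - K + 1) / K

section grid

variable {K : ℕ} (hK : 0 < K) {J : ℕ} (κ : Fin J → Fin (2 * K)) (j : Fin J)
include hK

theorem gl_lt_gu : gl K κ j < gu K κ j := by
  have hK' : (0:ℝ) < K := by exact_mod_cast hK
  unfold gl gu
  exact div_lt_div_of_pos_right (by linarith) hK'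

theorem gu_sub_gl : gu K κ j - gl K κ j = 1 / K := by
  unfold gl gu
  ring

theorem gl_ge : -1 ≤ gl K κ j := by
  have hK' : (0:ℝ) < K := by exact_mod_cast hK
  unfold gl
  rw [le_div_iff₀ hK']
  have : (0:ℝ) ≤ ((κ j : ℕ) : ℝ) := Nat.cast_nonneg _
  linarith

theorem gu_le : gu K κ j ≤ 1 := by
  have hK' : (0:ℝ) < K := by exact_mod_cast hK
  unfold gu
  rw [div_le_one hK']
  have h : (κ j : ℕ) + 1 ≤ 2 * K := (κ j).2
  have : ((κ j : ℕ) : ℝ) + 1 ≤ 2 * K := by exact_mod_cast h
  linarith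

theorem gm_cast : ((gm K κ j : ℚ) : ℝ) = if K ≤ (κ j : ℕ) then gl K κ j else gu K κ j := by
  unfold gm gl gu
  split_ifs <;> push_cast <;> rfl

theorem gm_mem : (-1 : ℚ) < gm K κ j ∧ gm K κ j < 1 := by
  have hK' : (0:ℚ) < K := by exact_mod_cast hK
  have h : (κ j : ℕ) + 1 ≤ 2 * K := (κ j).2
  have h1 : ((κ j : ℕ) : ℚ) + 1 ≤ 2 * K := by exact_mod_cast h
  have h0 : (0:ℚ) ≤ ((κ j : ℕ) : ℚ) := Nat.cast_nonneg _
  unfold gm
  split_ifs with hc
  · have hc' : (K:ℚ) ≤ ((κ j : ℕ) : ℚ) := by exact_mod_cast hc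
    constructor
    · rw [lt_div_iff₀ hK']; linarith
    · rw [div_lt_one hK']; linarith
  · have hc' : ((κ j : ℕ) : ℚ) + 1 ≤ K := by
      push Not at hc
      exact_mod_cast hc
    constructor
    · rw [lt_div_iff₀ hK']; linarith
    · rw [div_lt_one hK']; linarith

theorem gm_corner (x : ℝ) (hx : x ∈ Icc (gl K κ j) (gu K κ j)) :
    |((gm K κ j : ℚ) : ℝ)| ≤ |x| ∧ 0 ≤ ((gm K κ j : ℚ) : ℝ) * x := by
  have hK' : (0:ℝ) < K := by exact_mod_cast hK
  rw [gm_cast hK]
  split_ifs with hc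
  · have hc' : (K:ℝ) ≤ ((κ j : ℕ) : ℝ) := by exact_mod_cast hc
    have h0 : 0 ≤ gl K κ j := by
      unfold gl
      exact div_nonneg (by linarith) hK'.le
    have hx0 : 0 ≤ x := h0.trans hx.1
    rw [abs_of_nonneg h0, abs_of_nonneg hx0]
    exact ⟨hx.1, mul_nonneg h0 hx0⟩
  · have hc' : ((κ j : ℕ) : ℝ) + 1 ≤ K := by
      push Not at hc
      exact_mod_cast hc
    have h0 : gu K κ j ≤ 0 := by
      unfold gu
      exact div_nonpos_of_nonpos_of_nonneg (by linarith) hK'.le
    have hx0 : x ≤ 0 := hx.2.trans h0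
    rw [abs_of_nonpos h0, abs_of_nonpos hx0]
    exact ⟨by linarith [hx.2], mul_nonneg_of_nonpos_of_nonpos h0 hx0⟩

theorem gm_close (x : ℝ) (hx : x ∈ Icc (gl K κ j) (gu K κ j)) :
    |x - ((gm K κ j : ℚ) : ℝ)| ≤ 1 / K := by
  have h1 := gu_sub_gl hK κ j
  rw [gm_cast hK, abs_le]
  split_ifs <;> constructor <;> linarith [hx.1, hx.2]

omit κ j in
theorem grid_cover (y : Fin J → ℝ) (hy : ∀ j, |y j| ≤ 1) :
    ∃ κ : Fin J → Fin (2 * K), ∀ j, gl K κ j ≤ y j ∧ y j ≤ gu K κ j := by
  have hK' : (0:ℝ) < K := by exact_mod_cast hK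
  have hj : ∀ j, ∃ k : Fin (2 * K), (((k : ℕ) : ℝ) - K) / K ≤ y j ∧
      y j ≤ (((k : ℕ) : ℝ) - K + 1) / K := by
    intro j
    have h1 := abs_le.1 (hy j)
    have h0 : 0 ≤ K * y j + K := by nlinarith [h1.1]
    have h2 : K * y j + K ≤ 2 * K := by nlinarith [h1.2]
    by_cases hlt : ⌊K * y j + K⌋₊ < 2 * K
    · refine ⟨⟨⌊K * y j + K⌋₊, hlt⟩, ?_, ?_⟩
      · rw [div_le_iff₀ hK']
        have := Nat.floor_le h0
        simp only
        linarith
      · rw [le_div_iff₀ hK']
        have := Nat.lt_floor_add_one (K * y j + K)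
        simp only
        linarith
    · push Not at hlt
      have h3 : ((2 * K : ℕ) : ℝ) ≤ K * y j + K := (Nat.le_floor_iff h0).1 hlt
      push_cast at h3
      have h4 : y j = 1 := by
        have : K * y j = K := by linarith
        have := mul_left_cancel₀ hK'.ne' (this.trans (mul_one _).symm)
        exact this
      refine ⟨⟨2 * K - 1, by omega⟩, ?_, ?_⟩
      · have h5 : ((2 * K - 1 : ℕ) : ℝ) = 2 * K - 1 := by
          rw [Nat.cast_sub (by omega)]; push_cast; ring
        simp only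
        rw [h5, h4, div_le_one hK']; linarith
      · have h5 : ((2 * K - 1 : ℕ) : ℝ) = 2 * K - 1 := by
          rw [Nat.cast_sub (by omega)]; push_cast; ring
        simp only
        rw [h5, h4, one_le_div hK']; linarith
  choose κ hκ using hj
  exact ⟨κ, hκ⟩

end grid

section main

variable {Ω : Type} [MeasurableSpace Ω] {μ : Measure ℝ} {lamPlus : ℝ}
  {eig : (N : ℕ) → Fin N → ℝ} {P : Measure Ω} [IsProbabilityMeasure P]
  {Us : (N : ℕ) → Ω → (Fin N → Fin N → ℝ)}

/-- the upper half: `limsup E P_N ≤` every real above the magnetic value -/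
theorem upper_half {Λ : ℝ} (hΛ : ∀ᶠ N : ℕ in atTop, ∀ i : Fin N, |eig N i| ≤ Λ)
    (hmeas : ∀ N, Measurable (Us N))
    (horth : ∀ N, ∀ᵐ ω ∂P, Matrix.of (Us N ω) ∈ Matrix.orthogonalGroup (Fin N) ℝ)
    (hHaar : ∀ (N : ℕ) (O : Matrix (Fin N) (Fin N) ℝ), O ∈ Matrix.orthogonalGroup (Fin N) ℝ →
      P.map (fun ω => fun i j => (Matrix.of (Us N ω) * O) i j) = P.map (Us N))
    (hUB : UB μ lamPlus eig P Us) {J : ℕ} (c : Fin J → ℝ) (γ : Fin J → ℚ) (hγ : ∀ j, 0 < γ j)
    (hs : ∑ j, γ j = 1) (lab : (N : ℕ) → Fin N → Fin J)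
    (hlab : ∀ j : Fin J, Tendsto
      (fun N : ℕ => ((Finset.univ.filter fun r : Fin N => lab N r = j).card : ℝ) / (N : ℝ))
      atTop (nhds ((γ j : ℚ) : ℝ)))
    {r : ℝ} (hr : magneticValue μ lamPlus c γ < (r : EReal)) {η : ℝ} (hη : 0 < η) :
    ∀ᶠ N : ℕ in atTop,
      ∫ ω, pressureFieldN (eig N) (Matrix.of (Us N ω)) (fun r => c (lab N r)) ∂P ≤ r + η := by
  classical
  have hJ : 0 < J := by
    rcases Nat.eq_zero_or_pos J with h | h
    · subst h
      simp at hs
    · exact h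
  set Cc := ∑ j, ((γ j : ℚ) : ℝ) * |c j| with hCc
  have hγ' : ∀ j, (0:ℝ) < ((γ j : ℚ) : ℝ) := fun j => by exact_mod_cast hγ j
  have hCc0 : 0 ≤ Cc := Finset.sum_nonneg fun j _ => mul_nonneg (hγ' j).le (abs_nonneg _)
  -- the mesh
  obtain ⟨K, hK⟩ := exists_nat_gt (Cc / (η / 4))
  have hK0 : 0 < K := by
    have : (0:ℝ) ≤ Cc / (η / 4) := by positivity
    have : (0:ℝ) < K := lt_of_le_of_lt this hK
    exact_mod_cast this
  have hK' : (0:ℝ) < K := by exact_mod_cast hK0
  have hmesh : Cc * (1 / K) ≤ η / 4 := by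
    rw [div_lt_iff₀ (by positivity)] at hK
    rw [mul_one_div, div_le_iff₀ hK']
    linarith
  -- real bounds for every box
  have hbox : ∀ κ : Fin J → Fin (2 * K), ∀ᶠ N : ℕ in atTop,
      ∫ ω, pressG (eig N) (Matrix.of (Us N ω)) (boxSet (lab N) (gl K κ) (gu K κ))
        (fun _ => 0) ∂P ≤
      r - ∑ j : Fin J, ((γ j : ℚ) : ℝ) * c j * ((gm K κ j : ℚ) : ℝ) + η / 4 := by
    intro κ
    set q := ∑ j : Fin J, ((γ j : ℚ) : ℝ) * c j * ((gm K κ j : ℚ) : ℝ) with hq
    have h1 : (q : EReal) + VR μ lamPlus γ (fun j => ((gm K κ j : ℚ) : ℝ)) < (r : EReal) := by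
      refine lt_of_le_of_lt ?_ hr
      rw [magneticValue_eq]
      exact le_iSup₂_of_le (gm K κ) (fun j => gm_mem hK0 κ j) le_rfl
    have h2 : VR μ lamPlus γ (fun j => ((gm K κ j : ℚ) : ℝ)) < ((r - q : ℝ) : EReal) := by
      by_contra hcon
      push Not at hcon
      have h3 : (q : EReal) + ((r - q : ℝ) : EReal) ≤
          (q : EReal) + VR μ lamPlus γ (fun j => ((gm K κ j : ℚ) : ℝ)) := add_le_add le_rfl hcon
      rw [← EReal.coe_add] at h3
      have h4 : q + (r - q) = r := by ring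
      rw [h4] at h3
      exact absurd h1 (not_lt.2 h3)
    unfold VR at h2
    rw [iInf_lt_iff] at h2
    obtain ⟨p, hp⟩ := h2
    rw [iInf_lt_iff] at hp
    obtain ⟨hpt, hp⟩ := hp
    exact hUB J γ hγ hs lab hlab (gl K κ) (gu K κ) (fun j => gl_lt_gu hK0 κ j)
      (fun j => ⟨gl_ge hK0 κ j, gu_le hK0 κ j⟩) (gm K κ) (fun j => gm_mem hK0 κ j)
      (fun j x hx => gm_corner hK0 κ j x hx) p hpt (r - q) hp.le (η / 4) (by linarith)
  have hbox' := eventually_all.2 hbox
  -- label proportions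
  have hprop : Tendsto (fun N : ℕ => ∑ j, |c j| *
      |((Finset.univ.filter fun r : Fin N => lab N r = j).card : ℝ) / (N : ℝ) -
        ((γ j : ℚ) : ℝ)|) atTop (𝓝 0) := by
    have : Tendsto (fun N : ℕ => ∑ j, |c j| *
        |((Finset.univ.filter fun r : Fin N => lab N r = j).card : ℝ) / (N : ℝ) -
          ((γ j : ℚ) : ℝ)|) atTop (𝓝 (∑ j, |c j| * |((γ j : ℚ) : ℝ) - ((γ j : ℚ) : ℝ)|)) :=
      tendsto_finsetSum _ fun j _ => ((hlab j).sub_const _).abs.const_mul _
    simpa using this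
  have hprop' := hprop.eventually (gt_mem_nhds (show (0:ℝ) < η / 8 by linarith))
  -- error terms
  haveI : Nonempty (Fin J → Fin (2 * K)) := ⟨fun _ => ⟨0, by omega⟩⟩
  set Cd : ℝ := (Fintype.card (Fin J → Fin (2 * K)) : ℝ) with hCd
  have herr : Tendsto (fun N : ℕ => Real.log Cd / N +
      Cd * Real.sqrt (2 * Λ ^ 2 / ((N : ℝ) - 2))) atTop (𝓝 0) := by
    have h1 : Tendsto (fun N : ℕ => Real.log Cd / (N : ℝ)) atTop (𝓝 0) :=
      tendsto_const_nhds.div_atTop tendsto_natCast_atTop_atTop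
    have h2 : Tendsto (fun N : ℕ => 2 * Λ ^ 2 / ((N : ℝ) - 2)) atTop (𝓝 0) :=
      tendsto_const_nhds.div_atTop
        (tendsto_atTop_add_const_right atTop (-2) tendsto_natCast_atTop_atTop)
    have h3 := (Real.continuous_sqrt.tendsto 0).comp h2
    rw [Real.sqrt_zero] at h3
    have h4 := h1.add (h3.const_mul Cd)
    simpa using h4
  have herr' := herr.eventually (gt_mem_nhds (show (0:ℝ) < η / 8 by linarith))
  filter_upwards [hbox', hprop', herr', hΛ, eventually_gt_atTop 2] with N h1 h2 h3 h4 hN2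
  have hN0 : 0 < N := by omega
  have hN' : (0:ℝ) < N := by exact_mod_cast hN0
  set V : (Fin N → Bool) → ℝ := fun σ => ∑ r : Fin N, c (lab N r) * spinVec σ r with hV
  have hcov : ∀ σ : Fin N → Bool, ∃ κ : Fin J → Fin (2 * K),
      σ ∈ boxSet (lab N) (gl K κ) (gu K κ) := by
    intro σ
    obtain ⟨κ, hκ⟩ := grid_cover hK0 (mag (lab N) σ) (abs_mag_le (lab N) σ)
    exact ⟨κ, mem_boxSet.2 hκ⟩
  have hmain := expect_cover (P := P) hN2 h4 (hmeas N) (horth N) (hHaar N)
    (fun κ : Fin J → Fin (2 * K) => boxSet (lab N) (gl K κ) (gu K κ)) hcov V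
    (r := r + η / 4 + η / 4 + η / 8) (by
      intro κ hne
      set q := ∑ j : Fin J, ((γ j : ℚ) : ℝ) * c j * ((gm K κ j : ℚ) : ℝ) with hq
      have h5 := integral_pressG_le_add P hN0 (eig N) (hmeas N) (horth N) hne (V := V)
        (V' := fun _ => 0) (d := q + Cc * (1 / K) + η / 8) (by
          intro σ hσ
          have hσ' := mem_boxSet.1 hσ
          rw [zero_add]
          simp only [hV]
          rw [field_eq]
          have h6 : ∀ j, c j * (((Finset.univ.filter fun r => lab N r = j).card : ℝ) *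
              mag (lab N) σ j) ≤ (((γ j : ℚ) : ℝ) * c j * ((gm K κ j : ℚ) : ℝ) +
              ((γ j : ℚ) : ℝ) * |c j| * (1 / K) + |c j| *
              |((Finset.univ.filter fun r : Fin N => lab N r = j).card : ℝ) / (N : ℝ) -
                ((γ j : ℚ) : ℝ)|) * N := by
            intro j
            set n_j := ((Finset.univ.filter fun r : Fin N => lab N r = j).card : ℝ) with hnj
            set g := ((γ j : ℚ) : ℝ) with hg
            have hg0 : 0 < g := hγ' j
            set m := mag (lab N) σ j with hm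
            set m0 := ((gm K κ j : ℚ) : ℝ) with hm0
            have e1 : n_j = (n_j / N) * N := by field_simp
            have e2 : c j * (n_j * m) = (g * (c j * m) + (n_j / N - g) * (c j * m)) * N := by
              conv_lhs => rw [e1]
              ring
            rw [e2]
            refine mul_le_mul_of_nonneg_right ?_ hN'.le
            have h7 : c j * m ≤ c j * m0 + |c j| * (1 / K) := by
              have h8 : c j * (m - m0) ≤ |c j| * (1 / K) := by
                refine (le_abs_self _).trans ?_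
                rw [abs_mul]
                exact mul_le_mul_of_nonneg_left
                  (gm_close hK0 κ j m ⟨(hσ' j).1, (hσ' j).2⟩) (abs_nonneg _)
              linarith
            have h9 : (n_j / N - g) * (c j * m) ≤ |c j| * |n_j / N - g| := by
              refine (le_abs_self _).trans ?_
              rw [abs_mul, abs_mul, mul_comm]
              refine mul_le_mul_of_nonneg_right ?_ (abs_nonneg _)
              have := abs_mag_le (lab N) σ j
              rw [← hm] at this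
              nlinarith [abs_nonneg (c j)]
            have h10 := mul_le_mul_of_nonneg_left h7 hg0.le
            nlinarith
          refine (Finset.sum_le_sum fun j _ => h6 j).trans ?_
          rw [← Finset.sum_mul, Finset.sum_add_distrib, Finset.sum_add_distrib, ← Finset.sum_mul]
          refine mul_le_mul_of_nonneg_right ?_ hN'.le
          linarith)
      have h6 := h1 κ
      linarith)
  have e : ∫ ω, pressG (eig N) (Matrix.of (Us N ω)) Finset.univ V ∂P =
      ∫ ω, pressureFieldN (eig N) (Matrix.of (Us N ω)) (fun r => c (lab N r)) ∂P := rfl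
  rw [e] at hmain
  linarith

/-- the lower half: `liminf E P_N ≥` every real below the magnetic value -/
theorem lower_half (hLB : LB μ lamPlus eig P Us) {J : ℕ} (c : Fin J → ℝ) (γ : Fin J → ℚ)
    (hγ : ∀ j, 0 < γ j)
    (hs : ∑ j, γ j = 1) (lab : (N : ℕ) → Fin N → Fin J)
    (hlab : ∀ j : Fin J, Tendsto
      (fun N : ℕ => ((Finset.univ.filter fun r : Fin N => lab N r = j).card : ℝ) / (N : ℝ))
      atTop (nhds ((γ j : ℚ) : ℝ)))
    {r : ℝ} (hr : (r : EReal) < magneticValue μ lamPlus c γ) :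
    ∀ᶠ N : ℕ in atTop, r ≤
      ∫ ω, pressureFieldN (eig N) (Matrix.of (Us N ω)) (fun r => c (lab N r)) ∂P := by
  rw [magneticValue_eq, lt_iSup_iff] at hr
  obtain ⟨m, hr⟩ := hr
  rw [lt_iSup_iff] at hr
  obtain ⟨hm, hr⟩ := hr
  obtain ⟨r', hr1, hr2⟩ := EReal.exists_rat_btwn_of_lt hr
  have hr1 : r < (r' : ℝ) := by exact_mod_cast hr1
  set mr : Fin J → ℝ := fun j => ((m j : ℚ) : ℝ) with hmr
  have hγ' : ∀ j, (0:ℝ) < ((γ j : ℚ) : ℝ) := fun j => by exact_mod_cast hγ j
  set Cc := ∑ j, ((γ j : ℚ) : ℝ) * |c j| with hCc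
  have hCc0 : 0 ≤ Cc := Finset.sum_nonneg fun j _ => mul_nonneg (hγ' j).le (abs_nonneg _)
  set d := (r' : ℝ) - r with hd
  have hd0 : 0 < d := by rw [hd]; linarith
  have hm1 : ∀ j, |mr j| < 1 := by
    intro j
    rw [abs_lt]
    constructor
    · have := (hm j).1; simp only [hmr]; exact_mod_cast this
    · have := (hm j).2; simp only [hmr]; exact_mod_cast this
  -- choice of `δ`
  set δ := min (1 / 2) (d / (4 * (Cc + 1))) with hδ
  have hδ0 : 0 < δ := by rw [hδ]; positivity
  have hδ1 : δ ≤ 1 / 2 := min_le_left _ _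
  have hδ2 : δ * Cc ≤ d / 4 := by
    have h1 : δ ≤ d / (4 * (Cc + 1)) := min_le_right _ _
    calc δ * Cc ≤ d / (4 * (Cc + 1)) * (Cc + 1) := by
          refine mul_le_mul h1 (by linarith) hCc0 (by positivity)
      _ = d / 4 := by field_simp
  -- lower bound of the nonzero means
  obtain ⟨e0, he0, hee⟩ : ∃ e0 : ℝ, 0 < e0 ∧ ∀ j, mr j ≠ 0 → e0 ≤ |mr j| := by
    classical
    by_cases hne : (Finset.univ.filter fun j => mr j ≠ 0).Nonempty
    · obtain ⟨j0, hj0, hmin⟩ := Finset.exists_min_image _ (fun j => |mr j|) hne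
      exact ⟨|mr j0|, abs_pos.2 (Finset.mem_filter.1 hj0).2, fun j hj =>
        hmin j (Finset.mem_filter.2 ⟨Finset.mem_univ _, hj⟩)⟩
    · refine ⟨1, one_pos, fun j hj => absurd ⟨j, Finset.mem_filter.2 ⟨Finset.mem_univ _, hj⟩⟩ hne⟩
  set ε := min (δ * e0) (min (d / 4) (d / (4 * (Cc + 1)))) with hε
  have hε0 : 0 < ε := by rw [hε]; positivity
  have hε1 : ε ≤ δ * e0 := min_le_left _ _
  have hε2 : ε ≤ d / 4 := (min_le_right _ _).trans (min_le_left _ _)
  have hε3 : ε * Cc ≤ d / 4 := by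
    have h1 : ε ≤ d / (4 * (Cc + 1)) := (min_le_right _ _).trans (min_le_right _ _)
    calc ε * Cc ≤ d / (4 * (Cc + 1)) * (Cc + 1) := by
          refine mul_le_mul h1 (by linarith) hCc0 (by positivity)
      _ = d / 4 := by field_simp
  set t : Fin J → ℝ := fun j => (1 - δ) * mr j with ht
  have ht1 : ∀ j, |t j| < 1 := by
    intro j
    simp only [ht]
    rw [abs_mul, abs_of_pos (by linarith : (0:ℝ) < 1 - δ)]
    nlinarith [hm1 j, abs_nonneg (mr j)]
  have key := hLB J c γ hγ hs lab hlab t ht1 ε hε0 (r' - d / 2) (by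
    intro m' hm' hz
    have habs : ∀ j, |m' j| ≤ |mr j| := by
      intro j
      by_cases h0 : mr j = 0
      · have : t j = 0 := by simp only [ht, h0, mul_zero]
        rw [hz j this, h0]
      · have h1 := hm' j
        have h2 : |m' j| ≤ |m' j - t j| + |t j| := by
          calc |m' j| = |(m' j - t j) + t j| := by ring_nf
            _ ≤ _ := abs_add_le _ _
        have h3 : |t j| = (1 - δ) * |mr j| := by
          simp only [ht]
          rw [abs_mul, abs_of_pos (by linarith : (0:ℝ) < 1 - δ)]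
        have h4 := hee j h0
        have h5 : δ * e0 ≤ δ * |mr j| := mul_le_mul_of_nonneg_left h4 hδ0.le
        rw [h3] at h2
        linarith
    have hV : VR μ lamPlus γ mr ≤ VR μ lamPlus γ m' := VR_mono μ lamPlus hγ habs
    have hlin : (∑ j : Fin J, ((γ j : ℚ) : ℝ) * c j * mr j) - d / 2 ≤
        ∑ j : Fin J, ((γ j : ℚ) : ℝ) * c j * m' j := by
      have h1 : ∀ j, ((γ j : ℚ) : ℝ) * c j * mr j - ((γ j : ℚ) : ℝ) * |c j| * (δ + ε) ≤
          ((γ j : ℚ) : ℝ) * c j * m' j := by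
        intro j
        have h2 : |mr j - m' j| ≤ δ + ε := by
          have h3 : |mr j - t j| ≤ δ := by
            simp only [ht]
            have : mr j - (1 - δ) * mr j = δ * mr j := by ring
            rw [this, abs_mul, abs_of_pos hδ0]
            nlinarith [hm1 j]
          calc |mr j - m' j| = |(mr j - t j) - (m' j - t j)| := by ring_nf
            _ ≤ |mr j - t j| + |m' j - t j| := abs_sub _ _
            _ ≤ δ + ε := add_le_add h3 (hm' j)
        have h4 : c j * (mr j - m' j) ≤ |c j| * (δ + ε) := by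
          refine (le_abs_self _).trans ?_
          rw [abs_mul]
          exact mul_le_mul_of_nonneg_left h2 (abs_nonneg _)
        have h5 := mul_le_mul_of_nonneg_left h4 (hγ' j).le
        nlinarith
      have h2 := Finset.sum_le_sum fun j (_ : j ∈ Finset.univ) => h1 j
      rw [Finset.sum_sub_distrib, ← Finset.sum_mul] at h2
      have h3 : Cc * (δ + ε) ≤ d / 2 := by nlinarith
      linarith
    have h1 : (((r' : ℝ) - d / 2 : ℝ) : EReal) =
        (((-(d / 2) : ℝ) : ℝ) : EReal) + (((r' : ℚ) : ℝ) : EReal) := by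
      rw [← EReal.coe_add]; congr 1; ring
    rw [h1]
    calc (((-(d / 2) : ℝ) : ℝ) : EReal) + (((r' : ℚ) : ℝ) : EReal)
        ≤ (((-(d / 2) : ℝ) : ℝ) : EReal) +
          (((∑ j : Fin J, ((γ j : ℚ) : ℝ) * c j * mr j : ℝ) : EReal) +
            VR μ lamPlus γ mr) := add_le_add le_rfl hr2.le
      _ = (((∑ j : Fin J, ((γ j : ℚ) : ℝ) * c j * mr j) - d / 2 : ℝ) : EReal) +
            VR μ lamPlus γ mr := by
          rw [← add_assoc, ← EReal.coe_add]; congr 2; ring
      _ ≤ _ := add_le_add (EReal.coe_le_coe_iff.2 hlin) hV)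
  filter_upwards [key] with N hN
  linarith

/-- **E248 from (UB) and (LB).** -/
theorem e248_of {Λ : ℝ} (hΛ : ∀ᶠ N : ℕ in atTop, ∀ i : Fin N, |eig N i| ≤ Λ)
    (hmeas : ∀ N, Measurable (Us N))
    (horth : ∀ N, ∀ᵐ ω ∂P, Matrix.of (Us N ω) ∈ Matrix.orthogonalGroup (Fin N) ℝ)
    (hHaar : ∀ (N : ℕ) (O : Matrix (Fin N) (Fin N) ℝ), O ∈ Matrix.orthogonalGroup (Fin N) ℝ →
      P.map (fun ω => fun i j => (Matrix.of (Us N ω) * O) i j) = P.map (Us N))
    (hUB : UB μ lamPlus eig P Us) (hLB : LB μ lamPlus eig P Us) :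
    E248 μ lamPlus eig P Us := by
  intro J c _ γ hγ hs lab hlab
  set a : ℕ → ℝ := fun N =>
    ∫ ω, pressureFieldN (eig N) (Matrix.of (Us N ω)) (fun r => c (lab N r)) ∂P with ha
  have hup : ∀ r : ℝ, magneticValue μ lamPlus c γ < (r : EReal) → ∀ η : ℝ, 0 < η →
      ∀ᶠ N in atTop, a N ≤ r + η := fun r hr η hη =>
    upper_half hΛ hmeas horth hHaar hUB c γ hγ hs lab hlab hr hη
  have hlo : ∀ r : ℝ, (r : EReal) < magneticValue μ lamPlus c γ → ∀ᶠ N in atTop, r ≤ a N :=
    fun r hr => lower_half hLB c γ hγ hs lab hlab hr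
  -- boundedness
  set Cb := |Λ| / 2 + ∑ j, |c j| + Real.log 2 with hCb
  have hbd : ∀ᶠ N in atTop, |a N| ≤ Cb := by
    filter_upwards [hΛ] with N hN
    have h1 : ∀ᵐ ω ∂P, ‖pressureFieldN (eig N) (Matrix.of (Us N ω)) (fun r => c (lab N r))‖ ≤
        Cb := by
      filter_upwards [horth N] with ω hω
      rw [Real.norm_eq_abs, ← pressG_univ]
      refine abs_pressG_le (fun i => (hN i).trans (le_abs_self Λ)) (abs_nonneg _) hω
        Finset.univ_nonempty (Finset.sum_nonneg fun _ _ => abs_nonneg _) ?_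
      intro σ _
      refine (Finset.abs_sum_le_sum_abs _ _).trans ?_
      have : ∀ r : Fin N, |c (lab N r) * spinVec σ r| ≤ ∑ j, |c j| := by
        intro r
        rw [abs_mul, abs_spinVec, mul_one]
        exact Finset.single_le_sum (f := fun j => |c j|) (fun _ _ => abs_nonneg _)
          (Finset.mem_univ _)
      refine (Finset.sum_le_sum fun r _ => this r).trans ?_
      simp [mul_comm]
    have h2 := norm_integral_le_of_norm_le_const h1
    simpa [Real.norm_eq_abs] using h2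
  have hne_bot : magneticValue μ lamPlus c γ ≠ ⊥ := by
    intro h
    have h1 := hup (-Cb - 2) (by rw [h]; exact EReal.bot_lt_coe _) 1 one_pos
    obtain ⟨N, hN1, hN2⟩ := (h1.and hbd).exists
    have := (abs_le.1 hN2).1
    linarith
  have hne_top : magneticValue μ lamPlus c γ ≠ ⊤ := by
    intro h
    have h1 := hlo (Cb + 1) (by rw [h]; exact EReal.coe_lt_top _)
    obtain ⟨N, hN1, hN2⟩ := (h1.and hbd).exists
    have := (abs_le.1 hN2).2
    linarith
  refine ⟨(magneticValue μ lamPlus c γ).toReal, (EReal.coe_toReal hne_top hne_bot).symm, ?_⟩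
  set F := (magneticValue μ lamPlus c γ).toReal with hF
  have hFe : ((F : ℝ) : EReal) = magneticValue μ lamPlus c γ := EReal.coe_toReal hne_top hne_bot
  rw [Metric.tendsto_nhds]
  intro ε hε
  have h1 := hup (F + ε / 4) (by
    rw [← hFe]; exact EReal.coe_lt_coe_iff.2 (by linarith)) (ε / 4) (by linarith)
  have h2 := hlo (F - ε / 2) (by
    rw [← hFe]; exact EReal.coe_lt_coe_iff.2 (by linarith))
  filter_upwards [h1, h2] with N hN1 hN2
  rw [Real.dist_eq, abs_lt]
  constructor <;> linarith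

end main

end Crest.Agent.R164.Mag
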