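import Crest.Agent.R164.LStruct2D

/-!
# Row 164, module LSTRUCT-2, part G

The bounds of parts C and D for arbitrary bounded parameters `θ : LD.Prm p K J`, uniformly in the
penalty strength `Kp ≤ Km`.
-/

set_option autoImplicit false
set_option linter.unusedSectionVars false
set_option linter.unusedVariables false

namespace Crest.Agent.R164.LS2

open Finset MeasureTheory Filter Crest.Agent.R141 Crest.Agent.R164 Crest.Agent.R164.ObsConc
open Crest.Agent.R164.G (Base prior_isProb)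
open Crest.Agent.R164.LGrid (gavg pt sh SD)
open Crest.Agent.R164.Haar (Mat RHaar)
open Crest.ProbabilityR.InvariantGlass (spinVec)

noncomputable section

variable {p : Par} {N K J : ℕ}

/-- bounded parameters -/
structure PB (R : ℝ) (θ : LD.Prm p K J) : Prop where
  el : ∀ j, |θ.el j| ≤ R
  am : ∀ j g, |θ.am j g| ≤ R
  lm : ∀ k g, |θ.lm k g| ≤ R

variable (n : ℕ) (val : Fin (K + 1) → ℝ) (c t : Fin J → ℝ) (Kp : ℝ)
  (kap : Fin N → Fin (K + 1)) (lab : Fin N → Fin J) (θ : LD.Prm p K J)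

theorem HL_eq_HU :
    (LD.HL n val c t Kp θ kap lab : Mat (Fin N) → _) =
      CSys.HU (n := n) (A := (Finset.univ : Finset (Fin N → Bool))) (fun i => val (kap i)) 1
        (LD.VL c t Kp θ.el lab) (fun i g => θ.am (lab i) g)
        (fun i g => θ.lm (kap i) g) := rfl

variable {Kp θ}

theorem abs_VL_le' {Km : ℝ} (ht : ∀ j, |t j| ≤ 1) (hKp : 0 ≤ Kp) (hKm : Kp ≤ Km) {R : ℝ}
    (hR : PB R θ) (σ : Fin N → Bool) :
    |LD.VL c t Kp θ.el lab σ| ≤ (∑ j, |c j| + 4 * Km + R) * N := by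
  refine (abs_VL_le c t Kp ht hKp hR.el σ).trans ?_
  exact mul_le_mul_of_nonneg_right (by linarith) (Nat.cast_nonneg N)

variable {ν : Measure (Mat (Fin N))} [IsProbabilityMeasure ν]

theorem adm_HL (ht : ∀ j, |t j| ≤ 1) (hKp : 0 ≤ Kp) {R : ℝ} (hR : PB R θ)
    (hν : ∀ᵐ U ∂ν, Matrix.of U ∈ Matrix.orthogonalGroup (Fin N) ℝ) :
    Adm (LD.B p N n) ν (LD.HL n val c t Kp θ kap lab) where
  meas s := by
    rw [HL_eq_HU]
    exact CSys.measurable_HU _ _ _ _ _ s
  bdd := by
    refine ⟨((∑ k, |val k|) / 2 + (∑ j, |c j| + 4 * Kp + R) + 2 * p.nc * R ^ 2 +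
      2 * p.nc * R ^ 2) * N +
      1 / 8 * ∑ s' : SY.SS p n (Finset.univ : Finset (Fin N → Bool)), CSys.Ts s', ?_⟩
    filter_upwards [hν] with U hU s
    rw [HL_eq_HU]
    refine (CSys.abs_HU_le (n := n) (A := (Finset.univ : Finset (Fin N → Bool)))
      (fun i => val (kap i)) 1 _ _ _ (Λ0 := ∑ k, |val k|) (Λ := R) (Λa := R)
      (BV := ∑ j, |c j| + 4 * Kp + R) (fun i => val_le val _) (by norm_num)
      (fun i g => hR.lm _ _)
      (fun i g => hR.am _ _) (fun σ => abs_VL_le c t Kp ht hKp hR.el σ) hU s).trans ?_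
    have := Ts_le_sum s
    linarith

theorem eE_Ts_HL {Km : ℝ} (hnb : p.nb = 0) (hN : 0 < N) (ht : ∀ j, |t j| ≤ 1) (hKp : 0 ≤ Kp)
    (hKm : Kp ≤ Km) {R : ℝ} (hR : PB R θ) {U : Mat (Fin N)}
    (hU : Matrix.of U ∈ Matrix.orthogonalGroup (Fin N) ℝ) (d : DD p N) :
    eE (G.PP (LD.B p N n) (LD.HL n val c t Kp θ kap lab U) d) (fun ω => CSys.Ts ω.1) ≤
      CTR p val c Km R * N := by
  rw [HL_eq_HU]
  exact CSys.eE_Ts_HU (n := n) (A := (Finset.univ : Finset (Fin N → Bool))) _
    (fun i => val (kap i)) 1 _ _ _ d hnb hN (fun i => val_le val _) (by norm_num)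
    (fun i g => hR.lm _ _) (fun i g => hR.am _ _)
    (fun σ => abs_VL_le' c t lab ht hKp hKm hR σ) hU

/-- **Mean of a direction.** -/
theorem mN_le' {Km : ℝ} (hnb : p.nb = 0) (hN : 0 < N) (ht : ∀ j, |t j| ≤ 1) (hKp : 0 ≤ Kp)
    (hKm : Kp ≤ Km) (hν : ∀ᵐ U ∂ν, Matrix.of U ∈ Matrix.orthogonalGroup (Fin N) ℝ)
    {R : ℝ} (hR : PB R θ)
    {V : Mat (Fin N) → SY.SS p n (Finset.univ : Finset (Fin N → Bool)) → ℝ}
    (hV : Adm (LD.B p N n) ν V)
    (hVb : ∀ᵐ U ∂ν, ∀ s, |V U s| ≤ N + CSys.Ts s) :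
    |mN (LD.B p N n) ν (LD.HL n val c t Kp θ kap lab) V| ≤ 1 + CTR p val c Km R := by
  have hN' : (0 : ℝ) < N := by exact_mod_cast hN
  have hH := adm_HL (ν := ν) n val c t kap lab ht hKp hR hν
  have key : ∀ d, ∀ᵐ U ∂ν, |eE (G.PP (LD.B p N n) (LD.HL n val c t Kp θ kap lab U) d)
      (fun ω => V U ω.1)| ≤ (1 + CTR p val c Km R) * N := by
    intro d
    filter_upwards [hν, hVb] with U hU hb
    have hP := G.PP_isProb (LD.B p N n) (LD.HL n val c t Kp θ kap lab U) d
    refine (eE_abs_le hP _).trans ?_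
    have h1 : eE (G.PP (LD.B p N n) (LD.HL n val c t Kp θ kap lab U) d)
        (fun ω => |V U ω.1|) ≤
        eE (G.PP (LD.B p N n) (LD.HL n val c t Kp θ kap lab U) d)
          (fun ω => (N : ℝ) + CSys.Ts ω.1) :=
      eE_mono hP fun ω => hb ω.1
    rw [eE_add, eE_const hP] at h1
    have h2 := eE_Ts_HL n val c t kap lab hnb hN ht hKp hKm hR hU d
    linarith
  have h1 : mV (B := LD.B p N n) ν (LD.HL n val c t Kp θ kap lab) V ≤
      (1 + CTR p val c Km R) * N := by
    unfold mV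
    refine (dv_mono_ae (fun d => hH.int_obs hV d) (fun d => integrable_const _)
      (fun d => (key d).mono fun U h => (le_abs_self _).trans h)).trans_eq ?_
    exact dv_const hN _
  have h2 : -((1 + CTR p val c Km R) * N) ≤
      mV (B := LD.B p N n) ν (LD.HL n val c t Kp θ kap lab) V := by
    unfold mV
    refine le_trans (le_of_eq ?_) (dv_mono_ae (f := fun _ _ => -((1 + CTR p val c Km R) * N))
      (fun d => integrable_const _) (fun d => hH.int_obs hV d)
      (fun d => (key d).mono fun U h => by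
        have := (abs_le.1 h).1
        linarith))
    exact (dv_const hN _).symm
  unfold mN
  rw [abs_mul, abs_of_nonneg (by positivity : (0 : ℝ) ≤ (N : ℝ)⁻¹), inv_mul_le_iff₀ hN']
  rw [abs_le]
  constructor
  · linarith
  · linarith

/-- **Fluctuations of the free energy of the L system.** -/
theorem fluc_le' {Km : ℝ} (hnb : p.nb = 0) (hN : 2 < N) (ht : ∀ j, |t j| ≤ 1) (hKp : 0 ≤ Kp)
    (hKm : Kp ≤ Km) (hν : RHaar ν) {R : ℝ} (hR : PB R θ) :
    fluc (B := LD.B p N n) ν (LD.HL n val c t Kp θ kap lab) ≤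
      Real.sqrt (CVR p val c Km R * N) + p.nc * p.T * p.τ := by
  have hN0 : 0 < N := by omega
  have hH := adm_HL (ν := ν) n val c t kap lab ht hKp hR hν.mem
  set H := LD.HL (p := p) n val c t Kp θ kap lab with hHdef
  set B := LD.B p N n with hB
  -- pointwise dependence on `d`
  have hd : ∀ (d d' : DD p N) (U : Mat (Fin N)),
      G.Phi B (H U) d - G.Phi B (H U) d' ≤ p.nc * p.T * p.τ := by
    intro d d' U
    have h1 : ∀ ω, |G.UU B (H U) d ω - G.UU B (H U) d' ω| ≤ p.nc * p.T * p.τ := by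
      intro ω
      have b1 := CSys.WW_bounds (n := n) (A := (Finset.univ : Finset (Fin N → Bool)))
        (LD.univ_ne N) hnb d ω
      have b2 := CSys.WW_bounds (n := n) (A := (Finset.univ : Finset (Fin N → Bool)))
        (LD.univ_ne N) hnb d' ω
      unfold G.UU
      rw [abs_le]
      constructor <;> linarith [b1.1, b1.2, b2.1, b2.2]
    unfold G.Phi
    rw [← eE_sub]
    refine (le_abs_self _).trans (abs_eE_le (prior_isProb B) fun ω => ?_)
    exact A_sub_abs_le (prior_isProb B) p.xs_expo.pos h1 0 ω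
  have hint : ∀ d : DD p N, Integrable (fun U => G.Phi B (H U) d) ν := fun d => hH.int_Phi d
  -- the mean over `U` at fixed `d`
  set m : DD p N → ℝ := fun d => ∫ U, G.Phi B (H U) d ∂ν with hm
  have hmd : ∀ d d', m d - m d' ≤ p.nc * p.T * p.τ := by
    intro d d'
    have e : m d - m d' = ∫ U, (G.Phi B (H U) d - G.Phi B (H U) d') ∂ν := by
      rw [integral_sub (hint d) (hint d')]
    rw [e]
    calc ∫ U, (G.Phi B (H U) d - G.Phi B (H U) d') ∂ν
        ≤ ∫ _U : Mat (Fin N), (p.nc * p.T * p.τ : ℝ) ∂ν :=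
          integral_mono ((hint d).sub (hint d')) (integrable_const _) fun U => hd d d' U
      _ = _ := by simp
  have hFF : FF B ν H = ∑ d, dw p N d * m d := rfl
  have hs := dw_sum p hN0
  have hmF : ∀ d, |m d - FF B ν H| ≤ p.nc * p.T * p.τ := by
    intro d
    have e1 : m d - FF B ν H = ∑ d', dw p N d' * (m d - m d') := by
      simp only [mul_sub, Finset.sum_sub_distrib, ← Finset.sum_mul, hs, one_mul, hFF]
    have e2 : FF B ν H - m d = ∑ d', dw p N d' * (m d' - m d) := by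
      simp only [mul_sub, Finset.sum_sub_distrib, ← Finset.sum_mul, hs, one_mul, hFF]
    have b1 : m d - FF B ν H ≤ p.nc * p.T * p.τ := by
      rw [e1]
      calc ∑ d', dw p N d' * (m d - m d') ≤ ∑ d', dw p N d' * (p.nc * p.T * p.τ) :=
            Finset.sum_le_sum fun d' _ => mul_le_mul_of_nonneg_left (hmd d d') (dw_nonneg p N d')
        _ = _ := by rw [← Finset.sum_mul, hs, one_mul]
    have b2 : FF B ν H - m d ≤ p.nc * p.T * p.τ := by
      rw [e2]
      calc ∑ d', dw p N d' * (m d' - m d) ≤ ∑ d', dw p N d' * (p.nc * p.T * p.τ) :=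
            Finset.sum_le_sum fun d' _ => mul_le_mul_of_nonneg_left (hmd d' d) (dw_nonneg p N d')
        _ = _ := by rw [← Finset.sum_mul, hs, one_mul]
    rw [abs_le]
    constructor <;> linarith
  have hdev : ∀ d : DD p N, ∫ U, |G.Phi B (H U) d - m d| ∂ν ≤
      Real.sqrt (CVR p val c Km R * N) := by
    intro d
    have h := CSys.dev_O (n := n) (A := (Finset.univ : Finset (Fin N → Bool))) (LD.univ_ne N)
      (fun i => val (kap i)) 1 (LD.VL c t Kp θ.el lab)
      (fun i g => θ.am (lab i) g) (fun i g => θ.lm (kap i) g) d hnb hN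
      (fun i => val_le val _) (by norm_num) (fun i g => hR.lm _ _) (fun i g => hR.am _ _)
      (fun σ => abs_VL_le' c t lab ht hKp hKm hR σ) (ν := ν) ⟨hν.mem, hν.inv⟩
    exact h
  unfold fluc dv Ed
  calc ∑ d, dw p N d * ∫ U, |G.Phi B (H U) d - FF B ν H| ∂ν
      ≤ ∑ d, dw p N d * (Real.sqrt (CVR p val c Km R * N) + p.nc * p.T * p.τ) := by
        refine Finset.sum_le_sum fun d _ => mul_le_mul_of_nonneg_left ?_ (dw_nonneg p N d)
        have ia : Integrable (fun U => |G.Phi B (H U) d - m d|) ν :=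
          ((hint d).sub (integrable_const _)).abs
        have ib : Integrable (fun _ : Mat (Fin N) => (p.nc * p.T * p.τ : ℝ)) ν :=
          integrable_const _
        have hab := integral_add ia ib
        have hc : ∫ _U : Mat (Fin N), (p.nc * p.T * p.τ : ℝ) ∂ν = p.nc * p.T * p.τ := by simp
        have hle : ∫ U, |G.Phi B (H U) d - FF B ν H| ∂ν ≤
            ∫ U, (|G.Phi B (H U) d - m d| + p.nc * p.T * p.τ) ∂ν := by
          refine integral_mono ((hint d).sub (integrable_const _)).abs (ia.add ib) fun U => ?_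
          show |G.Phi B (H U) d - FF B ν H| ≤ |G.Phi B (H U) d - m d| + p.nc * p.T * p.τ
          have := abs_sub_le (G.Phi B (H U) d) (m d) (FF B ν H)
          linarith [hmF d]
        have h3 := hdev d
        linarith
    _ = _ := by rw [← Finset.sum_mul, hs, one_mul]

/-- the averaged free energy in the names of `LDef`. -/
theorem FF_eq_EPh' (ht : ∀ j, |t j| ≤ 1) (hKp : 0 ≤ Kp) {R : ℝ} (hR : PB R θ)
    (hν : ∀ᵐ U ∂ν, Matrix.of U ∈ Matrix.orthogonalGroup (Fin N) ℝ) :
    FF (LD.B p N n) ν (LD.HL n val c t Kp θ kap lab) = LD.EPh ν n val c t Kp θ kap lab := by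
  have hH := adm_HL (ν := ν) n val c t kap lab ht hKp hR hν
  have h1 : LD.EPh ν n val c t Kp θ kap lab =
      ∫ U, ∑ d, dw p N d * G.Phi (LD.B p N n) (LD.HL n val c t Kp θ kap lab U) d ∂ν := rfl
  have hi : ∀ d : DD p N, Integrable
      (fun U => G.Phi (LD.B p N n) (LD.HL n val c t Kp θ kap lab U) d) ν :=
    fun d => hH.int_Phi d
  rw [h1, integral_finsetSum _ fun d _ => (hi d).const_mul _]
  simp only [integral_const_mul]
  rfl

theorem abs_FF_le' {Km : ℝ} (hnb : p.nb = 0) (hN : 0 < N) (ht : ∀ j, |t j| ≤ 1) (hKp : 0 ≤ Kp)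
    (hKm : Kp ≤ Km) (hν : ∀ᵐ U ∂ν, Matrix.of U ∈ Matrix.orthogonalGroup (Fin N) ℝ)
    {R : ℝ} (hR : PB R θ) :
    |FF (LD.B p N n) ν (LD.HL n val c t Kp θ kap lab)| ≤ CF p val c Km R * N := by
  have hH := adm_HL (ν := ν) n val c t kap lab ht hKp hR hν
  have hN1 : (1 : ℝ) ≤ N := by exact_mod_cast hN
  have hW00 : (0 : ℝ) ≤ p.nc * p.T * p.τ := by
    have := p.hτ0
    positivity
  have key : ∀ d, ∀ᵐ U ∂ν, |G.Phi (LD.B p N n) (LD.HL n val c t Kp θ kap lab U) d| ≤
      CF p val c Km R * N := by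
    intro d
    filter_upwards [hν] with U hU
    have h1 := abs_Phi_le (p := p) (N := N) n hnb (LD.HL n val c t Kp θ kap lab U)
      (B := ((∑ k, |val k|) / 2 + (∑ j, |c j| + 4 * Km + R) + 2 * p.nc * R ^ 2 +
        2 * p.nc * R ^ 2) * N) (fun s => ?_) d
    · refine h1.trans ?_
      unfold CF
      nlinarith
    · rw [HL_eq_HU]
      exact CSys.abs_HU_le (n := n) (A := (Finset.univ : Finset (Fin N → Bool)))
        (fun i => val (kap i)) 1 _ _ _ (fun i => val_le val _) (by norm_num)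
        (fun i g => hR.lm _ _) (fun i g => hR.am _ _)
        (fun σ => abs_VL_le' c t lab ht hKp hKm hR σ) hU s
  have h1 : FF (LD.B p N n) ν (LD.HL n val c t Kp θ kap lab) ≤ CF p val c Km R * N := by
    unfold FF
    refine (dv_mono_ae (fun d => hH.int_Phi d) (fun d => integrable_const _)
      (fun d => (key d).mono fun U h => (le_abs_self _).trans h)).trans_eq ?_
    exact dv_const hN _
  have h2 : -(CF p val c Km R * N) ≤ FF (LD.B p N n) ν (LD.HL n val c t Kp θ kap lab) := by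
    unfold FF
    refine le_trans (le_of_eq ?_) (dv_mono_ae (f := fun _ _ => -(CF p val c Km R * N))
      (fun d => integrable_const _) (fun d => hH.int_Phi d)
      (fun d => (key d).mono fun U h => by
        have := (abs_le.1 h).1
        linarith))
    exact (dv_const hN _).symm
  rw [abs_le]
  exact ⟨h2, h1⟩

/-- constants are nonnegative -/
theorem CF_nonneg {Km R : ℝ} (hKm : 0 ≤ Km) (hR : 0 ≤ R) : 0 ≤ CF p val c Km R := by
  have h2 := p.hτ0
  have h3 : 0 ≤ ∑ k, |val k| := Finset.sum_nonneg fun _ _ => abs_nonneg _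
  have h4 : 0 ≤ ∑ k, |c k| := Finset.sum_nonneg fun _ _ => abs_nonneg _
  unfold CF
  positivity

/-! ### The choice of the grid, numbers -/

/-- Numerical part of the choice of the grid. -/
theorem num_small (κ κ' L V W cst C1 : ℝ) {δ : ℝ} (hδ : 0 < δ) :
    ∃ I0 : ℕ, ∀ I : ℕ, I0 ≤ I → ∀ ym : ℝ, 0 < ym → ∃ N0 : ℕ, ∀ N : ℕ, N0 ≤ N →
      κ * (4 * L / I + (8 * (Real.sqrt (V * N) + W) + cst) / (N * ym)) +
        κ' * (2 * L / I + 2 * (C1 / N) / ym) ≤ δ := by
  set a : ℝ := κ * (4 * L) + κ' * (2 * L) with ha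
  have h1 : Tendsto (fun I : ℕ => a / I) atTop (nhds 0) := tendsto_const_div_atTop_nhds_zero_nat a
  obtain ⟨I0, hI0⟩ := eventually_atTop.1 (h1.eventually_lt_const (half_pos hδ))
  refine ⟨I0, fun I hI ym hym => ?_⟩
  have h2 : Tendsto (fun N : ℕ => (κ * (8 * (Real.sqrt (V * N) + W) + cst) / (N * ym) +
      κ' * (2 * (C1 / N) / ym))) atTop (nhds 0) := by
    have t1 : Tendsto (fun N : ℕ => Real.sqrt (V * N) / N) atTop (nhds 0) := by
      have e : ∀ N : ℕ, Real.sqrt (V * N) / N = Real.sqrt V * (Real.sqrt N / N) := by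
        intro N
        by_cases hc : 0 ≤ V
        · rw [Real.sqrt_mul hc]; ring
        · push Not at hc
          rw [Real.sqrt_eq_zero_of_nonpos hc.le, Real.sqrt_eq_zero_of_nonpos
            (mul_nonpos_of_nonpos_of_nonneg hc.le (Nat.cast_nonneg N))]
          simp
      simp only [e]
      have t0 : Tendsto (fun N : ℕ => Real.sqrt N / N) atTop (nhds 0) := by
        have e2 : ∀ N : ℕ, Real.sqrt N / N = (Real.sqrt N)⁻¹ := by
          intro N
          rw [Real.sqrt_div_self', one_div]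
        simp only [e2]
        exact (Real.tendsto_sqrt_atTop.comp tendsto_natCast_atTop_atTop).inv_tendsto_atTop
      simpa using t0.const_mul (Real.sqrt V)
    have t2 : Tendsto (fun N : ℕ => (1 : ℝ) / N) atTop (nhds 0) :=
      tendsto_const_div_atTop_nhds_zero_nat 1
    have t3 := ((t1.const_mul (κ * 8 / ym)).add
      (t2.const_mul (κ * (8 * W + cst) / ym))).add
      (t2.const_mul (κ' * (2 * C1) / ym))
    simp only [mul_zero, add_zero] at t3
    refine t3.congr fun N => ?_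
    by_cases hN : (N : ℝ) = 0
    · simp [hN]
    · field_simp
      ring
  obtain ⟨N0, hN0⟩ := eventually_atTop.1 (h2.eventually_lt_const (half_pos hδ))
  refine ⟨N0, fun N hN => ?_⟩
  have b1 := hI0 I hI
  have b2 := hN0 N hN
  have e : κ * (4 * L / I + (8 * (Real.sqrt (V * N) + W) + cst) / (N * ym)) +
        κ' * (2 * L / I + 2 * (C1 / N) / ym) = a / I +
      (κ * (8 * (Real.sqrt (V * N) + W) + cst) / (N * ym) + κ' * (2 * (C1 / N) / ym)) := by
    rw [ha]
    ring
  rw [e]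
  linarith

end

end Crest.Agent.R164.LS2
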