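import Crest.Agent.R164.KAvgB
import Crest.Agent.R164.LStruct2G
import Crest.Agent.R164.LIbp

/-!
Row 164, L side, (GL2): the average over the penalty strengths, `LG.KAVG`.
-/

set_option autoImplicit false

namespace Crest.Agent.R164.LG

open Finset MeasureTheory Crest.Agent.R141 Crest.Agent.R164 Crest.Agent.R164.Haar
open Crest.ProbabilityR.InvariantGlass (spinVec)
open Crest.Agent.R164.LD (Prm HL EPh EO PL TO RJ MO OAdm)

noncomputable section

variable (X : Glob) {p : Par} {N n : ℕ}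

/-- the total squared distance -/
theorem Qd_eq (hN : 0 < N) (Kp : ℝ) (θ : Prm p X.K X.J) (L : Fin N → X.LB) :
    N * Qd X n Kp θ L = Eo X n Kp θ L (fun _ _ ω => Mag.QD X.t (Glob.lab L) ω.1.1.1) := by
  haveI := X.hnu N
  have hN' : (N : ℝ) ≠ 0 := by positivity
  have h1 : Eo X n Kp θ L (fun _ _ ω => Mag.QD X.t (Glob.lab L) ω.1.1.1) =
      ∑ j, Eo X n Kp θ L (fun _ _ ω => if X.t j = 0 then 0 else
        Mag.rJ (Glob.lab L) j * (MO n (Glob.lab L) j ω - X.t j) ^ 2) := by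
    unfold Eo
    rw [← LD.EO_sum X.val X.c X.t Kp θ (Glob.kap L) (Glob.lab L) univ
      (O := fun j _ _ ω => if X.t j = 0 then 0 else
        Mag.rJ (Glob.lab L) j * (MO n (Glob.lab L) j ω - X.t j) ^ 2)
      fun j _ => OAdm.const (mu := X.nu N) (n := n) fun _ ω => if X.t j = 0 then 0 else
        Mag.rJ (Glob.lab L) j * (MO n (Glob.lab L) j ω - X.t j) ^ 2]
    rfl
  rw [h1]
  unfold Qd
  rw [Finset.mul_sum]
  refine Finset.sum_congr rfl fun j _ => ?_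
  by_cases hj : X.t j = 0
  · simp only [if_pos hj]
    have := LD.EO_const (mu := X.nu N) (p := p) (n := n) X.val X.c X.t Kp θ (Glob.kap L)
      (Glob.lab L) hN (0 : ℝ)
    unfold Eo
    rw [this, mul_zero]
  · simp only [if_neg hj]
    unfold Eo
    rw [LD.EO_smul X.val X.c X.t Kp θ (Glob.kap L) (Glob.lab L)
      (O := fun _ _ ω => (MO n (Glob.lab L) j ω - X.t j) ^ 2)
      (OAdm.const (mu := X.nu N) (n := n) fun _ ω => (MO n (Glob.lab L) j ω - X.t j) ^ 2)]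
    field_simp

theorem exists_PB (θ : Prm p X.K X.J) : ∃ R : ℝ, LS2.PB R θ := by
  refine ⟨∑ j, |θ.el j| + ∑ x : Fin X.J × Fin p.nc, |θ.am x.1 x.2| +
    ∑ x : Fin (X.K + 1) × Fin p.nc, |θ.lm x.1 x.2|, ?_, ?_, ?_⟩
  all_goals
    have h1 : 0 ≤ ∑ j, |θ.el j| := Finset.sum_nonneg fun _ _ => abs_nonneg _
    have h2 : 0 ≤ ∑ x : Fin X.J × Fin p.nc, |θ.am x.1 x.2| :=
      Finset.sum_nonneg fun _ _ => abs_nonneg _
    have h3 : 0 ≤ ∑ x : Fin (X.K + 1) × Fin p.nc, |θ.lm x.1 x.2| :=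
      Finset.sum_nonneg fun _ _ => abs_nonneg _
  · intro j
    have := Finset.single_le_sum (f := fun j => |θ.el j|) (fun _ _ => abs_nonneg _)
      (Finset.mem_univ j)
    linarith
  · intro j g
    have := Finset.single_le_sum (f := fun x : Fin X.J × Fin p.nc => |θ.am x.1 x.2|)
      (fun _ _ => abs_nonneg _) (Finset.mem_univ (j, g))
    linarith
  · intro k g
    have := Finset.single_le_sum (f := fun x : Fin (X.K + 1) × Fin p.nc => |θ.lm x.1 x.2|)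
      (fun _ _ => abs_nonneg _) (Finset.mem_univ (k, g))
    linarith

/-- **supporting line** in the penalty strength. -/
theorem Qd_line (hN : 0 < N) {Kp : ℝ} (hKp : 0 ≤ Kp) (θ : Prm p X.K X.J) (L : Fin N → X.LB) :
    Kp * Qd X n Kp θ L ≤ 2 / N * (Ph X n (Kp / 2) θ L - Ph X n Kp θ L) := by
  haveI := X.hnu N
  have hN' : (0 : ℝ) < N := by exact_mod_cast hN
  obtain ⟨R, hR⟩ := exists_PB X θ
  have ht : ∀ j, |X.t j| ≤ 1 := fun j => (X.ht j).le
  have hH := LS2.adm_HL (ν := X.nu N) n X.val X.c X.t (Glob.kap L) (Glob.lab L) ht hKp hR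
    (X.hR N).mem
  have hH2 : LS2.Adm (LD.B p N n) (X.nu N)
      (fun (_ : Mat (Fin N)) (b : (LD.B p N n).S) => Mag.QD X.t (Glob.lab L) b.1.1) := by
    refine ⟨fun _ => measurable_const, 4 * N, Filter.Eventually.of_forall fun U s => ?_⟩
    rw [abs_of_nonneg (Mag.QD_nonneg _ _ _)]
    exact Mag.QD_le ht (Glob.lab L) _
  have h := LS2.slope (SY.base_SF_zero (LD.univ_ne N)) hH hH2 (Kp / 2)
  have e1 : LS2.hs (LD.B p N n) (LD.HL n X.val X.c X.t Kp θ (Glob.kap L) (Glob.lab L))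
      (fun (_ : Mat (Fin N)) (b : (LD.B p N n).S) => Mag.QD X.t (Glob.lab L) b.1.1) (Kp / 2) =
      LD.HL n X.val X.c X.t (Kp / 2) θ (Glob.kap L) (Glob.lab L) := by
    funext U b
    unfold LS2.hs LD.HL SY.HS SY.h0q LD.VL
    rw [Mag.PEN_eq, Mag.PEN_eq]
    ring
  rw [e1, LS2.FF_eq_EPh' n X.val X.c X.t (Glob.kap L) (Glob.lab L) ht (by linarith) hR
    (X.hR N).mem, LS2.FF_eq_EPh' n X.val X.c X.t (Glob.kap L) (Glob.lab L) ht hKp hR
    (X.hR N).mem] at h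
  have e2 : LS2.mV (B := LD.B p N n) (X.nu N)
      (LD.HL n X.val X.c X.t Kp θ (Glob.kap L) (Glob.lab L))
      (fun (_ : Mat (Fin N)) (b : (LD.B p N n).S) => Mag.QD X.t (Glob.lab L) b.1.1) =
      N * Qd X n Kp θ L := by
    rw [Qd_eq X hN]
    unfold Eo
    rw [LD.EO_eq_dv X.val X.c X.t Kp θ (Glob.kap L) (Glob.lab L)
      (OAdm.const (mu := X.nu N) (n := n) fun _ ω => Mag.QD X.t (Glob.lab L) ω.1.1.1)]
    rfl
  rw [e2] at h
  have h2 : Kp * Qd X n Kp θ L = 2 / N * (Kp / 2 * (N * Qd X n Kp θ L)) := by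
    field_simp
  rw [h2]
  exact mul_le_mul_of_nonneg_left h (by positivity)

/-- **(GL2)** -/
theorem kavg : KAVG X := by
  intro E A S
  have hC := CgU_nonneg X
  refine ⟨4 * CgU X + 4 * (|E| + A ^ 2 / 2 + |S| / 2) + 6, by positivity, ?_⟩
  intro K0 hK0 I p hnb
  obtain ⟨m1, hm1⟩ := exists_nat_gt (p.nc * p.T * p.τ)
  obtain ⟨m2, hm2⟩ := exists_nat_gt (K0 * 2 ^ I * X.J)
  refine ⟨max 1 (max m1 m2), fun N hN n hn θ hθ L => ?_⟩
  have hNpos : 0 < N := lt_of_lt_of_le one_pos ((le_max_left _ _).trans hN)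
  have hN' : (0 : ℝ) < N := by exact_mod_cast hNpos
  have a1 : (p.nc * p.T * p.τ : ℝ) ≤ N := hm1.le.trans
    (by exact_mod_cast ((le_max_left _ _).trans (le_max_right _ _)).trans hN)
  have a2 : (K0 * 2 ^ I * X.J : ℝ) ≤ N := hm2.le.trans
    (by exact_mod_cast ((le_max_right _ _).trans (le_max_right _ _)).trans hN)
  have h1 : ∀ i : Fin I, (K0 * 2 ^ ((i : ℕ) + 1)) * Qd X n (K0 * 2 ^ ((i : ℕ) + 1)) θ L ≤
      2 / N * (Ph X n (K0 * 2 ^ (i : ℕ)) θ L - Ph X n (K0 * 2 ^ ((i : ℕ) + 1)) θ L) := by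
    intro i
    have h := Qd_line X (n := n) hNpos (Kp := K0 * 2 ^ ((i : ℕ) + 1)) (by positivity) θ L
    have e : K0 * 2 ^ ((i : ℕ) + 1) / 2 = K0 * 2 ^ (i : ℕ) := by rw [pow_succ]; ring
    rw [e] at h
    exact h
  refine (Finset.sum_le_sum fun i _ => h1 i).trans ?_
  rw [← Finset.mul_sum]
  have h2 : ∑ i : Fin I, (Ph X n (K0 * 2 ^ (i : ℕ)) θ L - Ph X n (K0 * 2 ^ ((i : ℕ) + 1)) θ L) =
      Ph X n (K0 * 2 ^ 0) θ L - Ph X n (K0 * 2 ^ I) θ L := by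
    rw [Fin.sum_univ_eq_sum_range (fun i => Ph X n (K0 * 2 ^ i) θ L -
      Ph X n (K0 * 2 ^ (i + 1)) θ L) I, Finset.sum_range_sub']
  rw [h2, pow_zero, mul_one]
  have p1 := abs_le.1 (pert X hnb n hNpos K0 hθ L)
  have p2 := abs_le.1 (pert X hnb n hNpos (K0 * 2 ^ I) hθ L)
  have g1 := Gp_up X hK0.le L
  have g2 := Gp_low X hNpos (Kp := K0 * 2 ^ I) (by positivity) L
  have g3 : N * Gp X K0 L ≤ N * CgU X := mul_le_mul_of_nonneg_left g1 hN'.le
  have g4 : N * (-(CgU X) - K0 * 2 ^ I * X.J / N) ≤ N * Gp X (K0 * 2 ^ I) L :=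
    mul_le_mul_of_nonneg_left g2 hN'.le
  have g5 : N * (-(CgU X) - K0 * 2 ^ I * X.J / N) = -(N * CgU X) - K0 * 2 ^ I * X.J := by
    field_simp
  have g6 : E + A ^ 2 / 2 + S / 2 ≤ |E| + A ^ 2 / 2 + |S| / 2 := by
    have b1 := le_abs_self E
    have b2 := le_abs_self S
    linarith
  have g7 : (N : ℝ) * (E + A ^ 2 / 2 + S / 2) ≤ N * (|E| + A ^ 2 / 2 + |S| / 2) :=
    mul_le_mul_of_nonneg_left g6 hN'.le
  have h3 : Ph X n K0 θ L - Ph X n (K0 * 2 ^ I) θ L ≤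
      N * (2 * CgU X + 2 * (|E| + A ^ 2 / 2 + |S| / 2) + 3) := by
    have c1 := p1.2
    have c2 := p2.1
    rw [g5] at g4
    linarith
  calc 2 / N * (Ph X n K0 θ L - Ph X n (K0 * 2 ^ I) θ L)
      ≤ 2 / N * (N * (2 * CgU X + 2 * (|E| + A ^ 2 / 2 + |S| / 2) + 3)) :=
        mul_le_mul_of_nonneg_left h3 (by positivity)
    _ = _ := by field_simp; ring

end

end Crest.Agent.R164.LG
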