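import Mathlib

/-!
Row 164, L side (helper893): two nondecreasing `[0,1]`-valued sequences whose tail sums agree at
`M` grid points are close in `ℓ¹`.
-/

set_option autoImplicit false

namespace Crest.Agent.R164.LL1

open Finset

/-- one block: `Σ |P - p| ≤ |Σ (P - p)| + r (osc P + osc p)`. -/
theorem block {P p : ℕ → ℝ} (hP : Monotone P) (hp : Monotone p) (a r : ℕ) :
    ∑ l ∈ Ico a (a + r), |P l - p l| ≤
      |∑ l ∈ Ico a (a + r), (P l - p l)| + r * ((P (a + r) - P a) + (p (a + r) - p a)) := by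
  rcases Nat.eq_zero_or_pos r with rfl | hr
  · simp
  have hr' : (0:ℝ) < r := by exact_mod_cast hr
  have hcard : (Ico a (a + r)).card = r := by simp
  set S := ∑ l ∈ Ico a (a + r), (P l - p l) with hS
  set o := (P (a + r) - P a) + (p (a + r) - p a) with ho
  have key : ∀ l ∈ Ico a (a + r), r * |P l - p l| ≤ |S| + r * o := by
    intro l hl
    rw [mem_Ico] at hl
    have h1 : ∀ l' ∈ Ico a (a + r), |(P l - p l) - (P l' - p l')| ≤ o := by
      intro l' hl'
      rw [mem_Ico] at hl'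
      have a1 := hP hl.1
      have a2 := hP hl'.1
      have a3 := hP hl.2.le
      have a4 := hP hl'.2.le
      have b1 := hp hl.1
      have b2 := hp hl'.1
      have b3 := hp hl.2.le
      have b4 := hp hl'.2.le
      rw [abs_le, ho]
      constructor <;> linarith
    have h2 : ∑ l' ∈ Ico a (a + r), ((P l - p l) - (P l' - p l')) = r * (P l - p l) - S := by
      rw [sum_sub_distrib, sum_const, hcard, nsmul_eq_mul]
    have h3 : |r * (P l - p l) - S| ≤ r * o := by
      rw [← h2]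
      refine (abs_sum_le_sum_abs _ _).trans ?_
      calc ∑ l' ∈ Ico a (a + r), |(P l - p l) - (P l' - p l')| ≤ ∑ l' ∈ Ico a (a + r), o :=
            sum_le_sum h1
        _ = r * o := by rw [sum_const, hcard, nsmul_eq_mul]
    have h4 : |(r:ℝ) * (P l - p l)| ≤ |S| + |r * (P l - p l) - S| := by
      have := abs_add_le S (r * (P l - p l) - S)
      rwa [add_sub_cancel] at this
    rw [abs_mul, abs_of_pos hr'] at h4
    linarith
  have h5 : ∑ l ∈ Ico a (a + r), r * |P l - p l| ≤ ∑ l ∈ Ico a (a + r), (|S| + r * o) :=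
    sum_le_sum key
  rw [← mul_sum, sum_const, hcard, nsmul_eq_mul] at h5
  exact le_of_mul_le_mul_left h5 hr'

/-- **`ℓ¹` closeness from tail sums at grid points.** -/
theorem l1_of_tails {M r : ℕ} {P p : ℕ → ℝ} (hP : Monotone P) (hp : Monotone p)
    (hP0 : ∀ i, 0 ≤ P i) (hP1 : ∀ i, P i ≤ 1) (hp0 : ∀ i, 0 ≤ p i) (hp1 : ∀ i, p i ≤ 1)
    {e : ℝ} (he : 0 ≤ e)
    (hT : ∀ q, 1 ≤ q → q < M → |∑ l ∈ Ico (q * r) (M * r), (P l - p l)| ≤ e) :
    ∑ l ∈ range (M * r), |P l - p l| ≤ 2 * M * e + 3 * r := by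
  rcases Nat.eq_zero_or_pos M with rfl | hM
  · simp
  -- telescoping over the blocks
  have hblocks : ∀ m ≤ M, ∑ l ∈ range (m * r), |P l - p l| =
      ∑ q ∈ range m, ∑ l ∈ Ico (q * r) (q * r + r), |P l - p l| := by
    intro m
    induction m with
    | zero => simp
    | succ m ih =>
      intro hm
      rw [sum_range_succ, ← ih (by omega), range_eq_Ico, range_eq_Ico,
        show (m + 1) * r = m * r + r by ring]
      exact (sum_Ico_consecutive _ (Nat.zero_le _) (Nat.le_add_right _ _)).symm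
  rw [hblocks M le_rfl]
  -- the first block
  obtain ⟨m, rfl⟩ : ∃ m, M = m + 1 := ⟨M - 1, by omega⟩
  rw [sum_range_succ']
  have hfirst : ∑ l ∈ Ico (0 * r) (0 * r + r), |P l - p l| ≤ r := by
    rw [zero_mul, zero_add]
    calc ∑ l ∈ Ico 0 r, |P l - p l| ≤ ∑ l ∈ Ico 0 r, (1:ℝ) := by
          refine sum_le_sum fun l _ => ?_
          rw [abs_le]
          constructor <;> linarith [hP0 l, hP1 l, hp0 l, hp1 l]
      _ = r := by simp
  have hother : ∀ q ∈ range m, ∑ l ∈ Ico ((q + 1) * r) ((q + 1) * r + r), |P l - p l| ≤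
      2 * e + r * ((P ((q + 1) * r + r) - P ((q + 1) * r)) +
        (p ((q + 1) * r + r) - p ((q + 1) * r))) := by
    intro q hq
    rw [mem_range] at hq
    refine (block hP hp _ _).trans ?_
    have h1 : |∑ l ∈ Ico ((q + 1) * r) ((q + 1) * r + r), (P l - p l)| ≤ 2 * e := by
      have hT1 := hT (q + 1) (by omega) (by omega)
      have hcons : ∑ l ∈ Ico ((q + 1) * r) ((q + 1) * r + r), (P l - p l) +
          ∑ l ∈ Ico ((q + 1) * r + r) ((m + 1) * r), (P l - p l) =
          ∑ l ∈ Ico ((q + 1) * r) ((m + 1) * r), (P l - p l) := by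
        refine sum_Ico_consecutive _ (Nat.le_add_right _ _) ?_
        have : (q + 2) * r ≤ (m + 1) * r := Nat.mul_le_mul_right r (by omega)
        calc (q + 1) * r + r = (q + 2) * r := by ring
          _ ≤ _ := this
      have hT2 : |∑ l ∈ Ico ((q + 1) * r + r) ((m + 1) * r), (P l - p l)| ≤ e := by
        rcases Nat.lt_or_ge (q + 2) (m + 1) with h | h
        · have := hT (q + 2) (by omega) h
          rwa [show (q + 2) * r = (q + 1) * r + r by ring] at this
        · have hle : (m + 1) * r ≤ (q + 1) * r + r := by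
            calc (m + 1) * r ≤ (q + 2) * r := Nat.mul_le_mul_right r h
              _ = _ := by ring
          rw [Ico_eq_empty_of_le hle]
          simpa using he
      have e1 : ∑ l ∈ Ico ((q + 1) * r) ((q + 1) * r + r), (P l - p l) =
          ∑ l ∈ Ico ((q + 1) * r) ((m + 1) * r), (P l - p l) -
          ∑ l ∈ Ico ((q + 1) * r + r) ((m + 1) * r), (P l - p l) := by linarith
      rw [e1]
      refine (abs_sub _ _).trans ?_
      linarith
    linarith
  have hsum := sum_le_sum hother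
  rw [sum_add_distrib, sum_const, card_range, nsmul_eq_mul, ← mul_sum, sum_add_distrib] at hsum
  have ht : ∀ f : ℕ → ℝ, ∑ q ∈ range m, (f ((q + 1) * r + r) - f ((q + 1) * r)) =
      f ((m + 1) * r) - f r := by
    intro f
    have := sum_range_sub (fun q => f ((q + 1) * r)) m
    simp only [zero_add, one_mul] at this
    rw [← this]
    refine sum_congr rfl fun q _ => ?_
    rw [show (q + 1 + 1) * r = (q + 1) * r + r by ring]
  rw [ht P, ht p] at hsum
  have hr0 : (0:ℝ) ≤ r := Nat.cast_nonneg r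
  have hosc : (r:ℝ) * ((P ((m + 1) * r) - P r) + (p ((m + 1) * r) - p r)) ≤ r * 2 := by
    refine mul_le_mul_of_nonneg_left ?_ hr0
    linarith [hP1 ((m + 1) * r), hP0 r, hp1 ((m + 1) * r), hp0 r]
  have hm : (m:ℝ) * (2 * e) ≤ 2 * ((m + 1 : ℕ) : ℝ) * e := by
    push_cast; nlinarith
  linarith

/-- version for `Fin (n+1)` with uniform weights -/
theorem l1_fin {M r n : ℕ} (hn : n + 1 = M * r) {P p : Fin (n + 1) → ℝ} (hP : Monotone P)
    (hp : Monotone p) (hP0 : ∀ i, 0 ≤ P i) (hP1 : ∀ i, P i ≤ 1) (hp0 : ∀ i, 0 ≤ p i)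
    (hp1 : ∀ i, p i ≤ 1) {e : ℝ} (he : 0 ≤ e)
    (hT : ∀ q, 1 ≤ q → q < M → |∑ i : Fin (n + 1), if q * r ≤ (i : ℕ) then
      ((n : ℝ) + 1)⁻¹ * (P i - p i) else 0| ≤ e) :
    ∑ i : Fin (n + 1), ((n : ℝ) + 1)⁻¹ * |P i - p i| ≤ 2 * M * e + 3 / M := by
  have hn0 : (0:ℝ) < (n:ℝ) + 1 := by positivity
  have hMr : ((M:ℝ) * r) = (n:ℝ) + 1 := by exact_mod_cast hn.symm
  have hM0 : 0 < M := by
    rcases Nat.eq_zero_or_pos M with h | h
    · rw [h, zero_mul] at hn; omega
    · exact h
  have hM' : (0:ℝ) < M := by exact_mod_cast hM0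
  let ext : (Fin (n + 1) → ℝ) → ℕ → ℝ := fun f l => if h : l < n + 1 then f ⟨l, h⟩ else 1
  have hextv : ∀ (f : Fin (n + 1) → ℝ) (i : Fin (n + 1)), ext f (i : ℕ) = f i := by
    intro f i
    simp only [ext]
    rw [dif_pos i.2]
  have hext_mono : ∀ f : Fin (n + 1) → ℝ, Monotone f → (∀ i, f i ≤ 1) → Monotone (ext f) := by
    intro f hf h1 a b hab
    simp only [ext]
    split_ifs with ha hb hb
    · exact hf (Fin.mk_le_mk.2 hab)
    · exact h1 _
    · omega
    · exact le_rfl
  have hext0 : ∀ f : Fin (n + 1) → ℝ, (∀ i, 0 ≤ f i) → ∀ l, 0 ≤ ext f l := by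
    intro f hf l
    simp only [ext]
    split_ifs
    · exact hf _
    · exact zero_le_one
  have hext1 : ∀ f : Fin (n + 1) → ℝ, (∀ i, f i ≤ 1) → ∀ l, ext f l ≤ 1 := by
    intro f hf l
    simp only [ext]
    split_ifs
    · exact hf _
    · exact le_rfl
  have hsumext : ∀ g : ℕ → ℝ, ∀ f : Fin (n + 1) → ℝ, (∀ i : Fin (n + 1), g i = f i) →
      ∑ i : Fin (n + 1), f i = ∑ l ∈ range (n + 1), g l := by
    intro g f h
    rw [← Fin.sum_univ_eq_sum_range]
    exact sum_congr rfl fun i _ => (h i).symm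
  have hmain := l1_of_tails (M := M) (r := r) (P := ext P) (p := ext p) (hext_mono P hP hP1)
    (hext_mono p hp hp1) (hext0 P hP0) (hext1 P hP1) (hext0 p hp0) (hext1 p hp1)
    (e := ((n:ℝ) + 1) * e) (by positivity) (fun q hq1 hqM => by
      have h1 := hT q hq1 hqM
      have h2 : ∑ i : Fin (n + 1), (if q * r ≤ (i : ℕ) then
          ((n : ℝ) + 1)⁻¹ * (P i - p i) else 0) =
          ((n : ℝ) + 1)⁻¹ * ∑ l ∈ Ico (q * r) (M * r), (ext P l - ext p l) := by
        rw [hsumext (fun l => if q * r ≤ l then ((n : ℝ) + 1)⁻¹ * (ext P l - ext p l) else 0) _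
          (fun i => by simp only [hextv]), ← sum_filter, ← mul_sum]
        congr 1
        refine sum_congr ?_ fun _ _ => rfl
        ext l
        rw [mem_filter, mem_range, mem_Ico, hn]
        tauto
      rw [h2, abs_mul, abs_of_pos (inv_pos.2 hn0)] at h1
      rw [inv_mul_le_iff₀ hn0] at h1
      exact h1)
  have h3 : ∑ i : Fin (n + 1), ((n : ℝ) + 1)⁻¹ * |P i - p i| =
      ((n : ℝ) + 1)⁻¹ * ∑ l ∈ range (M * r), |ext P l - ext p l| := by
    rw [← mul_sum, ← hn]
    congr 1
    exact hsumext (fun l => |ext P l - ext p l|) _ (fun i => by simp only [hextv])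
  rw [h3]
  have h4 := mul_le_mul_of_nonneg_left hmain (inv_pos.2 hn0).le
  refine h4.trans (le_of_eq ?_)
  rw [← hMr]
  have hr0 : (r:ℝ) ≠ 0 := by
    intro h
    rw [h, mul_zero] at hMr
    linarith
  field_simp

end Crest.Agent.R164.LL1
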