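import Crest.Agent.R164.LEnd
import Crest.Agent.R164.LL1
import Crest.Agent.R164.FieldGroup

/-!
Row 164, L side (helper893): from the numbers of the selected system (truncated cavity free
energies, derivatives, overlaps) to the critical structure, and to the contradiction.
-/

set_option autoImplicit false

namespace Crest.Agent.R164.LF

open MeasureTheory Set Filter Topology
open Crest.ProbabilityR.InvariantGlass
open Crest.Agent.R164.GC Crest.Agent.R164.PAlg Crest.Agent.R164.Mag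
open Crest.Agent.R164.RTrans Crest.Agent.R164.Atomic

noncomputable section

/-- the field path of the main fields with strengths `a q`, `1 ≤ q < M`, placed at `q r` -/
def VV (M r : ℕ) {m : ℕ} (a : ℕ → ℝ) (i : Fin (m + 1)) : ℝ :=
  ∑ q ∈ Finset.Ico 1 M, if q * r ≤ (i : ℕ) then a q ^ 2 else 0

/-- chain value: `ℓ_b(h) + h_last / 2` for `h = hh + V` -/
def ch {m : ℕ} (wd h : Fin (m + 1) → ℝ) (b : ℝ) (V : Fin (m + 1) → ℝ) : ℝ :=
  fieldValueAt b wd (fun i => h i + V i) + 1 / 2 * (h (Fin.last m) + V (Fin.last m))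

/-- **(TB)** the tangent inequality in one field strength (helper92). -/
def TB : Prop := ∀ (m : ℕ) (wd hv : Fin (m + 1) → ℝ) (i0 : ℕ) (a y : ℝ), 0 < a → 0 ≤ a + y →
  i0 ≤ m → IsStepField wd hv →
  IsStepField wd (fun i => hv i - if i0 ≤ (i : ℕ) then a ^ 2 else 0) → ∀ b,
  (fieldValueAt b wd hv + 1 / 2 * hv (Fin.last m)) +
      y * (a * (1 - ∑ i : Fin (m + 1), if i0 ≤ (i : ℕ) then wd i * pAt b wd hv i else 0)) ≤
    fieldValueAt b wd (fun i => hv i + if i0 ≤ (i : ℕ) then (a + y) ^ 2 - a ^ 2 else 0) +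
      1 / 2 * (hv (Fin.last m) + ((a + y) ^ 2 - a ^ 2))

theorem VV_mono (M r : ℕ) {m : ℕ} (a : ℕ → ℝ) : Monotone (VV M r a : Fin (m + 1) → ℝ) := by
  intro i i' hi
  unfold VV
  refine Finset.sum_le_sum fun q _ => ?_
  have : (i : ℕ) ≤ (i' : ℕ) := hi
  split_ifs with h1 h2
  · exact le_rfl
  · omega
  · exact sq_nonneg _
  · exact le_rfl

theorem VV_nonneg (M r : ℕ) {m : ℕ} (a : ℕ → ℝ) (i : Fin (m + 1)) : 0 ≤ VV M r a i := by
  unfold VV
  refine Finset.sum_nonneg fun q _ => ?_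
  split_ifs
  · exact sq_nonneg _
  · exact le_rfl

theorem VV_update (M r : ℕ) {m : ℕ} (a : ℕ → ℝ) {q : ℕ} (hq : q ∈ Finset.Ico 1 M) (x : ℝ)
    (i : Fin (m + 1)) :
    VV M r (Function.update a q x) i =
      VV M r a i + if q * r ≤ (i : ℕ) then x ^ 2 - a q ^ 2 else 0 := by
  unfold VV
  rw [← Finset.add_sum_erase _ _ hq, ← Finset.add_sum_erase _ _ hq, Function.update_self]
  have : ∀ q' ∈ (Finset.Ico 1 M).erase q, (if q' * r ≤ (i : ℕ) then
      Function.update a q x q' ^ 2 else 0) = if q' * r ≤ (i : ℕ) then a q' ^ 2 else 0 := by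
    intro q' hq'
    rw [Function.update_of_ne (Finset.ne_of_mem_erase hq')]
  rw [Finset.sum_congr rfl this]
  split_ifs <;> ring

/-- the elementary contact argument -/
theorem contact_num {T g' fp f0 fm gp g0 gm y dl e2 : ℝ} (hy : 0 < y)
    (hp : |fp - gp| ≤ dl) (h0 : |f0 - g0| ≤ dl) (hm : |fm - gm| ≤ dl)
    (hTp : |fp - f0 - y * T| ≤ e2) (hTm : |fm - f0 - -y * T| ≤ e2)
    (hgp : g0 + y * g' ≤ gp) (hgm : g0 + -y * g' ≤ gm) :
    |T - g'| ≤ (2 * dl + e2) / y := by
  have a1 := abs_le.1 hp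
  have a2 := abs_le.1 h0
  have a3 := abs_le.1 hm
  have a4 := abs_le.1 hTp
  have a5 := abs_le.1 hTm
  rw [le_div_iff₀ hy]
  rcases le_total 0 (T - g') with h | h
  · rw [abs_of_nonneg h]; nlinarith
  · rw [abs_of_nonpos h]; nlinarith

end

end Crest.Agent.R164.LF
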