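import Crest.Agent.R164.GEx3
import Crest.Agent.R164.ClipG11
import Crest.Agent.R164.EDa

/-!
Row 164, L side, (GL5) (helper716): the coarse nested Gaussian value of the truncated weight is the
exact value up to `ε`.
-/

set_option autoImplicit false

namespace Crest.Agent.R164.LLimB

open MeasureTheory ProbabilityTheory Finset
open Crest.Agent.R164.CavG (gm gstep th gval th_zero th_succ vC vv)
open Crest.Agent.R141.Fact (ySk ySk_zero)
open Crest.Agent.R164.EG
open Crest.Agent.R164.PAlg Crest.Agent.R164.Atomic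
open Crest.Agent.R164.SDAlg (gap Ghat StepD wdOf pOf)
open Crest.Agent.R164.GEx (BM cb cfErr coarse_fine_vC cfErr_tendsto)
open Crest.Agent.R164.ClipG (Trunc uniform_trunc)

noncomputable section

/-! ### change of the index type -/

section reindex

variable {ι ι' : Type*} [Fintype ι] [Fintype ι']

theorem integral_gm_reindex (e : ι ≃ ι') (F : (ι' → ℝ) → ℝ) :
    ∫ g, F g ∂(gm ι') = ∫ g, F (fun i' => g (e.symm i')) ∂(gm ι) := by
  have h := measurePreserving_piCongrLeft (fun _ : ι' => gaussianReal 0 1) e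
  rw [← h.integral_comp (MeasurableEquiv.measurableEmbedding _)]
  refine integral_congr_ae (Filter.Eventually.of_forall fun g => ?_)
  show F _ = F _
  congr 1
  funext i'
  obtain ⟨i, rfl⟩ := e.surjective i'
  rw [MeasurableEquiv.piCongrLeft_apply_apply, Equiv.symm_apply_apply]

theorem gstep_reindex (e : ι ≃ ι') (y : ℝ) (v : ι' → ℝ) (f : (ι' → ℝ) → ℝ) (z : ι' → ℝ) :
    gstep y v f z = gstep y (fun i => v (e i)) (fun x => f (fun i' => x (e.symm i')))
      (fun i => z (e i)) := by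
  unfold gstep
  rw [integral_gm_reindex e]
  simp only [Equiv.apply_symm_apply]

theorem th_reindex (e : ι ≃ ι') (y : ℕ → ℝ) (v : ℕ → ι' → ℝ) (w : (ι' → ℝ) → ℝ) (n : ℕ) :
    ∀ z : ι' → ℝ, th y v w n z = th y (fun n i => v n (e i)) (fun x => w (fun i' => x (e.symm i'))) n
      (fun i => z (e i)) := by
  induction n with
  | zero =>
    intro z
    rw [th_zero, th_zero]
    simp only [Equiv.apply_symm_apply]
  | succ n ih =>
    intro z
    rw [th_succ, th_succ, gstep_reindex e]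
    congr 1
    funext x
    rw [ih]
    simp only [Equiv.symm_apply_apply]

theorem gval_reindex (e : ι ≃ ι') (J : ℕ) (y : ℕ → ℝ) (v : ℕ → ι' → ℝ) (w : (ι' → ℝ) → ℝ) :
    gval J y v w =
      gval J y (fun n i => v n (e i)) (fun x => w (fun i' => x (e.symm i'))) := by
  unfold gval
  rw [integral_gm_reindex e]
  refine integral_congr_ae (Filter.Eventually.of_forall fun g => ?_)
  show th _ _ _ _ _ = th _ _ _ _ _
  rw [th_reindex e]
  simp only [Equiv.symm_apply_apply]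

end reindex

/-- `Option β ≃ Unit ⊕ β` -/
def so (β : Type*) : Option β ≃ Unit ⊕ β where
  toFun o := o.elim (Sum.inl ()) Sum.inr
  invFun := Sum.elim (fun _ => none) some
  left_inv := by rintro (_ | k) <;> rfl
  right_inv := by rintro (_ | k) <;> rfl

variable {K : ℕ}

/-- the leaf weight, on `Unit ⊕ Fin (K + 1)` : `inl ()` = label field, `inr k` = block fields. -/
def WS (w val : Fin (K + 1) → ℝ) (b : ℝ) (l : Fin (K + 1)) (z : Unit ⊕ Fin (K + 1) → ℝ) : ℝ :=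
  WF w val b l (fun o => z (so _ o))

/-- explicit formula -/
theorem WS_eq {w val : Fin (K + 1) → ℝ} (b : ℝ) (l : Fin (K + 1))
    (z : Unit ⊕ Fin (K + 1) → ℝ) :
    WS w val b l z = Real.log ((1 / 2) *
      (Real.exp ((1 - ∑ k, z (Sum.inr k)) * (∑ k, val k * z (Sum.inr k)) +
          (1 / 2) * (1 - ∑ k, z (Sum.inr k)) ^ 2 * m1 w val +
          (1 / 2) * val l * (∑ k, z (Sum.inr k)) ^ 2 + b + z (Sum.inl ())) +
        Real.exp ((-1 - ∑ k, z (Sum.inr k)) * (∑ k, val k * z (Sum.inr k)) +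
          (1 / 2) * (-1 - ∑ k, z (Sum.inr k)) ^ 2 * m1 w val +
          (1 / 2) * val l * (∑ k, z (Sum.inr k)) ^ 2 - b - z (Sum.inl ())))) := by
  unfold WS
  rw [WF_eq]
  rfl

theorem measurable_WS (w val : Fin (K + 1) → ℝ) (b : ℝ) (l : Fin (K + 1)) :
    Measurable (WS w val b l) := by
  unfold WS
  exact (Crest.Agent.R164.ClipG.meas_WF b l).comp
    (measurable_pi_lambda _ fun o => measurable_pi_apply _)

/-- helper562's truncation -/
theorem trunc_psi {Kc : ℝ} (hK : 0 < Kc) : Trunc Kc (Kc + 1) (ED.psi Kc) :=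
  Trunc.of_mono hK (ED.psi_monotone hK.le)
    (fun x => by
      have h := ED.psi_lipschitz hK.le 0 x
      have h0 : ED.psi Kc 0 = 0 := ED.psi_of_abs_le (by rw [abs_zero]; exact hK.le)
      rwa [h0, sub_zero, sub_zero] at h)
    (fun x hx => ED.psi_of_abs_le hx) (ED.abs_psi_le hK.le)

/-- the coarse covariances -/
def Qc (w val : Fin (K + 1) → ℝ) (n q : ℕ) (p : ℕ → ℝ) (i : ℕ) (k : Fin (K + 1)) : ℝ :=
  w k * Ghat w (gap val 1) (n + 1) (fun a => (a : ℝ) / ((n : ℝ) + 1)) p k (n + 1 - q * i)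

/-- the exact value -/
def ExV (w val : Fin (K + 1) → ℝ) (n : ℕ) (p vy : ℕ → ℝ) (b : ℝ) (l : Fin (K + 1)) : ℝ :=
  CC w val (wdOf n fun a => (a : ℝ) / ((n : ℝ) + 1)) (pOf n p) l + vy 0 / 2 +
    chainV b (wdOf n fun a => (a : ℝ) / ((n : ℝ) + 1)) (fun i =>
      hh w val (wdOf n fun a => (a : ℝ) / ((n : ℝ) + 1)) (pOf n p) i + Hl n vy i)

section main

variable {w val : Fin (K + 1) → ℝ} (hv : StrictMono val) (hw : ∀ k, 0 < w k) (hs : ∑ k, w k = 1)
include hv hw hs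

omit hs in
theorem Ghat_step_nonneg {n : ℕ} {m p : ℕ → ℝ} (h : StepD n m p) {a : ℕ} (ha : a < n)
    (k : Fin (K + 1)) :
    Ghat w (gap val 1) n m p k a ≤ Ghat w (gap val 1) n m p k (a + 1) := by
  have hd := SDAlg.gap_nonneg hv zero_le_one
  unfold Ghat
  rw [sum_range_succ, ← add_assoc]
  refine le_add_of_nonneg_right (mul_nonneg (sub_nonneg.2 (h.pmono a ha)) ?_)
  exact (SDAlg.ww_pos hw hd (SDAlg.tau_nonneg _ _ _) (SDAlg.tau_nonneg _ _ _) k).le

omit hs in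
theorem Ghat_zero_nonneg {n : ℕ} {m p : ℕ → ℝ} (h : StepD n m p) (k : Fin (K + 1)) :
    0 ≤ Ghat w (gap val 1) n m p k 0 := by
  have hd := SDAlg.gap_nonneg hv zero_le_one
  unfold Ghat
  rw [range_zero, sum_empty, add_zero]
  exact mul_nonneg h.p0
    (SDAlg.ww_pos hw hd (SDAlg.tau_nonneg _ _ _) (SDAlg.tau_nonneg _ _ _) k).le

omit hs in
theorem Ghat_nonneg {n : ℕ} {m p : ℕ → ℝ} (h : StepD n m p) (k : Fin (K + 1)) :
    ∀ a, a ≤ n → 0 ≤ Ghat w (gap val 1) n m p k a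
  | 0, _ => Ghat_zero_nonneg hv hw h k
  | a + 1, ha => (Ghat_nonneg h k a (by omega)).trans (Ghat_step_nonneg hv hw h (by omega) k)

/-- **(GL5)**: coarse value of the truncated weight = exact value, up to `ε`. -/
theorem coarse_exact (B V : ℝ) {ε : ℝ} (hε : 0 < ε) : ∃ K0 : ℝ, 0 < K0 ∧
    ∀ (Kc C : ℝ), K0 ≤ Kc → Kc ≤ C → ∀ ψ : ℝ → ℝ, Trunc Kc C ψ → ∃ J0 : ℕ, ∀ J, J0 ≤ J →
    ∀ (q n : ℕ), 0 < q → n + 1 = q * (J + 1) → ∀ p : ℕ → ℝ,
    StepD (n + 1) (fun a => (a : ℝ) / ((n : ℝ) + 1)) p → p 0 < 1 →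
    ∀ vy : ℕ → ℝ, (∀ m, 0 ≤ vy m) → ∑ m ∈ range (n + 2), vy m ≤ V →
    ∀ b : ℝ, |b| ≤ B → ∀ l : Fin (K + 1),
    |gval J (ySk J) (vC J (Qc w val n q p) (cb J q vy)) (fun z => ψ (WS w val b l z)) -
      ExV w val n p vy b l| ≤ ε := by
  obtain ⟨K0, hK0, hmain⟩ := uniform_trunc hv hw hs B V (half_pos hε)
  refine ⟨K0, hK0, ?_⟩
  intro Kc C hKc hC ψ T
  have hC0 : 0 < C := by linarith
  have hJ := (cfErr_tendsto C).eventually (gt_mem_nhds (half_pos hε))
  obtain ⟨J0, hJ0⟩ := Filter.eventually_atTop.1 hJ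
  refine ⟨J0 + 1, ?_⟩
  intro J hJ1 q n hq hn p h hp0 vy hvy hV b hb l
  have hJp : 0 < J := by omega
  -- the fine covariances
  set Qf : ℕ → Fin (K + 1) → ℝ := fun i k =>
    w k * Ghat w (gap val 1) (n + 1) (fun a => (a : ℝ) / ((n : ℝ) + 1)) p k (n + 1 - i) with hQf
  have hBM : BM C (fun z : Unit ⊕ Fin (K + 1) → ℝ => ψ (WS w val b l z)) :=
    ⟨T.meas.comp (measurable_WS w val b l), fun z => abs_le.2 ⟨T.bd _, (T.up _).trans
      (max_le (min_le_right _ _) (by linarith))⟩⟩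
  -- monotonicity of `Ghat`
  have hQm : ∀ m k, m ≤ n → Qf (m + 1) k ≤ Qf m k := by
    intro m k hm
    have e : n + 1 - m = (n + 1 - (m + 1)) + 1 := by omega
    simp only [hQf]
    rw [e]
    exact mul_le_mul_of_nonneg_left (Ghat_step_nonneg hv hw h (by omega) k) (hw k).le
  have hQ0 : ∀ k, 0 ≤ Qf (n + 1) k := fun k =>
    mul_nonneg (hw k).le (Ghat_nonneg hv hw h k _ (by omega))
  have h1 := coarse_fine_vC hBM (J := J) (q := q) (n := n) hq hJp hn hQ0 hQm hvy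
  have h2 := hmain Kc C hKc hC ψ T n (fun a => (a : ℝ) / ((n : ℝ) + 1)) p h hp0 (ySk n) vy
    (fun i o => vC n Qf vy i (so _ o)) ?_ (fun i _ => hvy i) (fun i _ => rfl) ?_ ?_ hV b hb l
  · have e := gval_reindex (so (Fin (K + 1))) n (ySk n) (vC n Qf vy) (fun z => ψ (WS w val b l z))
    have e3 : (fun x : Option (Fin (K + 1)) → ℝ =>
        ψ (WS w val b l fun i' => x ((so (Fin (K + 1))).symm i'))) =
        fun x => ψ (WF w val b l x) := by
      funext x
      unfold WS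
      simp only [Equiv.symm_apply_apply]
    rw [e3] at e
    rw [← e] at h2
    have h3 := hJ0 J (by omega)
    have h1' := abs_le.1 h1
    have h2' := abs_le.1 h2
    refine abs_le.2 ?_
    unfold ExV
    show _ ≤ gval J (ySk J) (vC J (fun i => Qf (q * i)) (cb J q vy)) _ - _ ∧
      gval J (ySk J) (vC J (fun i => Qf (q * i)) (cb J q vy)) _ - _ ≤ _
    constructor <;> linarith [h1'.1, h1'.2, h2'.1, h2'.2]
  · intro i hi
    unfold ySk
    rw [Nat.cast_sub (by omega)]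
    push_cast
    ring
  · intro i hi k
    show (if i ≤ n then Qf i k - Qf (i + 1) k else Qf i k) = _
    rw [if_pos hi]
    simp only [hQf]
    rw [show n + 1 - (i + 1) = n - i by omega]
  · intro k
    show (if n + 1 ≤ n then _ else Qf (n + 1) k) = _
    rw [if_neg (by omega)]
    simp only [hQf, Nat.sub_self]

/-- form with helper562's truncation -/
theorem coarse_exact_psi (B V : ℝ) {ε : ℝ} (hε : 0 < ε) : ∃ K0 : ℝ, 0 < K0 ∧
    ∀ Kc : ℝ, K0 ≤ Kc → ∃ J0 : ℕ, ∀ J, J0 ≤ J →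
    ∀ (q n : ℕ), 0 < q → n + 1 = q * (J + 1) → ∀ p : ℕ → ℝ,
    StepD (n + 1) (fun a => (a : ℝ) / ((n : ℝ) + 1)) p → p 0 < 1 →
    ∀ vy : ℕ → ℝ, (∀ m, 0 ≤ vy m) → ∑ m ∈ range (n + 2), vy m ≤ V →
    ∀ b : ℝ, |b| ≤ B → ∀ l : Fin (K + 1),
    |gval J (ySk J) (vC J (Qc w val n q p) (cb J q vy)) (fun z => ED.psi Kc (WS w val b l z)) -
      ExV w val n p vy b l| ≤ ε := by
  obtain ⟨K0, hK0, hmain⟩ := coarse_exact hv hw hs B V hε
  exact ⟨K0, hK0, fun Kc hKc => hmain Kc (Kc + 1) hKc (by linarith) (ED.psi Kc)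
    (trunc_psi (by linarith))⟩

section Q

variable {J q n : ℕ} (hn : n + 1 = q * (J + 1)) {p : ℕ → ℝ}
  (h : StepD (n + 1) (fun a => (a : ℝ) / ((n : ℝ) + 1)) p)
include h

omit hs in
theorem Qc_nonneg (i : ℕ) (k : Fin (K + 1)) : 0 ≤ Qc w val n q p i k :=
  mul_nonneg (hw k).le (Ghat_nonneg hv hw h k _ (by omega))

omit hs in
theorem Ghat_mono {a b : ℕ} (hab : a ≤ b) (hb : b ≤ n + 1) (k : Fin (K + 1)) :
    Ghat w (gap val 1) (n + 1) (fun a => (a : ℝ) / ((n : ℝ) + 1)) p k a ≤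
      Ghat w (gap val 1) (n + 1) (fun a => (a : ℝ) / ((n : ℝ) + 1)) p k b := by
  induction b, hab using Nat.le_induction with
  | base => exact le_rfl
  | succ b hab ih => exact (ih (by omega)).trans (Ghat_step_nonneg hv hw h (by omega) k)

omit hs in
theorem Qc_anti (i : ℕ) (k : Fin (K + 1)) : Qc w val n q p (i + 1) k ≤ Qc w val n q p i k := by
  unfold Qc
  refine mul_le_mul_of_nonneg_left (Ghat_mono hv hw h ?_ (by omega) k) (hw k).le
  have : q * i ≤ q * (i + 1) := Nat.mul_le_mul_left q (by omega)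
  omega

omit hs in
theorem sum_Qc_zero : ∑ k, Qc w val n q p 0 k = 1 := by
  unfold Qc
  rw [mul_zero, Nat.sub_zero, Crest.Agent.R164.ClipG.sum_Ghat hv hw, h.pn]

end Q

/-- average over the eigenvalue label of the new row -/
theorem avg_ExV {n : ℕ} {p vy : ℕ → ℝ}
    (h : StepD (n + 1) (fun a => (a : ℝ) / ((n : ℝ) + 1)) p) (hp0 : p 0 < 1) (b : ℝ) :
    ∑ l, w l * ExV w val n p vy b l =
      Crest.ProbabilityR.InvariantGlass.spectralPart (atomic w val) (val (Fin.last K))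
        (Crest.ProbabilityR.InvariantGlass.stepFn (wdOf n fun a => (a : ℝ) / ((n : ℝ) + 1))
          (pOf n p)) +
      1 / 2 * ∑ i, wdOf n (fun a => (a : ℝ) / ((n : ℝ) + 1)) i *
        (pOf n p i * hh w val (wdOf n fun a => (a : ℝ) / ((n : ℝ) + 1)) (pOf n p) i) +
      1 / 2 * ∑ m ∈ range (n + 2), vy m +
      Crest.ProbabilityR.InvariantGlass.fieldValueAt b
        (wdOf n fun a => (a : ℝ) / ((n : ℝ) + 1)) (fun i =>
          hh w val (wdOf n fun a => (a : ℝ) / ((n : ℝ) + 1)) (pOf n p) i + Hl n vy i) := by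
  have hD : 0 < Dd (wdOf n fun a => (a : ℝ) / ((n : ℝ) + 1)) (pOf n p) 0 :=
    Dd_pos (SDAlg.wdOf_pos h) (SDAlg.wdOf_sum h) (SDAlg.pOf_mono h) (SDAlg.pOf_le_one h)
      (by simpa [pOf] using hp0)
  have h1 := sum_CC hv hw hs (SDAlg.wdOf_pos h) (SDAlg.wdOf_sum h) (SDAlg.pOf_mono h)
    (SDAlg.pOf_nonneg h) (SDAlg.pOf_le_one h) hD
  unfold ExV
  simp only [mul_add]
  rw [sum_add_distrib, sum_add_distrib, ← sum_mul, ← sum_mul, hs, one_mul, one_mul, h1,
    fieldValueAt_eq_chainV]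
  have e : Hl n vy (Fin.last n) = ∑ m ∈ range (n + 2), vy m - vy 0 := by
    unfold Hl
    rw [Fin.val_last, show n + 1 - n = 1 by omega, sum_range_succ' vy (n + 1), add_sub_cancel_right,
      range_eq_Ico, sum_Ico_add' (fun m => vy m) 0 (n + 1) 1]
    rfl
  simp only [e]
  ring

end main

theorem cb_nonneg {J q : ℕ} {bv : ℕ → ℝ} (h : ∀ m, 0 ≤ bv m) (j : ℕ) : 0 ≤ cb J q bv j := by
  unfold cb
  split_ifs
  · exact sum_nonneg fun _ _ => h _
  · exact h _

theorem cb_le {J q n : ℕ} (hn : n + 1 = q * (J + 1)) {bv : ℕ → ℝ} (h : ∀ m, 0 ≤ bv m) {V : ℝ}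
    (hV : ∑ m ∈ range (n + 2), bv m ≤ V) (j : ℕ) : cb J q bv j ≤ V := by
  refine le_trans ?_ hV
  unfold cb
  split_ifs with h1
  · have e : ∑ r ∈ range q, bv (q * j + r) = ∑ m ∈ (range q).map (addLeftEmbedding (q * j)), bv m := by
      rw [sum_map]; rfl
    rw [e]
    refine sum_le_sum_of_subset_of_nonneg ?_ fun _ _ _ => h _
    intro m hm
    rw [mem_map] at hm
    obtain ⟨r, hr, rfl⟩ := hm
    have hr' := mem_range.1 hr
    have h2 : q * j + q ≤ q * (J + 1) := by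
      rw [← Nat.mul_succ]; exact Nat.mul_le_mul_left q (by omega)
    rw [mem_range]
    show q * j + r < n + 2
    omega
  · rw [← hn]
    exact single_le_sum (f := bv) (fun m _ => h m) (mem_range.2 (by omega))

end

end Crest.Agent.R164.LLimB
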