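import Crest.Agent.R164.LStruct2C

/-!
# Row 164, module LSTRUCT-2, part D

Output for the L system in the names of `LDef` (helper893) and `OvSys` (helper278): the error
functional `Err`, its average over the grid, and what it controls.
-/

set_option autoImplicit false
set_option linter.unusedSectionVars false
set_option linter.unusedVariables false

namespace Crest.Agent.R164.LS2

open Finset MeasureTheory Crest.Agent.R141 Crest.Agent.R164 Crest.Agent.R164.ObsConc
open Crest.Agent.R164.G (Base prior_isProb)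
open Crest.Agent.R164.LGrid (gavg pt sh SD)
open Crest.Agent.R164.Haar (Mat RHaar)
open Crest.ProbabilityR.InvariantGlass (spinVec)

noncomputable section

variable {p : Par} {N K J : ℕ} {act : Finset (Fin p.nc)}
variable (n : ℕ) (val : Fin (K + 1) → ℝ) (c t : Fin J → ℝ) (Kp : ℝ)
  (kap : Fin N → Fin (K + 1)) (lab : Fin N → Fin J)

/-! ### Size of the free energy -/

theorem abs_Phi_le (hnb : p.nb = 0)
    (H : SY.SS p n (Finset.univ : Finset (Fin N → Bool)) → ℝ) {B : ℝ}
    (hH : ∀ s, |H s| ≤ B + 1 / 8 * CSys.Ts s) (d : DD p N) :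
    |G.Phi (LD.B p N n) H d| ≤ B + p.nc * p.T * p.τ + 2 * (N * p.nc) := by
  set Bs := LD.B p N n with hBs
  have hA := LD.univ_ne N
  have hP := G.prior_isProb Bs
  have hx := p.xs_expo
  have hF0 : (G.fil Bs).F 0 = ⊤ := SY.fil_zero hA
  set W0 : ℝ := p.nc * p.T * p.τ with hW0
  have hW00 : 0 ≤ W0 := by
    have := p.hτ0
    positivity
  have hNn : (0 : ℝ) ≤ N * p.nc := by positivity
  have hne : Nonempty (G.Om Bs) := inferInstance
  obtain ⟨ω⟩ := hne
  have hPhi : G.Phi Bs H d = A (G.prior Bs) (G.fil Bs) p.xs (G.UU Bs H d) 0 ω := by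
    unfold G.Phi
    rw [ObsConc.eE_eq_cE_top hF0 hP _ ω, cE_of_meas hP (A_meas hP hx.pos _ 0)]
  have hlog4 : Real.log 4 ≤ 2 := by
    have : Real.log 4 = 2 * Real.log 2 := by
      rw [show (4 : ℝ) = 2 ^ 2 by norm_num, Real.log_pow]; norm_num
    rw [this]
    have := Real.log_two_lt_d9
    linarith
  -- upper bound
  have h2 := A_le_log (𝓕 := G.fil Bs) hP hx (G.UU Bs H d) 0 ω
  rw [ObsConc.cE_top hF0 hP] at h2
  have h3 : eE (G.prior Bs) (fun w => Real.exp (G.UU Bs H d w)) ≤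
      Real.exp (B + W0) * (4 : ℝ) ^ (N * p.nc) := by
    have e : ∀ w : G.Om Bs, Real.exp (G.UU Bs H d w) ≤
        Real.exp (B + W0) * Real.exp (1 / 4 * CSys.Ts w.1) := by
      intro w
      rw [← Real.exp_add]
      apply Real.exp_le_exp.mpr
      unfold G.UU
      have h4 := (abs_le.mp (hH w.1)).2
      have h5 := (CSys.WW_bounds hA hnb d w).2
      have h6 := CSys.Ts_nonneg w.1
      linarith
    refine (eE_mono hP e).trans ?_
    rw [eE_smul, CSys.eE_prior_base hA (fun s => Real.exp (1 / 4 * CSys.Ts s))]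
    exact mul_le_mul_of_nonneg_left (CSys.sum_SS_exp hA) (Real.exp_pos _).le
  have hpos : 0 < eE (G.prior Bs) (fun w => Real.exp (G.UU Bs H d w)) :=
    Finset.sum_pos (fun w _ => mul_pos (hP.pos w) (Real.exp_pos _)) ⟨ω, Finset.mem_univ _⟩
  have h4 : Real.log (eE (G.prior Bs) (fun w => Real.exp (G.UU Bs H d w))) ≤
      B + W0 + 2 * (N * p.nc) := by
    refine (Real.log_le_log hpos h3).trans ?_
    rw [Real.log_mul (Real.exp_pos _).ne' (by positivity), Real.log_exp, Real.log_pow]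
    push_cast
    nlinarith
  -- lower bound
  have h5 := cE_le_A (𝓕 := G.fil Bs) hP hx.pos (G.UU Bs H d) 0 ω
  rw [ObsConc.cE_top hF0 hP] at h5
  have h6 : -(B + 1 / 8 * eE (G.prior Bs) (fun w => CSys.Ts w.1)) ≤
      eE (G.prior Bs) (G.UU Bs H d) := by
    have e : ∀ w : G.Om Bs, -(B + 1 / 8 * CSys.Ts w.1) ≤ G.UU Bs H d w := by
      intro w
      unfold G.UU
      have h7 := (abs_le.mp (hH w.1)).1
      have h8 := (CSys.WW_bounds hA hnb d w).1
      linarith
    have := eE_mono hP e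
    refine le_trans (le_of_eq ?_) this
    have e2 : (fun w : G.Om Bs => -(B + 1 / 8 * CSys.Ts w.1)) =
        fun w => (-B) + (-(1 / 8)) * CSys.Ts w.1 := by funext w; ring
    rw [e2, eE_add, eE_smul, eE_const hP]; ring
  have h7 : 1 / 4 * eE (G.prior Bs) (fun w => CSys.Ts w.1) ≤ 2 * (N * p.nc) := by
    have hJ : Real.exp (1 / 4 * eE (G.prior Bs) (fun w => CSys.Ts w.1)) ≤
        (4 : ℝ) ^ (N * p.nc) := by
      have h8 := exp_cE_le hP (⊤ : Setoid (G.Om Bs)) (fun w => 1 / 4 * CSys.Ts w.1) ω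
      rw [eE_top hP, eE_top hP, eE_smul] at h8
      refine h8.trans ?_
      rw [CSys.eE_prior_base hA (fun s => Real.exp (1 / 4 * CSys.Ts s))]
      exact CSys.sum_SS_exp hA
    have h9 := Real.log_le_log (Real.exp_pos _) hJ
    rw [Real.log_exp, Real.log_pow] at h9
    push_cast at h9
    nlinarith
  rw [hPhi, abs_le]
  constructor <;> linarith

/-- the constant of the normalised free energy -/
def CF (p : Par) (val : Fin (K + 1) → ℝ) (c : Fin J → ℝ) (Kp R : ℝ) : ℝ :=
  (∑ k, |val k|) / 2 + (∑ j, |c j| + 4 * Kp + R) + 2 * p.nc * R ^ 2 + 2 * p.nc * R ^ 2 +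
    p.nc * p.T * p.τ + 2 * p.nc

variable {ν : Measure (Mat (Fin N))} [IsProbabilityMeasure ν]

/-- the averaged free energy in the names of `LDef`. -/
theorem FF_eq_EPh (ht : ∀ j, |t j| ≤ 1) (hKp : 0 ≤ Kp)
    (hν : ∀ᵐ U ∂ν, Matrix.of U ∈ Matrix.orthogonalGroup (Fin N) ℝ) (θ : Cd K J act → ℝ) :
    FF (LD.B p N n) ν (HF n val c t Kp kap lab θ) = LD.EPh ν n val c t Kp (prm act θ) kap lab := by
  have hH := adm_HF (act := act) val c t Kp ht hKp n kap lab hν θ
  have h1 : LD.EPh ν n val c t Kp (prm act θ) kap lab =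
      ∫ U, ∑ d, dw p N d * G.Phi (LD.B p N n) (LD.HL n val c t Kp (prm act θ) kap lab U) d ∂ν := rfl
  have hi : ∀ d : DD p N, Integrable
      (fun U => G.Phi (LD.B p N n) (LD.HL n val c t Kp (prm act θ) kap lab U) d) ν :=
    fun d => hH.int_Phi d
  rw [h1, integral_finsetSum _ fun d _ => (hi d).const_mul _]
  simp only [integral_const_mul]
  rfl

theorem abs_FF_le (hnb : p.nb = 0) (hN : 0 < N) (ht : ∀ j, |t j| ≤ 1) (hKp : 0 ≤ Kp)
    (hν : ∀ᵐ U ∂ν, Matrix.of U ∈ Matrix.orthogonalGroup (Fin N) ℝ) {θ : Cd K J act → ℝ}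
    {R : ℝ} (hR0 : 0 ≤ R) (hR : ∀ x, |θ x| ≤ R) :
    |FF (LD.B p N n) ν (HF n val c t Kp kap lab θ)| ≤ CF p val c Kp R * N := by
  have hH := adm_HF (act := act) val c t Kp ht hKp n kap lab hν θ
  have hp := prm_bdd hR0 hR
  have hN1 : (1 : ℝ) ≤ N := by exact_mod_cast hN
  have hW00 : (0 : ℝ) ≤ p.nc * p.T * p.τ := by
    have := p.hτ0
    positivity
  have key : ∀ d, ∀ᵐ U ∂ν, |G.Phi (LD.B p N n) (HF n val c t Kp kap lab θ U) d| ≤
      CF p val c Kp R * N := by
    intro d
    filter_upwards [hν] with U hU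
    have h1 := abs_Phi_le (p := p) (N := N) n hnb (HF n val c t Kp kap lab θ U)
      (B := ((∑ k, |val k|) / 2 + (∑ j, |c j| + 4 * Kp + R) + 2 * p.nc * R ^ 2 +
        2 * p.nc * R ^ 2) * N) (fun s => ?_) d
    · refine h1.trans ?_
      unfold CF
      nlinarith
    · rw [HF_eq_HU]
      exact CSys.abs_HU_le (n := n) (A := (Finset.univ : Finset (Fin N → Bool)))
        (fun i => val (kap i)) 1 _ _ _ (fun i => val_le val _) (by norm_num)
        (fun i g => hp.2.2 _ _) (fun i g => hp.2.1 _ _)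
        (fun σ => abs_VL_le c t Kp ht hKp hp.1 σ) hU s
  have h1 : FF (LD.B p N n) ν (HF n val c t Kp kap lab θ) ≤ CF p val c Kp R * N := by
    unfold FF
    refine (dv_mono_ae (fun d => hH.int_Phi d) (fun d => integrable_const _)
      (fun d => (key d).mono fun U h => (le_abs_self _).trans h)).trans_eq ?_
    exact dv_const hN _
  have h2 : -(CF p val c Kp R * N) ≤ FF (LD.B p N n) ν (HF n val c t Kp kap lab θ) := by
    unfold FF
    refine le_trans (le_of_eq ?_) (dv_mono_ae (f := fun _ _ => -(CF p val c Kp R * N))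
      (fun d => integrable_const _) (fun d => hH.int_Phi d)
      (fun d => (key d).mono fun U h => by
        have := (abs_le.1 h).1
        linarith))
    exact (dv_const hN _).symm
  rw [abs_le]
  exact ⟨h2, h1⟩

/-! ### The error functional -/

variable {N' : ℕ}

/-- concentration errors of all directions at size `N`. -/
def ErrC (ν : Measure (Mat (Fin N))) (θ : Cd K J act → ℝ) : ℝ :=
  ∑ x : Cd K J act, cerr (LD.B p N n) ν (HF n val c t Kp kap lab θ) (Vd n kap lab x)

/-- the normalised mean of the direction `x` -/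
def mD (ν : Measure (Mat (Fin N))) (θ : Cd K J act → ℝ) (x : Cd K J act) : ℝ :=
  mN (LD.B p N n) ν (HF n val c t Kp kap lab θ) (Vd n kap lab x)

/-- differences of the normalised means of all directions at sizes `N` and `N + 1`. -/
def ErrM (ν : Measure (Mat (Fin N))) (ν' : Measure (Mat (Fin (N + 1)))) (k' : Fin (K + 1))
    (j' : Fin J) (θ : Cd K J act → ℝ) : ℝ :=
  ∑ x : Cd K J act, |mD n val c t Kp kap lab ν θ x -
    mD n val c t Kp (Fin.snoc kap k' : Fin (N + 1) → Fin (K + 1))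
      (Fin.snoc lab j' : Fin (N + 1) → Fin J) ν' θ x|

/-- the total error -/
def Err (ν : Measure (Mat (Fin N))) (ν' : Measure (Mat (Fin (N + 1)))) (θ : Cd K J act → ℝ) : ℝ :=
  ErrC n val c t Kp kap lab ν θ + ∑ k', ∑ j', ErrM n val c t Kp kap lab ν ν' k' j' θ

theorem ErrC_nonneg (θ : Cd K J act → ℝ) : 0 ≤ ErrC n val c t Kp kap lab ν θ :=
  Finset.sum_nonneg fun _ _ => cerr_nonneg _ _

theorem ErrM_nonneg (ν' : Measure (Mat (Fin (N + 1)))) (k' : Fin (K + 1)) (j' : Fin J)
    (θ : Cd K J act → ℝ) : 0 ≤ ErrM n val c t Kp kap lab ν ν' k' j' θ :=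
  Finset.sum_nonneg fun _ _ => abs_nonneg _

theorem Err_nonneg (ν' : Measure (Mat (Fin (N + 1)))) (θ : Cd K J act → ℝ) :
    0 ≤ Err n val c t Kp kap lab ν ν' θ :=
  add_nonneg (ErrC_nonneg _ _ _ _ _ _ _ _) (Finset.sum_nonneg fun _ _ =>
    Finset.sum_nonneg fun _ _ => ErrM_nonneg _ _ _ _ _ _ _ _ _ _ _)

theorem box_bdd {θ0 y : Cd K J act → ℝ} {I : ℕ} {R : ℝ}
    (h0 : ∀ x, |θ0 x| ≤ R) (h1 : ∀ x, |θ0 x + ((I : ℝ) + 1) * y x| ≤ R) {θ : Cd K J act → ℝ}
    (hθ : InBox θ0 y I θ) (x : Cd K J act) : |θ x| ≤ R := by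
  have a := abs_le.1 (h0 x)
  have b := abs_le.1 (h1 x)
  have c := hθ x
  rw [abs_le]
  constructor <;> linarith

/-- the bound of the grid average of the error -/
def ErrB (p : Par) (act : Finset (Fin p.nc)) (val : Fin (K + 1) → ℝ) (c : Fin J → ℝ)
    (Kp R ym C0 : ℝ) (I N : ℕ) : ℝ :=
  Fintype.card (Cd K J act) * (4 * (1 + CTR p val c Kp R) / I +
      (8 * (Real.sqrt (CVR p val c Kp R * N) + p.nc * p.T * p.τ) +
        Real.log 2 * ((p.nc : ℝ) + 1)) / (N * ym)) +
    (((K + 1 : ℕ) : ℝ) * J) * (Fintype.card (Cd K J act) * (2 * (1 + CTR p val c Kp R) / I +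
      2 * ((C0 + CF p val c Kp R) / N) / ym))

/-- **Average of the total error over the grid.** -/
theorem gavg_Err_le (hnb : p.nb = 0) (hN : 2 < N) (ht : ∀ j, |t j| ≤ 1) (hKp : 0 ≤ Kp)
    (hν : RHaar ν) {ν' : Measure (Mat (Fin (N + 1)))} [IsProbabilityMeasure ν'] (hν' : RHaar ν')
    {θ0 y : Cd K J act → ℝ} (hy : ∀ x, 0 < y x) {I : ℕ} (hI : 0 < I) {R : ℝ} (hR0 : 0 ≤ R)
    (h0 : ∀ x, |θ0 x| ≤ R) (h1 : ∀ x, |θ0 x + ((I : ℝ) + 1) * y x| ≤ R)
    {ym : ℝ} (hym : 0 < ym) (hym' : ∀ x, ym ≤ y x) {C0 : ℝ} (hC0 : 0 ≤ C0)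
    (hcr : ∀ θ : Cd K J act → ℝ, InBox θ0 y I θ → ∀ k' j',
      |LD.EPh ν' n val c t Kp (prm act θ) (Fin.snoc kap k' : Fin (N + 1) → Fin (K + 1))
        (Fin.snoc lab j' : Fin (N + 1) → Fin J) -
        LD.EPh ν n val c t Kp (prm act θ) kap lab| ≤ C0) :
    gavg I (fun i => Err n val c t Kp kap lab ν ν' (pt θ0 y i)) ≤
      ErrB p act val c Kp R ym C0 I N := by
  have hN0 : 0 < N := by omega
  have hNr : (0 : ℝ) < N := by exact_mod_cast hN0
  have hI' : (0 : ℝ) < I := by exact_mod_cast hI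
  have hbox : ∀ θ : Cd K J act → ℝ, InBox θ0 y I θ → ∀ x, |θ x| ≤ R := fun θ hθ x =>
    box_bdd h0 h1 hθ x
  have F := fam_L (act := act) val c t Kp ht hKp n kap lab hν.mem
  set L := 1 + CTR p val c Kp R with hL
  set fl := Real.sqrt (CVR p val c Kp R * N) + p.nc * p.T * p.τ with hfl
  have hfl0 : 0 ≤ 8 * fl + Real.log 2 * ((p.nc : ℝ) + 1) := by
    have h2 := p.hτ0
    have h3 := Real.log_pos one_lt_two
    rw [hfl]
    positivity
  have hLb : ∀ θ : Cd K J act → ℝ, InBox θ0 y I θ → ∀ x,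
      |mN (LD.B p N n) ν (HF n val c t Kp kap lab θ) (Vd n kap lab x)| ≤ L := fun θ hθ x =>
    mN_le val c t Kp hnb hN0 ht hKp hν.mem hR0 (hbox θ hθ) x
  have hflb : ∀ θ : Cd K J act → ℝ, InBox θ0 y I θ →
      fluc (B := LD.B p N n) ν (HF n val c t Kp kap lab θ) ≤ fl := fun θ hθ =>
    fluc_le val c t Kp hnb hN ht hKp hν hR0 (hbox θ hθ)
  unfold Err
  rw [LGrid.gavg_add]
  refine add_le_add ?_ ?_
  · unfold ErrC
    rw [LGrid.gavg_sum]
    calc ∑ x, gavg I (fun i => cerr (LD.B p N n) ν (HF n val c t Kp kap lab (pt θ0 y i))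
          (Vd n kap lab x))
        ≤ ∑ _x : Cd K J act, (4 * L / I + (8 * fl + Real.log 2 * ((p.nc : ℝ) + 1)) / (N * ym)) := by
          refine Finset.sum_le_sum fun x _ => ?_
          refine (gavg_cerr F hN0 hy hI hLb hflb x).trans ?_
          have : (8 * fl + Real.log 2 * ((p.nc : ℝ) + 1)) / (N * y x) ≤
              (8 * fl + Real.log 2 * ((p.nc : ℝ) + 1)) / (N * ym) :=
            div_le_div_of_nonneg_left hfl0 (by positivity)
              (mul_le_mul_of_nonneg_left (hym' x) hNr.le)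
          linarith
      _ = _ := by rw [Finset.sum_const, Finset.card_univ, nsmul_eq_mul]
  · rw [LGrid.gavg_sum]
    have key : ∀ k' j', gavg I (fun i => ErrM n val c t Kp kap lab ν ν' k' j' (pt θ0 y i)) ≤
        Fintype.card (Cd K J act) * (2 * L / I + 2 * ((C0 + CF p val c Kp R) / N) / ym) := by
      intro k' j'
      have F' := fam_L (act := act) (p := p) val c t Kp ht hKp n
        (Fin.snoc kap k' : Fin (N + 1) → Fin (K + 1))
        (Fin.snoc lab j' : Fin (N + 1) → Fin J) hν'.mem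
      have hCF0 : 0 ≤ CF p val c Kp R := by
        have h2 := p.hτ0
        have h3 : 0 ≤ ∑ k, |val k| := Finset.sum_nonneg fun _ _ => abs_nonneg _
        have h4 : 0 ≤ ∑ k, |c k| := Finset.sum_nonneg fun _ _ => abs_nonneg _
        unfold CF
        positivity
      have hε : ∀ θ : Cd K J act → ℝ, InBox θ0 y I θ →
          |phi (LD.B p N n) ν (HF n val c t Kp kap lab) θ -
            phi (LD.B p (N + 1) n) ν' (HF n val c t Kp
              (Fin.snoc kap k' : Fin (N + 1) → Fin (K + 1))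
              (Fin.snoc lab j' : Fin (N + 1) → Fin J)) θ| ≤ (C0 + CF p val c Kp R) / N := by
        intro θ hθ
        have e1 := hcr θ hθ k' j'
        rw [← FF_eq_EPh (act := act) n val c t Kp _ _ ht hKp hν'.mem θ,
          ← FF_eq_EPh (act := act) n val c t Kp _ _ ht hKp hν.mem θ] at e1
        have e2 := abs_FF_le (act := act) n val c t Kp kap lab hnb hN0 ht hKp hν.mem hR0
          (hbox θ hθ)
        unfold phi
        set a := FF (LD.B p N n) ν (HF n val c t Kp kap lab θ) with ha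
        set b := FF (LD.B p (N + 1) n) ν' (HF n val c t Kp
          (Fin.snoc kap k' : Fin (N + 1) → Fin (K + 1))
          (Fin.snoc lab j' : Fin (N + 1) → Fin J) θ) with hb
        have hN1 : (0 : ℝ) < (N : ℝ) + 1 := by positivity
        have e3 : (N : ℝ)⁻¹ * a - (((N + 1 : ℕ) : ℝ))⁻¹ * b =
            (((N : ℝ) + 1))⁻¹ * ((a - b) + (N : ℝ)⁻¹ * a) := by
          push_cast
          field_simp
          ring
        rw [e3, abs_mul, abs_of_pos (inv_pos.2 hN1), inv_mul_le_iff₀ hN1]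
        have e4 : |a - b| ≤ C0 := by rw [abs_sub_comm]; exact e1
        have e5 : |(N : ℝ)⁻¹ * a| ≤ CF p val c Kp R := by
          rw [abs_mul, abs_of_pos (inv_pos.2 hNr), inv_mul_le_iff₀ hNr]
          linarith
        have e6 : C0 + CF p val c Kp R ≤ ((N : ℝ) + 1) * ((C0 + CF p val c Kp R) / N) := by
          rw [mul_div_assoc', le_div_iff₀ hNr]
          nlinarith
        exact ((abs_add_le _ _).trans (add_le_add e4 e5)).trans e6
      unfold ErrM
      rw [LGrid.gavg_sum]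
      calc ∑ x, gavg I (fun i => |mD n val c t Kp kap lab ν (pt θ0 y i) x -
            mD n val c t Kp (Fin.snoc kap k' : Fin (N + 1) → Fin (K + 1))
              (Fin.snoc lab j' : Fin (N + 1) → Fin J) ν' (pt θ0 y i) x|)
          ≤ ∑ _x : Cd K J act, (2 * L / I + 2 * ((C0 + CF p val c Kp R) / N) / ym) := by
            refine Finset.sum_le_sum fun x _ => ?_
            refine (gavg_mN_compare F F' hy hI hLb hε x).trans ?_
            have : 2 * ((C0 + CF p val c Kp R) / N) / y x ≤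
                2 * ((C0 + CF p val c Kp R) / N) / ym :=
              div_le_div_of_nonneg_left (by positivity) hym (hym' x)
            linarith
        _ = _ := by rw [Finset.sum_const, Finset.card_univ, nsmul_eq_mul]
    calc ∑ k', gavg I (fun i => ∑ j', ErrM n val c t Kp kap lab ν ν' k' j' (pt θ0 y i))
        ≤ ∑ _k' : Fin (K + 1), (J : ℝ) * (Fintype.card (Cd K J act) *
            (2 * L / I + 2 * ((C0 + CF p val c Kp R) / N) / ym)) := by
          refine Finset.sum_le_sum fun k' _ => ?_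
          rw [LGrid.gavg_sum]
          refine (Finset.sum_le_sum fun j' _ => key k' j').trans (le_of_eq ?_)
          rw [Finset.sum_const, Finset.card_univ, nsmul_eq_mul, Fintype.card_fin]
      _ = _ := by
          rw [Finset.sum_const, Finset.card_univ, nsmul_eq_mul, Fintype.card_fin]
          ring

end

end Crest.Agent.R164.LS2
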