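import Crest.Agent.R164.LabAvg2

/-!
Row 164 (helper362): module LAB.  Two-sided transfer between i.i.d. labels (eigenvalue labels of the
rows AND group labels of the sites) and a deterministic sequence of labels with the right
proportions.
-/

set_option autoImplicit false

namespace Crest.Agent.R164.LabTr

open Finset MeasureTheory Filter Topology
open Crest.ProbabilityR.InvariantGlass
open Crest.Agent.R164.LabAvg
open Crest.Agent.R164.Haar (Mat RHaar lmul rmul)

noncomputable section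

variable {κ ι : Type*} [DecidableEq κ] [DecidableEq ι] {N : ℕ}

/-! ### Permutations of the sites -/

theorem rmul_prm (π : Equiv.Perm (Fin N)) (U : Mat (Fin N)) (i j : Fin N) :
    rmul (prm π) U i (π j) = U i j := by
  rw [Haar.rmul_apply]
  rw [Finset.sum_eq_single j]
  · simp [prm]
  · intro k _ hk
    have : π k ≠ π j := fun h => hk (π.injective h)
    simp [prm, this]
  · intro h; exact absurd (Finset.mem_univ _) h

theorem mulVec_rprm (π : Equiv.Perm (Fin N)) (U : Mat (Fin N)) (s : Fin N → ℝ) (i : Fin N) :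
    (Matrix.of (rmul (prm π) U)).mulVec s i = (Matrix.of U).mulVec (fun j => s (π j)) i := by
  unfold Matrix.mulVec dotProduct
  rw [← Equiv.sum_comp π]
  refine Finset.sum_congr rfl fun j _ => ?_
  show rmul (prm π) U i (π j) * s (π j) = U i j * s (π j)
  rw [rmul_prm]

theorem qd_rprm (π : Equiv.Perm (Fin N)) (eig : Fin N → ℝ) (U : Mat (Fin N)) (σ : Fin N → Bool) :
    Mag.qd eig (Matrix.of (rmul (prm π) U)) σ =
      Mag.qd eig (Matrix.of U) (fun i => σ (π i)) := by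
  unfold Mag.qd
  simp only [mulVec_rprm]
  rfl

theorem ZG_rprm (π : Equiv.Perm (Fin N)) (eig : Fin N → ℝ) (U : Mat (Fin N))
    {V V' : (Fin N → Bool) → ℝ} (h : ∀ σ, V' (fun i => σ (π i)) = V σ) :
    Mag.ZG eig (Matrix.of (rmul (prm π) U)) univ V = Mag.ZG eig (Matrix.of U) univ V' := by
  unfold Mag.ZG
  congr 1
  refine Fintype.sum_equiv (Equiv.arrowCongr π.symm (Equiv.refl Bool)) _ _ fun σ => ?_
  have e : (Equiv.arrowCongr π.symm (Equiv.refl Bool)) σ = fun i => σ (π i) := by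
    funext i; simp [Equiv.arrowCongr]
  rw [e, qd_rprm, h]

variable {μ : Measure (Mat (Fin N))} [IsProbabilityMeasure μ] (hμ : RHaar μ)

include hμ in
/-- invariance under permutations of the sites -/
theorem EL_site (eig : Fin N → ℝ) (π : Equiv.Perm (Fin N))
    {V V' : (Fin N → Bool) → ℝ} (h : ∀ σ, V' (fun i => σ (π i)) = V σ) :
    EL μ eig univ V' = EL μ eig univ V := by
  unfold EL
  rw [← hμ.integral_rmul (prm_mem π) (fun U => Real.log (Mag.ZG eig (Matrix.of U) univ V))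
    (measurable_logZG _ univ V).aestronglyMeasurable]
  refine integral_congr_ae (Filter.Eventually.of_forall fun U => ?_)
  show Real.log (Mag.ZG eig (Matrix.of U) univ V') =
    Real.log (Mag.ZG eig (Matrix.of (rmul (prm π) U)) univ V)
  rw [ZG_rprm π eig U h]

/-- monotonicity in the extra weight -/
theorem log_ZG_mono {eig : Fin N → ℝ} {U : Matrix (Fin N) (Fin N) ℝ} {A : Finset (Fin N → Bool)}
    (hA : A.Nonempty) {V V' : (Fin N → Bool) → ℝ} {d : ℝ} (h : ∀ σ ∈ A, V σ ≤ V' σ + d) :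
    Real.log (Mag.ZG eig U A V) ≤ Real.log (Mag.ZG eig U A V') + d := by
  have h1 : Mag.ZG eig U A V ≤ Real.exp d * Mag.ZG eig U A V' := by
    unfold Mag.ZG
    rw [← mul_left_comm]
    refine mul_le_mul_of_nonneg_left ?_ (by positivity)
    rw [Finset.mul_sum]
    refine Finset.sum_le_sum fun σ hσ => ?_
    rw [← Real.exp_add]
    exact Real.exp_le_exp.2 (by linarith [h σ hσ])
  have h2 := Real.log_le_log (Mag.ZG_pos eig U hA V) h1
  rw [Real.log_mul (Real.exp_pos _).ne' (Mag.ZG_pos eig U hA V').ne', Real.log_exp] at h2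
  linarith

include hμ in
/-- Lipschitz bound in the extra weight -/
theorem EL_V_le (hN : 0 < N) (eig : Fin N → ℝ) {A : Finset (Fin N → Bool)} (hA : A.Nonempty)
    {V V' : (Fin N → Bool) → ℝ} {d : ℝ} (h : ∀ σ ∈ A, V σ ≤ V' σ + d) :
    EL μ eig A V ≤ EL μ eig A V' + d := by
  have h1 := integral_mono (integrable_logZG hμ hN eig hA V)
    ((integrable_logZG hμ hN eig hA V').add (integrable_const d))
    (fun U => log_ZG_mono (eig := eig) (U := Matrix.of U) hA h)
  have h2 : ∫ U, (Real.log (Mag.ZG eig (Matrix.of U) A V') + d) ∂μ = EL μ eig A V' + d := by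
    rw [integral_add (integrable_logZG hμ hN eig hA V') (integrable_const d)]
    simp [EL]
  unfold EL at h2 ⊢
  refine h1.trans ?_
  exact h2.le

include hμ in
theorem EL_V_abs (hN : 0 < N) (eig : Fin N → ℝ) {A : Finset (Fin N → Bool)} (hA : A.Nonempty)
    {V V' : (Fin N → Bool) → ℝ} {d : ℝ} (h : ∀ σ ∈ A, |V σ - V' σ| ≤ d) :
    |EL μ eig A V - EL μ eig A V'| ≤ d := by
  have h1 := EL_V_le hμ hN eig hA (V := V) (V' := V') (d := d)
    (fun σ hσ => by have := (abs_le.1 (h σ hσ)).2; linarith)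
  have h2 := EL_V_le hμ hN eig hA (V := V') (V' := V) (d := d)
    (fun σ hσ => by have := (abs_le.1 (h σ hσ)).1; linarith)
  rw [abs_le]; constructor <;> linarith

/-! ### Permutation of labels -/

theorem cnt_perm (lab : Fin N → κ) (π : Equiv.Perm (Fin N)) (k : κ) :
    cnt (fun i => lab (π i)) k = cnt lab k := by
  unfold cnt
  refine Finset.card_bij' (fun i _ => π i) (fun i _ => π.symm i) ?_ ?_ ?_ ?_ <;> simp

theorem Good_perm [Fintype κ] {α : κ → ℝ} {δ : ℝ} {lab : Fin N → κ} (h : Good α δ lab)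
    (π : Equiv.Perm (Fin N)) : Good α δ (fun i => lab (π i)) := by
  intro k; rw [cnt_perm]; exact h k

theorem cnt_diff_le [Fintype κ] {α : κ → ℝ} {δ : ℝ} {lab lab' : Fin N → κ} (h : Good α δ lab)
    (h' : Good α δ lab') :
    ∑ k, |(cnt lab k : ℝ) - cnt lab' k| ≤ 2 * δ * N * Fintype.card κ := by
  calc _ ≤ ∑ _k : κ, 2 * δ * N := by
        refine Finset.sum_le_sum fun k _ => ?_
        have e : (cnt lab k : ℝ) - cnt lab' k =
            ((cnt lab k : ℝ) - N * α k) - ((cnt lab' k : ℝ) - N * α k) := by ring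
        rw [e]
        refine (abs_sub _ _).trans ?_
        linarith [h k, h' k]
    _ = _ := by rw [Finset.sum_const, Finset.card_univ, nsmul_eq_mul]; ring

theorem sum_cnt_inv_le [Fintype κ] {α : κ → ℝ} {a δ : ℝ} (ha : ∀ k, a ≤ α k) (ha0 : 0 < a)
    (hδa : δ ≤ a / 2) (hN : 0 < N) {lab : Fin N → κ} (h : Good α δ lab) (D : Finset (Fin N)) :
    ∑ i ∈ D, (N : ℝ) / cnt lab (lab i) ≤ (D.card : ℝ) * (2 / a) := by
  have hN' : (0 : ℝ) < N := by exact_mod_cast hN
  rw [← nsmul_eq_mul]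
  refine Finset.sum_le_card_nsmul _ _ _ fun i _ => ?_
  have h4 := (abs_le.1 (h (lab i))).1
  have h5 := ha (lab i)
  have h6 : a / 2 * N ≤ (cnt lab (lab i) : ℝ) := by nlinarith
  have h7 : (0:ℝ) < cnt lab (lab i) := lt_of_lt_of_le (by positivity) h6
  rw [div_le_div_iff₀ h7 ha0]
  nlinarith

/-- hypotheses on the family of extra weights -/
structure VFam (C : ℝ) (V : (N : ℕ) → (Fin N → ι) → (Fin N → Bool) → ℝ) : Prop where
  C0 : 0 ≤ C
  perm : ∀ N (lab : Fin N → ι) (σ : Fin N → Bool) (π : Equiv.Perm (Fin N)),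
    V N (fun i => lab (π i)) (fun i => σ (π i)) = V N lab σ
  lip : ∀ N (lab lab' : Fin N → ι) (σ : Fin N → Bool),
    |V N lab σ - V N lab' σ| ≤ C * ((univ.filter fun i => lab i ≠ lab' i).card : ℝ)

include hμ in
/-- **the deterministic comparison at good labels** -/
theorem EL_good [Fintype κ] [Fintype ι] (hN : 0 < N) (v : κ → ℝ) {Λ : ℝ} (hv : ∀ k, |v k| ≤ Λ)
    {C : ℝ} {V : (N : ℕ) → (Fin N → ι) → (Fin N → Bool) → ℝ} (hV : VFam C V)
    {α : κ → ℝ} {γ : ι → ℝ} {a δ : ℝ} (ha : ∀ k, a ≤ α k) (ha0 : 0 < a) (hδa : δ ≤ a / 2)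
    {kap kap' : Fin N → κ} {lab lab' : Fin N → ι} (hk : Good α δ kap) (hk' : Good α δ kap')
    (hl : Good γ δ lab) (hl' : Good γ δ lab') :
    |EL μ (fun i => v (kap i)) univ (V N lab) - EL μ (fun i => v (kap' i)) univ (V N lab')| ≤
      N * (Λ * (2 / a) * (2 * δ * Fintype.card κ) + C * (2 * δ * Fintype.card ι)) := by
  have hΛ0 : 0 ≤ Λ := (abs_nonneg _).trans (hv (kap ⟨0, hN⟩))
  have hA : (univ : Finset (Fin N → Bool)).Nonempty := univ_nonempty
  -- rows
  have h1 : |EL μ (fun i => v (kap i)) univ (V N lab) - EL μ (fun i => v (kap' i)) univ (V N lab)| ≤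
      N * (Λ * (2 / a) * (2 * δ * Fintype.card κ)) := by
    obtain ⟨π, hπ⟩ := exists_match kap kap'
    rw [← EL_perm hμ (fun i => v (kap i)) univ (V N lab) π]
    have e1 := EL_lip hμ hN v hv (fun i => kap (π i)) kap' hA (V N lab)
    have e2 := EL_lip hμ hN v hv kap' (fun i => kap (π i)) hA (V N lab)
    have hset : (univ.filter fun i => kap' i ≠ kap (π i)) =
        (univ.filter fun i => kap (π i) ≠ kap' i) := by
      ext i; simp [ne_comm]
    rw [hset] at e2
    have s1 := sum_cnt_inv_le ha ha0 hδa hN (Good_perm hk π)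
      (univ.filter fun i => kap (π i) ≠ kap' i)
    have s2 := sum_cnt_inv_le ha ha0 hδa hN hk' (univ.filter fun i => kap (π i) ≠ kap' i)
    have hc := hπ.trans (cnt_diff_le hk hk')
    have hb : Λ * (((univ.filter fun i => kap (π i) ≠ kap' i).card : ℝ) * (2 / a)) ≤
        N * (Λ * (2 / a) * (2 * δ * Fintype.card κ)) := by
      calc _ ≤ Λ * ((2 * δ * N * Fintype.card κ) * (2 / a)) := by
            refine mul_le_mul_of_nonneg_left ?_ hΛ0
            exact mul_le_mul_of_nonneg_right hc (by positivity)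
        _ = _ := by ring
    have t1 := (mul_le_mul_of_nonneg_left s1 hΛ0).trans hb
    have t2 := (mul_le_mul_of_nonneg_left s2 hΛ0).trans hb
    rw [abs_le]
    constructor
    · linarith
    · linarith
  -- sites
  have h2 : |EL μ (fun i => v (kap' i)) univ (V N lab) -
      EL μ (fun i => v (kap' i)) univ (V N lab')| ≤ N * (C * (2 * δ * Fintype.card ι)) := by
    obtain ⟨π, hπ⟩ := exists_match lab lab'
    rw [← EL_site hμ (fun i => v (kap' i)) π (V := V N lab) (V' := V N (fun i => lab (π i)))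
      (fun σ => hV.perm N lab σ π)]
    refine (EL_V_abs hμ hN (fun i => v (kap' i)) hA (fun σ _ => hV.lip N _ lab' σ)).trans ?_
    have hc := hπ.trans (cnt_diff_le hl hl')
    calc _ ≤ C * (2 * δ * N * Fintype.card ι) := mul_le_mul_of_nonneg_left hc hV.C0
      _ = _ := by ring
  calc _ ≤ |EL μ (fun i => v (kap i)) univ (V N lab) -
        EL μ (fun i => v (kap' i)) univ (V N lab)| + |EL μ (fun i => v (kap' i)) univ (V N lab) -
      EL μ (fun i => v (kap' i)) univ (V N lab')| := abs_sub_le _ _ _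
    _ ≤ _ := by linarith

include hμ in
/-- crude bound for arbitrary labels -/
theorem EL_crude2 (hN : 0 < N) (v : κ → ℝ) {Λ : ℝ} (hv : ∀ k, |v k| ≤ Λ)
    {C : ℝ} {V : (N : ℕ) → (Fin N → ι) → (Fin N → Bool) → ℝ} (hV : VFam C V)
    (kap kap' : Fin N → κ) (lab lab' : Fin N → ι) :
    |EL μ (fun i => v (kap i)) univ (V N lab) - EL μ (fun i => v (kap' i)) univ (V N lab')| ≤
      (Λ + C) * N := by
  have hA : (univ : Finset (Fin N → Bool)).Nonempty := univ_nonempty
  have e1 := EL_crude hμ hN v hv kap kap' hA (V N lab)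
  have e2 := EL_crude hμ hN v hv kap' kap hA (V N lab)
  have h2 : |EL μ (fun i => v (kap' i)) univ (V N lab) -
      EL μ (fun i => v (kap' i)) univ (V N lab')| ≤ C * N := by
    refine (EL_V_abs hμ hN (fun i => v (kap' i)) hA (fun σ _ => hV.lip N _ lab' σ)).trans ?_
    refine mul_le_mul_of_nonneg_left ?_ hV.C0
    have := Finset.card_le_univ (univ.filter fun i => lab i ≠ lab' i)
    rw [Fintype.card_fin] at this
    exact_mod_cast this
  rw [abs_le] at h2 ⊢
  constructor <;> linarith [h2.1, h2.2]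

/-! ### Pairs of labels -/

/-- product proportions -/
def pr (α : κ → ℝ) (γ : ι → ℝ) : κ × ι → ℝ := fun x => α x.1 * γ x.2

theorem pr_nonneg {α : κ → ℝ} {γ : ι → ℝ} (hα : ∀ k, 0 ≤ α k) (hγ : ∀ j, 0 ≤ γ j) (x : κ × ι) :
    0 ≤ pr α γ x := mul_nonneg (hα _) (hγ _)

theorem pr_sum [Fintype κ] [Fintype ι] {α : κ → ℝ} {γ : ι → ℝ} (hα : ∑ k, α k = 1)
    (hγ : ∑ j, γ j = 1) : ∑ x, pr α γ x = 1 := by
  unfold pr
  rw [Fintype.sum_prod_type]
  simp only [← Finset.mul_sum, hγ, mul_one, hα]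

theorem cnt_fst [Fintype ι] (l : Fin N → κ × ι) (k : κ) :
    (cnt (fun i => (l i).1) k : ℝ) = ∑ j, (cnt l (k, j) : ℝ) := by
  unfold cnt
  rw [← Nat.cast_sum]
  congr 1
  rw [Finset.card_eq_sum_card_fiberwise (f := fun i => (l i).2) (t := univ)
    (fun _ _ => Finset.mem_coe.2 (Finset.mem_univ _))]
  refine Finset.sum_congr rfl fun j _ => ?_
  congr 1
  ext i
  simp [Prod.ext_iff]

theorem cnt_snd [Fintype κ] (l : Fin N → κ × ι) (j : ι) :
    (cnt (fun i => (l i).2) j : ℝ) = ∑ k, (cnt l (k, j) : ℝ) := by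
  unfold cnt
  rw [← Nat.cast_sum]
  congr 1
  rw [Finset.card_eq_sum_card_fiberwise (f := fun i => (l i).1) (t := univ)
    (fun _ _ => Finset.mem_coe.2 (Finset.mem_univ _))]
  refine Finset.sum_congr rfl fun k _ => ?_
  congr 1
  ext i
  simp [Prod.ext_iff, and_comm]

theorem Good_fst [Fintype κ] [Fintype ι] {α : κ → ℝ} {γ : ι → ℝ} (hγ : ∑ j, γ j = 1) {δ : ℝ}
    {l : Fin N → κ × ι} (h : Good (pr α γ) δ l) :
    Good α (δ * Fintype.card ι) (fun i => (l i).1) := by
  intro k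
  have e : (cnt (fun i => (l i).1) k : ℝ) - N * α k =
      ∑ j, ((cnt l (k, j) : ℝ) - N * pr α γ (k, j)) := by
    rw [cnt_fst, Finset.sum_sub_distrib, ← Finset.mul_sum]
    unfold pr
    simp only [← Finset.mul_sum, hγ, mul_one]
  rw [e]
  refine (Finset.abs_sum_le_sum_abs _ _).trans ?_
  calc _ ≤ ∑ _j : ι, δ * N := Finset.sum_le_sum fun j _ => h (k, j)
    _ = _ := by rw [Finset.sum_const, Finset.card_univ, nsmul_eq_mul]; ring

theorem Good_snd [Fintype κ] [Fintype ι] {α : κ → ℝ} {γ : ι → ℝ} (hα : ∑ k, α k = 1) {δ : ℝ}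
    {l : Fin N → κ × ι} (h : Good (pr α γ) δ l) :
    Good γ (δ * Fintype.card κ) (fun i => (l i).2) := by
  intro j
  have e : (cnt (fun i => (l i).2) j : ℝ) - N * γ j =
      ∑ k, ((cnt l (k, j) : ℝ) - N * pr α γ (k, j)) := by
    rw [cnt_snd, Finset.sum_sub_distrib, ← Finset.mul_sum]
    unfold pr
    simp only [← Finset.sum_mul, hα, one_mul]
  rw [e]
  refine (Finset.abs_sum_le_sum_abs _ _).trans ?_
  calc _ ≤ ∑ _k : κ, δ * N := Finset.sum_le_sum fun k _ => h (k, j)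
    _ = _ := by rw [Finset.sum_const, Finset.card_univ, nsmul_eq_mul]; ring

theorem Good_mono [Fintype κ] {α : κ → ℝ} {δ δ' : ℝ} (h : δ ≤ δ') {l : Fin N → κ}
    (hl : Good α δ l) : Good α δ' l := fun k =>
  (hl k).trans (mul_le_mul_of_nonneg_right h (Nat.cast_nonneg _))

include hμ in
/-- **quantitative transfer** -/
theorem Psi_abs_le [Fintype κ] [Fintype ι] [Nonempty κ] [Nonempty ι] (hN : 0 < N) (v : κ → ℝ)
    {Λ : ℝ} (hv : ∀ k, |v k| ≤ Λ)
    {C : ℝ} {V : (N : ℕ) → (Fin N → ι) → (Fin N → Bool) → ℝ} (hV : VFam C V)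
    {α : κ → ℝ} {γ : ι → ℝ} (hα : ∑ k, α k = 1) (hγ : ∑ j, γ j = 1) (hγ0 : ∀ j, 0 ≤ γ j)
    {a δ : ℝ} (ha : ∀ k, a ≤ α k) (ha0 : 0 < a) (hδ : 0 < δ) (hδa : δ ≤ a / 2)
    {kap' : Fin N → κ} {lab' : Fin N → ι} (hk' : Good α δ kap') (hl' : Good γ δ lab') :
    Psi (pr α γ) (fun l : Fin N → κ × ι =>
      |EL μ (fun i => v (l i).1) univ (V N (fun i => (l i).2)) -
        EL μ (fun i => v (kap' i)) univ (V N lab')|) ≤
      N * (Λ * (2 / a) * (2 * δ * Fintype.card κ) + C * (2 * δ * Fintype.card ι)) +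
        (Λ + C) * ((Fintype.card κ * Fintype.card ι : ℝ) /
          (δ / (Fintype.card κ * Fintype.card ι)) ^ 2) := by
  classical
  have hΛ0 : 0 ≤ Λ := (abs_nonneg _).trans (hv (kap' ⟨0, hN⟩))
  have hN' : (0 : ℝ) < N := by exact_mod_cast hN
  have hκ : (1:ℝ) ≤ Fintype.card κ := by exact_mod_cast Fintype.card_pos (α := κ)
  have hι : (1:ℝ) ≤ Fintype.card ι := by exact_mod_cast Fintype.card_pos (α := ι)
  set δ' := δ / (Fintype.card κ * Fintype.card ι : ℝ) with hδ'
  have hδ'0 : 0 < δ' := by positivity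
  have d1 : δ' * Fintype.card ι ≤ δ := by
    rw [hδ', div_mul_eq_mul_div, div_le_iff₀ (by positivity)]
    nlinarith [mul_le_mul_of_nonneg_left hκ (by positivity : 0 ≤ δ * (Fintype.card ι : ℝ))]
  have d2 : δ' * Fintype.card κ ≤ δ := by
    rw [hδ', div_mul_eq_mul_div, div_le_iff₀ (by positivity)]
    nlinarith [mul_le_mul_of_nonneg_left hι (by positivity : 0 ≤ δ * (Fintype.card κ : ℝ))]
  set B := N * (Λ * (2 / a) * (2 * δ * Fintype.card κ) + C * (2 * δ * Fintype.card ι)) with hB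
  have hB0 : 0 ≤ B := by have := hV.C0; positivity
  have h1 : ∀ l : Fin N → κ × ι, |EL μ (fun i => v (l i).1) univ (V N (fun i => (l i).2)) -
        EL μ (fun i => v (kap' i)) univ (V N lab')| ≤
      B + ((Λ + C) * N) * (if Good (pr α γ) δ' l then 0 else 1) := by
    intro l
    split_ifs with h
    · rw [mul_zero, add_zero]
      exact EL_good hμ hN v hv hV ha ha0 hδa (kap := fun i => (l i).1) (kap' := kap')
        (lab := fun i => (l i).2) (lab' := lab') (Good_mono d1 (Good_fst hγ h)) hk'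
        (Good_mono d2 (Good_snd hα h)) hl'
    · have := EL_crude2 hμ hN v hv hV (fun i => (l i).1) kap' (fun i => (l i).2) lab'
      linarith
  have hα0 : ∀ k, 0 ≤ α k := fun k => ha0.le.trans (ha k)
  have hs := pr_sum hα hγ
  have h2 := Psi_mono (pr_nonneg hα0 hγ0) h1
  rw [Psi_add, Psi_const hs, Psi_smul] at h2
  have h3 := bad_mass (N := N) (pr_nonneg hα0 hγ0) hs hδ'0 hN
  have hC : 0 ≤ (Λ + C) * N := by have := hV.C0; positivity
  have h4 := mul_le_mul_of_nonneg_left h3 hC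
  refine h2.trans ?_
  refine add_le_add le_rfl (h4.trans ?_)
  rw [Fintype.card_prod]
  push_cast
  apply le_of_eq
  field_simp

/-! ### Limit form -/

theorem eventually_Good [Fintype κ] {α : κ → ℝ} {kap0 : (N : ℕ) → Fin N → κ}
    (hk : ∀ k, Tendsto (fun N : ℕ => (cnt (kap0 N) k : ℝ) / N) atTop (𝓝 (α k))) {δ : ℝ}
    (hδ : 0 < δ) : ∀ᶠ N : ℕ in atTop, Good α δ (kap0 N) := by
  unfold Good
  rw [eventually_all]
  intro k
  have h1 := (hk k).eventually (Metric.closedBall_mem_nhds (α k) hδ)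
  filter_upwards [h1, eventually_gt_atTop 0] with N hN hN0
  have hN' : (0:ℝ) < N := by exact_mod_cast hN0
  rw [Real.dist_eq] at hN
  have e : (cnt (kap0 N) k : ℝ) - N * α k = N * ((cnt (kap0 N) k : ℝ) / N - α k) := by
    field_simp
  rw [e, abs_mul, abs_of_pos hN', mul_comm]
  exact mul_le_mul_of_nonneg_right hN hN'.le

/-- expected pressure -/
def EP (μ : Measure (Mat (Fin N))) (v : κ → ℝ) (kap : Fin N → κ) (V : (Fin N → Bool) → ℝ) : ℝ :=
  ∫ U, Mag.pressG (fun i => v (kap i)) (Matrix.of U) univ V ∂μ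

omit [DecidableEq κ] [IsProbabilityMeasure μ] in
theorem EP_eq (v : κ → ℝ) (kap : Fin N → κ) (V : (Fin N → Bool) → ℝ) :
    EP μ v kap V = (1 / (N:ℝ)) * EL μ (fun i => v (kap i)) univ V := by
  unfold EP EL Mag.pressG
  rw [integral_const_mul]

/-- **LAB**: i.i.d. pair labels against a deterministic sequence of labels with the same
proportions. -/
theorem tendsto_Psi [Fintype κ] [Fintype ι] [Nonempty κ] [Nonempty ι] (v : κ → ℝ)
    {C : ℝ} {V : (N : ℕ) → (Fin N → ι) → (Fin N → Bool) → ℝ} (hV : VFam C V)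
    {α : κ → ℝ} {γ : ι → ℝ} (hα : ∑ k, α k = 1) (hγ : ∑ j, γ j = 1) (hα0 : ∀ k, 0 < α k)
    (hγ0 : ∀ j, 0 ≤ γ j) (μ : (N : ℕ) → Measure (Mat (Fin N)))
    (hμp : ∀ N, IsProbabilityMeasure (μ N)) (hμ : ∀ N, RHaar (μ N))
    (kap0 : (N : ℕ) → Fin N → κ) (lab0 : (N : ℕ) → Fin N → ι)
    (hk : ∀ k, Tendsto (fun N : ℕ => (cnt (kap0 N) k : ℝ) / N) atTop (𝓝 (α k)))
    (hl : ∀ j, Tendsto (fun N : ℕ => (cnt (lab0 N) j : ℝ) / N) atTop (𝓝 (γ j))) :
    Tendsto (fun N : ℕ => Psi (pr α γ) (fun l : Fin N → κ × ι =>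
      |EP (μ N) v (fun i => (l i).1) (V N (fun i => (l i).2)) -
        EP (μ N) v (kap0 N) (V N (lab0 N))|)) atTop (𝓝 0) := by
  -- constants
  obtain ⟨a, ha0, ha⟩ : ∃ a : ℝ, 0 < a ∧ ∀ k, a ≤ α k := by
    obtain ⟨k0, -, hk0⟩ := Finset.exists_min_image univ α univ_nonempty
    exact ⟨α k0, hα0 k0, fun k => hk0 k (Finset.mem_univ k)⟩
  set Λ : ℝ := ∑ k, |v k| with hΛ
  have hv : ∀ k, |v k| ≤ Λ := fun k =>
    Finset.single_le_sum (f := fun k => |v k|) (fun _ _ => abs_nonneg _) (Finset.mem_univ k)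
  have hΛ0 : 0 ≤ Λ := Finset.sum_nonneg fun _ _ => abs_nonneg _
  have hC0 := hV.C0
  set K1 : ℝ := Λ * (2 / a) * (2 * Fintype.card κ) + C * (2 * Fintype.card ι) with hK1
  have hK10 : 0 ≤ K1 := by positivity
  have hpos : ∀ x, 0 ≤ pr α γ x := pr_nonneg (fun k => (hα0 k).le) hγ0
  rw [Metric.tendsto_atTop]
  intro ε hε
  set δ : ℝ := min (a / 2) (ε / (4 * (K1 + 1))) with hδ
  have hδ0 : 0 < δ := lt_min (by positivity) (by positivity)
  have hδa : δ ≤ a / 2 := min_le_left _ _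
  have hδε : K1 * δ ≤ ε / 4 := by
    calc K1 * δ ≤ K1 * (ε / (4 * (K1 + 1))) :=
          mul_le_mul_of_nonneg_left (min_le_right _ _) hK10
      _ ≤ (K1 + 1) * (ε / (4 * (K1 + 1))) :=
          mul_le_mul_of_nonneg_right (by linarith) (by positivity)
      _ = ε / 4 := by field_simp
  set K2 : ℝ := (Λ + C) * ((Fintype.card κ * Fintype.card ι : ℝ) /
          (δ / (Fintype.card κ * Fintype.card ι)) ^ 2) with hK2
  have hlim : Tendsto (fun N : ℕ => K2 / (N:ℝ)) atTop (𝓝 0) :=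
    tendsto_const_div_atTop_nhds_zero_nat K2
  have hlim2 := hlim.eventually (gt_mem_nhds (by positivity : (0:ℝ) < ε / 4))
  have hev := (eventually_Good hk hδ0).and ((eventually_Good hl hδ0).and
    (hlim2.and (eventually_gt_atTop 0)))
  obtain ⟨N0, hN0⟩ := eventually_atTop.1 hev
  refine ⟨N0, fun N hN => ?_⟩
  obtain ⟨hgk, hgl, hK, hNpos⟩ := hN0 N hN
  have hN' : (0:ℝ) < N := by exact_mod_cast hNpos
  haveI := hμp N
  have hq := Psi_abs_le (hμ N) hNpos v hv hV hα hγ hγ0 ha ha0 hδ0 hδa hgk hgl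
  rw [Real.dist_eq, sub_zero]
  have e1 : ∀ l : Fin N → κ × ι, |EP (μ N) v (fun i => (l i).1) (V N (fun i => (l i).2)) -
        EP (μ N) v (kap0 N) (V N (lab0 N))| = (1 / (N:ℝ)) *
      |EL (μ N) (fun i => v (l i).1) univ (V N (fun i => (l i).2)) -
        EL (μ N) (fun i => v (kap0 N i)) univ (V N (lab0 N))| := by
    intro l
    rw [EP_eq, EP_eq, ← mul_sub, abs_mul, abs_of_pos (by positivity : (0:ℝ) < 1 / (N:ℝ))]
  simp only [e1]
  rw [Psi_smul, abs_of_nonneg]
  · have h2 := mul_le_mul_of_nonneg_left hq (by positivity : (0:ℝ) ≤ 1 / (N:ℝ))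
    have e2 : 1 / (N:ℝ) * (N * (Λ * (2 / a) * (2 * δ * Fintype.card κ) +
        C * (2 * δ * Fintype.card ι)) + K2) = K1 * δ + K2 / N := by
      rw [hK1]; field_simp
    rw [e2] at h2
    linarith
  · refine mul_nonneg (by positivity) (Finset.sum_nonneg fun l _ => ?_)
    exact mul_nonneg (wt_nonneg hpos l) (abs_nonneg _)

end

end Crest.Agent.R164.LabTr
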