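import Crest.Agent.R164.LDef
import Crest.Agent.R164.LCrit
import Crest.Agent.R164.CavG9
import Crest.Agent.R164.EDb
import Crest.Agent.R164.LabTr
import Crest.Agent.R164.LStruct2D
import Crest.Agent.R164.LSel2
import Crest.Agent.R164.LLimB

/-!
Row 164, L side (helper893): THE INTERFACES OF THE L-SIDE GLUE (version 3), as exact Props.
Nothing is proved here; every `def ... : Prop` is the statement of a module.

Version 3: `EDIFF` has `d1` (labels good up to `d0 ≤ d1(tr)`); the auxiliary names of version 1 used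
by landed files (`Wg`, `LLIMB`, `IBPM`, `Co`, `prm`, `Vd`, `Ce`, `Me`, `Err`) are back.
Changes of version 2: the constant `cc` of the weight is OUTSIDE of `cavF`; `bb` contains `el j` for
every group (also `t j = 0`); parameters, directions and errors are helper20's (`LS2`).
-/

set_option autoImplicit false

namespace Crest.Agent.R164.LG

open Finset MeasureTheory Filter Topology Crest.Agent.R141 Crest.Agent.R164 Crest.Agent.R164.Haar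
open Crest.ProbabilityR.InvariantGlass (spinVec)
open Crest.Agent.R164.LD (Prm HL EPh EO PL TO RJ MO)
open Crest.Agent.R164.ED (psi zl stP stF LS)

noncomputable section

/-- Fixed data of the L side. -/
structure Glob where
  K : ℕ
  J : ℕ
  w : Fin (K + 1) → ℝ
  val : Fin (K + 1) → ℝ
  hv : StrictMono val
  hw : ∀ k, 0 < w k
  hs : ∑ k, w k = 1
  γ : Fin J → ℚ
  hγ : ∀ j, 0 < γ j
  hγs : ∑ j, γ j = 1
  c : Fin J → ℝ
  t : Fin J → ℝ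
  ht : ∀ j, |t j| < 1
  nu : (N : ℕ) → Measure (Mat (Fin N))
  hnu : ∀ N, IsProbabilityMeasure (nu N)
  hR : ∀ N, RHaar (nu N)

namespace Glob

variable (X : Glob)

/-- label type -/
abbrev LB : Type := Fin (X.K + 1) × Fin X.J

/-- proportions of the labels -/
def al : X.LB → ℝ := LabTr.pr X.w (fun j => ((X.γ j : ℚ) : ℝ))

variable {X}

/-- the labels of the eigenvalues -/
def kap {N : ℕ} (L : Fin N → X.LB) (i : Fin N) : Fin (X.K + 1) := (L i).1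
/-- the groups -/
def lab {N : ℕ} (L : Fin N → X.LB) (i : Fin N) : Fin X.J := (L i).2

end Glob

variable (X : Glob)

/-- `d0` is small compared with the proportions -/
def Small (d0 : ℝ) : Prop := 0 < d0 ∧ ∀ x, 2 * d0 ≤ X.al x

/-- bounds for the parameters: linear fields `≤ E`, main strengths with square sum `≤ A ^ 2`,
small strengths with square sum `≤ S` -/
structure Bd {p : Par} (E A S : ℝ) (θ : Prm p X.K X.J) : Prop where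
  el : ∀ j, |θ.el j| ≤ E
  am : ∀ j, ∑ g, θ.am j g ^ 2 ≤ A ^ 2
  lm : ∀ k, ∑ g, θ.lm k g ^ 2 ≤ S

variable {p : Par} {N : ℕ}

/-- enriched free energy of the labelled system (not divided by `N`) -/
def Ph (n : ℕ) (Kp : ℝ) (θ : Prm p X.K X.J) (L : Fin N → X.LB) : ℝ :=
  EPh (X.nu N) n X.val X.c X.t Kp θ (Glob.kap L) (Glob.lab L)

/-- Hamiltonian of the labelled system -/
def Hm (n : ℕ) (Kp : ℝ) (θ : Prm p X.K X.J) (L : Fin N → X.LB)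
    (U : Mat (Fin N)) : (LD.B p N n).S → ℝ :=
  HL n X.val X.c X.t Kp θ (Glob.kap L) (Glob.lab L) U

/-- tilted law of the labelled system -/
def Pl (n : ℕ) (Kp : ℝ) (θ : Prm p X.K X.J) (L : Fin N → X.LB)
    (U : Mat (Fin N)) (d : DD p N) : G.Om (LD.B p N n) → ℝ :=
  PL n X.val X.c X.t Kp θ (Glob.kap L) (Glob.lab L) U d

/-- average over `U`, `d` and the tilted law -/
def Eo (n : ℕ) (Kp : ℝ) (θ : Prm p X.K X.J) (L : Fin N → X.LB)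
    (O : Mat (Fin N) → DD p N → G.Om (LD.B p N n) → ℝ) : ℝ :=
  EO (X.nu N) n X.val X.c X.t Kp θ (Glob.kap L) (Glob.lab L) O

/-- plain expected pressure -/
def Gp (Kp : ℝ) (L : Fin N → X.LB) : ℝ :=
  LabTr.EP (X.nu N) X.val (Glob.kap L) (Mag.PEN X.c X.t Kp (Glob.lab L))

/-! ### GL2 (helper491): the average over the penalty strengths -/

/-- squared distance of the magnetisations, `Σ_j (r_j / N) E (m_j - t_j)²` -/
def Qd (n : ℕ) (Kp : ℝ) (θ : Prm p X.K X.J) (L : Fin N → X.LB) : ℝ :=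
  ∑ j, if X.t j = 0 then 0 else (Mag.rJ (Glob.lab L) j / N) *
    Eo X n Kp θ L (fun _ _ ω => (MO n (Glob.lab L) j ω - X.t j) ^ 2)

def KAVG : Prop := ∀ E A S : ℝ, ∃ Cq : ℝ, 0 ≤ Cq ∧ ∀ (K0 : ℝ), 0 < K0 → ∀ (I : ℕ) (p : Par),
  p.nb = 0 → ∃ Na : ℕ, ∀ (N : ℕ), Na ≤ N → ∀ n : ℕ, 0 < n → ∀ θ : Prm p X.K X.J, Bd X E A S θ →
  ∀ L : Fin N → X.LB,
  ∑ i : Fin I, (K0 * 2 ^ ((i : ℕ) + 1)) * Qd X n (K0 * 2 ^ ((i : ℕ) + 1)) θ L ≤ Cq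

/-! ### GL3 (helper60): lower bound of the increment, uniform in the penalty -/

def LOWB : Prop := ∀ E A S : ℝ, ∃ C0 : ℝ, 0 ≤ C0 ∧ ∀ (d0 Kmax : ℝ), Small X d0 → ∀ (p : Par),
  p.nb = 0 → ∃ Na : ℕ, ∀ (N : ℕ), Na ≤ N → ∃ n0 : ℕ, ∀ n : ℕ, n0 ≤ n → ∀ Kp : ℝ, 0 ≤ Kp →
  Kp ≤ Kmax → ∀ θ : Prm p X.K X.J, Bd X E A S θ → ∀ L : Fin N → X.LB, LabAvg.Good X.al d0 L →
  (∑ j, if X.t j = 0 then 0 else ((X.γ j : ℚ) : ℝ) *
    (Kp * Eo X n Kp θ L (fun _ _ ω => (MO n (Glob.lab L) j ω - X.t j) ^ 2))) - C0 ≤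
    LSel.Inc X.al (Ph X n Kp θ : (Fin N → X.LB) → ℝ) (Ph X n Kp θ) L

/-- (GL3', helper60 / helper278) two-sided bound of the increment (upper bound:
`A_0[X] ≤ E^{P_{N+1}}[X]` and exchangeability); consumed by `LS2.grid_err`. -/
def INCB : Prop := ∀ (E A S Kmax d0 : ℝ), Small X d0 → ∀ (p : Par), p.nb = 0 → ∃ (C : ℝ) (Na : ℕ),
  ∀ (N : ℕ), Na ≤ N → ∃ n0 : ℕ, ∀ n : ℕ, n0 ≤ n → ∀ Kp : ℝ, 0 ≤ Kp → Kp ≤ Kmax →
  ∀ θ : Prm p X.K X.J, Bd X E A S θ → ∀ L : Fin N → X.LB, LabAvg.Good X.al d0 L → ∀ l : X.LB,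
  |Ph X n Kp θ (Fin.snoc L l : Fin (N + 1) → X.LB) - Ph X n Kp θ L| ≤ C

/-! ### GL7 (helper562): E-DIFF -/

/-- scaled application `x = N^{-1/2} U s` -/
def xn (n : ℕ) (U : Mat (Fin N)) (ω : G.Om (LD.B p N n)) (i : Fin N) : ℝ :=
  (Real.sqrt N)⁻¹ * SY.xU (Matrix.of U) ω.1.1.1 i

/-- **the truncated cavity functional** `f^{tr}_k(a, b)` (helper562's `f_N^K`, without the additive
constant); `tr` = truncation level, `k` = eigenvalue label of the new row, `a` = main strengths of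
the new site, `b` = linear field. -/
def cavF (n : ℕ) (Kp : ℝ) (θ : Prm p X.K X.J) (L : Fin N → X.LB) (tr : ℝ)
    (k : Fin (X.K + 1)) (b : ℝ) (a : Fin p.nc → ℝ) : ℝ :=
  ∫ U, Ed p N (fun d => ∫ ζ, ED.aE (stP p N n (Hm X n Kp θ L U) d) (stF p N n) p.xs
    (fun q => psi tr (LLimB.WS X.w X.val b k (CavG.cmb (∑ g, a g * zl q.2.1 g)
      (CavG.zf (Glob.kap L) (xn n U q.1) ζ)))) ∂(CavG.gm (Fin N))) ∂(X.nu N)

/-- effective linear field of the group `j` -/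
def bb (Kp : ℝ) (el mb : Fin X.J → ℝ) (j : Fin X.J) : ℝ :=
  (if X.t j = 0 then 0 else X.c j - 2 * Kp * (mb j - X.t j)) + el j

/-- effective constant of the group `j` -/
def cc (Kp : ℝ) (mb : Fin X.J → ℝ) (j : Fin X.J) : ℝ :=
  if X.t j = 0 then 0 else Kp * (mb j ^ 2 - X.t j ^ 2)

/-- group average of the main field observable in the `(N+1)`-system with new labels `(k,j)` -/
def T1 (n : ℕ) (Kp : ℝ) (θ : Prm p X.K X.J) (L : Fin N → X.LB) (k : Fin (X.K + 1))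
    (j : Fin X.J) (g : Fin p.nc) : ℝ :=
  Eo X n Kp θ (Fin.snoc L (k, j) : Fin (N + 1) → X.LB)
    (fun _ _ ω => TO n (Glob.lab (Fin.snoc L (k, j) : Fin (N + 1) → X.LB)) j g ω)

/-- group magnetisation in the `(N+1)`-system with new labels `(k,j)` -/
def M1 (n : ℕ) (Kp : ℝ) (θ : Prm p X.K X.J) (L : Fin N → X.LB) (k : Fin (X.K + 1))
    (j : Fin X.J) : ℝ :=
  Eo X n Kp θ (Fin.snoc L (k, j) : Fin (N + 1) → X.LB)
    (fun _ _ ω => MO n (Glob.lab (Fin.snoc L (k, j) : Fin (N + 1) → X.LB)) j ω)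

def EDIFF : Prop := ∀ E A Kmax : ℝ, ∃ Cd : ℝ, 0 ≤ Cd ∧ ∀ ε : ℝ, 0 < ε → ∃ tr0 : ℝ,
  ∀ tr : ℝ, tr0 ≤ tr → ∃ η d1 : ℝ, 0 < η ∧ 0 < d1 ∧ ∀ (d0 : ℝ), Small X d0 → d0 ≤ d1 →
  ∀ p : Par, p.nb = 0 → ∃ dc : ℝ, 0 < dc ∧ ∃ Na : ℕ, ∀ N : ℕ, Na ≤ N → ∃ n0 : ℕ, ∀ n : ℕ, n0 ≤ n → ∀ Kp : ℝ, 0 ≤ Kp →
  Kp ≤ Kmax → ∀ θ : Prm p X.K X.J, Bd X E A η θ → ∀ L : Fin N → X.LB, LabAvg.Good X.al d0 L →
  ∀ mb : Fin X.J → ℝ, (∀ j, |mb j| ≤ 1) →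
  (∀ j, X.t j ≠ 0 → Eo X n Kp θ L (fun _ _ ω => |MO n (Glob.lab L) j ω - mb j|) ≤ dc) →
  ∀ (k : Fin (X.K + 1)) (j : Fin X.J),
  (cc X Kp mb j + cavF X n Kp θ L tr k (bb X Kp θ.el mb j) (θ.am j) ≤
    Ph X n Kp θ (Fin.snoc L (k, j) : Fin (N + 1) → X.LB) - Ph X n Kp θ L + ε) ∧
  (∀ (g : Fin p.nc) (s : ℝ), |s| ≤ 1 →
    |cavF X n Kp θ L tr k (bb X Kp θ.el mb j) (Function.update (θ.am j) g (θ.am j g + s)) -
      cavF X n Kp θ L tr k (bb X Kp θ.el mb j) (θ.am j) -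
      s * T1 X n Kp θ L k j g| ≤ Cd * (|s| * Real.sqrt |s|) + |s| * ε) ∧
  (∀ s : ℝ, |s| ≤ 1 →
    |cavF X n Kp θ L tr k (bb X Kp θ.el mb j + s) (θ.am j) -
      cavF X n Kp θ L tr k (bb X Kp θ.el mb j) (θ.am j) -
      s * M1 X n Kp θ L k j| ≤ Cd * (|s| * Real.sqrt |s|) + |s| * ε)

/-! ### GL8 (helper867, helper888): structure -/

/-- uniform levels -/
def mu (n' : ℕ) (b : ℕ) : ℝ := (b : ℝ) / ((n' : ℝ) + 1)

/-- spin overlap at level `l` -/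
def Rs (n : ℕ) (P : G.Om (LD.B p N n) → ℝ) (l : ℕ) (ω : G.Om (LD.B p N n)) : ℝ :=
  (N : ℝ)⁻¹ * ∑ i, (cE P ((G.fil (LD.B p N n)).F l) (fun ω => sv (ω.1.1.1 i)) ω) ^ 2

/-- **structure data** of a system: `n' + 1` windows of `wc` cells, level `lv d i` in the window
`i ≤ n'`, `lv d (n'+1) = L`; path `P` (`P (n'+1) = 1`); block overlaps close to `w_k Ghat^k_i(P)`. -/
structure StrD (n : ℕ) (Kp : ℝ) (θ : Prm p X.K X.J) (L : Fin N → X.LB) (n' wc : ℕ) (es : ℝ)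
    (lv : DD p N → ℕ → ℕ) (P : ℕ → ℝ) : Prop where
  hp : p.nc = (n' + 1) * wc
  cell : ∀ d i, i ≤ n' → ∃ g t, i * wc ≤ g ∧ g < (i + 1) * wc ∧ t < p.T ∧ lv d i = p.ct g t
  top : ∀ d, lv d (n' + 1) = p.L
  step : SDAlg.StepD (n' + 1) (mu n') P
  lt1 : P 0 < 1
  Peq : ∀ i, i ≤ n' → P i = Eo X n Kp θ L (fun U d ω => Rs n (Pl X n Kp θ L U d) (lv d i) ω)
  ov : ∀ i, i ≤ n' + 1 → ∀ k, Eo X n Kp θ L (fun U d ω =>
    |CavG.ip (Glob.kap L) k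
        (CavG.cEv (Pl X n Kp θ L U d) ((G.fil (LD.B p N n)).F (lv d i)) (xn n U) ω)
        (CavG.cEv (Pl X n Kp θ L U d) ((G.fil (LD.B p N n)).F (lv d i)) (xn n U) ω) -
      X.w k * SDAlg.Ghat X.w (SDAlg.gap X.val 1) (n' + 1) (mu n') P k i|) ≤ es
  pu : ∀ i, i ≤ n' → ∫ U, Ed p N (fun d => CavG.pur (Pl X n Kp θ L U d)
    ((G.fil (LD.B p N n)).F (lv d i)) (xn n U)) ∂(X.nu N) ≤ es

/-- structure error (helper20) -/
def Er {act : Finset (Fin p.nc)} (n : ℕ) (Kp : ℝ) (θ : LS2.Cd X.K X.J act → ℝ)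
    (L : Fin N → X.LB) : ℝ :=
  LS2.Err n X.val X.c X.t Kp (Glob.kap L) (Glob.lab L) (X.nu N) (X.nu (N + 1)) θ

/-- (GL8) structure -/
def STRUCT : Prop := ∀ (E A Kmax : ℝ) (es : ℝ), 0 < es → ∃ n1 : ℕ, ∀ n' : ℕ, n1 ≤ n' →
  ∃ wc : ℕ, 0 < wc ∧ ∃ p : Par, p.nb = 0 ∧ p.nc = (n' + 1) * wc ∧ ∃ himax : ℝ, 0 < himax ∧
  ∀ (lo : ℝ), 0 < lo → lo ≤ himax → ∀ (act : Finset (Fin p.nc)), ∃ dD : ℝ, 0 < dD ∧ ∃ Na : ℕ,
  ∀ N : ℕ, Na ≤ N → ∃ n0 : ℕ, ∀ n : ℕ, n0 ≤ n → ∀ Kp : ℝ, 0 ≤ Kp → Kp ≤ Kmax →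
  ∀ θ : LS2.Cd X.K X.J act → ℝ,
  (∀ j, |(LS2.prm act θ).el j| ≤ E) → (∀ j g, |(LS2.prm act θ).am j g| ≤ A) →
  (∀ k g, lo ≤ θ (Sum.inr (Sum.inr (k, g))) ∧ θ (Sum.inr (Sum.inr (k, g))) ≤ 2 * lo) →
  ∀ L : Fin N → X.LB, LabAvg.Good X.al dD L → Er X n Kp θ L ≤ dD →
  ∃ (lv : DD p N → ℕ → ℕ) (P : ℕ → ℝ), StrD X n Kp (LS2.prm act θ) L n' wc es lv P

/-! ### GL11 (helper275): group overlaps at the label steps and the path -/

/-- cell of the main field `q` (`q = 0, …, M-1`), `B` = distance of the active cells -/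
def cellA (B q : ℕ) : ℕ := (q + 1) * B - 1

def MTAIL : Prop := ∀ (d0 : ℝ), Small X d0 → ∀ (p : Par) (N n n' wc : ℕ) (Kp : ℝ)
  (θ : Prm p X.K X.J) (L : Fin N → X.LB) (es : ℝ) (lv : DD p N → ℕ → ℕ) (P : ℕ → ℝ),
  0 < N → LabAvg.Good X.al d0 L → StrD X n Kp θ L n' wc es lv P → ∀ q r : ℕ, 0 < r → 0 < wc →
  (q + 1) * r ≤ n' →
  |∑ j, ((X.γ j : ℚ) : ℝ) * (((p.nc : ℝ) + 1)⁻¹ * ∑ g' ∈ Finset.Ico (cellA (r * wc) q) p.nc,
        Eo X n Kp θ L (fun U d ω => RJ n (Pl X n Kp θ L U d) (Glob.lab L) j (p.mt g') ω)) -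
      ((n' : ℝ) + 1)⁻¹ * ∑ i ∈ Finset.Ico ((q + 1) * r) (n' + 1), P i| ≤
    2 / ((n' : ℝ) + 1) + 2 * ((X.K : ℝ) + 1) * X.J * d0

/-! ### GL6 (helper639): the limit of the truncated cavity functional -/

/-- strengths of one site from the active ones -/
def amF (p : Par) {M : ℕ} (B : ℕ) (a : Fin M → ℝ) (g : Fin p.nc) : ℝ :=
  ∑ q : Fin M, if (g : ℕ) = cellA B q then a q else 0

/-- fine label variances in the depth convention: `a q ^ 2` enters at the level `(q+1) r` -/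
def bvf {M : ℕ} (n' r : ℕ) (a : Fin M → ℝ) (m : ℕ) : ℝ :=
  ∑ q : Fin M, if m = n' + 1 - ((q : ℕ) + 1) * r then a q ^ 2 else 0

/-- (GL6) from the system to the coarse Gaussian functional -/
def LLIMA : Prop := ∀ (M : ℕ) (A Bm ε : ℝ), 0 < ε → ∀ (tr : ℝ), 0 ≤ tr → ∃ J0 : ℕ, ∀ J : ℕ,
  J0 ≤ J → ∀ s : ℕ, J + 1 = (M + 1) * s → ∃ es : ℝ, 0 < es ∧ ∃ q0 : ℕ, ∀ q : ℕ, q0 ≤ q →
  ∀ (n' wc : ℕ), n' + 1 = q * (J + 1) → 0 < wc → ∀ p : Par, p.nb = 0 → ∃ Na : ℕ, ∀ N : ℕ,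
  Na ≤ N → ∃ n0 : ℕ, ∀ n : ℕ, n0 ≤ n → ∀ (Kp : ℝ) (θ : Prm p X.K X.J) (L : Fin N → X.LB)
  (lv : DD p N → ℕ → ℕ) (P : ℕ → ℝ), StrD X n Kp θ L n' wc es lv P →
  ∀ (k : Fin (X.K + 1)) (b : ℝ) (a : Fin M → ℝ), |b| ≤ Bm → (∀ i, 0 ≤ a i ∧ a i ≤ A) →
  |cavF X n Kp θ L tr k b (amF p (q * s * wc) a) -
    CavG.gval J (Fact.ySk J) (CavG.vC J (LLimB.Qc X.w X.val n' q P)
      (GEx.cb J q (bvf n' (q * s) a))) (fun z => psi tr (LLimB.WS X.w X.val b k z))| ≤ ε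

/-! ### Auxiliary names of version 1 (used by landed files) -/

/-- the idealised log-weight of the new row (label `k`) and new site -/
def Wg (b : ℝ) (k : Fin (X.K + 1)) (z : Unit ⊕ Fin (X.K + 1) → ℝ) : ℝ :=
  EG.WF X.w X.val b k (fun o => o.elim (z (Sum.inl ())) (fun l => z (Sum.inr l)))

/-- fine covariances in the depth convention -/
def Qf (n' : ℕ) (P : ℕ → ℝ) (m : ℕ) (k : Fin (X.K + 1)) : ℝ :=
  X.w k * SDAlg.Ghat X.w (SDAlg.gap X.val 1) (n' + 1) (mu n') P k (n' + 1 - m)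

/-- (GL5) exact value of the coarse functional, without truncation -/
def LLIMB : Prop := ∀ (M : ℕ) (A Bm ε : ℝ), 0 < ε → ∃ tr0 : ℝ, ∀ tr : ℝ, tr0 ≤ tr → ∃ J0 : ℕ,
  ∀ J : ℕ, J0 ≤ J → ∀ s : ℕ, J + 1 = (M + 1) * s → ∀ q : ℕ, 0 < q → ∀ n' : ℕ,
  n' + 1 = q * (J + 1) → ∀ P : ℕ → ℝ, SDAlg.StepD (n' + 1) (mu n') P → P 0 < 1 →
  ∀ (k : Fin (X.K + 1)) (cst b : ℝ) (a : Fin M → ℝ), |cst| ≤ Bm → |b| ≤ Bm →
  (∀ i, 0 ≤ a i ∧ a i ≤ A) →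
  |CavG.gval J (Fact.ySk J) (CavG.vC J (fun m => Qf X n' P (q * m))
      (GEx.cb J q (bvf n' (q * s) a))) (fun z => psi tr (cst + Wg X b k z)) -
    (cst + EG.CC X.w X.val (SDAlg.wdOf n' (mu n')) (SDAlg.pOf n' P) k +
      LF.ch (SDAlg.wdOf n' (mu n'))
        (PAlg.hh X.w X.val (SDAlg.wdOf n' (mu n')) (SDAlg.pOf n' P)) b
        (fun i => ∑ x : Fin M, if ((x : ℕ) + 1) * (q * s) ≤ (i : ℕ) then a x ^ 2 else 0))| ≤ ε

/-- index set of the parameters -/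
abbrev Co (p : Par) (M : ℕ) : Type := Fin X.J ⊕ (Fin X.J × Fin M) ⊕ (Fin (X.K + 1) × Fin p.nc)

/-- parameters of the system from a vector `θ` -/
def prm (p : Par) (M B : ℕ) (θ : Co X p M → ℝ) : Prm p X.K X.J where
  el := fun j => if X.t j = 0 then 0 else θ (Sum.inl j)
  am := fun j => amF p B (fun q => θ (Sum.inr (Sum.inl (j, q))))
  lm := fun k g => θ (Sum.inr (Sum.inr (k, g)))

/-- direction of the parameter `x` -/
def Vd (n M B : ℕ) (L : Fin N → X.LB) : Co X p M → Mat (Fin N) → (LD.B p N n).S → ℝ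
  | Sum.inl j => fun _ s => if X.t j = 0 then 0 else
      ∑ i, if Glob.lab L i = j then spinVec s.1.1 i else 0
  | Sum.inr (Sum.inl (j, q)) => fun _ s => ∑ g : Fin p.nc, if (g : ℕ) = cellA B q then
      ∑ i, if Glob.lab L i = j then SY.zf s.2.1 g i * sv (s.1.1 i) else 0 else 0
  | Sum.inr (Sum.inr (k, g)) => fun U s =>
      ∑ i, if Glob.kap L i = k then SY.zf s.2.2 g i * SY.xU (Matrix.of U) s.1.1 i else 0

/-- concentration error (helper20) of the direction `x` -/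
def Ce (n M B : ℕ) (Kp : ℝ) (θ : Co X p M → ℝ) (L : Fin N → X.LB) (x : Co X p M) : ℝ :=
  LS2.cerr (LD.B p N n) (X.nu N) (Hm X n Kp (prm X p M B θ) L) (Vd X n M B L x)

/-- normalised mean (helper20) of the direction `x` -/
def Me (n M B : ℕ) (Kp : ℝ) (θ : Co X p M → ℝ) (L : Fin N → X.LB) (x : Co X p M) : ℝ :=
  LS2.mN (LD.B p N n) (X.nu N) (Hm X n Kp (prm X p M B θ) L) (Vd X n M B L x)

/-- the structure error of the system at `(N, θ, L)` -/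
def Err (n M B : ℕ) (Kp : ℝ) (θ : Co X p M → ℝ) (L : Fin N → X.LB) : ℝ :=
  ∑ x, Ce X n M B Kp θ L x +
    ∑ l : X.LB, ∑ x, |Me X n M B Kp θ L x - Me X n M B Kp θ (Fin.snoc L l : Fin (N + 1) → X.LB) x|

/-- (GL4) integration by parts for the means -/
def IBPM : Prop := ∀ (E A S Kmax d0 : ℝ), Small X d0 → ∀ (p : Par), p.nb = 0 → ∀ ε : ℝ, 0 < ε →
  ∃ Na : ℕ, ∀ N : ℕ, Na ≤ N → ∃ n0 : ℕ, ∀ n : ℕ, n0 ≤ n → ∀ Kp : ℝ, 0 ≤ Kp → Kp ≤ Kmax →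
  ∀ θ : Prm p X.K X.J, Bd X E A S θ → ∀ L : Fin N → X.LB, LabAvg.Good X.al d0 L →
  ∀ (j : Fin X.J) (g : Fin p.nc),
  |Eo X n Kp θ L (fun _ _ ω => TO n (Glob.lab L) j g ω) -
    θ.am j g * (1 - ((p.nc : ℝ) + 1)⁻¹ * ∑ g' : Fin p.nc, if g ≤ g' then
      Eo X n Kp θ L (fun U d ω => RJ n (Pl X n Kp θ L U d) (Glob.lab L) j (p.mt g') ω)
        else 0)| ≤ ε

end

end Crest.Agent.R164.LG
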