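import Crest.Agent.R164.LInc4
import Crest.Agent.R164.LGDef

/-!
# Row 164, L side, module GL3 part 5 (helper60): the Props `LOWB` and the lower half of `INCB`
-/

set_option autoImplicit false
set_option linter.unusedSectionVars false

namespace Crest.Agent.R164.LInc

open Finset MeasureTheory Crest.Agent.R141 Crest.Agent.R164 Crest.Agent.R164.Haar
open Crest.Agent.R164.LD (Prm MO)
open Crest.Agent.R164.LG

noncomputable section

variable (X : Glob) {p : Par} {N : ℕ}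

theorem kapS (L : Fin N → X.LB) (l : X.LB) :
    Glob.kap (Fin.snoc L l : Fin (N + 1) → X.LB) = ED.sk (Glob.kap L) l.1 := by
  funext i
  unfold Glob.kap ED.sk
  refine Fin.lastCases ?_ (fun i => ?_) i
  · rw [Fin.snoc_last, Fin.snoc_last]
  · rw [Fin.snoc_castSucc, Fin.snoc_castSucc]

theorem labS (L : Fin N → X.LB) (l : X.LB) :
    Glob.lab (Fin.snoc L l : Fin (N + 1) → X.LB) = ED.sj (Glob.lab L) l.2 := by
  funext i
  unfold Glob.lab ED.sj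
  refine Fin.lastCases ?_ (fun i => ?_) i
  · rw [Fin.snoc_last, Fin.snoc_last]
  · rw [Fin.snoc_castSucc, Fin.snoc_castSucc]

/-- the mean square distance of the magnetisation -/
def Qj (n : ℕ) (Kp : ℝ) (θ : Prm p X.K X.J) (L : Fin N → X.LB) (j : Fin X.J) : ℝ :=
  Eo X n Kp θ L (fun _ _ ω => (MO n (Glob.lab L) j ω - X.t j) ^ 2)

theorem Qj_nonneg (n : ℕ) (Kp : ℝ) (θ : Prm p X.K X.J) (L : Fin N → X.LB) (j : Fin X.J)
    (hN : 0 < N) : 0 ≤ Qj X n Kp θ L j := by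
  have : IsProbabilityMeasure (X.nu N) := X.hnu N
  have h := LD.EO_mono' (mu := X.nu N) (n := n) X.val X.c X.t Kp θ (Glob.kap L) (Glob.lab L)
    (O := fun _ _ _ => (0 : ℝ)) (O' := fun _ _ ω => (MO n (Glob.lab L) j ω - X.t j) ^ 2)
    (LD.OAdm.const (fun _ _ => (0 : ℝ)))
    (LD.OAdm.const (fun _ ω => (MO n (Glob.lab L) j ω - X.t j) ^ 2))
    (fun d => Filter.Eventually.of_forall fun U ω => sq_nonneg _)
  rw [LD.EO_const X.val X.c X.t Kp θ (Glob.kap L) (Glob.lab L) hN] at h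
  exact h

/-- bound of the eigenvalues -/
def Lam : ℝ := ∑ k, |X.val k|

theorem abs_val_le (k : Fin (X.K + 1)) : |X.val k| ≤ Lam X :=
  Finset.single_le_sum (f := fun k => |X.val k|) (fun _ _ => abs_nonneg _) (Finset.mem_univ k)

/-- the constant -/
def Cc (E A S : ℝ) : ℝ := |C1 (Lam X) (A ^ 2) S| + ∑ j, |X.c j| + |E| + 1

theorem Cc_nonneg (E A S : ℝ) : 0 ≤ Cc X E A S := by
  unfold Cc
  have : 0 ≤ ∑ j, |X.c j| := Finset.sum_nonneg fun _ _ => abs_nonneg _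
  positivity

/-- threshold for the number of sites -/
def Mp (p : Par) (S : ℝ) : ℝ := 4 * (S + 1) * (p.τ * Fintype.card (Stp p)) +
  p.nc * p.T * (p.τ * Fintype.card (Stp p))

/-- **lower bound of the increment for one label** -/
theorem Ph_ge {E A S : ℝ} (hb : p.nb = 0) (hN : 0 < N) (hNM : Mp p S ≤ N) (n : ℕ) {Kp : ℝ}
    (hKp : 0 ≤ Kp) {θ : Prm p X.K X.J} (hθ : Bd X E A S θ) (L : Fin N → X.LB) (l : X.LB) :
    (if X.t l.2 = 0 then 0 else Kp * Qj X n Kp θ L l.2 -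
      4 * Kp / (Mag.rJ (Glob.lab L) l.2 + 1)) - Cc X E A S ≤
      Ph X n Kp θ (Fin.snoc L l : Fin (N + 1) → X.LB) - Ph X n Kp θ L := by
  have h0 : IsProbabilityMeasure (X.nu N) := X.hnu N
  have h1 : IsProbabilityMeasure (X.nu (N + 1)) := X.hnu (N + 1)
  have hS0 : 0 ≤ S := (Finset.sum_nonneg fun g _ => sq_nonneg (θ.lm 0 g)).trans (hθ.lm 0)
  have hR0 : 0 ≤ A ^ 2 := sq_nonneg A
  have h := EPh_ge (n := n) X.val X.c X.t Kp θ (Glob.kap L) (Glob.lab L) l.1 l.2 (X.hR N)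
    (X.hR (N + 1)) hb hN (Λ := Lam X) (E := E) (R := A ^ 2) (S := S) (abs_val_le X)
    (fun j => (X.ht j).le) hKp hS0 hR0 hθ.el hθ.am hθ.lm
  have e1 : Ph X n Kp θ (Fin.snoc L l : Fin (N + 1) → X.LB) =
      LD.EPh (X.nu (N + 1)) n X.val X.c X.t Kp θ (ED.sk (Glob.kap L) l.1)
        (ED.sj (Glob.lab L) l.2) := by
    unfold Ph
    rw [kapS, labS]
  have e2 : eps1 p S N + epsD p N ≤ 1 := by
    have hN1 : (0:ℝ) < (N:ℝ) + 1 := by positivity
    have e3 : eps1 p S N + epsD p N = Mp p S / ((N:ℝ) + 1) := by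
      unfold eps1 epsD Mp; ring
    rw [e3, div_le_one hN1]
    linarith
  have e4 : |X.c l.2| ≤ ∑ j, |X.c j| :=
    Finset.single_le_sum (f := fun j => |X.c j|) (fun _ _ => abs_nonneg _) (Finset.mem_univ _)
  have e5 := le_abs_self (C1 (Lam X) (A ^ 2) S)
  have e6 := le_abs_self E
  have e7 : Ph X n Kp θ L = LD.EPh (X.nu N) n X.val X.c X.t Kp θ (Glob.kap L) (Glob.lab L) := rfl
  rw [e1, e7]
  unfold Qj Cc
  show (if X.t l.2 = 0 then 0 else Kp * LD.EO (X.nu N) n X.val X.c X.t Kp θ (Glob.kap L)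
    (Glob.lab L) (fun _ _ ω => (MO n (Glob.lab L) l.2 ω - X.t l.2) ^ 2) -
      4 * Kp / (Mag.rJ (Glob.lab L) l.2 + 1)) - _ ≤ _
  linarith

/-- **lower half of `INCB`**, for all label vectors -/
theorem incb_lower_all (E A S Kmax : ℝ) (p : Par) (hb : p.nb = 0) : ∃ (C : ℝ) (Na : ℕ),
    ∀ N : ℕ, Na ≤ N → ∀ n : ℕ, ∀ Kp : ℝ, 0 ≤ Kp → Kp ≤ Kmax → ∀ θ : Prm p X.K X.J,
    Bd X E A S θ → ∀ (L : Fin N → X.LB) (l : X.LB),
    -C ≤ Ph X n Kp θ (Fin.snoc L l : Fin (N + 1) → X.LB) - Ph X n Kp θ L := by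
  obtain ⟨M, hM⟩ := exists_nat_ge (Mp p S)
  refine ⟨Cc X E A S + 4 * Kmax, M + 1, fun N hN n Kp h0 h1 θ hθ L l => ?_⟩
  have hN0 : 0 < N := by omega
  have hNM : Mp p S ≤ N := hM.trans (by exact_mod_cast (by omega : M ≤ N))
  refine le_trans ?_ (Ph_ge X hb hN0 hNM n h0 hθ L l)
  have hr := Mag.rJ_nonneg (Glob.lab L) l.2
  have h2 : 4 * Kp / (Mag.rJ (Glob.lab L) l.2 + 1) ≤ 4 * Kmax := by
    refine (div_le_self (by linarith) (by linarith)).trans (by linarith)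
  have h3 := mul_nonneg h0 (Qj_nonneg X n Kp θ L l.2 hN0)
  split_ifs <;> linarith

/-- lower half of `INCB` in the quantifiers of `INCB` -/
theorem incb_lower : ∀ (E A S Kmax d0 : ℝ), Small X d0 → ∀ (p : Par), p.nb = 0 →
    ∃ (C : ℝ) (Na : ℕ), ∀ (N : ℕ), Na ≤ N → ∃ n0 : ℕ, ∀ n : ℕ, n0 ≤ n → ∀ Kp : ℝ, 0 ≤ Kp →
    Kp ≤ Kmax → ∀ θ : Prm p X.K X.J, Bd X E A S θ → ∀ L : Fin N → X.LB,
    LabAvg.Good X.al d0 L → ∀ l : X.LB,
    -C ≤ Ph X n Kp θ (Fin.snoc L l : Fin (N + 1) → X.LB) - Ph X n Kp θ L := by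
  intro E A S Kmax d0 _ p hb
  obtain ⟨C, Na, h⟩ := incb_lower_all X E A S Kmax p hb
  exact ⟨C, Na, fun N hN => ⟨0, fun n _ Kp h0 h1 θ hθ L _ l => h N hN n Kp h0 h1 θ hθ L l⟩⟩

theorem rJ_ge0 {d0 : ℝ} (hd : Small X d0) {L : Fin N → X.LB}
    (hL : LabAvg.Good X.al d0 L) (j : Fin X.J) : d0 * N ≤ Mag.rJ (Glob.lab L) j := by
  have h1 := (abs_le.1 (hL (0, j))).1
  have h2 := hd.2 (0, j)
  have hN : (0 : ℝ) ≤ N := Nat.cast_nonneg N
  have h3 : ((LabAvg.cnt L (0, j) : ℕ) : ℝ) ≤ Mag.rJ (Glob.lab L) j := by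
    unfold LabAvg.cnt Mag.rJ
    have : (Finset.univ.filter fun i => L i = ((0 : Fin (X.K + 1)), j)).card ≤
        (Finset.univ.filter fun i => Glob.lab L i = j).card := by
      refine Finset.card_le_card fun i hi => ?_
      rw [Finset.mem_filter] at hi ⊢
      refine ⟨hi.1, ?_⟩
      unfold Glob.lab
      rw [hi.2]
    exact_mod_cast this
  have h4 := mul_le_mul_of_nonneg_left h2 hN
  linarith

theorem sum_al (f : Fin X.J → ℝ) :
    ∑ x : X.LB, X.al x * f x.2 = ∑ j, ((X.γ j : ℚ) : ℝ) * f j := by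
  have h1 : ∀ x : X.LB, X.al x * f x.2 = X.w x.1 * (((X.γ x.2 : ℚ) : ℝ) * f x.2) := by
    intro x
    show X.w x.1 * ((X.γ x.2 : ℚ) : ℝ) * f x.2 = _
    ring
  rw [Finset.sum_congr rfl fun x _ => h1 x, Fintype.sum_prod_type]
  simp only [← Finset.mul_sum]
  rw [← Finset.sum_mul, X.hs, one_mul]

theorem al_nonneg (x : X.LB) : 0 ≤ X.al x := by
  show 0 ≤ X.w x.1 * ((X.γ x.2 : ℚ) : ℝ)
  have h1 := (X.hw x.1).le
  have h2 : (0:ℝ) ≤ ((X.γ x.2 : ℚ) : ℝ) := by exact_mod_cast (X.hγ x.2).le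
  positivity

theorem sum_gam : ∑ j, ((X.γ j : ℚ) : ℝ) = 1 := by
  exact_mod_cast X.hγs

/-- **`LOWB`** -/
theorem lowb : LOWB X := by
  intro E A S
  refine ⟨Cc X E A S + 1, by linarith [Cc_nonneg X E A S], fun d0 Kmax hd p hb => ?_⟩
  obtain ⟨M, hM⟩ := exists_nat_ge (Mp p S)
  obtain ⟨M', hM'⟩ := exists_nat_ge (4 * Kmax / d0)
  refine ⟨M + M' + 1, fun N hN => ⟨0, fun n _ Kp h0 h1 θ hθ L hL => ?_⟩⟩
  have hN0 : 0 < N := by omega
  have hNM : Mp p S ≤ N := hM.trans (by exact_mod_cast (by omega : M ≤ N))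
  have hNM' : 4 * Kmax / d0 ≤ N := hM'.trans (by exact_mod_cast (by omega : M' ≤ N))
  rw [div_le_iff₀ hd.1] at hNM'
  set f : Fin X.J → ℝ := fun j => (if X.t j = 0 then 0 else Kp * Qj X n Kp θ L j) -
    (Cc X E A S + 1) with hf
  have h2 : ∀ x : X.LB, f x.2 ≤
      Ph X n Kp θ (Fin.snoc L x : Fin (N + 1) → X.LB) - Ph X n Kp θ L := by
    intro x
    refine le_trans ?_ (Ph_ge X hb hN0 hNM n h0 hθ L x)
    have hr := rJ_ge0 X hd hL x.2
    have h3 : 4 * Kp / (Mag.rJ (Glob.lab L) x.2 + 1) ≤ 1 := by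
      rw [div_le_one (by linarith [Mag.rJ_nonneg (Glob.lab L) x.2])]
      nlinarith
    rw [hf]
    simp only
    split_ifs <;> linarith
  have h4 : ∑ x : X.LB, X.al x * f x.2 ≤
      LSel.Inc X.al (Ph X n Kp θ : (Fin N → X.LB) → ℝ) (Ph X n Kp θ) L := by
    unfold LSel.Inc
    exact Finset.sum_le_sum fun x _ => mul_le_mul_of_nonneg_left (h2 x) (al_nonneg X x)
  refine le_trans (le_of_eq ?_) h4
  rw [sum_al, hf]
  simp only [mul_sub]
  rw [Finset.sum_sub_distrib]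
  congr 1
  · refine Finset.sum_congr rfl fun j _ => ?_
    split_ifs
    · rw [mul_zero]
    · rfl
  · rw [← Finset.sum_mul, sum_gam, one_mul]

end

end Crest.Agent.R164.LInc
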