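import Crest.Agent.R164.LCrude
import Crest.Agent.R164.LInc5

/-!
Row 164, L side (helper494): **(INCB)**, two-sided bound of the increments (upper part
`LG.incb_upper`, lower part `LInc.incb_lower_all` of helper60).
-/

set_option autoImplicit false

namespace Crest.Agent.R164.LG

theorem incb (X : Glob) : INCB X := by
  intro E A S Kmax d0 hd p hnb
  obtain ⟨C1, N1, h1⟩ := incb_upper X E A S Kmax d0 hd p hnb
  obtain ⟨C2, N2, h2⟩ := LInc.incb_lower_all X E A S Kmax p hnb
  refine ⟨max C1 C2, max N1 N2, fun N hN => ⟨0, fun n _ Kp hK0 hK θ hθ L hL l => ?_⟩⟩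
  have u := h1 N ((le_max_left _ _).trans hN) n Kp hK0 hK θ hθ L hL l
  have v := h2 N ((le_max_right _ _).trans hN) n Kp hK0 hK θ hθ L l
  rw [abs_le]
  constructor
  · linarith [le_max_right C1 C2]
  · linarith [le_max_left C1 C2]

end Crest.Agent.R164.LG
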