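import Crest.Agent.R164.LLimA2
import Crest.Agent.R164.LGDef

/-!
Row 164, L side (GL6, helper639), part 4: the levels of `StrD` are adapted to the coarse exponents; the
label variances along these levels are the coarse variances `cb (bvf ..)`.
-/

set_option autoImplicit false

namespace Crest.Agent.R164.CavG

open MeasureTheory ProbabilityTheory Finset Crest.Agent.R141
open Crest.Agent.R164.GEx (cb)
open Crest.Agent.R164.LG (amF bvf cellA)

noncomputable section

/-- the level `lv i` lies in the window `i` (of `wc` cells). -/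
def InWin (p : Par) (n' wc : ℕ) (lv : ℕ → ℕ) : Prop :=
  ∀ i, i ≤ n' → i * wc * (p.T + 1) < lv i ∧ lv i < (i + 1) * wc * (p.T + 1)

theorem inWin_of_cell {p : Par} {n' wc : ℕ} {lv : ℕ → ℕ}
    (h : ∀ i, i ≤ n' → ∃ g t, i * wc ≤ g ∧ g < (i + 1) * wc ∧ t < p.T ∧ lv i = p.ct g t) :
    InWin p n' wc lv := by
  intro i hi
  obtain ⟨g, t, h1, h2, h3, h4⟩ := h i hi
  rw [h4]
  unfold Par.ct
  have h5 : i * wc * (p.T + 1) ≤ g * (p.T + 1) := Nat.mul_le_mul_right _ h1
  have h6 : (g + 1) * (p.T + 1) ≤ (i + 1) * wc * (p.T + 1) := Nat.mul_le_mul_right _ h2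
  have h7 : (g + 1) * (p.T + 1) = g * (p.T + 1) + (p.T + 1) := by ring
  constructor <;> omega

/-- coarse levels -/
def tt (q J : ℕ) (lv : ℕ → ℕ) (j : ℕ) : ℕ := lv (q * min j J)

theorem tt_of_le {q J : ℕ} (lv : ℕ → ℕ) {j : ℕ} (h : j ≤ J) : tt q J lv j = lv (q * j) := by
  unfold tt
  rw [min_eq_left h]

theorem xs_ge {p : Par} {a l : ℕ} (ha : a ≤ p.nc) (h : a * (p.T + 1) < l) :
    (a : ℝ) / p.nc ≤ p.xs l := by
  have hnc : (0 : ℝ) < p.nc := by exact_mod_cast p.hnc
  have ha' : (a : ℝ) ≤ p.nc := by exact_mod_cast ha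
  have h1 : a ≤ (l - 1) / (p.T + 1) := by
    rw [Nat.le_div_iff_mul_le (show 0 < p.T + 1 from Nat.succ_pos _)]
    omega
  have h1' : (a : ℝ) ≤ (((l - 1) / (p.T + 1) : ℕ) : ℝ) := by exact_mod_cast h1
  unfold Par.xs
  refine le_min ?_ ?_
  · rw [div_le_one hnc]; exact ha'
  · rw [div_le_div_iff₀ hnc (by positivity)]
    nlinarith

theorem xs_le {p : Par} {a l : ℕ} (ha0 : 0 < a) (h : l < a * (p.T + 1)) :
    p.xs l ≤ (a : ℝ) / p.nc := by
  have hnc : (0 : ℝ) < p.nc := by exact_mod_cast p.hnc
  have h1 : (l - 1) / (p.T + 1) < a := by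
    rw [Nat.div_lt_iff_lt_mul (show 0 < p.T + 1 from Nat.succ_pos _)]
    omega
  have h1' : (((l - 1) / (p.T + 1) : ℕ) : ℝ) + 1 ≤ a := by exact_mod_cast h1
  unfold Par.xs
  refine (min_le_right _ _).trans ?_
  rw [div_le_div_iff₀ (by positivity) hnc]
  have ha : (0 : ℝ) ≤ a := by positivity
  nlinarith

section

variable {p : Par} {n' wc q J : ℕ} {lv : ℕ → ℕ}

theorem InWin.lt (h : InWin p n' wc lv) {i j : ℕ} (hij : i < j) (hj : j ≤ n') : lv i < lv j := by
  have h1 := (h i (by omega)).2
  have h2 := (h j hj).1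
  have h3 : (i + 1) * wc * (p.T + 1) ≤ j * wc * (p.T + 1) :=
    Nat.mul_le_mul_right _ (Nat.mul_le_mul_right _ hij)
  omega

theorem qj_le (hn : n' + 1 = q * (J + 1)) (hq : 0 < q) {j : ℕ} (hj : j ≤ J) : q * j ≤ n' := by
  have h1 : q * j ≤ q * J := Nat.mul_le_mul_left _ hj
  have h2 : q * (J + 1) = q * J + q := by ring
  omega

theorem tt_mono (h : InWin p n' wc lv) (hn : n' + 1 = q * (J + 1)) (hq : 0 < q) :
    Monotone (tt q J lv) := by
  intro i j hij
  unfold tt
  have h1 : min i J ≤ min j J := min_le_min_right _ hij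
  rcases h1.eq_or_lt with h2 | h2
  · rw [h2]
  · exact (h.lt (Nat.mul_lt_mul_of_pos_left h2 hq) (qj_le hn hq (min_le_right _ _))).le

/-- **the exponents are adapted to the coarse levels.** -/
theorem levels_tt (h : InWin p n' wc lv) (hp : p.nc = (n' + 1) * wc)
    (hn : n' + 1 = q * (J + 1)) (hq : 0 < q) (hwc : 0 < wc) :
    Levels p.xs J (tt q J lv) p.L (1 / ((J : ℝ) + 1)) := by
  have hJ : (0 : ℝ) < (J : ℝ) + 1 := by positivity
  have hq' : (0 : ℝ) < q := by exact_mod_cast hq
  have hq1 : (1 : ℝ) ≤ q := by exact_mod_cast hq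
  have hwc' : (0 : ℝ) < wc := by exact_mod_cast hwc
  have hp' : (p.nc : ℝ) = q * ((J : ℝ) + 1) * wc := by
    rw [hp, hn]; push_cast; ring
  have hcell : ∀ j, j ≤ J → q * j * wc ≤ p.nc := by
    intro j hj
    rw [hp]
    exact Nat.mul_le_mul_right _ ((qj_le hn hq hj).trans (by omega))
  have elo : ∀ j : ℕ, (((q * j * wc : ℕ) : ℝ)) / p.nc = j / ((J : ℝ) + 1) := by
    intro j
    rw [hp']; push_cast
    field_simp
  have ehi : ∀ j : ℕ, ((((q * j + 1) * wc : ℕ) : ℝ)) / p.nc ≤ j / ((J : ℝ) + 1) +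
      1 / ((J : ℝ) + 1) := by
    intro j
    rw [hp']; push_cast
    rw [← add_div, div_le_div_iff₀ (by positivity) hJ]
    have : ((q : ℝ) * j + 1) * wc * (J + 1) ≤ (j + 1) * (q * (J + 1) * wc) ↔
        (1 : ℝ) * (wc * (J + 1)) ≤ q * (wc * (J + 1)) := by
      constructor <;> intro h <;> nlinarith
    rw [this]
    exact mul_le_mul_of_nonneg_right hq1 (by positivity)
  refine ⟨p.xs_expo, by positivity, tt_mono h hn hq, ?_, ?_, ?_, ?_⟩
  · rw [tt_of_le lv le_rfl]
    have h1 := (h (q * J) (qj_le hn hq le_rfl)).2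
    have h2 : (q * J + 1) * wc ≤ p.nc := by
      rw [hp]
      exact Nat.mul_le_mul_right _ (by have := qj_le hn hq (le_refl J); omega)
    have h3 := Nat.mul_le_mul_right (p.T + 1) h2
    unfold Par.L
    omega
  · intro l hl
    rw [tt_of_le lv (Nat.zero_le _), Nat.mul_zero] at hl
    have h1 := (h 0 (Nat.zero_le _)).2
    have h2 := xs_le (p := p) (a := (q * 0 + 1) * wc) (l := l) (by positivity)
      (by simpa using lt_of_le_of_lt hl h1)
    refine h2.trans ((ehi 0).trans ?_)
    simp
  · intro j hj1 hj l hl1 hl2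
    rw [tt_of_le lv (by omega)] at hl1
    rw [tt_of_le lv hj] at hl2
    have h1 := (h (q * (j - 1)) (qj_le hn hq (by omega))).1
    have h2 := (h (q * j) (qj_le hn hq hj)).2
    have h3 := xs_ge (p := p) (hcell (j - 1) (by omega)) (h1.trans hl1)
    have h4 := xs_le (p := p) (a := (q * j + 1) * wc) (l := l) (by positivity)
      (lt_of_le_of_lt hl2 h2)
    rw [elo] at h3
    have h5 := h4.trans (ehi j)
    have h6 : ((j - 1 : ℕ) : ℝ) = j - 1 := by
      rw [Nat.cast_sub hj1]; simp
    rw [h6, sub_div] at h3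
    rw [abs_le]
    constructor <;> linarith
  · intro l hl1 hl2
    rw [tt_of_le lv le_rfl] at hl1
    have h1 := (h (q * J) (qj_le hn hq le_rfl)).1
    have h3 := xs_ge (p := p) (hcell J le_rfl) (h1.trans hl1)
    rw [elo] at h3
    have h7 : (J : ℝ) / ((J : ℝ) + 1) = 1 - 1 / ((J : ℝ) + 1) := by
      field_simp; ring
    rw [h7] at h3
    linarith

end

section label

variable {p : Par} {M n' wc q J s : ℕ} {lv : ℕ → ℕ}

theorem cellA_add {B : ℕ} (hB : 0 < B) (i : ℕ) : cellA B i + 1 = (i + 1) * B := by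
  unfold cellA
  have : 0 < (i + 1) * B := by positivity
  omega

theorem cellA_inj {B : ℕ} (hB : 0 < B) {i j : ℕ} (h : cellA B i = cellA B j) : i = j := by
  have h1 := cellA_add hB i
  have h2 := cellA_add hB j
  rw [h] at h1
  have h3 : (i + 1) * B = (j + 1) * B := h1.symm.trans h2
  have := Nat.eq_of_mul_eq_mul_right hB h3
  omega

theorem amF_sq {B : ℕ} (hB : 0 < B) (a : Fin M → ℝ) (g : Fin p.nc) :
    amF p B a g ^ 2 = ∑ i : Fin M, if (g : ℕ) = cellA B i then a i ^ 2 else 0 := by
  unfold amF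
  by_cases h : ∃ i : Fin M, (g : ℕ) = cellA B i
  · obtain ⟨i, hi⟩ := h
    have h1 : ∀ j : Fin M, ((g : ℕ) = cellA B j) ↔ j = i := by
      intro j
      constructor
      · intro hj
        exact Fin.ext (cellA_inj hB (hj.symm.trans hi))
      · rintro rfl
        exact hi
    simp only [h1]
    rw [Finset.sum_ite_eq' univ i, Finset.sum_ite_eq' univ i]
    simp
  · push Not at h
    have h1 : ∀ j : Fin M, ((g : ℕ) = cellA B j) ↔ False := fun j => iff_false_intro (h j)
    simp only [h1]
    simp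

theorem sum_abs_amF_le {B : ℕ} (a : Fin M → ℝ) {A : ℝ} (ha : ∀ i, |a i| ≤ A) :
    ∑ g, |amF p B a g| ≤ M * A := by
  have h1 : ∀ g : Fin p.nc, |amF p B a g| ≤
      ∑ i : Fin M, if (g : ℕ) = cellA B i then |a i| else 0 := by
    intro g
    unfold amF
    refine (Finset.abs_sum_le_sum_abs _ _).trans (Finset.sum_le_sum fun i _ => ?_)
    split_ifs <;> simp
  refine (Finset.sum_le_sum fun g _ => h1 g).trans ?_
  rw [Finset.sum_comm]
  refine (Finset.sum_le_sum (g := fun _ => A) fun i _ => ?_).trans (le_of_eq (by simp))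
  have hA : 0 ≤ A := (abs_nonneg _).trans (ha i)
  by_cases h : ∃ g : Fin p.nc, (g : ℕ) = cellA B i
  · obtain ⟨g, hg⟩ := h
    have h2 : ∀ g' : Fin p.nc, ((g' : ℕ) = cellA B i) ↔ g' = g := by
      intro g'
      constructor
      · intro h; exact Fin.ext (h.trans hg.symm)
      · rintro rfl; exact hg
    simp only [h2]
    rw [Finset.sum_ite_eq' univ g]
    simpa using ha i
  · push Not at h
    have h2 : ∀ g' : Fin p.nc, ((g' : ℕ) = cellA B i) ↔ False := fun g' => iff_false_intro (h g')
    simp only [h2]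
    simpa using hA

/-- sums of squares over the cells with a property of the label step -/
theorem sum_amF_sq {B : ℕ} (hB : 0 < B) (hM : M * B ≤ p.nc) (a : Fin M → ℝ) (c : ℕ → Prop)
    [DecidablePred c] : (∑ g : Fin p.nc, if c (p.mt g) then amF p B a g ^ 2 else 0) =
      ∑ i : Fin M, if c (((i : ℕ) + 1) * B * (p.T + 1)) then a i ^ 2 else 0 := by
  have hlt : ∀ i : Fin M, cellA B i < p.nc := by
    intro i
    have h1 := cellA_add hB (i : ℕ)
    have h2 : ((i : ℕ) + 1) * B ≤ M * B := Nat.mul_le_mul_right _ i.2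
    omega
  have e1 : ∀ g : Fin p.nc, (if c (p.mt g) then amF p B a g ^ 2 else 0) =
      ∑ i : Fin M, if g = (⟨cellA B i, hlt i⟩ : Fin p.nc) then
        (if c (((i : ℕ) + 1) * B * (p.T + 1)) then a i ^ 2 else 0) else 0 := by
    intro g
    rw [amF_sq hB]
    by_cases hc : c (p.mt g)
    · rw [if_pos hc]
      refine Finset.sum_congr rfl fun i _ => ?_
      by_cases hg : (g : ℕ) = cellA B i
      · rw [if_pos hg, if_pos (Fin.ext hg), if_pos]
        have : p.mt g = ((i : ℕ) + 1) * B * (p.T + 1) := by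
          unfold Par.mt
          rw [hg, cellA_add hB]
        rw [← this]; exact hc
      · rw [if_neg hg, if_neg (fun h => hg (congrArg Fin.val h))]
    · rw [if_neg hc]
      symm
      refine Finset.sum_eq_zero fun i _ => ?_
      by_cases hg : g = (⟨cellA B i, hlt i⟩ : Fin p.nc)
      · rw [if_pos hg, if_neg]
        have : p.mt g = ((i : ℕ) + 1) * B * (p.T + 1) := by
          unfold Par.mt
          rw [hg, cellA_add hB]
        rw [← this]; exact hc
      · rw [if_neg hg]
  simp only [e1]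
  rw [Finset.sum_comm]
  refine Finset.sum_congr rfl fun i _ => ?_
  rw [Finset.sum_ite_eq' univ]
  simp

/-- position of the label steps relative to the coarse levels -/
theorem lv_lt_iff (h : InWin p n' wc lv) (hn : n' + 1 = q * (J + 1)) (hq : 0 < q) {i j : ℕ}
    (hj : j ≤ J) : lv (q * j) < i * (q * wc) * (p.T + 1) ↔ j < i := by
  have h1 := h (q * j) (qj_le hn hq hj)
  constructor
  · intro h2
    by_contra h3
    have h4 : i ≤ j := by omega
    have h5 : i * (q * wc) * (p.T + 1) ≤ q * j * wc * (p.T + 1) := by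
      have : i * (q * wc) ≤ j * (q * wc) := Nat.mul_le_mul_right _ h4
      calc i * (q * wc) * (p.T + 1) ≤ j * (q * wc) * (p.T + 1) := Nat.mul_le_mul_right _ this
        _ = q * j * wc * (p.T + 1) := by ring
    omega
  · intro h2
    have h3 : q * j + 1 ≤ i * q := by
      calc q * j + 1 ≤ q * j + q := by omega
        _ = (j + 1) * q := by ring
        _ ≤ i * q := Nat.mul_le_mul_right _ h2
    have h4 : (q * j + 1) * wc * (p.T + 1) ≤ i * (q * wc) * (p.T + 1) := by
      calc (q * j + 1) * wc * (p.T + 1) ≤ i * q * wc * (p.T + 1) :=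
          Nat.mul_le_mul_right _ (Nat.mul_le_mul_right _ h3)
        _ = i * (q * wc) * (p.T + 1) := by ring
    omega

/-- **the label variances along the coarse levels.** -/
theorem lsV_tt (h : InWin p n' wc lv) (hp : p.nc = (n' + 1) * wc)
    (hn : n' + 1 = q * (J + 1)) (hq : 0 < q) (hwc : 0 < wc) (hs : J + 1 = (M + 1) * s)
    (a : Fin M → ℝ) {m : ℕ} (hm : m ≤ J + 1) :
    lsV p J (tt q J lv) (amF p (q * s * wc) a) m = cb J q (bvf n' (q * s) a) m := by
  have hs0 : 0 < s := by
    rcases Nat.eq_zero_or_pos s with h0 | h0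
    · rw [h0] at hs; simp at hs
    · exact h0
  have hB : 0 < q * s * wc := by positivity
  have hMB : M * (q * s * wc) ≤ p.nc := by
    rw [hp, hn, hs]
    calc M * (q * s * wc) ≤ (M + 1) * (q * s * wc) := Nat.mul_le_mul_right _ (by omega)
      _ = q * ((M + 1) * s) * wc := by ring
  have hpos : ∀ i : ℕ, (i + 1) * (q * s * wc) * (p.T + 1) = ((i + 1) * s) * (q * wc) * (p.T + 1) := by
    intro i; ring
  have hile : ∀ i : Fin M, ((i : ℕ) + 1) * s ≤ J := by
    intro i
    have h1 : ((i : ℕ) + 1) * s ≤ M * s := Nat.mul_le_mul_right _ i.2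
    have h2 : (M + 1) * s = M * s + s := by ring
    omega
  have hige : ∀ i : Fin M, 1 ≤ ((i : ℕ) + 1) * s := fun i => Nat.mul_pos (by omega) hs0
  -- the right side
  have hR : cb J q (bvf n' (q * s) a) m =
      ∑ i : Fin M, if m = J + 1 - ((i : ℕ) + 1) * s then a i ^ 2 else 0 := by
    have e0 : ∀ i : Fin M, n' + 1 - ((i : ℕ) + 1) * (q * s) = q * (J + 1 - ((i : ℕ) + 1) * s) := by
      intro i
      rw [hn, Nat.mul_sub]
      congr 1
      ring
    unfold cb
    by_cases hmJ : m ≤ J
    · rw [if_pos hmJ]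
      unfold bvf
      rw [Finset.sum_comm]
      refine Finset.sum_congr rfl fun i _ => ?_
      have e1 : ∀ r ∈ range q, (if q * m + r = n' + 1 - ((i : ℕ) + 1) * (q * s) then a i ^ 2
          else 0) = if r = 0 then (if m = J + 1 - ((i : ℕ) + 1) * s then a i ^ 2 else 0) else 0 := by
        intro r hr
        have hr' : r < q := Finset.mem_range.1 hr
        rw [e0 i]
        by_cases h1 : q * m + r = q * (J + 1 - ((i : ℕ) + 1) * s)
        · have h2 : r = 0 ∧ m = J + 1 - ((i : ℕ) + 1) * s := by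
            set y := J + 1 - ((i : ℕ) + 1) * s
            have h3 : m ≤ y := by
              by_contra h4
              have h5 : y + 1 ≤ m := by omega
              have h6 := Nat.mul_le_mul_left q h5
              have h7 : q * (y + 1) = q * y + q := by ring
              omega
            have h4 : ¬ m + 1 ≤ y := by
              intro h4
              have h6 := Nat.mul_le_mul_left q h4
              have h7 : q * (m + 1) = q * m + q := by ring
              omega
            have h5 : m = y := by omega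
            subst h5
            exact ⟨by omega, rfl⟩
          rw [if_pos h1, if_pos h2.1, if_pos h2.2]
        · rw [if_neg h1]
          by_cases h2 : r = 0
          · rw [if_pos h2, if_neg]
            intro h3
            exact h1 (by rw [h2, ← h3]; ring)
          · rw [if_neg h2]
      rw [Finset.sum_congr rfl e1, Finset.sum_ite_eq' (range q) 0]
      rw [if_pos (Finset.mem_range.2 hq)]
    · rw [if_neg hmJ]
      have hm' : m = J + 1 := by omega
      unfold bvf
      refine Finset.sum_congr rfl fun i _ => ?_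
      rw [e0 i, hm']
      have h1 := hige i
      have h2 := hile i
      rw [if_neg, if_neg]
      · omega
      · intro h3
        have := Nat.eq_of_mul_eq_mul_left hq h3
        omega
  rw [hR]
  -- the left side
  rcases Nat.eq_zero_or_pos m with hm0 | hm0
  · subst hm0
    rw [lsV_zero]
    rw [sum_amF_sq hB hMB a (fun l => tt q J lv J < l)]
    refine Finset.sum_congr rfl fun i _ => ?_
    rw [tt_of_le lv le_rfl]
    have h1 := hile i
    rw [if_neg, if_neg]
    · omega
    · rw [hpos, lv_lt_iff h hn hq le_rfl]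
      omega
  · rcases Nat.lt_or_ge J m with hmJ | hmJ
    · have hm' : m = J + 1 := by omega
      subst hm'
      rw [lsV_bot]
      rw [sum_amF_sq hB hMB a (fun l => l ≤ tt q J lv 0)]
      refine Finset.sum_congr rfl fun i _ => ?_
      rw [tt_of_le lv (Nat.zero_le _)]
      have h1 := hige i
      have h2 := hile i
      rw [if_neg, if_neg]
      · omega
      · rw [hpos, not_le, lv_lt_iff h hn hq (Nat.zero_le _)]
        omega
    · rw [lsV_mid _ (by omega) hmJ]
      rw [sum_amF_sq hB hMB a (fun l => tt q J lv (J - m) < l ∧ l ≤ tt q J lv (J - m + 1))]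
      refine Finset.sum_congr rfl fun i _ => ?_
      rw [tt_of_le lv (Nat.sub_le _ _), tt_of_le lv (show J - m + 1 ≤ J by omega), hpos]
      have h1 := hile i
      have h3 : (lv (q * (J - m)) < ((i : ℕ) + 1) * s * (q * wc) * (p.T + 1) ∧
          ((i : ℕ) + 1) * s * (q * wc) * (p.T + 1) ≤ lv (q * (J - m + 1))) ↔
          m = J + 1 - ((i : ℕ) + 1) * s := by
        rw [lv_lt_iff h hn hq (Nat.sub_le _ _), ← not_lt,
          lv_lt_iff h hn hq (show J - m + 1 ≤ J by omega)]
        omega
      by_cases h4 : m = J + 1 - ((i : ℕ) + 1) * s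
      · rw [if_pos h4, if_pos (h3.2 h4)]
      · rw [if_neg h4, if_neg (fun h => h4 (h3.1 h))]

end label

end

end Crest.Agent.R164.CavG
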