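import Crest.Agent.R164.LLimA3
import Crest.Agent.R164.LLimA4
import Crest.Agent.R164.LIbp

/-!
Row 164, L side (GL6, helper639), part 5: `LG.LLIMA`.
-/

set_option autoImplicit false

namespace Crest.Agent.R164.CavG

open MeasureTheory ProbabilityTheory Finset Crest.Agent.R141

noncomputable section

section avg

variable {β : Type*} [Fintype β] [DecidableEq β] {Ω κ : Type*} [Fintype Ω] [Fintype κ]
  {Z : Type*} [MeasurableSpace Z] {μ : Measure Z} [IsProbabilityMeasure μ] {D : Type*} [Fintype D]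
  {q : D → ℝ} {P : D → Z → Ω → ℝ} {r : D → ℕ → Setoid Ω} {kap : κ → β} {x : Z → Ω → κ → ℝ}
  {Q : ℕ → β → ℝ} {J : ℕ}

/-- one overlap deviation -/
def dvA (P : Ω → ℝ) (r : ℕ → Setoid Ω) (kap : κ → β) (x : Ω → κ → ℝ) (Q : ℕ → β → ℝ) (n : ℕ)
    (k : β) : ℝ := eE P (fun ω => |ip kap k (XX P r x n ω) (XX P r x n ω) - Q n k|)

omit [Fintype β] in
theorem measurable_dvA {P : Z → Ω → ℝ} {r : ℕ → Setoid Ω} (hP : ∀ a, Measurable fun z => P z a)
    (hx : ∀ a i, Measurable fun z => x z a i) (n : ℕ) (k : β) :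
    Measurable fun z => dvA (P z) r kap (x z) Q n k := by
  unfold dvA
  refine measurable_eEp hP fun ω => ?_
  have h : Measurable fun z => ip kap k (XX (P z) r (x z) n ω) (XX (P z) r (x z) n ω) := by
    unfold ip
    refine Finset.measurable_fun_sum _ fun i _ => ?_
    split_ifs
    · exact (measurable_XX hP hx r n ω i).mul (measurable_XX hP hx r n ω i)
    · exact measurable_const
  exact continuous_abs.measurable.comp (h.sub_const (Q n k))

theorem measurable_pur {P : Z → Ω → ℝ} (r : Setoid Ω) (hP : ∀ a, Measurable fun z => P z a)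
    (hx : ∀ a i, Measurable fun z => x z a i) : Measurable fun z => pur (P z) r (x z) := by
  unfold pur
  refine measurable_eEp hP fun ω => ?_
  refine Finset.measurable_fun_sum _ fun i _ => Finset.measurable_fun_sum _ fun j _ => ?_
  refine Measurable.pow_const ?_ 2
  unfold cvr dv cEv
  refine measurable_cEp hP (fun a => ?_) r ω
  exact ((hx a i).sub (measurable_cEp hP (fun a => hx a i) r ω)).mul
    ((hx a j).sub (measurable_cEp hP (fun a => hx a j) r ω))

omit [Fintype β] in
theorem dvA_nonneg {P : Ω → ℝ} (hP : IsProb P) (r : ℕ → Setoid Ω) (x : Ω → κ → ℝ) (n : ℕ)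
    (k : β) : 0 ≤ dvA P r kap x Q n k := eE_nonneg hP fun _ => abs_nonneg _

omit [Fintype β] in
theorem dvA_le {P : Ω → ℝ} (hP : IsProb P) (r : ℕ → Setoid Ω) {x : Ω → κ → ℝ} {C : ℝ}
    (hC : ∀ ω, ∑ i, x ω i ^ 2 ≤ C) (n : ℕ) (k : β) : dvA P r kap x Q n k ≤ C + |Q n k| := by
  refine eE_le_of_le hP fun ω => ?_
  have h3 : ∑ i, XX P r x n ω i ^ 2 ≤ C := by
    cases n with
    | zero => exact hC ω
    | succ n => exact sum_sq_cEv_le hP hC ω
  have h4 := (ip_self_le kap k (XX P r x n ω)).trans h3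
  have h5 := ip_self_nonneg kap k (XX P r x n ω)
  refine (abs_sub _ _).trans ?_
  rw [abs_of_nonneg h5]
  linarith

/-- the averaged deviation from the averages of its terms -/
theorem avg_Dev_le {C es : ℝ} (hC : ∀ᵐ z ∂μ, ∀ ω, ∑ i, x z ω i ^ 2 ≤ C)
    (hP : ∀ e z, IsProb (P e z)) (hPm : ∀ e ω, Measurable fun z => P e z ω)
    (hxm : ∀ ω i, Measurable fun z => x z ω i)
    (hA : ∀ n, n ≤ J + 1 → ∀ k, ∫ z, ∑ e, q e * dvA (P e z) (r e) kap (x z) Q n k ∂μ ≤ es)
    (hB : ∀ n, n ≤ J → ∫ z, ∑ e, q e * pur (P e z) (r e n) (x z) ∂μ ≤ es) :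
    ∫ z, ∑ e, q e * Dev (P e z) (r e) J kap (x z) Q ∂μ ≤
      (((J : ℝ) + 2) * Fintype.card β + ((J : ℝ) + 1)) * es := by
  have hiA : ∀ n k, Integrable (fun z => ∑ e, q e * dvA (P e z) (r e) kap (x z) Q n k) μ := by
    intro n k
    refine integrable_finsetSum _ fun e _ => Integrable.const_mul ?_ _
    refine Integrable.of_bound (C := C + |Q n k|)
      (measurable_dvA (hPm e) hxm n k).aestronglyMeasurable ?_
    filter_upwards [hC] with z hz
    rw [Real.norm_eq_abs, abs_of_nonneg (dvA_nonneg (hP e z) _ _ _ _)]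
    exact dvA_le (hP e z) _ hz n k
  have hiB : ∀ n, Integrable (fun z => ∑ e, q e * pur (P e z) (r e n) (x z)) μ := by
    intro n
    refine integrable_finsetSum _ fun e _ => Integrable.const_mul ?_ _
    refine Integrable.of_bound (C := C ^ 2)
      (measurable_pur (r e n) (hPm e) hxm).aestronglyMeasurable ?_
    filter_upwards [hC] with z hz
    rw [Real.norm_eq_abs, abs_of_nonneg (pur_nonneg (hP e z) _)]
    exact pur_le (hP e z) _ hz
  have e1 : (fun z => ∑ e, q e * Dev (P e z) (r e) J kap (x z) Q) = fun z =>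
      (∑ n ∈ range (J + 2), ∑ k, ∑ e, q e * dvA (P e z) (r e) kap (x z) Q n k) +
        ∑ n ∈ range (J + 1), ∑ e, q e * pur (P e z) (r e n) (x z) := by
    funext z
    have e2 : ∀ e, q e * Dev (P e z) (r e) J kap (x z) Q =
        (∑ n ∈ range (J + 2), ∑ k, q e * dvA (P e z) (r e) kap (x z) Q n k) +
          ∑ n ∈ range (J + 1), q e * pur (P e z) (r e n) (x z) := by
      intro e
      unfold Dev dvA
      rw [mul_add, Finset.mul_sum, Finset.mul_sum]
      congr 1
      exact Finset.sum_congr rfl fun n _ => by rw [Finset.mul_sum]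
    simp only [e2]
    rw [Finset.sum_add_distrib]
    congr 1
    · rw [Finset.sum_comm]
      refine Finset.sum_congr rfl fun n _ => ?_
      rw [Finset.sum_comm]
    · rw [Finset.sum_comm]
  rw [e1, integral_add (integrable_finsetSum _ fun n _ => integrable_finsetSum _ fun k _ => hiA n k)
    (integrable_finsetSum _ fun n _ => hiB n),
    integral_finsetSum _ (fun n _ => integrable_finsetSum _ fun k _ => hiA n k),
    integral_finsetSum _ (fun n _ => hiB n)]
  have h1 : ∀ n ∈ range (J + 2), ∫ z, ∑ k, ∑ e, q e * dvA (P e z) (r e) kap (x z) Q n k ∂μ ≤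
      Fintype.card β * es := by
    intro n hn
    rw [integral_finsetSum _ (fun k _ => hiA n k)]
    refine (Finset.sum_le_sum fun k _ => hA n (by have := Finset.mem_range.1 hn; omega) k).trans
      (le_of_eq ?_)
    rw [Finset.sum_const, Finset.card_univ, nsmul_eq_mul]
  have h2 : ∀ n ∈ range (J + 1), ∫ z, ∑ e, q e * pur (P e z) (r e n) (x z) ∂μ ≤ es :=
    fun n hn => hB n (by have := Finset.mem_range.1 hn; omega)
  refine (add_le_add (Finset.sum_le_sum h1) (Finset.sum_le_sum h2)).trans (le_of_eq ?_)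
  rw [Finset.sum_const, Finset.sum_const, Finset.card_range, Finset.card_range, nsmul_eq_mul,
    nsmul_eq_mul]
  push_cast
  ring

end avg

theorem WS_eq_WU {K : ℕ} (w val : Fin (K + 1) → ℝ) (b : ℝ) (k : Fin (K + 1))
    (z : Unit ⊕ Fin (K + 1) → ℝ) : LLimB.WS w val b k z = WU w val b k 0 z := by
  unfold LLimB.WS WU
  rw [zero_add]
  congr 1
  funext o
  rcases o with _ | l <;> rfl

end

end Crest.Agent.R164.CavG

namespace Crest.Agent.R164.LG

open MeasureTheory ProbabilityTheory Finset Crest.Agent.R141 Crest.Agent.R164.Haar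
open Crest.Agent.R164.CavG
open Crest.Agent.R164.ED (psi zl stP stF LS lsF lsP lsP_isProb BU OU)

noncomputable section

set_option maxHeartbeats 1000000 in
/-- **(GL6)** from the system to the coarse Gaussian functional. -/
theorem llima (X : Glob) : LLIMA X := by
  intro M A Bm ε hε tr htr
  set c1 : ℝ := 15 * (tr + 1) ^ 2 * Real.exp (4 * (tr + 1)) with hc1
  have hc1p : 0 < c1 := by positivity
  obtain ⟨J0, hJ0⟩ := exists_nat_gt (c1 / (ε / 3))
  refine ⟨J0, ?_⟩
  intro J hJ s hs
  set B1 : ℝ := M * |A| with hB1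
  have hB1p : 0 ≤ B1 := by positivity
  obtain ⟨d, hd, hmain⟩ := cavity_avg (Fin (X.K + 1)) J (tr + 1) 1 (4 * B1 ^ 2) (1 + B1 ^ 2)
    (LW X.w X.val) (by positivity) zero_le_one (by positivity) (by positivity)
    (ε := ε / 3) (by positivity)
  set Cst : ℝ := ((J : ℝ) + 2) * Fintype.card (Fin (X.K + 1)) + ((J : ℝ) + 1) with hCst
  have hCstp : 0 < Cst := by positivity
  obtain ⟨n0, hn0⟩ := bavg_W1 (ε := d / (B1 + 1)) (by positivity)
  refine ⟨ε / 3 * (d / (2 * (tr + 1) * Cst)), by positivity, 1, ?_⟩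
  intro q hq n' wc hn hwc p hnb
  refine ⟨1, ?_⟩
  intro N hN
  refine ⟨n0, ?_⟩
  intro n hn1 Kp θ L lv P hS k b a hb ha
  have hq0 : 0 < q := hq
  have hN0 : 0 < N := hN
  have := X.hnu N
  set es : ℝ := ε / 3 * (d / (2 * (tr + 1) * Cst)) with hes
  set af := amF p (q * s * wc) a with haf
  have hwin : ∀ e, InWin p n' wc (lv e) := fun e => inWin_of_cell (hS.cell e)
  have hlev : ∀ e, Levels p.xs J (tt q J (lv e)) p.L (1 / ((J : ℝ) + 1)) := fun e =>
    levels_tt (hwin e) hS.hp hn hq0 hwc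
  have hb1 : ∑ g, |af g| ≤ B1 := by
    refine (sum_abs_amF_le a (A := |A|) fun i => ?_)
    rw [abs_of_nonneg (ha i).1]
    exact (ha i).2.trans (le_abs_self A)
  have hsq : ∑ g, af g ^ 2 ≤ B1 ^ 2 := by
    have h3 : ∑ g, af g ^ 2 ≤ (∑ g, |af g|) ^ 2 := by
      have := Finset.sum_sq_le_sq_sum_of_nonneg (s := univ) (f := fun g => |af g|)
        (fun g _ => abs_nonneg _)
      simpa using this
    exact h3.trans (pow_le_pow_left₀ (Finset.sum_nonneg fun _ _ => abs_nonneg _) hb1 2)
  have hW1 : W1 n (d / (B1 + 1)) := hn0 n hn1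
  have hls : ∀ e m, m ≤ J + 1 → lsV p J (tt q J (lv e)) af m = GEx.cb J q (bvf n' (q * s) a) m :=
    fun e m hm => lsV_tt (hwin e) hS.hp hn hq0 hwc hs a hm
  have hNN : Nonempty (DD p N) := ⟨fun _ => none⟩
  have e0 : DD p N := hNN.some
  have hclt : ∀ e, Clt (lsP p n) (fun m => (lsF p n).F (tt q J (lv e) (J - m))) J
      (fun l => ∑ g, af g * zl l.1 g) (GEx.cb J q (bvf n' (q * s) a)) d := by
    intro e
    have h3 := clt_ls (n := n) (b := af) (J := J) hW1 (by positivity) (hlev e).mono hb1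
    refine (h3.congr (hls e)).mono ?_
    rw [mul_div_assoc', div_le_iff₀ (by positivity)]
    nlinarith
  have hOK : ∀ᵐ V ∂(X.nu N), ∀ ω : G.Om (LD.B p N n), ∑ i, xn n V ω i ^ 2 ≤ 1 := by
    filter_upwards [(X.hR N).mem] with V hV
    intro ω
    exact (sum_xN_sq (n := n) (p := p) hN0 hV ω).le
  have hPm : ∀ (e : DD p N) (ω : G.Om (LD.B p N n)), Measurable fun V => Pl X n Kp θ L V e ω :=
    fun e ω => LD.meas_PL _ _ _ _ _ _ _ e ω
  have hPp : ∀ (e : DD p N) (V : Mat (Fin N)), IsProb (Pl X n Kp θ L V e) := fun e V =>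
    G.PP_isProb _ _ _
  have hxm : ∀ (ω : G.Om (LD.B p N n)) (i : Fin N), Measurable fun V => xn n V ω i :=
    fun ω i => measurable_xN (n := n) (p := p) ω i
  have hav := hmain (Ω := G.Om (LD.B p N n)) (Λ := LS p n) (κ := Fin N) (Z := Mat (Fin N))
    (X.nu N) (D := DD p N) (dw p N) (fun e V => Pl X n Kp θ L V e) (lsP p n)
    (G.fil (LD.B p N n)) (lsF p n) (stF p N n) p.xs (fun e => tt q J (lv e)) (1 / ((J : ℝ) + 1))
    (Glob.kap L) (fun V ω => xn n V ω) (LLimB.Qc X.w X.val n' q P)
    (fun l => ∑ g, af g * zl l.1 g) (GEx.cb J q (bvf n' (q * s) a))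
    (fun z => psi tr (LLimB.WS X.w X.val b k z)) (dw_nonneg p N) (dw_sum p hN0) hOK hPp hPm hxm
    lsP_isProb (fun l => rfl) (stF_zero n) hlev
    (fun i k _ => LLimB.Qc_nonneg X.hv X.hw hS.step i k)
    (fun i k _ => LLimB.Qc_anti X.hv X.hw hS.step i k)
    (by
      rw [LLimB.sum_Qc_zero X.hv X.hw hS.step]
      nlinarith [sq_nonneg B1])
    (fun m hm => by rw [← hls e0 m hm]; exact labV_nonneg _ _ _ _)
    (fun m hm => by
      rw [← hls e0 m hm]
      exact (labV_le _ _ _ _).trans (by linarith))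
    hclt ((eE_ls_sq_le af).trans (by
      have := pow_le_pow_left₀ (Finset.sum_nonneg fun g _ => abs_nonneg (af g)) hb1 2
      linarith))
    (by
      have := psiW_locLip X.w X.val b k 0 htr
      simpa only [WS_eq_WU] using this)
    (fun z => by rw [WS_eq_WU]; exact psiW_bound X.w X.val b k 0 htr z)
  -- the averaged deviation
  have hDev : ∫ V, ∑ e, dw p N e * Dev (Pl X n Kp θ L V e)
      (fun m => (G.fil (LD.B p N n)).F (tt q J (lv e) (J - m))) J (Glob.kap L) (xn n V)
      (LLimB.Qc X.w X.val n' q P) ∂(X.nu N) ≤ Cst * es := by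
    refine avg_Dev_le (q := dw p N) (P := fun e V => Pl X n Kp θ L V e)
      (r := fun e m => (G.fil (LD.B p N n)).F (tt q J (lv e) (J - m))) (x := fun V ω => xn n V ω)
      hOK hPp hPm hxm ?_ ?_
    · intro m hm k'
      have h1 := hS.ov (n' + 1 - q * m) (by omega) k'
      have e1 : ∀ V e, dvA (Pl X n Kp θ L V e)
          (fun m => (G.fil (LD.B p N n)).F (tt q J (lv e) (J - m))) (Glob.kap L) (xn n V)
          (LLimB.Qc X.w X.val n' q P) m k' =
          eE (Pl X n Kp θ L V e) (fun ω =>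
            |CavG.ip (Glob.kap L) k'
                (CavG.cEv (Pl X n Kp θ L V e)
                  ((G.fil (LD.B p N n)).F (lv e (n' + 1 - q * m))) (xn n V) ω)
                (CavG.cEv (Pl X n Kp θ L V e)
                  ((G.fil (LD.B p N n)).F (lv e (n' + 1 - q * m))) (xn n V) ω) -
              X.w k' * SDAlg.Ghat X.w (SDAlg.gap X.val 1) (n' + 1) (mu n') P k'
                (n' + 1 - q * m)|) := by
        intro V e
        have e2 : ∀ ω, XX (Pl X n Kp θ L V e)
            (fun m => (G.fil (LD.B p N n)).F (tt q J (lv e) (J - m))) (xn n V) m ω =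
            CavG.cEv (Pl X n Kp θ L V e)
              ((G.fil (LD.B p N n)).F (lv e (n' + 1 - q * m))) (xn n V) ω := by
          intro ω
          cases m with
          | zero =>
            rw [Nat.mul_zero, Nat.sub_zero, hS.top e]
            have e3 : (G.fil (LD.B p N n)).F p.L = ⊥ := (G.fil (LD.B p N n)).bot p.L le_rfl
            rw [e3]
            funext i
            exact (cE_bot (hPp e V) (fun a => xn n V a i) ω).symm
          | succ m =>
            show CavG.cEv (Pl X n Kp θ L V e)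
              ((G.fil (LD.B p N n)).F (tt q J (lv e) (J - m))) (xn n V) ω = _
            rw [tt_of_le _ (Nat.sub_le J m)]
            have e3 : q * (J - m) = n' + 1 - q * (m + 1) := by
              rw [hn, ← Nat.mul_sub]
              congr 1
              omega
            rw [e3]
        unfold dvA
        simp only [e2]
        rfl
      have e4 : (fun V => ∑ e, dw p N e * dvA (Pl X n Kp θ L V e)
          (fun m => (G.fil (LD.B p N n)).F (tt q J (lv e) (J - m))) (Glob.kap L) (xn n V)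
          (LLimB.Qc X.w X.val n' q P) m k') = fun V => Ed p N (fun e =>
          eE (Pl X n Kp θ L V e) (fun ω =>
            |CavG.ip (Glob.kap L) k'
                (CavG.cEv (Pl X n Kp θ L V e)
                  ((G.fil (LD.B p N n)).F (lv e (n' + 1 - q * m))) (xn n V) ω)
                (CavG.cEv (Pl X n Kp θ L V e)
                  ((G.fil (LD.B p N n)).F (lv e (n' + 1 - q * m))) (xn n V) ω) -
              X.w k' * SDAlg.Ghat X.w (SDAlg.gap X.val 1) (n' + 1) (mu n') P k'
                (n' + 1 - q * m)|)) := by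
        funext V
        unfold Ed
        exact Finset.sum_congr rfl fun e _ => by rw [e1]
      rw [e4]
      exact h1
    · intro m hm
      have h1 := hS.pu (q * (J - m)) (qj_le hn hq0 (Nat.sub_le J m))
      have e4 : (fun V => ∑ e, dw p N e * CavG.pur (Pl X n Kp θ L V e)
          ((G.fil (LD.B p N n)).F (tt q J (lv e) (J - m))) (xn n V)) = fun V => Ed p N (fun e =>
          CavG.pur (Pl X n Kp θ L V e) ((G.fil (LD.B p N n)).F (lv e (q * (J - m)))) (xn n V)) := by
        funext V
        unfold Ed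
        refine Finset.sum_congr rfl fun e _ => ?_
        rw [tt_of_le _ (Nat.sub_le J m)]
      rw [e4]
      exact h1
  have hcav : cavF X n Kp θ L tr k b af = ∫ V, ∑ e, dw p N e * ∫ ζ,
      ED.aE (pP (Pl X n Kp θ L V e) (lsP p n)) (stF p N n) p.xs (fun u =>
        psi tr (LLimB.WS X.w X.val b k (cmb (∑ g, af g * zl u.2.1 g)
          (zf (Glob.kap L) (xn n V u.1) ζ)))) ∂(gm (Fin N)) ∂(X.nu N) := rfl
  rw [hcav]
  refine hav.trans ?_
  have hJc : c1 * (1 / ((J : ℝ) + 1)) ≤ ε / 3 := by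
    have h1 : c1 / (ε / 3) < (J : ℝ) + 1 := by
      have : (J0 : ℝ) ≤ J := by exact_mod_cast hJ
      linarith
    rw [div_lt_iff₀ (by positivity)] at h1
    rw [mul_one_div, div_le_iff₀ (by positivity)]
    linarith
  have hes2 : 2 * (tr + 1) / d * (Cst * es) = ε / 3 := by
    rw [hes]
    field_simp
  have h9 := mul_le_mul_of_nonneg_left hDev (show 0 ≤ 2 * (tr + 1) / d by positivity)
  rw [hes2] at h9
  linarith

end

end Crest.Agent.R164.LG
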