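import Crest.Agent.R164.LStruct2D

/-!
# Row 164, module LSTRUCT-2, part E

What a small total error `Err` gives, in the names of `LDef`, `OvSys`.
-/

set_option autoImplicit false
set_option linter.unusedSectionVars false
set_option linter.unusedVariables false

namespace Crest.Agent.R164.LS2

open Finset MeasureTheory Crest.Agent.R141 Crest.Agent.R164 Crest.Agent.R164.ObsConc
open Crest.Agent.R164.G (Base prior_isProb)
open Crest.Agent.R164.LGrid (gavg pt sh SD)
open Crest.Agent.R164.Haar (Mat RHaar)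
open Crest.ProbabilityR.InvariantGlass (spinVec)

noncomputable section

variable {p : Par} {N K J : ℕ} {act : Finset (Fin p.nc)}
variable (n : ℕ) (val : Fin (K + 1) → ℝ) (c t : Fin J → ℝ) (Kp : ℝ)
  (kap : Fin N → Fin (K + 1)) (lab : Fin N → Fin J)
variable {ν : Measure (Mat (Fin N))} [IsProbabilityMeasure ν]

/-- `EO` of an observable of the base configuration as the double average. -/
theorem EO_eq_dv (ht : ∀ j, |t j| ≤ 1) (hKp : 0 ≤ Kp)
    (hν : ∀ᵐ U ∂ν, Matrix.of U ∈ Matrix.orthogonalGroup (Fin N) ℝ) (θ : Cd K J act → ℝ)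
    {V : Mat (Fin N) → SY.SS p n (Finset.univ : Finset (Fin N → Bool)) → ℝ}
    (hV : Adm (LD.B p N n) ν V) :
    LD.EO ν n val c t Kp (prm act θ) kap lab (fun U _ ω => V U ω.1) =
      mV (B := LD.B p N n) ν (HF n val c t Kp kap lab θ) V := by
  have hH := adm_HF (act := act) val c t Kp ht hKp n kap lab hν θ
  have h1 : LD.EO ν n val c t Kp (prm act θ) kap lab (fun U _ ω => V U ω.1) =
      ∫ U, ∑ d, dw p N d * eE (LD.PL n val c t Kp (prm act θ) kap lab U d)
        (fun ω => V U ω.1) ∂ν := rfl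
  have hi : ∀ d : DD p N, Integrable
      (fun U => eE (LD.PL n val c t Kp (prm act θ) kap lab U d) (fun ω => V U ω.1)) ν :=
    fun d => hH.int_obs hV d
  rw [h1, integral_finsetSum _ fun d _ => (hi d).const_mul _]
  simp only [integral_const_mul]
  rfl

/-- block of the eigenvalue label `k`. -/
def blkK (kap : Fin N → Fin (K + 1)) (k : Fin (K + 1)) : Finset (Fin N) :=
  Finset.univ.filter fun i => kap i = k

/-- the centre of the block observable of the cell `g`. -/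
def ddK (ν : Measure (Mat (Fin N))) (θ : Cd K J act → ℝ) (k : Fin (K + 1)) (g : ℕ) : ℝ :=
  if h : g < p.nc then mD n val c t Kp kap lab ν θ (Sum.inr (Sum.inr (k, ⟨g, h⟩))) else 0

theorem OH_eq (k : Fin (K + 1)) (g : Fin p.nc) (U : Mat (Fin N)) (ω : G.Om (LD.B p N n)) :
    OvC.OH n (LD.univ_ne N) p (blkK kap k) (g : ℕ) U ω =
      (N : ℝ)⁻¹ * Vd (act := act) n kap lab (Sum.inr (Sum.inr (k, g))) U ω.1 := by
  unfold OvC.OH blkK
  rw [Finset.sum_filter]
  congr 1
  refine Finset.sum_congr rfl fun i _ => ?_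
  by_cases h1 : kap i = k
  · simp only [if_pos h1, dif_pos g.2]; rfl
  · simp only [if_neg h1]

/-- **Concentration of the block observables**, hypothesis of `OvC.data_sys`. -/
theorem conc_OH (ht : ∀ j, |t j| ≤ 1) (hKp : 0 ≤ Kp)
    {ν' : Measure (Mat (Fin (N + 1)))} (θ : Cd K J act → ℝ) (k : Fin (K + 1)) {g : ℕ}
    (hg : g < p.nc) :
    RotRel.dav (dw p N) ν (fun d U => eE (LD.PL n val c t Kp (prm act θ) kap lab U d)
      (fun ω => |OvC.OH n (LD.univ_ne N) p (blkK kap k) g U ω -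
        ddK n val c t Kp kap lab ν θ k g|)) ≤ Err n val c t Kp kap lab ν ν' θ := by
  have hN0 : (0 : ℝ) ≤ (N : ℝ)⁻¹ := by positivity
  have e1 : (fun (d : DD p N) (U : Mat (Fin N)) =>
      eE (LD.PL n val c t Kp (prm act θ) kap lab U d)
      (fun ω => |OvC.OH n (LD.univ_ne N) p (blkK kap k) g U ω -
        ddK n val c t Kp kap lab ν θ k g|)) = fun d U => (N : ℝ)⁻¹ *
      eE (LD.PL n val c t Kp (prm act θ) kap lab U d)
      (fun ω => |Vd (act := act) n kap lab (Sum.inr (Sum.inr (k, ⟨g, hg⟩))) U ω.1 -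
        mV (B := LD.B p N n) ν (HF n val c t Kp kap lab θ)
          (Vd (act := act) n kap lab (Sum.inr (Sum.inr (k, ⟨g, hg⟩))))|) := by
    funext d U
    rw [← eE_smul]
    congr 1
    funext ω
    have h1 := OH_eq (act := act) n kap lab k ⟨g, hg⟩ U ω
    have h2 : ddK n val c t Kp kap lab ν θ k g = (N : ℝ)⁻¹ *
        mV (B := LD.B p N n) ν (HF n val c t Kp kap lab θ)
          (Vd (act := act) n kap lab (Sum.inr (Sum.inr (k, ⟨g, hg⟩)))) := by
      unfold ddK; rw [dif_pos hg]; rfl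
    rw [h2]
    have h3 : OvC.OH n (LD.univ_ne N) p (blkK kap k) g U ω =
      (N : ℝ)⁻¹ * Vd (act := act) n kap lab (Sum.inr (Sum.inr (k, ⟨g, hg⟩))) U ω.1 := h1
    rw [h3, ← mul_sub, abs_mul, abs_of_nonneg hN0]
  rw [e1, RotRel.dav_smul]
  have h1 : (N : ℝ)⁻¹ * RotRel.dav (dw p N) ν (fun d U =>
      eE (LD.PL n val c t Kp (prm act θ) kap lab U d)
      (fun ω => |Vd (act := act) n kap lab (Sum.inr (Sum.inr (k, ⟨g, hg⟩))) U ω.1 -
        mV (B := LD.B p N n) ν (HF n val c t Kp kap lab θ)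
          (Vd (act := act) n kap lab (Sum.inr (Sum.inr (k, ⟨g, hg⟩))))|)) =
      cerr (LD.B p N n) ν (HF n val c t Kp kap lab θ)
        (Vd n kap lab (Sum.inr (Sum.inr (k, ⟨g, hg⟩)))) := rfl
  rw [h1]
  have h2 : cerr (LD.B p N n) ν (HF n val c t Kp kap lab θ)
        (Vd n kap lab (Sum.inr (Sum.inr (k, ⟨g, hg⟩)))) ≤ ErrC n val c t Kp kap lab ν θ :=
    Finset.single_le_sum (f := fun x : Cd K J act =>
      cerr (LD.B p N n) ν (HF n val c t Kp kap lab θ) (Vd n kap lab x))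
      (fun _ _ => cerr_nonneg _ _) (Finset.mem_univ _)
  have h3 : (0 : ℝ) ≤ ∑ k', ∑ j', ErrM n val c t Kp kap lab ν ν' k' j' θ :=
    Finset.sum_nonneg fun _ _ => Finset.sum_nonneg fun _ _ => ErrM_nonneg _ _ _ _ _ _ _ _ _ _ _
  unfold Err
  linarith

/-! ### Magnetisations and main-field observables -/

theorem MO_eq (j : Fin J) (U : Mat (Fin N)) (ω : G.Om (LD.B p N n)) :
    LD.MO n lab j ω = (Mag.rJ lab j)⁻¹ * Vd (act := act) n kap lab (Sum.inl j) U ω.1 := by
  unfold LD.MO Mag.mag Mag.rJ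
  rw [div_eq_inv_mul, Finset.sum_filter]
  rfl

theorem TO_eq (j : Fin J) (g : act) (U : Mat (Fin N)) (ω : G.Om (LD.B p N n)) :
    LD.TO n lab j g.1 ω =
      (Mag.rJ lab j)⁻¹ * Vd (act := act) n kap lab (Sum.inr (Sum.inl (j, g))) U ω.1 := rfl

theorem adm_smul {V : Mat (Fin N) → SY.SS p n (Finset.univ : Finset (Fin N → Bool)) → ℝ}
    (hV : Adm (LD.B p N n) ν V) (r : ℝ) : Adm (LD.B p N n) ν (fun U s => r * V U s) := by
  obtain ⟨Kb, hK⟩ := hV.bdd
  refine ⟨fun s => (hV.meas s).const_mul r, |r| * Kb, ?_⟩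
  filter_upwards [hK] with U h s
  rw [abs_mul]
  exact mul_le_mul_of_nonneg_left (h s) (abs_nonneg r)

theorem adm_dev {V : Mat (Fin N) → SY.SS p n (Finset.univ : Finset (Fin N → Bool)) → ℝ}
    (hV : Adm (LD.B p N n) ν V) (m : ℝ) : Adm (LD.B p N n) ν (fun U s => |V U s - m|) := by
  obtain ⟨Kb, hK⟩ := hV.bdd
  refine ⟨fun s => ((hV.meas s).sub_const m).abs, Kb + |m|, ?_⟩
  filter_upwards [hK] with U h s
  rw [abs_abs]
  exact (abs_sub _ _).trans (add_le_add (h s) le_rfl)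

theorem mV_smul (H V : Mat (Fin N) → SY.SS p n (Finset.univ : Finset (Fin N → Bool)) → ℝ) (r : ℝ) :
    mV (B := LD.B p N n) ν H (fun U s => r * V U s) = r * mV (B := LD.B p N n) ν H V := by
  unfold mV
  rw [← dv_smul]
  congr 1
  funext d U
  exact eE_smul _ _ _

/-- mean of the magnetisation of a group -/
theorem EO_MO (hN : 0 < N) (ht : ∀ j, |t j| ≤ 1) (hKp : 0 ≤ Kp)
    (hν : ∀ᵐ U ∂ν, Matrix.of U ∈ Matrix.orthogonalGroup (Fin N) ℝ) (θ : Cd K J act → ℝ)
    (j : Fin J) :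
    LD.EO ν n val c t Kp (prm act θ) kap lab (fun _ _ ω => LD.MO n lab j ω) =
      N / Mag.rJ lab j * mD n val c t Kp kap lab ν θ (Sum.inl j) := by
  have hNr : (N : ℝ) ≠ 0 := by positivity
  have hV := adm_Vd (act := act) (n := n) (kap := kap) (lab := lab) hν (Sum.inl j)
  have e : (fun (U : Mat (Fin N)) (_ : DD p N) (ω : G.Om (LD.B p N n)) => LD.MO n lab j ω) =
      fun U _ ω => (fun U s => (Mag.rJ lab j)⁻¹ *
        Vd (act := act) n kap lab (Sum.inl j) U s) U ω.1 := by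
    funext U _ ω; exact MO_eq (act := act) n kap lab j U ω
  rw [e, EO_eq_dv n val c t Kp kap lab ht hKp hν θ (adm_smul n hV _), mV_smul]
  unfold mD mN
  field_simp

/-- mean of the main-field observable of a group -/
theorem EO_TO (hN : 0 < N) (ht : ∀ j, |t j| ≤ 1) (hKp : 0 ≤ Kp)
    (hν : ∀ᵐ U ∂ν, Matrix.of U ∈ Matrix.orthogonalGroup (Fin N) ℝ) (θ : Cd K J act → ℝ)
    (j : Fin J) (g : act) :
    LD.EO ν n val c t Kp (prm act θ) kap lab (fun _ _ ω => LD.TO n lab j g.1 ω) =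
      N / Mag.rJ lab j * mD n val c t Kp kap lab ν θ (Sum.inr (Sum.inl (j, g))) := by
  have hNr : (N : ℝ) ≠ 0 := by positivity
  have hV := adm_Vd (act := act) (n := n) (kap := kap) (lab := lab) hν
    (Sum.inr (Sum.inl (j, g)))
  have e : (fun (U : Mat (Fin N)) (_ : DD p N) (ω : G.Om (LD.B p N n)) => LD.TO n lab j g.1 ω) =
      fun U _ ω => (fun U s => (Mag.rJ lab j)⁻¹ *
        Vd (act := act) n kap lab (Sum.inr (Sum.inl (j, g))) U s) U ω.1 := by
    funext U _ ω; exact TO_eq (act := act) n kap lab j g U ω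
  rw [e, EO_eq_dv n val c t Kp kap lab ht hKp hν θ (adm_smul n hV _), mV_smul]
  unfold mD mN
  field_simp

/-- **Concentration of the magnetisations.** -/
theorem conc_MO (hN : 0 < N) (ht : ∀ j, |t j| ≤ 1) (hKp : 0 ≤ Kp)
    (hν : ∀ᵐ U ∂ν, Matrix.of U ∈ Matrix.orthogonalGroup (Fin N) ℝ)
    {ν' : Measure (Mat (Fin (N + 1)))} (θ : Cd K J act → ℝ) (j : Fin J) :
    LD.EO ν n val c t Kp (prm act θ) kap lab (fun _ _ ω => |LD.MO n lab j ω -
      LD.EO ν n val c t Kp (prm act θ) kap lab (fun _ _ ω => LD.MO n lab j ω)|) ≤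
      N / Mag.rJ lab j * Err n val c t Kp kap lab ν ν' θ := by
  have hNr : (N : ℝ) ≠ 0 := by positivity
  have hr0 : 0 ≤ (Mag.rJ lab j)⁻¹ := inv_nonneg.2 (Mag.rJ_nonneg lab j)
  have hV := adm_Vd (act := act) (n := n) (kap := kap) (lab := lab) hν (Sum.inl j)
  rw [EO_MO n val c t Kp kap lab hN ht hKp hν θ j]
  set m := mV (B := LD.B p N n) ν (HF n val c t Kp kap lab θ)
    (Vd (act := act) n kap lab (Sum.inl j)) with hm
  have hmm : N / Mag.rJ lab j * mD n val c t Kp kap lab ν θ (Sum.inl j) =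
      (Mag.rJ lab j)⁻¹ * m := by
    unfold mD mN
    rw [← hm]
    field_simp
  rw [hmm]
  have e : (fun (U : Mat (Fin N)) (_ : DD p N) (ω : G.Om (LD.B p N n)) =>
      |LD.MO n lab j ω - (Mag.rJ lab j)⁻¹ * m|) =
      fun U _ ω => (fun U s => (Mag.rJ lab j)⁻¹ *
        |Vd (act := act) n kap lab (Sum.inl j) U s - m|) U ω.1 := by
    funext U _ ω
    show |LD.MO n lab j ω - (Mag.rJ lab j)⁻¹ * m| = (Mag.rJ lab j)⁻¹ *
        |Vd (act := act) n kap lab (Sum.inl j) U ω.1 - m|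
    rw [MO_eq (act := act) n kap lab j U ω, ← mul_sub, abs_mul, abs_of_nonneg hr0]
  rw [e, EO_eq_dv n val c t Kp kap lab ht hKp hν θ (adm_smul n (adm_dev n hV m) _), mV_smul]
  have h1 : mV (B := LD.B p N n) ν (HF n val c t Kp kap lab θ)
      (fun U s => |Vd (act := act) n kap lab (Sum.inl j) U s - m|) =
      N * cerr (LD.B p N n) ν (HF n val c t Kp kap lab θ)
        (Vd (act := act) n kap lab (Sum.inl j)) := by
    unfold cerr
    rw [mul_inv_cancel_left₀ hNr]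
    rfl
  rw [h1]
  have h2 : cerr (LD.B p N n) ν (HF n val c t Kp kap lab θ)
        (Vd (act := act) n kap lab (Sum.inl j)) ≤ ErrC n val c t Kp kap lab ν θ :=
    Finset.single_le_sum (f := fun x : Cd K J act =>
      cerr (LD.B p N n) ν (HF n val c t Kp kap lab θ) (Vd n kap lab x))
      (fun _ _ => cerr_nonneg _ _) (Finset.mem_univ _)
  have h3 : (0 : ℝ) ≤ ∑ k', ∑ j', ErrM n val c t Kp kap lab ν ν' k' j' θ :=
    Finset.sum_nonneg fun _ _ => Finset.sum_nonneg fun _ _ => ErrM_nonneg _ _ _ _ _ _ _ _ _ _ _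
  have h4 : cerr (LD.B p N n) ν (HF n val c t Kp kap lab θ)
        (Vd (act := act) n kap lab (Sum.inl j)) ≤ Err n val c t Kp kap lab ν ν' θ := by
    unfold Err; linarith
  calc (Mag.rJ lab j)⁻¹ * (N * cerr (LD.B p N n) ν (HF n val c t Kp kap lab θ)
        (Vd (act := act) n kap lab (Sum.inl j)))
      = (N / Mag.rJ lab j) * cerr (LD.B p N n) ν (HF n val c t Kp kap lab θ)
        (Vd (act := act) n kap lab (Sum.inl j)) := by ring
    _ ≤ _ := mul_le_mul_of_nonneg_left h4 (div_nonneg (Nat.cast_nonneg N) (Mag.rJ_nonneg lab j))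

/-! ### Comparison of the group averages at sizes `N` and `N + 1` -/

theorem rJ_snoc (j' j : Fin J) :
    Mag.rJ (Fin.snoc lab j' : Fin (N + 1) → Fin J) j =
      Mag.rJ lab j + if j' = j then 1 else 0 := by
  unfold Mag.rJ
  have h : ∀ {M : ℕ} (l : Fin M → Fin J), (((Finset.univ.filter fun r => l r = j).card : ℕ) : ℝ) =
      ∑ r, if l r = j then (1 : ℝ) else 0 := by
    intro M l
    rw [Finset.card_filter]; push_cast; rfl
  rw [h, h, Fin.sum_univ_castSucc]
  simp only [Fin.snoc_castSucc, Fin.snoc_last]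

theorem ratio_compare {m m' r r' M L e g : ℝ} (hg : 0 < g) (hM : 1 ≤ M) (hr : g * M ≤ r)
    (hr' : r ≤ r') (hr1 : r' ≤ r + 1) (hrM : r ≤ M) (hm' : |m'| ≤ L) (he : |m - m'| ≤ e) :
    |M / r * m - (M + 1) / r' * m'| ≤ g⁻¹ * e + 2 * L / (g ^ 2 * M) := by
  have hM0 : 0 < M := by linarith
  have hr0 : 0 < r := lt_of_lt_of_le (by positivity) hr
  have hr0' : 0 < r' := lt_of_lt_of_le hr0 hr'
  have hL : 0 ≤ L := (abs_nonneg _).trans hm'
  have he0 : 0 ≤ e := (abs_nonneg _).trans he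
  have hg1 : g ≤ 1 := by
    by_contra h
    push Not at h
    nlinarith
  have e1 : M / r * m - (M + 1) / r' * m' = M / r * (m - m') + (M / r - (M + 1) / r') * m' := by
    ring
  have b1 : M / r ≤ g⁻¹ := by
    rw [div_le_iff₀ hr0, ← div_eq_inv_mul, le_div_iff₀ hg]
    linarith
  have b2 : |M / r - (M + 1) / r'| ≤ 2 / (g ^ 2 * M) := by
    have e2 : M / r - (M + 1) / r' = (M * (r' - r) - r) / (r * r') := by
      field_simp
      ring
    rw [e2, abs_div, abs_of_pos (mul_pos hr0 hr0'), div_le_div_iff₀ (mul_pos hr0 hr0')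
      (by positivity)]
    have a1 : |M * (r' - r) - r| ≤ M := by
      rw [abs_le]
      constructor
      · nlinarith
      · nlinarith
    have a2 : (g * M) * (g * M) ≤ r * r' := mul_le_mul hr (hr.trans hr') (by positivity) hr0.le
    have a3 : 0 < g ^ 2 * M := by positivity
    nlinarith [mul_le_mul_of_nonneg_right a1 a3.le]
  rw [e1]
  refine (abs_add_le _ _).trans ?_
  rw [abs_mul, abs_mul, abs_of_pos (div_pos hM0 hr0)]
  have c1 : M / r * |m - m'| ≤ g⁻¹ * e := mul_le_mul b1 he (abs_nonneg _) (inv_pos.2 hg).le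
  have c2 : |M / r - (M + 1) / r'| * |m'| ≤ 2 / (g ^ 2 * M) * L :=
    mul_le_mul b2 hm' (abs_nonneg _) (by positivity)
  have c3 : 2 / (g ^ 2 * M) * L = 2 * L / (g ^ 2 * M) := by ring
  linarith

variable {ν' : Measure (Mat (Fin (N + 1)))} [IsProbabilityMeasure ν']

theorem mD_compare_le (θ : Cd K J act → ℝ) (k' : Fin (K + 1)) (j' : Fin J) (x : Cd K J act) :
    |mD n val c t Kp kap lab ν θ x -
      mD n val c t Kp (Fin.snoc kap k' : Fin (N + 1) → Fin (K + 1))
        (Fin.snoc lab j' : Fin (N + 1) → Fin J) ν' θ x| ≤ Err n val c t Kp kap lab ν ν' θ := by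
  have h1 : |mD n val c t Kp kap lab ν θ x -
      mD n val c t Kp (Fin.snoc kap k' : Fin (N + 1) → Fin (K + 1))
        (Fin.snoc lab j' : Fin (N + 1) → Fin J) ν' θ x| ≤ ErrM n val c t Kp kap lab ν ν' k' j' θ :=
    Finset.single_le_sum (f := fun x : Cd K J act => |mD n val c t Kp kap lab ν θ x -
      mD n val c t Kp (Fin.snoc kap k' : Fin (N + 1) → Fin (K + 1))
        (Fin.snoc lab j' : Fin (N + 1) → Fin J) ν' θ x|)
      (fun _ _ => abs_nonneg _) (Finset.mem_univ x)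
  have h2 : ErrM n val c t Kp kap lab ν ν' k' j' θ ≤
      ∑ j', ErrM n val c t Kp kap lab ν ν' k' j' θ :=
    Finset.single_le_sum (f := fun j' => ErrM n val c t Kp kap lab ν ν' k' j' θ)
      (fun _ _ => ErrM_nonneg _ _ _ _ _ _ _ _ _ _ _) (Finset.mem_univ j')
  have h3 : ∑ j', ErrM n val c t Kp kap lab ν ν' k' j' θ ≤
      ∑ k', ∑ j', ErrM n val c t Kp kap lab ν ν' k' j' θ :=
    Finset.single_le_sum (f := fun k' => ∑ j', ErrM n val c t Kp kap lab ν ν' k' j' θ)
      (fun _ _ => Finset.sum_nonneg fun _ _ => ErrM_nonneg _ _ _ _ _ _ _ _ _ _ _)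
      (Finset.mem_univ k')
  have h4 := ErrC_nonneg (ν := ν) n val c t Kp kap lab θ
  unfold Err
  linarith

/-- **Comparison of the means of the magnetisations** at sizes `N` and `N + 1`. -/
theorem MO_compare (hnb : p.nb = 0) (hN : 0 < N) (ht : ∀ j, |t j| ≤ 1) (hKp : 0 ≤ Kp)
    (hν : ∀ᵐ U ∂ν, Matrix.of U ∈ Matrix.orthogonalGroup (Fin N) ℝ)
    (hν' : ∀ᵐ U ∂ν', Matrix.of U ∈ Matrix.orthogonalGroup (Fin (N + 1)) ℝ)
    {θ : Cd K J act → ℝ} {R : ℝ} (hR0 : 0 ≤ R) (hR : ∀ x, |θ x| ≤ R) (k' : Fin (K + 1))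
    (j' j : Fin J) {g : ℝ} (hg : 0 < g) (hr : g * N ≤ Mag.rJ lab j) :
    |LD.EO ν n val c t Kp (prm act θ) kap lab (fun _ _ ω => LD.MO n lab j ω) -
      LD.EO ν' n val c t Kp (prm act θ) (Fin.snoc kap k' : Fin (N + 1) → Fin (K + 1))
        (Fin.snoc lab j' : Fin (N + 1) → Fin J)
        (fun _ _ ω => LD.MO n (Fin.snoc lab j' : Fin (N + 1) → Fin J) j ω)| ≤
      g⁻¹ * Err n val c t Kp kap lab ν ν' θ + 2 * (1 + CTR p val c Kp R) / (g ^ 2 * N) := by
  rw [EO_MO n val c t Kp kap lab hN ht hKp hν θ j,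
    EO_MO (N := N + 1) n val c t Kp _ _ (Nat.succ_pos N) ht hKp hν' θ j, rJ_snoc]
  have hcard : Mag.rJ lab j ≤ N := by
    unfold Mag.rJ
    exact_mod_cast (Finset.card_le_univ _).trans_eq (Fintype.card_fin N)
  have h := ratio_compare (m := mD n val c t Kp kap lab ν θ (Sum.inl j))
    (m' := mD n val c t Kp (Fin.snoc kap k' : Fin (N + 1) → Fin (K + 1))
        (Fin.snoc lab j' : Fin (N + 1) → Fin J) ν' θ (Sum.inl j)) (r := Mag.rJ lab j)
    (r' := Mag.rJ lab j + if j' = j then 1 else 0) (M := N) (L := 1 + CTR p val c Kp R)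
    hg (by exact_mod_cast hN) hr (by split_ifs <;> linarith) (by split_ifs <;> linarith) hcard
    (mN_le val c t Kp hnb (Nat.succ_pos N) ht hKp hν' hR0 hR (Sum.inl j))
    (mD_compare_le n val c t Kp kap lab (ν := ν) (ν' := ν') θ k' j' (Sum.inl j))
  push_cast
  exact h

/-- **Comparison of the means of the main-field observables** at sizes `N` and `N + 1`. -/
theorem TO_compare (hnb : p.nb = 0) (hN : 0 < N) (ht : ∀ j, |t j| ≤ 1) (hKp : 0 ≤ Kp)
    (hν : ∀ᵐ U ∂ν, Matrix.of U ∈ Matrix.orthogonalGroup (Fin N) ℝ)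
    (hν' : ∀ᵐ U ∂ν', Matrix.of U ∈ Matrix.orthogonalGroup (Fin (N + 1)) ℝ)
    {θ : Cd K J act → ℝ} {R : ℝ} (hR0 : 0 ≤ R) (hR : ∀ x, |θ x| ≤ R) (k' : Fin (K + 1))
    (j' j : Fin J) (q : act) {g : ℝ} (hg : 0 < g) (hr : g * N ≤ Mag.rJ lab j) :
    |LD.EO ν n val c t Kp (prm act θ) kap lab (fun _ _ ω => LD.TO n lab j q.1 ω) -
      LD.EO ν' n val c t Kp (prm act θ) (Fin.snoc kap k' : Fin (N + 1) → Fin (K + 1))
        (Fin.snoc lab j' : Fin (N + 1) → Fin J)
        (fun _ _ ω => LD.TO n (Fin.snoc lab j' : Fin (N + 1) → Fin J) j q.1 ω)| ≤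
      g⁻¹ * Err n val c t Kp kap lab ν ν' θ + 2 * (1 + CTR p val c Kp R) / (g ^ 2 * N) := by
  rw [EO_TO n val c t Kp kap lab hN ht hKp hν θ j q,
    EO_TO (N := N + 1) n val c t Kp _ _ (Nat.succ_pos N) ht hKp hν' θ j q, rJ_snoc]
  have hcard : Mag.rJ lab j ≤ N := by
    unfold Mag.rJ
    exact_mod_cast (Finset.card_le_univ _).trans_eq (Fintype.card_fin N)
  have h := ratio_compare (m := mD n val c t Kp kap lab ν θ (Sum.inr (Sum.inl (j, q))))
    (m' := mD n val c t Kp (Fin.snoc kap k' : Fin (N + 1) → Fin (K + 1))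
        (Fin.snoc lab j' : Fin (N + 1) → Fin J) ν' θ (Sum.inr (Sum.inl (j, q))))
    (r := Mag.rJ lab j)
    (r' := Mag.rJ lab j + if j' = j then 1 else 0) (M := N) (L := 1 + CTR p val c Kp R)
    hg (by exact_mod_cast hN) hr (by split_ifs <;> linarith) (by split_ifs <;> linarith) hcard
    (mN_le val c t Kp hnb (Nat.succ_pos N) ht hKp hν' hR0 hR _)
    (mD_compare_le n val c t Kp kap lab (ν := ν) (ν' := ν') θ k' j' _)
  push_cast
  exact h

end

end Crest.Agent.R164.LS2
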