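import Crest.Agent.R164.LStr7
import Crest.Agent.R164.LGDef
import Crest.Agent.R164.LStruct2E

/-!
Row 164, L side, (GL8): the structure module `LG.STRUCT`.
-/

set_option autoImplicit false

namespace Crest.Agent.R164.LStr

open Finset MeasureTheory Crest.Agent.R141 Crest.Agent.R164 Crest.Agent.R164.RSys
open Crest.Agent.R164.Rot (OK xc)
open Crest.Agent.R164.RotRel (rr dav dav_add dav_smul dav_const dav_mono XU integrable_cont)

noncomputable section

/-! ### Strictness -/

theorem cE_pos_of {Ω : Type*} [Fintype Ω] {P : Ω → ℝ} (hP : IsProb P) {r : Setoid Ω} {f : Ω → ℝ}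
    (h : ∀ a, 0 ≤ f a) {ω a : Ω} (ha : r ω a) (hfa : 0 < f a) : 0 < cE P r f ω := by
  classical
  unfold cE
  refine div_pos ?_ (cls_pos hP r ω)
  refine Finset.sum_pos' (fun i _ => mul_nonneg (hP.pos i).le (h i)) ⟨a, ?_, ?_⟩
  · simpa using ha
  · exact mul_pos (hP.pos a) hfa

theorem cE_sq_lt_one {Ω : Type*} [Fintype Ω] {P : Ω → ℝ} (hP : IsProb P) {r : Setoid Ω}
    {f : Ω → ℝ} (h : ∀ a, |f a| ≤ 1) {ω a b : Ω} (ha : r ω a) (hb : r ω b) (hfa : f a < 1)
    (hfb : -1 < f b) : (cE P r f ω) ^ 2 < 1 := by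
  have h1 : 0 < cE P r (fun x => 1 - f x) ω :=
    cE_pos_of hP (fun x => by linarith [(abs_le.1 (h x)).2]) ha (by linarith)
  have h2 : 0 < cE P r (fun x => 1 + f x) ω :=
    cE_pos_of hP (fun x => by linarith [(abs_le.1 (h x)).1]) hb (by linarith)
  rw [cE_sub, cE_const hP] at h1
  rw [cE_add, cE_const hP] at h2
  nlinarith

section strict

variable {p : Par} {N n : ℕ} {t : ℝ} {V : (Fin N → Bool) → ℝ} {a lam : Fin N → Fin p.nc → ℝ}
  {μ : Measure (Fin N → Fin N → ℝ)} [IsProbabilityMeasure μ]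

/-- the configuration with a changed spin -/
def flipAt (i : Fin N) (v : Bool) (ω : G.Om (LD.B p N n)) : G.Om (LD.B p N n) :=
  ((⟨Function.update ω.1.1.1 i v, Finset.mem_univ _⟩, ω.1.2), ω.2)

theorem flipAt_rel (i : Fin N) (v : Bool) (ω : G.Om (LD.B p N n)) {l : ℕ} (hl : l < p.L) :
    (G.fil (LD.B p N n)).F l ω (flipAt i v ω) := by
  show G.frel (LD.B p N n) l ω (flipAt i v ω)
  refine ⟨fun _ _ _ _ => rfl, fun _ _ _ => rfl, ?_⟩
  show SY.srel l ω.1 (flipAt i v ω).1
  exact ⟨fun _ _ => rfl, fun _ _ => rfl, fun h => absurd h (by omega)⟩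

theorem ov_lt_one {P : G.Om (LD.B p N n) → ℝ} (hP : IsProb P) (hN : 0 < N) {l : ℕ}
    (hl : l < p.L) (ω : G.Om (LD.B p N n)) :
    (N : ℝ)⁻¹ * ∑ i, (cE P ((G.fil (LD.B p N n)).F l)
      (fun ω => sp n (LD.univ_ne N) ω i) ω) ^ 2 < 1 := by
  have hN' : (0 : ℝ) < N := by exact_mod_cast hN
  have h1 : ∑ i : Fin N, (cE P ((G.fil (LD.B p N n)).F l)
      (fun ω => sp n (LD.univ_ne N) ω i) ω) ^ 2 < ∑ _i : Fin N, (1 : ℝ) := by
    refine Finset.sum_lt_sum_of_nonempty ⟨⟨0, hN⟩, Finset.mem_univ _⟩ fun i _ => ?_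
    refine cE_sq_lt_one hP (fun ω => ?_) (flipAt_rel i false ω hl) (flipAt_rel i true ω hl) ?_ ?_
    · unfold sp; exact (sv_abs _).le
    · show sv ((Function.update ω.1.1.1 i false) i) < 1
      rw [Function.update_self]
      norm_num [sv]
    · show -1 < sv ((Function.update ω.1.1.1 i true) i)
      rw [Function.update_self]
      norm_num [sv]
  rw [Finset.sum_const, Finset.card_univ, Fintype.card_fin, nsmul_eq_mul, mul_one] at h1
  rw [inv_mul_lt_iff₀ hN']
  linarith

/-- strict inequality for averages -/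
theorem dav_lt_one (hN : 0 < N) {f : DD p N → (Fin N → Fin N → ℝ) → ℝ}
    (hi : ∀ d, Integrable (f d) μ) (h : ∀ d U, f d U < 1) : dav (dw p N) μ f < 1 := by
  have h1 : ∀ d, ∫ U, f d U ∂μ < 1 := by
    intro d
    have h2 : 0 < ∫ U, (1 - f d U) ∂μ := by
      have hi' : Integrable (fun U => 1 - f d U) μ := (integrable_const 1).sub (hi d)
      rw [integral_pos_iff_support_of_nonneg (fun U => by
        show (0 : ℝ) ≤ 1 - f d U
        linarith [h d U]) hi']
      have : Function.support (fun U => 1 - f d U) = Set.univ := by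
        ext U
        simp only [Function.mem_support, Set.mem_univ, iff_true]
        have := h d U
        intro h3
        linarith
      rw [this]
      simp
    rw [integral_sub (integrable_const 1) (hi d)] at h2
    simp at h2
    exact h2
  unfold dav
  have h3 : ∑ d, dw p N d * ∫ U, f d U ∂μ < ∑ d, dw p N d * 1 := by
    have : Nonempty (DD p N) := by
      by_contra hc
      rw [not_nonempty_iff] at hc
      have := dw_sum p hN
      simp at this
    refine Finset.sum_lt_sum_of_nonempty Finset.univ_nonempty fun d _ => ?_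
    exact mul_lt_mul_of_pos_left (h1 d) (dw_pos p hN d)
  simp only [mul_one] at h3
  rwa [dw_sum p hN] at h3

theorem pb_lt_one (hμ : ∀ᵐ U ∂μ, U ∈ OK N) (hN : 0 < N) (eig : Fin N → ℝ)
    (c : ℕ → Fin p.nc) (sel : Fin p.nc → DD p N → Fin p.T) {nn b : ℕ} (hb : b < nn) :
    pb n (LD.univ_ne N) eig t V a lam μ c sel nn b < 1 := by
  unfold pb
  refine dav_lt_one hN (fun d => ?_) fun d U => ?_
  · refine integrable_cont hμ (cont_eEf n (LD.univ_ne N) eig t V a lam d
      (f := fun U ω => (N : ℝ)⁻¹ * ∑ i,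
      (cE (PQ n (LD.univ_ne N) eig t V a lam U d) ((G.fil (SY.base p n _ (LD.univ_ne N))).F
        (RSys.lv c sel nn d b)) (fun ω => sp n (LD.univ_ne N) ω i) ω) ^ 2) fun ω => ?_)
    exact continuous_const.mul (continuous_finsetSum _ fun i _ =>
      (cont_cEf n (LD.univ_ne N) eig t V a lam d (f := fun _ ω => sp n (LD.univ_ne N) ω i)
        (fun _ => continuous_const) _ ω).pow 2)
  · have hQ := PQ_isProb n (LD.univ_ne N) eig t V a lam U d
    have hl : RSys.lv c sel nn d b < p.L := by
      rw [RSys.lv_of_lt hb]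
      exact lt_of_lt_of_le (p.ct_lt_mt (sel (c b) d).2) (p.mt_lt_L (c b).2).le
    obtain ⟨ω0, -, hω0⟩ := Finset.exists_max_image (univ : Finset (G.Om (LD.B p N n)))
      (fun ω => (N : ℝ)⁻¹ * ∑ i, (cE (PQ n (LD.univ_ne N) eig t V a lam U d)
        ((G.fil (LD.B p N n)).F (RSys.lv c sel nn d b))
        (fun ω => sp n (LD.univ_ne N) ω i) ω) ^ 2) Finset.univ_nonempty
    refine lt_of_le_of_lt (eE_le_of_le hQ fun ω => hω0 ω (Finset.mem_univ ω)) ?_
    exact ov_lt_one hQ hN hl ω0

end strict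

/-! ### Block overlaps and purity in the notation of the cavity limit -/

section sys

variable {p : Par} {N n : ℕ} {A : Finset (Fin N → Bool)} {hA : A.Nonempty}
  {κ : Type} [Fintype κ] [DecidableEq κ] {eig : Fin N → ℝ}
  {t : ℝ} {V : (Fin N → Bool) → ℝ} {a lam : Fin N → Fin p.nc → ℝ}

/-- the scaled application -/
def xs (n : ℕ) (hA : A.Nonempty) (U : Fin N → Fin N → ℝ) (ω : G.Om (SY.base p n A hA))
    (i : Fin N) : ℝ := (Real.sqrt N)⁻¹ * SY.xU (Matrix.of U) ω.1.1.1 i

theorem xs_eq (U : Fin N → Fin N → ℝ) (i : Fin N) :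
    (fun ω => xs (p := p) n hA U ω i) = fun ω => (Real.sqrt N)⁻¹ * XU (sp n hA) U i ω := rfl

theorem sqrt_inv_sq : ((Real.sqrt N)⁻¹ : ℝ) ^ 2 = (N : ℝ)⁻¹ := by
  rw [inv_pow, Real.sq_sqrt (Nat.cast_nonneg _)]

theorem ip_eq (lab : Fin N → κ) (k : κ) (l : ℕ) (d : DD p N) (U : Fin N → Fin N → ℝ)
    (ω : G.Om (SY.base p n A hA)) :
    CavG.ip lab k (CavG.cEv (PQ n hA eig t V a lam U d) ((G.fil (SY.base p n A hA)).F l)
        (xs n hA U) ω)
      (CavG.cEv (PQ n hA eig t V a lam U d) ((G.fil (SY.base p n A hA)).F l) (xs n hA U) ω) =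
      ((blk lab k).card / (N : ℝ)) * ro n hA eig t V a lam (blk lab k) l d U ω := by
  have e : ((blk lab k).card / (N : ℝ)) * ro n hA eig t V a lam (blk lab k) l d U ω =
      (N : ℝ)⁻¹ * ∑ i ∈ blk lab k, (cE (PQ n hA eig t V a lam U d)
        ((G.fil (SY.base p n A hA)).F l) (XU (sp n hA) U i) ω) ^ 2 := by
    rw [← OvC.card_mul_rr (XU (sp n hA) U)]
    unfold ro
    ring
  rw [e]
  unfold CavG.ip CavG.cEv blk
  rw [Finset.sum_filter, Finset.mul_sum]
  refine Finset.sum_congr rfl fun i _ => ?_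
  split_ifs with h
  · rw [xs_eq, cE_smul, ← sqrt_inv_sq]
    ring
  · rw [mul_zero]

theorem pur_le (hN : 0 < N) {U : Fin N → Fin N → ℝ} (hU : U ∈ OK N) (k : Stp p) (d : DD p N) :
    CavG.pur (PQ n hA eig t V a lam U d) ((G.fil (SY.base p n A hA)).F (p.ct k.1 k.2))
      (xs n hA U) ≤ G.purNum (SY.base p n A hA) (Hs n A eig t V a lam U) k d := by
  have hQ := PQ_isProb n hA eig t V a lam U d
  refine le_trans (le_of_eq ?_) (G.avc2_le_purNum (SY.base p n A hA) hN
    (Hs n A eig t V a lam U) d k (m := p.L)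
    ((p.ct_lt_mt k.2.2).le.trans (p.mt_lt_L k.1.2).le) le_rfl)
  have e1 : ∀ (i j : Fin N) (ω : G.Om (SY.base p n A hA)),
      CavG.cvr (PQ n hA eig t V a lam U d) ((G.fil (SY.base p n A hA)).F (p.ct k.1 k.2))
        (xs n hA U) i j ω = (N : ℝ)⁻¹ * covR (PQ n hA eig t V a lam U d)
        ((G.fil (SY.base p n A hA)).F (p.ct k.1 k.2)) (XU (sp n hA) U i) (XU (sp n hA) U j) ω := by
    intro i j ω
    set r := (G.fil (SY.base p n A hA)).F (p.ct k.1 k.2) with hr
    set P := PQ n hA eig t V a lam U d with hPd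
    unfold CavG.cvr CavG.dv CavG.cEv covR
    have e2 : (fun a : G.Om (SY.base p n A hA) =>
        (xs n hA U a i - cE P r (fun a => xs n hA U a i) ω) *
        (xs n hA U a j - cE P r (fun a => xs n hA U a j) ω)) = fun a => (N : ℝ)⁻¹ *
        ((XU (sp n hA) U i a * XU (sp n hA) U j a) - cE P r (XU (sp n hA) U i) ω *
          XU (sp n hA) U j a - cE P r (XU (sp n hA) U j) ω * XU (sp n hA) U i a +
          cE P r (XU (sp n hA) U i) ω * cE P r (XU (sp n hA) U j) ω) := by
      funext a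
      rw [xs_eq, xs_eq, cE_smul, cE_smul, ← sqrt_inv_sq]
      show ((Real.sqrt N)⁻¹ * XU (sp n hA) U i a - _) * ((Real.sqrt N)⁻¹ * XU (sp n hA) U j a - _)
        = _
      ring
    rw [e2, cE_smul, cE_add, cE_sub, cE_sub, cE_smul, cE_smul, cE_const hQ]
    ring
  unfold CavG.pur G.avc2
  simp only [e1]
  have e3 : ∀ ω, ∑ i, ∑ j, ((N : ℝ)⁻¹ * covR (PQ n hA eig t V a lam U d)
        ((G.fil (SY.base p n A hA)).F (p.ct k.1 k.2)) (XU (sp n hA) U i)
        (XU (sp n hA) U j) ω) ^ 2 = ((N : ℝ) ^ 2)⁻¹ * ∑ i, ∑ j,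
        covR (PQ n hA eig t V a lam U d) ((G.fil (SY.base p n A hA)).F (p.ct k.1 k.2))
          (fun ω => sp n hA ω i) (fun ω => sp n hA ω j) ω ^ 2 := by
    intro ω
    rw [← RotRel.frob hU _ (fun i ω => sp n hA ω i) (fun i => XU (sp n hA) U i)
      (fun i ω => by unfold XU xc Matrix.mulVec dotProduct; rfl) ω, Finset.mul_sum]
    refine Finset.sum_congr rfl fun i _ => ?_
    rw [Finset.mul_sum]
    refine Finset.sum_congr rfl fun j _ => ?_
    rw [mul_pow, inv_pow]
  simp only [e3]
  rw [eE_smul]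
  congr 1
  rw [eE_sum]
  refine Finset.sum_congr rfl fun i _ => ?_
  rw [eE_sum]
  refine Finset.sum_congr rfl fun j _ => ?_
  have e4 : ∀ i, cE (G.PP (SY.base p n A hA) (Hs n A eig t V a lam U) d)
      ((G.fil (SY.base p n A hA)).F p.L) (fun ω => (SY.base p n A hA).f i ω.1) =
      fun ω => sp n hA ω i := by
    intro i
    funext ω
    exact cE_of_meas (PQ_isProb n hA eig t V a lam U d)
      (rmeas_of_ge (𝓕 := G.fil (SY.base p n A hA)) le_rfl _) ω
  rw [e4, e4]
  rfl

end sys

/-! ### Averages -/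

section avg

variable {p : Par} {N K J n : ℕ} {mu : Measure (Fin N → Fin N → ℝ)} [IsProbabilityMeasure mu]

/-- double average of a continuous observable -/
theorem EO_dav (hμ : ∀ᵐ U ∂mu, U ∈ OK N) (val : Fin (K + 1) → ℝ) (c t : Fin J → ℝ) (Kp : ℝ)
    (θ : LD.Prm p K J) (kap : Fin N → Fin (K + 1)) (lab : Fin N → Fin J)
    {O : (Fin N → Fin N → ℝ) → DD p N → G.Om (LD.B p N n) → ℝ}
    (hO : ∀ d ω, Continuous fun U => O U d ω) :
    LD.EO mu n val c t Kp θ kap lab O =
      dav (dw p N) mu (fun d U => eE (LD.PL n val c t Kp θ kap lab U d) (O U d)) := by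
  unfold LD.EO dav Ed
  rw [integral_finsetSum _ fun d _ => ?_]
  · refine Finset.sum_congr rfl fun d _ => ?_
    rw [integral_const_mul]
  · exact (integrable_cont hμ (cont_eEf n (LD.univ_ne N) (fun i => val (kap i)) 1
      (LD.VL c t Kp θ.el lab) (fun i g => θ.am (lab i) g) (fun i g => θ.lm (kap i) g) d
      (f := fun U ω => O U d ω) (hO d))).const_mul _

end avg

/-- **(GL8)** -/
theorem struct (X : LG.Glob) : LG.STRUCT X := by
  obtain ⟨Lam, hLam⟩ : ∃ Lam : ℝ, ∀ k, |X.val k| ≤ Lam := by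
    obtain ⟨k0, -, hk0⟩ := Finset.exists_max_image (univ : Finset (Fin (X.K + 1)))
      (fun k => |X.val k|) Finset.univ_nonempty
    exact ⟨|X.val k0|, fun k => hk0 k (Finset.mem_univ k)⟩
  obtain ⟨C, K1, hC, hK1, main⟩ := lstr_main' X.hw hLam
  set Δ : ℝ := X.val (Fin.last X.K) - X.val 0 with hΔd
  set A' : ℝ := ∑ k, 2 / X.w k with hA'
  have hatoms : SDAlg.Rel.Atoms X.w X.val (Fin.last X.K) A' Δ := {
    pos := X.hw
    sum := X.hs
    top := fun k => X.hv.monotone (Fin.le_last k)
    gap := fun k => by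
      have := X.hv.monotone (Fin.zero_le k)
      rw [hΔd]; linarith
    bd := fun k => Finset.single_le_sum (f := fun k => 2 / X.w k)
      (fun i _ => (div_pos two_pos (X.hw i)).le) (Finset.mem_univ k)
    hΔ := by
      have := X.hv.monotone (Fin.zero_le (Fin.last X.K))
      rw [hΔd]; linarith }
  set CC := SDAlg.Rel.CC A' Δ with hCC
  have hCC0 : 0 ≤ CC := SDAlg.Rel.CC_nonneg hatoms.A_nonneg hatoms.hΔ
  have hC0 : 0 < C := by linarith
  intro E A Kmax es hes
  have hJ : (0 : ℝ) < (X.J : ℝ) + 1 := by positivity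
  -- choice of n1
  obtain ⟨n1, hn1⟩ : ∃ n1 : ℕ, ∀ n' : ℕ, n1 ≤ n' → C / ((n' : ℝ) + 1) ≤ 1 ∧
      1 / ((n' : ℝ) + 1) + CC * Real.sqrt (C / ((n' : ℝ) + 1)) ≤ es / 2 := by
    obtain ⟨m1, hm1⟩ := exists_nat_gt C
    obtain ⟨m2, hm2⟩ := exists_nat_gt (4 / es)
    obtain ⟨m3, hm3⟩ := exists_nat_gt (C * (4 * (CC + 1) / es) ^ 2)
    refine ⟨max m1 (max m2 m3), fun n' hn' => ?_⟩
    have a1 : (m1 : ℝ) ≤ n' := by exact_mod_cast (le_max_left _ _).trans hn'
    have a2 : (m2 : ℝ) ≤ n' := by
      exact_mod_cast ((le_max_left _ _).trans (le_max_right _ _)).trans hn'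
    have a3 : (m3 : ℝ) ≤ n' := by
      exact_mod_cast ((le_max_right _ _).trans (le_max_right _ _)).trans hn'
    have hp : (0 : ℝ) < (n' : ℝ) + 1 := by positivity
    refine ⟨?_, ?_⟩
    · rw [div_le_one hp]; linarith
    · have b1 : 1 / ((n' : ℝ) + 1) ≤ es / 4 := by
        rw [div_le_iff₀ hp]
        rw [div_lt_iff₀ hes] at hm2
        nlinarith
      have b2 : Real.sqrt (C / ((n' : ℝ) + 1)) ≤ es / (4 * (CC + 1)) := by
        apply Real.sqrt_le_iff.2
        refine ⟨by positivity, ?_⟩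
        rw [div_le_iff₀ hp]
        have h1 : C * (4 * (CC + 1) / es) ^ 2 ≤ (n' : ℝ) + 1 := by linarith
        calc C = (es / (4 * (CC + 1))) ^ 2 * (C * (4 * (CC + 1) / es) ^ 2) := by field_simp
          _ ≤ (es / (4 * (CC + 1))) ^ 2 * ((n' : ℝ) + 1) :=
            mul_le_mul_of_nonneg_left h1 (sq_nonneg _)
      have b3 : CC * Real.sqrt (C / ((n' : ℝ) + 1)) ≤ es / 4 := by
        have h1 : CC * Real.sqrt (C / ((n' : ℝ) + 1)) ≤ (CC + 1) * (es / (4 * (CC + 1))) :=
          mul_le_mul (by linarith) b2 (Real.sqrt_nonneg _) (by linarith)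
        refine h1.trans (le_of_eq ?_)
        field_simp
      linarith
  refine ⟨n1, fun n' hn' => ?_⟩
  obtain ⟨hCn, hes2⟩ := hn1 n' hn'
  have hp1 : (0 : ℝ) < (n' : ℝ) + 1 := by positivity
  obtain ⟨wc, p, hwc, hnc, hnb, main⟩ := main n' (es / 2) (by positivity)
  refine ⟨wc, by omega, p, hnb, hnc, ?_⟩
  obtain ⟨βm, hβm, main⟩ := main (∑ j, |X.c j| + 4 * |Kmax| + |E|) (by positivity) A
  refine ⟨βm, hβm, fun lo hlo hlo' act => ?_⟩
  obtain ⟨δ, hδ, hδK, N0, n0, main⟩ := main lo hlo hlo'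
  have hdD : δ / ((X.J : ℝ) + 1) ≤ δ := by
    rw [div_le_iff₀ hJ]
    nlinarith [Nat.cast_nonneg (α := ℝ) X.J]
  refine ⟨δ / ((X.J : ℝ) + 1), by positivity, max N0 1, fun N hN => ⟨n0 N, ?_⟩⟩
  intro n hn Kp hKp hKm θ hel ham hsm L hG hEr
  have hNpos : 0 < N := lt_of_lt_of_le one_pos ((le_max_right _ _).trans hN)
  have hN' : (0 : ℝ) < N := by exact_mod_cast hNpos
  haveI := X.hnu N
  have hR := X.hR N
  -- proportions
  have hlab : ∀ k, |((blk (LG.Glob.kap L) k).card : ℝ) / N - X.w k| ≤ δ := by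
    intro k
    have h1 : ((blk (LG.Glob.kap L) k).card : ℝ) = ∑ j, (LabAvg.cnt L (k, j) : ℝ) := by
      have h2 := Finset.card_eq_sum_card_fiberwise (s := blk (LG.Glob.kap L) k)
        (f := fun i => (L i).2) (t := Finset.univ) (fun i _ => Finset.mem_coe.2 (Finset.mem_univ _))
      rw [h2]
      push_cast
      refine Finset.sum_congr rfl fun j _ => ?_
      congr 2
      unfold blk LG.Glob.kap
      ext i
      simp only [Finset.mem_filter, Finset.mem_univ, true_and]
      exact (Prod.mk_inj (a₁ := (L i).1) (b₁ := (L i).2)).symm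
    have h3 : ((blk (LG.Glob.kap L) k).card : ℝ) - N * X.w k =
        ∑ j, ((LabAvg.cnt L (k, j) : ℝ) - N * X.al (k, j)) := by
      rw [Finset.sum_sub_distrib, ← h1]
      congr 1
      have h4 : ∑ j, ((X.γ j : ℚ) : ℝ) = 1 := by exact_mod_cast X.hγs
      have h4' : ∀ j, (N : ℝ) * X.al (k, j) = (N * X.w k) * ((X.γ j : ℚ) : ℝ) := by
        intro j
        show (N : ℝ) * (X.w k * ((X.γ j : ℚ) : ℝ)) = _
        ring
      simp only [h4']
      rw [← Finset.mul_sum, h4, mul_one]
    have h5 : |((blk (LG.Glob.kap L) k).card : ℝ) - N * X.w k| ≤ δ * N := by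
      rw [h3]
      refine (Finset.abs_sum_le_sum_abs _ _).trans
        ((Finset.sum_le_sum fun j _ => hG (k, j)).trans ?_)
      rw [Finset.sum_const, Finset.card_univ, Fintype.card_fin, nsmul_eq_mul]
      have h6 : (X.J : ℝ) * (δ / ((X.J : ℝ) + 1)) ≤ δ := by
        rw [mul_div_assoc', div_le_iff₀ hJ]
        nlinarith
      nlinarith
    have h7 : ((blk (LG.Glob.kap L) k).card : ℝ) / N - X.w k =
        (((blk (LG.Glob.kap L) k).card : ℝ) - N * X.w k) / N := by
      field_simp
    rw [h7, abs_div, abs_of_pos hN', div_le_iff₀ hN']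
    exact h5
  set kap := LG.Glob.kap L with hkap
  set lab := LG.Glob.lab L with hlabd
  have hV : ∀ σ, |LD.VL X.c X.t Kp (LS2.prm act θ).el lab σ| ≤
      (∑ j, |X.c j| + 4 * |Kmax| + |E|) * N := by
    intro σ
    refine (LS2.abs_VL_le X.c X.t Kp (fun j => (X.ht j).le) hKp hel σ).trans ?_
    refine mul_le_mul_of_nonneg_right ?_ hN'.le
    have a1 := le_abs_self Kmax
    have a2 := le_abs_self E
    linarith
  have hDC : DC n (LD.univ_ne N) (X.nu N) kap (fun i => X.val (kap i)) 1
      (LD.VL X.c X.t Kp (LS2.prm act θ).el lab) (fun i g => (LS2.prm act θ).am (lab i) g)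
      (fun i g => θ (Sum.inr (Sum.inr (kap i, g)))) δ := by
    intro k g hg
    refine ⟨LS2.ddK n X.val X.c X.t Kp kap lab (X.nu N) θ k g, ?_⟩
    exact (LS2.conc_OH (ν' := X.nu (N + 1)) n X.val X.c X.t Kp kap lab (fun j => (X.ht j).le) hKp
      θ k hg).trans (hEr.trans hdD)
  obtain ⟨c, sel, h1, h2, h3, h4, h5⟩ := main N ((le_max_left _ _).trans hN) n hn Finset.univ
    (LD.univ_ne N) (X.nu N) (X.hnu N) hR kap hlab 1 (by norm_num)
    (LD.VL X.c X.t Kp (LS2.prm act θ).el lab) hV (fun i g => (LS2.prm act θ).am (lab i) g)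
    (fun i g => ham (lab i) g) (fun k g => θ (Sum.inr (Sum.inr (k, g)))) hsm hDC
  -- abbreviations
  set V := LD.VL X.c X.t Kp (LS2.prm act θ).el lab with hVd
  set am : Fin N → Fin p.nc → ℝ := fun i g => (LS2.prm act θ).am (lab i) g with hamd
  set lm : Fin N → Fin p.nc → ℝ := fun i g => θ (Sum.inr (Sum.inr (kap i, g))) with hlmd
  set eig : Fin N → ℝ := fun i => X.val (kap i) with heig
  set P : ℕ → ℝ := pb n (LD.univ_ne N) eig 1 V am lm (X.nu N) c sel (n' + 1) with hPd
  set Γ : Fin (X.K + 1) → ℕ → ℝ := fun k => Gam n (LD.univ_ne N) eig 1 V am lm (X.nu N) c sel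
    (n' + 1) (blk kap k) with hΓd
  have hRel : SDAlg.Rel X.w X.val (n' + 1) (LG.mu n') Γ P (C / ((n' : ℝ) + 1)) := by
    have e : (fun k => (1 : ℝ) * X.val k) = X.val := funext fun k => one_mul _
    rw [e] at h2
    exact h2
  have hOK : ∀ᵐ U ∂(X.nu N), U ∈ OK N := hR.mem
  have hclose : ∀ k, ∀ i ≤ n' + 1, |Γ k i - SDAlg.Ghat X.w (SDAlg.gap X.val 1) (n' + 1)
      (LG.mu n') P k i| ≤ CC * Real.sqrt (C / ((n' : ℝ) + 1)) := by
    intro k i hi
    have h := SDAlg.Rel.gamma_close hatoms hRel (by positivity) hCn hi k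
    have e : (fun k => X.val (Fin.last X.K) - X.val k) = SDAlg.gap X.val 1 := by
      funext k; unfold SDAlg.gap; ring
    rw [e] at h
    exact h
  refine ⟨fun d i => RSys.lv c sel (n' + 1) d i, P, ?_⟩
  have hcw : ∀ k, ((blk kap k).card : ℝ) / N ≤ 1 := by
    intro k
    rw [div_le_one hN']
    have : (blk kap k).card ≤ (Finset.univ : Finset (Fin N)).card :=
      Finset.card_le_card (Finset.subset_univ _)
    rw [Finset.card_univ, Fintype.card_fin] at this
    exact_mod_cast this
  have hwk : ∀ k, X.w k ≤ 1 := by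
    intro k
    rw [← X.hs]
    exact Finset.single_le_sum (f := X.w) (fun i _ => (X.hw i).le) (Finset.mem_univ k)
  exact {
    hp := hnc
    cell := by
      intro d i hi
      refine ⟨c i, sel (c i) d, (h1 i hi).1, (h1 i hi).2, (sel (c i) d).2, ?_⟩
      exact RSys.lv_of_lt (by omega) d
    top := fun d => RSys.lv_top d
    step := {
      m0 := by simp [LG.mu]
      mlt := by
        intro b _
        unfold LG.mu
        refine div_lt_div_of_pos_right ?_ hp1
        push_cast; linarith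
      mn := by
        unfold LG.mu
        push_cast
        exact div_self hp1.ne'
      p0 := hRel.p0
      pmono := hRel.pmono
      pn := hRel.pn }
    lt1 := pb_lt_one hOK hNpos eig c sel (Nat.succ_pos n')
    Peq := by
      intro i hi
      show P i = LD.EO (X.nu N) n X.val X.c X.t Kp (LS2.prm act θ) kap lab _
      rw [EO_dav hOK]
      · rfl
      · intro d ω
        exact continuous_const.mul (continuous_finsetSum _ fun i _ =>
          (cont_cEf n (LD.univ_ne N) eig 1 V am lm d (f := fun _ ω => sp n (LD.univ_ne N) ω i)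
            (fun _ => continuous_const) _ ω).pow 2)
    ov := by
      intro i hi k
      have e1 : ∀ (U : Fin N → Fin N → ℝ) (d : DD p N) (ω : G.Om (LD.B p N n)),
          CavG.ip kap k
            (CavG.cEv (LG.Pl X n Kp (LS2.prm act θ) L U d)
              ((G.fil (LD.B p N n)).F (RSys.lv c sel (n' + 1) d i)) (LG.xn n U) ω)
            (CavG.cEv (LG.Pl X n Kp (LS2.prm act θ) L U d)
              ((G.fil (LD.B p N n)).F (RSys.lv c sel (n' + 1) d i)) (LG.xn n U) ω) =
          ((blk kap k).card / (N : ℝ)) * ro n (LD.univ_ne N) eig 1 V am lm (blk kap k)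
            (RSys.lv c sel (n' + 1) d i) d U ω := fun U d ω =>
        ip_eq (n := n) (hA := LD.univ_ne N) (eig := eig) (t := 1) (V := V) (a := am) (lam := lm)
          kap k (RSys.lv c sel (n' + 1) d i) d U ω
      simp only [← hkap]
      simp only [e1]
      set g0 : ℝ := X.w k * SDAlg.Ghat X.w (SDAlg.gap X.val 1) (n' + 1) (LG.mu n') P k i with hg0
      show LD.EO (X.nu N) n X.val X.c X.t Kp (LS2.prm act θ) kap lab _ ≤ es
      rw [EO_dav hOK]
      · set r0 : ℝ := ((blk kap k).card : ℝ) / N with hr0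
        have hr00 : 0 ≤ r0 := by positivity
        have hb : |r0 * Γ k i - g0| ≤ 1 / ((n' : ℝ) + 1) +
            CC * Real.sqrt (C / ((n' : ℝ) + 1)) := by
          have a1 : r0 * Γ k i - g0 = (r0 - X.w k) * Γ k i + X.w k * (Γ k i -
              SDAlg.Ghat X.w (SDAlg.gap X.val 1) (n' + 1) (LG.mu n') P k i) := by
            rw [hg0]; ring
          rw [a1]
          refine (abs_add_le _ _).trans (add_le_add ?_ ?_)
          · rw [abs_mul, abs_of_nonneg (Gam_nonneg (blk kap k) i)]
            have a2 : |r0 - X.w k| * Γ k i ≤ δ * K1 :=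
              mul_le_mul (hlab k) (Gam_le hOK hNpos (h5 k) i) (Gam_nonneg _ _) hδ.le
            have a3 : (1 : ℝ) ≤ (Fintype.card (Fin (X.K + 1)) : ℝ) := by
              exact_mod_cast Fintype.card_pos
            have a4 : 0 ≤ δ * K1 := by positivity
            nlinarith
          · rw [abs_mul, abs_of_pos (X.hw k)]
            have a2 := hclose k i hi
            have a3 : 0 ≤ CC * Real.sqrt (C / ((n' : ℝ) + 1)) :=
              mul_nonneg hCC0 (Real.sqrt_nonneg _)
            calc X.w k * |Γ k i - SDAlg.Ghat X.w (SDAlg.gap X.val 1) (n' + 1) (LG.mu n') P k i|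
                ≤ 1 * (CC * Real.sqrt (C / ((n' : ℝ) + 1))) :=
                  mul_le_mul (hwk k) a2 (abs_nonneg _) zero_le_one
              _ = _ := one_mul _
        have hint : ∀ d, Integrable (fun U => eE (LD.PL n X.val X.c X.t Kp (LS2.prm act θ) kap lab U d)
            (fun ω => |r0 * ro n (LD.univ_ne N) eig 1 V am lm (blk kap k)
              (RSys.lv c sel (n' + 1) d i) d U ω - g0|)) (X.nu N) := fun d =>
          integrable_cont hOK (cont_eEf n (LD.univ_ne N) eig 1 V am lm d (f := fun U ω =>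
            |r0 * ro n (LD.univ_ne N) eig 1 V am lm (blk kap k)
              (RSys.lv c sel (n' + 1) d i) d U ω - g0|) fun ω =>
              ((continuous_const.mul (cont_ro n (LD.univ_ne N) eig 1 V am lm d (blk kap k)
                (RSys.lv c sel (n' + 1) d i) ω)).sub continuous_const).abs)
        have hc := h3 k i hi
        have hle : dav (dw p N) (X.nu N) (fun d U =>
            eE (LD.PL n X.val X.c X.t Kp (LS2.prm act θ) kap lab U d)
            (fun ω => |r0 * ro n (LD.univ_ne N) eig 1 V am lm (blk kap k)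
              (RSys.lv c sel (n' + 1) d i) d U ω - g0|)) ≤
            dav (dw p N) (X.nu N) (fun d U => eE (PQ n (LD.univ_ne N) eig 1 V am lm U d)
              (fun ω => |ro n (LD.univ_ne N) eig 1 V am lm (blk kap k)
                (RSys.lv c sel (n' + 1) d i) d U ω - Γ k i|) + |r0 * Γ k i - g0|) := by
          refine dav_mono (dw_nonneg p N) hint (fun d => (int_cnc hOK d (blk kap k) _ _).add
            (integrable_const _)) fun d => Filter.Eventually.of_forall fun U => ?_
          have hQ := PQ_isProb n (LD.univ_ne N) eig 1 V am lm U d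
          have a1 : eE (PQ n (LD.univ_ne N) eig 1 V am lm U d)
              (fun ω => |ro n (LD.univ_ne N) eig 1 V am lm (blk kap k)
                (RSys.lv c sel (n' + 1) d i) d U ω - Γ k i|) + |r0 * Γ k i - g0| =
              eE (PQ n (LD.univ_ne N) eig 1 V am lm U d)
              (fun ω => |ro n (LD.univ_ne N) eig 1 V am lm (blk kap k)
                (RSys.lv c sel (n' + 1) d i) d U ω - Γ k i| + |r0 * Γ k i - g0|) := by
            rw [eE_add, eE_const hQ]
          rw [a1]
          refine eE_mono hQ fun ω => ?_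
          have a2 : r0 * ro n (LD.univ_ne N) eig 1 V am lm (blk kap k)
                (RSys.lv c sel (n' + 1) d i) d U ω - g0 =
              r0 * (ro n (LD.univ_ne N) eig 1 V am lm (blk kap k)
                (RSys.lv c sel (n' + 1) d i) d U ω - Γ k i) + (r0 * Γ k i - g0) := by ring
          rw [a2]
          refine (abs_add_le _ _).trans (add_le_add ?_ le_rfl)
          rw [abs_mul, abs_of_nonneg hr00]
          have a3 := abs_nonneg (ro n (LD.univ_ne N) eig 1 V am lm (blk kap k)
                (RSys.lv c sel (n' + 1) d i) d U ω - Γ k i)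
          have a4 := hcw k
          nlinarith
        refine hle.trans ?_
        rw [dav_add (fun d => int_cnc hOK d (blk kap k) _ _) (fun _ => integrable_const _),
          dav_const (dw_sum p hNpos)]
        have a5 : dav (dw p N) (X.nu N) (fun d U => eE (PQ n (LD.univ_ne N) eig 1 V am lm U d)
              (fun ω => |ro n (LD.univ_ne N) eig 1 V am lm (blk kap k)
                (RSys.lv c sel (n' + 1) d i) d U ω - Γ k i|)) ≤ es / 2 := hc
        linarith
      · intro d ω
        exact ((continuous_const.mul (cont_ro n (LD.univ_ne N) eig 1 V am lm d (blk kap k)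
          (RSys.lv c sel (n' + 1) d i) ω)).sub continuous_const).abs
    pu := by
      intro i hi
      have hm : ∀ s, Measurable fun U : Fin N → Fin N → ℝ => Hs n Finset.univ eig 1 V am lm U s :=
        fun s => meas_Hs n eig 1 V am lm s
      have hint : ∀ d, Integrable (fun U => G.purNum (LD.B p N n)
          (Hs n Finset.univ eig 1 V am lm U) (c i, sel (c i) d) d) (X.nu N) := fun d =>
        G.integrable_purNum (LD.B p N n) (X.nu N) hNpos hm _ d
      have a1 : ∫ U, Ed p N (fun d => CavG.pur (LG.Pl X n Kp (LS2.prm act θ) L U d)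
          ((G.fil (LD.B p N n)).F (RSys.lv c sel (n' + 1) d i)) (LG.xn n U)) ∂(X.nu N) ≤
          ∫ U, Ed p N (fun d => G.purNum (LD.B p N n)
            (Hs n Finset.univ eig 1 V am lm U) (c i, sel (c i) d) d) ∂(X.nu N) := by
        refine integral_mono_of_nonneg (Filter.Eventually.of_forall fun U => ?_) ?_ ?_
        · exact Finset.sum_nonneg fun d _ => mul_nonneg (dw_nonneg p N d)
            (CavG.pur_nonneg (G.PP_isProb _ _ _) _)
        · exact integrable_finsetSum _ fun d _ => (hint d).const_mul _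
        · filter_upwards [hOK] with U hU
          refine Ed_mono p N fun d => ?_
          have h := pur_le (n := n) (hA := LD.univ_ne N) (eig := eig) (t := 1) (V := V) (a := am)
            (lam := lm) hNpos hU (c i, sel (c i) d) d
          rw [RSys.lv_of_lt (by omega : i < n' + 1)]
          exact h
      refine a1.trans ?_
      have a2 : ∫ U, Ed p N (fun d => G.purNum (LD.B p N n)
            (Hs n Finset.univ eig 1 V am lm U) (c i, sel (c i) d) d) ∂(X.nu N) =
          Ed p N (fun d => ∫ U, G.purNum (LD.B p N n)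
            (Hs n Finset.univ eig 1 V am lm U) (c i, sel (c i) d) d ∂(X.nu N)) := by
        unfold Ed
        rw [integral_finsetSum _ fun d _ => (hint d).const_mul _]
        refine Finset.sum_congr rfl fun d _ => ?_
        rw [integral_const_mul]
      rw [a2]
      have a3 := h4 i hi
      have a4 : Ed p N (fun d => ∫ U, G.purNum (LD.B p N n)
            (Hs n Finset.univ eig 1 V am lm U) (c i, sel (c i) d) d ∂(X.nu N)) ≤ es / 2 := a3
      linarith }

end

end Crest.Agent.R164.LStr
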