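import Crest.Agent.R164.Trans249

/-!
Row 164: S0247 from S0248 (helper92).

`magneticValue` at one group, field `0`, proportion `1`, equals `variationalValue`.
-/

set_option autoImplicit false

namespace Crest.Agent.R164

open MeasureTheory Set Filter Topology ProbabilityTheory
open Crest.ProbabilityR.InvariantGlass

/-- the class of functions preserved by the recursion -/
structure Good (f : ℝ → ℝ) : Prop where
  lip : ∀ x y, f x ≤ f y + |x - y|
  even : ∀ z, f (-z) = f z
  mid : ∀ x y, f ((x + y) / 2) ≤ (f x + f y) / 2

theorem Good.cont {f : ℝ → ℝ} (hf : Good f) : Continuous f := by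
  have : LipschitzWith 1 f := by
    refine LipschitzWith.of_le_add fun x y => ?_
    rw [Real.dist_eq]
    exact hf.lip x y
  exact this.continuous

theorem Good.min_zero {f : ℝ → ℝ} (hf : Good f) (z : ℝ) : f 0 ≤ f z := by
  have h := hf.mid z (-z)
  rw [add_neg_cancel, zero_div, hf.even z] at h
  linarith

theorem Good.bound {f : ℝ → ℝ} (hf : Good f) (z : ℝ) : |f z| ≤ |f 0| + |z| := by
  have h1 := hf.lip z 0
  have h2 := hf.lip 0 z
  rw [sub_zero] at h1
  rw [zero_sub, abs_neg] at h2
  rw [abs_le]
  constructor
  · have := neg_abs_le (f 0)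
    linarith
  · have := le_abs_self (f 0)
    linarith

theorem integrable_exp_abs_gauss (c : ℝ) :
    Integrable (fun g : ℝ => Real.exp (c * |g|)) (gaussianReal 0 1) := by
  have h1 : Integrable (fun g : ℝ => Real.exp (c * g)) (gaussianReal 0 1) :=
    integrable_exp_mul_gaussianReal c
  have h2 : Integrable (fun g : ℝ => Real.exp ((-c) * g)) (gaussianReal 0 1) :=
    integrable_exp_mul_gaussianReal (-c)
  refine Integrable.mono' (h1.add h2) (by fun_prop) (Eventually.of_forall fun g => ?_)
  rw [Real.norm_eq_abs, abs_of_pos (Real.exp_pos _)]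
  simp only [Pi.add_apply]
  rcases le_total 0 g with hg | hg
  · rw [abs_of_nonneg hg]
    have := Real.exp_pos (-c * g)
    linarith
  · rw [abs_of_nonpos hg]
    have := Real.exp_pos (c * g)
    have e : c * -g = -c * g := by ring
    rw [e]
    linarith

theorem Good.integrable {f : ℝ → ℝ} (hf : Good f) (v z : ℝ) :
    Integrable (fun g : ℝ => f (z + Real.sqrt v * g)) (gaussianReal 0 1) := by
  have h : Integrable (fun g : ℝ => |f 0| + |z| + Real.sqrt v * Real.exp (1 * |g|))
      (gaussianReal 0 1) := (integrable_const _).add ((integrable_exp_abs_gauss 1).const_mul _)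
  refine Integrable.mono' h (hf.cont.comp (by fun_prop)).aestronglyMeasurable
    (Eventually.of_forall fun g => ?_)
  rw [Real.norm_eq_abs]
  refine (hf.bound _).trans ?_
  have h1 : |z + Real.sqrt v * g| ≤ |z| + Real.sqrt v * |g| := by
    refine (abs_add_le _ _).trans ?_
    rw [abs_mul, abs_of_nonneg (Real.sqrt_nonneg v)]
  have h2 : |g| ≤ Real.exp (1 * |g|) := by
    rw [one_mul]
    have := Real.add_one_le_exp |g|
    linarith
  have h3 : Real.sqrt v * |g| ≤ Real.sqrt v * Real.exp (1 * |g|) :=
    mul_le_mul_of_nonneg_left h2 (Real.sqrt_nonneg v)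
  linarith

theorem Good.integrable_exp {f : ℝ → ℝ} (hf : Good f) {a : ℝ} (ha : 0 ≤ a) (v z : ℝ) :
    Integrable (fun g : ℝ => Real.exp (a * f (z + Real.sqrt v * g))) (gaussianReal 0 1) := by
  have h : Integrable (fun g : ℝ => Real.exp (a * (|f 0| + |z|)) *
      Real.exp (a * Real.sqrt v * |g|)) (gaussianReal 0 1) :=
    (integrable_exp_abs_gauss (a * Real.sqrt v)).const_mul _
  have hc := hf.cont
  refine Integrable.mono' h (by fun_prop) (Eventually.of_forall fun g => ?_)
  rw [Real.norm_eq_abs, abs_of_pos (Real.exp_pos _), ← Real.exp_add]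
  refine Real.exp_le_exp.2 ?_
  have h0 := (le_abs_self _).trans (hf.bound (z + Real.sqrt v * g))
  have h1 : |z + Real.sqrt v * g| ≤ |z| + Real.sqrt v * |g| := by
    refine (abs_add_le _ _).trans ?_
    rw [abs_mul, abs_of_nonneg (Real.sqrt_nonneg v)]
  have h2 : a * f (z + Real.sqrt v * g) ≤ a * (|f 0| + (|z| + Real.sqrt v * |g|)) :=
    mul_le_mul_of_nonneg_left (by linarith) ha
  linarith

theorem Good.exp_pos {f : ℝ → ℝ} (hf : Good f) {a : ℝ} (ha : 0 ≤ a) (v z : ℝ) :
    0 < ∫ g, Real.exp (a * f (z + Real.sqrt v * g)) ∂gaussianReal 0 1 :=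
  integral_exp_pos (hf.integrable_exp ha v z)

theorem integral_gauss_neg (F : ℝ → ℝ) :
    ∫ g, F (-g) ∂gaussianReal 0 1 = ∫ g, F g ∂gaussianReal 0 1 := by
  have h : (gaussianReal 0 1).map (fun x : ℝ => -x) = gaussianReal 0 1 := by
    rw [gaussianReal_map_neg, neg_zero]
  conv_rhs => rw [← h]
  exact (integral_map_equiv (MeasurableEquiv.neg ℝ) F).symm

theorem gaussOp_good {a v : ℝ} (ha : 0 ≤ a) {f : ℝ → ℝ} (hf : Good f) : Good (gaussOp a v f) := by
  rcases ha.eq_or_lt with rfl | hapos
  · -- plain average
    have e : ∀ z, gaussOp 0 v f z = ∫ g, f (z + Real.sqrt v * g) ∂gaussianReal 0 1 := fun z => by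
      unfold gaussOp
      rw [if_pos rfl]
    refine ⟨fun x y => ?_, fun z => ?_, fun x y => ?_⟩
    · rw [e, e]
      have h : ∫ g, f (x + Real.sqrt v * g) ∂gaussianReal 0 1 ≤
          ∫ g, (f (y + Real.sqrt v * g) + |x - y|) ∂gaussianReal 0 1 := by
        refine integral_mono (hf.integrable v x) ((hf.integrable v y).add (integrable_const _)) ?_
        intro g
        have := hf.lip (x + Real.sqrt v * g) (y + Real.sqrt v * g)
        have e2 : x + Real.sqrt v * g - (y + Real.sqrt v * g) = x - y := by ring
        rw [e2] at this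
        exact this
      rw [integral_add (hf.integrable v y) (integrable_const _), integral_const] at h
      simpa using h
    · rw [e, e, ← integral_gauss_neg]
      refine integral_congr_ae (Eventually.of_forall fun g => ?_)
      have e2 : -z + Real.sqrt v * -g = -(z + Real.sqrt v * g) := by ring
      show f (-z + Real.sqrt v * -g) = f (z + Real.sqrt v * g)
      rw [e2, hf.even]
    · rw [e, e, e]
      have h : ∫ g, f ((x + y) / 2 + Real.sqrt v * g) ∂gaussianReal 0 1 ≤
          ∫ g, (1 / 2) * (f (x + Real.sqrt v * g) + f (y + Real.sqrt v * g)) ∂gaussianReal 0 1 := by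
        refine integral_mono (hf.integrable v _)
          (((hf.integrable v x).add (hf.integrable v y)).const_mul _) ?_
        intro g
        have := hf.mid (x + Real.sqrt v * g) (y + Real.sqrt v * g)
        have e2 : (x + Real.sqrt v * g + (y + Real.sqrt v * g)) / 2 =
            (x + y) / 2 + Real.sqrt v * g := by ring
        rw [e2] at this
        show f ((x + y) / 2 + Real.sqrt v * g) ≤ _
        linarith
      rw [integral_const_mul, integral_add (hf.integrable v x) (hf.integrable v y)] at h
      linarith
  · have e : ∀ z, gaussOp a v f z =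
        a⁻¹ * Real.log (∫ g, Real.exp (a * f (z + Real.sqrt v * g)) ∂gaussianReal 0 1) := fun z => by
      unfold gaussOp
      rw [if_neg hapos.ne']
    refine ⟨fun x y => ?_, fun z => ?_, fun x y => ?_⟩
    · rw [e, e]
      have h : ∫ g, Real.exp (a * f (x + Real.sqrt v * g)) ∂gaussianReal 0 1 ≤
          ∫ g, Real.exp (a * |x - y|) * Real.exp (a * f (y + Real.sqrt v * g))
            ∂gaussianReal 0 1 := by
        refine integral_mono (hf.integrable_exp ha v x) ((hf.integrable_exp ha v y).const_mul _) ?_
        intro g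
        show Real.exp (a * f (x + Real.sqrt v * g)) ≤
          Real.exp (a * |x - y|) * Real.exp (a * f (y + Real.sqrt v * g))
        rw [← Real.exp_add]
        refine Real.exp_le_exp.2 ?_
        have := hf.lip (x + Real.sqrt v * g) (y + Real.sqrt v * g)
        have e2 : x + Real.sqrt v * g - (y + Real.sqrt v * g) = x - y := by ring
        rw [e2] at this
        have h3 := mul_le_mul_of_nonneg_left this ha
        linarith
      rw [integral_const_mul] at h
      have h2 := Real.log_le_log (hf.exp_pos ha v x) h
      rw [Real.log_mul (Real.exp_pos _).ne' (hf.exp_pos ha v y).ne', Real.log_exp] at h2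
      have h3 := mul_le_mul_of_nonneg_left h2 (inv_nonneg.2 ha)
      have e3 : a⁻¹ * (a * |x - y| + Real.log (∫ g, Real.exp (a * f (y + Real.sqrt v * g))
          ∂gaussianReal 0 1)) = a⁻¹ * Real.log (∫ g, Real.exp (a * f (y + Real.sqrt v * g))
          ∂gaussianReal 0 1) + |x - y| := by
        field_simp
        ring
      rw [e3] at h3
      exact h3
    · rw [e, e, ← integral_gauss_neg]
      congr 2
      refine integral_congr_ae (Eventually.of_forall fun g => ?_)
      have e2 : -z + Real.sqrt v * -g = -(z + Real.sqrt v * g) := by ring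
      show Real.exp (a * f (-z + Real.sqrt v * -g)) = Real.exp (a * f (z + Real.sqrt v * g))
      rw [e2, hf.even]
    · rw [e, e, e]
      -- Cauchy-Schwarz through `2uv ≤ t u^2 + v^2 / t`
      set X := ∫ g, Real.exp (a * f (x + Real.sqrt v * g)) ∂gaussianReal 0 1 with hX
      set Y := ∫ g, Real.exp (a * f (y + Real.sqrt v * g)) ∂gaussianReal 0 1 with hY
      have hXp : 0 < X := hf.exp_pos ha v x
      have hYp : 0 < Y := hf.exp_pos ha v y
      set M := ∫ g, Real.exp (a * f ((x + y) / 2 + Real.sqrt v * g)) ∂gaussianReal 0 1 with hM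
      have hMp : 0 < M := hf.exp_pos ha v _
      have hle : M ≤ Real.exp ((Real.log X + Real.log Y) / 2) := by
        have h : M ≤ ∫ g, (1 / 2) * (Real.exp ((Real.log Y - Real.log X) / 2) *
            Real.exp (a * f (x + Real.sqrt v * g)) +
            Real.exp ((Real.log X - Real.log Y) / 2) * Real.exp (a * f (y + Real.sqrt v * g)))
            ∂gaussianReal 0 1 := by
          refine integral_mono (hf.integrable_exp ha v _)
            ((((hf.integrable_exp ha v x).const_mul _).add
              ((hf.integrable_exp ha v y).const_mul _)).const_mul _) ?_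
          intro g
          show Real.exp (a * f ((x + y) / 2 + Real.sqrt v * g)) ≤ _
          have h1 := hf.mid (x + Real.sqrt v * g) (y + Real.sqrt v * g)
          have e2 : (x + Real.sqrt v * g + (y + Real.sqrt v * g)) / 2 =
              (x + y) / 2 + Real.sqrt v * g := by ring
          rw [e2] at h1
          set A := f (x + Real.sqrt v * g)
          set B := f (y + Real.sqrt v * g)
          set s := (Real.log Y - Real.log X) / 2 with hs
          have e4 : (Real.log X - Real.log Y) / 2 = -s := by rw [hs]; ring
          show _ ≤ (1 / 2) * (Real.exp s * Real.exp (a * A) +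
            Real.exp ((Real.log X - Real.log Y) / 2) * Real.exp (a * B))
          rw [e4, ← Real.exp_add, ← Real.exp_add]
          have h2 : Real.exp (a * f ((x + y) / 2 + Real.sqrt v * g)) ≤
              Real.exp ((s + a * A) / 2) * Real.exp ((-s + a * B) / 2) := by
            rw [← Real.exp_add]
            refine Real.exp_le_exp.2 ?_
            have := mul_le_mul_of_nonneg_left h1 ha
            linarith
          have h3 : Real.exp (s + a * A) = Real.exp ((s + a * A) / 2) ^ 2 := by
            rw [sq, ← Real.exp_add]; ring_nf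
          have h4 : Real.exp (-s + a * B) = Real.exp ((-s + a * B) / 2) ^ 2 := by
            rw [sq, ← Real.exp_add]; ring_nf
          rw [h3, h4]
          nlinarith [sq_nonneg (Real.exp ((s + a * A) / 2) - Real.exp ((-s + a * B) / 2))]
        rw [integral_const_mul, integral_add ((hf.integrable_exp ha v x).const_mul _)
          ((hf.integrable_exp ha v y).const_mul _), integral_const_mul, integral_const_mul,
          ← hX, ← hY] at h
        have e5 : Real.exp ((Real.log Y - Real.log X) / 2) * X =
            Real.exp ((Real.log X + Real.log Y) / 2) := by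
          conv_lhs => rw [← Real.exp_log hXp, Real.log_exp]
          rw [← Real.exp_add]
          congr 1; ring
        have e6 : Real.exp ((Real.log X - Real.log Y) / 2) * Y =
            Real.exp ((Real.log X + Real.log Y) / 2) := by
          conv_lhs => rw [← Real.exp_log hYp, Real.log_exp]
          rw [← Real.exp_add]
          congr 1; ring
        rw [e5, e6] at h
        linarith
      have h2 := Real.log_le_log hMp hle
      rw [Real.log_exp] at h2
      have h3 := mul_le_mul_of_nonneg_left h2 (inv_nonneg.2 ha)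
      linarith

theorem logcosh_good : Good (fun z => Real.log (Real.cosh z)) := by
  refine ⟨fun x y => ?_, fun z => by simp [Real.cosh_neg], fun x y => ?_⟩
  · have hc := Real.cosh_pos x
    have hd := Real.cosh_pos y
    have h : Real.cosh x ≤ Real.cosh y * Real.exp |x - y| := by
      have e1 : Real.exp x ≤ Real.exp y * Real.exp |x - y| := by
        rw [← Real.exp_add]
        refine Real.exp_le_exp.2 ?_
        have := le_abs_self (x - y)
        linarith
      have e2 : Real.exp (-x) ≤ Real.exp (-y) * Real.exp |x - y| := by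
        rw [← Real.exp_add]
        refine Real.exp_le_exp.2 ?_
        have := neg_abs_le (x - y)
        linarith
      rw [Real.cosh_eq, Real.cosh_eq]
      linarith
    have h2 := Real.log_le_log hc h
    rw [Real.log_mul hd.ne' (Real.exp_pos _).ne', Real.log_exp] at h2
    exact h2
  · have hx := Real.cosh_pos x
    have hy := Real.cosh_pos y
    have hm := Real.cosh_pos ((x + y) / 2)
    have h : Real.cosh ((x + y) / 2) ^ 2 ≤ Real.cosh x * Real.cosh y := by
      have e1 : Real.cosh ((x + y) / 2) ^ 2 = (Real.cosh (x + y) + 1) / 2 := by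
        have := Real.cosh_two_mul ((x + y) / 2)
        have h2 := Real.cosh_sq' ((x + y) / 2)
        have e : 2 * ((x + y) / 2) = x + y := by ring
        rw [e] at this
        linarith
      have e2 : Real.cosh x * Real.cosh y = (Real.cosh (x + y) + Real.cosh (x - y)) / 2 := by
        rw [Real.cosh_add, Real.cosh_sub]; ring
      rw [e1, e2]
      have := Real.one_le_cosh (x - y)
      linarith
    have h2 := Real.log_le_log (by positivity) h
    rw [Real.log_pow, Real.log_mul hx.ne' hy.ne'] at h2
    push_cast at h2
    show Real.log (Real.cosh ((x + y) / 2)) ≤ (Real.log (Real.cosh x) + Real.log (Real.cosh y)) / 2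
    linarith

theorem leftEnd_nonneg {k : ℕ} {w : Fin k → ℝ} (hw : ∀ i, 0 < w i) (i : Fin k) :
    0 ≤ leftEnd w i := by
  unfold leftEnd
  refine Finset.sum_nonneg fun l _ => ?_
  split_ifs
  · exact (hw l).le
  · exact le_rfl

theorem chain_good {k : ℕ} {w : Fin k → ℝ} (hw : ∀ i, 0 < w i) (hv : Fin k → ℝ)
    (L : List (Fin k)) :
    Good (L.foldr (fun i acc => gaussOp (leftEnd w i) (increment hv i) acc)
      (fun z => Real.log (Real.cosh z))) := by
  induction L with
  | nil => exact logcosh_good
  | cons i L ih =>
      rw [List.foldr_cons]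
      exact gaussOp_good (leftEnd_nonneg hw i) ih

theorem fieldValue_le_at {k : ℕ} {w : Fin k → ℝ} (hw : ∀ i, 0 < w i) (hv : Fin k → ℝ) (b : ℝ) :
    fieldValue w hv ≤ fieldValueAt b w hv := by
  unfold fieldValue fieldValueAt
  have := (chain_good hw hv (List.finRange k)).min_zero b
  linarith

theorem constrainedFieldValue_le {k : ℕ} (s : ℝ) (w hv : Fin k → ℝ) :
    constrainedFieldValue s w hv ≤ ((fieldValue w hv : ℝ) : EReal) := by
  unfold constrainedFieldValue
  refine (iInf_le _ 0).trans ?_
  rw [zero_mul, sub_zero]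
  exact le_rfl

theorem constrainedFieldValue_zero {k : ℕ} {w : Fin k → ℝ} (hw : ∀ i, 0 < w i)
    (hv : Fin k → ℝ) :
    constrainedFieldValue 0 w hv = ((fieldValue w hv : ℝ) : EReal) := by
  refine le_antisymm (constrainedFieldValue_le 0 w hv) ?_
  unfold constrainedFieldValue
  refine le_iInf fun b => ?_
  rw [mul_zero, sub_zero]
  exact EReal.coe_le_coe_iff.2 (fieldValue_le_at hw hv b)

theorem groupFieldValue_one {k : ℕ} (m : Fin 1 → ℚ) (w hv : Fin k → ℝ) :
    groupFieldValue (fun _ : Fin 1 => (1 : ℚ)) m w hv =
      constrainedFieldValue ((m 0 : ℚ) : ℝ) w hv := by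
  unfold groupFieldValue
  rw [Fin.sum_univ_one]
  simp

theorem constrainedEntropyPart_le (m : Fin 1 → ℚ) (p : ℝ → ℝ) :
    constrainedEntropyPart (fun _ : Fin 1 => (1 : ℚ)) m p ≤ entropyPart p := by
  unfold constrainedEntropyPart entropyPart
  refine iSup_mono fun k => iSup_mono fun w => iSup_mono fun hv => iSup_mono fun _ => ?_
  rw [groupFieldValue_one, EReal.coe_add]
  exact add_le_add_left (constrainedFieldValue_le _ w hv) _

theorem constrainedEntropyPart_zero (p : ℝ → ℝ) :
    constrainedEntropyPart (fun _ : Fin 1 => (1 : ℚ)) (fun _ => 0) p = entropyPart p := by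
  unfold constrainedEntropyPart entropyPart
  refine iSup_congr fun k => iSup_congr fun w => iSup_congr fun hv => iSup_congr fun h => ?_
  rw [groupFieldValue_one, EReal.coe_add]
  congr 1
  rw [Rat.cast_zero]
  exact constrainedFieldValue_zero h.2.1 hv

/-- **`magneticValue` at one group, zero field equals `variationalValue`.** -/
theorem magneticValue_zero (μ : Measure ℝ) (lamPlus : ℝ) :
    magneticValue μ lamPlus (fun _ : Fin 1 => (0 : ℝ)) (fun _ : Fin 1 => (1 : ℚ)) =
      variationalValue μ lamPlus := by
  unfold magneticValue variationalValue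
  refine le_antisymm ?_ ?_
  · refine iSup₂_le fun m _ => ?_
    have e : ((∑ j : Fin 1, (((1 : ℚ) : ℝ)) * (0 : ℝ) * ((m j : ℚ) : ℝ) : ℝ) : EReal) = 0 := by
      simp
    rw [e, zero_add]
    refine iInf_mono fun p => iInf_mono fun _ => ?_
    exact add_le_add_left (constrainedEntropyPart_le m p) _
  · refine le_iSup₂_of_le (fun _ => (0 : ℚ)) (fun _ => ⟨by norm_num, by norm_num⟩) ?_
    have e : ((∑ j : Fin 1, (((1 : ℚ) : ℝ)) * (0 : ℝ) * (((0 : ℚ)) : ℝ) : ℝ) : EReal) = 0 := by
      simp
    rw [e, zero_add]
    refine iInf_mono fun p => iInf_mono fun _ => ?_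
    rw [constrainedEntropyPart_zero]

theorem pressureFieldN_zero {N : ℕ} (eig : Fin N → ℝ) (U : Matrix (Fin N) (Fin N) ℝ) :
    pressureFieldN eig U (fun _ => 0) = pressureN eig U := by
  unfold pressureFieldN pressureN
  simp

/-- **S0247 from S0248.** -/
theorem s0247_of_s0248 {μ : Measure ℝ} {lamPlus : ℝ} {eig : (N : ℕ) → Fin N → ℝ}
    {Ω : Type} [MeasurableSpace Ω] {P : Measure Ω} [IsProbabilityMeasure P]
    {Us : (N : ℕ) → Ω → (Fin N → Fin N → ℝ)}
    (h248 : H248 μ lamPlus eig P Us) :
    ∃ F : ℝ, variationalValue μ lamPlus = (F : EReal) ∧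
      Tendsto (fun N : ℕ => ∫ ω, pressureN (eig N) (Matrix.of (Us N ω)) ∂P) atTop (nhds F) ∧
      ∀ᵐ ω ∂P, Tendsto (fun N : ℕ => pressureN (eig N) (Matrix.of (Us N ω))) atTop (nhds F) := by
  obtain ⟨F, h1, h2, h3⟩ := h248 1 (fun _ => (0 : ℝ)) (Function.injective_of_subsingleton _)
    (fun _ => (1 : ℚ)) (fun _ => by norm_num) (by simp) (fun _ _ => 0) (fun j => by
      have e : ∀ N : ℕ, 0 < N →
          ((Finset.univ.filter fun r : Fin N => (0 : Fin 1) = j).card : ℝ) / (N : ℝ) = 1 := by
        intro N hN
        have hj : (0 : Fin 1) = j := Subsingleton.elim _ _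
        rw [Finset.filter_true_of_mem (fun r _ => hj), Finset.card_univ, Fintype.card_fin]
        exact div_self (by positivity)
      have h1 : (((1 : ℚ) : ℝ)) = 1 := by norm_num
      rw [h1]
      refine tendsto_const_nhds.congr' ?_
      filter_upwards [eventually_gt_atTop 0] with N hN
      exact (e N hN).symm)
  refine ⟨F, ?_, ?_, ?_⟩
  · rw [← magneticValue_zero]; exact h1
  · simpa only [pressureFieldN_zero] using h2
  · simpa only [pressureFieldN_zero] using h3

end Crest.Agent.R164
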