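import Crest.Agent.R164.SDAlg6

/-!
Row 164: the spectral side in the form used by the U assembly (helper466's (S1)-(S4)):
`th(y) = d/dy (y R(y))`, the derivative of `G_t(p)`, the energy identity and the monotonicity.
-/

set_option autoImplicit false

namespace Crest.Agent.R164.SDPath

open Finset Crest.Agent.R164.SDAlg

noncomputable section

open MeasureTheory Set Crest.ProbabilityR.InvariantGlass Crest.Agent.R164.PAlg
open Crest.Agent.R164.RTrans Crest.Agent.R164.Atomic Crest.Agent.R164.RScale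

variable {K : ℕ} (w val : Fin (K + 1) → ℝ)

/-- `th(y) = d/dy (y R(y))`. -/
def th (y : ℝ) : ℝ := phiT w val 1 y

variable {w val}
variable (hv : StrictMono val) (hw : ∀ k, 0 < w k) (hs : ∑ k, w k = 1)

include hv hw in
/-- scaling of `τ`. -/
theorem tau_scale {t : ℝ} (ht : 0 ≤ t) {x : ℝ} (hx : 0 ≤ x) :
    tau w (gap val 1) (t * x) = t * tau w (gap val t) x := by
  have hτ := tau_nonneg w (gap val t) x
  apply tau_unique hw (gap_nonneg hv zero_le_one) (gap_last 1) (mul_nonneg ht hτ)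
  have h1 := ss_tau hw (gap_nonneg hv ht) (gap_last t) hx
  have h2 : ∀ τ : ℝ, ss w (gap val 1) (t * τ) = t * ss w (gap val t) τ := by
    intro τ
    unfold ss FF ee gap
    rw [Finset.mul_sum]
    apply Finset.sum_congr rfl
    intro k _
    have e : 1 + t * τ * (1 * (val (Fin.last K) - val k)) =
        1 + τ * (t * (val (Fin.last K) - val k)) := by ring
    rw [e]
    ring
  rw [h2, h1]

include hv hw in
/-- `φ_t(x) = th(t x)`. -/
theorem phiT_eq {t : ℝ} (ht : 0 ≤ t) {x : ℝ} (hx : 0 ≤ x) :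
    phiT w val t x = th w val (t * x) := by
  unfold th phiT
  rw [tau_scale hv hw ht hx]
  apply Finset.sum_congr rfl
  intro k _
  congr 2
  have he : ∀ l, ee (gap val t) (tau w (gap val t) x) l =
      ee (gap val 1) (t * tau w (gap val t) x) l := by
    intro l
    unfold ee gap
    congr 1
    ring
  unfold ww qq
  simp only [he]

include hv hw hs

/-- (S1) monotone. -/
theorem th_mono {x y : ℝ} (hx : 0 ≤ x) (hxy : x ≤ y) (hy : y ≤ 1) :
    th w val x ≤ th w val y := by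
  have := atomic_prob (w := w) val (fun k => (hw k).le) hs
  obtain ⟨V, hV⟩ : ∃ V : ℝ, ∀ k, |val k| ≤ V :=
    ⟨∑ k, |val k|, fun k => Finset.single_le_sum (f := fun k => |val k|)
      (fun _ _ => abs_nonneg _) (Finset.mem_univ k)⟩
  set C := 8 * V * (val (Fin.last K) - val 0) / w (Fin.last K) with hC
  apply le_of_forall_pos_le_add
  intro ε hε
  have hV0 : 0 ≤ V := (abs_nonneg _).trans (hV 0)
  have hΔ0 : 0 ≤ val (Fin.last K) - val 0 := sub_nonneg.2 (hv.monotone (Fin.zero_le _))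
  have hC0 : 0 ≤ C := by
    rw [hC]
    have := (hw (Fin.last K)).le
    positivity
  obtain ⟨s, hs0, hs1⟩ : ∃ s : ℝ, 0 < s ∧ 2 * C * s ≤ ε := by
    refine ⟨ε / (2 * C + 1), by positivity, ?_⟩
    rw [mul_div_assoc', div_le_iff₀ (by positivity)]
    nlinarith
  have q1 := tR_quad hv hw hs hV (t := 1) (t' := 1 + s) zero_le_one (by linarith) hx
    (hxy.trans hy)
  have q2 := tR_quad hv hw hs hV (t := 1) (t' := 1 + s) zero_le_one (by linarith)
    (hx.trans hxy) hy
  have hmono := rT_incr_mono (supp hv hw hs) (s := 1) (t := 1 + s) zero_le_one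
    (by linarith) hx hxy
  unfold th
  have e1 : (1 + s - 1 : ℝ) = s := by ring
  rw [e1, ← hC] at q1 q2
  have a1 := (abs_le.1 q1).1
  have a2 := (abs_le.1 q2).2
  have hm : (1 + s) * RR w val ((1 + s) * x) - 1 * RR w val (1 * x) ≤
      (1 + s) * RR w val ((1 + s) * y) - 1 * RR w val (1 * y) := hmono
  have h3 : s * phiT w val 1 x ≤ s * (phiT w val 1 y + 2 * C * s) := by nlinarith
  have h4 := le_of_mul_le_mul_left h3 hs0
  linarith

/-- the Lipschitz constant of `th`. -/
theorem th_lip : ∃ C : ℝ, 0 ≤ C ∧ ∀ x y : ℝ, 0 ≤ x → x ≤ 1 → 0 ≤ y → y ≤ 1 →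
    |th w val x - th w val y| ≤ C * |x - y| := by
  obtain ⟨V, hV⟩ : ∃ V : ℝ, ∀ k, |val k| ≤ V :=
    ⟨∑ k, |val k|, fun k => Finset.single_le_sum (f := fun k => |val k|)
      (fun _ _ => abs_nonneg _) (Finset.mem_univ k)⟩
  have hV0 : 0 ≤ V := (abs_nonneg _).trans (hV 0)
  set Δ := val (Fin.last K) - val 0 with hΔ
  have hΔ0 : 0 ≤ Δ := sub_nonneg.2 (hv.monotone (Fin.zero_le _))
  set T := 1 / w (Fin.last K) with hT
  have hT0 : 0 ≤ T := by rw [hT]; have := (hw (Fin.last K)).le; positivity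
  have hc := c0_pos hT0 hΔ0
  have hg0 := gap_nonneg hv (zero_le_one : (0:ℝ) ≤ 1)
  have hgΔ : ∀ k, gap val 1 k ≤ Δ := gap_le hv zero_le_one le_rfl
  refine ⟨V * (2 * Δ / (c0 T Δ) ^ 2 * 2 / c0 T Δ), by positivity, ?_⟩
  intro x y hx hx1 hy hy1
  have hτT : ∀ z, 0 ≤ z → z ≤ 1 → tau w (gap val 1) z ≤ T := fun z hz hz1 =>
    (tau_le hw hg0 (gap_last 1) hz).trans
      (div_le_div_of_nonneg_right hz1 (hw (Fin.last K)).le)
  have hτ := tau_lip hw hs hg0 (gap_last 1) hgΔ (X := 1) hy hx hy1 hx1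
  rw [← hT] at hτ
  unfold th phiT
  rw [← Finset.sum_sub_distrib]
  refine (Finset.abs_sum_le_sum_abs _ _).trans ?_
  calc ∑ k, |w k * (val k * ww w (gap val 1) (tau w (gap val 1) x) (tau w (gap val 1) x) k) -
        w k * (val k * ww w (gap val 1) (tau w (gap val 1) y) (tau w (gap val 1) y) k)|
      ≤ ∑ k, w k * (V * (2 * Δ / (c0 T Δ) ^ 2 * 2 / c0 T Δ) * |x - y|) := by
        apply Finset.sum_le_sum
        intro k _
        rw [← mul_sub, ← mul_sub, abs_mul, abs_mul, abs_of_pos (hw k)]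
        apply mul_le_mul_of_nonneg_left _ (hw k).le
        have h1 := ww_lip hw hs hg0 hgΔ hΔ0 (tau_nonneg w (gap val 1) x)
          (tau_nonneg w (gap val 1) x) (tau_nonneg w (gap val 1) y)
          (tau_nonneg w (gap val 1) y) (hτT x hx hx1) (hτT x hx hx1) (hτT y hy hy1)
          (hτT y hy hy1) k
        have h2 : 2 * Δ / (c0 T Δ) ^ 2 *
            (|tau w (gap val 1) x - tau w (gap val 1) y| +
              |tau w (gap val 1) x - tau w (gap val 1) y|) ≤
            2 * Δ / (c0 T Δ) ^ 2 * (|x - y| / c0 T Δ + |x - y| / c0 T Δ) :=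
          mul_le_mul_of_nonneg_left (add_le_add hτ hτ) (by positivity)
        calc |val k| * _ ≤ V * (2 * Δ / (c0 T Δ) ^ 2 * (|x - y| / c0 T Δ + |x - y| / c0 T Δ)) :=
              mul_le_mul (hV k) (h1.trans h2) (abs_nonneg _) hV0
          _ = _ := by ring
    _ = _ := by rw [← Finset.sum_mul, hs, one_mul]

/-- (S2) derivative of `G_t(p)` in `t`. -/
theorem specT_hasDerivAt {t : ℝ} (ht : 0 < t) (ht1 : t ≤ 1) {q : ℝ → ℝ} (hq : IsTrialPath q) :
    HasDerivAt (fun t => specT (atomic w val) (val (Fin.last K)) t q)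
      ((1 / 2) * ∫ r in Ioo (0:ℝ) 1, th w val (t * deficit q r)) t := by
  obtain ⟨V, hV⟩ : ∃ V : ℝ, ∀ k, |val k| ≤ V :=
    ⟨∑ k, |val k|, fun k => Finset.single_le_sum (f := fun k => |val k|)
      (fun _ _ => abs_nonneg _) (Finset.mem_univ k)⟩
  have hE : (1 / 2) * ∫ r in Ioo (0:ℝ) 1, th w val (t * deficit q r) = ET w val t q := by
    unfold ET
    congr 1
    refine setIntegral_congr_fun measurableSet_Ioo ?_
    intro r hr
    exact (phiT_eq hv hw ht.le (deficit_mem hq hr).1).symm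
  rw [hE]
  set f := fun t => specT (atomic w val) (val (Fin.last K)) t q with hf
  set C := 4 * V * (val (Fin.last K) - val 0) / w (Fin.last K) with hC
  rw [hasDerivAt_iff_isLittleO, Asymptotics.isLittleO_iff]
  intro ε hε
  have h1 : ∀ᶠ t' in nhds t, 0 < t' := Ioi_mem_nhds ht
  have h2 : ∀ᶠ t' in nhds t, |t' - t| < ε / (|C| + 1) := by
    have : Metric.ball t (ε / (|C| + 1)) ∈ nhds t := Metric.ball_mem_nhds t (by positivity)
    filter_upwards [this] with t' ht'
    rwa [Metric.mem_ball, Real.dist_eq] at ht'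
  filter_upwards [h1, h2] with t' ht' ht2
  have hq' := specT_quad hv hw hs hV ht.le ht1 ht'.le hq
  rw [← hC] at hq'
  rw [Real.norm_eq_abs, Real.norm_eq_abs]
  have e1 : f t' - f t - (t' - t) • ET w val t q = (f t' - f t) - (t' - t) * ET w val t q := by
    rw [smul_eq_mul]
  rw [e1]
  refine hq'.trans ?_
  have h3 : C * (t' - t) ^ 2 ≤ |C| * |t' - t| * |t' - t| := by
    have := le_abs_self C
    have h4 : (t' - t) ^ 2 = |t' - t| * |t' - t| := by rw [← sq_abs, sq]
    rw [h4]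
    have h5 : 0 ≤ |t' - t| * |t' - t| := by positivity
    nlinarith
  refine h3.trans ?_
  apply mul_le_mul_of_nonneg_right _ (abs_nonneg _)
  have h6 : |C| * |t' - t| ≤ (|C| + 1) * (ε / (|C| + 1)) :=
    mul_le_mul (by linarith) ht2.le (abs_nonneg _) (by positivity)
  rwa [mul_div_cancel₀ _ (by positivity)] at h6

/-- (S2) continuity of `t ↦ G_t(p)` on `[0,1]`. -/
theorem specT_continuousOn {q : ℝ → ℝ} (hq : IsTrialPath q) :
    ContinuousOn (fun t => specT (atomic w val) (val (Fin.last K)) t q) (Icc 0 1) := by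
  obtain ⟨V, hV⟩ : ∃ V : ℝ, ∀ k, |val k| ≤ V :=
    ⟨∑ k, |val k|, fun k => Finset.single_le_sum (f := fun k => |val k|)
      (fun _ _ => abs_nonneg _) (Finset.mem_univ k)⟩
  set C := 4 * V * (val (Fin.last K) - val 0) / w (Fin.last K) with hC
  intro t ht
  rw [Metric.continuousWithinAt_iff]
  intro ε hε
  set B := |C| + |ET w val t q| + 1 with hB
  have hB0 : 0 < B := by positivity
  refine ⟨min 1 (ε / B), by positivity, fun t' ht' hd => ?_⟩
  rw [Real.dist_eq] at hd ⊢
  have hd1 : |t' - t| < 1 := lt_of_lt_of_le hd (min_le_left _ _)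
  have hd2 : |t' - t| < ε / B := lt_of_lt_of_le hd (min_le_right _ _)
  have hq' := specT_quad hv hw hs hV ht.1 ht.2 ht'.1 hq
  rw [← hC] at hq'
  have h1 : C * (t' - t) ^ 2 ≤ |C| * |t' - t| := by
    have h4 : (t' - t) ^ 2 = |t' - t| * |t' - t| := by rw [← sq_abs, sq]
    have h5 : |t' - t| * |t' - t| ≤ |t' - t| := by nlinarith [abs_nonneg (t' - t)]
    rw [h4]
    calc C * (|t' - t| * |t' - t|) ≤ |C| * (|t' - t| * |t' - t|) :=
          mul_le_mul_of_nonneg_right (le_abs_self C) (by positivity)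
      _ ≤ |C| * |t' - t| := mul_le_mul_of_nonneg_left h5 (abs_nonneg _)
  have h2 := abs_sub_abs_le_abs_sub
    (specT (atomic w val) (val (Fin.last K)) t' q - specT (atomic w val) (val (Fin.last K)) t q)
    ((t' - t) * ET w val t q)
  rw [abs_mul] at h2
  have h3 : |specT (atomic w val) (val (Fin.last K)) t' q -
      specT (atomic w val) (val (Fin.last K)) t q| ≤ B * |t' - t| := by
    rw [hB]
    nlinarith [abs_nonneg (t' - t)]
  refine lt_of_le_of_lt h3 ?_
  rwa [lt_div_iff₀ hB0, mul_comm] at hd2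

/-- (S3) the energy identity. -/
theorem energy_path {V : ℝ} (hV : ∀ k, |val k| ≤ V) {A : ℝ} (hA : ∀ k, 2 / w k ≤ A)
    {t : ℝ} (ht : 0 ≤ t) (ht1 : t ≤ 1) {M : ℕ} {m p : ℕ → ℝ} (h : StepD (M + 1) m p)
    {G : Fin (K + 1) → ℕ → ℝ} {ε : ℝ} (hε0 : 0 < ε) (hε : ε ≤ 1)
    (hR : SDAlg.Rel w (fun k => t * val k) (M + 1) m G p ε) :
    |(1 / 2) * ∑ k, w k * (val k * G k (M + 1)) -
      (1 / 2) * ∫ r in Ioo (0:ℝ) 1, th w val (t * deficit (pathOf M m p) r)| ≤
      V * SDAlg.Rel.CC A (val (Fin.last K) - val 0) * Real.sqrt ε := by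
  have h1 := energy_close hv hw hs hV hA ht ht1 h hε0 hε hR
  have hE : (1 / 2) * ∫ r in Ioo (0:ℝ) 1, th w val (t * deficit (pathOf M m p) r) =
      ET w val t (pathOf M m p) := by
    unfold ET
    congr 1
    refine setIntegral_congr_fun measurableSet_Ioo ?_
    intro r hr
    exact (phiT_eq hv hw ht
      (deficit_nonneg_step (wdOf_pos h) (wdOf_sum h) (pOf_le_one h) hr.2.le)).symm
  rw [hE]
  exact h1

/-- integrability. -/
theorem th_deficit_integrable {t : ℝ} (ht : 0 ≤ t) (ht1 : t ≤ 1) {q : ℝ → ℝ}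
    (hq : IsTrialPath q) :
    IntegrableOn (fun r => th w val (t * deficit q r)) (Ioo (0:ℝ) 1) := by
  refine (phiT_deficit_integrable hv hw hs ht ht1 hq).congr_fun ?_ measurableSet_Ioo
  intro r hr
  exact phiT_eq hv hw ht (deficit_mem hq hr).1

/-- (S4) monotonicity in the deficit. -/
theorem th_int_mono {C : ℝ} (hC0 : 0 ≤ C)
    (hC : ∀ x y : ℝ, 0 ≤ x → x ≤ 1 → 0 ≤ y → y ≤ 1 → |th w val x - th w val y| ≤ C * |x - y|)
    {t : ℝ} (ht : 0 ≤ t) (ht1 : t ≤ 1) {p q : ℝ → ℝ} (hp : IsTrialPath p) (hq : IsTrialPath q)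
    {δ : ℝ} (hδ : 0 ≤ δ) (hd : ∀ r ∈ Ioo (0:ℝ) 1, deficit q r ≤ deficit p r + δ) :
    (1 / 2) * ∫ r in Ioo (0:ℝ) 1, th w val (t * deficit q r) ≤
      (1 / 2) * ∫ r in Ioo (0:ℝ) 1, th w val (t * deficit p r) + C * δ := by
  have i1 := th_deficit_integrable hv hw hs ht ht1 hq
  have i2 := th_deficit_integrable hv hw hs ht ht1 hp
  have h1 : ∀ r ∈ Ioo (0:ℝ) 1, th w val (t * deficit q r) ≤
      th w val (t * deficit p r) + C * δ := by
    intro r hr
    have hq1 := deficit_mem hq hr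
    have hp1 := deficit_mem hp hr
    have hq2 : deficit q r ≤ 1 := hq1.2.trans (by linarith [hr.1])
    have hp2 : deficit p r ≤ 1 := hp1.2.trans (by linarith [hr.1])
    set y := min (t * (deficit p r + δ)) 1 with hy
    have htp0 : 0 ≤ t * deficit p r := mul_nonneg ht hp1.1
    have htp1 : t * deficit p r ≤ 1 := by nlinarith
    have htq0 : 0 ≤ t * deficit q r := mul_nonneg ht hq1.1
    have htq1 : t * deficit q r ≤ 1 := by nlinarith
    have hy0 : 0 ≤ y := le_min (mul_nonneg ht (by linarith [hp1.1])) zero_le_one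
    have hy1 : y ≤ 1 := min_le_right _ _
    have hqy : t * deficit q r ≤ y := le_min (mul_le_mul_of_nonneg_left (hd r hr) ht) htq1
    have hpy : t * deficit p r ≤ y :=
      le_min (mul_le_mul_of_nonneg_left (by linarith) ht) htp1
    have hyd : y - t * deficit p r ≤ δ := by
      have : y ≤ t * (deficit p r + δ) := min_le_left _ _
      nlinarith
    have e1 := th_mono hv hw hs htq0 hqy hy1
    have e2 := hC y (t * deficit p r) hy0 hy1 htp0 htp1
    rw [abs_of_nonneg (sub_nonneg.2 hpy)] at e2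
    have e3 := (abs_le.1 e2).2
    have e4 := mul_le_mul_of_nonneg_left hyd hC0
    linarith
  have h2 : ∫ r in Ioo (0:ℝ) 1, th w val (t * deficit q r) ≤
      ∫ r in Ioo (0:ℝ) 1, (th w val (t * deficit p r) + C * δ) :=
    setIntegral_mono_on i1 (i2.add (integrable_const _)) measurableSet_Ioo h1
  have h3 : ∫ r in Ioo (0:ℝ) 1, (th w val (t * deficit p r) + C * δ) =
      (∫ r in Ioo (0:ℝ) 1, th w val (t * deficit p r)) + C * δ := by
    rw [integral_add i2 (integrable_const _)]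
    simp
  rw [h3] at h2
  have h4 : 0 ≤ C * δ := mul_nonneg hC0 hδ
  linarith

end

end Crest.Agent.R164.SDPath
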