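import Crest.Agent.R164.UObs2
import Crest.Agent.R164.Mag1
import Crest.Agent.R164.SDPath

/-!
Row 164, upper bound assembly (helper466): the inputs of the final assembly as Props.

* `HConc` : contact in one auxiliary strength ⇒ the field observable is concentrated (helper494);
* `HStr`  : concentrated field observables ⇒ approximate left-rotation relations (helper867);
* `HInit` : value at `t = 0`, `l = 0` (helper399);
* `HCoer` : coercivity in the main strengths at `l = 0` (helper362).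
-/

set_option autoImplicit false
set_option linter.unusedSectionVars false

namespace Crest.Agent.R164.US

open Finset MeasureTheory Crest.Agent.R141 Crest.Agent.R164
open Crest.ProbabilityR.InvariantGlass

noncomputable section

/-- the field observable `D^k_g = N⁻¹ ∑_{lab i = k} z_{g,i} x_i`, `j = (k, g)` -/
def Dobs {p : Par} {N : ℕ} (A : Finset (Fin N → Bool)) (n : ℕ) {κ : Type} [DecidableEq κ]
    (lab : Fin N → κ) (j : κ × Fin p.nc) (U : Fin N → Fin N → ℝ) (s : SY.SS p n A) : ℝ :=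
  (N : ℝ)⁻¹ * ∑ i, if lab i = j.1 then SY.zf s.2.2 j.2 i * SY.xU (Matrix.of U) s.1.1 i else 0

/-- averaged concentration of the observable `j` -/
def Dconc {p : Par} {N : ℕ} {A : Finset (Fin N → Bool)} (n : ℕ) (hA : A.Nonempty)
    (ν : Measure (Fin N → Fin N → ℝ)) {κ : Type} [Fintype κ] [DecidableEq κ] (lab : Fin N → κ)
    (th : κ → ℝ) (η t : ℝ) (a : Fin p.nc → ℝ) (l : κ × Fin p.nc → ℝ) (j : κ × Fin p.nc)
    (δ : ℝ) : Prop :=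
  ∃ dd : ℝ, Ed p N (fun d => ∫ U, eE (PU (n := n) hA lab th η t a l U d)
    (fun w => |Dobs A n lab j U w.1 - dd|) ∂ν) ≤ δ

/-- the proportion of the eigenvalue `k` -/
def prop {N : ℕ} {κ : Type} [DecidableEq κ] (lab : Fin N → κ) (k : κ) : ℝ :=
  ((Finset.univ.filter fun i : Fin N => lab i = k).card : ℝ) / (N : ℝ)

/-- **(helper494)** contact from above in the auxiliary strength `j` ⇒ concentration of `D^j`. -/
def HConc (K : ℕ) (val : Fin (K + 1) → ℝ) : Prop :=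
  ∀ p : Par, p.nb = 0 → ∀ η : ℝ, 0 < η → ∀ Amax δ : ℝ, 0 < δ → ∃ (N0 : ℕ) (n0 : ℕ → ℕ),
    ∀ N, N0 ≤ N → ∀ n, n0 N ≤ n → ∀ (A : Finset (Fin N → Bool)) (hA : A.Nonempty)
      (ν : Measure (Fin N → Fin N → ℝ)), IsProbabilityMeasure ν → Haar.RHaar ν →
      ∀ (lab : Fin N → Fin (K + 1)) (t : ℝ), t ∈ Set.Icc (0:ℝ) 1 → ∀ a : Fin p.nc → ℝ,
      (∀ g, 0 ≤ a g ∧ a g ≤ Amax) → ∀ l : Fin (K + 1) × Fin p.nc → ℝ,
      (∀ j, l j ∈ Set.Icc (5 / 4 : ℝ) (7 / 4)) → ∀ (j : Fin (K + 1) × Fin p.nc) (F' : ℝ),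
      (∀ y ∈ Set.Icc (1:ℝ) 2, FN n hA ν lab val η t a (Function.update l j y) ≤
        FN n hA ν lab val η t a l + F' * (y - l j) + 8 * η * (y - l j) ^ 2) →
      Dconc n hA ν lab val η t a l j δ

/-- **(helper867)** concentrated field observables ⇒ approximate left-rotation relations at
`M + 1` levels, with the cells of the levels, and the energy. -/
def HStr (K : ℕ) (w val : Fin (K + 1) → ℝ) : Prop :=
  ∃ C : ℝ, 0 < C ∧ ∀ M : ℕ, ∃ (wc : ℕ) (p : Par), 0 < wc ∧ p.nc = (M + 1) * wc ∧ p.nb = 0 ∧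
    ∀ Amax : ℝ, ∃ ηmax : ℝ, 0 < ηmax ∧ ∀ η : ℝ, 0 < η → η ≤ ηmax → ∃ δ : ℝ, 0 < δ ∧
    ∃ (N0 : ℕ) (n0 : ℕ → ℕ), ∀ N, N0 ≤ N → ∀ n, n0 N ≤ n →
      ∀ (A : Finset (Fin N → Bool)) (hA : A.Nonempty)
      (ν : Measure (Fin N → Fin N → ℝ)), IsProbabilityMeasure ν → Haar.RHaar ν →
      ∀ (lab : Fin N → Fin (K + 1)), (∀ k, |prop lab k - w k| ≤ δ) →
      ∀ (t : ℝ), t ∈ Set.Icc (0:ℝ) 1 → ∀ a : Fin p.nc → ℝ,
      (∀ g, 0 ≤ a g ∧ a g ≤ Amax) → ∀ l : Fin (K + 1) × Fin p.nc → ℝ,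
      (∀ j, l j ∈ Set.Icc (1 : ℝ) 2) → (∀ j, Dconc n hA ν lab val η t a l j δ) →
      ∃ (cell : ℕ → ℕ) (Γ : Fin (K + 1) → ℕ → ℝ) (Pb : ℕ → ℝ),
        (∀ b ≤ M, b * wc ≤ cell b ∧ cell b < (b + 1) * wc) ∧
        SDAlg.Rel w (fun k => t * val k) (M + 1) (fun b => (b : ℝ) / ((M : ℝ) + 1)) Γ Pb
          (C / ((M : ℝ) + 1)) ∧
        (∀ b ≤ M, ∀ g < cell b, Rb hA lab val η t a l ν n (p.mt g) ≤ Pb b) ∧
        |(N : ℝ)⁻¹ * Eo n hA ν lab val η t a l (Vt A n p lab val) -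
          1 / 2 * ∑ k, w k * (val k * Γ k (M + 1))| ≤ C / ((M : ℝ) + 1)

/-- **(helper399)** the value at `t = 0` and `l = 0`. -/
def HInit (K : ℕ) (val : Fin (K + 1) → ℝ) : Prop :=
  ∀ (J : ℕ) (γ : Fin J → ℚ), (∀ j, 0 < γ j) → ∑ j, γ j = 1 →
    ∀ lab : (N : ℕ) → Fin N → Fin J,
    (∀ j : Fin J, Filter.Tendsto
      (fun N : ℕ => ((Finset.univ.filter fun r : Fin N => lab N r = j).card : ℝ) / (N : ℝ))
      Filter.atTop (nhds ((γ j : ℚ) : ℝ))) →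
    ∀ l u : Fin J → ℝ, (∀ j, l j < u j) → (∀ j, -1 ≤ l j ∧ u j ≤ 1) →
    ∀ m : Fin J → ℚ, (∀ j, (-1 : ℚ) < m j ∧ m j < 1) →
    (∀ j, ∀ x ∈ Set.Icc (l j) (u j), |((m j : ℚ) : ℝ)| ≤ |x| ∧ 0 ≤ ((m j : ℚ) : ℝ) * x) →
    ∀ p : Par, p.nb = 0 → ∀ Amax ε : ℝ, 0 < ε → ∃ (N0 : ℕ) (n0 : ℕ → ℕ),
    ∀ N, N0 ≤ N → ∀ n, n0 N ≤ n → ∀ (hA : (Mag.boxSet (lab N) l u).Nonempty)
      (ν : Measure (Fin N → Fin N → ℝ)), IsProbabilityMeasure ν → (∀ᵐ U ∂ν, U ∈ Rot.OK N) →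
      ∀ (labE : Fin N → Fin (K + 1)) (η : ℝ) (a : Fin p.nc → ℝ), (∀ g, 0 ≤ a g ∧ a g ≤ Amax) →
      ((FN n hA ν labE val η 0 a (fun _ => 0) : ℝ) : EReal) ≤
        groupFieldValue γ m (fun _ : Fin (p.nc + 1) => 1 / ((p.nc : ℝ) + 1))
          (fun i : Fin (p.nc + 1) => ∑ g : Fin p.nc, if g.val < i.val then a g ^ 2 else 0) +
        ((ε : ℝ) : EReal)

/-- **(helper362)** coercivity in the main strengths at `l = 0`. -/
def HCoer (K : ℕ) (val : Fin (K + 1) → ℝ) : Prop :=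
  ∀ p : Par, p.nb = 0 → ∃ C1 : ℝ, ∀ N, 0 < N → ∀ n, 0 < n →
    ∀ (A : Finset (Fin N → Bool)) (hA : A.Nonempty)
      (ν : Measure (Fin N → Fin N → ℝ)), IsProbabilityMeasure ν → (∀ᵐ U ∂ν, U ∈ Rot.OK N) →
      ∀ (lab : Fin N → Fin (K + 1)) (η t : ℝ), t ∈ Set.Icc (0:ℝ) 1 → ∀ a : Fin p.nc → ℝ,
      FN n hA ν lab val η t a (fun _ => 0) ≤
        C1 - 1 / 2 * ∑ g : Fin p.nc, a g ^ 2 * (1 - ((g : ℝ) + 1) / ((p.nc : ℝ) + 1))

end

end Crest.Agent.R164.US
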