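import Crest.Agent.R164.LStr6
import Crest.Agent.R164.UDef

/-!
Row 164, LSTRUCT-1, part 7: the input `US.HStr` of the upper bound assembly (helper466).
-/

set_option autoImplicit false

namespace Crest.Agent.R164.LStr

open Finset MeasureTheory Crest.Agent.R141 Crest.Agent.R164 Crest.Agent.R164.RSys
open Crest.Agent.R164.Rot (OK xc)
open Crest.Agent.R164.RotRel (rr dav dav_add dav_smul dav_const dav_mono XU integrable_cont)

noncomputable section

theorem rel_mono_eps {κ : Type} [Fintype κ] {α θ : κ → ℝ} {n : ℕ} {m : ℕ → ℝ}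
    {G : κ → ℕ → ℝ} {q : ℕ → ℝ} {ε ε' : ℝ} (hε : ε ≤ ε')
    (h : SDAlg.Rel α θ n m G q ε) : SDAlg.Rel α θ n m G q ε' where
  m0 := h.m0
  mpos := h.mpos
  mmono := h.mmono
  mn := h.mn
  G0 := h.G0
  Gmono := h.Gmono
  p0 := h.p0
  pmono := h.pmono
  pn := h.pn
  papp b hb := (h.papp b hb).trans hε
  rel k l a ha := (h.rel k l a ha).trans hε

section sys

variable {p : Par} {N n : ℕ} {A : Finset (Fin N → Bool)} {hA : A.Nonempty}
  {κ : Type} [Fintype κ] [DecidableEq κ]
  {t : ℝ} {V : (Fin N → Bool) → ℝ} {a lam : Fin N → Fin p.nc → ℝ}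
  {μ : Measure (Fin N → Fin N → ℝ)} [IsProbabilityMeasure μ]

/-- the overlap at the leaf -/
theorem ro_leaf (eig : Fin N → ℝ) (B : Finset (Fin N)) (hB : 0 < B.card) (d : DD p N)
    (U : Fin N → Fin N → ℝ) (ω : G.Om (SY.base p n A hA)) :
    (B.card : ℝ) * ro n hA eig t V a lam B p.L d U ω = ∑ i ∈ B, OvC.xM U ω.1.1.1 i ^ 2 := by
  unfold ro rr
  have hc : (B.card : ℝ) ≠ 0 := by positivity
  rw [← mul_assoc, mul_inv_cancel₀ hc, one_mul]
  refine Finset.sum_congr rfl fun i _ => ?_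
  have e : cE (PQ n hA eig t V a lam U d) ((G.fil (SY.base p n A hA)).F p.L)
      (XU (sp n hA) U i) ω = XU (sp n hA) U i ω :=
    cE_of_meas (PQ_isProb n hA eig t V a lam U d)
      (rmeas_of_ge (𝓕 := G.fil (SY.base p n A hA)) le_rfl _) ω
  rw [e]
  rfl

/-- **The energy.** -/
theorem energy_eq (hμ : ∀ᵐ U ∂μ, U ∈ OK N) (hN : 0 < N) (lab : Fin N → κ) (val : κ → ℝ)
    (hB : ∀ k, 0 < (blk lab k).card) (c : ℕ → Fin p.nc) (sel : Fin p.nc → DD p N → Fin p.T)
    (nn : ℕ) :
    (N : ℝ)⁻¹ * dav (dw p N) μ (fun d U => eE (PQ n hA (fun i => val (lab i)) t V a lam U d)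
      (fun ω => Mag.qd (fun i => val (lab i)) (Matrix.of U) ω.1.1.1)) =
    1 / 2 * ∑ k, ((blk lab k).card / (N : ℝ)) * (val k *
      Gam n hA (fun i => val (lab i)) t V a lam μ c sel nn (blk lab k) nn) := by
  set eig : Fin N → ℝ := fun i => val (lab i) with heig
  have hN' : (N : ℝ) ≠ 0 := by positivity
  have key : ∀ (d : DD p N) (U : Fin N → Fin N → ℝ),
      (N : ℝ)⁻¹ * eE (PQ n hA eig t V a lam U d)
        (fun ω => Mag.qd eig (Matrix.of U) ω.1.1.1) =
      ∑ k, (1 / 2 * (((blk lab k).card / (N : ℝ)) * val k)) *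
        eE (PQ n hA eig t V a lam U d) (ro n hA eig t V a lam (blk lab k) (RSys.lv c sel nn d nn) d U) := by
    intro d U
    rw [RSys.lv_top, ← eE_smul]
    have e1 : ∀ k, (1 / 2 * (((blk lab k).card / (N : ℝ)) * val k)) *
        eE (PQ n hA eig t V a lam U d) (ro n hA eig t V a lam (blk lab k) p.L d U) =
        eE (PQ n hA eig t V a lam U d) (fun ω => (1 / 2 * (((blk lab k).card / (N : ℝ)) * val k)) *
          ro n hA eig t V a lam (blk lab k) p.L d U ω) := by
      intro k; rw [eE_smul]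
    simp only [e1]
    rw [← eE_sum]
    congr 1
    funext ω
    have e2 : ∀ k, (1 / 2 * (((blk lab k).card / (N : ℝ)) * val k)) *
          ro n hA eig t V a lam (blk lab k) p.L d U ω =
        (N : ℝ)⁻¹ * (1 / 2 * ∑ i ∈ blk lab k, eig i * OvC.xM U ω.1.1.1 i ^ 2) := by
      intro k
      have e3 : ∑ i ∈ blk lab k, eig i * OvC.xM U ω.1.1.1 i ^ 2 =
          val k * ∑ i ∈ blk lab k, OvC.xM U ω.1.1.1 i ^ 2 := by
        rw [Finset.mul_sum]
        refine Finset.sum_congr rfl fun i hi => ?_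
        have h1 : lab i = k := (Finset.mem_filter.1 hi).2
        rw [heig]
        simp only [h1]
      rw [e3, ← ro_leaf (n := n) (hA := hA) (t := t) (V := V) (a := a) (lam := lam) eig
        (blk lab k) (hB k) d U ω]
      ring
    simp only [e2]
    rw [← Finset.mul_sum, ← Finset.mul_sum, sum_blk lab]
    rfl
  rw [← dav_smul]
  simp only [key]
  rw [OvC.dav_sum univ fun k _ d => (int_ro hμ d (blk lab k) _).const_mul _, Finset.mul_sum]
  refine Finset.sum_congr rfl fun k _ => ?_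
  rw [dav_smul]
  unfold Gam
  ring

/-- the averaged spin overlap is monotone in the level. -/
theorem pb_ge (eig : Fin N → ℝ) (c : ℕ → Fin p.nc) (sel : Fin p.nc → DD p N → Fin p.T) (nn : ℕ)
    (b g : ℕ) (hg : ∀ d, p.mt g ≤ RSys.lv c sel nn d b) (hμ : ∀ᵐ U ∂μ, U ∈ OK N) :
    dav (dw p N) μ (fun d U => eE (PQ n hA eig t V a lam U d) (fun ω => (N : ℝ)⁻¹ *
      ∑ i, (cE (PQ n hA eig t V a lam U d) ((G.fil (SY.base p n A hA)).F (p.mt g))
        (fun ω => sp n hA ω i) ω) ^ 2)) ≤ pb n hA eig t V a lam μ c sel nn b := by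
  have hint : ∀ (l : ℕ) (d : DD p N), Integrable (fun U => eE (PQ n hA eig t V a lam U d)
      (fun ω => (N : ℝ)⁻¹ * ∑ i, (cE (PQ n hA eig t V a lam U d)
        ((G.fil (SY.base p n A hA)).F l) (fun ω => sp n hA ω i) ω) ^ 2)) μ := by
    intro l d
    refine integrable_cont hμ (cont_eEf n hA eig t V a lam d (f := fun U ω => (N : ℝ)⁻¹ * ∑ i,
      (cE (PQ n hA eig t V a lam U d) ((G.fil (SY.base p n A hA)).F l)
        (fun ω => sp n hA ω i) ω) ^ 2) fun ω => ?_)
    exact continuous_const.mul (continuous_finsetSum _ fun i _ =>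
      (cont_cEf n hA eig t V a lam d (f := fun _ ω => sp n hA ω i)
        (fun _ => continuous_const) l ω).pow 2)
  unfold pb
  refine dav_mono (dw_nonneg p N) (fun d => hint _ d) (fun d => hint _ d) fun d => ?_
  refine Filter.Eventually.of_forall fun U => ?_
  have hQ := PQ_isProb n hA eig t V a lam U d
  rw [eE_smul, eE_smul, eE_sum, eE_sum]
  refine mul_le_mul_of_nonneg_left (Finset.sum_le_sum fun i _ => ?_) (by positivity)
  have hr : (G.fil (SY.base p n A hA)).F (RSys.lv c sel nn d b) ≤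
      (G.fil (SY.base p n A hA)).F (p.mt g) := (G.fil (SY.base p n A hA)).anti' (hg d)
  rw [← eE_cE hQ ((G.fil (SY.base p n A hA)).F (p.mt g)) (fun ω =>
    (cE (PQ n hA eig t V a lam U d) ((G.fil (SY.base p n A hA)).F (RSys.lv c sel nn d b))
      (fun ω => sp n hA ω i) ω) ^ 2)]
  refine eE_mono hQ fun w => ?_
  have h1 := cE_sq_le hQ ((G.fil (SY.base p n A hA)).F (p.mt g))
    (cE (PQ n hA eig t V a lam U d) ((G.fil (SY.base p n A hA)).F (RSys.lv c sel nn d b))
      (fun ω => sp n hA ω i)) w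
  rwa [cE_tower hQ hr] at h1

end sys

/-- **The input of helper466.** -/
theorem hStr (K : ℕ) {w val : Fin (K + 1) → ℝ} (hw : ∀ k, 0 < w k) : US.HStr K w val := by
  obtain ⟨Lam, hLam⟩ : ∃ Lam : ℝ, ∀ k, |val k| ≤ Lam := by
    obtain ⟨k0, -, hk0⟩ := Finset.exists_max_image (univ : Finset (Fin (K + 1)))
      (fun k => |val k|) Finset.univ_nonempty
    exact ⟨|val k0|, fun k => hk0 k (Finset.mem_univ k)⟩
  have hLam0 : 0 ≤ Lam := (abs_nonneg _).trans (hLam 0)
  obtain ⟨C, KK, hC, hKK, main⟩ := lstr_main hw hLam (CV := 0) le_rfl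
  refine ⟨C + Lam, by linarith, fun M => ?_⟩
  obtain ⟨wc, p, hwc, hp, hnb, main⟩ := main M 1 one_pos
  refine ⟨wc, p, by omega, hp, hnb, fun Amax => ?_⟩
  obtain ⟨βm, hβm, main⟩ := main Amax
  refine ⟨βm ^ 2, by positivity, fun η hη hηm => ?_⟩
  have hs : 0 < Real.sqrt η := Real.sqrt_pos.2 hη
  have hsm : Real.sqrt η ≤ βm := by
    rw [← Real.sqrt_sq hβm.le]; exact Real.sqrt_le_sqrt hηm
  obtain ⟨δ, hδ, hδK, N0, n0, main⟩ := main (Real.sqrt η) hs hsm
  refine ⟨δ, hδ, max N0 1, n0, ?_⟩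
  intro N hN n hn A hA ν hν1 hν lab hlab t ht a ha l hl hD
  have hNpos : 0 < N := lt_of_lt_of_le one_pos ((le_max_right _ _).trans hN)
  have hN' : (0 : ℝ) < N := by exact_mod_cast hNpos
  have hR0 : (0 : ℝ) < (M : ℝ) + 1 := by positivity
  have hDC : DC n hA ν lab (fun i => val (lab i)) t (fun _ => 0) (fun _ => a)
      (fun i g => Real.sqrt η * l (lab i, g)) δ := by
    intro k g hg
    obtain ⟨dd, h⟩ := hD (k, ⟨g, hg⟩)
    refine ⟨dd, le_trans (le_of_eq ?_) h⟩
    have e : ∀ (U : Fin N → Fin N → ℝ) (ω : G.Om (SY.base p n A hA)),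
        OvC.OH n hA p (blk lab k) g U ω = US.Dobs A n lab (k, ⟨g, hg⟩) U ω.1 := by
      intro U ω
      unfold OvC.OH US.Dobs blk
      congr 1
      rw [Finset.sum_filter]
      refine Finset.sum_congr rfl fun i _ => ?_
      simp only [dif_pos hg]
      rfl
    simp only [e]
    rfl
  obtain ⟨c, sel, h1, h2, -, -, h5⟩ := main N ((le_max_left _ _).trans hN) n hn A hA ν hν1 hν lab
    hlab t (by rw [abs_of_nonneg ht.1]; exact ht.2) (fun _ => 0) (fun _ => by simp)
    (fun _ => a) (fun _ g => by rw [abs_of_nonneg (ha g).1]; exact (ha g).2)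
    (fun k g => Real.sqrt η * l (k, g)) (fun k g => by
      have := hl (k, g)
      constructor
      · nlinarith [this.1]
      · nlinarith [this.2]) hDC
  set Γ : Fin (K + 1) → ℕ → ℝ := fun k => Gam n hA (fun i => val (lab i)) t (fun _ => 0)
    (fun _ => a) (fun i g => Real.sqrt η * l (lab i, g)) ν c sel (M + 1) (blk lab k) with hΓ
  refine ⟨fun b => (c b : ℕ), Γ, pb n hA (fun i => val (lab i)) t (fun _ => 0) (fun _ => a)
    (fun i g => Real.sqrt η * l (lab i, g)) ν c sel (M + 1), h1, ?_, ?_, ?_⟩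
  · exact rel_mono_eps (div_le_div_of_nonneg_right (by linarith) hR0.le) h2
  · intro b hb g hg
    have hlv : ∀ d, p.mt g ≤ RSys.lv c sel (M + 1) d b := by
      intro d
      rw [RSys.lv_of_lt (by omega : b < M + 1)]
      unfold Par.mt Par.ct
      have hg' : g + 1 ≤ (c b : ℕ) := hg
      have h6 : (g + 1) * (p.T + 1) ≤ (c b : ℕ) * (p.T + 1) := Nat.mul_le_mul_right _ hg'
      omega
    refine le_trans (le_of_eq ?_) (pb_ge (n := n) (hA := hA) (t := t) (V := fun _ => 0)
      (a := fun _ => a) (lam := fun i g => Real.sqrt η * l (lab i, g)) (μ := ν)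
      (fun i => val (lab i)) c sel (M + 1) b g hlv hν.mem)
    unfold US.Rb
    have e : ∀ (d : DD p N) (U : Fin N → Fin N → ℝ),
        eE (PQ n hA (fun i => val (lab i)) t (fun _ => 0) (fun _ => a)
          (fun i g => Real.sqrt η * l (lab i, g)) U d) (fun ω => (N : ℝ)⁻¹ *
      ∑ i, (cE (PQ n hA (fun i => val (lab i)) t (fun _ => 0) (fun _ => a)
          (fun i g => Real.sqrt η * l (lab i, g)) U d) ((G.fil (SY.base p n A hA)).F (p.mt g))
        (fun ω => sp n hA ω i) ω) ^ 2) =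
        (N : ℝ)⁻¹ * US.Rs hA (US.PU (n := n) hA lab val η t a l U d) (p.mt g) := by
      intro d U
      rw [eE_smul, eE_sum]
      rfl
    simp only [e]
    rw [dav_smul]
    rfl
  · have hBc : ∀ k, 0 < (blk lab k).card := by
      intro k
      rcases Nat.eq_zero_or_pos (blk lab k).card with h | h
      · have := h5 k
        rw [h] at this
        simp at this
        linarith
      · exact h
    have hE := energy_eq (n := n) (hA := hA) (t := t) (V := fun _ => 0) (a := fun _ => a)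
      (lam := fun i g => Real.sqrt η * l (lab i, g)) (μ := ν) hν.mem hNpos lab val hBc c sel
      (M + 1)
    have hE' : (N : ℝ)⁻¹ * US.Eo n hA ν lab val η t a l (US.Vt A n p lab val) =
        1 / 2 * ∑ k, ((blk lab k).card / (N : ℝ)) * (val k * Γ k (M + 1)) := by
      rw [hΓ, ← hE]
      rfl
    rw [hE', ← mul_sub, ← Finset.sum_sub_distrib, abs_mul, abs_of_pos (by norm_num : (0:ℝ) < 1 / 2)]
    have h6 : ∀ k ∈ (univ : Finset (Fin (K + 1))),
        |(blk lab k).card / (N : ℝ) * (val k * Γ k (M + 1)) - w k * (val k * Γ k (M + 1))| ≤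
          δ * (Lam * KK) := by
      intro k _
      rw [← sub_mul, abs_mul, abs_mul]
      refine mul_le_mul (hlab k) (mul_le_mul (hLam k) ?_ (abs_nonneg _) hLam0)
        (by positivity) hδ.le
      rw [abs_of_nonneg (Gam_nonneg _ _)]
      exact Gam_le hν.mem hNpos (h5 k) _
    have h7 := (Finset.abs_sum_le_sum_abs _ _).trans (Finset.sum_le_sum h6)
    rw [Finset.sum_const, Finset.card_univ, nsmul_eq_mul] at h7
    have h8 : (Fintype.card (Fin (K + 1)) : ℝ) * (δ * (Lam * KK)) ≤ Lam * (1 / ((M : ℝ) + 1)) := by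
      have := mul_le_mul_of_nonneg_left hδK hLam0
      linarith
    have h9 : 1 / 2 * |∑ k, ((blk lab k).card / (N : ℝ) * (val k * Γ k (M + 1)) -
        w k * (val k * Γ k (M + 1)))| ≤ Lam * (1 / ((M : ℝ) + 1)) := by
      have h10 : 0 ≤ |∑ k, ((blk lab k).card / (N : ℝ) * (val k * Γ k (M + 1)) -
        w k * (val k * Γ k (M + 1)))| := abs_nonneg _
      linarith
    refine h9.trans ?_
    rw [mul_one_div]
    exact div_le_div_of_nonneg_right (by linarith) hR0.le

end

end Crest.Agent.R164.LStr
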