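import Crest.Agent.R164.LPen2
import Crest.Agent.R164.UFinal
import Crest.Agent.R164.Trans247
import Crest.Agent.R164.LFin8
import Crest.Agent.R164.EDq9

/-!
Row 164 (helper552): `H248` for the model of S0247, S0248, S0249.
-/

set_option autoImplicit false

namespace Crest.Agent.R164.Final

open MeasureTheory Set Filter Topology
open Crest.ProbabilityR.InvariantGlass

/-- **All of S0248.** -/
theorem h248 {Ω : Type} [MeasurableSpace Ω] {P : Measure Ω} [IsProbabilityMeasure P]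
    {Us : (N : ℕ) → Ω → (Fin N → Fin N → ℝ)} (hmeas : ∀ N, Measurable (Us N))
    (horth : ∀ N, ∀ᵐ ω ∂P, Matrix.of (Us N ω) ∈ Matrix.orthogonalGroup (Fin N) ℝ)
    (hHaar : ∀ (N : ℕ) (O : Matrix (Fin N) (Fin N) ℝ), O ∈ Matrix.orthogonalGroup (Fin N) ℝ →
      P.map (fun ω => fun i j => (Matrix.of (Us N ω) * O) i j) = P.map (Us N))
    {μ : Measure ℝ} [IsProbabilityMeasure μ] {lo hi : ℝ}
    (h : μ (Icc lo hi) = 1)
    (hedge : ∀ ε : ℝ, 0 < ε → 0 < μ (Icc lo (lo + ε)) ∧ 0 < μ (Icc (hi - ε) hi))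
    (eig : (N : ℕ) → Fin N → ℝ)
    (hweak : ∀ φ : ℝ → ℝ, Continuous φ → (∃ C : ℝ, ∀ x, |φ x| ≤ C) →
      Tendsto (fun N : ℕ => (1 / (N : ℝ)) * ∑ i : Fin N, φ (eig N i)) atTop (𝓝 (∫ x, φ x ∂μ)))
    (hext : ∀ ε : ℝ, 0 < ε → ∀ᶠ N : ℕ in atTop, ∀ i : Fin N,
      lo - ε ≤ eig N i ∧ eig N i ≤ hi + ε) :
    H248 μ hi eig P Us :=
  Mag.h248_of_bounds' hmeas horth hHaar h hedge eig hweak hext
    (fun _ _ _ hv hw hs labE hlabE => US.ub hmeas horth hHaar hv hw hs labE hlabE)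
    (fun _ _ _ hv hw hs labE hlabE nu h1 h2 => LG.lbp ED.ediff0 _ _ _ hv hw hs labE hlabE nu h1 h2)

end Crest.Agent.R164.Final
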