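import Crest.Agent.R164.GCalc

/-!
Row 164: tilted averages and derivatives of `gaussOp` (helper92).
-/

set_option autoImplicit false

namespace Crest.Agent.R164.GC

open MeasureTheory ProbabilityTheory Filter Topology Set
open Crest.ProbabilityR.InvariantGlass

noncomputable section

/-- tilted average -/
def tE (a v : ℝ) (f φ : ℝ → ℝ) (x : ℝ) : ℝ :=
  H (Real.sqrt v) (fun y => φ y * Real.exp (a * f y)) x /
    H (Real.sqrt v) (fun y => Real.exp (a * f y)) x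

/-- bounded continuous functions -/
structure BC (φ : ℝ → ℝ) (K : ℝ) : Prop where
  cont : Continuous φ
  bd : ∀ x, |φ x| ≤ K

theorem BC.nonneg {φ : ℝ → ℝ} {K : ℝ} (h : BC φ K) : 0 ≤ K := (abs_nonneg _).trans (h.bd 0)

theorem BC.eg {φ : ℝ → ℝ} {K : ℝ} (h : BC φ K) : EG φ := EG.of_bdd h.cont h.bd

theorem BC.const (c : ℝ) : BC (fun _ => c) |c| := ⟨continuous_const, fun _ => le_rfl⟩

theorem BC.add {φ ψ : ℝ → ℝ} {K L : ℝ} (h : BC φ K) (h' : BC ψ L) :
    BC (fun x => φ x + ψ x) (K + L) :=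
  ⟨h.cont.add h'.cont, fun x => (abs_add_le _ _).trans (add_le_add (h.bd x) (h'.bd x))⟩

theorem BC.sub {φ ψ : ℝ → ℝ} {K L : ℝ} (h : BC φ K) (h' : BC ψ L) :
    BC (fun x => φ x - ψ x) (K + L) :=
  ⟨h.cont.sub h'.cont, fun x => (abs_sub _ _).trans (add_le_add (h.bd x) (h'.bd x))⟩

theorem BC.mul {φ ψ : ℝ → ℝ} {K L : ℝ} (h : BC φ K) (h' : BC ψ L) :
    BC (fun x => φ x * ψ x) (K * L) :=
  ⟨h.cont.mul h'.cont, fun x => by
    rw [abs_mul]
    exact mul_le_mul (h.bd x) (h'.bd x) (abs_nonneg _) h.nonneg⟩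

theorem BC.const_mul {φ : ℝ → ℝ} {K : ℝ} (h : BC φ K) (c : ℝ) :
    BC (fun x => c * φ x) (|c| * K) := (BC.const c).mul h

theorem BC.pow {φ : ℝ → ℝ} {K : ℝ} (h : BC φ K) (n : ℕ) :
    BC (fun x => φ x ^ n) (K ^ n) :=
  ⟨h.cont.pow n, fun x => by
    rw [abs_pow]
    exact pow_le_pow_left₀ (abs_nonneg _) (h.bd x) n⟩

theorem BC.mono {φ : ℝ → ℝ} {K L : ℝ} (h : BC φ K) (hKL : K ≤ L) : BC φ L :=
  ⟨h.cont, fun x => (h.bd x).trans hKL⟩

/-- 1-Lipschitz functions -/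
def Lip1 (f : ℝ → ℝ) : Prop := ∀ x y, f x ≤ f y + |x - y|

section tE

variable {a v : ℝ} {f : ℝ → ℝ}

theorem den_pos (hf : Lip1 f) (a t x : ℝ) : 0 < H t (fun y => Real.exp (a * f y)) x :=
  H_pos (EG.exp_lip hf a) (fun _ => Real.exp_pos _) t x

theorem tE_add (hf : Lip1 f) (a v : ℝ) {φ ψ : ℝ → ℝ} (hφ : EG φ) (hψ : EG ψ) (x : ℝ) :
    tE a v f (fun y => φ y + ψ y) x = tE a v f φ x + tE a v f ψ x := by
  unfold tE
  rw [← add_div, ← H_add (hφ.mul (EG.exp_lip hf a)) (hψ.mul (EG.exp_lip hf a))]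
  simp only [add_mul]

theorem tE_sub (hf : Lip1 f) (a v : ℝ) {φ ψ : ℝ → ℝ} (hφ : EG φ) (hψ : EG ψ) (x : ℝ) :
    tE a v f (fun y => φ y - ψ y) x = tE a v f φ x - tE a v f ψ x := by
  unfold tE
  rw [← sub_div, ← H_sub (hφ.mul (EG.exp_lip hf a)) (hψ.mul (EG.exp_lip hf a))]
  simp only [sub_mul]

theorem tE_const_mul (a v : ℝ) (f φ : ℝ → ℝ) (c x : ℝ) :
    tE a v f (fun y => c * φ y) x = c * tE a v f φ x := by
  unfold tE
  rw [← mul_div_assoc, ← H_const_mul]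
  simp only [mul_assoc]

theorem tE_const (hf : Lip1 f) (a v c x : ℝ) : tE a v f (fun _ => c) x = c := by
  unfold tE
  rw [H_const_mul, mul_div_assoc, div_self (den_pos hf a _ x).ne', mul_one]

theorem tE_mono (hf : Lip1 f) (a v : ℝ) {φ ψ : ℝ → ℝ} (hφ : EG φ) (hψ : EG ψ)
    (h : ∀ y, φ y ≤ ψ y) (x : ℝ) : tE a v f φ x ≤ tE a v f ψ x := by
  unfold tE
  refine div_le_div_of_nonneg_right ?_ (den_pos hf a _ x).le
  exact H_mono (hφ.mul (EG.exp_lip hf a)) (hψ.mul (EG.exp_lip hf a))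
    (fun y => mul_le_mul_of_nonneg_right (h y) (Real.exp_pos _).le) _ _

theorem tE_abs_le (hf : Lip1 f) (a v : ℝ) {φ : ℝ → ℝ} {K : ℝ} (hφ : BC φ K) (x : ℝ) :
    |tE a v f φ x| ≤ K := by
  rw [abs_le]
  constructor
  · have := tE_mono hf a v (EG.const (-K)) hφ.eg (fun y => (abs_le.1 (hφ.bd y)).1) x
    rwa [tE_const hf] at this
  · have := tE_mono hf a v hφ.eg (EG.const K) (fun y => (abs_le.1 (hφ.bd y)).2) x
    rwa [tE_const hf] at this

theorem tE_continuous (hf : Lip1 f) (a : ℝ) {φ : ℝ → ℝ} (hφ : EG φ) :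
    Continuous (fun p : ℝ × ℝ => tE a p.1 f φ p.2) := by
  unfold tE
  have h1 := H_continuous (hφ.mul (EG.exp_lip hf a))
  have h2 := H_continuous (EG.exp_lip hf a)
  have hs : Continuous (fun p : ℝ × ℝ => (Real.sqrt p.1, p.2)) := by fun_prop
  exact (h1.comp hs).div (h2.comp hs) fun p => (den_pos hf a _ _).ne'

theorem tE_BC (hf : Lip1 f) (a v : ℝ) {φ : ℝ → ℝ} {K : ℝ} (hφ : BC φ K) :
    BC (tE a v f φ) K :=
  ⟨(tE_continuous hf a hφ.eg).comp (by fun_prop : Continuous fun x : ℝ => (v, x)),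
    fun x => tE_abs_le hf a v hφ x⟩

theorem tE_sq_le (hf : Lip1 f) (a v : ℝ) {φ : ℝ → ℝ} (hφ : EG φ) (x : ℝ) :
    (tE a v f φ x) ^ 2 ≤ tE a v f (fun y => φ y ^ 2) x := by
  set m := tE a v f φ x with hm
  have h1 := tE_mono hf a v (EG.const 0) ((hφ.sub (EG.const m)).pow 2)
    (fun y => sq_nonneg (φ y - m)) x
  have h2 : tE a v f (fun y => (φ y - m) ^ 2) x = tE a v f (fun y => φ y ^ 2) x - m ^ 2 := by
    have e : (fun y => (φ y - m) ^ 2) = fun y => (φ y ^ 2 - (2 * m) * φ y) + m ^ 2 := by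
      funext y; ring
    rw [e, tE_add hf a v ((hφ.pow 2).sub (hφ.const_mul _)) (EG.const _),
      tE_sub hf a v (hφ.pow 2) (hφ.const_mul _), tE_const_mul, tE_const hf, ← hm]
    ring
  rw [h2, tE_const hf] at h1
  linarith

end tE

/-- `C²` functions with `|f'| ≤ 1`, `|f''| ≤ C` -/
structure Sm (f f1 f2 : ℝ → ℝ) (C : ℝ) : Prop where
  d1 : ∀ x, HasDerivAt f (f1 x) x
  d2 : ∀ x, HasDerivAt f1 (f2 x) x
  c2 : Continuous f2
  b1 : ∀ x, |f1 x| ≤ 1
  b2 : ∀ x, |f2 x| ≤ C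

theorem Sm.lip {f f1 f2 : ℝ → ℝ} {C : ℝ} (h : Sm f f1 f2 C) : Lip1 f := by
  intro x y
  have h1 := Convex.norm_image_sub_le_of_norm_hasDerivWithin_le (f := f) (f' := f1) (C := 1)
    (s := univ) (fun x _ => (h.d1 x).hasDerivWithinAt) (fun x _ => h.b1 x) convex_univ
    (mem_univ y) (mem_univ x)
  rw [Real.norm_eq_abs, Real.norm_eq_abs, one_mul] at h1
  have := le_abs_self (f x - f y)
  linarith

theorem Sm.c1 {f f1 f2 : ℝ → ℝ} {C : ℝ} (h : Sm f f1 f2 C) : Continuous f1 :=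
  continuous_iff_continuousAt.2 fun x => (h.d2 x).continuousAt

theorem Sm.B1 {f f1 f2 : ℝ → ℝ} {C : ℝ} (h : Sm f f1 f2 C) : BC f1 1 := ⟨h.c1, h.b1⟩

theorem Sm.B2 {f f1 f2 : ℝ → ℝ} {C : ℝ} (h : Sm f f1 f2 C) : BC f2 C := ⟨h.c2, h.b2⟩

theorem Sm.eg {f f1 f2 : ℝ → ℝ} {C : ℝ} (h : Sm f f1 f2 C) : EG f := EG.lip h.lip

theorem Sm.dexp {f f1 f2 : ℝ → ℝ} {C : ℝ} (h : Sm f f1 f2 C) (a x : ℝ) :
    HasDerivAt (fun y => Real.exp (a * f y)) (a * (f1 x * Real.exp (a * f x))) x := by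
  have := ((h.d1 x).const_mul a).exp
  refine this.congr_deriv ?_
  ring

/-- derivative of the numerator -/
theorem Sm.dnum {f f1 f2 : ℝ → ℝ} {C : ℝ} (h : Sm f f1 f2 C) (a : ℝ) {φ φ1 : ℝ → ℝ} {x : ℝ}
    (hφ : HasDerivAt φ (φ1 x) x) :
    HasDerivAt (fun y => φ y * Real.exp (a * f y))
      ((φ1 x + a * (φ x * f1 x)) * Real.exp (a * f x)) x := by
  have := hφ.fun_mul (h.dexp a x)
  refine this.congr_deriv ?_
  ring

theorem tE_deriv_x {f f1 f2 : ℝ → ℝ} {C : ℝ} (h : Sm f f1 f2 C) (a v : ℝ) {φ φ1 : ℝ → ℝ}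
    (hφ : EG φ) (hφ1 : EG φ1) (hd : ∀ x, HasDerivAt φ (φ1 x) x) (x : ℝ) :
    HasDerivAt (fun x => tE a v f φ x)
      (tE a v f φ1 x + a * (tE a v f (fun y => φ y * f1 y) x - tE a v f φ x * tE a v f f1 x)) x := by
  have hE := EG.exp_lip h.lip a
  have hN : HasDerivAt (fun x => H (Real.sqrt v) (fun y => φ y * Real.exp (a * f y)) x)
      (H (Real.sqrt v) (fun y => (φ1 y + a * (φ y * f1 y)) * Real.exp (a * f y)) x) x :=
    H_deriv_x (hφ.mul hE) ((hφ1.add ((hφ.mul h.B1.eg).const_mul a)).mul hE)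
      (fun x => h.dnum a (hd x)) _ _
  have hD : HasDerivAt (fun x => H (Real.sqrt v) (fun y => Real.exp (a * f y)) x)
      (H (Real.sqrt v) (fun y => a * (f1 y * Real.exp (a * f y))) x) x :=
    H_deriv_x hE ((h.B1.eg.mul hE).const_mul a) (h.dexp a) _ _
  have hpos := den_pos h.lip a (Real.sqrt v) x
  have hq := hN.fun_div hD hpos.ne'
  unfold tE
  refine hq.congr_deriv ?_
  have e1 : H (Real.sqrt v) (fun y => (φ1 y + a * (φ y * f1 y)) * Real.exp (a * f y)) x =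
      H (Real.sqrt v) (fun y => φ1 y * Real.exp (a * f y)) x +
        a * H (Real.sqrt v) (fun y => φ y * f1 y * Real.exp (a * f y)) x := by
    rw [← H_const_mul, ← H_add (hφ1.mul hE) (((hφ.mul h.B1.eg).mul hE).const_mul a)]
    congr 1
    funext y
    ring
  rw [e1, H_const_mul]
  field_simp
  ring

theorem gaussOp_zero (v : ℝ) (f : ℝ → ℝ) (x : ℝ) :
    gaussOp 0 v f x = H (Real.sqrt v) f x := by
  unfold gaussOp H
  rw [if_pos rfl]

theorem gaussOp_ne {a : ℝ} (ha : a ≠ 0) (v : ℝ) (f : ℝ → ℝ) (x : ℝ) :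
    gaussOp a v f x = a⁻¹ * Real.log (H (Real.sqrt v) (fun y => Real.exp (a * f y)) x) := by
  unfold gaussOp H
  rw [if_neg ha]

theorem tE_zero (v : ℝ) (f φ : ℝ → ℝ) (x : ℝ) : tE 0 v f φ x = H (Real.sqrt v) φ x := by
  unfold tE
  simp [H_const]

/-- position derivative of the Gaussian operator -/
theorem gaussOp_deriv_x {f f1 f2 : ℝ → ℝ} {C : ℝ} (h : Sm f f1 f2 C) (a v x : ℝ) :
    HasDerivAt (gaussOp a v f) (tE a v f f1 x) x := by
  by_cases ha : a = 0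
  · subst ha
    have e : gaussOp 0 v f = fun x => H (Real.sqrt v) f x := funext fun x => gaussOp_zero v f x
    rw [e, tE_zero]
    exact H_deriv_x h.eg h.B1.eg h.d1 _ _
  · have e : gaussOp a v f = fun x =>
        a⁻¹ * Real.log (H (Real.sqrt v) (fun y => Real.exp (a * f y)) x) :=
      funext fun x => gaussOp_ne ha v f x
    have hE := EG.exp_lip h.lip a
    have hD : HasDerivAt (fun x => H (Real.sqrt v) (fun y => Real.exp (a * f y)) x)
        (H (Real.sqrt v) (fun y => a * (f1 y * Real.exp (a * f y))) x) x :=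
      H_deriv_x hE ((h.B1.eg.mul hE).const_mul a) (h.dexp a) _ _
    have hpos := den_pos h.lip a (Real.sqrt v) x
    have := (hD.log hpos.ne').const_mul a⁻¹
    rw [e]
    refine this.congr_deriv ?_
    unfold tE
    rw [H_const_mul]
    field_simp

/-- the second position derivative -/
def g2 (a v : ℝ) (f f1 f2 : ℝ → ℝ) (x : ℝ) : ℝ :=
  tE a v f f2 x + a * (tE a v f (fun y => f1 y ^ 2) x - tE a v f f1 x ^ 2)

theorem gaussOp_sm {f f1 f2 : ℝ → ℝ} {C : ℝ} (h : Sm f f1 f2 C) {a : ℝ} (ha : 0 ≤ a)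
    (ha1 : a ≤ 1) (v : ℝ) :
    Sm (gaussOp a v f) (tE a v f f1) (g2 a v f f1 f2) (C + 1) := by
  refine ⟨gaussOp_deriv_x h a v, fun x => ?_, ?_, fun x => tE_abs_le h.lip a v h.B1 x,
    fun x => ?_⟩
  · have := tE_deriv_x h a v h.B1.eg h.B2.eg h.d2 x
    unfold g2
    simp only [sq]
    exact this
  · unfold g2
    have c1 := (tE_BC h.lip a v h.B2).cont
    have c2 := (tE_BC h.lip a v (h.B1.pow 2)).cont
    have c3 := (tE_BC h.lip a v h.B1).cont
    fun_prop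
  · unfold g2
    have b1 := tE_abs_le h.lip a v h.B2 x
    have b2 := tE_abs_le h.lip a v (h.B1.pow 2) x
    have b3 := tE_sq_le h.lip a v h.B1.eg x
    have b4 := sq_nonneg (tE a v f f1 x)
    rw [one_pow] at b2
    have b5 := (le_abs_self _).trans b2
    rw [abs_le] at b1 ⊢
    constructor
    · nlinarith
    · nlinarith

/-- variance derivative of the Gaussian operator -/
theorem gaussOp_deriv_v {f f1 f2 : ℝ → ℝ} {C : ℝ} (h : Sm f f1 f2 C) (a : ℝ) {v : ℝ}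
    (hv : 0 < v) (x : ℝ) :
    HasDerivAt (fun v => gaussOp a v f x)
      (1 / 2 * tE a v f (fun y => f2 y + a * f1 y ^ 2) x) v := by
  by_cases ha : a = 0
  · subst ha
    have e : (fun v => gaussOp 0 v f x) = fun v => H (Real.sqrt v) f x :=
      funext fun v => gaussOp_zero v f x
    rw [e, tE_zero]
    simp only [zero_mul, add_zero]
    exact H_deriv_v h.eg h.B1.eg h.B2.eg h.d1 h.d2 hv x
  · have e : (fun v => gaussOp a v f x) = fun v =>
        a⁻¹ * Real.log (H (Real.sqrt v) (fun y => Real.exp (a * f y)) x) :=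
      funext fun v => gaussOp_ne ha v f x
    have hE := EG.exp_lip h.lip a
    have hd1 : ∀ x, HasDerivAt (fun y => a * (f1 y * Real.exp (a * f y)))
        (a * ((f2 x + a * (f1 x * f1 x)) * Real.exp (a * f x))) x :=
      fun x => (h.dnum a (h.d2 x)).const_mul a
    have hD := H_deriv_v hE ((h.B1.eg.mul hE).const_mul a)
      (((h.B2.eg.add ((h.B1.eg.mul h.B1.eg).const_mul a)).mul hE).const_mul a)
      (h.dexp a) hd1 hv x
    have hpos := den_pos h.lip a (Real.sqrt v) x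
    have := (hD.log hpos.ne').const_mul a⁻¹
    rw [e]
    refine this.congr_deriv ?_
    unfold tE
    rw [H_const_mul]
    simp only [sq]
    field_simp

/-- the heat identity -/
theorem g2_add {f f1 f2 : ℝ → ℝ} {C : ℝ} (h : Sm f f1 f2 C) (a v x : ℝ) :
    g2 a v f f1 f2 x + a * tE a v f f1 x ^ 2 = tE a v f (fun y => f2 y + a * f1 y ^ 2) x := by
  unfold g2
  rw [tE_add h.lip a v h.B2.eg ((h.B1.eg.pow 2).const_mul a), tE_const_mul]
  ring

theorem gaussOp_cont_v {f f1 f2 : ℝ → ℝ} {C : ℝ} (h : Sm f f1 f2 C) (a : ℝ) :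
    Continuous (fun p : ℝ × ℝ => gaussOp a p.1 f p.2) := by
  have hs : Continuous (fun p : ℝ × ℝ => (Real.sqrt p.1, p.2)) := by fun_prop
  by_cases ha : a = 0
  · subst ha
    simp only [gaussOp_zero]
    exact (H_continuous h.eg).comp hs
  · simp only [gaussOp_ne ha]
    have h1 := (H_continuous (EG.exp_lip h.lip a)).comp hs
    exact continuous_const.mul (h1.log fun p => (den_pos h.lip a _ _).ne')

/-- mean value theorem in the variance -/
theorem gaussOp_mvt {f f1 f2 : ℝ → ℝ} {C : ℝ} (h : Sm f f1 f2 C) (a : ℝ) {v v' : ℝ}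
    (hv : 0 ≤ v) (hv' : 0 ≤ v') (x : ℝ) :
    ∃ ξ, min v v' ≤ ξ ∧ ξ ≤ max v v' ∧ gaussOp a v' f x - gaussOp a v f x =
      (v' - v) * (1 / 2 * tE a ξ f (fun y => f2 y + a * f1 y ^ 2) x) := by
  have hc : Continuous (fun v => gaussOp a v f x) :=
    (gaussOp_cont_v h a).comp (by fun_prop : Continuous fun v : ℝ => (v, x))
  rcases lt_trichotomy v v' with hlt | heq | hgt
  · obtain ⟨ξ, hξ, he⟩ := exists_hasDerivAt_eq_slope (fun v => gaussOp a v f x)
      (fun v => 1 / 2 * tE a v f (fun y => f2 y + a * f1 y ^ 2) x) hlt hc.continuousOn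
      (fun ξ hξ => gaussOp_deriv_v h a (lt_of_le_of_lt hv hξ.1) x)
    refine ⟨ξ, (min_le_left _ _).trans hξ.1.le, hξ.2.le.trans (le_max_right _ _), ?_⟩
    rw [he, mul_div_cancel₀ _ (sub_ne_zero.2 hlt.ne')]
  · subst heq
    exact ⟨v, by simp, by simp, by simp⟩
  · obtain ⟨ξ, hξ, he⟩ := exists_hasDerivAt_eq_slope (fun v => gaussOp a v f x)
      (fun v => 1 / 2 * tE a v f (fun y => f2 y + a * f1 y ^ 2) x) hgt hc.continuousOn
      (fun ξ hξ => gaussOp_deriv_v h a (lt_of_le_of_lt hv' hξ.1) x)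
    refine ⟨ξ, (min_le_right _ _).trans hξ.1.le, hξ.2.le.trans (le_max_left _ _), ?_⟩
    rw [he]
    have : v - v' ≠ 0 := sub_ne_zero.2 hgt.ne'
    field_simp
    ring

end

end Crest.Agent.R164.GC
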