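import Crest.Agent.R164.CavG2
import Crest.Agent.R164.CavGDef

/-!
Row 164 (helper491): exponent change and semigroup property for the nested Gaussian functional,
part 1: one step.
-/

set_option autoImplicit false

namespace Crest.Agent.R164.GEx

open MeasureTheory ProbabilityTheory Finset
open Crest.Agent.R164.CavG

noncomputable section

variable {ι : Type*} [Fintype ι]

/-- bounded and measurable -/
structure BM (c : ℝ) (f : (ι → ℝ) → ℝ) : Prop where
  meas : Measurable f
  bd : ∀ z, |f z| ≤ c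

variable {c c' : ℝ} {f f' : (ι → ℝ) → ℝ}

omit [Fintype ι] in
theorem BM.mono (h : BM c f) (hc : c ≤ c') : BM c' f := ⟨h.meas, fun z => (h.bd z).trans hc⟩

omit [Fintype ι] in
theorem BM.nonneg (h : BM c f) : 0 ≤ c := (abs_nonneg _).trans (h.bd fun _ => 0)

omit [Fintype ι] in
theorem BM.exp (h : BM c f) (y : ℝ) : BM (Real.exp (|y| * c)) (fun z => Real.exp (y * f z)) := by
  refine ⟨(h.meas.const_mul y).exp, fun z => ?_⟩
  rw [Real.abs_exp, Real.exp_le_exp]
  refine (le_abs_self _).trans ?_
  rw [abs_mul]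
  exact mul_le_mul_of_nonneg_left (h.bd z) (abs_nonneg _)

omit [Fintype ι] in
theorem BM.smul (h : BM c f) (y : ℝ) : BM (|y| * c) (fun z => y * f z) := by
  refine ⟨h.meas.const_mul y, fun z => ?_⟩
  rw [abs_mul]
  exact mul_le_mul_of_nonneg_left (h.bd z) (abs_nonneg _)

omit [Fintype ι] in
theorem meas_shift (v z : ι → ℝ) :
    Measurable fun (g : ι → ℝ) (k : ι) => z k + Real.sqrt (v k) * g k := by fun_prop

theorem BM.integrable (h : BM c f) (v z : ι → ℝ) :
    Integrable (fun g => f (fun k => z k + Real.sqrt (v k) * g k)) (gm ι) :=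
  Integrable.of_bound (h.meas.comp (meas_shift v z)).aestronglyMeasurable c
    (ae_of_all _ fun g => by rw [Real.norm_eq_abs]; exact h.bd _)

theorem BM.sm (h : BM c f) (v : ι → ℝ) : BM c (sm v f) := by
  refine ⟨?_, fun z => sm_bound v h.bd z⟩
  have : Measurable fun p : (ι → ℝ) × (ι → ℝ) => f (fun k => p.1 k + Real.sqrt (v k) * p.2 k) :=
    h.meas.comp (by fun_prop)
  exact (this.stronglyMeasurable.integral_prod_right (ν := gm ι)).measurable

theorem sm_mono (h : BM c f) (h' : BM c' f') (hle : ∀ z, f z ≤ f' z) (v z : ι → ℝ) :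
    sm v f z ≤ sm v f' z :=
  integral_mono (h.integrable v z) (h'.integrable v z) fun _ => hle _

theorem sm_const (a : ℝ) (v z : ι → ℝ) : sm v (fun _ => a) z = a := by
  unfold sm; simp

theorem sm_smul (a : ℝ) (f : (ι → ℝ) → ℝ) (v z : ι → ℝ) : sm v (fun x => a * f x) z = a * sm v f z :=
  integral_const_mul _ _

theorem sm_add (h : BM c f) (h' : BM c' f') (v z : ι → ℝ) :
    sm v (fun x => f x + f' x) z = sm v f z + sm v f' z :=
  integral_add (h.integrable v z) (h'.integrable v z)

theorem sm_zero (f : (ι → ℝ) → ℝ) (z : ι → ℝ) : sm (fun _ => 0) f z = f z := by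
  unfold sm; simp

/-- semigroup property of the Gaussian average -/
theorem sm_sm (h : BM c f) {v v' : ι → ℝ} (hv : ∀ k, 0 ≤ v k) (hv' : ∀ k, 0 ≤ v' k) (z : ι → ℝ) :
    sm v (sm v' f) z = sm (fun k => v k + v' k) f z := by
  classical
  set F : (ι → ℝ) → ℝ := fun x => f (fun k => z k + x k) with hF
  have hFm : Measurable F := h.meas.comp (by fun_prop)
  set u : ι → ι ⊕ ι → ℝ := fun a => Sum.elim (fun i => if i = a then Real.sqrt (v a) else 0)
    (fun i => if i = a then Real.sqrt (v' a) else 0) with hu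
  set u' : ι → ι → ℝ := fun a i => if i = a then Real.sqrt (v a + v' a) else 0 with hu'
  have hint : Integrable (fun y => F (lin u y)) (gm (ι ⊕ ι)) :=
    Integrable.of_bound (hFm.comp (measurable_lin u)).aestronglyMeasurable c
      (ae_of_all _ fun g => by rw [Real.norm_eq_abs]; exact h.bd _)
  have e1 := integral_sum_gm hint
  have e2 := integral_lin u u' (fun a b => by
    rw [Fintype.sum_sum_type]
    simp only [hu, hu', Sum.elim_inl, Sum.elim_inr, ite_mul, zero_mul, Finset.sum_ite_eq',
      Finset.mem_univ, if_true]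
    by_cases hab : a = b
    · subst hab
      simp only [if_true]
      rw [Real.mul_self_sqrt (hv a), Real.mul_self_sqrt (hv' a),
        Real.mul_self_sqrt (add_nonneg (hv a) (hv' a))]
    · simp only [if_neg hab, mul_zero, add_zero]) hFm
  rw [e1] at e2
  have l1 : ∀ g0 g1 : ι → ℝ, lin u (Sum.elim g0 g1) =
      fun a => Real.sqrt (v a) * g0 a + Real.sqrt (v' a) * g1 a := by
    intro g0 g1
    funext a
    unfold lin
    rw [Fintype.sum_sum_type]
    simp [hu]
  have l2 : ∀ g : ι → ℝ, lin u' g = fun a => Real.sqrt (v a + v' a) * g a := by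
    intro g
    funext a
    unfold lin
    simp [hu']
  simp only [l1, l2, hF] at e2
  unfold sm
  rw [← e2]
  refine integral_congr_ae (ae_of_all _ fun g0 => ?_)
  refine integral_congr_ae (ae_of_all _ fun g1 => ?_)
  simp only [add_assoc]

/-! ### one step -/

theorem sm_exp_pos (h : BM c f) (y : ℝ) (v z : ι → ℝ) :
    0 < sm v (fun x => Real.exp (y * f x)) z := by
  have h1 : BM 0 (fun _ : ι → ℝ => (0 : ℝ)) := ⟨measurable_const, fun _ => by simp⟩
  have h2 := sm_mono (f := fun _ => Real.exp (-(|y| * c))) (c := Real.exp (-(|y| * c)))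
    ⟨measurable_const, fun _ => by rw [Real.abs_exp]⟩ (h.exp y) (fun x => by
      rw [Real.exp_le_exp]
      have := abs_le.1 ((h.smul y).bd x)
      linarith [this.1]) v z
  rw [sm_const] at h2
  exact lt_of_lt_of_le (Real.exp_pos _) h2

theorem exp_gstep (h : BM c f) {y : ℝ} (hy : 0 < y) (v z : ι → ℝ) :
    Real.exp (y * gstep y v f z) = sm v (fun x => Real.exp (y * f x)) z := by
  unfold gstep
  rw [← mul_assoc, mul_one_div_cancel hy.ne', one_mul, Real.exp_log]
  · rfl
  · exact sm_exp_pos h y v z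

theorem gstep_le_iff (h : BM c f) {y : ℝ} (hy : 0 < y) (v z : ι → ℝ) (a : ℝ) :
    gstep y v f z ≤ a ↔ sm v (fun x => Real.exp (y * f x)) z ≤ Real.exp (y * a) := by
  rw [← exp_gstep h hy, Real.exp_le_exp, mul_le_mul_iff_right₀ hy]

theorem le_gstep_iff (h : BM c f) {y : ℝ} (hy : 0 < y) (v z : ι → ℝ) (a : ℝ) :
    a ≤ gstep y v f z ↔ Real.exp (y * a) ≤ sm v (fun x => Real.exp (y * f x)) z := by
  rw [← exp_gstep h hy, Real.exp_le_exp, mul_le_mul_iff_right₀ hy]

theorem gstep_const {y : ℝ} (hy : 0 < y) (v z : ι → ℝ) (a : ℝ) : gstep y v (fun _ => a) z = a := by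
  have h : BM |a| (fun _ : ι → ℝ => a) := ⟨measurable_const, fun _ => le_rfl⟩
  have := exp_gstep h hy v z
  rw [sm_const, Real.exp_eq_exp] at this
  exact mul_left_cancel₀ hy.ne' this

theorem gstep_mono (h : BM c f) (h' : BM c' f') {y : ℝ} (hy : 0 < y) (hle : ∀ z, f z ≤ f' z)
    (v z : ι → ℝ) : gstep y v f z ≤ gstep y v f' z := by
  rw [gstep_le_iff h hy, exp_gstep h' hy]
  exact sm_mono (h.exp y) (h'.exp y) (fun x => Real.exp_le_exp.2
    (mul_le_mul_of_nonneg_left (hle x) hy.le)) v z

theorem gstep_add_const (h : BM c f) {y : ℝ} (hy : 0 < y) (v z : ι → ℝ) (a : ℝ) :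
    gstep y v (fun x => f x + a) z = gstep y v f z + a := by
  have h' : BM (c + |a|) (fun x => f x + a) := ⟨h.meas.add_const a, fun z =>
    (abs_add_le _ _).trans (add_le_add_left (h.bd z) _)⟩
  have e := exp_gstep h' hy v z
  have e2 : (fun x => Real.exp (y * (f x + a))) = fun x => Real.exp (y * a) * Real.exp (y * f x) := by
    funext x; rw [← Real.exp_add]; congr 1; ring
  rw [e2, sm_smul, ← exp_gstep h hy, ← Real.exp_add, Real.exp_eq_exp] at e
  have : y * gstep y v (fun x => f x + a) z = y * (gstep y v f z + a) := by rw [e]; ring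
  exact mul_left_cancel₀ hy.ne' this

theorem gstep_le_add (h : BM c f) (h' : BM c' f') {y a : ℝ} (hy : 0 < y)
    (hle : ∀ z, f z ≤ f' z + a) (v z : ι → ℝ) : gstep y v f z ≤ gstep y v f' z + a := by
  rw [← gstep_add_const h' hy]
  exact gstep_mono h (c' := c' + |a|) ⟨h'.meas.add_const a, fun z =>
    (abs_add_le _ _).trans (add_le_add_left (h'.bd z) _)⟩ hy hle v z

theorem BM.gstep (h : BM c f) {y : ℝ} (hy : 0 < y) (v : ι → ℝ) : BM c (gstep y v f) := by
  refine ⟨?_, fun z => ?_⟩
  · have h1 := ((h.exp y).sm v).meas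
    have : CavG.gstep y v f = fun z => (1 / y) * Real.log (CavG.sm v (fun x => Real.exp (y * f x)) z) := rfl
    rw [this]
    exact (Real.measurable_log.comp h1).const_mul _
  · rw [abs_le]
    constructor
    · rw [← gstep_const hy v z (-c)]
      exact gstep_mono (c := |-c|) ⟨measurable_const, fun _ => le_rfl⟩ h hy
        (fun x => (abs_le.1 (h.bd x)).1) v z
    · rw [← gstep_const hy v z c]
      exact gstep_mono h (c' := |c|) ⟨measurable_const, fun _ => le_rfl⟩ hy
        (fun x => (abs_le.1 (h.bd x)).2) v z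

/-- semigroup property of the step -/
theorem gstep_gstep (h : BM c f) {y : ℝ} (hy : 0 < y) {v v' : ι → ℝ} (hv : ∀ k, 0 ≤ v k)
    (hv' : ∀ k, 0 ≤ v' k) : gstep y v (gstep y v' f) = gstep y (fun k => v k + v' k) f := by
  funext z
  have e := exp_gstep (h.gstep hy v') hy v z
  have e2 : (fun x => Real.exp (y * gstep y v' f x)) = sm v' (fun x => Real.exp (y * f x)) := by
    funext x; exact exp_gstep h hy v' x
  rw [e2, sm_sm (h.exp y) hv hv', ← exp_gstep h hy, Real.exp_eq_exp] at e
  exact mul_left_cancel₀ hy.ne' e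

theorem gstep_zero_var {y : ℝ} (hy : 0 < y) (f : (ι → ℝ) → ℝ) : gstep y (fun _ => 0) f = f := by
  funext z
  unfold gstep
  simp [Real.log_exp, hy.ne']

/-- monotonicity in the exponent -/
theorem gstep_mono_expo (h : BM c f) {y y' : ℝ} (hy : 0 < y) (hyy : y ≤ y') (v z : ι → ℝ) :
    gstep y v f z ≤ gstep y' v f z := by
  have hy' : 0 < y' := hy.trans_le hyy
  set a := gstep y' v f z with ha
  rw [gstep_le_iff h hy]
  set t := y / y' with ht
  have ht0 : 0 < t := div_pos hy hy'
  have ht1 : t ≤ 1 := (div_le_one hy').2 hyy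
  have key : ∀ x, Real.exp (y * f x) ≤ Real.exp (y * a) * (1 - t) +
      (Real.exp (y * a) * t * Real.exp (-(y' * a))) * Real.exp (y' * f x) := by
    intro x
    have h1 := (convexOn_exp.2 (Set.mem_univ (0 : ℝ)) (Set.mem_univ (y' * (f x - a)))
      (by linarith : 0 ≤ 1 - t) ht0.le (by ring))
    simp only [smul_eq_mul, mul_zero, zero_add, Real.exp_zero, mul_one] at h1
    have h2 : t * (y' * (f x - a)) = y * (f x - a) := by
      rw [ht]; field_simp
    rw [h2] at h1
    have h3 := mul_le_mul_of_nonneg_left h1 (Real.exp_pos (y * a)).le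
    have e1 : Real.exp (y * a) * Real.exp (y * (f x - a)) = Real.exp (y * f x) := by
      rw [← Real.exp_add]; congr 1; ring
    have e2 : Real.exp (y' * (f x - a)) = Real.exp (-(y' * a)) * Real.exp (y' * f x) := by
      rw [← Real.exp_add]; congr 1; ring
    rw [e1, e2] at h3
    linarith
  have h4 := sm_mono (h.exp y) (f' := fun x => Real.exp (y * a) * (1 - t) +
      (Real.exp (y * a) * t * Real.exp (-(y' * a))) * Real.exp (y' * f x))
      (c' := |Real.exp (y * a) * (1 - t)| + |Real.exp (y * a) * t * Real.exp (-(y' * a))| *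
        Real.exp (|y'| * c))
      ⟨((h.exp y').meas.const_mul _).const_add _, fun z =>
        (abs_add_le _ _).trans (add_le_add_right (((h.exp y').smul _).bd z) _)⟩ key v z
  refine h4.trans (le_of_eq ?_)
  rw [sm_add (c := |Real.exp (y * a) * (1 - t)|) ⟨measurable_const, fun _ => le_rfl⟩
    ((h.exp y').smul _), sm_const, sm_smul, ← exp_gstep h hy', ← ha, mul_assoc, mul_assoc,
    ← Real.exp_add, neg_add_cancel, Real.exp_zero]
  ring

/-- Jensen -/
theorem sm_le_gstep (h : BM c f) {y : ℝ} (hy : 0 < y) (v z : ι → ℝ) :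
    sm v f z ≤ gstep y v f z := by
  set m := sm v f z with hm
  rw [le_gstep_iff h hy]
  have key : ∀ x, Real.exp (y * m) * (1 - y * m) + (Real.exp (y * m) * y) * f x ≤
      Real.exp (y * f x) := by
    intro x
    have h1 := Real.add_one_le_exp (y * f x - y * m)
    have h2 := mul_le_mul_of_nonneg_left h1 (Real.exp_pos (y * m)).le
    rw [← Real.exp_add] at h2
    have e : y * m + (y * f x - y * m) = y * f x := by ring
    rw [e] at h2
    linarith
  have h4 := sm_mono (f := fun x => Real.exp (y * m) * (1 - y * m) + (Real.exp (y * m) * y) * f x)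
      (c := |Real.exp (y * m) * (1 - y * m)| + |Real.exp (y * m) * y| * c)
      ⟨(h.meas.const_mul _).const_add _, fun z =>
        (abs_add_le _ _).trans (add_le_add_right ((h.smul _).bd z) _)⟩ (h.exp y) key v z
  refine (le_of_eq ?_).trans h4
  rw [sm_add (c := |Real.exp (y * m) * (1 - y * m)|) ⟨measurable_const, fun _ => le_rfl⟩
    (h.smul _), sm_const, sm_smul, ← hm]
  ring

theorem exp_quad (u : ℝ) : Real.exp u ≤ 1 + u + u ^ 2 * Real.exp |u| := by
  have h1 : Real.exp u - 1 ≤ u * Real.exp u := by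
    have h := mul_le_mul_of_nonneg_right (Real.add_one_le_exp (-u)) (Real.exp_pos u).le
    rw [← Real.exp_add, neg_add_cancel, Real.exp_zero] at h
    linarith
  have h2 : |Real.exp u - 1| ≤ |u| * Real.exp |u| := by
    rcases le_total 0 u with h | h
    · rw [abs_of_nonneg (by linarith [Real.one_le_exp h]), abs_of_nonneg h]; exact h1
    · rw [abs_of_nonpos (by linarith [Real.exp_le_one_iff.2 h])]
      have h3 := Real.add_one_le_exp u
      have h4 : |u| * 1 ≤ |u| * Real.exp |u| :=
        mul_le_mul_of_nonneg_left (Real.one_le_exp (abs_nonneg u)) (abs_nonneg u)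
      rw [abs_of_nonpos h] at h4 ⊢
      linarith
  have h3 : u * (Real.exp u - 1) ≤ |u| * (|u| * Real.exp |u|) := by
    refine (le_abs_self _).trans ?_
    rw [abs_mul]
    exact mul_le_mul_of_nonneg_left h2 (abs_nonneg u)
  have h4 : |u| * (|u| * Real.exp |u|) = u ^ 2 * Real.exp |u| := by
    rw [← mul_assoc, ← sq, sq_abs]
  linarith

/-- a step with a small exponent is nearly the plain average -/
theorem gstep_le_sm (h : BM c f) {y : ℝ} (hy : 0 < y) (v z : ι → ℝ) :
    gstep y v f z ≤ sm v f z + y * (c ^ 2 * Real.exp (y * c)) := by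
  rw [gstep_le_iff h hy]
  have hc := h.nonneg
  have key : ∀ x, Real.exp (y * f x) ≤ (1 + y * (y * (c ^ 2 * Real.exp (y * c)))) + y * f x := by
    intro x
    have h1 := exp_quad (y * f x)
    have h2 : |y * f x| ≤ y * c := by
      rw [abs_mul, abs_of_pos hy]
      exact mul_le_mul_of_nonneg_left (h.bd x) hy.le
    have h3 : (y * f x) ^ 2 ≤ (y * c) ^ 2 := by
      rw [← sq_abs]
      exact pow_le_pow_left₀ (abs_nonneg _) h2 2
    have h4 := mul_le_mul h3 (Real.exp_le_exp.2 h2) (Real.exp_pos _).le (by positivity)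
    have e : (y * c) ^ 2 * Real.exp (y * c) = y * (y * (c ^ 2 * Real.exp (y * c))) := by ring
    linarith
  set a := 1 + y * (y * (c ^ 2 * Real.exp (y * c))) with ha
  have h4 := sm_mono (h.exp y) (f' := fun x => a + y * f x) (c' := |a| + |y| * c)
      ⟨(h.meas.const_mul _).const_add _, fun z =>
        (abs_add_le _ _).trans (add_le_add_right ((h.smul _).bd z) _)⟩ key v z
  refine h4.trans ?_
  rw [sm_add (c := |a|) ⟨measurable_const, fun _ => le_rfl⟩ (h.smul _), sm_const, sm_smul]
  have h5 := Real.add_one_le_exp (y * (sm v f z + y * (c ^ 2 * Real.exp (y * c))))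
  rw [ha]
  linarith

end

end Crest.Agent.R164.GEx
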