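import Crest.Agent.R164.GEx1
import Crest.Agent.R141.SkelPm

/-!
Row 164 (helper491): exponent change and coarse/fine comparison for the nested Gaussian functional,
part 2: the nested functional.
-/

set_option autoImplicit false

namespace Crest.Agent.R164.GEx

open MeasureTheory ProbabilityTheory Finset
open Crest.Agent.R164.CavG
open Crest.Agent.R141.Fact (ySk ySk_pos ySk_zero ySk_le_one)

noncomputable section

variable {ι : Type*} [Fintype ι] {c : ℝ} {w : (ι → ℝ) → ℝ}

/-- the nested functional is bounded and measurable -/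
theorem BM.th (h : BM c w) {y : ℕ → ℝ} (v : ℕ → ι → ℝ) : ∀ n, (∀ m, m < n → 0 < y m) →
    BM c (CavG.th y v w n)
  | 0, _ => h
  | n + 1, hy => (h.th v n fun m hm => hy m (by omega)).gstep (hy n (Nat.lt_succ_self n)) _

theorem gval_abs_le (h : BM c w) {J : ℕ} {y : ℕ → ℝ} (v : ℕ → ι → ℝ) (hy : ∀ m, m ≤ J → 0 < y m) :
    |gval J y v w| ≤ c := by
  have h1 := (h.th (y := y) v (J + 1) fun m hm => hy m (by omega)).bd
  have := norm_integral_le_of_norm_le_const (μ := gm ι)
    (f := fun g => CavG.th y v w (J + 1) (fun k => Real.sqrt (v (J + 1) k) * g k)) (C := c)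
    (ae_of_all _ fun g => by rw [Real.norm_eq_abs]; exact h1 _)
  simpa [gval] using this

/-- the final plain expectation -/
theorem gval_eq (J : ℕ) (y : ℕ → ℝ) (v : ℕ → ι → ℝ) (w : (ι → ℝ) → ℝ) :
    gval J y v w = sm (v (J + 1)) (CavG.th y v w (J + 1)) (fun _ => 0) := by
  unfold gval sm
  simp only [zero_add]

/-- monotonicity in the exponents -/
theorem th_mono_expo (h : BM c w) {y y' : ℕ → ℝ} (v : ℕ → ι → ℝ) : ∀ n,
    (∀ m, m < n → 0 < y m ∧ y m ≤ y' m) → ∀ z, CavG.th y v w n z ≤ CavG.th y' v w n z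
  | 0, _, _ => le_rfl
  | n + 1, hy, z => by
      have ih := th_mono_expo h v n (fun m hm => hy m (by omega))
      have h1 := h.th (y := y) v n fun m hm => (hy m (by omega)).1
      have h2 := h.th (y := y') v n fun m hm => (hy m (by omega)).1.trans_le (hy m (by omega)).2
      have hn := hy n (Nat.lt_succ_self n)
      exact (gstep_mono_expo h1 hn.1 hn.2 (v n) z).trans
        (gstep_mono h1 h2 (hn.1.trans_le hn.2) ih (v n) z)

theorem gval_mono_expo (h : BM c w) {y y' : ℕ → ℝ} (v : ℕ → ι → ℝ) (J : ℕ)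
    (hy : ∀ m, m ≤ J → 0 < y m ∧ y m ≤ y' m) : gval J y v w ≤ gval J y' v w := by
  rw [gval_eq, gval_eq]
  exact sm_mono (h.th v _ fun m hm => (hy m (by omega)).1)
    (h.th v _ fun m hm => (hy m (by omega)).1.trans_le (hy m (by omega)).2)
    (th_mono_expo h v (J + 1) fun m hm => hy m (by omega)) _ _

/-- comparison of the leaf functions -/
theorem th_le_add {w' : (ι → ℝ) → ℝ} {c' a : ℝ} (h : BM c w) (h' : BM c' w') {y : ℕ → ℝ}
    (v : ℕ → ι → ℝ) (hle : ∀ z, w z ≤ w' z + a) : ∀ n, (∀ m, m < n → 0 < y m) → ∀ z,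
    CavG.th y v w n z ≤ CavG.th y v w' n z + a
  | 0, _, z => hle z
  | n + 1, hy, z => gstep_le_add (h.th v n fun m hm => hy m (by omega))
      (h'.th v n fun m hm => hy m (by omega)) (hy n (Nat.lt_succ_self n))
      (th_le_add h h' v hle n fun m hm => hy m (by omega)) (v n) z

theorem gval_le_add {w' : (ι → ℝ) → ℝ} {c' a : ℝ} (h : BM c w) (h' : BM c' w') {y : ℕ → ℝ}
    (v : ℕ → ι → ℝ) (hle : ∀ z, w z ≤ w' z + a) (J : ℕ) (hy : ∀ m, m ≤ J → 0 < y m) :
    gval J y v w ≤ gval J y v w' + a := by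
  rw [gval_eq, gval_eq]
  have h1 := sm_mono (h.th (y := y) v (J + 1) fun m hm => hy m (by omega))
    (f' := fun z => CavG.th y v w' (J + 1) z + a) (c' := c' + |a|)
    ⟨(h'.th (y := y) v (J + 1) fun m hm => hy m (by omega)).meas.add_const a, fun z =>
      (abs_add_le _ _).trans (add_le_add_left
        ((h'.th (y := y) v (J + 1) fun m hm => hy m (by omega)).bd z) _)⟩
    (th_le_add h h' v hle (J + 1) fun m hm => hy m (by omega)) (v (J + 1)) (fun _ => 0)
  rwa [sm_add (h'.th (y := y) v (J + 1) fun m hm => hy m (by omega)) (c' := |a|)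
    ⟨measurable_const, fun _ => le_rfl⟩, sm_const] at h1

theorem th_congr {y y' : ℕ → ℝ} {v v' : ℕ → ι → ℝ} (w : (ι → ℝ) → ℝ) : ∀ n,
    (∀ m, m < n → y m = y' m) → (∀ m, m < n → v m = v' m) → CavG.th y v w n = CavG.th y' v' w n
  | 0, _, _ => rfl
  | n + 1, hy, hv => by
      rw [th_succ, th_succ, hy n (Nat.lt_succ_self n), hv n (Nat.lt_succ_self n),
        th_congr w n (fun m hm => hy m (by omega)) fun m hm => hv m (by omega)]

/-- scaling: multiplying all exponents by `l` -/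
theorem th_scale (w : (ι → ℝ) → ℝ) {y : ℕ → ℝ} (v : ℕ → ι → ℝ) {l : ℝ} (hl : 0 < l) : ∀ n,
    ∀ z, l * CavG.th (fun m => l * y m) v w n z = CavG.th y v (fun z => l * w z) n z
  | 0, _ => rfl
  | n + 1, z => by
      have ih := th_scale w (y := y) v hl n
      rw [th_succ, th_succ]
      unfold gstep
      have e : ∀ x, l * y n * CavG.th (fun m => l * y m) v w n x =
          y n * CavG.th y v (fun z => l * w z) n x := fun x => by rw [← ih x]; ring
      simp only [e]
      rw [← mul_assoc]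
      congr 1
      by_cases h0 : y n = 0
      · simp [h0]
      · field_simp

/-- multiplicatively close exponents -/
theorem th_ratio (h : BM c w) {y y' : ℕ → ℝ} (v : ℕ → ι → ℝ) {l : ℝ} (hl : 1 ≤ l) (n : ℕ)
    (hy : ∀ m, m < n → 0 < y m ∧ y m ≤ y' m ∧ y' m ≤ l * y m) (z : ι → ℝ) :
    CavG.th y' v w n z ≤ CavG.th y v w n z + 2 * c * (l - 1) := by
  have hl0 : 0 < l := by linarith
  have hc := h.nonneg
  have h1 := th_mono_expo h (y := y') (y' := fun m => l * y m) v n (fun m hm =>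
    ⟨(hy m hm).1.trans_le (hy m hm).2.1, (hy m hm).2.2⟩) z
  have h2 := th_scale w (y := y) v hl0 n z
  have h3 := th_le_add (h.smul l) h (y := y) v (a := (l - 1) * c) (fun z => by
    have := (abs_le.1 (h.bd z)).2
    nlinarith) n (fun m hm => (hy m hm).1) z
  have h4 := (abs_le.1 ((h.th (y := y) v n fun m hm => (hy m hm).1).bd z)).1
  rw [← h2] at h3
  set A := CavG.th (fun m => l * y m) v w n z
  set B := CavG.th y v w n z
  have h5 : l * A ≤ l * (B + 2 * c * (l - 1)) := by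
    have : 0 ≤ (l - 1) * (B + c) := mul_nonneg (by linarith) (by linarith)
    have : 0 ≤ (l - 1) * (l - 1) * c := by positivity
    nlinarith
  exact h1.trans (le_of_mul_le_mul_left h5 hl0)

/-- steps with equal exponents collapse -/
theorem th_collapse (h : BM c w) {y : ℕ → ℝ} {v : ℕ → ι → ℝ} (hv : ∀ m k, 0 ≤ v m k) {a : ℝ}
    (ha : 0 < a) (n0 : ℕ) (hy0 : ∀ m, m < n0 → 0 < y m) : ∀ q, (∀ m, m < q → y (n0 + m) = a) →
    CavG.th y v w (n0 + q) = gstep a (fun k => ∑ m ∈ range q, v (n0 + m) k) (CavG.th y v w n0)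
  | 0, _ => by simp [gstep_zero_var ha]
  | q + 1, hy => by
      rw [← add_assoc, th_succ, th_collapse h hv ha n0 hy0 q fun m hm => hy m (by omega),
        hy q (Nat.lt_succ_self q), gstep_gstep (h.th v n0 hy0) ha (hv _)
          (fun k => Finset.sum_nonneg fun m _ => hv _ k)]
      congr 1
      funext k
      rw [Finset.sum_range_succ, add_comm]

/-- levels with small exponents: lower bound by the plain average -/
theorem sm_le_th (h : BM c w) {y : ℕ → ℝ} {v : ℕ → ι → ℝ} (hv : ∀ m k, 0 ≤ v m k) (n0 : ℕ)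
    (q : ℕ) (hy : ∀ m, m < n0 + q → 0 < y m) (z : ι → ℝ) :
    sm (fun k => ∑ m ∈ range q, v (n0 + m) k) (CavG.th y v w n0) z ≤ CavG.th y v w (n0 + q) z := by
  induction q generalizing z with
  | zero => simp [sm_zero]
  | succ q ih =>
    have ih' := ih fun m hm => hy m (by omega)
    have h0 := h.th (y := y) v n0 fun m hm => hy m (by omega)
    have h1 := h.th (y := y) v (n0 + q) fun m hm => hy m (by omega)
    rw [← add_assoc, th_succ]
    have e : sm (fun k => ∑ m ∈ range (q + 1), v (n0 + m) k) (CavG.th y v w n0) z =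
        sm (v (n0 + q)) (sm (fun k => ∑ m ∈ range q, v (n0 + m) k) (CavG.th y v w n0)) z := by
      rw [sm_sm h0 (hv _) (fun k => Finset.sum_nonneg fun m _ => hv _ k)]
      congr 1
      funext k
      rw [Finset.sum_range_succ, add_comm]
    rw [e]
    exact (sm_mono (h0.sm _) h1 ih' _ z).trans (sm_le_gstep h1 (hy _ (by omega)) _ z)

/-- levels with small exponents: upper bound by the plain average -/
theorem th_le_sm (h : BM c w) {y : ℕ → ℝ} {v : ℕ → ι → ℝ} (hv : ∀ m k, 0 ≤ v m k) {a : ℝ}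
    (n0 : ℕ) (q : ℕ) (ha : 0 < a) (hy0 : ∀ m, m < n0 → 0 < y m)
    (hy : ∀ m, m < q → 0 < y (n0 + m) ∧ y (n0 + m) ≤ a) (z : ι → ℝ) :
    CavG.th y v w (n0 + q) z ≤
      sm (fun k => ∑ m ∈ range q, v (n0 + m) k) (CavG.th y v w n0) z +
        a * (c ^ 2 * Real.exp (a * c)) := by
  set y' : ℕ → ℝ := fun m => if m < n0 then y m else a with hy'
  have h1 := th_mono_expo h (y := y) (y' := y') v (n0 + q) (fun m hm => by
    simp only [hy']
    split_ifs with hmn
    · exact ⟨hy0 m hmn, le_rfl⟩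
    · obtain ⟨r, rfl⟩ : ∃ r, m = n0 + r := ⟨m - n0, by omega⟩
      exact hy r (by omega)) z
  have h2 := th_collapse h (y := y') hv ha n0 (fun m hm => by
    simp only [hy', if_pos hm]; exact hy0 m hm) q (fun m _ => by
    simp only [hy']; rw [if_neg (by omega)])
  have h3 : CavG.th y' v w n0 = CavG.th y v w n0 := th_congr w n0 (fun m hm => by
    simp only [hy', if_pos hm]) fun m _ => rfl
  rw [h2, h3] at h1
  exact h1.trans (gstep_le_sm (h.th (y := y) v n0 hy0) ha _ z)

/-- **Exponent change**, uniform in the number of levels. -/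
theorem gval_expo (h : BM c w) {y y' : ℕ → ℝ} {v : ℕ → ι → ℝ} (hv : ∀ m k, 0 ≤ v m k) {J : ℕ}
    {δ ρ : ℝ} (hρ : δ < ρ) (hya : ∀ m n, m ≤ n → n ≤ J → y n ≤ y m)
    (hy : ∀ m, m ≤ J → 0 < y m) (hyy : ∀ m, m ≤ J → y m ≤ y' m ∧ y' m ≤ y m + δ) :
    gval J y v w ≤ gval J y' v w ∧
    gval J y' v w ≤ gval J y v w + 2 * c * (δ / ρ) +
      (ρ + δ) * (c ^ 2 * Real.exp ((ρ + δ) * c)) := by
  refine ⟨gval_mono_expo h v J fun m hm => ⟨hy m hm, (hyy m hm).1⟩, ?_⟩
  have hδ : 0 ≤ δ := by have := hyy 0 (Nat.zero_le J); linarith [this.1, this.2]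
  have hρ0 : 0 < ρ := by linarith
  have hc := h.nonneg
  -- the splitting level
  obtain ⟨n0, hn0, hlow, hhigh⟩ : ∃ n0, n0 ≤ J + 1 ∧ (∀ m, m < n0 → ρ ≤ y m) ∧
      (∀ m, n0 ≤ m → m ≤ J → y m < ρ) := by
    classical
    by_cases hex : ∃ m, m ≤ J ∧ y m < ρ
    · refine ⟨Nat.find hex, (Nat.find_spec hex).1.trans (Nat.le_succ J), fun m hm => ?_,
        fun m hm hmJ => ?_⟩
      · by_contra hcon
        push Not at hcon
        have := (Nat.find_spec hex).1
        exact Nat.find_min hex hm ⟨by omega, hcon⟩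
      · exact (hya _ _ hm hmJ).trans_lt (Nat.find_spec hex).2
    · push Not at hex
      exact ⟨J + 1, le_rfl, fun m hm => hex m (by omega), fun m hm hmJ => by omega⟩
  obtain ⟨q, hq⟩ : ∃ q, J + 1 = n0 + q := ⟨J + 1 - n0, by omega⟩
  have py : ∀ m, m < n0 → 0 < y m := fun m hm => hy m (by omega)
  have py' : ∀ m, m ≤ J → 0 < y' m := fun m hm => (hy m hm).trans_le (hyy m hm).1
  have hl : (1 : ℝ) ≤ 1 + δ / ρ := by have : 0 ≤ δ / ρ := by positivity
                                      linarith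
  -- inner levels
  have h1 := th_ratio h (y := y) (y' := y') v hl n0 (fun m hm => by
    refine ⟨py m hm, (hyy m (by omega)).1, (hyy m (by omega)).2.trans ?_⟩
    have h2 : δ / ρ * ρ ≤ δ / ρ * y m := mul_le_mul_of_nonneg_left (hlow m hm) (by positivity)
    rw [div_mul_cancel₀ _ hρ0.ne'] at h2
    linarith)
  -- outer levels
  have h2 := th_le_sm h (y := y') hv n0 q (a := ρ + δ) (by linarith)
    (fun m hm => py' m (by omega)) (fun m hm => ⟨py' _ (by omega), by
      have a1 := hhigh (n0 + m) (by omega) (by omega)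
      have a2 := (hyy (n0 + m) (by omega)).2
      linarith⟩)
  have h3 := sm_le_th h (y := y) hv n0 q (fun m hm => hy m (by omega))
  have b0 := h.th (y := y) v n0 py
  have b0' := h.th (y := y') v n0 fun m hm => py' m (by omega)
  have b1 := h.th (y := y) v (n0 + q) fun m hm => hy m (by omega)
  have b1' := h.th (y := y') v (n0 + q) fun m hm => py' m (by omega)
  have h4 : ∀ z, CavG.th y' v w (n0 + q) z ≤ CavG.th y v w (n0 + q) z +
      (2 * c * (δ / ρ) + (ρ + δ) * (c ^ 2 * Real.exp ((ρ + δ) * c))) := by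
    intro z
    have h5 := sm_mono b0' (f' := fun z => CavG.th y v w n0 z + 2 * c * (1 + δ / ρ - 1))
      (c' := c + |2 * c * (1 + δ / ρ - 1)|) ⟨b0.meas.add_const _, fun z =>
        (abs_add_le _ _).trans (add_le_add_left (b0.bd z) _)⟩ h1
      (fun k => ∑ m ∈ range q, v (n0 + m) k) z
    rw [sm_add b0 (c' := |2 * c * (1 + δ / ρ - 1)|) ⟨measurable_const, fun _ => le_rfl⟩,
      sm_const] at h5
    have h6 := h2 z
    have h7 := h3 z
    have e : 2 * c * (1 + δ / ρ - 1) = 2 * c * (δ / ρ) := by ring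
    rw [e] at h5
    linarith
  rw [gval_eq, gval_eq, hq]
  have h5 := sm_mono b1' (f' := fun z => CavG.th y v w (n0 + q) z +
      (2 * c * (δ / ρ) + (ρ + δ) * (c ^ 2 * Real.exp ((ρ + δ) * c))))
    (c' := c + |2 * c * (δ / ρ) + (ρ + δ) * (c ^ 2 * Real.exp ((ρ + δ) * c))|)
    ⟨b1.meas.add_const _, fun z => (abs_add_le _ _).trans (add_le_add_left (b1.bd z) _)⟩ h4
      (v (n0 + q)) (fun _ => 0)
  rw [sm_add b1 (c' := |2 * c * (δ / ρ) + (ρ + δ) * (c ^ 2 * Real.exp ((ρ + δ) * c))|)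
    ⟨measurable_const, fun _ => le_rfl⟩, sm_const] at h5
  linarith

/-! ### coarse and fine -/

/-- block sums of the fine variances; the bottom is kept -/
def cv (J q : ℕ) (v : ℕ → ι → ℝ) (j : ℕ) : ι → ℝ :=
  if j ≤ J then fun k => ∑ r ∈ range q, v (q * j + r) k else v (q * (J + 1))

theorem th_coarse (h : BM c w) {v : ℕ → ι → ℝ} (hv : ∀ m k, 0 ≤ v m k) {J q : ℕ} (hq : 0 < q)
    {Y : ℕ → ℝ} (hY : ∀ j, j ≤ J → 0 < Y j) : ∀ j, j ≤ J + 1 →
    CavG.th (fun m => Y (m / q)) v w (q * j) = CavG.th Y (cv J q v) w j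
  | 0, _ => rfl
  | j + 1, hj => by
      have ih := th_coarse h hv hq hY j (by omega)
      have e : q * (j + 1) = q * j + q := by ring
      rw [e, th_collapse h hv (hY j (by omega)) (q * j) (fun m hm => hY _ (by
        have : m / q < j := Nat.div_lt_of_lt_mul hm
        omega)) q (fun m hm => by
          show Y ((q * j + m) / q) = Y j
          rw [Nat.mul_add_div hq, Nat.div_eq_of_lt hm, add_zero]), ih, th_succ]
      congr 1
      unfold cv
      rw [if_pos (by omega)]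

/-- the coarse functional is the fine one with piecewise constant exponents -/
theorem gval_coarse (h : BM c w) {v : ℕ → ι → ℝ} (hv : ∀ m k, 0 ≤ v m k) {J q n : ℕ} (hq : 0 < q)
    (hn : n + 1 = q * (J + 1)) {Y : ℕ → ℝ} (hY : ∀ j, j ≤ J → 0 < Y j) :
    gval n (fun m => Y (m / q)) v w = gval J Y (cv J q v) w := by
  rw [gval_eq, gval_eq, hn, th_coarse h hv hq hY (J + 1) le_rfl]
  congr 1
  unfold cv
  rw [if_neg (by omega)]

theorem ySk_fine_le {J q n m : ℕ} (hq : 0 < q) (hn : n + 1 = q * (J + 1)) :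
    ySk n m ≤ ySk J (m / q) ∧ ySk J (m / q) ≤ ySk n m + 1 / ((J : ℝ) + 1) := by
  have hn' : ((n : ℝ) + 1) = q * ((J : ℝ) + 1) := by exact_mod_cast hn
  have hJ : (0 : ℝ) < (J : ℝ) + 1 := by positivity
  have hq' : (0 : ℝ) < q := by exact_mod_cast hq
  have hdm : q * (m / q) + m % q = m := Nat.div_add_mod m q
  have hr : m % q < q := Nat.mod_lt m hq
  have hdm' : (q : ℝ) * ((m / q : ℕ) : ℝ) + ((m % q : ℕ) : ℝ) = m := by exact_mod_cast hdm
  have hr' : ((m % q : ℕ) : ℝ) ≤ q := by exact_mod_cast hr.le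
  have hr0 : (0 : ℝ) ≤ ((m % q : ℕ) : ℝ) := by positivity
  have e : ySk J (m / q) - ySk n m = ((m % q : ℕ) : ℝ) / (q * ((J : ℝ) + 1)) := by
    unfold ySk
    rw [hn', ← hdm']
    field_simp
    ring
  have h1 : 0 ≤ ((m % q : ℕ) : ℝ) / (q * ((J : ℝ) + 1)) := by positivity
  have h2 : ((m % q : ℕ) : ℝ) / (q * ((J : ℝ) + 1)) ≤ 1 / ((J : ℝ) + 1) := by
    rw [div_le_div_iff₀ (by positivity) hJ]
    nlinarith
  constructor <;> linarith

/-- the error of the coarse/fine comparison -/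
def cfErr (c : ℝ) (J : ℕ) : ℝ :=
  2 * c * (1 / Real.sqrt ((J : ℝ) + 1)) +
    (2 / Real.sqrt ((J : ℝ) + 1)) * (c ^ 2 * Real.exp ((2 / Real.sqrt ((J : ℝ) + 1)) * c))

/-- **Coarse/fine comparison**: with uniform exponents, the fine functional is at most the coarse
one, and the difference is small uniformly in the fine level `n`. -/
theorem fine_le_coarse (h : BM c w) {v : ℕ → ι → ℝ} (hv : ∀ m k, 0 ≤ v m k) {J q n : ℕ}
    (hq : 0 < q) (hn : n + 1 = q * (J + 1)) :
    gval n (ySk n) v w ≤ gval J (ySk J) (cv J q v) w := by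
  rw [← gval_coarse h hv hq hn fun j hj => ySk_pos hj]
  exact gval_mono_expo h v n fun m hm => ⟨ySk_pos hm, (ySk_fine_le hq hn).1⟩

theorem coarse_le_fine (h : BM c w) {v : ℕ → ι → ℝ} (hv : ∀ m k, 0 ≤ v m k) {J q n : ℕ}
    (hq : 0 < q) (hJ : 0 < J) (hn : n + 1 = q * (J + 1)) :
    gval J (ySk J) (cv J q v) w ≤ gval n (ySk n) v w + cfErr c J := by
  rw [← gval_coarse h hv hq hn fun j hj => ySk_pos hj]
  have hc := h.nonneg
  have hJ0 : (1 : ℝ) < (J : ℝ) + 1 := by
    have : (0 : ℝ) < J := by exact_mod_cast hJ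
    linarith
  set s := Real.sqrt ((J : ℝ) + 1) with hs
  have hs1 : 1 < s := by
    have := Real.sqrt_lt_sqrt (by norm_num : (0 : ℝ) ≤ 1) hJ0
    rwa [Real.sqrt_one] at this
  have hss : s * s = (J : ℝ) + 1 := Real.mul_self_sqrt (by linarith)
  have hlt : 1 / ((J : ℝ) + 1) < 1 / s := by
    rw [← hss]
    exact one_div_lt_one_div_of_lt (by linarith) (by nlinarith)
  have h1 := (gval_expo h (y := ySk n) (y' := fun m => ySk J (m / q)) hv (J := n) hlt
    (fun m m' hmm _ => by
      unfold ySk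
      have : (m : ℝ) ≤ m' := by exact_mod_cast hmm
      gcongr) (fun m hm => ySk_pos hm) (fun m _ => ySk_fine_le hq hn)).2
  refine h1.trans ?_
  have e1 : 1 / ((J : ℝ) + 1) / (1 / s) = 1 / s := by
    rw [← hss]
    have : s ≠ 0 := by linarith
    field_simp
  have e2 : 1 / s + 1 / ((J : ℝ) + 1) ≤ 2 / s := by
    have : 2 / s = 1 / s + 1 / s := by ring
    linarith
  have h3 : 0 ≤ 1 / s + 1 / ((J : ℝ) + 1) := by positivity
  have e3 : (1 / s + 1 / ((J : ℝ) + 1)) * (c ^ 2 * Real.exp ((1 / s + 1 / ((J : ℝ) + 1)) * c)) ≤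
      (2 / s) * (c ^ 2 * Real.exp ((2 / s) * c)) := by
    have : (1 / s + 1 / ((J : ℝ) + 1)) * c ≤ 2 / s * c := mul_le_mul_of_nonneg_right e2 hc
    gcongr
  unfold cfErr
  rw [e1, ← hs]
  linarith

/-- two-sided form -/
theorem coarse_fine (h : BM c w) {v : ℕ → ι → ℝ} (hv : ∀ m k, 0 ≤ v m k) {J q n : ℕ}
    (hq : 0 < q) (hJ : 0 < J) (hn : n + 1 = q * (J + 1)) :
    |gval n (ySk n) v w - gval J (ySk J) (cv J q v) w| ≤ cfErr c J := by
  have h1 := fine_le_coarse h hv hq hn
  have h2 := coarse_le_fine h hv hq hJ hn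
  have h3 : 0 ≤ cfErr c J := by
    have := h.nonneg
    unfold cfErr
    positivity
  rw [abs_le]
  constructor <;> linarith

theorem cfErr_tendsto (c : ℝ) : Filter.Tendsto (cfErr c) Filter.atTop (nhds 0) := by
  have h1 : Filter.Tendsto (fun J : ℕ => 1 / Real.sqrt ((J : ℝ) + 1)) Filter.atTop (nhds 0) := by
    have h2 : Filter.Tendsto (fun J : ℕ => ((J : ℝ) + 1)) Filter.atTop Filter.atTop :=
      Filter.tendsto_atTop_add_const_right _ _ tendsto_natCast_atTop_atTop
    simp only [one_div]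
    exact tendsto_inv_atTop_zero.comp (Real.tendsto_sqrt_atTop.comp h2)
  have h2 : Filter.Tendsto (fun J : ℕ => 2 / Real.sqrt ((J : ℝ) + 1)) Filter.atTop (nhds 0) := by
    have := h1.const_mul 2
    rw [mul_zero] at this
    refine this.congr fun J => ?_
    ring
  have h3 := (h1.const_mul (2 * c)).add (h2.mul
    (((Real.continuous_exp.tendsto _).comp (h2.mul_const c)).const_mul (c ^ 2)))
  simp only [mul_zero, zero_mul, add_zero] at h3
  exact h3

end

end Crest.Agent.R164.GEx
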