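import Crest.Agent.R164.GEx2
import Crest.Agent.R164.CavG5

/-!
Row 164 (helper491): coarse/fine comparison, part 3: block sums of telescoping variances, in the
form of `CavG.vC`.
-/

set_option autoImplicit false

namespace Crest.Agent.R164.GEx

open Finset
open Crest.Agent.R164.CavG
open Crest.Agent.R141.Fact (ySk ySk_pos ySk_zero ySk_le_one)

noncomputable section

theorem sum_tele (Q : ℕ → ℝ) (a q : ℕ) :
    ∑ r ∈ range q, (Q (a + r) - Q (a + r + 1)) = Q a - Q (a + q) := by
  induction q with
  | zero => simp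
  | succ q ih => rw [sum_range_succ, ih, ← add_assoc]; ring

/-- block sums of the label variances -/
def cb (J q : ℕ) (bv : ℕ → ℝ) (j : ℕ) : ℝ :=
  if j ≤ J then ∑ r ∈ range q, bv (q * j + r) else bv (q * (J + 1))

/-- the block sums of the variances `vC` are the `vC` of the subsampled covariances -/
theorem cv_vC {β : Type} {J q n : ℕ} (hn : n + 1 = q * (J + 1)) (Q : ℕ → β → ℝ) (bv : ℕ → ℝ)
    (j : ℕ) (hj : j ≤ J + 1) :
    cv J q (vC n Q bv) j = vC J (fun i => Q (q * i)) (cb J q bv) j := by
  funext k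
  unfold cv cb
  by_cases h : j ≤ J
  · rw [if_pos h]
    have hlt : ∀ r, r < q → q * j + r ≤ n := fun r hr => by
      have h1 : q * j + q ≤ q * (J + 1) := by
        rw [← Nat.mul_succ]; exact Nat.mul_le_mul_left q (by omega)
      omega
    rcases k with k | k
    · show ∑ r ∈ range q, bv (q * j + r) = if j ≤ J then _ else _
      rw [if_pos h]
    · show ∑ r ∈ range q, (if q * j + r ≤ n then Q (q * j + r) k - Q (q * j + r + 1) k else _) =
        if j ≤ J then Q (q * j) k - Q (q * (j + 1)) k else _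
      rw [if_pos h, Nat.mul_succ, ← sum_tele (fun m => Q m k) (q * j) q]
      exact sum_congr rfl fun r hr => by rw [if_pos (hlt r (mem_range.1 hr))]
  · have hj' : j = J + 1 := by omega
    rw [if_neg h, hj']
    rcases k with k | k
    · show bv (q * (J + 1)) = if J + 1 ≤ J then _ else _
      rw [if_neg (by omega)]
    · show (if q * (J + 1) ≤ n then _ else Q (q * (J + 1)) k) =
        if J + 1 ≤ J then _ else Q (q * (J + 1)) k
      rw [if_neg (by omega), if_neg (by omega)]

theorem gval_congr {ι : Type*} [Fintype ι] {J : ℕ} {y y' : ℕ → ℝ} {v v' : ℕ → ι → ℝ}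
    (w : (ι → ℝ) → ℝ) (hy : ∀ m, m ≤ J → y m = y' m) (hv : ∀ m, m ≤ J + 1 → v m = v' m) :
    gval J y v w = gval J y' v' w := by
  rw [gval_eq, gval_eq, hv (J + 1) le_rfl,
    th_congr w (J + 1) (fun m hm => hy m (by omega)) fun m hm => hv m (by omega)]

/-- **Coarse/fine comparison** for the cavity functional. -/
theorem coarse_fine_vC {β : Type} [Fintype β] {c : ℝ} {w : (Unit ⊕ β → ℝ) → ℝ} (h : BM c w)
    {J q n : ℕ} (hq : 0 < q) (hJ : 0 < J) (hn : n + 1 = q * (J + 1)) {Q : ℕ → β → ℝ}
    {bv : ℕ → ℝ} (hQ0 : ∀ k, 0 ≤ Q (n + 1) k) (hQ : ∀ m k, m ≤ n → Q (m + 1) k ≤ Q m k)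
    (hb : ∀ m, 0 ≤ bv m) :
    |gval n (ySk n) (vC n Q bv) w -
      gval J (ySk J) (vC J (fun i => Q (q * i)) (cb J q bv)) w| ≤ cfErr c J := by
  set v' : ℕ → Unit ⊕ β → ℝ := fun m => if m ≤ n + 1 then vC n Q bv m else fun _ => 0 with hv'
  have e1 : gval n (ySk n) (vC n Q bv) w = gval n (ySk n) v' w :=
    gval_congr w (fun _ _ => rfl) fun m hm => by simp only [hv', if_pos hm]
  have e2 : gval J (ySk J) (vC J (fun i => Q (q * i)) (cb J q bv)) w =
      gval J (ySk J) (cv J q v') w := gval_congr w (fun _ _ => rfl) fun j hj => by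
    rw [← cv_vC hn Q bv j hj]
    unfold cv
    by_cases h : j ≤ J
    · rw [if_pos h, if_pos h]
      funext k
      refine sum_congr rfl fun r hr => ?_
      have h1 : q * j + q ≤ q * (J + 1) := by
        rw [← Nat.mul_succ]; exact Nat.mul_le_mul_left q (by omega)
      have h2 := mem_range.1 hr
      simp only [hv']
      rw [if_pos (by omega)]
    · rw [if_neg h, if_neg h]
      simp only [hv']
      rw [if_pos (by omega)]
  rw [e1, e2]
  refine coarse_fine h (fun m k => ?_) hq hJ hn
  simp only [hv']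
  split_ifs with hm
  · rcases k with k | k
    · exact hb m
    · show 0 ≤ if m ≤ n then Q m k - Q (m + 1) k else Q m k
      split_ifs with hmn
      · exact sub_nonneg.2 (hQ m k hmn)
      · rw [show m = n + 1 by omega]; exact hQ0 k
  · exact le_rfl

end

end Crest.Agent.R164.GEx
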