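import Crest.Agent.R164.QuietG
import Crest.Agent.R164.GPurD

/-!
Row 164: finite families of enriched systems as one enriched system (the parameter is revealed at
step `0`), so that the observation steps do not depend on the parameter.
-/

set_option autoImplicit false

namespace Crest.Agent.R164.G

open Finset Crest.Agent.R141 Crest.Agent.R141.Pur

noncomputable section

/-! ### Abstract disjoint unions -/

section union

variable {Θ : Type} [Fintype Θ] {Ω : Θ → Type} [∀ θ, Fintype (Ω θ)] {Ω' : Type} [Fintype Ω']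
  (e : (Σ θ, Ω θ) ≃ Ω')

/-- `P'` is the mixture of the `P θ` with weights `w`. -/
def Mix (w : Θ → ℝ) (P : ∀ θ, Ω θ → ℝ) (P' : Ω' → ℝ) : Prop :=
  ∀ θ a, P' (e ⟨θ, a⟩) = w θ * P θ a

/-- `r'` is the disjoint union of the relations `r θ`. -/
structure URel (r : ∀ θ, Setoid (Ω θ)) (r' : Setoid Ω') : Prop where
  same : ∀ θ (a b : Ω θ), r' (e ⟨θ, a⟩) (e ⟨θ, b⟩) ↔ r θ a b
  diff : ∀ θ θ' (a : Ω θ) (b : Ω θ'), r' (e ⟨θ, a⟩) (e ⟨θ', b⟩) → θ = θ'

variable {e}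

theorem eE_mix {w : Θ → ℝ} {P : ∀ θ, Ω θ → ℝ} {P' : Ω' → ℝ} (hm : Mix e w P P') (F : Ω' → ℝ) :
    eE P' F = ∑ θ, w θ * eE (P θ) (fun a => F (e ⟨θ, a⟩)) := by
  unfold eE
  rw [← e.sum_comp, Fintype.sum_sigma]
  apply Finset.sum_congr rfl; intro θ _
  rw [Finset.mul_sum]
  apply Finset.sum_congr rfl; intro a _
  rw [hm]; ring

theorem cE_mix {w : Θ → ℝ} (hw : ∀ θ, 0 < w θ) {P : ∀ θ, Ω θ → ℝ} {P' : Ω' → ℝ}
    (hm : Mix e w P P') {r : ∀ θ, Setoid (Ω θ)} {r' : Setoid Ω'} (hr : URel e r r') (F : Ω' → ℝ)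
    (θ : Θ) (a : Ω θ) :
    cE P' r' F (e ⟨θ, a⟩) = cE (P θ) (r θ) (fun b => F (e ⟨θ, b⟩)) a := by
  classical
  have key : ∀ G : Ω' → ℝ, ∑ ω' ∈ univ.filter (fun ω' => r' (e ⟨θ, a⟩) ω'), P' ω' * G ω' =
      w θ * ∑ b ∈ univ.filter (fun b => r θ a b), P θ b * G (e ⟨θ, b⟩) := by
    intro G
    rw [Finset.sum_filter, Finset.sum_filter, ← e.sum_comp, Fintype.sum_sigma]
    rw [Finset.sum_eq_single θ]
    · rw [Finset.mul_sum]
      apply Finset.sum_congr rfl; intro b _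
      by_cases h : r θ a b
      · rw [if_pos h, if_pos ((hr.same θ a b).2 h), hm]; ring
      · rw [if_neg h, if_neg (fun h' => h ((hr.same θ a b).1 h')), mul_zero]
    · intro θ' _ hne
      apply Finset.sum_eq_zero; intro b _
      rw [if_neg]
      intro h
      exact hne (hr.diff θ θ' a b h).symm
    · intro h; exact absurd (Finset.mem_univ _) h
  have h1 := key F
  have h2 := key (fun _ => 1)
  simp only [mul_one] at h2
  unfold cE
  rw [h1, h2, mul_div_mul_left _ _ (hw θ).ne']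

theorem A_mix {w : Θ → ℝ} (hw : ∀ θ, 0 < w θ) {P : ∀ θ, Ω θ → ℝ} {P' : Ω' → ℝ}
    (hP : ∀ θ, IsProb (P θ)) (hP' : IsProb P') (hm : Mix e w P P') {𝓕 : ∀ θ, Filt (Ω θ)}
    {𝓕' : Filt Ω'} (hF : ∀ k, URel e (fun θ => (𝓕 θ).F k) (𝓕'.F k)) (hL : ∀ θ, (𝓕 θ).L = 𝓕'.L)
    {x : ℕ → ℝ} (hx : ∀ k, 0 < x k) (U : Ω' → ℝ) (k : ℕ) :
    ∀ (θ : Θ) (a : Ω θ), A P' 𝓕' x U k (e ⟨θ, a⟩) =
      A (P θ) (𝓕 θ) x (fun b => U (e ⟨θ, b⟩)) k a := by
  induction k using back_induction 𝓕' with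
  | h0 k hk =>
    intro θ a
    rw [A_of_ge U hk, A_of_ge _ (by rw [hL]; exact hk)]
  | h1 k ih =>
    intro θ a
    rw [A_step hP' hx U k, A_step (hP θ) hx _ k]
    unfold pm
    rw [cE_mix hw hm (hF k)]
    simp only [ih]

theorem S_mix {w : Θ → ℝ} (hw : ∀ θ, 0 < w θ) {P : ∀ θ, Ω θ → ℝ} {P' : Ω' → ℝ}
    (hP : ∀ θ, IsProb (P θ)) (hP' : IsProb P') (hm : Mix e w P P') {𝓕 : ∀ θ, Filt (Ω θ)}
    {𝓕' : Filt Ω'} (hF : ∀ k, URel e (fun θ => (𝓕 θ).F k) (𝓕'.F k)) (hL : ∀ θ, (𝓕 θ).L = 𝓕'.L)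
    {x : ℕ → ℝ} (hx : ∀ k, 0 < x k) (U : Ω' → ℝ) (k m : ℕ) (θ : Θ) (a : Ω θ) :
    S P' 𝓕' x U k m (e ⟨θ, a⟩) = S (P θ) (𝓕 θ) x (fun b => U (e ⟨θ, b⟩)) k m a := by
  unfold S
  apply Finset.sum_congr rfl; intro l _
  rw [A_mix hw hP hP' hm hF hL hx, A_mix hw hP hP' hm hF hL hx]

theorem tl_mix {w : Θ → ℝ} (hw : ∀ θ, 0 < w θ) {P : ∀ θ, Ω θ → ℝ} {P' : Ω' → ℝ}
    (hP : ∀ θ, IsProb (P θ)) (hP' : IsProb P') (hm : Mix e w P P') {𝓕 : ∀ θ, Filt (Ω θ)}
    {𝓕' : Filt Ω'} (hF : ∀ k, URel e (fun θ => (𝓕 θ).F k) (𝓕'.F k)) (hL : ∀ θ, (𝓕 θ).L = 𝓕'.L)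
    {x : ℕ → ℝ} (hx : ∀ k, 0 < x k) (U : Ω' → ℝ) :
    Mix e w (fun θ => tl (P θ) (𝓕 θ) x (fun b => U (e ⟨θ, b⟩))) (tl P' 𝓕' x U) := by
  intro θ a
  show P' (e ⟨θ, a⟩) * Real.exp (S P' 𝓕' x U 0 𝓕'.L (e ⟨θ, a⟩)) =
    w θ * (P θ a * Real.exp (S (P θ) (𝓕 θ) x (fun b => U (e ⟨θ, b⟩)) 0 (𝓕 θ).L a))
  rw [S_mix hw hP hP' hm hF hL hx, hm, hL θ]
  ring

theorem covR_mix {w : Θ → ℝ} (hw : ∀ θ, 0 < w θ) {P : ∀ θ, Ω θ → ℝ} {P' : Ω' → ℝ}
    (hm : Mix e w P P') {r : ∀ θ, Setoid (Ω θ)} {r' : Setoid Ω'} (hr : URel e r r')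
    (F G : Ω' → ℝ) (θ : Θ) (a : Ω θ) :
    covR P' r' F G (e ⟨θ, a⟩) =
      covR (P θ) (r θ) (fun b => F (e ⟨θ, b⟩)) (fun b => G (e ⟨θ, b⟩)) a := by
  unfold covR
  rw [cE_mix hw hm hr, cE_mix hw hm hr, cE_mix hw hm hr]

theorem VG_mix {w : Θ → ℝ} (hw : ∀ θ, 0 < w θ) {P : ∀ θ, Ω θ → ℝ} {P' : Ω' → ℝ}
    (hm : Mix e w P P') {R : ∀ θ, ℕ → Setoid (Ω θ)} {R' : ℕ → Setoid Ω'}
    (hR : ∀ n, URel e (fun θ => R θ n) (R' n)) {I : Type} (ph : I → Ω' → ℝ) :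
    ∀ (n : ℕ) (s : Clo.Shape n) (i : I) (θ : Θ) (a : Ω θ),
      QuietG.VG P' R' ph n s i (e ⟨θ, a⟩) =
        QuietG.VG (P θ) (R θ) (fun i b => ph i (e ⟨θ, b⟩)) n s i a
  | 0, s, i, θ, a => by rw [QuietG.VG_zero, QuietG.VG_zero]
  | n + 1, s, i, θ, a => by
    rw [QuietG.VG_succ, QuietG.VG_succ]
    congr 1
    apply List.map_congr_left
    intro q _
    rw [cE_mix hw hm (hR n)]
    congr 1
    funext b
    exact VG_mix hw hm hR ph n q i θ b

theorem pur_mix {w : Θ → ℝ} (hw : ∀ θ, 0 < w θ) {P : ∀ θ, Ω θ → ℝ} {P' : Ω' → ℝ}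
    (hm : Mix e w P P') {r : ∀ θ, Setoid (Ω θ)} {r' : Setoid Ω'} (hr : URel e r r')
    {I : Type} [Fintype I] (φ : I → Ω' → ℝ) :
    Quiet.pur P' r' φ = ∑ θ, w θ * Quiet.pur (P θ) (r θ) (fun i b => φ i (e ⟨θ, b⟩)) := by
  have h := eE_mix hm (fun ω => Fact.avgCov (KerS.kerS P' r') ω φ)
  have h2 : ∀ θ a, Fact.avgCov (KerS.kerS P' r') (e ⟨θ, a⟩) φ =
      Fact.avgCov (KerS.kerS (P θ) (r θ)) a (fun i b => φ i (e ⟨θ, b⟩)) := by
    intro θ a
    unfold Fact.avgCov Fact.avg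
    congr 1
    apply Finset.sum_congr rfl; intro i _
    dsimp only
    congr 1
    apply Finset.sum_congr rfl; intro j _
    rw [KerS.Cov_kerS, KerS.Cov_kerS]
    congr 1
    exact covR_mix hw hm hr (φ i) (φ j) θ a
  unfold eE at h
  unfold Quiet.pur
  rw [h]
  simp only [h2]

end union

/-! ### Families of bases -/

section fam

variable {p : Par} {N : ℕ} {Θ : Type}

/-- relation of the union. -/
inductive SR (B : Θ → Base p N) (k : ℕ) : (Σ θ, (B θ).S) → (Σ θ, (B θ).S) → Prop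
  | mk (θ : Θ) (a b : (B θ).S) (h : (B θ).SF k a b) : SR B k ⟨θ, a⟩ ⟨θ, b⟩

theorem SR_same {B : Θ → Base p N} {k : ℕ} {θ : Θ} {a b : (B θ).S} :
    SR B k ⟨θ, a⟩ ⟨θ, b⟩ ↔ (B θ).SF k a b := by
  constructor
  · intro h
    cases h with
    | mk _ _ _ h => exact h
  · exact SR.mk θ a b

theorem SR_diff {B : Θ → Base p N} {k : ℕ} {s s' : Σ θ, (B θ).S} (h : SR B k s s') :
    s.1 = s'.1 := by
  cases h; rfl

theorem SR_equiv (B : Θ → Base p N) (k : ℕ) : Equivalence (SR B k) where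
  refl s := SR.mk s.1 s.2 s.2 (((B s.1).SF k).refl _)
  symm h := by
    cases h with
    | mk θ a b h => exact SR.mk θ b a (((B θ).SF k).symm h)
  trans h h' := by
    cases h with
    | mk θ a b h =>
      cases h' with
      | mk _ _ c h' => exact SR.mk θ a c (((B θ).SF k).trans h h')

variable [Fintype Θ] [Nonempty Θ]

/-- the union of a family of bases. -/
def Bfam (w : Θ → ℝ) (hw : IsProb w) (B : Θ → Base p N) : Base p N where
  S := Σ θ, (B θ).S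
  fS := inferInstance
  nS := ⟨⟨Classical.arbitrary Θ, Classical.arbitrary _⟩⟩
  q := fun s => w s.1 * (B s.1).q s.2
  hq := by
    constructor
    · intro s; exact mul_pos (hw.pos _) ((B s.1).hq.pos _)
    · rw [Fintype.sum_sigma]
      simp only [← Finset.mul_sum, (B _).hq.sum, mul_one]
      exact hw.sum
  SF k := ⟨SR B k, SR_equiv B k⟩
  anti k := by
    intro s s' h
    have h : SR B (k + 1) s s' := h
    cases h with
    | mk θ a b h1 => exact SR.mk θ a b ((B θ).anti k h1)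
  bot k hk := by
    ext s s'
    constructor
    · intro h
      have h : SR B k s s' := h
      cases h with
      | mk θ a b h1 =>
        rw [(B θ).bot k hk] at h1
        have h1 : a = b := h1
        rw [h1]
    · intro h
      have h : s = s' := h
      subst h
      exact (SR_equiv B k).refl s
  f i s := (B s.1).f i s.2
  hf i s := (B s.1).hf i s.2

/-- the union of the enriched spaces. -/
def efam (w : Θ → ℝ) (hw : IsProb w) (B : Θ → Base p N) :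
    (Σ θ, Om (B θ)) ≃ Om (Bfam w hw B) where
  toFun x := (⟨x.1, x.2.1⟩, x.2.2)
  invFun y := ⟨y.1.1, (y.1.2, y.2)⟩
  left_inv _ := rfl
  right_inv _ := rfl

variable (w : Θ → ℝ) (hw : IsProb w) (B : Θ → Base p N)

theorem fil_fam (k : ℕ) : URel (efam w hw B) (fun θ => (fil (B θ)).F k)
    ((fil (Bfam w hw B)).F k) where
  same θ a b := by
    show frel (Bfam w hw B) k _ _ ↔ frel (B θ) k a b
    unfold frel
    have : (Bfam w hw B).SF k ((efam w hw B) ⟨θ, a⟩).1 ((efam w hw B) ⟨θ, b⟩).1 ↔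
        (B θ).SF k a.1 b.1 := SR_same
    rw [this]
    rfl
  diff θ θ' a b h := by
    have h : frel (Bfam w hw B) k _ _ := h
    exact SR_diff h.2.2

theorem prior_fam : Mix (efam w hw B) w (fun θ => prior (B θ)) (prior (Bfam w hw B)) := by
  intro θ a
  show w θ * (B θ).q a.1 * _ = w θ * ((B θ).q a.1 * _)
  ring

/-- the Hamiltonian of the union. -/
def Hfam (H : ∀ θ, (B θ).S → ℝ) : (Bfam w hw B).S → ℝ := fun s => H s.1 s.2

theorem PP_fam (H : ∀ θ, (B θ).S → ℝ) (d : DD p N) :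
    Mix (efam w hw B) w (fun θ => PP (B θ) (H θ) d) (PP (Bfam w hw B) (Hfam w hw B H) d) := by
  have h := tl_mix (e := efam w hw B) (w := w) hw.pos (P := fun θ => prior (B θ))
    (fun θ => prior_isProb (B θ)) (prior_isProb (Bfam w hw B)) (prior_fam w hw B)
    (𝓕 := fun θ => fil (B θ)) (𝓕' := fil (Bfam w hw B)) (fil_fam w hw B) (fun _ => rfl)
    (x := p.xs) p.xs_expo.pos (UU (Bfam w hw B) (Hfam w hw B H) d)
  exact h

/-- the averaged free energy of the union. -/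
theorem Phi_fam (H : ∀ θ, (B θ).S → ℝ) (d : DD p N) :
    Phi (Bfam w hw B) (Hfam w hw B H) d = ∑ θ, w θ * Phi (B θ) (H θ) d := by
  unfold Phi
  rw [eE_mix (prior_fam w hw B)]
  apply Finset.sum_congr rfl; intro θ _
  congr 2
  funext a
  exact A_mix (e := efam w hw B) (w := w) hw.pos (P := fun θ => prior (B θ))
    (fun θ => prior_isProb (B θ)) (prior_isProb (Bfam w hw B)) (prior_fam w hw B)
    (𝓕 := fun θ => fil (B θ)) (𝓕' := fil (Bfam w hw B)) (fil_fam w hw B) (fun _ => rfl)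
    (x := p.xs) p.xs_expo.pos (UU (Bfam w hw B) (Hfam w hw B H) d) 0 θ a

/-- purity numbers of shape functionals of the union. -/
theorem purVG_fam (H : ∀ θ, (B θ).S → ℝ) (d : DD p N) (k : ℕ) (R : ℕ → ℕ) (n : ℕ)
    (s : Clo.Shape n) :
    Quiet.pur (PP (Bfam w hw B) (Hfam w hw B H) d) ((fil (Bfam w hw B)).F k)
      (QuietG.VG (PP (Bfam w hw B) (Hfam w hw B H) d) (fun n => (fil (Bfam w hw B)).F (R n))
        (fun (i : Fin N) (ω : Om (Bfam w hw B)) => (Bfam w hw B).f i ω.1) n s) =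
    ∑ θ, w θ * Quiet.pur (PP (B θ) (H θ) d) ((fil (B θ)).F k)
      (QuietG.VG (PP (B θ) (H θ) d) (fun n => (fil (B θ)).F (R n))
        (fun (i : Fin N) (ω : Om (B θ)) => (B θ).f i ω.1) n s) := by
  rw [pur_mix hw.pos (PP_fam w hw B H d) (fil_fam w hw B k)]
  apply Finset.sum_congr rfl; intro θ _
  congr 2
  funext i a
  exact VG_mix hw.pos (PP_fam w hw B H d) (R := fun θ n => (fil (B θ)).F (R n))
    (fun n => fil_fam w hw B (R n)) _ n s i θ a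

/-- total purity numbers of the union. -/
theorem totPur_fam (H : ∀ θ, (B θ).S → ℝ) (d : DD p N) (st t : ℕ → ℕ) (nc : ℕ)
    (FS : Finset (Σ k, Clo.Shape k)) :
    QuietG.totPurG (PP (Bfam w hw B) (Hfam w hw B H) d) (fil (Bfam w hw B)) st t
      (fun (i : Fin N) (ω : Om (Bfam w hw B)) => (Bfam w hw B).f i ω.1) nc FS =
    ∑ θ, w θ * QuietG.totPurG (PP (B θ) (H θ) d) (fil (B θ)) st t
      (fun (i : Fin N) (ω : Om (B θ)) => (B θ).f i ω.1) nc FS := by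
  have hPP := PP_fam w hw B H d
  unfold QuietG.totPurG
  simp only [mul_add, Finset.sum_add_distrib, Finset.mul_sum]
  congr 1
  · rw [Finset.sum_comm]
    apply Finset.sum_congr rfl; intro g _
    rw [pur_mix hw.pos hPP (fil_fam w hw B _)]
    rfl
  · rw [Finset.sum_comm]
    apply Finset.sum_congr rfl; intro x _
    rw [Finset.sum_comm]
    apply Finset.sum_congr rfl; intro g _
    rw [pur_mix hw.pos hPP (fil_fam w hw B _)]
    apply Finset.sum_congr rfl; intro θ _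
    congr 2
    funext i a
    rw [cE_mix hw.pos hPP (fil_fam w hw B _)]
    congr 1
    funext b
    exact VG_mix hw.pos hPP (R := fun θ n => Quiet.Rfull (fil (B θ)) st nc n)
      (fun n => fil_fam w hw B _) _ x.1 x.2 i θ b

end fam

end

end Crest.Agent.R164.G
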