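import Crest.Agent.R141.PurC
import Crest.Agent.R164.GSpin
import Crest.Agent.R164.GF

/-!
Row 164: instantiation of `badSum` and selection of the observation steps (port of
`R141/PurC.lean`).
-/

set_option autoImplicit false

namespace Crest.Agent.R164.G

open Finset Crest.Agent.R141 Crest.Agent.R141.Pur

noncomputable section

variable {p : Par} {N : ℕ} (B : Base p N)

open scoped Classical in
theorem tot_le_M0 (hN : 0 < N) (H : B.S → ℝ) (k : Stp p)
    (d : DD p N) : tot B H k d ≤ M0 p := by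
  unfold tot M0
  have h1 := bad_le_one B hN H k none none d
  have h2 : ∑ b, ∑ b2, (if (k.1 ≤ p.lev b ∧ k.1 ≤ p.lev b2) then
      bad B H k (some b) (some b2) d else 0) ≤ (p.nb : ℝ) ^ 2 := by
    calc _ ≤ ∑ _b : Fin p.nb, ∑ _b2 : Fin p.nb, (1 : ℝ) := by
          refine Finset.sum_le_sum fun b _ => Finset.sum_le_sum fun b2 _ => ?_
          split_ifs
          · exact bad_le_one B hN H k _ _ d
          · exact zero_le_one
      _ = (p.nb : ℝ) ^ 2 := by simp [sq]
  have h3 := mul_le_mul_of_nonneg_left h2 (show (0 : ℝ) ≤ (p.Q : ℝ) ^ 4 by positivity)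
  linarith

/-- the gadget coordinates of the level of the cell. -/
theorem badSum_some (hτ : p.τ ≤ 1 / 3) (hQ4 : 4 ≤ p.Q) (hN : 0 < N)
    (H : B.S → ℝ) (g : Fin p.nc) (b b2 : Fin p.nb) (hb : g ≤ p.lev b)
    (hb2 : g ≤ p.lev b2) :
    ∑ t : Fin p.T, Ed p N (fun d => if d (g, t) = none then
      bad B H (g, t) (some b) (some b2) d else 0) ≤
      16 / p.τ ^ 2 * (((p.nb : ℝ) + 1) * (4 / p.Q) ^ 2) +
        p.T * (242 * p.τ ^ 2 * (4 / p.Q) ^ 4) := by
  have hQpos : (0 : ℝ) < p.Q := Sym.Qpos p
  have hκ0 : (0 : ℝ) ≤ 4 / p.Q := by positivity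
  have hκ1 : (4 : ℝ) / p.Q ≤ 1 := by
    rw [div_le_one hQpos]
    exact_mod_cast hQ4
  have hmt : 0 < p.mt g := by unfold Par.mt; positivity
  have hmono : ∀ b' : Fin p.nb, g ≤ p.lev b' → p.mt g ≤ p.mt (p.lev b') := by
    intro b' hb'
    have h1 : (g : ℕ) ≤ (p.lev b' : ℕ) := hb'
    unfold Par.mt
    exact Nat.mul_le_mul_right _ (by omega)
  have hmb := hmono b hb
  have hmb2 := hmono b2 hb2
  refine badSum B hN H g (some b) (some b2) ?_ ?_
  · intro d t i j hd hij hi hj
    rw [mem_Un] at hi hj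
    have hct : p.ct g t < p.mt g := p.ct_lt_mt t.2
    have h := noise_sys B hτ H d (g, t) hd (i, some b) (j, some b2) (m := p.mt (p.lev b2))
      (cv_meas_some B j b2 le_rfl)
      (κc := 4 / p.Q) (κd := 4 / p.Q) hκ0 hκ0 hκ1
      (fun l _ hl ω => Sym.density (B := B) H hj b2 hl ω)
      (fun ω => by
        have := Sym.density2 (B := B) H (b := b) (b' := b2) (i := i) (j := j)
          (fun hh => hij (Prod.ext_iff.1 hh).1) hi hj (k := p.ct g t)
          (by omega) (by omega) ω
        rw [sq] at this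
        exact this)
      (fun ω => Sym.density (B := B) H hi b (k := p.ct g t) (by omega) ω)
    unfold eE Wv
    refine h.trans (le_of_eq ?_)
    unfold eE
    ring
  · intro d i hi ω
    rw [mem_Un] at hi
    rw [abs_of_nonneg (cE_nonneg (PP_isProb B H d) (cv_nonneg B _) ω)]
    exact Sym.density (B := B) H hi b (by omega) ω

open scoped Classical in
/-- selection of good observation steps, one in each cell. -/
theorem selBad (hτ : p.τ ≤ 1 / 3) (hQ4 : 4 ≤ p.Q) (hN : 0 < N) (hT : 0 < p.T)
    (H : B.S → ℝ) :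
    ∃ sel : Fin p.nc → DD p N → Fin p.T, ∀ g,
      Ed p N (fun d => if d (g, sel g d) = none then tot B H (g, sel g d) d else M0 p) ≤
        4 / p.T * (16 / p.τ ^ 2 * (p.nb + 1) * (1 + 16 * p.Q ^ 2 * p.nb ^ 2) + M0 p) +
          4 * (242 * p.τ ^ 2 * (1 + 256 * p.nb ^ 2)) := by
  have hQpos : (0 : ℝ) < p.Q := Sym.Qpos p
  have hτ0 := p.hτ0
  have hTpos : (0 : ℝ) < p.T := by exact_mod_cast hT
  set S : ℝ := 16 / p.τ ^ 2 * (p.nb + 1) * (1 + 16 * p.Q ^ 2 * p.nb ^ 2) +
    p.T * (242 * p.τ ^ 2 * (1 + 256 * p.nb ^ 2)) with hS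
  have hsum : ∀ g : Fin p.nc, ∑ t : Fin p.T,
      Ed p N (fun d => (if d (g, t) = none then tot B H (g, t) d else 0)) ≤ S := by
    intro g
    have e1 : ∀ t : Fin p.T,
        Ed p N (fun d => (if d (g, t) = none then tot B H (g, t) d else 0)) =
        Ed p N (fun d => if d (g, t) = none then bad B H (g, t) none none d else 0) +
        (p.Q : ℝ) ^ 4 * ∑ b, ∑ b2, (if (g ≤ p.lev b ∧ g ≤ p.lev b2) then
          Ed p N (fun d => if d (g, t) = none then
            bad B H (g, t) (some b) (some b2) d else 0) else 0) := by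
      intro t
      have e2 : ∀ d : DD p N, (if d (g, t) = none then tot B H (g, t) d else 0) =
          (if d (g, t) = none then bad B H (g, t) none none d else 0) +
          (p.Q : ℝ) ^ 4 * ∑ b, ∑ b2, (if (g ≤ p.lev b ∧ g ≤ p.lev b2) then
            (if d (g, t) = none then bad B H (g, t) (some b) (some b2) d else 0) else 0) := by
        intro d
        unfold tot
        split_ifs with h
        · rfl
        · simp
      simp only [e2]
      rw [Ed_add, Ed_smul, Ed_sum]
      congr 2
      refine Finset.sum_congr rfl fun b _ => ?_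
      rw [Ed_sum]
      refine Finset.sum_congr rfl fun b2 _ => ?_
      split_ifs
      · rfl
      · rw [Ed_const p hN]
    simp only [e1]
    rw [Finset.sum_add_distrib, ← Finset.mul_sum, Finset.sum_comm]
    have h1 := badSum_none B hτ hN H g
    have h2 : ∑ b, ∑ t : Fin p.T, ∑ b2, (if (g ≤ p.lev b ∧ g ≤ p.lev b2) then
          Ed p N (fun d => if d (g, t) = none then
            bad B H (g, t) (some b) (some b2) d else 0) else 0) ≤
        (p.nb : ℝ) ^ 2 * (16 / p.τ ^ 2 * (((p.nb : ℝ) + 1) * (4 / p.Q) ^ 2) +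
        p.T * (242 * p.τ ^ 2 * (4 / p.Q) ^ 4)) := by
      calc _ ≤ ∑ _b : Fin p.nb, ∑ _b2 : Fin p.nb,
            (16 / p.τ ^ 2 * (((p.nb : ℝ) + 1) * (4 / p.Q) ^ 2) +
              p.T * (242 * p.τ ^ 2 * (4 / p.Q) ^ 4)) := by
            refine Finset.sum_le_sum fun b _ => ?_
            rw [Finset.sum_comm]
            refine Finset.sum_le_sum fun b2 _ => ?_
            by_cases h : g ≤ p.lev b ∧ g ≤ p.lev b2
            · simp only [if_pos h]
              exact badSum_some B hτ hQ4 hN H g b b2 h.1 h.2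
            · simp only [if_neg h, Finset.sum_const_zero]
              positivity
        _ = _ := by
            simp only [Finset.sum_const, Finset.card_univ, Fintype.card_fin, nsmul_eq_mul]
            ring
    have h3 := mul_le_mul_of_nonneg_left h2 (show (0 : ℝ) ≤ (p.Q : ℝ) ^ 4 by positivity)
    refine (add_le_add h1 h3).trans (le_of_eq ?_)
    rw [hS]
    field_simp
    ring
  obtain ⟨sel, hsel⟩ := selection_cell p hN hT (M := M0 p) (S := S) (tot B H)
    (fun k d => tot_nonneg B H k d) (fun k d => tot_le_M0 B hN H k d) hsum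
  refine ⟨sel, fun g => (hsel g).trans (le_of_eq ?_)⟩
  rw [hS]
  field_simp
  ring

end

end Crest.Agent.R164.G
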