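import Crest.Agent.R164.GF

/-!
Row 164: the V-lemma (port of `R141/SysV.lean`).
-/

set_option autoImplicit false

namespace Crest.Agent.R164.G.Sym

open Finset Crest.Agent.R141
open Crest.Agent.R141.Sym (Qpos Qnat gval_of_absent gval_of_present mt_pos mt_mono mt_lt mt_last lev_eq xs_mt
  v_lemma_aux)

noncomputable section

variable {p : Par} {N : ℕ} {B : Base p N}

theorem BB_mem {P : Om B → ℝ} (hP : IsProb P) (i : Fin N) (n : ℕ) (Y : Clo.Tree p.Q n)
    (hY : Clo.Tree.Good n Y) (ω : Om B) :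
    1 / 2 ≤ BB B P hP i n Y ω ∧ BB B P hP i n Y ω ≤ 3 / 2 :=
  Clo.BX_mem p.rho_mem (Qnat p) n Y hY ⟨Om B, ctx B P hP i, ω⟩

/-- `B` is invariant under relabelling. -/
theorem Inv.bb {P : Om B → ℝ} (hP : IsProb P) {i : Fin N} {b : Fin p.nb} {g : Fin p.nc}
    (hs : SymP i b g P) (j : Fin N) : ∀ (n : ℕ) (Y : Clo.Tree p.Q n),
    Inv i b g (BB B P hP j n Y)
  | 0, y => by
    intro π ω
    rw [BB_zero, BB_zero, Inv.cE hs (Inv.spin (fun s => B.f j s)) _ π ω]
  | n + 1, Y => by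
    intro π ω
    rw [BB_succ, BB_succ]
    congr 2
    refine Finset.sum_congr rfl fun q _ => ?_
    exact Inv.cE hs (Inv.bb hP hs j n (Y q)) _ π ω

theorem BB_meas {P : Om B → ℝ} (hP : IsProb P) (i : Fin N) (n : ℕ) (Y : Clo.Tree p.Q n) :
    RMeas ((fil B).F (p.mt (p.nc - 1 - n))) (BB B P hP i n Y) := by
  cases n with
  | zero =>
    intro a b h
    have h' : ((fil B).F (p.mt (p.nc - 1))) a b := h
    rw [BB_zero, BB_zero]
    rw [cE_meas P ((fil B).F (p.mt (p.nc - 1))) _ a b h']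
  | succ n =>
    intro a b h
    rw [BB_succ, BB_succ]
    congr 2
    exact Finset.sum_congr rfl fun q _ => cE_meas P _ _ a b h

/-- the recursion for the free energy of a gadget above its level. -/
theorem A_tree {P : Om B → ℝ} (hP : IsProb P) {i : Fin N} {b : Fin p.nb}
    (hs : ∀ g, SymP i b g P) : ∀ (n : ℕ), n < p.nc → ∀ (Y : Clo.Tree p.Q n), Clo.Tree.Good n Y →
      ∀ (U : Om B → ℝ) (ω : Om B),
      (∀ a, (fil B).F (p.mt (p.nc - 1 - n)) ω a →
        U a = Real.log (1 + tval p (ext p (a.2.1 i b)) n Y * B.f i a.1)) →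
      Real.exp (p.xi (p.nc - 1 - n) * A P (fil B) p.xs U (p.mt (p.nc - 1 - n)) ω) =
        BB B P hP i n Y ω
  | 0, _, y, hy, U, ω, hU => by
    have hy' : |(show ℝ from y)| ≤ 1 / 2 := hy
    have hy2 := abs_le.mp hy'
    have hstep := exp_A_step (𝓕 := fil B) hP p.xs_expo.pos U (p.mt (p.nc - 1)) ω
    have hL : p.mt (p.nc - 1) + 1 = p.L := mt_last p
    rw [hL, p.xs_last le_rfl, one_mul] at hstep
    have hA : A P (fil B) p.xs U p.L = U := A_of_ge U le_rfl
    rw [hA] at hstep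
    have h1 : cE P ((fil B).F (p.mt (p.nc - 1))) (fun w => Real.exp (1 * U w)) ω =
        1 + (show ℝ from y) * cE P ((fil B).F (p.mt (p.nc - 1))) (fun w => B.f i w.1) ω := by
      rw [← cE_smul, ← cE_const hP ((fil B).F (p.mt (p.nc - 1))) 1 ω, ← cE_add]
      refine cE_congr ω fun a ha => ?_
      have hb : |(show ℝ from y) * B.f i a.1| ≤ 1 / 2 := by
        rw [abs_mul]
        calc |(show ℝ from y)| * |B.f i a.1| ≤ 1 / 2 * 1 :=
              mul_le_mul hy' (B.hf i a.1) (abs_nonneg _) (by norm_num)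
          _ = 1 / 2 := by norm_num
      have hb2 := (abs_le.mp hb).1
      rw [cE_const hP, one_mul, hU a ha]
      show Real.exp (Real.log (1 + (show ℝ from y) * B.f i a.1)) = _
      rw [Real.exp_log (by linarith)]
    rw [h1] at hstep
    rw [BB_zero, p.rho_zero]
    have hpos : 0 < 1 + (show ℝ from y) *
        cE P ((fil B).F (p.mt (p.nc - 1))) (fun w => B.f i w.1) ω := by
      rw [← hstep]; exact Real.exp_pos _
    show Real.exp (p.xi (p.nc - 1) * A P (fil B) p.xs U (p.mt (p.nc - 1)) ω) = _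
    rw [mul_comm, Real.exp_mul, hstep]
  | n + 1, hn, Y, hY, U, ω, hU => by
    have hh : p.nc - 1 - n = p.nc - 1 - (n + 1) + 1 := by omega
    have hlt : p.nc - (n + 1) < p.nc := by omega
    have hcell : p.nc - (n + 1) = p.nc - 1 - n := by omega
    have hxi : 0 < p.xi (p.nc - 1 - n) := p.xi_pos _
    have hcol := A_collapse (𝓕 := fil B) hP p.xs_expo.pos (y := p.xi (p.nc - 1 - n)) hxi U
      (k := p.mt (p.nc - 1 - (n + 1))) (l := p.mt (p.nc - 1 - n)) (mt_mono (by omega))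
      (fun j h1 h2 => by
        refine p.xs_cell (by omega) ?_ h2
        rw [hh]
        exact h1) ω
    have hexp := exp_pm hP ((fil B).F (p.mt (p.nc - 1 - (n + 1)))) hxi
      (A P (fil B) p.xs U (p.mt (p.nc - 1 - n))) ω
    rw [← hcol] at hexp
    have h2 : cE P ((fil B).F (p.mt (p.nc - 1 - (n + 1))))
        (fun a => Real.exp (p.xi (p.nc - 1 - n) *
          A P (fil B) p.xs U (p.mt (p.nc - 1 - n)) a)) ω =
        cE P ((fil B).F (p.mt (p.nc - 1 - (n + 1))))
          (fun a => BB B P hP i n (Y (a.2.1 i b ⟨p.nc - (n + 1), hlt⟩)) a) ω := by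
      refine cE_congr ω fun a ha => ?_
      refine A_tree hP hs n (by omega) _ (hY _) U a fun a' ha' => ?_
      have h3 : (fil B).F (p.mt (p.nc - 1 - (n + 1))) ω a' :=
        ((fil B).F (p.mt (p.nc - 1 - (n + 1)))).trans ha
          ((fil B).anti' (mt_mono (by omega)) ha')
      rw [hU a' h3]
      have h4 : a.2.1 i b ⟨p.nc - (n + 1), hlt⟩ = a'.2.1 i b ⟨p.nc - (n + 1), hlt⟩ := by
        have h5 : frel B (p.mt (p.nc - 1 - n)) a a' := ha'
        refine h5.1 i b ⟨p.nc - (n + 1), hlt⟩ ?_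
        exact mt_mono (le_of_eq hcell)
      have h6 : tval p (ext p (a'.2.1 i b)) (n + 1) Y =
          tval p (ext p (a'.2.1 i b)) n (Y (a.2.1 i b ⟨p.nc - (n + 1), hlt⟩)) := by
        rw [h4]
        show tval p (ext p (a'.2.1 i b)) n (Y (ext p (a'.2.1 i b) (p.nc - (n + 1)))) = _
        congr 2
        unfold R141.ext
        rw [dif_pos hlt]
      rw [h6]
    have h7 := cE_label hP (hs ⟨p.nc - (n + 1), hlt⟩) (k := p.mt (p.nc - 1 - (n + 1)))
      (mt_lt (by show p.nc - 1 - (n + 1) < p.nc - (n + 1); omega))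
      (fun q a => BB B P hP i n (Y q) a) (fun q => Inv.bb hP (hs _) i n (Y q)) ω
    rw [h2, h7] at hexp
    rw [BB_succ, p.rho_succ hn, ← hexp, ← Real.exp_mul]
    congr 1
    field_simp

/-- free energy of a gadget from its own label step on. -/
theorem exp_A_gfac {P : Om B → ℝ} (hP : IsProb P) {i : Fin N} {b : Fin p.nb}
    (hs : ∀ g, SymP i b g P) (ω : Om B) :
    Real.exp (p.xi (p.lev b) * A P (fil B) p.xs (gfac B i b) (p.mt (p.lev b)) ω) =
      1 + cv B (i, some b) ω *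
        (BB B P hP i (p.nc - 1 - (p.lev b : ℕ)) (p.tree b) ω - 1) := by
  rcases cv_some_mem i b ω with h | h
  · rw [h, zero_mul, add_zero]
    have h1 : A P (fil B) p.xs (gfac B i b) (p.mt (p.lev b)) ω = 0 := by
      rw [A_congr_class hP p.xs_expo.pos (V := fun _ => (0:ℝ)) _ ω (fun a ha => ?_),
        A_const hP p.xs_expo.pos]
      apply gfac_of_absent
      rw [← cv_meas_some B i b le_rfl ω a ha, h]
    rw [h1]; simp
  · rw [h, one_mul]
    have hn : p.nc - 1 - (p.lev b : ℕ) < p.nc := by have := p.hnc; omega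
    have h1 := A_tree hP hs (p.nc - 1 - (p.lev b : ℕ)) hn (p.tree b) (p.good b) (gfac B i b) ω
      (fun a ha => ?_)
    · rw [lev_eq] at h1
      rw [h1]; ring
    · rw [lev_eq] at ha
      have h2 : vb p b (a.2.1 i b) = 1 := by
        rw [← cv_some, ← cv_meas_some B i b le_rfl ω a ha, h]
      unfold gfac
      rw [gval_of_present h2]

/-- free energy of a gadget just before its own label step. -/
theorem exp_A_gfac_pred {P : Om B → ℝ} (hP : IsProb P) {i : Fin N} {b : Fin p.nb}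
    (hs : ∀ g, SymP i b g P) (ω : Om B) :
    Real.exp (p.xi (p.lev b) * A P (fil B) p.xs (gfac B i b) (p.mt (p.lev b) - 1) ω) =
      1 + (p.Q : ℝ)⁻¹ * (cE P ((fil B).F (p.mt (p.lev b) - 1))
        (BB B P hP i (p.nc - 1 - (p.lev b : ℕ)) (p.tree b)) ω - 1) := by
  have hmt := mt_pos (p := p) (p.lev b)
  have hk : p.mt (p.lev b) - 1 + 1 = p.mt (p.lev b) := by omega
  have h := exp_A_step (𝓕 := fil B) hP p.xs_expo.pos (gfac B i b) (p.mt (p.lev b) - 1) ω
  rw [hk, xs_mt] at h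
  rw [h]
  have e : (fun w => Real.exp (p.xi (p.lev b) *
      A P (fil B) p.xs (gfac B i b) (p.mt (p.lev b)) w)) = fun w => 1 + cv B (i, some b) w *
        (BB B P hP i (p.nc - 1 - (p.lev b : ℕ)) (p.tree b) w - 1) := by
    funext w; exact exp_A_gfac hP hs w
  rw [e, cE_add, cE_const hP]
  congr 1
  have hinv : Inv i b (p.lev b)
      (fun w => BB B P hP i (p.nc - 1 - (p.lev b : ℕ)) (p.tree b) w - 1) :=
    (Inv.bb hP (hs _) i _ _).comp (fun t => t - 1)
  rw [cE_vb_mul hP (hs _) (by omega) hinv, cE_sub, cE_const hP]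

/-- conditional expectations under the law tilted by one gadget. -/
theorem cE_tl_gfac {P : Om B → ℝ} (hP : IsProb P) {i : Fin N} {b : Fin p.nb}
    (hs : ∀ g, SymP i b g P) {f : Om B → ℝ} (hf : RMeas ((fil B).F (p.mt (p.lev b))) f)
    (ω : Om B) :
    cE (tl P (fil B) p.xs (gfac B i b)) ((fil B).F (p.mt (p.lev b) - 1)) f ω =
      (1 + (p.Q : ℝ)⁻¹ * (cE P ((fil B).F (p.mt (p.lev b) - 1))
        (BB B P hP i (p.nc - 1 - (p.lev b : ℕ)) (p.tree b)) ω - 1))⁻¹ *
      cE P ((fil B).F (p.mt (p.lev b) - 1)) (fun w => (1 + cv B (i, some b) w *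
        (BB B P hP i (p.nc - 1 - (p.lev b : ℕ)) (p.tree b) w - 1)) * f w) ω := by
  have hmt := mt_pos (p := p) (p.lev b)
  have hk : p.mt (p.lev b) - 1 + 1 = p.mt (p.lev b) := by omega
  rw [cE_tl_meas hP p.xs_expo.pos _ (by omega : p.mt (p.lev b) - 1 ≤ p.mt (p.lev b)) hf,
    ← cE_smul]
  refine cE_congr ω fun a ha => ?_
  have hS : S P (fil B) p.xs (gfac B i b) (p.mt (p.lev b) - 1) (p.mt (p.lev b)) a =
      p.xi (p.lev b) * A P (fil B) p.xs (gfac B i b) (p.mt (p.lev b)) a -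
      p.xi (p.lev b) * A P (fil B) p.xs (gfac B i b) (p.mt (p.lev b) - 1) a := by
    have h1 := S_succ (P := P) (𝓕 := fil B) (x := p.xs) (gfac B i b)
      (le_refl (p.mt (p.lev b) - 1)) a
    rw [hk, S_self, zero_add, xs_mt] at h1
    rw [h1]; ring
  rw [hS, Real.exp_sub, exp_A_gfac hP hs, exp_A_gfac_pred hP hs]
  rw [cE_meas P ((fil B).F (p.mt (p.lev b) - 1))
    (BB B P hP i (p.nc - 1 - (p.lev b : ℕ)) (p.tree b)) ω a ha]
  ring

/-- where the gadget is absent, the tilt is not seen after its label step. -/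
theorem cE_tl_absent {P : Om B → ℝ} (hP : IsProb P) {i : Fin N} {b : Fin p.nb} {l : ℕ}
    (hl : p.mt (p.lev b) ≤ l) (f : Om B → ℝ) {ω : Om B} (hω : cv B (i, some b) ω = 0) :
    cE (tl P (fil B) p.xs (gfac B i b)) ((fil B).F l) f ω = cE P ((fil B).F l) f ω := by
  rw [cE_tl hP p.xs_expo.pos]
  refine cE_congr ω fun a ha => ?_
  have hA : ∀ j, l ≤ j → A P (fil B) p.xs (gfac B i b) j a = 0 := by
    intro j hj
    rw [A_congr_class hP p.xs_expo.pos (V := fun _ => (0:ℝ)) _ a (fun a' ha' => ?_),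
      A_const hP p.xs_expo.pos]
    apply gfac_of_absent
    rw [← cv_meas_some B i b (hl.trans hj) a a' ha', ← cv_meas_some B i b hl ω a ha, hω]
  have hS : S P (fil B) p.xs (gfac B i b) l (fil B).L a = 0 := by
    unfold S
    refine Finset.sum_eq_zero fun j hj => ?_
    rw [Finset.mem_Ico] at hj
    rw [hA (j + 1) (by omega), hA j hj.1]; ring
  rw [hS]; simp

theorem BB_absent {P : Om B → ℝ} (hP : IsProb P) {i : Fin N} {b : Fin p.nb} (j : Fin N) :
    ∀ (n : ℕ), n ≤ p.nc - 1 - (p.lev b : ℕ) → ∀ (Y : Clo.Tree p.Q n)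
      (hP' : IsProb (tl P (fil B) p.xs (gfac B i b))) (ω : Om B),
      cv B (i, some b) ω = 0 →
      BB B (tl P (fil B) p.xs (gfac B i b)) hP' j n Y ω = BB B P hP j n Y ω
  | 0, _, y, hP', ω, hω => by
    have h2 := (p.lev b).2
    rw [BB_zero, BB_zero, cE_tl_absent hP (mt_mono (by omega)) _ hω]
  | n + 1, hn, Y, hP', ω, hω => by
    have h2 := (p.lev b).2
    have hl : p.mt (p.lev b) ≤ p.mt (p.nc - 1 - (n + 1)) := mt_mono (by omega)
    rw [BB_succ, BB_succ]
    congr 2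
    refine Finset.sum_congr rfl fun q _ => ?_
    rw [cE_tl_absent hP hl _ hω]
    refine cE_congr ω fun a ha => ?_
    refine BB_absent hP j n (by omega) (Y q) hP' a ?_
    rw [← cv_meas_some B i b hl ω a ha, hω]

/-- the V-lemma for one gadget added to a law which does not see its labels. -/
theorem v_core {P0 : Om B → ℝ} (hP0 : IsProb P0) {i : Fin N} {b : Fin p.nb}
    (hs : ∀ g, SymP i b g P0) (hP : IsProb (tl P0 (fil B) p.xs (gfac B i b))) (ω : Om B) :
    |(p.Q : ℝ) * cE (tl P0 (fil B) p.xs (gfac B i b)) ((fil B).F (p.mt (p.lev b) - 1))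
        (cv B (i, some b)) ω -
      cE (tl P0 (fil B) p.xs (gfac B i b)) ((fil B).F (p.mt (p.lev b) - 1))
        (BB B (tl P0 (fil B) p.xs (gfac B i b)) hP i (p.nc - 1 - (p.lev b : ℕ))
          (p.tree b)) ω| ≤ 8 / p.Q := by
  have hq : (2 : ℝ) ≤ p.Q := by exact_mod_cast p.hQ
  have hmt := mt_pos (p := p) (p.lev b)
  have hBmeas : RMeas ((fil B).F (p.mt (p.lev b)))
      (BB B P0 hP0 i (p.nc - 1 - (p.lev b : ℕ)) (p.tree b)) := by
    have h := BB_meas (B := B) hP0 i (p.nc - 1 - (p.lev b : ℕ)) (p.tree b)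
    have e : p.mt (p.nc - 1 - (p.nc - 1 - (p.lev b : ℕ))) = p.mt (p.lev b) := by rw [lev_eq]
    rw [e] at h
    exact h
  have hinv : Inv i b (p.lev b) (BB B P0 hP0 i (p.nc - 1 - (p.lev b : ℕ)) (p.tree b)) :=
    Inv.bb hP0 (hs _) i _ _
  have hVf := fun (f : Om B → ℝ) (hf : RMeas ((fil B).F (p.mt (p.lev b))) f) =>
    cE_tl_gfac hP0 hs hf ω
  have habs := fun (w : Om B) (hw : cv B (i, some b) w = 0) =>
    BB_absent (b := b) (i := i) hP0 i (p.nc - 1 - (p.lev b : ℕ)) le_rfl (p.tree b) hP w hw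
  have hBmem : ∀ w, 1 / 2 ≤ BB B P0 hP0 i (p.nc - 1 - (p.lev b : ℕ)) (p.tree b) w ∧
      BB B P0 hP0 i (p.nc - 1 - (p.lev b : ℕ)) (p.tree b) w ≤ 3 / 2 :=
    fun w => BB_mem hP0 i _ _ (p.good b) w
  have hBPmem : ∀ w, 1 / 2 ≤ BB B (tl P0 (fil B) p.xs (gfac B i b)) hP i
        (p.nc - 1 - (p.lev b : ℕ)) (p.tree b) w ∧
      BB B (tl P0 (fil B) p.xs (gfac B i b)) hP i
        (p.nc - 1 - (p.lev b : ℕ)) (p.tree b) w ≤ 3 / 2 :=
    fun w => BB_mem hP i _ _ (p.good b) w
  have hvmeas := cv_meas_some B i b (le_refl (p.mt (p.lev b)))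
  have hv01 := cv_some_mem (B := B) i b
  have hv0 := cv_nonneg B (i, some b)
  have hvmul := fun (f : Om B → ℝ) (hf : Inv i b (p.lev b) f) =>
    cE_vb_mul hP0 (hs _) (show p.mt (p.lev b) - 1 < p.mt (p.lev b) by omega) hf ω
  generalize BB B P0 hP0 i (p.nc - 1 - (p.lev b : ℕ)) (p.tree b) = Bz at *
  generalize BB B (tl P0 (fil B) p.xs (gfac B i b)) hP i
        (p.nc - 1 - (p.lev b : ℕ)) (p.tree b) = BP at *
  generalize cv B (i, some b) = v at *
  -- conditional expectation of `v`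
  have hV := hVf v hvmeas
  have e1 : (fun w => (1 + v w * (Bz w - 1)) * v w) = fun w => v w * Bz w := by
    funext w
    rcases hv01 w with h | h <;> rw [h] <;> ring
  rw [e1, hvmul Bz hinv] at hV
  -- conditional expectation of `(1 - v) B`
  have hmeas2 : RMeas ((fil B).F (p.mt (p.lev b))) (fun w => (1 - v w) * Bz w) := by
    intro a a' h
    show (1 - v a) * Bz a = (1 - v a') * Bz a'
    rw [hvmeas a a' h, hBmeas a a' h]
  have hX := hVf _ hmeas2
  have e2 : (fun w => (1 + v w * (Bz w - 1)) * ((1 - v w) * Bz w)) = fun w => Bz w - v w * Bz w := by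
    funext w
    rcases hv01 w with h | h <;> rw [h] <;> ring
  rw [e2, cE_sub, hvmul Bz hinv] at hX
  -- splitting of `BP`
  have e3 : BP = fun w => (1 - v w) * Bz w + v w * BP w := by
    funext w
    rcases hv01 w with h | h
    · rw [h, habs w h]; ring
    · rw [h]; ring
  have e4 : cE (tl P0 (fil B) p.xs (gfac B i b)) ((fil B).F (p.mt (p.lev b) - 1)) BP ω =
      cE (tl P0 (fil B) p.xs (gfac B i b)) ((fil B).F (p.mt (p.lev b) - 1))
        (fun w => (1 - v w) * Bz w) ω +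
      cE (tl P0 (fil B) p.xs (gfac B i b)) ((fil B).F (p.mt (p.lev b) - 1))
        (fun w => v w * BP w) ω := by
    rw [← cE_add, ← e3]
  rw [hX] at e4
  have hβ1 : 1 / 2 ≤ cE P0 ((fil B).F (p.mt (p.lev b) - 1)) Bz ω :=
    le_cE_of_le hP0 (fun w => (hBmem w).1) ω
  have hβ2 : cE P0 ((fil B).F (p.mt (p.lev b) - 1)) Bz ω ≤ 3 / 2 :=
    cE_le_of_le hP0 (fun w => (hBmem w).2) ω
  refine v_lemma_aux hq hβ1 hβ2 hV e4 ?_ ?_
  · exact cE_nonneg hP (fun w => mul_nonneg (hv0 w) (by linarith [(hBPmem w).1])) ω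
  · rw [← cE_smul]
    refine cE_mono' hP (fun w => ?_) ω
    have := (hBPmem w).2
    nlinarith [hv0 w]

/-- **V-LEMMA** (2.5), explicit constant. -/
theorem v_lemma_step (H : B.S → ℝ) {d : DD p N} {i : Fin N}
    (hi : ¬ touched p N d i) (b : Fin p.nb) (ω : Om B) :
    |(p.Q : ℝ) * cE (PP B H d) ((fil B).F (p.mt (p.lev b) - 1)) (cv B (i, some b)) ω -
      cE (PP B H d) ((fil B).F (p.mt (p.lev b) - 1))
        (BB B (PP B H d) (PP_isProb B H d) i (p.nc - 1 - (p.lev b : ℕ)) (p.tree b)) ω| ≤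
      8 / p.Q := by
  have hP0 : IsProb (Pmin B H d {(i, b)}) := Pmin_isProb H d _
  have hs : ∀ g, SymP i b g (Pmin B H d {(i, b)}) :=
    fun g => symP_Pmin hi (Finset.mem_singleton_self _)
  have hPP : PP B H d = tl (Pmin B H d {(i, b)}) (fil B) p.xs (gfac B i b) := by
    rw [PP_eq H d {(i, b)}]
    simp only [Finset.sum_singleton]
  have gen : ∀ (P : Om B → ℝ) (hP : IsProb P),
      P = tl (Pmin B H d {(i, b)}) (fil B) p.xs (gfac B i b) →
      |(p.Q : ℝ) * cE P ((fil B).F (p.mt (p.lev b) - 1)) (cv B (i, some b)) ω -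
      cE P ((fil B).F (p.mt (p.lev b) - 1))
        (BB B P hP i (p.nc - 1 - (p.lev b : ℕ)) (p.tree b)) ω| ≤ 8 / p.Q := by
    intro P hP hPeq
    subst hPeq
    exact v_core hP0 hs hP ω
  exact gen _ _ hPP

/-- **V-LEMMA** at every earlier time. -/
theorem v_lemma_all (H : B.S → ℝ) {d : DD p N} {i : Fin N}
    (hi : ¬ touched p N d i) (b : Fin p.nb) {k : ℕ} (hk : k < p.mt (p.lev b)) (ω : Om B) :
    |(p.Q : ℝ) * cE (PP B H d) ((fil B).F k) (cv B (i, some b)) ω -
      cE (PP B H d) ((fil B).F k)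
        (BB B (PP B H d) (PP_isProb B H d) i (p.nc - 1 - (p.lev b : ℕ)) (p.tree b)) ω| ≤
      8 / p.Q := by
  have hP := PP_isProb B H d
  have hle : k ≤ p.mt (p.lev b) - 1 := by omega
  rw [← cE_tower hP ((fil B).anti' hle) (cv B (i, some b)), ← cE_tower hP ((fil B).anti' hle)
    (BB B (PP B H d) (PP_isProb B H d) i (p.nc - 1 - (p.lev b : ℕ)) (p.tree b)),
    ← cE_smul, ← cE_sub]
  exact abs_cE_le_of_le hP (fun a => v_lemma_step H hi b a) ω

end

end Crest.Agent.R164.G.Sym
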