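import Crest.Agent.R141.PurE
import Crest.Agent.R164.QuietG
import Crest.Agent.R164.GPurD
import Crest.Agent.R164.GV

/-!
Row 164: statement of the general purity theorem and bridges (port of `R141/PurW.lean`).
-/

set_option autoImplicit false

namespace Crest.Agent.R164.G

open Finset Crest.Agent.R141 Crest.Agent.R141.Pur

noncomputable section

variable {p : Par} {N : ℕ} (B : Base p N)

/-- the shape functionals in the two languages. -/
theorem VG_eq_VV (P : Om B → ℝ) (hP : IsProb P) (i : Fin N) :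
    ∀ (n : ℕ) (s : Clo.Shape n), QuietG.VG P (fun n => (fil B).F (p.mt (p.nc - 1 - n)))
      (fun (i : Fin N) (ω : Om B) => B.f i ω.1) n s i = VV B P hP i n s
  | 0, s => by
    funext ω
    rw [QuietG.VG_zero, VV_zero]
    show (if (show Bool from s) = true then B.f i ω.1 else 1) =
      (if (show Bool from s) = true then (fun ω : Om B => B.f i ω.1) else 1) ω
    split_ifs
    · rfl
    · rfl
  | n + 1, s => by
    funext ω
    rw [QuietG.VG_succ]
    show _ = ((show List (Clo.Shape n) from s).map (fun s =>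
      cE P ((fil B).F (p.mt (p.nc - 1 - n))) (VV B P hP i n s) ω)).prod
    congr 1
    apply List.map_congr_left
    intro q _
    rw [VG_eq_VV P hP i n q]

/-- the shape functionals along the full structure. -/
theorem VG_full (P : Om B → ℝ) (hP : IsProb P) (i : Fin N) {n : ℕ}
    (hn : n ≤ p.nc) (s : Clo.Shape n) :
    QuietG.VG P (Quiet.Rfull (fil B) (fun g => g * (p.T + 1)) p.nc)
      (fun (i : Fin N) (ω : Om B) => B.f i ω.1) n s i = VV B P hP i n s := by
  rw [← VG_eq_VV B P hP i n s]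
  apply QuietG.VG_congr
  intro k hk
  unfold Quiet.Rfull Par.mt
  have : p.nc - k = p.nc - 1 - k + 1 := by omega
  rw [this]

/-- purity numbers in the two languages. -/
theorem pur_eq_avc (P : Om B → ℝ) (r : Setoid (Om B))
    (f : Fin N → Om B → ℝ) : Quiet.pur P r f = avc B P r f := by
  unfold Quiet.pur avc
  have h : ∀ ω, Fact.avgCov (KerS.kerS P r) ω f =
      ((N : ℝ) ^ 2)⁻¹ * ∑ i, ∑ j, |covR P r (f i) (f j) ω| := by
    intro ω
    unfold Fact.avgCov Fact.avg
    rw [Fintype.card_fin, Finset.mul_sum, Finset.mul_sum]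
    apply Finset.sum_congr rfl; intro i _
    rw [← mul_assoc]
    have h2 : ∑ i' : Fin N, |Fact.Cov (KerS.kerS P r) ω (f i) (f i')| =
        ∑ j, |covR P r (f i) (f j) ω| := by
      apply Finset.sum_congr rfl; intro j _
      rw [KerS.Cov_kerS]
      rfl
    rw [h2]
    congr 1
    rw [pow_two, mul_inv]
  simp only [h]
  unfold eE
  calc ∑ ω, P ω * (((N : ℝ) ^ 2)⁻¹ * ∑ i, ∑ j, |covR P r (f i) (f j) ω|)
      = ((N : ℝ) ^ 2)⁻¹ * ∑ ω, ∑ i, ∑ j, P ω * |covR P r (f i) (f j) ω| := by
        rw [Finset.mul_sum]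
        apply Finset.sum_congr rfl; intro ω _
        simp only [Finset.mul_sum]
        apply Finset.sum_congr rfl; intro i _
        apply Finset.sum_congr rfl; intro j _
        ring
    _ = _ := by
        congr 1
        rw [Finset.sum_comm]
        apply Finset.sum_congr rfl; intro i _
        rw [Finset.sum_comm]

theorem VV_abs (P : Om B → ℝ) (hP : IsProb P) (i : Fin N) (n : ℕ)
    (s : Clo.Shape n) (ω : Om B) : |VV B P hP i n s ω| ≤ 1 := by
  rw [← VG_eq_VV B P hP i n s]
  exact QuietG.VG_abs_le hP _ (fun i ω => B.hf i ω.1) s i ω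

/-- the shape functional is, up to a small error, a combination of gadget coordinates. -/
theorem VV_approx (H : B.S → ℝ) {d : DD p N} {i : Fin N}
    (hi : ¬ touched p N d i) {n : ℕ} (hn : n < p.nc) (s : Clo.Shape (n + 1)) (c : Fin p.nb → ℝ)
    (hc : ∀ b, c b ≠ 0 → p.nc - 1 - (p.lev b : ℕ) = n) {η C : ℝ} (hC : ∑ b, |c b| ≤ C)
    (happ : ∀ x : Clo.Pt, |Clo.VX (n + 1) s x - ∑ b, c b *
      Clo.BX p.rho p.Q (p.nc - 1 - (p.lev b : ℕ)) (p.tree b) x| ≤ η) (ω : Om B) :
    |cE (PP B H d) ((fil B).F (p.mt (p.nc - 1 - n) - 1))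
        (VV B (PP B H d) (PP_isProb B H d) i (n + 1) s) ω -
      cE (PP B H d) ((fil B).F (p.mt (p.nc - 1 - n) - 1))
        (fun a => ∑ b, ((p.Q : ℝ) * c b) * cv B (i, some b) a) ω| ≤ η + C * (8 / p.Q) := by
  have hQ : (0 : ℝ) < p.Q := by have := p.hQ; exact_mod_cast (by omega : 0 < p.Q)
  have hP := PP_isProb B H d
  set P := PP B H d with hPdef
  set r := (fil B).F (p.mt (p.nc - 1 - n) - 1) with hr
  have h1 : |cE P r (VV B P hP i (n + 1) s) ω - cE P r (fun a => ∑ b, c b *
      BB B P hP i (p.nc - 1 - (p.lev b : ℕ)) (p.tree b) a) ω| ≤ η := by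
    rw [← cE_sub]
    apply abs_cE_le_of_le hP
    intro a
    exact happ ⟨Om B, ctx B P hP i, a⟩
  have h2 : cE P r (fun a => ∑ b, c b *
      BB B P hP i (p.nc - 1 - (p.lev b : ℕ)) (p.tree b) a) ω =
      ∑ b, c b * cE P r (BB B P hP i (p.nc - 1 - (p.lev b : ℕ)) (p.tree b)) ω := by
    rw [cE_sum]
    apply Finset.sum_congr rfl; intro b _
    rw [cE_smul]
  have h3 : cE P r (fun a => ∑ b, ((p.Q : ℝ) * c b) * cv B (i, some b) a) ω =
      ∑ b, c b * ((p.Q : ℝ) * cE P r (cv B (i, some b)) ω) := by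
    rw [cE_sum]
    apply Finset.sum_congr rfl; intro b _
    rw [cE_smul]
    ring
  have h4 : |(∑ b, c b * cE P r (BB B P hP i (p.nc - 1 - (p.lev b : ℕ)) (p.tree b)) ω) -
      ∑ b, c b * ((p.Q : ℝ) * cE P r (cv B (i, some b)) ω)| ≤ C * (8 / p.Q) := by
    rw [← Finset.sum_sub_distrib]
    calc |∑ b, (c b * cE P r (BB B P hP i (p.nc - 1 - (p.lev b : ℕ)) (p.tree b)) ω -
          c b * ((p.Q : ℝ) * cE P r (cv B (i, some b)) ω))| ≤ ∑ b, |c b| * (8 / p.Q) := by
          refine (Finset.abs_sum_le_sum_abs _ _).trans (Finset.sum_le_sum fun b _ => ?_)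
          by_cases hb : c b = 0
          · simp [hb]
          · have hlev := hc b hb
            have hlb := (p.lev b).2
            have h5 : p.nc - 1 - n = (p.lev b : ℕ) := by omega
            have h6 := Sym.v_lemma_step (B := B) H hi b ω
            rw [← mul_sub, abs_mul]
            apply mul_le_mul_of_nonneg_left _ (abs_nonneg _)
            rw [abs_sub_comm]
            rw [hr, h5]
            exact h6
      _ = (∑ b, |c b|) * (8 / p.Q) := by rw [Finset.sum_mul]
      _ ≤ C * (8 / p.Q) := mul_le_mul_of_nonneg_right hC (by positivity)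
  rw [h3]
  rw [h2] at h1
  have h7 := abs_sub_le (cE P r (VV B P hP i (n + 1) s) ω)
    (∑ b, c b * cE P r (BB B P hP i (p.nc - 1 - (p.lev b : ℕ)) (p.tree b)) ω)
    (∑ b, c b * ((p.Q : ℝ) * cE P r (cv B (i, some b)) ω))
  linarith

end

end Crest.Agent.R164.G
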