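import Crest.Agent.R164.QuietG
import Crest.Agent.R164.GSys
import Crest.Agent.R141.Sec23


/-!
Row 164: output of sections 2 and 3.1-3.3 for the enriched system over a general base
(`R164/GSys.lean`), from the purity theorem of section 2 (`PurityMainG`).
-/

set_option autoImplicit false

namespace Crest.Agent.R164.Sec23G

open Finset Crest.Agent.R141 Crest.Agent.R141.KerS
open Crest.Agent.R141.Fact hiding Shape
open Crest.Agent.R141.Clo (Shape)
open Crest.Agent.R164.QuietG Crest.Agent.R164.G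

noncomputable section

/-- **Purity theorem** of section 2 for a general base. -/
def PurityMainG : Prop :=
  ∀ (nc : ℕ), 0 < nc → ∀ (FS : Finset (Σ k, Shape k)), (∀ x ∈ FS, 1 ≤ x.1 ∧ x.1 ≤ nc) →
    ∀ eps eta : ℝ, 0 < eps → 0 < eta →
      ∃ p : Par, p.nc = nc ∧ (p.nb : ℝ) / p.Q ≤ eps ∧ ∃ N0 : ℕ, ∀ N, N0 ≤ N →
        ∀ (B : Base p N) (H : B.S → ℝ), ∃ t : DD p N → ℕ → ℕ,
          (∀ d g, g * (p.T + 1) ≤ t d g ∧ t d g < (g + 1) * (p.T + 1)) ∧
          Ed p N (fun d => totPurG (PP B H d) (fil B) (fun g => g * (p.T + 1)) (t d)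
            (fun (i : Fin N) (ω : Om B) => B.f i ω.1) nc FS) ≤ eta

/-- **Output of sections 2 and 3.1-3.3** for a general base. -/
def Sec23G : Prop :=
  ∀ (J : ℕ), 1 ≤ J → ∀ (SS : (m : ℕ) → List (Shape m)) (δ ε : ℝ), 0 < δ → 0 < ε →
    ∃ p : Par, (p.nb : ℝ) / p.Q ≤ ε ∧ ∃ N0 : ℕ, ∀ N, N0 ≤ N → ∀ (B : Base p N) (H : B.S → ℝ),
      ∃ t : DD p N → ℕ → ℕ, (∀ d, Asm.Win p J (t d)) ∧
        ∀ m, m ≤ J → ∀ s ∈ SS m,
          Ed p N (fun d => ∑ ω, PP B H d ω *
            avgCov (kerS (PP B H d) ((fil B).F (t d (J - m)))) ω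
              (VG (PP B H d) (fun n => (fil B).F (t d (J - n)))
                (fun (i : Fin N) (ω : Om B) => B.f i ω.1) m s)) ≤ δ

theorem sec23G_of_purity (hpm : PurityMainG) : Sec23G := by
  classical
  intro J hJ S0 δ ε hδ hε
  obtain ⟨M, hM⟩ := Sec3.exists_common_bound J S0
  obtain ⟨SS, hSS0, hSS⟩ := Quiet.exists_SSb M
  have hsub := hM SS hSS0 hSS
  obtain ⟨C, hC0, htr⟩ := purity_transferG J M SS hSS
  obtain ⟨w, hw1⟩ := exists_nat_gt ((2 * C / δ) ^ 2 + 1)
  have hwR : (0 : ℝ) < w := lt_trans (by positivity) hw1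
  have hw : 0 < w := by exact_mod_cast hwR
  have hCw : C / Real.sqrt w ≤ δ / 2 := by
    have h1 : 2 * C / δ ≤ Real.sqrt w := by
      apply Real.le_sqrt_of_sq_le
      linarith
    have h2 : 0 < Real.sqrt w := Real.sqrt_pos.mpr hwR
    rw [div_le_iff₀ h2]
    rw [div_le_iff₀ hδ] at h1
    nlinarith
  obtain ⟨p, hpnc, hpe, N0, hN0⟩ := hpm ((J + 1) * w) (Nat.mul_pos (Nat.succ_pos J) hw)
    (FSetG J ((J + 1) * w) SS) (fun y hy => FSetG_height hy) ε (δ / 2) hε (by positivity)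
  refine ⟨p, hpe, max N0 1, fun N hN B H => ?_⟩
  have hN1 : 0 < N := lt_of_lt_of_le Nat.one_pos ((le_max_right _ _).trans hN)
  obtain ⟨t, ht, htp⟩ := hN0 N ((le_max_left _ _).trans hN) B H
  have hI : Nonempty (Fin N) := ⟨⟨0, hN1⟩⟩
  have hCs := Sec3.cells_sys p
  have ht1 : ∀ d g, (fun g => g * (p.T + 1)) g ≤ t d g := fun d g => (ht d g).1
  have ht2 : ∀ d g, t d g < (fun g => g * (p.T + 1)) (g + 1) := fun d g => (ht d g).2
  choose c hc1 hc2 using fun d => htr w hw (Om B) (Fin N) hI (PP B H d) (PP_isProb B H d)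
    (fil B) (fun g => g * (p.T + 1)) (t d) hCs.mono (ht1 d) (ht2 d)
    (fun (i : Fin N) (ω : Om B) => B.f i ω.1) (fun i ω => B.hf i ω.1)
  have hCs' : Sec3.Cells p.xs p.L ((J + 1) * w) (fun g => g * (p.T + 1)) := by
    have := hCs
    rw [hpnc] at this
    exact this
  refine ⟨fun d j => t d (c d (J - j)), fun d => ?_, ?_⟩
  · obtain ⟨h1, h2, h3, h4, h5⟩ := Sec3.cells_win hw hCs' (ht1 d) (ht2 d) (hc1 d)
    have hle : 1 / ((J : ℝ) + 1) ≤ 2 / ((J : ℝ) + 1) := by
      apply div_le_div_of_nonneg_right _ (by positivity)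
      norm_num
    exact ⟨h1, h2, fun l hl => (h3 l hl).trans hle,
      fun j hj1 hj2 l hl1 hl2 => (h4 j hj1 hj2 l hl1 hl2).trans hle,
      fun l hl1 hl2 => (h5 l hl1 hl2).trans hle⟩
  · intro m hm s hs
    have hterm : ∀ d, ∑ ω, PP B H d ω *
        avgCov (kerS (PP B H d) ((fil B).F (t d (c d (J - (J - m)))))) ω
          (VG (PP B H d) (fun n => (fil B).F (t d (c d (J - (J - n)))))
            (fun (i : Fin N) (ω : Om B) => B.f i ω.1) m s) ≤
        totPurG (PP B H d) (fil B) (fun g => g * (p.T + 1)) (t d)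
          (fun (i : Fin N) (ω : Om B) => B.f i ω.1) ((J + 1) * w) (FSetG J ((J + 1) * w) SS) +
          δ / 2 := by
      intro d
      have h1 := hc2 d m hm s (hsub m hm s hs)
      have e1 : VG (PP B H d) (fun n => (fil B).F (t d (c d (J - (J - n)))))
            (fun (i : Fin N) (ω : Om B) => B.f i ω.1) m s
          = VG (PP B H d) (Quiet.Rt (fil B) (t d) (c d))
            (fun (i : Fin N) (ω : Om B) => B.f i ω.1) m s := by
        funext i
        apply VG_congr
        intro k hk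
        show (fil B).F (t d (c d (J - (J - k)))) = (fil B).F (t d (c d k))
        have : J - (J - k) = k := by omega
        rw [this]
      have e2 : J - (J - m) = m := by omega
      rw [e1, e2]
      have h2 : Quiet.pur (PP B H d) ((fil B).F (t d (c d m)))
          (VG (PP B H d) (Quiet.Rt (fil B) (t d) (c d))
            (fun (i : Fin N) (ω : Om B) => B.f i ω.1) m s) ≤
          totPurG (PP B H d) (fil B) (fun g => g * (p.T + 1)) (t d)
          (fun (i : Fin N) (ω : Om B) => B.f i ω.1) ((J + 1) * w) (FSetG J ((J + 1) * w) SS) +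
          δ / 2 := by
        linarith
      exact h2
    refine (Ed_mono p N hterm).trans ?_
    rw [Ed_add, Ed_const p hN1]
    linarith

end

end Crest.Agent.R164.Sec23G
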