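import Crest.Agent.R141.SysV
import Crest.Agent.R164.GSys

/-!
Row 164: symmetries (relabelling of the gadget labels) of the general enriched system
(port of `R141/SysSym.lean`).
-/

set_option autoImplicit false

namespace Crest.Agent.R164.G.Sym

open Finset Crest.Agent.R141
open Crest.Agent.R141.Sym (IsSym sum_cls cE_comp A_comp A_inv tl_sym cE_inv_cls cE_inv)

noncomputable section

variable {p : Par} {N : ℕ} (B : Base p N)

/-- relabelling of all labels. -/
def rl (Pm : Fin N → Fin p.nb → Fin p.nc → Equiv.Perm (Fin p.Q)) : Om B ≃ Om B :=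
  Equiv.prodCongr (Equiv.refl _) (Equiv.prodCongr
    (Equiv.piCongrRight fun i => Equiv.piCongrRight fun b => Equiv.piCongrRight fun g => Pm i b g)
    (Equiv.refl _))

theorem rl_fst (Pm : Fin N → Fin p.nb → Fin p.nc → Equiv.Perm (Fin p.Q)) (ω : Om B) :
    (rl B Pm ω).1 = ω.1 := rfl

theorem rl_lab (Pm : Fin N → Fin p.nb → Fin p.nc → Equiv.Perm (Fin p.Q)) (ω : Om B)
    (i : Fin N) (b : Fin p.nb) (g : Fin p.nc) :
    (rl B Pm ω).2.1 i b g = Pm i b g (ω.2.1 i b g) := rfl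

theorem rl_coin (Pm : Fin N → Fin p.nb → Fin p.nc → Equiv.Perm (Fin p.Q)) (ω : Om B) :
    (rl B Pm ω).2.2 = ω.2.2 := rfl

theorem rl_sym (Pm : Fin N → Fin p.nb → Fin p.nc → Equiv.Perm (Fin p.Q)) :
    IsSym (prior B) (fil B) (rl B Pm) := by
  refine ⟨fun ω => rfl, fun k ω ω' => ?_⟩
  rw [fil_rel, fil_rel]
  unfold frel
  constructor
  · rintro ⟨h1, h2, h3⟩
    refine ⟨fun i b g hg => ?_, h2, h3⟩
    have := h1 i b g hg
    rw [rl_lab, rl_lab] at this
    exact (Pm i b g).injective this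
  · rintro ⟨h1, h2, h3⟩
    refine ⟨fun i b g hg => ?_, h2, h3⟩
    rw [rl_lab, rl_lab, h1 i b g hg]

/-- relabelling of one label. -/
def rl1 (i : Fin N) (b : Fin p.nb) (g : Fin p.nc) (π : Equiv.Perm (Fin p.Q)) : Om B ≃ Om B :=
  rl B (fun i' b' g' => if i' = i ∧ b' = b ∧ g' = g then π else 1)

variable {B}

theorem rl1_fst (i : Fin N) (b : Fin p.nb) (g : Fin p.nc) (π : Equiv.Perm (Fin p.Q)) (ω : Om B) :
    (rl1 B i b g π ω).1 = ω.1 := rfl

theorem rl1_coin (i : Fin N) (b : Fin p.nb) (g : Fin p.nc) (π : Equiv.Perm (Fin p.Q))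
    (ω : Om B) : (rl1 B i b g π ω).2.2 = ω.2.2 := rfl

theorem rl1_same (i : Fin N) (b : Fin p.nb) (g : Fin p.nc) (π : Equiv.Perm (Fin p.Q))
    (ω : Om B) : (rl1 B i b g π ω).2.1 i b g = π (ω.2.1 i b g) := by
  unfold rl1; rw [rl_lab]; simp

theorem rl1_ne (i : Fin N) (b : Fin p.nb) (g : Fin p.nc) (π : Equiv.Perm (Fin p.Q))
    (ω : Om B) {i' : Fin N} {b' : Fin p.nb} {g' : Fin p.nc} (h : ¬ (i' = i ∧ b' = b ∧ g' = g)) :
    (rl1 B i b g π ω).2.1 i' b' g' = ω.2.1 i' b' g' := by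
  unfold rl1; rw [rl_lab, if_neg h]; rfl

/-- the labels of another gadget do not change. -/
theorem rl1_ne' (i : Fin N) (b : Fin p.nb) (g : Fin p.nc) (π : Equiv.Perm (Fin p.Q))
    (ω : Om B) {i' : Fin N} {b' : Fin p.nb} (h : ¬ (i' = i ∧ b' = b)) :
    (rl1 B i b g π ω).2.1 i' b' = ω.2.1 i' b' := by
  funext g'
  exact rl1_ne i b g π ω (fun h' => h ⟨h'.1, h'.2.1⟩)

theorem rl1_sym (i : Fin N) (b : Fin p.nb) (g : Fin p.nc) (π : Equiv.Perm (Fin p.Q)) :
    IsSym (prior B) (fil B) (rl1 B i b g π) := rl_sym B _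

theorem rl1_cls (i : Fin N) (b : Fin p.nb) (g : Fin p.nc) (π : Equiv.Perm (Fin p.Q))
    {k : ℕ} (hk : k < p.mt g) (ω : Om B) : (fil B).F k ω (rl1 B i b g π ω) := by
  rw [fil_rel]
  refine ⟨fun i' b' g' hg' => ?_, fun _ _ _ => rfl, (B.SF k).refl _⟩
  rw [rl1_ne]
  rintro ⟨-, -, rfl⟩
  omega

/-- invariance under relabelling of the label `(i,b,g)`. -/
def Inv (i : Fin N) (b : Fin p.nb) (g : Fin p.nc) (f : Om B → ℝ) : Prop :=
  ∀ (π : Equiv.Perm (Fin p.Q)) (ω : Om B), f (rl1 B i b g π ω) = f ω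

/-- weights whose law is invariant under relabelling of the label `(i,b,g)`. -/
def SymP (i : Fin N) (b : Fin p.nb) (g : Fin p.nc) (P : Om B → ℝ) : Prop :=
  ∀ π : Equiv.Perm (Fin p.Q), IsSym P (fil B) (rl1 B i b g π)

theorem symP_prior (i : Fin N) (b : Fin p.nb) (g : Fin p.nc) : SymP i b g (prior B) :=
  fun π => rl1_sym i b g π

theorem symP_tl {P : Om B → ℝ} {x : ℕ → ℝ} (hP : IsProb P) (hx : ∀ k, 0 < x k) {i : Fin N}
    {b : Fin p.nb} {g : Fin p.nc} (h : SymP i b g P) {U : Om B → ℝ} (hU : Inv i b g U) :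
    SymP i b g (tl P (fil B) x U) :=
  fun π => tl_sym hP hx (h π) (hU π)

theorem Inv.add {i : Fin N} {b : Fin p.nb} {g : Fin p.nc} {f f' : Om B → ℝ}
    (h : Inv i b g f) (h' : Inv i b g f') : Inv i b g (fun ω => f ω + f' ω) :=
  fun π ω => by simp only [h π ω, h' π ω]

theorem Inv.mul {i : Fin N} {b : Fin p.nb} {g : Fin p.nc} {f f' : Om B → ℝ}
    (h : Inv i b g f) (h' : Inv i b g f') : Inv i b g (fun ω => f ω * f' ω) :=
  fun π ω => by simp only [h π ω, h' π ω]

theorem Inv.comp {i : Fin N} {b : Fin p.nb} {g : Fin p.nc} {f : Om B → ℝ}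
    (h : Inv i b g f) (F : ℝ → ℝ) : Inv i b g (fun ω => F (f ω)) :=
  fun π ω => by simp only [h π ω]

theorem Inv.sum {i : Fin N} {b : Fin p.nb} {g : Fin p.nc} {ι : Type*} {s : Finset ι}
    {f : ι → Om B → ℝ} (h : ∀ a ∈ s, Inv i b g (f a)) : Inv i b g (fun ω => ∑ a ∈ s, f a ω) :=
  fun π ω => Finset.sum_congr rfl fun a ha => h a ha π ω

theorem Inv.const {i : Fin N} {b : Fin p.nb} {g : Fin p.nc} (c : ℝ) :
    Inv (B := B) i b g (fun _ => c) := fun _ _ => rfl

theorem Inv.spin {i : Fin N} {b : Fin p.nb} {g : Fin p.nc} (H : B.S → ℝ) :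
    Inv (B := B) i b g (fun ω => H ω.1) := fun _ _ => rfl

theorem Inv.cE {i : Fin N} {b : Fin p.nb} {g : Fin p.nc} {P f : Om B → ℝ}
    (h : SymP i b g P) (hf : Inv i b g f) (k : ℕ) : Inv i b g (R141.cE P ((fil B).F k) f) :=
  fun π ω => cE_inv (h π) k (hf π) ω

/-- the labels of another gadget are invariant. -/
theorem Inv.lab {i : Fin N} {b : Fin p.nb} {g : Fin p.nc} {i' : Fin N} {b' : Fin p.nb}
    (h : ¬ (i' = i ∧ b' = b)) (F : (Fin p.nc → Fin p.Q) → B.S →
      (Fin p.nc → Fin p.T → Bool) → ℝ) :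
    Inv (B := B) i b g (fun ω => F (ω.2.1 i' b') ω.1 ω.2.2) := by
  intro π ω
  simp only [rl1_ne' i b g π ω h]
  rfl

theorem Inv.gfac {i : Fin N} {b : Fin p.nb} {g : Fin p.nc} {i' : Fin N} {b' : Fin p.nb}
    (h : ¬ (i' = i ∧ b' = b)) : Inv i b g (G.gfac B i' b') :=
  Inv.lab h (fun l s _ => Real.log (1 + gval p b' l * B.f i' s))

theorem Inv.vb {i : Fin N} {b : Fin p.nb} {g : Fin p.nc} {i' : Fin N} {b' : Fin p.nb}
    (h : ¬ (i' = i ∧ b' = b)) : Inv i b g (cv B (i', some b')) :=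
  Inv.lab h (fun l _ _ => R141.vb p b' l)

theorem Inv.cfac {i : Fin N} {b : Fin p.nb} {g : Fin p.nc} {o : Option (Crd p N)}
    (h : ∀ o', o ≠ some (i, o')) (k : Stp p) : Inv i b g (G.cfac B o k) := by
  intro π ω
  rcases o with _ | c
  · rfl
  · have key : cv B c (rl1 B i b g π ω) = cv B c ω := by
      rcases c with ⟨i', _ | b'⟩
      · rfl
      · refine Inv.vb (fun h' => h (some b') ?_) π ω
        rw [h'.1]
    unfold G.cfac
    rw [rl1_coin]
    simp only []
    rw [key]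

theorem Inv.cfacd {i : Fin N} {b : Fin p.nb} {g : Fin p.nc} {d : DD p N}
    (h : ¬ touched p N d i) (k : Stp p) : Inv i b g (G.cfac B (d k) k) :=
  Inv.cfac (fun o' ho => h ⟨k, o', ho⟩) k

/-- the enrichment of the other gadgets. -/
theorem Inv.coins {i : Fin N} {b : Fin p.nb} {g : Fin p.nc} {d : DD p N}
    (h : ¬ touched p N d i) : Inv i b g (fun ω => ∑ k, G.cfac B (d k) k ω) :=
  Inv.sum fun k _ => Inv.cfacd h k

/-- **Independence of a label**: the label `(i,b,g)` is uniform and independent of invariant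
functions, given the past before its step. -/
theorem cE_label {P : Om B → ℝ} (_hP : IsProb P) {i : Fin N} {b : Fin p.nb} {g : Fin p.nc}
    (h : SymP i b g P) {k : ℕ} (hk : k < p.mt g) (F : Fin p.Q → Om B → ℝ)
    (hF : ∀ q, Inv i b g (F q)) (ω : Om B) :
    cE P ((fil B).F k) (fun a => F (a.2.1 i b g) a) ω =
      (p.Q : ℝ)⁻¹ * ∑ q, cE P ((fil B).F k) (F q) ω := by
  have hQ : (0 : ℝ) < p.Q := by have := p.hQ; positivity
  have e1 : (fun a : Om B => F (a.2.1 i b g) a) =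
      fun a => ∑ q, (if a.2.1 i b g = q then 1 else 0) * F q a := by
    funext a
    rw [Finset.sum_eq_single (a.2.1 i b g)]
    · simp
    · intro q _ hq; rw [if_neg (Ne.symm hq), zero_mul]
    · intro h; exact absurd (Finset.mem_univ _) h
  -- each indicator has the same conditional expectation
  have e2 : ∀ q q' : Fin p.Q, cE P ((fil B).F k)
      (fun a => (if a.2.1 i b g = q' then (1:ℝ) else 0) * F q a) ω =
      cE P ((fil B).F k) (fun a => (if a.2.1 i b g = q then (1:ℝ) else 0) * F q a) ω := by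
    intro q q'
    rw [← cE_inv_cls (h (Equiv.swap q q')) (fun ω => rl1_cls i b g _ hk ω)
      (fun a => (if a.2.1 i b g = q then (1:ℝ) else 0) * F q a) ω]
    congr 1
    funext a
    rw [rl1_same, hF q]
    congr 1
    have : (Equiv.swap q q' (a.2.1 i b g) = q) ↔ (a.2.1 i b g = q') := by
      constructor
      · intro h'
        have := congrArg (Equiv.swap q q') h'
        rw [Equiv.swap_apply_self, Equiv.swap_apply_left] at this
        exact this
      · intro h'; rw [h', Equiv.swap_apply_right]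
    simp only [this]
  have e3 : ∀ q : Fin p.Q, cE P ((fil B).F k)
      (fun a => (if a.2.1 i b g = q then (1:ℝ) else 0) * F q a) ω =
      (p.Q : ℝ)⁻¹ * cE P ((fil B).F k) (F q) ω := by
    intro q
    have h1 : cE P ((fil B).F k) (F q) ω = ∑ q' : Fin p.Q, cE P ((fil B).F k)
      (fun a => (if a.2.1 i b g = q' then (1:ℝ) else 0) * F q a) ω := by
      rw [← cE_sum]
      congr 1
      funext a
      rw [← Finset.sum_mul]
      simp
    have h2 : ∑ q' : Fin p.Q, cE P ((fil B).F k)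
      (fun a => (if a.2.1 i b g = q' then (1:ℝ) else 0) * F q a) ω = (p.Q : ℝ) *
        cE P ((fil B).F k) (fun a => (if a.2.1 i b g = q then (1:ℝ) else 0) * F q a) ω := by
      rw [Finset.sum_congr rfl (fun q' _ => e2 q q')]
      simp
    rw [h1, h2, ← mul_assoc, inv_mul_cancel₀ hQ.ne', one_mul]
  rw [e1, cE_sum, Finset.mul_sum]
  exact Finset.sum_congr rfl fun q _ => e3 q

/-- the presence indicator times an invariant function. -/
theorem cE_vb_mul {P : Om B → ℝ} (hP : IsProb P) {i : Fin N} {b : Fin p.nb}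
    (h : SymP i b (p.lev b) P) {k : ℕ} (hk : k < p.mt (p.lev b)) {f : Om B → ℝ}
    (hf : Inv i b (p.lev b) f) (ω : Om B) :
    cE P ((fil B).F k) (fun a => cv B (i, some b) a * f a) ω =
      (p.Q : ℝ)⁻¹ * cE P ((fil B).F k) f ω := by
  have h1 := cE_label hP h hk (fun q a => (if q = p.z then (1:ℝ) else 0) * f a)
    (fun q => (Inv.const _).mul hf) ω
  have e : (fun a : Om B => cv B (i, some b) a * f a) =
      fun a => (if a.2.1 i b (p.lev b) = p.z then (1:ℝ) else 0) * f a := by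
    funext a; rfl
  rw [e, h1]
  congr 1
  rw [Finset.sum_eq_single p.z]
  · simp
  · intro q _ hq
    simp only [if_neg hq, zero_mul]
    exact cE_const hP _ 0 ω
  · intro h'; exact absurd (Finset.mem_univ _) h'

theorem cE_vb {P : Om B → ℝ} (hP : IsProb P) {i : Fin N} {b : Fin p.nb}
    (h : SymP i b (p.lev b) P) {k : ℕ} (hk : k < p.mt (p.lev b)) (ω : Om B) :
    cE P ((fil B).F k) (cv B (i, some b)) ω = (p.Q : ℝ)⁻¹ := by
  have := cE_vb_mul hP h hk (f := fun _ => 1) (Inv.const 1) ω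
  simp only [mul_one] at this
  rw [cE_const hP, mul_one] at this
  exact this

end

end Crest.Agent.R164.G.Sym
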