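import Crest.Agent.R164.Haar

/-!
# Row 164: the exact coupling between Haar measures on `O(N)` and `O(N+1)` (helper562)

`V` Haar on `O(N)`, `G` a standard Gaussian vector of `ℝ^{N+1}`, independent; `u = G/|G|`.
Then `U = H_u (V ⊕ 1)` is Haar on `O(N+1)`, where `H_u` is the Householder reflection
exchanging the last basis vector and `u`.
-/

set_option autoImplicit false

namespace Crest.Agent.R164.Haar

open MeasureTheory Matrix

variable {N : ℕ}

/-- `V ⊕ 1` -/
def ext (V : Mat (Fin N)) : Mat (Fin (N + 1)) :=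
  Fin.lastCases (Fin.lastCases 1 fun _ => 0) fun i => Fin.lastCases 0 fun j => V i j

@[simp] theorem ext_last_last (V : Mat (Fin N)) : ext V (Fin.last N) (Fin.last N) = 1 := by
  simp [ext]

@[simp] theorem ext_last_castSucc (V : Mat (Fin N)) (j : Fin N) :
    ext V (Fin.last N) j.castSucc = 0 := by simp [ext]

@[simp] theorem ext_castSucc_last (V : Mat (Fin N)) (i : Fin N) :
    ext V i.castSucc (Fin.last N) = 0 := by simp [ext]

@[simp] theorem ext_castSucc_castSucc (V : Mat (Fin N)) (i j : Fin N) :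
    ext V i.castSucc j.castSucc = V i j := by simp [ext]

theorem continuous_ext : Continuous (ext : Mat (Fin N) → Mat (Fin (N + 1))) := by
  refine continuous_pi fun i => continuous_pi fun j => ?_
  refine Fin.lastCases ?_ (fun i => ?_) i
  · refine Fin.lastCases ?_ (fun j => ?_) j
    · simp only [ext_last_last]; fun_prop
    · simp only [ext_last_castSucc]; fun_prop
  · refine Fin.lastCases ?_ (fun j => ?_) j
    · simp only [ext_castSucc_last]; fun_prop
    · simp only [ext_castSucc_castSucc]; fun_prop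

theorem ext_mul (K V : Mat (Fin N)) :
    Matrix.of (ext K) * Matrix.of (ext V) = Matrix.of (ext (lmul (Matrix.of K) V)) := by
  ext i j
  rw [Matrix.mul_apply, Fin.sum_univ_castSucc]
  refine Fin.lastCases ?_ (fun i => ?_) i
  · refine Fin.lastCases ?_ (fun j => ?_) j <;> simp
  · refine Fin.lastCases ?_ (fun j => ?_) j
    · simp
    · simp [lmul_apply]

theorem ext_one : Matrix.of (ext (fun i j : Fin N => (1 : Matrix (Fin N) (Fin N) ℝ) i j)) = 1 := by
  ext i j
  refine Fin.lastCases ?_ (fun i => ?_) i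
  · refine Fin.lastCases ?_ (fun j => ?_) j
    · simp
    · have h : Fin.last N ≠ j.castSucc := (Fin.castSucc_lt_last j).ne'
      simp [Matrix.one_apply, h]
  · refine Fin.lastCases ?_ (fun j => ?_) j
    · simp [Matrix.one_apply]
    · simp [Matrix.one_apply]

theorem ext_transpose (V : Mat (Fin N)) : (Matrix.of (ext V))ᵀ = Matrix.of (ext (tr V)) := by
  ext i j
  rw [Matrix.transpose_apply]
  refine Fin.lastCases ?_ (fun i => ?_) i
  · refine Fin.lastCases ?_ (fun j => ?_) j <;> simp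
  · refine Fin.lastCases ?_ (fun j => ?_) j <;> simp [tr]

theorem ext_mem {V : Mat (Fin N)} (hV : Matrix.of V ∈ Matrix.orthogonalGroup (Fin N) ℝ) :
    Matrix.of (ext V) ∈ Matrix.orthogonalGroup (Fin (N + 1)) ℝ := by
  rw [Matrix.mem_orthogonalGroup_iff] at hV ⊢
  have h1 : lmul (Matrix.of V) (tr V) = fun i j : Fin N => (1 : Matrix (Fin N) (Fin N) ℝ) i j := by
    funext i j
    have := congrFun (congrFun hV i) j
    exact this
  have h2 := ext_mul V (tr V)
  rw [h1, ext_one, ← ext_transpose] at h2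
  exact h2

/-- an orthogonal matrix fixing the last basis vector is of the form `K ⊕ 1` -/
theorem exists_ext {M : Matrix (Fin (N + 1)) (Fin (N + 1)) ℝ}
    (hM : M ∈ Matrix.orthogonalGroup (Fin (N + 1)) ℝ)
    (he : ∀ i, M i (Fin.last N) = if i = Fin.last N then 1 else 0) :
    ∃ K : Matrix (Fin N) (Fin N) ℝ, K ∈ Matrix.orthogonalGroup (Fin N) ℝ ∧
      M = Matrix.of (ext fun i j => K i j) := by
  -- last row
  have hMt := hM
  rw [Matrix.mem_orthogonalGroup_iff'] at hMt
  rw [Matrix.mem_orthogonalGroup_iff] at hM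
  have hrow : ∀ j, M (Fin.last N) j = if Fin.last N = j then 1 else 0 := by
    intro j
    have h1 := congrFun (congrFun hMt (Fin.last N)) j
    rw [Matrix.mul_apply] at h1
    have h2 : ∀ k, (Mᵀ) (Fin.last N) k = if k = Fin.last N then 1 else 0 := fun k => he k
    simp only [h2, ite_mul, one_mul, zero_mul, Finset.sum_ite_eq', Finset.mem_univ, if_true] at h1
    rw [h1, Matrix.one_apply]
  refine ⟨Matrix.of fun i j => M i.castSucc j.castSucc, ?_, ?_⟩
  · rw [Matrix.mem_orthogonalGroup_iff]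
    ext i j
    have h1 := congrFun (congrFun hM i.castSucc) j.castSucc
    rw [Matrix.mul_apply, Fin.sum_univ_castSucc] at h1
    rw [Matrix.mul_apply]
    have h2 : M i.castSucc (Fin.last N) = 0 := by
      rw [he]; simp
    rw [h2, zero_mul, add_zero] at h1
    have h3 : (1 : Matrix (Fin (N + 1)) (Fin (N + 1)) ℝ) i.castSucc j.castSucc =
        (1 : Matrix (Fin N) (Fin N) ℝ) i j := by
      simp [Matrix.one_apply]
    rw [h3] at h1
    rw [← h1]
    rfl
  · ext i j
    refine Fin.lastCases ?_ (fun i => ?_) i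
    · refine Fin.lastCases ?_ (fun j => ?_) j
      · rw [he]; simp
      · have h : Fin.last N ≠ j.castSucc := (Fin.castSucc_lt_last j).ne'
        rw [hrow]; simp [h]
    · refine Fin.lastCases ?_ (fun j => ?_) j
      · rw [he]; simp
      · simp

/-! ### the Householder reflection -/

/-- `w = u - e` -/
def hw (u : Fin (N + 1) → ℝ) : Fin (N + 1) → ℝ := fun i => u i - (if i = Fin.last N then 1 else 0)

/-- `H_u = 1 - (1 - u_e)⁻¹ w wᵀ` -/
noncomputable def Hh (u : Fin (N + 1) → ℝ) : Matrix (Fin (N + 1)) (Fin (N + 1)) ℝ :=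
  Matrix.of fun i j => (if i = j then 1 else 0) - (1 - u (Fin.last N))⁻¹ * (hw u i * hw u j)

theorem Hh_symm (u : Fin (N + 1) → ℝ) : (Hh u)ᵀ = Hh u := by
  ext i j
  simp only [Hh, Matrix.transpose_apply, Matrix.of_apply]
  rw [mul_comm (hw u j) (hw u i)]
  congr 1
  simp only [eq_comm]

theorem sum_hw_sq {u : Fin (N + 1) → ℝ} (hu : ∑ i, u i ^ 2 = 1) :
    ∑ i, hw u i * hw u i = 2 * (1 - u (Fin.last N)) := by
  have h1 : ∀ i, hw u i * hw u i = u i ^ 2 - 2 * (if i = Fin.last N then u i else 0) +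
      (if i = Fin.last N then 1 else 0) := by
    intro i; unfold hw; split_ifs <;> ring
  simp only [h1, Finset.sum_add_distrib, Finset.sum_sub_distrib, ← Finset.mul_sum,
    Finset.sum_ite_eq', Finset.mem_univ, if_true, hu]
  ring

theorem hw_eq_zero {u : Fin (N + 1) → ℝ} (hu : ∑ i, u i ^ 2 = 1) (h : u (Fin.last N) = 1) (i : Fin (N + 1)) :
    hw u i = 0 := by
  have h1 := sum_hw_sq hu
  rw [h, sub_self, mul_zero] at h1
  have h2 := (Finset.sum_eq_zero_iff_of_nonneg (fun i _ => mul_self_nonneg (hw u i))).1 h1 i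
    (Finset.mem_univ i)
  exact mul_self_eq_zero.1 h2

theorem Hh_mul_self {u : Fin (N + 1) → ℝ} (hu : ∑ i, u i ^ 2 = 1) : Hh u * Hh u = 1 := by
  ext i j
  rw [Matrix.mul_apply]
  set c := (1 - u (Fin.last N))⁻¹ with hc
  have h1 : ∀ k, Hh u i k * Hh u k j = (if i = k then (if k = j then 1 else 0) else 0) -
      c * (hw u i * (if k = j then hw u k else 0)) - c * ((if i = k then hw u k else 0) * hw u j) +
      c * c * (hw u i * hw u j) * (hw u k * hw u k) := by
    intro k
    simp only [Hh, Matrix.of_apply, ← hc]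
    split_ifs <;> ring
  simp only [h1, Finset.sum_add_distrib, Finset.sum_sub_distrib, ← Finset.mul_sum,
    ← Finset.sum_mul, Finset.sum_ite_eq, Finset.sum_ite_eq', Finset.mem_univ, if_true, sum_hw_sq hu]
  rw [Matrix.one_apply]
  by_cases h : u (Fin.last N) = 1
  · simp [hw_eq_zero hu h]
  · have h2 : c * (1 - u (Fin.last N)) = 1 := inv_mul_cancel₀ (sub_ne_zero.2 (Ne.symm h))
    have h3 : c * c * (hw u i * hw u j) * (2 * (1 - u (Fin.last N))) =
        2 * (c * (hw u i * hw u j)) * (c * (1 - u (Fin.last N))) := by ring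
    rw [h3, h2]; ring

theorem Hh_mem {u : Fin (N + 1) → ℝ} (hu : ∑ i, u i ^ 2 = 1) :
    Hh u ∈ Matrix.orthogonalGroup (Fin (N + 1)) ℝ := by
  rw [Matrix.mem_orthogonalGroup_iff, Hh_symm, Hh_mul_self hu]

/-- the last column of `H_u` is `u` -/
theorem Hh_last {u : Fin (N + 1) → ℝ} (hu : ∑ i, u i ^ 2 = 1) (i : Fin (N + 1)) :
    Hh u i (Fin.last N) = u i := by
  simp only [Hh, Matrix.of_apply]
  by_cases h : u (Fin.last N) = 1
  · have h1 := hw_eq_zero hu h i
    rw [h1]
    unfold hw at h1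
    linarith
  · have h2 : (1 - u (Fin.last N))⁻¹ * (1 - u (Fin.last N)) = 1 :=
      inv_mul_cancel₀ (sub_ne_zero.2 (Ne.symm h))
    have h3 : hw u (Fin.last N) = -(1 - u (Fin.last N)) := by unfold hw; simp
    rw [h3]
    have h4 : (1 - u (Fin.last N))⁻¹ * (hw u i * -(1 - u (Fin.last N))) =
        - (hw u i) * ((1 - u (Fin.last N))⁻¹ * (1 - u (Fin.last N))) := by ring
    rw [h4, h2]
    unfold hw
    ring

/-- `O H_u` and `H_{Ou}` differ by an orthogonal matrix of `ℝ^N`. -/
theorem exists_K {u : Fin (N + 1) → ℝ} (hu : ∑ i, u i ^ 2 = 1)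
    {O : Matrix (Fin (N + 1)) (Fin (N + 1)) ℝ} (hO : O ∈ Matrix.orthogonalGroup (Fin (N + 1)) ℝ)
    (hu' : ∑ i, (O.mulVec u) i ^ 2 = 1) :
    ∃ K : Matrix (Fin N) (Fin N) ℝ, K ∈ Matrix.orthogonalGroup (Fin N) ℝ ∧
      O * Hh u = Hh (O.mulVec u) * Matrix.of (ext fun i j => K i j) := by
  have hM : Hh (O.mulVec u) * (O * Hh u) ∈ Matrix.orthogonalGroup (Fin (N + 1)) ℝ :=
    mul_mem (Hh_mem hu') (mul_mem hO (Hh_mem hu))
  have he : ∀ i, (Hh (O.mulVec u) * (O * Hh u)) i (Fin.last N) =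
      if i = Fin.last N then 1 else 0 := by
    intro i
    rw [Matrix.mul_apply]
    have h1 : ∀ k, (O * Hh u) k (Fin.last N) = Hh (O.mulVec u) k (Fin.last N) := by
      intro k
      rw [Hh_last hu', Matrix.mul_apply]
      simp only [Hh_last hu]
      rfl
    simp only [h1]
    rw [← Matrix.mul_apply, Hh_mul_self hu', Matrix.one_apply]
  obtain ⟨K, hK, hKe⟩ := exists_ext hM he
  refine ⟨K, hK, ?_⟩
  rw [← hKe, ← Matrix.mul_assoc, Hh_mul_self hu', Matrix.one_mul]

/-! ### the normalised Gaussian vector -/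

/-- Euclidean norm -/
noncomputable def nrm (G : Fin (N + 1) → ℝ) : ℝ := Real.sqrt (∑ i, G i ^ 2)

/-- `u = G / |G|`, and `e` if `G = 0` -/
noncomputable def un (G : Fin (N + 1) → ℝ) : Fin (N + 1) → ℝ := fun i => G i / nrm G

theorem nrm_sq (G : Fin (N + 1) → ℝ) : nrm G ^ 2 = ∑ i, G i ^ 2 :=
  Real.sq_sqrt (Finset.sum_nonneg fun _ _ => sq_nonneg _)

theorem sum_un {G : Fin (N + 1) → ℝ} (hG : nrm G ≠ 0) : ∑ i, un G i ^ 2 = 1 := by
  simp only [un, div_pow, ← Finset.sum_div]
  rw [← nrm_sq, div_self (pow_ne_zero 2 hG)]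

theorem sum_mulVec_sq {ι : Type*} [Fintype ι] [DecidableEq ι] {O : Matrix ι ι ℝ}
    (hO : O ∈ Matrix.orthogonalGroup ι ℝ) (x : ι → ℝ) :
    ∑ i, (O.mulVec x) i ^ 2 = ∑ i, x i ^ 2 := by
  rw [Matrix.mem_orthogonalGroup_iff'] at hO
  have h1 : ∑ i, (O.mulVec x) i ^ 2 = (O.mulVec x) ⬝ᵥ (O.mulVec x) := by
    simp [dotProduct, sq]
  have h2 : ∑ i, x i ^ 2 = x ⬝ᵥ x := by simp [dotProduct, sq]
  rw [h1, h2, Matrix.dotProduct_mulVec, Matrix.vecMul_mulVec, hO, Matrix.vecMul_one]

theorem nrm_mulVec {O : Matrix (Fin (N + 1)) (Fin (N + 1)) ℝ}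
    (hO : O ∈ Matrix.orthogonalGroup (Fin (N + 1)) ℝ) (G : Fin (N + 1) → ℝ) :
    nrm (O.mulVec G) = nrm G := by
  unfold nrm; rw [sum_mulVec_sq hO]

theorem un_mulVec {O : Matrix (Fin (N + 1)) (Fin (N + 1)) ℝ}
    (hO : O ∈ Matrix.orthogonalGroup (Fin (N + 1)) ℝ) (G : Fin (N + 1) → ℝ) :
    un (O.mulVec G) = O.mulVec (un G) := by
  funext i
  simp only [un, nrm_mulVec hO, Matrix.mulVec, dotProduct]
  rw [Finset.sum_div]
  exact Finset.sum_congr rfl fun j _ => by ring


/-! ### rotation invariance of the Gaussian law -/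

open ProbabilityTheory WithLp

/-- the standard Gaussian law on `ℝ^ι` -/
noncomputable abbrev gam (ι : Type*) [Fintype ι] : Measure (ι → ℝ) :=
  Measure.pi fun _ => gaussianReal 0 1

theorem continuous_mulVec {ι : Type*} [Fintype ι] (O : Matrix ι ι ℝ) :
    Continuous (fun x : ι → ℝ => O.mulVec x) := by
  refine continuous_pi fun i => ?_
  simp only [Matrix.mulVec, dotProduct]
  fun_prop

theorem gam_rot {ι : Type*} [Fintype ι] [DecidableEq ι] {O : Matrix ι ι ℝ}
    (hO : O ∈ Matrix.orthogonalGroup ι ℝ) : (gam ι).map (fun x => O.mulVec x) = gam ι := by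
  -- the isometry
  let L : EuclideanSpace ℝ ι →ₗ[ℝ] EuclideanSpace ℝ ι :=
    { toFun := fun x => toLp 2 (O.mulVec (ofLp x))
      map_add' := fun x y => by
        rw [ofLp_add, Matrix.mulVec_add, toLp_add]
      map_smul' := fun c x => by
        rw [ofLp_smul, Matrix.mulVec_smul, toLp_smul]; rfl }
  have hL : ∀ x, ‖L x‖ = ‖x‖ := by
    intro x
    rw [EuclideanSpace.norm_eq, EuclideanSpace.norm_eq]
    congr 1
    simp only [Real.norm_eq_abs, sq_abs]
    exact sum_mulVec_sq hO (ofLp x)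
  let Li : EuclideanSpace ℝ ι →ₗᵢ[ℝ] EuclideanSpace ℝ ι := ⟨L, hL⟩
  let Le : EuclideanSpace ℝ ι ≃ₗᵢ[ℝ] EuclideanSpace ℝ ι := Li.toLinearIsometryEquiv rfl
  have h1 := stdGaussian_map Le
  rw [← map_pi_eq_stdGaussian] at h1
  have hm : Measurable (toLp 2 : (ι → ℝ) → EuclideanSpace ℝ ι) :=
    (PiLp.continuous_toLp 2 _).measurable
  have hm' : Measurable (ofLp : EuclideanSpace ℝ ι → (ι → ℝ)) :=
    (PiLp.continuous_ofLp 2 _).measurable
  rw [Measure.map_map Le.continuous.measurable hm] at h1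
  have h2 : (Le ∘ toLp 2 : (ι → ℝ) → EuclideanSpace ℝ ι) =
      toLp 2 ∘ (fun x : ι → ℝ => O.mulVec x) := by
    funext x
    rfl
  rw [h2, ← Measure.map_map hm (continuous_mulVec O).measurable] at h1
  have h3 := congrArg (fun ν => ν.map (ofLp : EuclideanSpace ℝ ι → (ι → ℝ))) h1
  simp only at h3
  rw [Measure.map_map hm' hm, Measure.map_map hm' hm] at h3
  have h4 : (ofLp ∘ toLp 2 : (ι → ℝ) → (ι → ℝ)) = id := rfl
  rwa [h4, Measure.map_id, Measure.map_id] at h3

theorem gam_nrm_ne_zero : ∀ᵐ G ∂(gam (Fin (N + 1))), nrm G ≠ 0 := by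
  have h1 : ∀ᵐ G ∂(gam (Fin (N + 1))), G (Fin.last N) ≠ 0 := by
    have h2 : MeasurePreserving (Function.eval (Fin.last N)) (gam (Fin (N + 1))) (gaussianReal 0 1) :=
      measurePreserving_eval _ _
    have h3 : ∀ᵐ x ∂(gaussianReal 0 1), x ≠ 0 := by
      have : NullSingletonClass (gaussianReal 0 1) := nullSingletonClass_gaussianReal (by norm_num)
      exact Measure.ae_ne _ 0
    exact h2.quasiMeasurePreserving.ae h3
  filter_upwards [h1] with G hG h0
  apply hG
  have h2 : nrm G ^ 2 = 0 := by rw [h0]; ring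
  rw [nrm_sq] at h2
  have h3 := (Finset.sum_eq_zero_iff_of_nonneg (fun i _ => sq_nonneg (G i))).1 h2 (Fin.last N)
    (Finset.mem_univ _)
  exact pow_eq_zero_iff (two_ne_zero) |>.1 h3

/-! ### the coupling -/

/-- `H_{G/|G|} (V ⊕ 1)` -/
noncomputable def cpl (V : Mat (Fin N)) (G : Fin (N + 1) → ℝ) : Mat (Fin (N + 1)) :=
  fun i j => (Hh (un G) * Matrix.of (ext V)) i j

theorem measurable_nrm : Measurable (nrm (N := N)) := by
  unfold nrm
  fun_prop

theorem measurable_un (i : Fin (N + 1)) : Measurable (fun G : Fin (N + 1) → ℝ => un G i) := by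
  unfold un
  exact (measurable_pi_apply i).div measurable_nrm

theorem measurable_Hh (i j : Fin (N + 1)) :
    Measurable (fun G : Fin (N + 1) → ℝ => Hh (un G) i j) := by
  simp only [Hh, Matrix.of_apply, hw]
  have := measurable_un (N := N)
  fun_prop

theorem measurable_cpl : Measurable (fun p : Mat (Fin N) × (Fin (N + 1) → ℝ) => cpl p.1 p.2) := by
  refine measurable_pi_lambda _ fun i => measurable_pi_lambda _ fun j => ?_
  unfold cpl
  simp only [Matrix.mul_apply, Matrix.of_apply]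
  refine Finset.measurable_sum _ fun k _ => ?_
  refine ((measurable_Hh i k).comp measurable_snd).mul ?_
  have h1 : Measurable (fun V : Mat (Fin N) => ext V k j) :=
    (measurable_pi_apply j).comp ((measurable_pi_apply k).comp continuous_ext.measurable)
  exact h1.comp measurable_fst

theorem lmul_cpl {O : Matrix (Fin (N + 1)) (Fin (N + 1)) ℝ}
    (hO : O ∈ Matrix.orthogonalGroup (Fin (N + 1)) ℝ) {G : Fin (N + 1) → ℝ} (hG : nrm G ≠ 0) :
    ∃ K : Matrix (Fin N) (Fin N) ℝ, K ∈ Matrix.orthogonalGroup (Fin N) ℝ ∧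
      ∀ V : Mat (Fin N), lmul O (cpl V G) = cpl (lmul K V) (O.mulVec G) := by
  have h1 := sum_un hG
  have h2 : ∑ i, (O.mulVec (un G)) i ^ 2 = 1 := by rw [sum_mulVec_sq hO, h1]
  obtain ⟨K, hK, hKe⟩ := exists_K h1 hO h2
  refine ⟨K, hK, fun V => ?_⟩
  have h3 : lmul O (cpl V G) = fun i j => (O * (Hh (un G) * Matrix.of (ext V))) i j := rfl
  rw [h3, ← Matrix.mul_assoc, hKe, Matrix.mul_assoc, ← un_mulVec hO G]
  have h4 := ext_mul (fun i j => K i j) V
  rw [h4]
  rfl

variable {μ : Measure (Mat (Fin N))} [IsProbabilityMeasure μ]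

/-- the law of the coupled matrix -/
noncomputable def cplLaw (μ : Measure (Mat (Fin N))) : Measure (Mat (Fin (N + 1))) :=
  (μ.prod (gam (Fin (N + 1)))).map (fun p => cpl p.1 p.2)

instance isProb_cplLaw : IsProbabilityMeasure (cplLaw μ) :=
  Measure.isProbabilityMeasure_map measurable_cpl.aemeasurable

theorem cpl_lhaar (hμ : RHaar μ) : LHaar (cplLaw μ) := by
  unfold cplLaw
  refine ⟨?_, ?_⟩
  · rw [ae_map_iff measurable_cpl.aemeasurable measurableSet_orth]
    have h1 : ∀ᵐ p ∂(μ.prod (gam (Fin (N + 1)))), nrm p.2 ≠ 0 :=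
      (Measure.quasiMeasurePreserving_snd).ae gam_nrm_ne_zero
    have h2 : ∀ᵐ p ∂(μ.prod (gam (Fin (N + 1)))),
        Matrix.of p.1 ∈ Matrix.orthogonalGroup (Fin N) ℝ :=
      (Measure.quasiMeasurePreserving_fst).ae hμ.mem
    filter_upwards [h1, h2] with p hp1 hp2
    exact mul_mem (Hh_mem (sum_un hp1)) (ext_mem hp2)
  · intro O hO
    rw [Measure.map_map (continuous_lmul O).measurable measurable_cpl]
    ext A hA
    rw [Measure.map_apply ((continuous_lmul O).measurable.comp measurable_cpl) hA,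
      Measure.map_apply measurable_cpl hA,
      Measure.prod_apply_symm (((continuous_lmul O).measurable.comp measurable_cpl) hA),
      Measure.prod_apply_symm (measurable_cpl hA)]
    -- inner law
    set F : (Fin (N + 1) → ℝ) → ENNReal := fun G => μ ((fun V => (V, G)) ⁻¹'
      ((fun p : Mat (Fin N) × (Fin (N + 1) → ℝ) => cpl p.1 p.2) ⁻¹' A)) with hF
    have hFm : Measurable F := measurable_measure_prodMk_right (measurable_cpl hA)
    have h1 : ∀ᵐ G ∂(gam (Fin (N + 1))), μ ((fun V => (V, G)) ⁻¹'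
        ((lmul O ∘ fun p : Mat (Fin N) × (Fin (N + 1) → ℝ) => cpl p.1 p.2) ⁻¹' A)) =
        F (O.mulVec G) := by
      filter_upwards [gam_nrm_ne_zero] with G hG
      obtain ⟨K, hK, hKe⟩ := lmul_cpl hO hG
      have h2 : ((fun V => (V, G)) ⁻¹'
          ((lmul O ∘ fun p : Mat (Fin N) × (Fin (N + 1) → ℝ) => cpl p.1 p.2) ⁻¹' A)) =
          lmul K ⁻¹' ((fun V => (V, O.mulVec G)) ⁻¹'
            ((fun p : Mat (Fin N) × (Fin (N + 1) → ℝ) => cpl p.1 p.2) ⁻¹' A)) := by
        ext V
        simp only [Set.mem_preimage, Function.comp_apply, hKe]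
      have hS : MeasurableSet ((fun V => (V, O.mulVec G)) ⁻¹'
            ((fun p : Mat (Fin N) × (Fin (N + 1) → ℝ) => cpl p.1 p.2) ⁻¹' A)) :=
        measurable_prodMk_right (measurable_cpl hA)
      rw [h2, ← Measure.map_apply (continuous_lmul K).measurable hS, hμ.left.inv K hK]
    rw [lintegral_congr_ae h1]
    have h3 : ∫⁻ G, F (O.mulVec G) ∂(gam (Fin (N + 1))) =
        ∫⁻ G, F G ∂((gam (Fin (N + 1))).map (fun x => O.mulVec x)) :=
      (lintegral_map hFm (continuous_mulVec O).measurable).symm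
    rw [h3, gam_rot hO]

/-- **The coupling**: the Haar law on `O(N+1)` is the law of `H_{G/|G|} (V ⊕ 1)`. -/
theorem cpl_law (hμ : RHaar μ) {ν : Measure (Mat (Fin (N + 1)))} [IsProbabilityMeasure ν]
    (hν : RHaar ν) : cplLaw μ = ν :=
  (cpl_lhaar hμ).right.unique hν

theorem cpl_integral {E : Type*} [NormedAddCommGroup E] [NormedSpace ℝ E]
    (hμ : RHaar μ) {ν : Measure (Mat (Fin (N + 1)))} [IsProbabilityMeasure ν]
    (hν : RHaar ν) (f : Mat (Fin (N + 1)) → E) (hf : AEStronglyMeasurable f ν) :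
    ∫ U, f U ∂ν = ∫ p, f (cpl p.1 p.2) ∂(μ.prod (gam (Fin (N + 1)))) := by
  rw [← cpl_law hμ hν] at hf ⊢
  exact integral_map measurable_cpl.aemeasurable hf

/-- Haar measures exist for every `N`. -/
theorem exists_haar (N : ℕ) : ∃ μ : Measure (Mat (Fin N)), IsProbabilityMeasure μ ∧ RHaar μ := by
  induction N with
  | zero =>
    refine ⟨Measure.dirac (fun _ _ => 0), inferInstance, ?_, ?_⟩
    · refine ae_of_all _ fun U => ?_
      rw [Matrix.mem_orthogonalGroup_iff]
      ext i
      exact i.elim0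
    · intro O _
      rw [Measure.map_dirac' (continuous_rmul O).measurable]
      have h : rmul O (fun _ _ : Fin 0 => (0 : ℝ)) = fun _ _ => 0 := by
        funext i
        exact i.elim0
      rw [h]
  | succ n ih =>
    obtain ⟨μ, hμ1, hμ⟩ := ih
    exact ⟨cplLaw μ, isProb_cplLaw, (cpl_lhaar hμ).right⟩

/-! ### the energy under the coupling -/

/-- `(V ⊕ 1) (s, ε) = (V s, ε)` -/
theorem ext_mulVec_castSucc (V : Mat (Fin N)) (s : Fin (N + 1) → ℝ) (i : Fin N) :
    (Matrix.of (ext V)).mulVec s i.castSucc = (Matrix.of V).mulVec (fun j => s j.castSucc) i := by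
  simp [Matrix.mulVec, dotProduct, Fin.sum_univ_castSucc]

theorem ext_mulVec_last (V : Mat (Fin N)) (s : Fin (N + 1) → ℝ) :
    (Matrix.of (ext V)).mulVec s (Fin.last N) = s (Fin.last N) := by
  simp [Matrix.mulVec, dotProduct, Fin.sum_univ_castSucc]

/-- `g₀ = Σ_{i ≤ N} u_i x_i` -/
noncomputable def gz (G : Fin (N + 1) → ℝ) (x : Fin N → ℝ) : ℝ := ∑ i : Fin N, un G i.castSucc * x i

/-- `Σ_{i ≤ N} e_i u_i x_i` -/
noncomputable def gk (G : Fin (N + 1) → ℝ) (e x : Fin N → ℝ) : ℝ :=
  ∑ i : Fin N, e i * un G i.castSucc * x i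

/-- the factor `(1 - u_e)⁻¹` -/
noncomputable def ue (G : Fin (N + 1) → ℝ) : ℝ := (1 - un G (Fin.last N))⁻¹

theorem cpl_mulVec_castSucc {G : Fin (N + 1) → ℝ} (hG : nrm G ≠ 0) (V : Mat (Fin N))
    (s : Fin (N + 1) → ℝ) (i : Fin N) :
    (Matrix.of (cpl V G)).mulVec s i.castSucc =
      (Matrix.of V).mulVec (fun j => s j.castSucc) i + un G i.castSucc *
        (s (Fin.last N) - ue G * gz G ((Matrix.of V).mulVec (fun j => s j.castSucc))) := by
  have h1 : (Matrix.of (cpl V G)).mulVec s =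
      (Hh (un G)).mulVec ((Matrix.of (ext V)).mulVec s) := by
    rw [Matrix.mulVec_mulVec]; rfl
  rw [h1]
  set x := (Matrix.of V).mulVec (fun j => s j.castSucc) with hx
  have h2 : (Hh (un G)).mulVec ((Matrix.of (ext V)).mulVec s) i.castSucc =
      ∑ j : Fin N, Hh (un G) i.castSucc j.castSucc * x j +
        Hh (un G) i.castSucc (Fin.last N) * s (Fin.last N) := by
    simp only [Matrix.mulVec, dotProduct]
    rw [Fin.sum_univ_castSucc]
    congr 1
    · refine Finset.sum_congr rfl fun j _ => ?_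
      congr 1
      exact ext_mulVec_castSucc V s j
    · congr 1
      exact ext_mulVec_last V s
  rw [h2, Hh_last (sum_un hG)]
  have h3 : ∀ j : Fin N, Hh (un G) i.castSucc j.castSucc * x j =
      (if i = j then x j else 0) - ue G * un G i.castSucc * (un G j.castSucc * x j) := by
    intro j
    simp only [Hh, Matrix.of_apply, hw, Fin.castSucc_ne_last, if_false, sub_zero, ue,
      Fin.castSucc_inj]
    split_ifs <;> ring
  simp only [h3, Finset.sum_sub_distrib, Finset.sum_ite_eq, Finset.mem_univ, if_true,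
    ← Finset.mul_sum]
  unfold gz
  ring

theorem cpl_mulVec_last {G : Fin (N + 1) → ℝ} (hG : nrm G ≠ 0) (V : Mat (Fin N))
    (s : Fin (N + 1) → ℝ) :
    (Matrix.of (cpl V G)).mulVec s (Fin.last N) =
      gz G ((Matrix.of V).mulVec (fun j => s j.castSucc)) +
        un G (Fin.last N) * s (Fin.last N) := by
  have h1 : (Matrix.of (cpl V G)).mulVec s =
      (Hh (un G)).mulVec ((Matrix.of (ext V)).mulVec s) := by
    rw [Matrix.mulVec_mulVec]; rfl
  rw [h1]
  set x := (Matrix.of V).mulVec (fun j => s j.castSucc) with hx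
  have h2 : (Hh (un G)).mulVec ((Matrix.of (ext V)).mulVec s) (Fin.last N) =
      ∑ j : Fin N, Hh (un G) (Fin.last N) j.castSucc * x j +
        Hh (un G) (Fin.last N) (Fin.last N) * s (Fin.last N) := by
    simp only [Matrix.mulVec, dotProduct]
    rw [Fin.sum_univ_castSucc]
    congr 1
    · refine Finset.sum_congr rfl fun j _ => ?_
      congr 1
      exact ext_mulVec_castSucc V s j
    · congr 1
      exact ext_mulVec_last V s
  rw [h2, Hh_last (sum_un hG)]
  have h4 : ∀ j : Fin N, Hh (un G) (Fin.last N) j.castSucc = un G j.castSucc := by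
    intro j
    have h5 := congrFun (congrFun (Hh_symm (un G)) j.castSucc) (Fin.last N)
    rw [Matrix.transpose_apply] at h5
    rw [h5, Hh_last (sum_un hG)]
  simp only [h4]
  rfl

/-- **The energy under the coupling** (exact). -/
theorem cpl_energy {G : Fin (N + 1) → ℝ} (hG : nrm G ≠ 0) (V : Mat (Fin N))
    (e : Fin (N + 1) → ℝ) (s : Fin (N + 1) → ℝ) :
    (1 / 2) * ∑ i, e i * ((Matrix.of (cpl V G)).mulVec s i) ^ 2 =
      (1 / 2) * ∑ i : Fin N, e i.castSucc *
        ((Matrix.of V).mulVec (fun j => s j.castSucc) i) ^ 2 +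
      (s (Fin.last N) - ue G * gz G ((Matrix.of V).mulVec (fun j => s j.castSucc))) *
        gk G (fun i => e i.castSucc) ((Matrix.of V).mulVec (fun j => s j.castSucc)) +
      (1 / 2) * (s (Fin.last N) - ue G * gz G ((Matrix.of V).mulVec (fun j => s j.castSucc))) ^ 2 *
        (∑ i : Fin N, e i.castSucc * un G i.castSucc ^ 2) +
      (1 / 2) * e (Fin.last N) * (gz G ((Matrix.of V).mulVec (fun j => s j.castSucc)) +
        un G (Fin.last N) * s (Fin.last N)) ^ 2 := by
  rw [Fin.sum_univ_castSucc, cpl_mulVec_last hG]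
  simp only [cpl_mulVec_castSucc hG]
  set x := (Matrix.of V).mulVec (fun j => s j.castSucc) with hx
  set a := s (Fin.last N) - ue G * gz G x with ha
  have h1 : ∀ i : Fin N, e i.castSucc * (x i + un G i.castSucc * a) ^ 2 =
      e i.castSucc * x i ^ 2 + 2 * a * (e i.castSucc * un G i.castSucc * x i) +
        a ^ 2 * (e i.castSucc * un G i.castSucc ^ 2) := fun i => by ring
  simp only [h1, Finset.sum_add_distrib, ← Finset.mul_sum]
  unfold gk
  ring

/-! ### second moments of the last column -/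

omit [IsProbabilityMeasure μ] in
/-- permutation matrices are orthogonal: exchanging rows keeps the Haar law -/
theorem _root_.Crest.Agent.R164.Haar.perm_mem {ι : Type*} [Fintype ι] [DecidableEq ι]
    (π : Equiv.Perm ι) : (Matrix.of fun i j => if π i = j then (1 : ℝ) else 0) ∈
      Matrix.orthogonalGroup ι ℝ := by
  rw [Matrix.mem_orthogonalGroup_iff]
  ext i j
  rw [Matrix.mul_apply]
  simp only [Matrix.of_apply, Matrix.transpose_apply, Matrix.one_apply, ite_mul,
    one_mul, zero_mul, Finset.sum_ite_eq, Finset.mem_univ, if_true]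
  simp only [EmbeddingLike.apply_eq_iff_eq, eq_comm]

end Crest.Agent.R164.Haar
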