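import Crest.Agent.R141.SysSym
import Crest.Agent.R164.Resp

/-!
Row 164: Rademacher integration by parts for the tilted laws of `R141.HierA`.

`Q` is a law, `φ` an involution-like symmetry flipping one coin `ε` which is revealed at the step `m`;
`P = tl Q (δ ε y)` with `y` not depending on the coin. For `f` not depending on the coin
`E^P[ε y f] = δ E^P[ f y ( y - ∑_{m ≤ l < L} (x_{l+1} - x_l) E^P_l y ) ] + O(δ² |y|³ |f|)`.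
-/

set_option autoImplicit false

namespace Crest.Agent.R164.Ibp

open Finset Crest.Agent.R141 Crest.Agent.R141.Sym Crest.Agent.R164.Resp

noncomputable section

variable {Ω : Type*} [Fintype Ω] {Q : Ω → ℝ} {𝓕 : Filt Ω} {x : ℕ → ℝ}

/-- `W_m(y) = y - ∑_{m ≤ l < L} (x_{l+1} - x_l) E_l y`. -/
def Wm (P : Ω → ℝ) (𝓕 : Filt Ω) (x : ℕ → ℝ) (m : ℕ) (y : Ω → ℝ) (ω : Ω) : ℝ :=
  y ω - ∑ l ∈ Ico m 𝓕.L, (x (l + 1) - x l) * cE P (𝓕.F l) y ω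

theorem exp_two_sub_one_le {a : ℝ} (h0 : 0 ≤ a) (h1 : a ≤ 1) : Real.exp (2 * a) - 1 ≤ 7 * a := by
  -- convexity of `exp` on `[0,2]`
  have h := (convexOn_exp.2 (Set.mem_univ (0:ℝ)) (Set.mem_univ (2:ℝ)) (by linarith : 0 ≤ 1 - a) h0
    (by ring))
  simp only [smul_eq_mul, mul_zero, zero_add, Real.exp_zero, mul_one] at h
  have h2 : Real.exp 2 ≤ 8 := by
    have h3 : Real.exp 2 = Real.exp 1 * Real.exp 1 := by rw [← Real.exp_add]; norm_num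
    have h4 := Real.exp_one_lt_d9
    rw [h3]
    nlinarith [Real.exp_pos 1]
  have h5 : a * 2 = 2 * a := by ring
  rw [h5] at h
  nlinarith

/-- closeness of conditional expectations under a small tilt -/
theorem cE_tl_close (hQ : IsProb Q) (hx : IsExpo x) {V : Ω → ℝ} {a : ℝ} (ha1 : a ≤ 1)
    (hV : ∀ ω, |V ω| ≤ a) {h : Ω → ℝ} {H : ℝ} (hh : ∀ ω, |h ω| ≤ H) (k : ℕ) (ω : Ω) :
    |cE (tl Q 𝓕 x V) (𝓕.F k) h ω - cE Q (𝓕.F k) h ω| ≤ 14 * H * a := by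
  have ha0 : 0 ≤ a := (abs_nonneg _).trans (hV ω)
  have hH : 0 ≤ H := (abs_nonneg _).trans (hh ω)
  have hP : IsProb (tl Q 𝓕 x V) := tl_isProb hQ hx.pos V
  have he := exp_two_sub_one_le ha0 ha1
  have hg : ∀ ω, 0 ≤ h ω + H := fun w => by have := (abs_le.mp (hh w)).1; linarith
  have h1 := cE_tl_le (𝓕 := 𝓕) hQ hx hV hg k ω
  have h2 := cE_le_tl (𝓕 := 𝓕) hQ hx hV hg k ω
  rw [cE_add, cE_add, cE_const hP, cE_const hQ] at h1 h2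
  have h3 := abs_cE_le_of_le (r := 𝓕.F k) hQ hh ω
  have h4 := abs_cE_le_of_le (r := 𝓕.F k) hP hh ω
  rw [abs_le] at h3 h4 ⊢
  constructor <;> nlinarith

/-- closeness of expectations under a small tilt -/
theorem eE_tl_close (hQ : IsProb Q) (hx : IsExpo x) {V : Ω → ℝ} {a : ℝ} (ha1 : a ≤ 1)
    (ha0 : 0 ≤ a) (hV : ∀ ω, |V ω| ≤ a) {h : Ω → ℝ} {H : ℝ} (hh : ∀ ω, |h ω| ≤ H) :
    |eE (tl Q 𝓕 x V) h - eE Q h| ≤ 14 * H * a := by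
  have hP : IsProb (tl Q 𝓕 x V) := tl_isProb hQ hx.pos V
  have he := exp_two_sub_one_le ha0 ha1
  have hg : ∀ ω, 0 ≤ h ω + H := fun w => by have := (abs_le.mp (hh w)).1; linarith
  have h1 := eE_tl_le (𝓕 := 𝓕) hQ hx hV hg
  have h2 := eE_le_tl (𝓕 := 𝓕) hQ hx hV hg
  rw [eE_add, eE_add, eE_const hP, eE_const hQ] at h1 h2
  have h3 : |eE Q h| ≤ H := (eE_abs_le hQ h).trans
    ((eE_mono hQ hh).trans_eq (eE_const hQ H))
  have h4 : |eE (tl Q 𝓕 x V) h| ≤ H := (eE_abs_le hP h).trans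
    ((eE_mono hP hh).trans_eq (eE_const hP H))
  rw [abs_le] at h3 h4 ⊢
  constructor <;> nlinarith

theorem score_eq_Ico (P : Ω → ℝ) (V : Ω → ℝ) (ω : Ω) :
    score P 𝓕 x 0 V ω = ∑ l ∈ Ico 0 𝓕.L, x (l + 1) * (cE P (𝓕.F (l + 1)) V ω -
        cE P (𝓕.F l) V ω) := by
  unfold score
  rw [← Finset.Ico_add_one_add_one_eq_Ioc, ← Finset.sum_Ico_add' (fun l => x l *
      Dl P 𝓕.F l V ω) 0 𝓕.L 1]
  rfl

/-- closeness of the scores -/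
theorem score_close (hQ : IsProb Q) (hx : IsExpo x) {V : Ω → ℝ} {a : ℝ} (ha1 : a ≤ 1)
    (hV : ∀ ω, |V ω| ≤ a) {h : Ω → ℝ} {H : ℝ} (hh : ∀ ω, |h ω| ≤ H) (ω : Ω) :
    |score (tl Q 𝓕 x V) 𝓕 x 0 h ω - score Q 𝓕 x 0 h ω| ≤ 28 * H * a := by
  rw [score_eq_Ico, score_eq_Ico, ← Finset.sum_sub_distrib]
  have h1 := abel_abs (u := fun l => cE (tl Q 𝓕 x V) (𝓕.F l) h ω - cE Q (𝓕.F l) h ω) hx
    (Nat.zero_le 𝓕.L) (a := 14 * H * a) (fun l _ _ => cE_tl_close hQ hx ha1 hV hh l ω)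
  have e : ∀ l, x (l + 1) * (cE (tl Q 𝓕 x V) (𝓕.F (l + 1)) h ω - cE (tl Q 𝓕 x V) (𝓕.F l) h ω) -
      x (l + 1) * (cE Q (𝓕.F (l + 1)) h ω - cE Q (𝓕.F l) h ω) =
      x (l + 1) * ((cE (tl Q 𝓕 x V) (𝓕.F (l + 1)) h ω - cE Q (𝓕.F (l + 1)) h ω) -
        (cE (tl Q 𝓕 x V) (𝓕.F l) h ω - cE Q (𝓕.F l) h ω)) := fun l => by ring
  simp only [e]
  linarith

/-- Abel summation for a sequence vanishing below `m`. -/
theorem abel_from (u : ℕ → ℝ) {m : ℕ} (hm : 1 ≤ m) (hu : ∀ l, l < m → u l = 0) :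
    ∀ M, m ≤ M → ∑ l ∈ Ico 0 M, x (l + 1) * (u (l + 1) - u l) =
      x M * u M - ∑ l ∈ Ico m M, (x (l + 1) - x l) * u l := by
  intro M hM
  induction M, hM using Nat.le_induction with
  | base =>
    obtain ⟨m, rfl⟩ : ∃ n, m = n + 1 := ⟨m - 1, by omega⟩
    rw [Finset.sum_Ico_succ_top (Nat.zero_le m), Finset.sum_eq_zero]
    · rw [hu m (by omega)]; simp
    · intro l hl
      rw [Finset.mem_Ico] at hl
      rw [hu l (by omega), hu (l + 1) (by omega)]; ring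
  | succ M hM ih =>
    rw [Finset.sum_Ico_succ_top (Nat.zero_le M), ih, Finset.sum_Ico_succ_top hM]
    ring

theorem Wm_abs_le (hQ : IsProb Q) (hx : IsExpo x) {y : Ω → ℝ} {Y : ℝ} (hy : ∀ ω, |y ω| ≤ Y)
    {m : ℕ} (hm : m ≤ 𝓕.L) (ω : Ω) : |Wm Q 𝓕 x m y ω| ≤ 2 * Y := by
  have hY : 0 ≤ Y := (abs_nonneg _).trans (hy ω)
  unfold Wm
  have h1 : |∑ l ∈ Ico m 𝓕.L, (x (l + 1) - x l) * cE Q (𝓕.F l) y ω| ≤
      ∑ l ∈ Ico m 𝓕.L, (x (l + 1) - x l) * Y := by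
    refine (Finset.abs_sum_le_sum_abs _ _).trans (Finset.sum_le_sum fun l _ => ?_)
    have h0 : 0 ≤ x (l + 1) - x l := sub_nonneg.mpr (hx.mono (Nat.le_succ l))
    rw [abs_mul, abs_of_nonneg h0]
    exact mul_le_mul_of_nonneg_left (abs_cE_le_of_le hQ hy ω) h0
  have h2 : ∑ l ∈ Ico m 𝓕.L, (x (l + 1) - x l) * Y ≤ Y := by
    rw [← Finset.sum_mul, Finset.sum_Ico_sub x hm]
    have := hx.le_one 𝓕.L
    have := (hx.pos m).le
    nlinarith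
  calc |y ω - ∑ l ∈ Ico m 𝓕.L, (x (l + 1) - x l) * cE Q (𝓕.F l) y ω|
      ≤ |y ω| + |∑ l ∈ Ico m 𝓕.L, (x (l + 1) - x l) * cE Q (𝓕.F l) y ω| := abs_sub _ _
    _ ≤ Y + Y := add_le_add (hy ω) (h1.trans h2)
    _ = 2 * Y := by ring

theorem Wm_close (hQ : IsProb Q) (hx : IsExpo x) {V : Ω → ℝ} {a : ℝ} (ha1 : a ≤ 1)
    (hV : ∀ ω, |V ω| ≤ a) {y : Ω → ℝ} {Y : ℝ} (hy : ∀ ω, |y ω| ≤ Y) {m : ℕ} (hm : m ≤ 𝓕.L)
    (ω : Ω) : |Wm (tl Q 𝓕 x V) 𝓕 x m y ω - Wm Q 𝓕 x m y ω| ≤ 14 * Y * a := by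
  have hY : 0 ≤ Y := (abs_nonneg _).trans (hy ω)
  have ha0 : 0 ≤ a := (abs_nonneg _).trans (hV ω)
  unfold Wm
  have e : y ω - ∑ l ∈ Ico m 𝓕.L, (x (l + 1) - x l) * cE (tl Q 𝓕 x V) (𝓕.F l) y ω -
      (y ω - ∑ l ∈ Ico m 𝓕.L, (x (l + 1) - x l) * cE Q (𝓕.F l) y ω) =
      - ∑ l ∈ Ico m 𝓕.L, (x (l + 1) - x l) *
        (cE (tl Q 𝓕 x V) (𝓕.F l) y ω - cE Q (𝓕.F l) y ω) := by
    simp only [mul_sub, Finset.sum_sub_distrib]; ring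
  rw [e, abs_neg]
  calc |∑ l ∈ Ico m 𝓕.L, (x (l + 1) - x l) *
        (cE (tl Q 𝓕 x V) (𝓕.F l) y ω - cE Q (𝓕.F l) y ω)|
      ≤ ∑ l ∈ Ico m 𝓕.L, (x (l + 1) - x l) * (14 * Y * a) := by
        refine (Finset.abs_sum_le_sum_abs _ _).trans (Finset.sum_le_sum fun l _ => ?_)
        have h0 : 0 ≤ x (l + 1) - x l := sub_nonneg.mpr (hx.mono (Nat.le_succ l))
        rw [abs_mul, abs_of_nonneg h0]
        exact mul_le_mul_of_nonneg_left (cE_tl_close hQ hx ha1 hV hy l ω) h0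
    _ ≤ 1 * (14 * Y * a) := by
        rw [← Finset.sum_mul, Finset.sum_Ico_sub x hm]
        have := hx.le_one 𝓕.L
        have := (hx.pos m).le
        exact mul_le_mul_of_nonneg_right (by linarith) (by positivity)
    _ = _ := by ring

/-- the data of a coin `ε` flipped by `φ` and revealed at the step `m`. -/
structure Coin (Q : Ω → ℝ) (𝓕 : Filt Ω) (φ : Ω ≃ Ω) (ε : Ω → ℝ) (m : ℕ) : Prop where
  sym : IsSym Q 𝓕 φ
  sq : ∀ ω, ε ω * ε ω = 1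
  flip : ∀ ω, ε (φ ω) = - ε ω
  cls : ∀ k, k < m → ∀ ω, 𝓕.F k ω (φ ω)
  meas : ∀ k, m ≤ k → RMeas (𝓕.F k) ε
  one : 1 ≤ m
  le : m ≤ 𝓕.L

omit [Fintype Ω] in
theorem Coin.abs_aux {ε : Ω → ℝ} (h : ∀ ω, ε ω * ε ω = 1) (ω : Ω) : |ε ω| = 1 := by
  have h1 := h ω
  have h2 : |ε ω| * |ε ω| = 1 := by rw [← abs_mul, h1, abs_one]
  nlinarith [abs_nonneg (ε ω)]

omit [Fintype Ω] in
theorem Coin.abs [Fintype Ω] {φ : Ω ≃ Ω} {ε : Ω → ℝ} {m : ℕ} (h : Coin Q 𝓕 φ ε m) (ω : Ω) : |ε ω| = 1 :=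
  Coin.abs_aux h.sq ω

theorem Coin.tl (hQ : IsProb Q) (hx : ∀ k, 0 < x k) {φ : Ω ≃ Ω} {ε : Ω → ℝ} {m : ℕ}
    (h : Coin Q 𝓕 φ ε m) {U : Ω → ℝ} (hU : ∀ ω, U (φ ω) = U ω) :
    Coin (tl Q 𝓕 x U) 𝓕 φ ε m :=
  ⟨tl_sym hQ hx h.sym hU, h.sq, h.flip, h.cls, h.meas, h.one, h.le⟩

theorem Coin.cE_zero {φ : Ω ≃ Ω} {ε : Ω → ℝ} {m : ℕ} (h : Coin Q 𝓕 φ ε m) {y : Ω → ℝ}
    (hy : ∀ ω, y (φ ω) = y ω) {k : ℕ} (hk : k < m) (ω : Ω) :
    cE Q (𝓕.F k) (fun a => ε a * y a) ω = 0 := by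
  have h1 := cE_inv_cls h.sym (h.cls k hk) (fun a => ε a * y a) ω
  have h2 : (fun a => ε (φ a) * y (φ a)) = fun a => (-1) * (ε a * y a) := by
    funext a; rw [h.flip, hy]; ring
  rw [h2, cE_smul] at h1
  linarith

theorem Coin.eE_zero {φ : Ω ≃ Ω} {ε : Ω → ℝ} {m : ℕ} (h : Coin Q 𝓕 φ ε m) {y : Ω → ℝ}
    (hy : ∀ ω, y (φ ω) = y ω) : eE Q (fun a => ε a * y a) = 0 := by
  have h1 : eE Q (fun a => ε a * y a) = eE Q (fun a => ε (φ a) * y (φ a)) := by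
    unfold eE
    rw [← Equiv.sum_comp φ (fun a => Q a * (ε a * y a))]
    exact Finset.sum_congr rfl fun a _ => by rw [h.sym.law]
  have h2 : (fun a => ε (φ a) * y (φ a)) = fun a => (-1) * (ε a * y a) := by
    funext a; rw [h.flip, hy]; ring
  rw [h2, eE_smul] at h1
  linarith

/-- the score of `ε y` under a law for which the coin is free. -/
theorem Coin.score (hL : x 𝓕.L = 1) (hQ : IsProb Q) {φ : Ω ≃ Ω} {ε : Ω → ℝ} {m : ℕ}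
    (h : Coin Q 𝓕 φ ε m) {y : Ω → ℝ} (hy : ∀ ω, y (φ ω) = y ω) (ω : Ω) :
    score Q 𝓕 x 0 (fun a => ε a * y a) ω = ε ω * Wm Q 𝓕 x m y ω := by
  rw [score_eq_Ico, abel_from (x := x) (fun l => cE Q (𝓕.F l) (fun a => ε a * y a) ω) h.one
    (fun l hl => h.cE_zero hy hl ω) 𝓕.L h.le]
  have h1 : ∀ l, m ≤ l → cE Q (𝓕.F l) (fun a => ε a * y a) ω = ε ω * cE Q (𝓕.F l) y ω :=
    fun l hl => cE_mul_left (h.meas l hl) y ω
  have h2 : cE Q (𝓕.F 𝓕.L) y ω = y ω := by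
    rw [𝓕.bot 𝓕.L le_rfl, cE_bot hQ]
  show x 𝓕.L * cE Q (𝓕.F 𝓕.L) (fun a => ε a * y a) ω - _ = _
  rw [h1 𝓕.L h.le, h2, hL]
  unfold Wm
  rw [mul_sub, Finset.mul_sum, one_mul]
  congr 1
  refine Finset.sum_congr rfl fun l hl => ?_
  rw [h1 l (Finset.mem_Ico.mp hl).1]
  ring

/-- **Rademacher integration by parts**, one coin. -/
theorem ibp_one (hQ : IsProb Q) (hx : IsExpo x) (hL : x 𝓕.L = 1) {φ : Ω ≃ Ω} {ε : Ω → ℝ} {m : ℕ}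
    (h : Coin Q 𝓕 φ ε m) {y f : Ω → ℝ} (hy : ∀ ω, y (φ ω) = y ω) (hf : ∀ ω, f (φ ω) = f ω)
    {Y C δ : ℝ} (hyY : ∀ ω, |y ω| ≤ Y) (hfC : ∀ ω, |f ω| ≤ C) (hδ : 0 ≤ δ) (hδY : δ * Y ≤ 1)
    (hY : 0 ≤ Y) (hC : 0 ≤ C) :
    |eE (tl Q 𝓕 x (fun ω => δ * (ε ω * y ω))) (fun ω => ε ω * y ω * f ω) -
      δ * eE (tl Q 𝓕 x (fun ω => δ * (ε ω * y ω)))
        (fun ω => f ω * y ω * Wm (tl Q 𝓕 x (fun ω => δ * (ε ω * y ω))) 𝓕 x m y ω)| ≤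
      100 * δ ^ 2 * Y ^ 3 * C := by
  set V : Ω → ℝ := fun ω => ε ω * y ω with hV
  have hVabs : ∀ ω, |V ω| ≤ Y := fun ω => by
    rw [hV]; simp only [abs_mul, h.abs, one_mul]; exact hyY ω
  rcases hδ.eq_or_lt with h0 | hδ0
  · subst h0
    have e1 : (fun ω => (0:ℝ) * (ε ω * y ω)) = fun _ => (0:ℝ) := by funext; simp
    rw [e1, tl_const hQ hx.pos]
    have e2 : (fun ω => ε ω * y ω * f ω) = fun ω => ε ω * (y ω * f ω) := by funext; ring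
    rw [e2, h.eE_zero (y := fun ω => y ω * f ω) (fun ω => by rw [hy, hf])]
    simp
  -- mean value theorem
  have hder : ∀ e, HasDerivAt (fun t => eE (tl Q 𝓕 x (fun ω => t * V ω)) (fun ω => V ω * f ω))
      (eE (tl Q 𝓕 x (fun ω => e * V ω)) (fun w => V w * f w *
        score (tl Q 𝓕 x (fun ω => e * V ω)) 𝓕 x 0 V w)) e := by
    intro e
    have h1 := hasDerivAt_eE_tl (𝓕 := 𝓕) hQ hx.pos (U := fun t ω => t * V ω) (V := V) (e := e)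
      (fun a => by simpa using (hasDerivAt_id e).mul_const (V a)) (f := fun _ ω => V ω * f ω)
      (f' := fun _ => 0) (fun a => hasDerivAt_const e _)
    refine h1.congr_deriv ?_
    have : eE (tl Q 𝓕 x (fun ω => e * V ω)) (fun _ => (0:ℝ)) = 0 := by simp [eE]
    rw [this, zero_add]
  obtain ⟨ξ, hξ, hξ'⟩ := exists_hasDerivAt_eq_slope
    (fun t => eE (tl Q 𝓕 x (fun ω => t * V ω)) (fun ω => V ω * f ω)) _ hδ0
    (fun e _ => (hder e).continuousAt.continuousWithinAt) (fun e _ => hder e)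
  have hzero : eE (tl Q 𝓕 x (fun ω => (0:ℝ) * V ω)) (fun ω => V ω * f ω) = 0 := by
    have e1 : (fun ω => (0:ℝ) * V ω) = fun _ => (0:ℝ) := by funext; simp
    rw [e1, tl_const hQ hx.pos]
    have e2 : (fun ω => V ω * f ω) = fun ω => ε ω * (y ω * f ω) := by funext; rw [hV]; ring
    rw [e2]
    exact h.eE_zero (y := fun ω => y ω * f ω) (fun ω => by rw [hy, hf])
  have hmain : eE (tl Q 𝓕 x (fun ω => δ * V ω)) (fun ω => V ω * f ω) =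
      δ * eE (tl Q 𝓕 x (fun ω => ξ * V ω)) (fun w => V w * f w *
        score (tl Q 𝓕 x (fun ω => ξ * V ω)) 𝓕 x 0 V w) := by
    rw [hξ', hzero]
    field_simp
    ring
  -- estimates
  set a := δ * Y with ha
  have ha0 : 0 ≤ a := by positivity
  have hVξ : ∀ ω, |ξ * V ω| ≤ a := fun ω => by
    rw [abs_mul, abs_of_pos hξ.1]
    exact mul_le_mul hξ.2.le (hVabs ω) (abs_nonneg _) hδ
  have hVδ : ∀ ω, |δ * V ω| ≤ a := fun ω => by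
    rw [abs_mul, abs_of_pos hδ0]
    exact mul_le_mul le_rfl (hVabs ω) (abs_nonneg _) hδ
  have hPξ : IsProb (tl Q 𝓕 x (fun ω => ξ * V ω)) := tl_isProb hQ hx.pos _
  have hPδ : IsProb (tl Q 𝓕 x (fun ω => δ * V ω)) := tl_isProb hQ hx.pos _
  -- step 1: replace the score
  have s1 : |eE (tl Q 𝓕 x (fun ω => ξ * V ω)) (fun w => V w * f w *
        score (tl Q 𝓕 x (fun ω => ξ * V ω)) 𝓕 x 0 V w) -
      eE (tl Q 𝓕 x (fun ω => ξ * V ω)) (fun w => V w * f w * score Q 𝓕 x 0 V w)| ≤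
      Y * C * (28 * Y * a) := by
    rw [← eE_sub]
    refine (eE_abs_le hPξ _).trans ((eE_mono hPξ (g := fun _ => Y * C * (28 * Y * a)) fun w => ?_).trans_eq
      (eE_const hPξ _))
    rw [← mul_sub, abs_mul, abs_mul]
    have h1 := score_close (𝓕 := 𝓕) hQ hx hδY hVξ hVabs w
    have h2 := hVabs w
    have h3 := hfC w
    gcongr
  have e2 : (fun w => V w * f w * score Q 𝓕 x 0 V w) =
      fun w => f w * y w * Wm Q 𝓕 x m y w := by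
    funext w
    rw [hV, h.score hL hQ hy w]
    have := h.sq w
    linear_combination (y w * f w * Wm Q 𝓕 x m y w) * this
  rw [e2] at s1
  have hb : ∀ w, |f w * y w * Wm Q 𝓕 x m y w| ≤ C * Y * (2 * Y) := fun w => by
    rw [abs_mul, abs_mul]
    have h1 := Wm_abs_le (𝓕 := 𝓕) hQ hx hyY h.le w
    have h2 := hyY w
    have h3 := hfC w
    gcongr
  have s2 := eE_tl_close (𝓕 := 𝓕) hQ hx hδY ha0 hVξ hb
  have s3 := eE_tl_close (𝓕 := 𝓕) hQ hx hδY ha0 hVδ hb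
  have s4 : |eE (tl Q 𝓕 x (fun ω => δ * V ω)) (fun w => f w * y w * Wm Q 𝓕 x m y w) -
      eE (tl Q 𝓕 x (fun ω => δ * V ω)) (fun w => f w * y w *
        Wm (tl Q 𝓕 x (fun ω => δ * V ω)) 𝓕 x m y w)| ≤ C * Y * (14 * Y * a) := by
    rw [← eE_sub]
    refine (eE_abs_le hPδ _).trans ((eE_mono hPδ (g := fun _ => C * Y * (14 * Y * a)) fun w => ?_).trans_eq
      (eE_const hPδ _))
    rw [← mul_sub, abs_mul, abs_mul, abs_sub_comm]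
    have h1 := Wm_close (𝓕 := 𝓕) hQ hx hδY hVδ hyY h.le w
    have h2 := hyY w
    have h3 := hfC w
    gcongr
  rw [hmain, ← mul_sub, abs_mul, abs_of_pos hδ0]
  have htot : |eE (tl Q 𝓕 x (fun ω => ξ * V ω)) (fun w => V w * f w *
        score (tl Q 𝓕 x (fun ω => ξ * V ω)) 𝓕 x 0 V w) -
      eE (tl Q 𝓕 x (fun ω => δ * V ω)) (fun w => f w * y w *
        Wm (tl Q 𝓕 x (fun ω => δ * V ω)) 𝓕 x m y w)| ≤ 98 * Y ^ 2 * C * a := by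
    rw [abs_le] at s1 s2 s3 s4 ⊢
    constructor <;> nlinarith
  calc δ * _ ≤ δ * (98 * Y ^ 2 * C * a) := mul_le_mul_of_nonneg_left htot hδ
    _ = 98 * δ ^ 2 * Y ^ 3 * C := by rw [ha]; ring
    _ ≤ 100 * δ ^ 2 * Y ^ 3 * C := by
        have : 0 ≤ δ ^ 2 * Y ^ 3 * C := by positivity
        nlinarith

/-- **Rademacher integration by parts** for the normalised sum `z = n^{-1/2} ∑ ε_j` of `n` coins, all
revealed at the step `m`, entering the log-weight `U` through `b z y`. -/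
theorem ibp_field (hQ : IsProb Q) (hx : IsExpo x) (hL : x 𝓕.L = 1) {n : ℕ} (hn : 0 < n)
    {φ : Fin n → Ω ≃ Ω} {ε : Fin n → Ω → ℝ} {m : ℕ} (hc : ∀ j, Coin Q 𝓕 (φ j) (ε j) m)
    {U y f : Ω → ℝ} {b Y C : ℝ} (hb : 0 ≤ b)
    (hU : ∀ j ω, U (φ j ω) - b / Real.sqrt n * (ε j (φ j ω) * y (φ j ω)) =
      U ω - b / Real.sqrt n * (ε j ω * y ω))
    (hy : ∀ j ω, y (φ j ω) = y ω) (hf : ∀ j ω, f (φ j ω) = f ω)
    (hyY : ∀ ω, |y ω| ≤ Y) (hfC : ∀ ω, |f ω| ≤ C) (hbY : b / Real.sqrt n * Y ≤ 1)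
    (hY : 0 ≤ Y) (hC : 0 ≤ C) :
    |eE (tl Q 𝓕 x U) (fun ω => ((Real.sqrt n)⁻¹ * ∑ j, ε j ω) * y ω * f ω) -
      b * eE (tl Q 𝓕 x U) (fun ω => f ω * y ω * Wm (tl Q 𝓕 x U) 𝓕 x m y ω)| ≤
      100 * b ^ 2 * Y ^ 3 * C / Real.sqrt n := by
  have hn' : (0:ℝ) < Real.sqrt n := Real.sqrt_pos.mpr (by exact_mod_cast hn)
  have hsq : Real.sqrt n * Real.sqrt n = n := Real.mul_self_sqrt (Nat.cast_nonneg n)
  generalize Real.sqrt n = r at *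
  set δ := b / r with hδ
  have hδ0 : 0 ≤ δ := by positivity
  set P := tl Q 𝓕 x U with hPdef
  set Ψ := eE P (fun ω => f ω * y ω * Wm P 𝓕 x m y ω) with hΨ
  have hone : ∀ j, |eE P (fun ω => ε j ω * y ω * f ω) - δ * Ψ| ≤ 100 * δ ^ 2 * Y ^ 3 * C := by
    intro j
    have hUj : ∀ ω, (fun ω => U ω - δ * (ε j ω * y ω)) (φ j ω) =
        (fun ω => U ω - δ * (ε j ω * y ω)) ω := fun ω => hU j ω
    have hQj : IsProb (tl Q 𝓕 x (fun ω => U ω - δ * (ε j ω * y ω))) := tl_isProb hQ hx.pos _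
    have h1 := ibp_one hQj hx hL ((hc j).tl hQ hx.pos hUj) (hy j) (hf j) hyY hfC hδ0 hbY hY hC
    have h2 : tl (tl Q 𝓕 x (fun ω => U ω - δ * (ε j ω * y ω))) 𝓕 x
        (fun ω => δ * (ε j ω * y ω)) = P := by
      rw [← tl_add hQ hx.pos]
      congr 1
      funext ω; ring
    rw [h2] at h1
    exact h1
  have e1 : eE P (fun ω => (r⁻¹ * ∑ j, ε j ω) * y ω * f ω) =
      r⁻¹ * ∑ j, eE P (fun ω => ε j ω * y ω * f ω) := by
    rw [← eE_sum, ← eE_smul]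
    congr 1
    funext ω
    rw [mul_assoc, mul_assoc, Finset.sum_mul]
    congr 1
    exact Finset.sum_congr rfl fun j _ => by ring
  have e2 : b * Ψ = r⁻¹ * ∑ _j : Fin n, δ * Ψ := by
    rw [Finset.sum_const, Finset.card_univ, Fintype.card_fin, nsmul_eq_mul, hδ]
    rw [← hsq]
    field_simp
  rw [e1, e2, ← mul_sub, ← Finset.sum_sub_distrib, abs_mul, abs_of_pos (inv_pos.mpr hn')]
  calc r⁻¹ * |∑ j, (eE P (fun ω => ε j ω * y ω * f ω) - δ * Ψ)|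
      ≤ r⁻¹ * ∑ _j : Fin n, 100 * δ ^ 2 * Y ^ 3 * C := by
        gcongr
        exact (Finset.abs_sum_le_sum_abs _ _).trans (Finset.sum_le_sum fun j _ => hone j)
    _ = 100 * b ^ 2 * Y ^ 3 * C / r := by
        rw [Finset.sum_const, Finset.card_univ, Fintype.card_fin, nsmul_eq_mul, hδ, ← hsq]
        field_simp

end

end Crest.Agent.R164.Ibp
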