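import Mathlib.Analysis.Convex.Function
import Mathlib.Tactic

/-!
# Row 164, L side: genericity of the parameters on a finite grid (abstract part of LSTRUCT-2)

The parameters `θ : C → ℝ` run over the finite grid `pt θ0 y i`, `i : C → Fin I`.
Averages over the grid of second differences telescope.  Slope inequalities of convex functions
give the comparison of the derivatives of two close functions.
-/

namespace Crest.Agent.R164.LGrid

open Finset

variable {C : Type*} [Fintype C] [DecidableEq C]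

/-- Average over the grid `C → Fin I`. -/
noncomputable def gavg (I : ℕ) (f : (C → Fin I) → ℝ) : ℝ :=
  ((I : ℝ) ^ Fintype.card C)⁻¹ * ∑ i, f i

theorem gavg_mono {I : ℕ} {f g : (C → Fin I) → ℝ} (h : ∀ i, f i ≤ g i) : gavg I f ≤ gavg I g := by
  unfold gavg
  exact mul_le_mul_of_nonneg_left (Finset.sum_le_sum fun i _ => h i) (by positivity)

theorem gavg_nonneg {I : ℕ} {f : (C → Fin I) → ℝ} (h : ∀ i, 0 ≤ f i) : 0 ≤ gavg I f := by
  unfold gavg
  exact mul_nonneg (by positivity) (Finset.sum_nonneg fun i _ => h i)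

theorem gavg_add {I : ℕ} (f g : (C → Fin I) → ℝ) :
    gavg I (fun i => f i + g i) = gavg I f + gavg I g := by
  unfold gavg
  rw [Finset.sum_add_distrib]; ring

theorem gavg_mul {I : ℕ} (c : ℝ) (f : (C → Fin I) → ℝ) :
    gavg I (fun i => c * f i) = c * gavg I f := by
  unfold gavg
  rw [← Finset.mul_sum]; ring

theorem gavg_sum {I : ℕ} {α : Type*} (s : Finset α) (f : α → (C → Fin I) → ℝ) :
    gavg I (fun i => ∑ a ∈ s, f a i) = ∑ a ∈ s, gavg I (f a) := by
  unfold gavg
  rw [Finset.sum_comm, Finset.mul_sum]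

theorem card_grid (I : ℕ) : ((Fintype.card (C → Fin I) : ℕ) : ℝ) = (I : ℝ) ^ Fintype.card C := by
  simp

theorem gavg_const {I : ℕ} (hI : 0 < I) (c : ℝ) : gavg (C := C) I (fun _ => c) = c := by
  unfold gavg
  have h : ∑ _i : C → Fin I, c = (I : ℝ) ^ Fintype.card C * c := by
    rw [Finset.sum_const, nsmul_eq_mul, Finset.card_univ, card_grid]
  rw [h, ← mul_assoc, inv_mul_cancel₀, one_mul]
  have : (0 : ℝ) < I := by exact_mod_cast hI
  positivity

/-- The resampling permutation `(i, r) ↦ (update i c r, i c)`. -/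
def rs (I : ℕ) (c : C) : Equiv.Perm ((C → Fin I) × Fin I) :=
  Function.Involutive.toPerm (fun x => (Function.update x.1 c x.2, x.1 c)) (by
    rintro ⟨i, r⟩
    ext1
    · simp
    · simp)

theorem sum_resample {I : ℕ} (c : C) (f : (C → Fin I) → ℝ) :
    ∑ i, ∑ r : Fin I, f (Function.update i c r) = (I : ℝ) * ∑ i, f i := by
  have h1 : ∑ x : (C → Fin I) × Fin I, f (Function.update x.1 c x.2)
      = ∑ x : (C → Fin I) × Fin I, f x.1 :=
    Fintype.sum_equiv (rs I c) _ _ (fun x => rfl)
  rw [← Fintype.sum_prod_type' (fun i r => f (Function.update i c r)), h1,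
    Fintype.sum_prod_type' (fun i (_ : Fin I) => f i)]
  simp [Finset.mul_sum]

/-- Resampling one coordinate does not change the grid average. -/
theorem gavg_resample {I : ℕ} (hI : 0 < I) (c : C) (f : (C → Fin I) → ℝ) :
    gavg I f = gavg I (fun i => (I : ℝ)⁻¹ * ∑ r : Fin I, f (Function.update i c r)) := by
  have hI' : (I : ℝ) ≠ 0 := by exact_mod_cast hI.ne'
  unfold gavg
  rw [← Finset.mul_sum, sum_resample]
  field_simp

/-- The grid point. -/
def pt {I : ℕ} (θ0 y : C → ℝ) (i : C → Fin I) : C → ℝ := fun c => θ0 c + ((i c : ℕ) + 1 : ℝ) * y c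

omit [Fintype C] in
theorem pt_update {I : ℕ} (θ0 y : C → ℝ) (i : C → Fin I) (c : C) (r : Fin I) :
    pt θ0 y (Function.update i c r)
      = Function.update (pt θ0 y i) c (θ0 c + ((r : ℕ) + 1 : ℝ) * y c) := by
  funext d
  by_cases hd : d = c
  · subst hd; simp [pt]
  · simp [pt, hd]

/-- Shift of one coordinate. -/
def sh (θ : C → ℝ) (c : C) (u : ℝ) : C → ℝ := Function.update θ c (θ c + u)

omit [Fintype C] in
theorem sh_zero (θ : C → ℝ) (c : C) : sh θ c 0 = θ := by
  funext d
  by_cases hd : d = c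
  · subst hd; simp [sh]
  · simp [sh, hd]

omit [Fintype C] in
theorem sh_self (θ : C → ℝ) (c : C) (u : ℝ) : sh θ c u c = θ c + u := by simp [sh]

omit [Fintype C] in
theorem sh_other (θ : C → ℝ) {c d : C} (u : ℝ) (h : d ≠ c) : sh θ c u d = θ d := by simp [sh, h]

/-- Second difference of `φ` in the coordinate `c`, step `u`. -/
noncomputable def SD (φ : (C → ℝ) → ℝ) (θ : C → ℝ) (c : C) (u : ℝ) : ℝ :=
  φ (sh θ c u) + φ (sh θ c (-u)) - 2 * φ θ

theorem tele2 (f : ℕ → ℝ) (I : ℕ) :
    ∑ r : Fin I, (f (r + 2) + f r - 2 * f (r + 1)) = (f (I + 1) - f I) - (f 1 - f 0) := by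
  rw [Fin.sum_univ_eq_sum_range (fun r => f (r + 2) + f r - 2 * f (r + 1)) I]
  induction I with
  | zero => simp
  | succ n ih =>
    rw [Finset.sum_range_succ, ih]; ring

omit [Fintype C] in
/-- One coordinate: the average of the second differences along the grid. -/
theorem sum_SD_line {I : ℕ} (φ : (C → ℝ) → ℝ) (θ0 y : C → ℝ) (i : C → Fin I) (c : C) :
    ∑ r : Fin I, SD φ (pt θ0 y (Function.update i c r)) c (y c)
      = (φ (Function.update (pt θ0 y i) c (θ0 c + ((I : ℕ) + 1 : ℝ) * y c))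
          - φ (Function.update (pt θ0 y i) c (θ0 c + (I : ℝ) * y c)))
        - (φ (Function.update (pt θ0 y i) c (θ0 c + y c))
          - φ (Function.update (pt θ0 y i) c (θ0 c))) := by
  set f : ℕ → ℝ := fun n => φ (Function.update (pt θ0 y i) c (θ0 c + (n : ℝ) * y c)) with hf
  have h := tele2 f I
  have h0 : ∀ r : Fin I, SD φ (pt θ0 y (Function.update i c r)) c (y c)
      = f (r + 2) + f r - 2 * f (r + 1) := by
    intro r
    have e1 : pt θ0 y (Function.update i c r)
        = Function.update (pt θ0 y i) c (θ0 c + (((r : ℕ) + 1 : ℕ) : ℝ) * y c) := by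
      rw [pt_update]; push_cast; rfl
    have e2 : sh (pt θ0 y (Function.update i c r)) c (y c)
        = Function.update (pt θ0 y i) c (θ0 c + (((r : ℕ) + 2 : ℕ) : ℝ) * y c) := by
      rw [e1]; unfold sh
      rw [Function.update_idem, Function.update_self]
      congr 1; push_cast; ring
    have e3 : sh (pt θ0 y (Function.update i c r)) c (-y c)
        = Function.update (pt θ0 y i) c (θ0 c + ((r : ℕ) : ℝ) * y c) := by
      rw [e1]; unfold sh
      rw [Function.update_idem, Function.update_self]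
      congr 1; push_cast; ring
    unfold SD
    rw [e2, e3, e1]
  rw [Finset.sum_congr rfl fun r _ => h0 r, h]
  simp only [hf]
  push_cast
  congr 3 <;> simp

/-- **Grid genericity.**  If the first differences of `φ` in the direction `c` are at most `L * y c`
in absolute value, the average over the grid of the second differences is at most `2 L y_c / I`. -/
theorem gavg_SD_le {I : ℕ} (hI : 0 < I) (φ : (C → ℝ) → ℝ) (θ0 y : C → ℝ) (c : C) {L : ℝ}
    (hL : ∀ i : C → Fin I, ∀ n : ℕ, n ≤ I →
      |φ (Function.update (pt θ0 y i) c (θ0 c + ((n : ℝ) + 1) * y c))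
        - φ (Function.update (pt θ0 y i) c (θ0 c + (n : ℝ) * y c))| ≤ L * y c) :
    gavg I (fun i => SD φ (pt θ0 y i) c (y c)) ≤ 2 * L * y c / I := by
  have hI' : (0 : ℝ) < I := by exact_mod_cast hI
  rw [gavg_resample hI c]
  calc gavg I (fun i => (I : ℝ)⁻¹ * ∑ r : Fin I, SD φ (pt θ0 y (Function.update i c r)) c (y c))
      ≤ gavg (C := C) I (fun _ => 2 * L * y c / I) := by
        refine gavg_mono fun i => ?_
        rw [sum_SD_line]
        have h1 := hL i I le_rfl
        have h2 := hL i 0 (Nat.zero_le _)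
        have h3 := (abs_le.1 h1).2
        have h4 := (abs_le.1 h2).1
        simp only [Nat.cast_zero, zero_mul, add_zero, zero_add, one_mul] at h4
        rw [div_eq_inv_mul]
        refine mul_le_mul_of_nonneg_left ?_ (by positivity)
        linarith
    _ = 2 * L * y c / I := gavg_const hI _

/-- All coordinates at once, normalised by the steps. -/
theorem gavg_sum_SD_le {I : ℕ} (hI : 0 < I) (φ : (C → ℝ) → ℝ) (θ0 y : C → ℝ) (hy : ∀ c, 0 < y c)
    {L : C → ℝ}
    (hL : ∀ c, ∀ i : C → Fin I, ∀ n : ℕ, n ≤ I →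
      |φ (Function.update (pt θ0 y i) c (θ0 c + ((n : ℝ) + 1) * y c))
        - φ (Function.update (pt θ0 y i) c (θ0 c + (n : ℝ) * y c))| ≤ L c * y c) :
    gavg I (fun i => ∑ c, SD φ (pt θ0 y i) c (y c) / y c) ≤ (∑ c, 2 * L c) / I := by
  rw [gavg_sum, Finset.sum_div]
  refine Finset.sum_le_sum fun c _ => ?_
  have h := gavg_SD_le hI φ θ0 y c (hL c)
  have e : gavg I (fun i => SD φ (pt θ0 y i) c (y c) / y c)
      = (y c)⁻¹ * gavg I (fun i => SD φ (pt θ0 y i) c (y c)) := by
    rw [← gavg_mul]; congr 1; funext i; rw [div_eq_inv_mul]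
  rw [e]
  have hyc := hy c
  calc (y c)⁻¹ * gavg I (fun i => SD φ (pt θ0 y i) c (y c))
      ≤ (y c)⁻¹ * (2 * L c * y c / I) := mul_le_mul_of_nonneg_left h (by positivity)
    _ = 2 * L c / I := by field_simp

/-- **Comparison of slopes.**  `f'`, `g'` are subgradients at `0` of the functions with values
`fm, f0, fp` and `gm, g0, gp` at `-u, 0, u`. -/
theorem slope_compare {u fm f0 fp gm g0 gp f' g' ε : ℝ} (hu : 0 < u)
    (hf1 : u * f' ≤ fp - f0) (hf2 : f0 - fm ≤ u * f')
    (hg1 : u * g' ≤ gp - g0) (hg2 : g0 - gm ≤ u * g')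
    (hm : |fm - gm| ≤ ε) (h0 : |f0 - g0| ≤ ε) (hp : |fp - gp| ≤ ε) :
    |f' - g'| ≤ (fp + fm - 2 * f0) / u + 2 * ε / u := by
  have a1 := abs_le.1 hm
  have a2 := abs_le.1 h0
  have a3 := abs_le.1 hp
  rw [← add_div, le_div_iff₀ hu]
  have e : |f' - g'| * u = |(f' - g') * u| := by rw [abs_mul, abs_of_pos hu]
  rw [e, abs_le]
  constructor <;> nlinarith

end Crest.Agent.R164.LGrid
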