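import Crest.Agent.R164.GSpin
import Crest.Agent.R164.ObsFin
import Crest.Agent.R164.LGrid

/-!
# Row 164, module LSTRUCT-2, part A

Averaged concentration of an observable `V` of the base configuration under the laws `PP B (H U) d`
from the second difference of the averaged free energy in the direction `V`
(`ObsFin.obs_pt`, averaged over the disorder `U` and over `d`), and the slope inequalities.
-/

set_option autoImplicit false
set_option linter.unusedSectionVars false
set_option linter.unusedVariables false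

namespace Crest.Agent.R164.LS2

open Finset MeasureTheory Crest.Agent.R141 Crest.Agent.R164 Crest.Agent.R164.ObsConc
open Crest.Agent.R164.G (Base prior_isProb)

noncomputable section

variable {p : Par} {N : ℕ} (B : Base p N) {Θ : Type*} [MeasurableSpace Θ] (ν : Measure Θ)
  [IsProbabilityMeasure ν]

/-- the family `H + s V`. -/
def hs (H V : Θ → B.S → ℝ) (s : ℝ) (U : Θ) (b : B.S) : ℝ := H U b + s * V U b

/-- double average over `d` and over the disorder. -/
def dv (f : DD p N → Θ → ℝ) : ℝ := Ed p N (fun d => ∫ U, f d U ∂ν)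

/-- the averaged free energy. -/
def FF (H : Θ → B.S → ℝ) : ℝ := dv ν (fun d U => G.Phi B (H U) d)

/-- A bounded measurable family of Hamiltonians. -/
structure Adm (H : Θ → B.S → ℝ) : Prop where
  meas : ∀ b, Measurable fun U => H U b
  bdd : ∃ K, ∀ᵐ U ∂ν, ∀ b, |H U b| ≤ K

variable {B ν}

omit [IsProbabilityMeasure ν] in
theorem Adm.hs {H V : Θ → B.S → ℝ} (hH : Adm B ν H) (hV : Adm B ν V) (s : ℝ) :
    Adm B ν (hs B H V s) := by
  obtain ⟨K, hK⟩ := hH.bdd
  obtain ⟨K', hK'⟩ := hV.bdd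
  refine ⟨fun b => (hH.meas b).add ((hV.meas b).const_mul s), K + |s| * K', ?_⟩
  filter_upwards [hK, hK'] with U h1 h2 b
  have e : |s * V U b| ≤ |s| * K' := by
    rw [abs_mul]; exact mul_le_mul_of_nonneg_left (h2 b) (abs_nonneg s)
  exact (abs_add_le _ _).trans (add_le_add (h1 b) e)

theorem hs_zero (H V : Θ → B.S → ℝ) : hs B H V 0 = H := by
  funext U b; simp [hs]

theorem UU_hs (H V : Θ → B.S → ℝ) (s : ℝ) (U : Θ) (d : DD p N) :
    G.UU B (hs B H V s U) d = fun ω => G.UU B (H U) d ω + s * V U ω.1 := by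
  funext ω; unfold G.UU hs; ring

/-- the free energy of `H + sV` as the function `gA`. -/
theorem gA_eq (H V : Θ → B.S → ℝ) (s : ℝ) (U : Θ) (d : DD p N) :
    gA (G.prior B) (G.fil B) p.xs (G.UU B (H U) d) (fun ω => V U ω.1) s = G.Phi B (hs B H V s U) d := by
  unfold gA G.Phi
  rw [UU_hs]

theorem eE_A0 (H : Θ → B.S → ℝ) (U : Θ) (d : DD p N) :
    eE (G.prior B) (A (G.prior B) (G.fil B) p.xs (G.UU B (H U) d) 0) = G.Phi B (H U) d := rfl

/-! ### Integrability -/

theorem abs_eE_le {Ω : Type*} [Fintype Ω] {P : Ω → ℝ} (hP : IsProb P) {f : Ω → ℝ} {K : ℝ}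
    (h : ∀ ω, |f ω| ≤ K) : |eE P f| ≤ K := by
  refine (eE_abs_le hP f).trans ?_
  calc eE P (fun ω => |f ω|) ≤ eE P (fun _ => K) := eE_mono hP h
    _ = K := eE_const hP K

theorem WW_bdd (B : Base p N) (d : DD p N) : ∃ C, ∀ ω, |G.WW B d ω| ≤ C := by
  refine ⟨∑ ω, |G.WW B d ω|, fun ω => ?_⟩
  exact Finset.single_le_sum (f := fun ω => |G.WW B d ω|) (fun _ _ => abs_nonneg _)
    (Finset.mem_univ ω)

theorem meas_Phi {H : Θ → B.S → ℝ} (hH : ∀ b, Measurable fun U => H U b) (d : DD p N) :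
    Measurable fun U => G.Phi B (H U) d := by
  unfold G.Phi
  exact G.meas_eE (fun _ => measurable_const)
    (fun ω => G.meas_A (prior_isProb B) p.xs_expo.pos (fun ω => G.meas_UU B hH d ω) 0 ω)

theorem Adm.int_Phi {H : Θ → B.S → ℝ} (hH : Adm B ν H) (d : DD p N) :
    Integrable (fun U => G.Phi B (H U) d) ν := by
  obtain ⟨K, hK⟩ := hH.bdd
  obtain ⟨C, hC⟩ := WW_bdd B d
  refine Integrable.of_bound (meas_Phi hH.meas d).aestronglyMeasurable (K + C) ?_
  filter_upwards [hK] with U h1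
  rw [Real.norm_eq_abs]
  unfold G.Phi
  refine abs_eE_le (prior_isProb B) ?_
  intro ω
  refine A_abs_le (prior_isProb B) p.xs_expo.pos (fun ω => ?_) 0 ω
  exact (abs_add_le _ _).trans (add_le_add (h1 _) (hC _))

theorem Adm.int_obs {H V : Θ → B.S → ℝ} (hH : Adm B ν H) (hV : Adm B ν V) (d : DD p N) :
    Integrable (fun U => eE (G.PP B (H U) d) (fun ω => V U ω.1)) ν := by
  obtain ⟨K, hK⟩ := hV.bdd
  refine Integrable.of_bound (G.meas_eE (fun ω => G.meas_PP B hH.meas d ω)
    (fun ω => hV.meas ω.1)).aestronglyMeasurable K ?_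
  filter_upwards [hK] with U h1
  rw [Real.norm_eq_abs]
  exact abs_eE_le (G.PP_isProb B _ _) fun ω => h1 _

theorem Adm.int_obs_abs {H V : Θ → B.S → ℝ} (hH : Adm B ν H) (hV : Adm B ν V) (d : DD p N)
    (c : ℝ) : Integrable (fun U => eE (G.PP B (H U) d) (fun ω => |V U ω.1 - c|)) ν := by
  have h : Adm B ν (fun U b => |V U b - c|) := by
    obtain ⟨K, hK⟩ := hV.bdd
    refine ⟨fun b => ((hV.meas b).sub_const c).abs, K + |c|, ?_⟩
    filter_upwards [hK] with U h1 b
    rw [abs_abs]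
    exact (abs_sub _ _).trans (add_le_add (h1 b) le_rfl)
  exact hH.int_obs h d

/-! ### The double average -/

omit [IsProbabilityMeasure ν] in
theorem dv_add {f g : DD p N → Θ → ℝ} (hf : ∀ d, Integrable (f d) ν)
    (hg : ∀ d, Integrable (g d) ν) : dv ν (fun d U => f d U + g d U) = dv ν f + dv ν g := by
  unfold dv Ed
  rw [← Finset.sum_add_distrib]
  refine Finset.sum_congr rfl fun d _ => ?_
  show dw p N d * (∫ U, (f d U + g d U) ∂ν) = dw p N d * (∫ U, f d U ∂ν) + dw p N d * ∫ U, g d U ∂ν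
  rw [integral_add (hf d) (hg d)]; ring

omit [IsProbabilityMeasure ν] in
theorem dv_smul (c : ℝ) (f : DD p N → Θ → ℝ) : dv ν (fun d U => c * f d U) = c * dv ν f := by
  unfold dv Ed
  rw [Finset.mul_sum]
  refine Finset.sum_congr rfl fun d _ => ?_
  show dw p N d * (∫ U, c * f d U ∂ν) = c * (dw p N d * ∫ U, f d U ∂ν)
  rw [integral_const_mul]; ring

theorem dv_const (hN : 0 < N) (c : ℝ) : dv (p := p) (N := N) ν (fun _ _ => c) = c := by
  unfold dv Ed
  simp only [integral_const, probReal_univ, one_smul]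
  rw [← Finset.sum_mul, dw_sum p hN, one_mul]

omit [IsProbabilityMeasure ν] in
theorem dv_mono {f g : DD p N → Θ → ℝ} (hf : ∀ d, Integrable (f d) ν)
    (hg : ∀ d, Integrable (g d) ν) (h : ∀ d U, f d U ≤ g d U) : dv ν f ≤ dv ν g := by
  unfold dv Ed
  exact Finset.sum_le_sum fun d _ => mul_le_mul_of_nonneg_left
    (integral_mono (hf d) (hg d) (h d)) (dw_nonneg p N d)

omit [IsProbabilityMeasure ν] in
theorem dv_nonneg {f : DD p N → Θ → ℝ} (h : ∀ d U, 0 ≤ f d U) : 0 ≤ dv ν f := by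
  unfold dv Ed
  exact Finset.sum_nonneg fun d _ => mul_nonneg (dw_nonneg p N d) (integral_nonneg (h d))

/-! ### Slopes -/

/-- mean of the observable -/
def mV (ν : Measure Θ) (H V : Θ → B.S → ℝ) : ℝ :=
  dv ν (fun d U => eE (G.PP B (H U) d) (fun ω => V U ω.1))

theorem slope (hB0 : B.SF 0 = ⊤) {H V : Θ → B.S → ℝ} (hH : Adm B ν H) (hV : Adm B ν V) (y : ℝ) :
    y * mV ν H V ≤ FF B ν (hs B H V y) - FF B ν H := by
  have hF0 : (G.fil B).F 0 = ⊤ := G.fil_zero B hB0
  have h1 : ∀ (d : DD p N) U, y * eE (G.PP B (H U) d) (fun ω => V U ω.1) ≤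
      G.Phi B (hs B H V y U) d + (-1) * G.Phi B (H U) d := by
    intro d U
    have h := gA_sub_pt (𝓕 := G.fil B) (prior_isProb B) p.xs_expo.pos hF0 (G.UU B (H U) d)
      (fun ω => V U ω.1) y
    rw [gA_eq, eE_A0] at h
    unfold G.PP
    linarith
  have a1 : ∀ d : DD p N, Integrable (fun U => G.Phi B (hs B H V y U) d) ν :=
    fun d => (hH.hs hV y).int_Phi d
  have a2 : ∀ d : DD p N, Integrable (fun U => (-1) * G.Phi B (H U) d) ν :=
    fun d => (hH.int_Phi d).const_mul (-1)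
  have h2 := dv_mono (ν := ν) (fun d => (hH.int_obs hV d).const_mul y)
    (fun d => (a1 d).add (a2 d)) h1
  have e1 := dv_add (ν := ν) a1 a2
  have e2 : dv ν (fun (d : DD p N) U => (-1) * G.Phi B (H U) d) =
    (-1) * dv ν (fun (d : DD p N) U => G.Phi B (H U) d) := dv_smul _ _
  rw [dv_smul] at h2
  have h3 := h2.trans_eq (e1.trans (by rw [e2]))
  unfold mV FF
  linarith

theorem hs_neg_hs (H V : Θ → B.S → ℝ) (y : ℝ) : hs B H V (-y) = hs B H (fun U b => - V U b) y := by
  funext U b; unfold hs; ring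

/-! ### Averaged concentration -/

/-- averaged fluctuation of the free energy -/
def fluc (ν : Measure Θ) (H : Θ → B.S → ℝ) : ℝ :=
  dv ν (fun d U => |G.Phi B (H U) d - FF B ν H|)

/-- **Averaged concentration of an observable from the second difference.** -/
theorem conc_dir (hB0 : B.SF 0 = ⊤) (hN : 0 < N) {H V : Θ → B.S → ℝ} (hH : Adm B ν H)
    (hV : Adm B ν V) {y : ℝ} (hy : 0 < y) :
    y * dv ν (fun d U => eE (G.PP B (H U) d) (fun ω => |V U ω.1 - mV ν H V|)) ≤
      2 * (FF B ν (hs B H V y) + FF B ν (hs B H V (-y)) - 2 * FF B ν H) +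
        2 * fluc ν (hs B H V y) + 2 * fluc ν (hs B H V (-y)) + 4 * fluc ν H +
        Real.log 2 * ((p.nc : ℝ) + 1) := by
  have hF0 : (G.fil B).F 0 = ⊤ := G.fil_zero B hB0
  have hs1 := slope hB0 hH hV y
  have hs2 := slope hB0 hH hV (-y)
  set c := mV ν H V with hc
  have hp := hH.hs hV y
  have hm := hH.hs hV (-y)
  have ia : ∀ {K : Θ → B.S → ℝ} (_ : Adm B ν K) (f : ℝ) (d : DD p N),
      Integrable (fun U => |G.Phi B (K U) d - f|) ν := fun hG f d =>
    ((hG.int_Phi d).sub (integrable_const f)).abs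
  have h1 : ∀ (d : DD p N) U,
      y * eE (G.PP B (H U) d) (fun ω => |V U ω.1 - c|) ≤
      ((2 * (FF B ν (hs B H V y) + FF B ν (hs B H V (-y)) - 2 * FF B ν H) +
        Real.log 2 * ((p.nc : ℝ) + 1)) +
        2 * |G.Phi B (hs B H V y U) d - FF B ν (hs B H V y)|) +
        (2 * |G.Phi B (hs B H V (-y) U) d - FF B ν (hs B H V (-y))| +
        4 * |G.Phi B (H U) d - FF B ν H|) := by
    intro d U
    have h := obs_pt (𝓕 := G.fil B) (prior_isProb B) p.xs_expo.pos hF0
      (xm := ((p.nc : ℝ) + 1)⁻¹) (by positivity) (fun l => Pur.xs_ge p l) (G.UU B (H U) d)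
      (fun ω => V U ω.1) hy (f0 := FF B ν H) (fp := FF B ν (hs B H V y))
      (fm := FF B ν (hs B H V (-y))) (c := c) hs1 (by linarith)
    rw [gA_eq, gA_eq, eE_A0, div_inv_eq_mul] at h
    unfold G.PP
    linarith
  have a1 : ∀ d : DD p N, Integrable (fun U => 2 * |G.Phi B (hs B H V y U) d -
      FF B ν (hs B H V y)|) ν := fun d => (ia hp _ d).const_mul 2
  have a2 : ∀ d : DD p N, Integrable (fun U => 2 * |G.Phi B (hs B H V (-y) U) d -
      FF B ν (hs B H V (-y))|) ν := fun d => (ia hm _ d).const_mul 2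
  have a3 : ∀ d : DD p N, Integrable (fun U => 4 * |G.Phi B (H U) d - FF B ν H|) ν :=
    fun d => (ia hH _ d).const_mul 4
  have a0 : ∀ d : DD p N, Integrable (fun _ : Θ => (2 * (FF B ν (hs B H V y) +
      FF B ν (hs B H V (-y)) - 2 * FF B ν H) + Real.log 2 * ((p.nc : ℝ) + 1))) ν :=
    fun d => integrable_const _
  have a01 : ∀ d : DD p N, Integrable (fun U => (2 * (FF B ν (hs B H V y) +
      FF B ν (hs B H V (-y)) - 2 * FF B ν H) + Real.log 2 * ((p.nc : ℝ) + 1)) +
      2 * |G.Phi B (hs B H V y U) d - FF B ν (hs B H V y)|) ν := fun d => (a0 d).add (a1 d)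
  have a23 : ∀ d : DD p N, Integrable (fun U => 2 * |G.Phi B (hs B H V (-y) U) d -
      FF B ν (hs B H V (-y))| + 4 * |G.Phi B (H U) d - FF B ν H|) ν := fun d => (a2 d).add (a3 d)
  have h2 := dv_mono (ν := ν) (fun d => (hH.int_obs_abs hV d c).const_mul y)
    (fun d => (a01 d).add (a23 d)) h1
  have e1 := dv_add (ν := ν) a01 a23
  have e2 := dv_add (ν := ν) a0 a1
  have e3 := dv_add (ν := ν) a2 a3
  have h3 := h2.trans_eq (e1.trans (by rw [e2, e3]))
  rw [dv_smul, dv_smul, dv_smul, dv_smul, dv_const hN] at h3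
  unfold fluc
  linarith

/-- second differences are nonnegative -/
theorem SD_nonneg (hB0 : B.SF 0 = ⊤) {H V : Θ → B.S → ℝ} (hH : Adm B ν H)
    (hV : Adm B ν V) (y : ℝ) :
    0 ≤ FF B ν (hs B H V y) + FF B ν (hs B H V (-y)) - 2 * FF B ν H := by
  have hs1 := slope hB0 hH hV y
  have hs2 := slope hB0 hH hV (-y)
  linarith

end

end Crest.Agent.R164.LS2
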