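import Crest.Agent.R164.LPert2
import Crest.Agent.R164.LStruct2A

/-!
Row 164, L side (helper491), module (GL2): the dyadic average over the penalty strengths.
-/

set_option autoImplicit false
set_option linter.unusedSectionVars false

namespace Crest.Agent.R164.KAvg

open Finset MeasureTheory Crest.Agent.R141 Crest.Agent.R164 Crest.Agent.R164.Haar
open Crest.ProbabilityR.InvariantGlass

noncomputable section

/-- a configuration with all group magnetisations at the targets, up to one spin -/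
theorem exists_conf {N J : ℕ} {t : Fin J → ℝ} (ht : ∀ j, |t j| ≤ 1) (lab : Fin N → Fin J) :
    ∃ σ : Fin N → Bool, ∀ j, |Mag.SJ lab σ j - Mag.rJ lab j * t j| ≤ 1 := by
  classical
  have h : ∀ j, ∃ T ⊆ Finset.univ.filter (fun r => lab r = j),
      |2 * (T.card : ℝ) - Mag.rJ lab j - Mag.rJ lab j * t j| ≤ 1 := by
    intro j
    have hr0 : (0 : ℝ) ≤ Mag.rJ lab j := Mag.rJ_nonneg lab j
    set x : ℝ := Mag.rJ lab j * (1 + t j) / 2 with hx
    have h1 := abs_le.1 (ht j)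
    have hx0 : 0 ≤ x := by
      have := mul_nonneg hr0 (by linarith : (0:ℝ) ≤ 1 + t j)
      rw [hx]; linarith
    have hxr : x ≤ Mag.rJ lab j := by
      have := mul_nonneg hr0 (by linarith : (0:ℝ) ≤ 1 - t j)
      rw [hx]; nlinarith
    have hk1 : (⌊x + 1 / 2⌋₊ : ℝ) ≤ x + 1 / 2 := Nat.floor_le (by linarith)
    have hk2 : x + 1 / 2 < ⌊x + 1 / 2⌋₊ + 1 := Nat.lt_floor_add_one _
    have hkr : ⌊x + 1 / 2⌋₊ ≤ (Finset.univ.filter fun r => lab r = j).card := by
      have h2 : (⌊x + 1 / 2⌋₊ : ℝ) < ((Finset.univ.filter fun r => lab r = j).card : ℝ) + 1 := by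
        have : Mag.rJ lab j = ((Finset.univ.filter fun r => lab r = j).card : ℝ) := rfl
        linarith
      exact Nat.lt_succ_iff.1 (by exact_mod_cast h2)
    obtain ⟨T, hT, hc⟩ := Finset.exists_subset_card_eq hkr
    refine ⟨T, hT, ?_⟩
    rw [hc, abs_le]
    constructor <;> nlinarith
  choose T hT hc using h
  refine ⟨fun i => decide (i ∈ T (lab i)), fun j => ?_⟩
  have h2 : Mag.SJ lab (fun i => decide (i ∈ T (lab i))) j =
      2 * ((T j).card : ℝ) - Mag.rJ lab j := by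
    have e1 : ∀ r ∈ Finset.univ.filter (fun r => lab r = j),
        spinVec (fun i => decide (i ∈ T (lab i))) r =
          2 * (if r ∈ T j then (1:ℝ) else 0) - 1 := by
      intro r hr
      have hr' : lab r = j := (Finset.mem_filter.1 hr).2
      unfold spinVec
      simp only [hr', decide_eq_true_eq]
      split_ifs <;> norm_num
    unfold Mag.SJ
    rw [Finset.sum_congr rfl e1, Finset.sum_sub_distrib, ← Finset.mul_sum, Finset.sum_ite_mem,
      Finset.inter_eq_right.2 (hT j)]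
    simp [Mag.rJ]
  rw [h2]
  exact hc j

/-- the squared distance at such a configuration -/
theorem QD_conf {N J : ℕ} {t : Fin J → ℝ} {lab : Fin N → Fin J} {σ : Fin N → Bool}
    (h : ∀ j, |Mag.SJ lab σ j - Mag.rJ lab j * t j| ≤ 1) : Mag.QD t lab σ ≤ J := by
  unfold Mag.QD
  calc ∑ j, (if t j = 0 then 0 else Mag.rJ lab j * (Mag.SJ lab σ j / Mag.rJ lab j - t j) ^ 2)
      ≤ ∑ _j : Fin J, (1 : ℝ) := by
        refine Finset.sum_le_sum fun j _ => ?_
        split_ifs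
        · norm_num
        · rcases Nat.eq_zero_or_pos (Finset.univ.filter fun r => lab r = j).card with h0 | h0
          · have : Mag.rJ lab j = 0 := by unfold Mag.rJ; rw [h0]; simp
            rw [this]; simp
          · have h1 : (1 : ℝ) ≤ Mag.rJ lab j := by
              unfold Mag.rJ; exact_mod_cast h0
            have h2 : (0 : ℝ) < Mag.rJ lab j := by linarith
            have e : Mag.rJ lab j * (Mag.SJ lab σ j / Mag.rJ lab j - t j) ^ 2 =
                (Mag.SJ lab σ j - Mag.rJ lab j * t j) ^ 2 / Mag.rJ lab j := by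
              field_simp
            rw [e, div_le_one h2]
            have h3 := h j
            have h4 : (Mag.SJ lab σ j - Mag.rJ lab j * t j) ^ 2 ≤ 1 := by
              rw [← sq_abs]; nlinarith [abs_nonneg (Mag.SJ lab σ j - Mag.rJ lab j * t j)]
            linarith
    _ = J := by simp

variable {N J K : ℕ}

/-- lower bound of the penalised pressure, with the penalty costing only `K J` in total -/
theorem pressG_PEN_ge {val : Fin (K + 1) → ℝ} (c : Fin J → ℝ) {t : Fin J → ℝ}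
    (ht : ∀ j, |t j| ≤ 1) {Kp : ℝ} (hK0 : 0 ≤ Kp) (hN : Kp * J ≤ N) (kap : Fin N → Fin (K + 1))
    (lab : Fin N → Fin J) {U : Mat (Fin N)}
    (hU : Matrix.of U ∈ Matrix.orthogonalGroup (Fin N) ℝ) :
    -((∑ k, |val k|) / 2 + (∑ j, |c j| + 1) + Real.log 2) ≤
      Mag.pressG (fun i => val (kap i)) (Matrix.of U) univ (Mag.PEN c t Kp lab) := by
  obtain ⟨σ, hσ⟩ := exists_conf ht lab
  have h1 : ∀ i, |val (kap i)| ≤ ∑ k, |val k| := fun i =>
    Finset.single_le_sum (f := fun k => |val k|) (fun _ _ => abs_nonneg _) (Finset.mem_univ _)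
  have hc0 : 0 ≤ ∑ j, |c j| := Finset.sum_nonneg fun _ _ => abs_nonneg _
  have hQ := QD_conf hσ
  have hPEN : |Mag.PEN c t Kp lab σ| ≤ (∑ j, |c j| + 1) * N := by
    rw [Mag.PEN_eq]
    refine (abs_sub _ _).trans ?_
    rw [abs_of_nonneg (mul_nonneg hK0 (Mag.QD_nonneg t lab σ))]
    have h2 := Mag.abs_LIN_le c t lab σ
    have h3 := mul_le_mul_of_nonneg_left hQ hK0
    linarith
  have h2 := Mag.abs_pressG_le (eig := fun i => val (kap i)) h1
    (Finset.sum_nonneg fun _ _ => abs_nonneg _) hU (A := {σ}) (Finset.singleton_nonempty σ)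
    (V := Mag.PEN c t Kp lab) (C := ∑ j, |c j| + 1) (by positivity)
    (fun τ hτ => by rw [Finset.mem_singleton.1 hτ]; exact hPEN)
  have h3 := Mag.pressG_mono (eig := fun i => val (kap i)) (U := Matrix.of U) (A := {σ})
    (A' := univ) (Finset.singleton_nonempty σ) (Finset.subset_univ _)
    (V := Mag.PEN c t Kp lab) (V' := Mag.PEN c t Kp lab) (d := 0) le_rfl (fun _ _ => by simp)
  have h4 := (abs_le.1 h2).1
  linarith

/-- upper bound of the penalised pressure, uniform in the penalty -/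
theorem pressG_PEN_le {val : Fin (K + 1) → ℝ} (c t : Fin J → ℝ)
    {Kp : ℝ} (hK0 : 0 ≤ Kp) (kap : Fin N → Fin (K + 1))
    (lab : Fin N → Fin J) {U : Mat (Fin N)}
    (hU : Matrix.of U ∈ Matrix.orthogonalGroup (Fin N) ℝ) :
    Mag.pressG (fun i => val (kap i)) (Matrix.of U) univ (Mag.PEN c t Kp lab) ≤
      (∑ k, |val k|) / 2 + ∑ j, |c j| + Real.log 2 := by
  have h1 : ∀ i, |val (kap i)| ≤ ∑ k, |val k| := fun i =>
    Finset.single_le_sum (f := fun k => |val k|) (fun _ _ => abs_nonneg _) (Finset.mem_univ _)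
  have h2 := Mag.abs_pressG_le (eig := fun i => val (kap i)) h1
    (Finset.sum_nonneg fun _ _ => abs_nonneg _) hU (A := univ) Finset.univ_nonempty
    (V := Mag.LIN c t lab) (C := ∑ j, |c j|) (Finset.sum_nonneg fun _ _ => abs_nonneg _)
    (fun τ _ => Mag.abs_LIN_le c t lab τ)
  have h3 := Mag.pressG_mono (eig := fun i => val (kap i)) (U := Matrix.of U)
    (A := (univ : Finset (Fin N → Bool)))
    (A' := univ) Finset.univ_nonempty (Finset.subset_univ _)
    (V := Mag.PEN c t Kp lab) (V' := Mag.LIN c t lab) (d := 0) le_rfl (fun σ _ => by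
      rw [Mag.PEN_eq]
      have := mul_nonneg hK0 (Mag.QD_nonneg t lab σ)
      linarith)
  have h4 := (abs_le.1 h2).2
  linarith

end

end Crest.Agent.R164.KAvg

namespace Crest.Agent.R164.KAvg

open Crest.Agent.R164.LG

open Finset MeasureTheory Crest.Agent.R141 Crest.Agent.R164 Crest.Agent.R164.Haar
open Crest.Agent.R164.LS2

noncomputable section

variable (X : Glob) {p : Par} {N : ℕ}

/-- the constant of the a priori bounds -/
def Ckp : ℝ := (∑ k, |X.val k|) / 2 + (∑ j, |X.c j| + 1) + Real.log 2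

theorem Ckp_nonneg : 0 ≤ Ckp X := by
  have h1 : 0 ≤ ∑ k, |X.val k| := Finset.sum_nonneg fun _ _ => abs_nonneg _
  have h2 : 0 ≤ ∑ j, |X.c j| := Finset.sum_nonneg fun _ _ => abs_nonneg _
  have h3 : 0 ≤ Real.log 2 := Real.log_nonneg (by norm_num)
  unfold Ckp
  linarith

theorem integrable_pen (Kp : ℝ) (L : Fin N → X.LB) :
    Integrable (fun U => Mag.pressG (fun i => X.val (Glob.kap L i)) (Matrix.of U) univ
      (Mag.PEN X.c X.t Kp (Glob.lab L))) (X.nu N) := by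
  have := X.hnu N
  exact Mag.integrable_pressG (X.nu N) _ (W := fun U => U) measurable_id (X.hR N).mem
    Finset.univ_nonempty _

theorem Gp_le {Kp : ℝ} (hK0 : 0 ≤ Kp) (L : Fin N → X.LB) : Gp X Kp L ≤ Ckp X := by
  have := X.hnu N
  rw [Gp_eq]
  have h : ∫ U, Mag.pressG (fun i => X.val (Glob.kap L i)) (Matrix.of U) univ
      (Mag.PEN X.c X.t Kp (Glob.lab L)) ∂(X.nu N) ≤ ∫ _U, Ckp X ∂(X.nu N) := by
    refine integral_mono_ae (integrable_pen X Kp L) (integrable_const _) ?_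
    filter_upwards [(X.hR N).mem] with U hU
    have := KAvg.pressG_PEN_le X.c X.t hK0 (Glob.kap L) (Glob.lab L) (val := X.val) hU
    unfold Ckp
    linarith
  simpa using h

theorem le_Gp {Kp : ℝ} (hK0 : 0 ≤ Kp) (hN : Kp * X.J ≤ N) (L : Fin N → X.LB) :
    -Ckp X ≤ Gp X Kp L := by
  have := X.hnu N
  rw [Gp_eq]
  have h : ∫ _U, -Ckp X ∂(X.nu N) ≤ ∫ U, Mag.pressG (fun i => X.val (Glob.kap L i)) (Matrix.of U)
      univ (Mag.PEN X.c X.t Kp (Glob.lab L)) ∂(X.nu N) := by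
    refine integral_mono_ae (integrable_const _) (integrable_pen X Kp L) ?_
    filter_upwards [(X.hR N).mem] with U hU
    exact KAvg.pressG_PEN_ge X.c (fun j => (X.ht j).le) hK0 hN (Glob.kap L) (Glob.lab L)
      (val := X.val) hU
  simpa using h

/-! ### The derivative in the penalty strength -/

/-- the direction of the penalty -/
def VQ (n : ℕ) (L : Fin N → X.LB) : Mat (Fin N) → (LD.B p N n).S → ℝ :=
  fun _ s => Mag.QD X.t (Glob.lab L) s.1.1

theorem adm_Hm (n : ℕ) (Kp : ℝ) (θ : LD.Prm p X.K X.J) (L : Fin N → X.LB) :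
    Adm (LD.B p N n) (X.nu N) (Hm X n Kp θ L) := by
  have := X.hnu N
  refine ⟨fun b => (LPert.continuous_HL b).measurable, ?_⟩
  obtain ⟨C, _, hC⟩ := LPert.ae_bound_HL (n := n) (p := p) (val := X.val) (c := X.c) (t := X.t)
    (Kp := Kp) (θ := θ) (kap := Glob.kap L) (lab := Glob.lab L) (X.hR N).mem
  exact ⟨C, hC⟩

theorem adm_VQ (n : ℕ) (L : Fin N → X.LB) :
    Adm (LD.B p N n) (X.nu N) (VQ (p := p) X n L) := by
  refine ⟨fun b => measurable_const, 4 * N, ?_⟩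
  filter_upwards with U b
  rw [VQ, abs_of_nonneg (Mag.QD_nonneg _ _ _)]
  exact Mag.QD_le (fun j => (X.ht j).le) _ _

theorem FF_eq_Ph (n : ℕ) (Kp : ℝ) (θ : LD.Prm p X.K X.J) (L : Fin N → X.LB) :
    FF (LD.B p N n) (X.nu N) (Hm X n Kp θ L) = Ph X n Kp θ L := by
  have := X.hnu N
  have hH := adm_Hm X n Kp θ L
  have h1 : Ph X n Kp θ L =
      ∫ U, ∑ d, dw p N d * G.Phi (LD.B p N n) (Hm X n Kp θ L U) d ∂(X.nu N) := rfl
  have hi : ∀ d : DD p N, Integrable
      (fun U => G.Phi (LD.B p N n) (Hm X n Kp θ L U) d) (X.nu N) :=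
    fun d => hH.int_Phi d
  rw [h1, integral_finsetSum _ fun d _ => (hi d).const_mul _]
  simp only [integral_const_mul]
  rfl

theorem mV_eq_Eo (n : ℕ) (Kp : ℝ) (θ : LD.Prm p X.K X.J) (L : Fin N → X.LB)
    {V : Mat (Fin N) → (LD.B p N n).S → ℝ} (hV : Adm (LD.B p N n) (X.nu N) V) :
    mV (X.nu N) (Hm X n Kp θ L) V = Eo X n Kp θ L (fun U _ ω => V U ω.1) := by
  have := X.hnu N
  have hH := adm_Hm X n Kp θ L
  have h1 : Eo X n Kp θ L (fun U _ ω => V U ω.1) =
      ∫ U, ∑ d, dw p N d * eE (G.PP (LD.B p N n) (Hm X n Kp θ L U) d) (fun ω => V U ω.1)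
        ∂(X.nu N) := rfl
  rw [h1, integral_finsetSum _ fun d _ => (hH.int_obs hV d).const_mul _]
  simp only [integral_const_mul]
  rfl

theorem eE_sum' {Ω ι : Type*} [Fintype Ω] (P : Ω → ℝ) (s : Finset ι) (f : ι → Ω → ℝ) :
    eE P (fun ω => ∑ i ∈ s, f i ω) = ∑ i ∈ s, eE P (f i) := by
  unfold eE
  rw [Finset.sum_comm]
  exact Finset.sum_congr rfl fun ω _ => Finset.mul_sum _ _ _

theorem dv_sum {Θ ι : Type*} [MeasurableSpace Θ] (ν : Measure Θ) (s : Finset ι)
    {f : ι → DD p N → Θ → ℝ} (hf : ∀ i ∈ s, ∀ d, Integrable (f i d) ν) :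
    dv ν (fun d U => ∑ i ∈ s, f i d U) = ∑ i ∈ s, dv ν (f i) := by
  unfold dv Ed
  rw [Finset.sum_comm]
  refine Finset.sum_congr rfl fun d _ => ?_
  show dw p N d * (∫ U, ∑ i ∈ s, f i d U ∂ν) = ∑ i ∈ s, dw p N d * ∫ U, f i d U ∂ν
  rw [integral_finsetSum s (fun i hi => hf i hi d), Finset.mul_sum]

/-- the direction of one group -/
def VQj (n : ℕ) (L : Fin N → X.LB) (j : Fin X.J) : Mat (Fin N) → (LD.B p N n).S → ℝ :=
  fun _ s => (Mag.mag (Glob.lab L) s.1.1 j - X.t j) ^ 2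

theorem adm_VQj (n : ℕ) (L : Fin N → X.LB) (j : Fin X.J) :
    Adm (LD.B p N n) (X.nu N) (VQj (p := p) X n L j) := by
  refine ⟨fun b => measurable_const, 4, ?_⟩
  filter_upwards with U b
  unfold VQj
  rw [abs_of_nonneg (sq_nonneg _)]
  have h1 := abs_le.1 (Mag.abs_mag_le (Glob.lab L) b.1.1 j)
  have h2 := abs_lt.1 (X.ht j)
  nlinarith [h1.1, h1.2, h2.1, h2.2]

theorem mV_VQ (hN : 0 < N) (n : ℕ) (Kp : ℝ) (θ : LD.Prm p X.K X.J) (L : Fin N → X.LB) :
    mV (X.nu N) (Hm X n Kp θ L) (VQ (p := p) X n L) = N * Qd X n Kp θ L := by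
  have := X.hnu N
  have hN' : (N : ℝ) ≠ 0 := by exact_mod_cast hN.ne'
  have hH := adm_Hm X n Kp θ L
  have e1 : ∀ (d : DD p N) (U : Mat (Fin N)),
      eE (G.PP (LD.B p N n) (Hm X n Kp θ L U) d) (fun ω => VQ (p := p) X n L U ω.1) =
      ∑ j, (if X.t j = 0 then 0 else Mag.rJ (Glob.lab L) j) *
        eE (G.PP (LD.B p N n) (Hm X n Kp θ L U) d) (fun ω => VQj (p := p) X n L j U ω.1) := by
    intro d U
    have h1 : (fun ω : G.Om (LD.B p N n) => VQ (p := p) X n L U ω.1) =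
        fun ω => ∑ j, (if X.t j = 0 then 0 else Mag.rJ (Glob.lab L) j) *
          VQj (p := p) X n L j U ω.1 := by
      funext ω
      unfold VQ VQj Mag.QD
      refine Finset.sum_congr rfl fun j _ => ?_
      split_ifs
      · ring
      · rfl
    rw [h1, eE_sum']
    refine Finset.sum_congr rfl fun j _ => ?_
    rw [eE_smul]
  unfold mV
  simp only [e1]
  rw [dv_sum (X.nu N) Finset.univ
    (f := fun j d U => (if X.t j = 0 then 0 else Mag.rJ (Glob.lab L) j) *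
        eE (G.PP (LD.B p N n) (Hm X n Kp θ L U) d) (fun ω => VQj (p := p) X n L j U ω.1))
    (fun j _ d => (hH.int_obs (adm_VQj X n L j) d).const_mul _)]
  unfold Qd
  rw [Finset.mul_sum]
  refine Finset.sum_congr rfl fun j _ => ?_
  rw [dv_smul]
  have h2 := mV_eq_Eo X n Kp θ L (adm_VQj (p := p) X n L j)
  unfold mV at h2
  rw [h2]
  split_ifs with h0
  · simp
  · have h3 : Eo X n Kp θ L (fun U _ ω => VQj (p := p) X n L j U ω.1) =
        Eo X n Kp θ L (fun _ _ ω => (LD.MO n (Glob.lab L) j ω - X.t j) ^ 2) := rfl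
    rw [h3]
    field_simp

theorem Hm_shift (n : ℕ) (K1 K2 : ℝ) (θ : LD.Prm p X.K X.J) (L : Fin N → X.LB) :
    hs (LD.B p N n) (Hm X n K2 θ L) (VQ (p := p) X n L) (K2 - K1) = Hm X n K1 θ L := by
  funext U s
  unfold hs VQ Hm LD.HL SY.HS SY.h0q LD.VL
  rw [Mag.PEN_eq, Mag.PEN_eq]
  ring

/-- convexity of the free energy in the penalty strength -/
theorem Ph_slope (hN : 0 < N) (n : ℕ) (K1 K2 : ℝ) (θ : LD.Prm p X.K X.J) (L : Fin N → X.LB) :
    (K2 - K1) * Qd X n K2 θ L ≤ (N : ℝ)⁻¹ * Ph X n K1 θ L - (N : ℝ)⁻¹ * Ph X n K2 θ L := by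
  have := X.hnu N
  have hN' : (0 : ℝ) < N := by exact_mod_cast hN
  have h := slope (B := LD.B p N n) (ν := X.nu N) (SY.base_SF_zero (LD.univ_ne N))
    (adm_Hm X n K2 θ L) (adm_VQ (p := p) X n L) (K2 - K1)
  rw [Hm_shift, FF_eq_Ph, FF_eq_Ph, mV_VQ X hN] at h
  have h1 := mul_le_mul_of_nonneg_left h (inv_pos.2 hN').le
  have e : (N : ℝ)⁻¹ * ((K2 - K1) * (N * Qd X n K2 θ L)) = (K2 - K1) * Qd X n K2 θ L := by
    field_simp
  rw [e] at h1
  linarith

/-- **(GL2)** -/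
theorem kavg (X : Glob) : KAVG X := by
  intro E A S
  set B : ℝ := |E| + A ^ 2 / 2 + |S| / 2 with hB
  have hB0 : 0 ≤ B := by positivity
  have hC := Ckp_nonneg X
  refine ⟨2 * (2 * Ckp X + 2 * B + 2), by positivity, ?_⟩
  intro K0 hK0 I p hb
  obtain ⟨N1, hN1⟩ := exists_nat_ge (K0 * 2 ^ I * X.J)
  obtain ⟨N2, hN2⟩ := exists_nat_ge ((p.nc : ℝ) * p.T * p.τ)
  refine ⟨max (max N1 N2) 1, ?_⟩
  intro N hN n _ θ hθ L
  have hNp : 0 < N := lt_of_lt_of_le one_pos ((le_max_right _ _).trans hN)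
  have hNN : (0 : ℝ) < N := by exact_mod_cast hNp
  have h1 : K0 * 2 ^ I * X.J ≤ N := hN1.trans (by
    exact_mod_cast ((le_max_left N1 N2).trans (le_max_left _ 1)).trans hN)
  have h2 : (p.nc : ℝ) * p.T * p.τ ≤ N := hN2.trans (by
    exact_mod_cast ((le_max_right N1 N2).trans (le_max_left _ 1)).trans hN)
  have hk := Mag.kavg K0 (fun i => (N : ℝ)⁻¹ * Ph X n (K0 * 2 ^ i) θ L)
    (fun i => Qd X n (K0 * 2 ^ i) θ L) (fun i => Ph_slope X hNp n _ _ θ L) I
  have e : ∑ i : Fin I, (K0 * 2 ^ ((i : ℕ) + 1)) * Qd X n (K0 * 2 ^ ((i : ℕ) + 1)) θ L =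
      ∑ i ∈ Finset.range I, K0 * 2 ^ (i + 1) * Qd X n (K0 * 2 ^ (i + 1)) θ L :=
    Fin.sum_univ_eq_sum_range (fun i => K0 * 2 ^ (i + 1) * Qd X n (K0 * 2 ^ (i + 1)) θ L) I
  rw [e]
  refine hk.trans ?_
  have hp : ∀ Kp : ℝ, |(N : ℝ)⁻¹ * Ph X n Kp θ L - Gp X Kp L| ≤ B + 1 := by
    intro Kp
    have h3 := pert X hb n hNp Kp hθ L
    have h4 : (N : ℝ)⁻¹ * Ph X n Kp θ L - Gp X Kp L =
        (N : ℝ)⁻¹ * (Ph X n Kp θ L - N * Gp X Kp L) := by field_simp
    rw [h4, abs_mul, abs_of_pos (inv_pos.2 hNN)]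
    have h5 : (N : ℝ) * (E + A ^ 2 / 2 + S / 2) ≤ N * B := by
      refine mul_le_mul_of_nonneg_left ?_ hNN.le
      rw [hB]
      linarith [le_abs_self E, le_abs_self S]
    calc (N : ℝ)⁻¹ * |Ph X n Kp θ L - N * Gp X Kp L|
        ≤ (N : ℝ)⁻¹ * (N * B + N) := by
          refine mul_le_mul_of_nonneg_left ?_ (inv_pos.2 hNN).le
          linarith
      _ = B + 1 := by field_simp
  have key : ∀ k1 k2 : ℝ, 0 ≤ k1 → 0 ≤ k2 → k2 * X.J ≤ N →
      2 * ((N : ℝ)⁻¹ * Ph X n k1 θ L - (N : ℝ)⁻¹ * Ph X n k2 θ L) ≤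
        2 * (2 * Ckp X + 2 * B + 2) := by
    intro k1 k2 hk1 hk2 hk3
    have a0 := (abs_le.1 (hp k1)).2
    have a1 := (abs_le.1 (hp k2)).1
    have b0 := Gp_le X hk1 L
    have b1 := le_Gp X hk2 hk3 L
    linarith
  exact key _ _ (by positivity) (by positivity) h1

end

end Crest.Agent.R164.KAvg
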