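import Crest.Agent.R164.LGDef
import Crest.Agent.R164.LPert

/-!
Row 164, L side (helper552): the Props PERT and GPB of `LGDef` (GL1).
-/

set_option autoImplicit false
set_option linter.unusedSectionVars false

namespace Crest.Agent.R164.LPert

open Finset MeasureTheory Crest.Agent.R141 Crest.Agent.R141.SysF Crest.Agent.R141.SysIC
  Crest.Agent.R164
open Crest.Agent.R164.Haar
open Crest.ProbabilityR.InvariantGlass

noncomputable section

variable {p : Par} {N n : ℕ}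
variable {K J : ℕ} {val : Fin (K + 1) → ℝ} {c t : Fin J → ℝ} {Kp : ℝ} {θ : LD.Prm p K J}
  {kap : Fin N → Fin (K + 1)} {lab : Fin N → Fin J}

/-- (GL1), for every matrix, with bounds of the square sums. -/
theorem PhU_pert' (hb : p.nb = 0) (hN : 0 < N) {El A2 S : ℝ}
    (hel : ∀ j, |θ.el j| ≤ El) (ham : ∀ j, ∑ g, θ.am j g ^ 2 ≤ A2)
    (hlm : ∀ k, ∑ g, θ.lm k g ^ 2 ≤ S) {U : Mat (Fin N)}
    (hU : Matrix.of U ∈ Matrix.orthogonalGroup (Fin N) ℝ) :
    |LD.PhU n val c t Kp θ kap lab U - (N : ℝ) * Mag.pressG (fun i => val (kap i)) (Matrix.of U)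
      univ (Mag.PEN c t Kp lab)| ≤
      N * (El + 1 / 2 * A2 + 1 / 2 * S) + p.τ * Fintype.card (Stp p) := by
  have hN' : (0:ℝ) < N := by exact_mod_cast hN
  set X := (N : ℝ) * Mag.pressG (fun i => val (kap i)) (Matrix.of U) univ (Mag.PEN c t Kp lab)
    with hX
  set κ : ℝ := N * (A2 + S) with hκd
  have hτ : 0 ≤ p.τ * Fintype.card (Stp p) := mul_nonneg p.hτ0.le (Nat.cast_nonneg _)
  have i0 : Fin N := ⟨0, hN⟩
  have hA0 : 0 ≤ A2 := (Finset.sum_nonneg fun _ _ => sq_nonneg _).trans (ham (lab i0))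
  have hS0 : 0 ≤ S := (Finset.sum_nonneg fun _ _ => sq_nonneg _).trans (hlm (kap i0))
  have hκ0 : 0 ≤ κ := by positivity
  have hκ : ∀ σ ∈ (univ : Finset (Fin N → Bool)), ∑ g, ∑ i, ((θ.am (lab i) g) ^ 2 +
      (θ.lm (kap i) g * SY.xU (Matrix.of U) σ i) ^ 2) ≤ κ := by
    intro σ _
    have hx : ∑ i, (SY.xU (Matrix.of U) σ i) ^ 2 = N := by
      unfold SY.xU
      rw [sq_sum_mulVec hU, Mag.spin_sq_sum]
    rw [Finset.sum_comm]
    simp only [Finset.sum_add_distrib]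
    have h1 : ∑ i, ∑ g, (θ.am (lab i) g) ^ 2 ≤ N * A2 := by
      calc ∑ i, ∑ g, (θ.am (lab i) g) ^ 2 ≤ ∑ _i : Fin N, A2 :=
            Finset.sum_le_sum fun i _ => ham (lab i)
        _ = N * A2 := by simp
    have h2 : ∑ i, ∑ g, (θ.lm (kap i) g * SY.xU (Matrix.of U) σ i) ^ 2 ≤ N * S := by
      calc ∑ i, ∑ g, (θ.lm (kap i) g * SY.xU (Matrix.of U) σ i) ^ 2 ≤
          ∑ i, S * (SY.xU (Matrix.of U) σ i) ^ 2 := by
            refine Finset.sum_le_sum fun i _ => ?_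
            simp only [mul_pow]
            rw [← Finset.sum_mul]
            exact mul_le_mul_of_nonneg_right (hlm (kap i)) (sq_nonneg _)
        _ = N * S := by rw [← Finset.mul_sum, hx, mul_comm]
    rw [hκd]
    linarith
  have hV := pressG_VL (c := c) (t := t) (Kp := Kp) (θ := θ) (lab := lab) hN hel
    (fun i => val (kap i)) (Matrix.of U)
  have hV' : |(N : ℝ) * Mag.pressG (fun i => val (kap i)) (Matrix.of U) univ
      (LD.VL c t Kp θ.el lab) - X| ≤ N * El := by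
    rw [hX, ← mul_sub, abs_mul, abs_of_pos hN']
    exact mul_le_mul_of_nonneg_left hV hN'.le
  have h1 : ∀ d : DD p N, |G.Phi (LD.B p N n) (LD.HL n val c t Kp θ kap lab U) d - X| ≤
      N * El + κ / 2 + p.τ * Fintype.card (Stp p) := by
    intro d
    have hlo := LA_le_Phi (p := p) (n := n) (LD.univ_ne N) hb
      (SY.h0q (fun i => val (kap i)) (Matrix.of U) 1 (LD.VL c t Kp θ.el lab))
      (fun i g => θ.am (lab i) g) (fun i g => θ.lm (kap i) g) (SY.xU (Matrix.of U)) d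
    have hup := Phi_le_LA (p := p) (n := n) (LD.univ_ne N) hb
      (SY.h0q (fun i => val (kap i)) (Matrix.of U) 1 (LD.VL c t Kp θ.el lab))
      (fun i g => θ.am (lab i) g) (fun i g => θ.lm (kap i) g) (SY.xU (Matrix.of U)) hκ d
    rw [LA_eq_pressG (LD.univ_ne N) hN, log_univ, sub_zero] at hlo hup
    have h2 := abs_le.1 hV'
    show |G.Phi (SY.base p n univ (LD.univ_ne N)) (SY.HS (SY.h0q (fun i => val (kap i))
      (Matrix.of U) 1 (LD.VL c t Kp θ.el lab)) (fun i g => θ.am (lab i) g)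
      (fun i g => θ.lm (kap i) g) (SY.xU (Matrix.of U))) d - X| ≤ _
    rw [abs_le]
    constructor <;> linarith [h2.1, h2.2]
  have h3 : LD.PhU n val c t Kp θ kap lab U - X =
      ∑ d, dw p N d * (G.Phi (LD.B p N n) (LD.HL n val c t Kp θ kap lab U) d - X) := by
    simp only [mul_sub, Finset.sum_sub_distrib, ← Finset.sum_mul]
    rw [dw_sum p hN, one_mul]
    rfl
  rw [h3]
  refine (Finset.abs_sum_le_sum_abs _ _).trans ?_
  calc ∑ d, |dw p N d * (G.Phi (LD.B p N n) (LD.HL n val c t Kp θ kap lab U) d - X)|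
      ≤ ∑ d, dw p N d * (N * El + κ / 2 + p.τ * Fintype.card (Stp p)) := by
        refine Finset.sum_le_sum fun d _ => ?_
        rw [abs_mul, abs_of_nonneg (dw_nonneg p N d)]
        exact mul_le_mul_of_nonneg_left (h1 d) (dw_nonneg p N d)
    _ = N * El + κ / 2 + p.τ * Fintype.card (Stp p) := by
        rw [← Finset.sum_mul, dw_sum p hN, one_mul]
    _ = _ := by rw [hκd]; ring

/-- (GL1) with bounds of the square sums -/
theorem EPh_pert' {mu : Measure (Mat (Fin N))} [IsProbabilityMeasure mu]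
    (hmu : ∀ᵐ U ∂mu, Matrix.of U ∈ Matrix.orthogonalGroup (Fin N) ℝ)
    (hb : p.nb = 0) (hN : 0 < N) {El A2 S : ℝ}
    (hel : ∀ j, |θ.el j| ≤ El) (ham : ∀ j, ∑ g, θ.am j g ^ 2 ≤ A2)
    (hlm : ∀ k, ∑ g, θ.lm k g ^ 2 ≤ S) :
    |LD.EPh mu n val c t Kp θ kap lab - N * ∫ U, Mag.pressG (fun i => val (kap i))
      (Matrix.of U) univ (Mag.PEN c t Kp lab) ∂mu| ≤
      N * (El + 1 / 2 * A2 + 1 / 2 * S) + p.τ * Fintype.card (Stp p) := by
  have h1 : Integrable (fun U : Mat (Fin N) => LD.PhU n val c t Kp θ kap lab U) mu :=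
    integrable_PhU hmu
  have h2 : Integrable (fun U : Mat (Fin N) => (N : ℝ) * Mag.pressG (fun i => val (kap i))
      (Matrix.of U) univ (Mag.PEN c t Kp lab)) mu :=
    (Mag.integrable_pressG mu _ (W := fun U => U) measurable_id hmu Finset.univ_nonempty _).const_mul _
  rw [← integral_const_mul]
  unfold LD.EPh
  rw [← integral_sub h1 h2]
  have h3 := norm_integral_le_of_norm_le_const (μ := mu)
    (f := fun U : Mat (Fin N) => LD.PhU n val c t Kp θ kap lab U -
      (N : ℝ) * Mag.pressG (fun i => val (kap i)) (Matrix.of U) univ (Mag.PEN c t Kp lab))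
    (C := N * (El + 1 / 2 * A2 + 1 / 2 * S) + p.τ * Fintype.card (Stp p)) (by
      filter_upwards [hmu] with U hU
      rw [Real.norm_eq_abs]
      exact PhU_pert' hb hN hel ham hlm hU)
  rwa [Real.norm_eq_abs, probReal_univ, mul_one] at h3

end

end Crest.Agent.R164.LPert

namespace Crest.Agent.R164.LG

open Finset MeasureTheory Crest.Agent.R141 Crest.Agent.R164

noncomputable section

/-- plain pressure of the labelled system in terms of `pressG` -/
theorem Gp_eq (X : Glob) {N : ℕ} (Kp : ℝ) (L : Fin N → X.LB) :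
    Gp X Kp L = ∫ U, Mag.pressG (fun i => X.val (Glob.kap L i)) (Matrix.of U) univ
      (Mag.PEN X.c X.t Kp (Glob.lab L)) ∂(X.nu N) := by
  rfl

/-- **(GL1a)** -/
theorem pert (X : Glob) {p : Par} (hb : p.nb = 0) {N : ℕ} (n : ℕ) (hN : 0 < N) (Kp : ℝ)
    {E A S : ℝ} {θ : LD.Prm p X.K X.J} (hθ : Bd X E A S θ) (L : Fin N → X.LB) :
    |Ph X n Kp θ L - N * Gp X Kp L| ≤ N * (E + A ^ 2 / 2 + S / 2) + p.nc * p.T * p.τ := by
  have := X.hnu N
  have h := LPert.EPh_pert' (n := n) (c := X.c) (t := X.t) (Kp := Kp) (kap := Glob.kap L)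
    (lab := Glob.lab L) (val := X.val) (X.hR N).mem hb hN hθ.el hθ.am hθ.lm
  rw [← Gp_eq] at h
  have e : p.τ * (Fintype.card (Stp p) : ℝ) = p.nc * p.T * p.τ := by
    rw [Fintype.card_prod, Fintype.card_fin, Fintype.card_fin]
    push_cast
    ring
  rw [e] at h
  unfold Ph
  have e2 : (N : ℝ) * (E + 1 / 2 * A ^ 2 + 1 / 2 * S) = N * (E + A ^ 2 / 2 + S / 2) := by ring
  rw [e2] at h
  exact h

/-- **(GL1b)** -/
theorem gpb (X : Glob) (Kmax : ℝ) : ∃ Cg : ℝ, ∀ (N : ℕ) (Kp : ℝ), 0 ≤ Kp → Kp ≤ Kmax →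
    ∀ L : Fin N → X.LB, |Gp X Kp L| ≤ Cg := by
  refine ⟨LPert.CgP X.val X.c Kmax, fun N Kp h0 hK L => ?_⟩
  have := X.hnu N
  rw [Gp_eq]
  exact LPert.abs_int_pressG_PEN (X.hR N).mem (fun j => (X.ht j).le) h0 hK

end

end Crest.Agent.R164.LG
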