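import Crest.Agent.R164.LGDef
import Crest.Agent.R164.LPert2

/-!
Row 164, L side, piece of (GL2) (for helper491): bounds of the plain pressure with penalty, uniform
in the penalty strength and in the labels.
-/

set_option autoImplicit false

namespace Crest.Agent.R164.LG

open Finset MeasureTheory Crest.Agent.R141 Crest.Agent.R164 Crest.Agent.R164.Haar
open Crest.ProbabilityR.InvariantGlass (spinVec)
open Crest.Agent.R164.Mag (PEN LIN QD SJ rJ)

noncomputable section

/-- an integer number of positive spins with the right magnetisation. -/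
theorem exists_count (r : ℕ) {t : ℝ} (ht : |t| ≤ 1) :
    ∃ m : ℕ, m ≤ r ∧ |(2 * (m : ℝ) - r) - r * t| ≤ 1 := by
  have h := abs_le.1 ht
  have hr : (0 : ℝ) ≤ r := Nat.cast_nonneg r
  set x : ℝ := ((r : ℝ) + r * t) / 2 with hx
  have hx0 : 0 ≤ x := by rw [hx]; nlinarith
  have hxr : x ≤ r := by rw [hx]; nlinarith
  refine ⟨⌊x + 1 / 2⌋₊, ?_, ?_⟩
  · have h1 : ⌊x + 1 / 2⌋₊ < r + 1 := by
      rw [Nat.floor_lt (by linarith)]
      push_cast; linarith
    omega
  · have h1 := Nat.floor_le (show 0 ≤ x + 1 / 2 by linarith)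
    have h2 := Nat.lt_floor_add_one (x + 1 / 2)
    rw [abs_le]
    constructor <;> linarith

theorem spinVec_eq {N : ℕ} (σ : Fin N → Bool) (i : Fin N) :
    spinVec σ i = if σ i then 1 else -1 := rfl

/-- a configuration with the right magnetisations. -/
theorem exists_conf {N J : ℕ} {t : Fin J → ℝ} (ht : ∀ j, |t j| ≤ 1) (lab : Fin N → Fin J) :
    ∃ σ : Fin N → Bool, ∀ j, |SJ lab σ j - rJ lab j * t j| ≤ 1 := by
  classical
  have h1 : ∀ j, ∃ T : Finset (Fin N), T ⊆ univ.filter (fun r => lab r = j) ∧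
      |(2 * (T.card : ℝ) - rJ lab j) - rJ lab j * t j| ≤ 1 := by
    intro j
    obtain ⟨m, hm, hm2⟩ := exists_count (univ.filter fun r => lab r = j).card (ht j)
    obtain ⟨T, hT, hTc⟩ := Finset.exists_subset_card_eq hm
    exact ⟨T, hT, by rw [hTc]; exact hm2⟩
  choose T hT hT2 using h1
  refine ⟨fun i => decide (i ∈ T (lab i)), fun j => ?_⟩
  have h2 : SJ lab (fun i => decide (i ∈ T (lab i))) j = 2 * ((T j).card : ℝ) - rJ lab j := by
    unfold SJ rJ
    have e1 : ∀ r ∈ univ.filter (fun r => lab r = j),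
        spinVec (fun i => decide (i ∈ T (lab i))) r = 2 * (if r ∈ T j then 1 else 0) - 1 := by
      intro r hr
      have hr' : lab r = j := (Finset.mem_filter.1 hr).2
      rw [spinVec_eq]
      simp only [hr', decide_eq_true_eq]
      split_ifs <;> norm_num
    rw [Finset.sum_congr rfl e1, Finset.sum_sub_distrib, ← Finset.mul_sum, Finset.sum_ite_mem,
      Finset.sum_const, Finset.sum_const, Finset.inter_eq_right.2 (hT j)]
    simp
  rw [h2]
  exact hT2 j

theorem QD_conf {N J : ℕ} {t : Fin J → ℝ} {lab : Fin N → Fin J} {σ : Fin N → Bool}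
    (h : ∀ j, |SJ lab σ j - rJ lab j * t j| ≤ 1) : QD t lab σ ≤ J := by
  unfold QD
  calc ∑ j, (if t j = 0 then 0 else rJ lab j * (SJ lab σ j / rJ lab j - t j) ^ 2)
      ≤ ∑ _j : Fin J, (1 : ℝ) := by
        refine Finset.sum_le_sum fun j _ => ?_
        split_ifs
        · exact zero_le_one
        · rcases Nat.eq_zero_or_pos (univ.filter fun r => lab r = j).card with h0 | h0
          · have : rJ lab j = 0 := by unfold rJ; rw [h0]; simp
            rw [this]; simp
          · have hr : (1 : ℝ) ≤ rJ lab j := by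
              unfold rJ; exact_mod_cast h0
            have hr0 : (0 : ℝ) < rJ lab j := by linarith
            have e : rJ lab j * (SJ lab σ j / rJ lab j - t j) ^ 2 =
                (SJ lab σ j - rJ lab j * t j) ^ 2 / rJ lab j := by
              field_simp
            rw [e, div_le_one hr0]
            have h2 : (SJ lab σ j - rJ lab j * t j) ^ 2 ≤ 1 := by
              rw [← sq_abs]
              have := h j
              have h3 := abs_nonneg (SJ lab σ j - rJ lab j * t j)
              nlinarith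
            linarith
    _ = J := by simp

variable (X : Glob)

/-- the constant -/
def CgU : ℝ := (∑ k, |X.val k|) / 2 + ∑ j, |X.c j| + Real.log 2

theorem CgU_nonneg : 0 ≤ CgU X := by
  unfold CgU
  have h1 : 0 ≤ ∑ k, |X.val k| := Finset.sum_nonneg fun _ _ => abs_nonneg _
  have h2 : 0 ≤ ∑ j, |X.c j| := Finset.sum_nonneg fun _ _ => abs_nonneg _
  have h3 := Real.log_pos one_lt_two
  linarith

theorem val_bd {N : ℕ} (L : Fin N → X.LB) (i : Fin N) :
    |X.val (Glob.kap L i)| ≤ ∑ k, |X.val k| :=
  Finset.single_le_sum (f := fun k => |X.val k|) (fun _ _ => abs_nonneg _) (Finset.mem_univ _)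

/-- **upper bound**, uniform in the penalty strength. -/
theorem Gp_up {N : ℕ} {Kp : ℝ} (hKp : 0 ≤ Kp) (L : Fin N → X.LB) : Gp X Kp L ≤ CgU X := by
  haveI := X.hnu N
  unfold Gp LabTr.EP
  have h1 : ∀ᵐ U ∂(X.nu N), Mag.pressG (fun i => X.val (Glob.kap L i)) (Matrix.of U) univ
      (PEN X.c X.t Kp (Glob.lab L)) ≤ CgU X := by
    filter_upwards [(X.hR N).mem] with U hU
    have h2 := Mag.pressG_mono (eig := fun i => X.val (Glob.kap L i)) (U := Matrix.of U)
      (A := univ) (A' := univ) Finset.univ_nonempty (Finset.Subset.refl _)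
      (V := PEN X.c X.t Kp (Glob.lab L)) (V' := LIN X.c X.t (Glob.lab L)) le_rfl (fun σ _ => by
        rw [Mag.PEN_eq]
        have := mul_nonneg hKp (Mag.QD_nonneg X.t (Glob.lab L) σ)
        linarith)
    have h3 := Mag.abs_pressG_le (eig := fun i => X.val (Glob.kap L i)) (val_bd X L)
      (Finset.sum_nonneg fun _ _ => abs_nonneg _) hU (A := univ) Finset.univ_nonempty
      (V := LIN X.c X.t (Glob.lab L)) (C := ∑ j, |X.c j|)
      (Finset.sum_nonneg fun _ _ => abs_nonneg _)
      (fun σ _ => Mag.abs_LIN_le X.c X.t (Glob.lab L) σ)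
    have h4 := (abs_le.1 h3).2
    unfold CgU
    linarith
  have h5 := Mag.integrable_pressG (X.nu N) (fun i => X.val (Glob.kap L i)) (W := fun U => U)
    measurable_id (X.hR N).mem (A := univ) Finset.univ_nonempty (PEN X.c X.t Kp (Glob.lab L))
  refine (integral_mono_ae h5 (integrable_const _) h1).trans (le_of_eq ?_)
  simp

/-- **lower bound**: the penalty costs only `Kp J / N`. -/
theorem Gp_low {N : ℕ} (hN : 0 < N) {Kp : ℝ} (hKp : 0 ≤ Kp) (L : Fin N → X.LB) :
    -(CgU X) - Kp * X.J / N ≤ Gp X Kp L := by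
  haveI := X.hnu N
  have hN' : (0 : ℝ) < N := by exact_mod_cast hN
  obtain ⟨σ, hσ⟩ := exists_conf (fun j => (X.ht j).le) (Glob.lab L)
  have hQ := QD_conf hσ
  have hQ0 := Mag.QD_nonneg X.t (Glob.lab L) σ
  unfold Gp LabTr.EP
  have h1 : ∀ᵐ U ∂(X.nu N), -(CgU X) - Kp * X.J / N ≤
      Mag.pressG (fun i => X.val (Glob.kap L i)) (Matrix.of U) univ
      (PEN X.c X.t Kp (Glob.lab L)) := by
    filter_upwards [(X.hR N).mem] with U hU
    have h2 := Mag.pressG_mono (eig := fun i => X.val (Glob.kap L i)) (U := Matrix.of U)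
      (A := {σ}) (A' := univ) (Finset.singleton_nonempty σ) (Finset.subset_univ _)
      (V := PEN X.c X.t Kp (Glob.lab L)) (V' := PEN X.c X.t Kp (Glob.lab L)) le_rfl
      (fun σ _ => by linarith)
    have h3 := Mag.abs_pressG_le (eig := fun i => X.val (Glob.kap L i)) (val_bd X L)
      (Finset.sum_nonneg fun _ _ => abs_nonneg _) hU (A := {σ}) (Finset.singleton_nonempty σ)
      (V := PEN X.c X.t Kp (Glob.lab L)) (C := ∑ j, |X.c j| + Kp * X.J / N)
      (by
        have : 0 ≤ ∑ j, |X.c j| := Finset.sum_nonneg fun _ _ => abs_nonneg _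
        positivity)
      (fun σ' hσ' => by
        rw [Finset.mem_singleton] at hσ'
        subst hσ'
        rw [Mag.PEN_eq]
        refine (abs_sub _ _).trans ?_
        rw [abs_of_nonneg (mul_nonneg hKp hQ0)]
        have h4 := Mag.abs_LIN_le X.c X.t (Glob.lab L) σ'
        have h5 : Kp * QD X.t (Glob.lab L) σ' ≤ Kp * X.J := mul_le_mul_of_nonneg_left hQ hKp
        have h6 : (∑ j, |X.c j| + Kp * X.J / N) * N = (∑ j, |X.c j|) * N + Kp * X.J := by
          field_simp
        rw [h6]
        linarith)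
    have h4 := (abs_le.1 h3).1
    unfold CgU
    linarith
  have h5 := Mag.integrable_pressG (X.nu N) (fun i => X.val (Glob.kap L i)) (W := fun U => U)
    measurable_id (X.hR N).mem (A := univ) Finset.univ_nonempty (PEN X.c X.t Kp (Glob.lab L))
  refine le_trans (le_of_eq ?_) (integral_mono_ae (integrable_const _) h5 h1)
  simp

end

end Crest.Agent.R164.LG
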