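import Crest.Agent.R141.KerS

/-!
Row 164: shape functionals with general leaves.  `VG P R ph n s i` are the shape functionals of
`R141/KerS.lean` with the spin of site `i` replaced by an arbitrary function `ph i`.
-/

set_option autoImplicit false

namespace Crest.Agent.R164.QuietG

open Finset Crest.Agent.R141 Crest.Agent.R141.KerS
open Crest.Agent.R141.Fact hiding Shape
open Crest.ProbabilityR.Diluted (spinVal)
open Crest.Agent.R141.Clo (Shape)

noncomputable section

variable {Ω : Type} [Fintype Ω] {P : Ω → ℝ} {r : Setoid Ω}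

variable {I : Type}

/-- shape functionals along a sequence of partitions, leaves `ph` -/
def VG (P : Ω → ℝ) (R : ℕ → Setoid Ω) (ph : I → Ω → ℝ) : (n : ℕ) → Shape n → I → Ω → ℝ
  | 0, s, i, ω => if s.toBool then ph i ω else 1
  | n + 1, s, i, ω => (s.toList.map (fun q : Shape n => cE P (R n) (VG P R ph n q i) ω)).prod

theorem VG_zero (P : Ω → ℝ) (R : ℕ → Setoid Ω) (ph : I → Ω → ℝ) (s : Shape 0) (i : I)
    (ω : Ω) : VG P R ph 0 s i ω = if s.toBool then ph i ω else 1 := rfl

theorem VG_succ (P : Ω → ℝ) (R : ℕ → Setoid Ω) (ph : I → Ω → ℝ) {n : ℕ}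
    (s : Shape (n + 1)) (i : I) (ω : Ω) :
    VG P R ph (n + 1) s i ω =
      (s.toList.map (fun q : Shape n => cE P (R n) (VG P R ph n q i) ω)).prod := rfl

/-- the functionals of row 141 are the special case of spins -/
theorem VS_eq_VG (P : Ω → ℝ) (R : ℕ → Setoid Ω) (sg : I → Ω → Bool) {n : ℕ}
    (s : Shape n) (i : I) :
    VS P R sg n s i = VG P R (fun i ω => spinVal (sg i ω)) n s i := by
  induction n with
  | zero => funext ω; rw [VS_zero, VG_zero]
  | succ n ih =>
    funext ω
    rw [VS_succ, VG_succ]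
    congr 1
    apply List.map_congr_left
    intro q _
    rw [ih q]

theorem VG_congr (P : Ω → ℝ) {R R' : ℕ → Setoid Ω} (ph : I → Ω → ℝ) {n : ℕ}
    (h : ∀ k, k < n → R k = R' k) (s : Shape n) (i : I) :
    VG P R ph n s i = VG P R' ph n s i := by
  induction n with
  | zero => funext ω; rw [VG_zero, VG_zero]
  | succ n ih =>
    funext ω
    rw [VG_succ, VG_succ, h n (Nat.lt_succ_self n)]
    congr 1
    apply List.map_congr_left
    intro q _
    rw [ih (fun k hk => h k (by omega)) q]

theorem VG_abs_le (hP : IsProb P) (R : ℕ → Setoid Ω) {ph : I → Ω → ℝ}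
    (hph : ∀ i ω, |ph i ω| ≤ 1) {n : ℕ}
    (s : Shape n) (i : I) (ω : Ω) : |VG P R ph n s i ω| ≤ 1 := by
  induction n generalizing ω with
  | zero =>
    rw [VG_zero]
    split_ifs
    · exact hph i ω
    · simp
  | succ n ih =>
    rw [VG_succ]
    apply list_prod_abs_le_one
    intro q _
    exact abs_cE_le_of_le hP (fun a => ih q a) ω

theorem VG_meas (P : Ω → ℝ) (R : ℕ → Setoid Ω) (ph : I → Ω → ℝ) {n : ℕ}
    (s : Shape (n + 1)) (i : I) : RMeas (R n) (VG P R ph (n + 1) s i) := by
  intro a b hab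
  rw [VG_succ, VG_succ]
  congr 1
  apply List.map_congr_left
  intro q _
  exact cE_meas P (R n) _ a b hab

end

end Crest.Agent.R164.QuietG
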