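import Crest.Agent.R164.LDeriv
import Crest.Agent.R164.CvD
import Crest.Agent.R164.FieldGroup

/-!
Row 164, L side (helper275): (TB), (M0), (M1) of helper893.

(TB): tangent inequality in one main-field strength, in terms of the full field `hv`.
(M0): `magAt 0 = 0`.  (M1): Lipschitz in `b`.
-/

set_option autoImplicit false

namespace Crest.Agent.R164.LDeriv

open MeasureTheory Set Filter Topology ProbabilityTheory
open Crest.ProbabilityR.InvariantGlass
open Crest.Agent.R164.GC

noncomputable section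

section gen

variable {k : ℕ} {w hv : Fin k → ℝ}

/-- indicator of `i0 ≤ i` -/
def indk (i0 : Fin k) (i : Fin k) : ℝ := if i0 ≤ i then 1 else 0

theorem indk_mono (i0 : Fin k) : Monotone (indk i0) := by
  intro i j hij
  unfold indk
  split_ifs with h1 h2
  · exact le_rfl
  · exact absurd (h1.trans hij) h2
  · exact zero_le_one
  · exact le_rfl

theorem indk_nonneg (i0 i : Fin k) : 0 ≤ indk i0 i := by
  unfold indk
  split_ifs
  · exact zero_le_one
  · exact le_rfl

theorem lastF_eq (w hv : Fin k → ℝ) : lastF hv = lastV 0 (toL w hv) := by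
  rw [lastV_toL]
  unfold lastF
  split_ifs <;> simp

theorem lastV_indk (w : Fin k → ℝ) (i0 : Fin k) : lastV 0 (toL w (indk i0)) = 1 := by
  have hk : 0 < k := lt_of_le_of_lt (Nat.zero_le _) i0.2
  rw [lastV_toL, if_neg (by omega), zero_add,
    Finset.sum_eq_single (⟨k - 1, by omega⟩ : Fin k)]
  · rw [if_pos (by simp; omega)]
    refine if_pos ?_
    rw [Fin.le_def]
    have := i0.2
    simp
    omega
  · intro l _ hl
    refine if_neg fun hc => hl ?_
    apply Fin.ext
    simp
    omega
  · intro hn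
    exact absurd (Finset.mem_univ _) hn

/-- the value with the last half variance added, along `v = β²` -/
def Vb (w hv c : Fin k → ℝ) (b β : ℝ) : ℝ :=
  fieldValueAt b w (hC hv c (β ^ 2)) + β ^ 2 * lastV 0 (toL w c) / 2

theorem Vb_convex {c : Fin k → ℝ} (h : IsStepField w hv) (hc : Monotone c)
    (hc0 : ∀ i, 0 ≤ c i) (b : ℝ) : ConvexOn ℝ univ (Vb w hv c b) := by
  refine ⟨convex_univ, fun x _ y _ s t hs ht hst => ?_⟩
  have hs' : s = 1 - t := by linarith
  subst hs'
  have := value_JC h hc hc0 x y b b t ht (by linarith)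
  simp only at this
  rw [show (1 - t) * b + t * b = b by ring] at this
  simpa [smul_eq_mul, Vb] using this

theorem Vb_deriv {c : Fin k → ℝ} (h : IsStepField w hv) (hc : Monotone c)
    (hc0 : ∀ i, 0 ≤ c i) (b β : ℝ) :
    HasDerivAt (Vb w hv c b) (β * (lastV 0 (toL w c) -
      ∑ i, w i * (pAt b w (hC hv c (β ^ 2)) i * c i))) β := by
  have h1 := hasDeriv_v h hc hc0 b (sq_nonneg β)
  have h2 : HasDerivAt (fun β : ℝ => β ^ 2) (2 * β) β := by
    have := hasDerivAt_pow 2 β
    simpa using this
  have h3 : HasDerivAt (fun β : ℝ => fieldValueAt b w (hC hv c (β ^ 2)))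
      ((-(1 / 2) * ∑ i, w i * (pAt b w (hC hv c (β ^ 2)) i * c i)) * (2 * β)) β :=
    HasDerivWithinAt.comp_hasDerivAt (h₂ := fun v => fieldValueAt b w (hC hv c v))
      (h := fun β : ℝ => β ^ 2) β h1 h2 (Eventually.of_forall fun x => sq_nonneg x)
  have h4 := h3.add ((h2.mul_const (lastV 0 (toL w c))).div_const 2)
  refine h4.congr_deriv ?_
  ring

/-- **(TB)** tangent inequality in one main-field strength: `hv` contains the increment `a²` at
`i0` (i.e. `hv - a² 1_{i ≥ i0}` is a step field). No sign condition on `a`, `y`. -/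
theorem TB {a : ℝ} {i0 : Fin k}
    (h0 : IsStepField w (fun i => hv i - if i0 ≤ i then a ^ 2 else 0)) (b y : ℝ) :
    fieldValueAt b w hv + lastF hv / 2 +
        y * a * (1 - ∑ i, if i0 ≤ i then w i * pAt b w hv i else 0) ≤
      fieldValueAt b w (fun i => hv i + if i0 ≤ i then (a + y) ^ 2 - a ^ 2 else 0) +
        lastF (fun i => hv i + if i0 ≤ i then (a + y) ^ 2 - a ^ 2 else 0) / 2 := by
  set g : Fin k → ℝ := fun i => hv i - if i0 ≤ i then a ^ 2 else 0 with hg
  have e1 : hC g (indk i0) (a ^ 2) = hv := by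
    funext i
    rw [hC, indk, hg]
    simp only
    split_ifs <;> ring
  have e2 : hC g (indk i0) ((a + y) ^ 2) =
      fun i => hv i + if i0 ≤ i then (a + y) ^ 2 - a ^ 2 else 0 := by
    funext i
    rw [hC, indk, hg]
    simp only
    split_ifs <;> ring
  have hT := tangent_of_convex (Vb_convex h0 (indk_mono i0) (indk_nonneg i0) b)
    (Vb_deriv h0 (indk_mono i0) (indk_nonneg i0) b a) (a + y)
  unfold Vb at hT
  rw [lastV_indk, e1] at hT
  have l1 := lastV_hC w g (indk i0) (a ^ 2)
  have l2 := lastV_hC w g (indk i0) ((a + y) ^ 2)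
  rw [lastV_indk] at l1 l2
  rw [e1] at l1
  rw [e2] at l2
  rw [e2] at hT
  rw [lastF_eq w, lastF_eq w, l1, l2]
  have e3 : ∑ i, w i * (pAt b w hv i * indk i0 i) =
      ∑ i, if i0 ≤ i then w i * pAt b w hv i else 0 := by
    refine Finset.sum_congr rfl fun i _ => ?_
    rw [indk]
    split_ifs <;> ring
  rw [e3] at hT
  nlinarith

/-- `magAt` as a derivative -/
theorem magAt_eq_deriv (h : IsStepField w hv) (b : ℝ) :
    magAt b w hv = deriv (chain 0 (inc 0 (toL w hv))) b :=
  ((chain_sm _ _ (adm_of_step h)).d1 b).deriv.symm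

/-- **(M0)** -/
theorem magAt_zero (h : IsStepField w hv) : magAt 0 w hv = 0 := by
  obtain ⟨C, hC⟩ := cls_chain _ _ (adm_of_step h)
  have h1 := (chain_sm _ _ (adm_of_step h)).d1 0
  have h2 : HasDerivAt (fun x => chain 0 (inc 0 (toL w hv)) (-x))
      (chain1 0 (inc 0 (toL w hv)) 0 * (-1)) 0 := by
    have h3 : HasDerivAt (chain 0 (inc 0 (toL w hv))) (chain1 0 (inc 0 (toL w hv)) 0) (-0) := by
      rw [neg_zero]; exact h1
    exact h3.comp (0 : ℝ) (hasDerivAt_neg (0 : ℝ))
  have e : (fun x => chain 0 (inc 0 (toL w hv)) (-x)) = chain 0 (inc 0 (toL w hv)) :=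
    funext fun x => hC.even x
  rw [e] at h2
  have := h1.unique h2
  unfold magAt
  linarith

/-- **(M1)** `magAt` is 1-Lipschitz in `b` -/
theorem magAt_lip (h : IsStepField w hv) (b b' : ℝ) :
    |magAt b w hv - magAt b' w hv| ≤ |b - b'| := by
  obtain ⟨C, hC⟩ := cls_chain _ _ (adm_of_step h)
  rw [magAt_eq_deriv h, magAt_eq_deriv h]
  have := hC.t1a b' (b - b')
  rwa [add_sub_cancel] at this

/-- **(M1)** `fieldValueAt` is 1-Lipschitz in `b` -/
theorem fieldValueAt_lip (h : IsStepField w hv) (b b' : ℝ) :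
    |fieldValueAt b w hv - fieldValueAt b' w hv| ≤ |b - b'| := by
  have hl := (chain_sm _ _ (adm_of_step h)).lip
  rw [fieldValueAt_eq, fieldValueAt_eq]
  unfold fvL
  have h1 := hl b b'
  have h2 := hl b' b
  rw [abs_sub_comm b' b] at h2
  rw [abs_le]
  constructor <;> linarith

/-- `magAt` is nondecreasing in `b` -/
theorem magAt_mono (h : IsStepField w hv) : Monotone (fun b => magAt b w hv) := by
  obtain ⟨C, hC⟩ := cls_chain _ _ (adm_of_step h)
  intro b b' hb
  show magAt b w hv ≤ magAt b' w hv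
  rw [magAt_eq_deriv h, magAt_eq_deriv h]
  exact hC.strictMono.monotone hb

/-- sign: `b m(b) ≥ 0` -/
theorem mul_magAt_nonneg (h : IsStepField w hv) (b : ℝ) : 0 ≤ b * magAt b w hv := by
  rcases le_total 0 b with hb | hb
  · have := magAt_mono h hb
    simp only [magAt_zero h] at this
    exact mul_nonneg hb this
  · have := magAt_mono h hb
    simp only [magAt_zero h] at this
    exact mul_nonneg_of_nonpos_of_nonpos hb this

end gen

end

end Crest.Agent.R164.LDeriv
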