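import Crest.Agent.R164.LEnd

/-!
Row 164 (helper275), GL10 of helper893: uniform bound of the last field value,
`hh w val wd p (Fin.last m) ≤ LR val`, for all step paths, and of `LF.CF`.
-/

set_option autoImplicit false

namespace Crest.Agent.R164.LF

open MeasureTheory Set Filter Topology
open Crest.ProbabilityR.InvariantGlass
open Crest.Agent.R164.PAlg Crest.Agent.R164.RTrans Crest.Agent.R164.Atomic

noncomputable section

variable {K m : ℕ} {w val : Fin (K + 1) → ℝ} {wd p : Fin (m + 1) → ℝ}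

/-- the Lipschitz constant of `R` on `[0,1]` -/
def LR {K : ℕ} (val : Fin (K + 1) → ℝ) : ℝ :=
  (val (Fin.last K) - val 0) ^ 2 * (1 + (val (Fin.last K) - val 0))

section

variable (hv : StrictMono val) (hw : ∀ k, 0 < w k) (hs : ∑ k, w k = 1)

include hv in
theorem LR_nonneg : 0 ≤ LR val := by
  have : 0 ≤ val (Fin.last K) - val 0 := by
    have := hv.monotone (Fin.zero_le (Fin.last K)); linarith
  unfold LR
  positivity

include hv hw hs

theorem RR_lip_one {x y : ℝ} (hx : 0 ≤ x) (hxy : x ≤ y) (hy : y ≤ 1) :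
    RR w val y - RR w val x ≤ LR val * (y - x) := by
  refine (RR_lip hv hw hs hx hxy).trans ?_
  have hL : 0 ≤ val (Fin.last K) - val 0 := by
    have := hv.monotone (Fin.zero_le (Fin.last K)); linarith
  unfold LR
  refine mul_le_mul_of_nonneg_right ?_ (by linarith)
  refine mul_le_mul_of_nonneg_left ?_ (sq_nonneg _)
  nlinarith

theorem RD_le {x : ℝ} (hx : 0 < x) (hx1 : x ≤ 1) : RD w val x ≤ LR val := by
  have hd := (RR_deriv hv hw hs hx).hasDerivWithinAt (s := Iio x)
  rw [hasDerivWithinAt_iff_tendsto_slope' (by simp)] at hd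
  refine le_of_tendsto hd ?_
  filter_upwards [Ioo_mem_nhdsLT hx] with y hy
  rw [slope_def_field, ← neg_div_neg_eq, neg_sub, neg_sub, div_le_iff₀ (by linarith [hy.2])]
  exact RR_lip_one hv hw hs hy.1.le hy.2.le hx1

variable (hwd : ∀ i, 0 < wd i) (hwds : ∑ i, wd i = 1) (hp : Monotone p)
  (hp0 : ∀ i, 0 ≤ p i) (hp1 : ∀ i, p i ≤ 1)

include hwd hwds hp hp0 hp1

omit hv hw hs hp1 in
theorem Dd_le_one (j : Fin (m + 1)) : Dd wd p j ≤ 1 := by
  rw [Dd_eq hwd hwds hp]
  have h1 : 0 ≤ tailS wd p j := by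
    unfold tailS
    refine Finset.sum_nonneg fun l _ => ?_
    split_ifs
    · exact le_rfl
    · exact mul_nonneg (hwd l).le (hp0 l)
  have h2 := mul_nonneg (ze_nonneg hwd j) (hp0 j)
  linarith

/-- **uniform bound of the last field value** -/
theorem hh_last_le (hD : 0 < Dd wd p 0) : hh w val wd p (Fin.last m) ≤ LR val * p (Fin.last m) := by
  rw [hh_last]
  have h1 : p 0 * RD w val (Dd wd p 0) ≤ LR val * p 0 := by
    rw [mul_comm (LR val)]
    exact mul_le_mul_of_nonneg_left (RD_le hv hw hs hD (Dd_le_one hwd hwds hp hp0 0)) (hp0 0)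
  have h2 : ∀ j : Fin m, (leftEnd wd j.succ)⁻¹ *
      (RR w val (Dd wd p j.castSucc) - RR w val (Dd wd p j.succ)) ≤
      LR val * (p j.succ - p j.castSucc) := by
    intro j
    have hz := ze_pos hwd j
    rw [inv_mul_le_iff₀ hz]
    refine (RR_lip_one hv hw hs (Dd_nonneg hwd hwds hp1 j.succ) (Dd_anti hwd hwds hp j)
      (Dd_le_one hwd hwds hp hp0 _)).trans (le_of_eq ?_)
    rw [Dd_castSucc hwd hwds hp j]
    ring
  have h3 := Finset.sum_le_sum fun j (_ : j ∈ Finset.univ) => h2 j
  rw [← Finset.mul_sum] at h3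
  have h4 := tele p
  rw [h4] at h3
  nlinarith

theorem hh_le (hD : 0 < Dd wd p 0) (i : Fin (m + 1)) : hh w val wd p i ≤ LR val := by
  refine (hh_mono hv hw hs hwd hwds hp hp1 (Fin.le_last i)).trans ?_
  refine (hh_last_le hv hw hs hwd hwds hp hp0 hp1 hD).trans ?_
  have := mul_le_mul_of_nonneg_left (hp1 (Fin.last m)) (LR_nonneg hv)
  linarith

/-- **uniform bound of the constant `CF`** -/
theorem CF_le (hD : 0 < Dd wd p 0) : CF w val wd p ≤ LR val := by
  unfold CF
  have := hh_le hv hw hs hwd hwds hp hp0 hp1 hD (Fin.last m)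
  have e : (val (Fin.last K) - val 0) ^ 2 * (1 + (val (Fin.last K) - val 0)) = LR val := rfl
  rw [e]
  linarith

theorem CF_nonneg (hD : 0 < Dd wd p 0) : 0 ≤ CF w val wd p := by
  unfold CF
  have h1 := hh_nonneg hv hw hs hwd hwds hp hp0 hp1 hD (Fin.last m)
  have e : (val (Fin.last K) - val 0) ^ 2 * (1 + (val (Fin.last K) - val 0)) = LR val := rfl
  rw [e]
  have := LR_nonneg hv
  linarith

end

end

end Crest.Agent.R164.LF
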