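import Crest.Agent.R164.LEnd
import Crest.Agent.R164.LL1
import Crest.Agent.R164.LDeriv2
import Crest.Agent.R164.LHh
import Crest.Agent.R164.LLimB

/-!
Row 164, L side (helper893): from the numbers of the selected system (truncated cavity functional,
derivatives, overlaps) to the critical structure, and to the contradiction.
-/

set_option autoImplicit false

namespace Crest.Agent.R164.LF

open MeasureTheory Set Filter Topology
open Crest.ProbabilityR.InvariantGlass
open Crest.Agent.R164.GC Crest.Agent.R164.PAlg Crest.Agent.R164.Mag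
open Crest.Agent.R164.RTrans Crest.Agent.R164.Atomic
open Crest.Agent.R164.SDAlg (StepD wdOf pOf)
open Crest.Agent.R164.EG (CC sum_CC)
open Crest.Agent.R164.LDeriv (Gc ind ind_mono ind_nonneg ind_last contact_beta contact_b
  fieldValueAt_lip)

noncomputable section

/-- the field path of the main fields with strengths `a q`, placed at the levels `(q + 1) r` -/
def VF (r : ℕ) {M m : ℕ} (a : Fin M → ℝ) (i : Fin (m + 1)) : ℝ :=
  ∑ q : Fin M, if ((q : ℕ) + 1) * r ≤ (i : ℕ) then a q ^ 2 else 0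

/-- exact value of the truncated functional (without `cc`): `ℓ_b(h + V) + (h + V)_last / 2` -/
def cv {m : ℕ} (wd h : Fin (m + 1) → ℝ) (b : ℝ) (V : Fin (m + 1) → ℝ) : ℝ :=
  fieldValueAt b wd (fun i => h i + V i) + 1 / 2 * (h (Fin.last m) + V (Fin.last m))

theorem VF_mono (r : ℕ) {M m : ℕ} (a : Fin M → ℝ) :
    Monotone (VF r a : Fin (m + 1) → ℝ) := by
  intro i i' hi
  unfold VF
  refine Finset.sum_le_sum fun q _ => ?_
  have : (i : ℕ) ≤ (i' : ℕ) := hi
  split_ifs with h1 h2
  · exact le_rfl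
  · omega
  · exact sq_nonneg _
  · exact le_rfl

theorem VF_nonneg (r : ℕ) {M m : ℕ} (a : Fin M → ℝ) (i : Fin (m + 1)) : 0 ≤ VF r a i := by
  unfold VF
  refine Finset.sum_nonneg fun q _ => ?_
  split_ifs
  · exact sq_nonneg _
  · exact le_rfl

theorem VF_update (r : ℕ) {M m : ℕ} (a : Fin M → ℝ) (q : Fin M) (x : ℝ) (i : Fin (m + 1)) :
    VF r (Function.update a q x) i =
      VF r (Function.update a q 0) i + if ((q : ℕ) + 1) * r ≤ (i : ℕ) then x ^ 2 else 0 := by
  unfold VF
  rw [← Finset.add_sum_erase _ _ (Finset.mem_univ q),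
    ← Finset.add_sum_erase Finset.univ (fun q' : Fin M => if ((q' : ℕ) + 1) * r ≤ (i : ℕ) then
      Function.update a q 0 q' ^ 2 else 0) (Finset.mem_univ q),
    Function.update_self, Function.update_self]
  have : ∀ q' ∈ (Finset.univ : Finset (Fin M)).erase q, (if ((q' : ℕ) + 1) * r ≤ (i : ℕ) then
      Function.update a q x q' ^ 2 else 0) =
      if ((q' : ℕ) + 1) * r ≤ (i : ℕ) then Function.update a q 0 q' ^ 2 else 0 := by
    intro q' hq'
    rw [Function.update_of_ne (Finset.ne_of_mem_erase hq'),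
      Function.update_of_ne (Finset.ne_of_mem_erase hq')]
  rw [Finset.sum_congr rfl this]
  split_ifs <;> ring

/-- the value as helper275's `Gc` -/
theorem cv_update {m M : ℕ} {wd h : Fin (m + 1) → ℝ} (b : ℝ) (r : ℕ) (a : Fin M → ℝ) (q : Fin M)
    (hq : ((q : ℕ) + 1) * r < m + 1) (x : ℝ) :
    cv wd h b (VF r (Function.update a q x)) =
      1 / 2 * (h (Fin.last m) + VF r (Function.update a q 0) (Fin.last m)) +
      Gc wd (fun i => h i + VF r (Function.update a q 0) i) (ind ⟨((q : ℕ) + 1) * r, hq⟩) b x := by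
  have hV : ∀ i : Fin (m + 1), VF r (Function.update a q x) i =
      VF r (Function.update a q 0) i + x ^ 2 * ind ⟨((q : ℕ) + 1) * r, hq⟩ i := by
    intro i
    rw [VF_update]
    congr 1
    unfold ind
    have : ((⟨((q : ℕ) + 1) * r, hq⟩ : Fin (m + 1)) ≤ i) ↔ ((q : ℕ) + 1) * r ≤ (i : ℕ) := Iff.rfl
    by_cases hh : ((q : ℕ) + 1) * r ≤ (i : ℕ)
    · rw [if_pos hh, if_pos (this.2 hh), mul_one]
    · rw [if_neg hh, if_neg (fun h' => hh (this.1 h')), mul_zero]
  unfold cv Gc
  have e1 : (fun i => h i + VF r (Function.update a q x) i) =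
      fun i => h i + VF r (Function.update a q 0) i +
        x ^ 2 * ind ⟨((q : ℕ) + 1) * r, hq⟩ i := by
    funext i; rw [hV i, add_assoc]
  rw [e1, hV (Fin.last m), ind_last]
  ring

theorem sum_Ico_fin (n lo : ℕ) (f : ℕ → ℝ) :
    ∑ i ∈ Finset.Ico lo (n + 1), f i = ∑ i : Fin (n + 1), if lo ≤ (i : ℕ) then f i else 0 := by
  rw [Fin.sum_univ_eq_sum_range (fun i => if lo ≤ i then f i else 0) (n + 1), ← Finset.sum_filter]
  refine Finset.sum_congr ?_ fun _ _ => rfl
  ext i
  simp only [Finset.mem_Ico, Finset.mem_filter, Finset.mem_range]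
  tauto

/-- uniform levels -/
abbrev mm (n : ℕ) : ℕ → ℝ := fun a => (a : ℝ) / ((n : ℝ) + 1)

theorem wd_eq (n : ℕ) (i : Fin (n + 1)) : wdOf n (mm n) i = ((n : ℝ) + 1)⁻¹ := by
  unfold wdOf mm
  have : (0:ℝ) < (n:ℝ) + 1 := by positivity
  push_cast
  field_simp
  ring

/-- effective linear fields used in the explicit functional (zero where `t j = 0`) -/
def b0 {J : ℕ} (c t : Fin J → ℝ) (Kp : ℝ) (el mb : Fin J → ℝ) (j : Fin J) : ℝ :=
  if t j = 0 then 0 else c j - 2 * Kp * (mb j - t j) + el j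

/-- effective linear fields of the system -/
def b1 {J : ℕ} (c t : Fin J → ℝ) (Kp : ℝ) (el mb : Fin J → ℝ) (j : Fin J) : ℝ :=
  (if t j = 0 then 0 else c j - 2 * Kp * (mb j - t j)) + el j

theorem b0_b1 {J : ℕ} (c t : Fin J → ℝ) (Kp : ℝ) (el mb : Fin J → ℝ) {E : ℝ}
    (hel : ∀ j, |el j| ≤ E) (j : Fin J) : |b1 c t Kp el mb j - b0 c t Kp el mb j| ≤ E := by
  unfold b1 b0
  split_ifs
  · simpa using hel j
  · rw [sub_self, abs_zero]; exact (abs_nonneg _).trans (hel j)

theorem b0_of_ne {J : ℕ} (c t : Fin J → ℝ) (Kp : ℝ) (el mb : Fin J → ℝ) {j : Fin J}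
    (h : t j ≠ 0) : b0 c t Kp el mb j = b1 c t Kp el mb j := by
  unfold b1 b0
  rw [if_neg h, if_neg h]

set_option maxHeartbeats 1000000 in
/-- **From the numbers of the selected system to `False`.** -/
theorem crit {K n J M r0 : ℕ} (hn : n + 1 = (M + 1) * r0) {w val : Fin (K + 1) → ℝ}
    (hv : StrictMono val) (hw : ∀ k, 0 < w k) (hs : ∑ k, w k = 1) {γ : Fin J → ℚ}
    (hγ : ∀ j, 0 < γ j) (hγs : ∑ j, γ j = 1) {c t : Fin J → ℝ} (ht : ∀ j, |t j| < 1) {ε0 r : ℝ}
    (hr : ∀ m' : Fin J → ℝ, (∀ j, |m' j - t j| ≤ ε0) → (∀ j, t j = 0 → m' j = 0) →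
      (r : EReal) ≤ ((∑ j : Fin J, ((γ j : ℚ) : ℝ) * c j * m' j : ℝ) : EReal) +
        VR (atomic w val) (val (Fin.last K)) γ m')
    {P : ℕ → ℝ} (hP : StepD (n + 1) (mm n) P) (hP0 : P 0 < 1)
    {Kp : ℝ} (hKp : 0 ≤ Kp) {el mb : Fin J → ℝ} {E : ℝ} (hel : ∀ j, |el j| ≤ E) (hE : 0 ≤ E)
    (hmb : ∀ j, |mb j| ≤ 1) (hQ : ∀ j, t j ≠ 0 → |mb j - t j| ≤ ε0 / 2) (hε0 : 0 ≤ ε0)
    {a : Fin J → Fin M → ℝ} {amin y : ℝ} (hy : 0 < y) (hya : y ≤ amin)
    (ha : ∀ j q, amin ≤ a j q)
    {F : Fin (K + 1) → ℝ → (Fin M → ℝ) → ℝ} {dl e1 e2 e3 e4 e5 Inc R : ℝ}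
    (he2 : 0 ≤ e2) (he3 : 0 ≤ e3) (he4 : 0 ≤ e4) (he5 : 0 ≤ e5) (hdl : 0 ≤ dl)
    (h1 : ∀ (k : Fin (K + 1)) (j : Fin J) (b' : ℝ) (a' : Fin M → ℝ),
      |b' - b1 c t Kp el mb j| ≤ y → (∀ q, |a' q - a j q| ≤ y) →
      |F k b' a' - (CC w val (wdOf n (mm n)) (pOf n P) k +
        cv (wdOf n (mm n)) (hh w val (wdOf n (mm n)) (pOf n P)) b' (VF r0 a'))| ≤ dl)
    {T1 : Fin (K + 1) → Fin J → Fin M → ℝ} {M1 : Fin (K + 1) → Fin J → ℝ}
    {TN RR : Fin J → Fin M → ℝ}
    (h2 : ∀ k j q (s : ℝ), |s| = y →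
      |F k (b1 c t Kp el mb j) (Function.update (a j) q (a j q + s)) -
        F k (b1 c t Kp el mb j) (a j) - s * T1 k j q| ≤ e2)
    (h2' : ∀ k j (s : ℝ), |s| = y → |F k (b1 c t Kp el mb j + s) (a j) -
        F k (b1 c t Kp el mb j) (a j) - s * M1 k j| ≤ e2)
    (h3 : ∀ k j q, |T1 k j q - TN j q| ≤ e3) (h3' : ∀ k j, t j ≠ 0 → |M1 k j - mb j| ≤ e3)
    (h4 : ∀ j q, |TN j q - a j q * (1 - RR j q)| ≤ e4)
    (h5 : ∀ q : Fin M, |∑ j, ((γ j : ℚ) : ℝ) * RR j q -
      ((n : ℝ) + 1)⁻¹ * ∑ i ∈ Finset.Ico (((q : ℕ) + 1) * r0) (n + 1), P i| ≤ e5)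
    (h6 : ∑ k, ∑ j, w k * ((γ j : ℚ) : ℝ) *
      ((if t j = 0 then 0 else Kp * (mb j ^ 2 - t j ^ 2)) + F k (b1 c t Kp el mb j) (a j)) ≤
      Inc + e1)
    (h7 : Inc + Kp * ∑ j, ((γ j : ℚ) : ℝ) * (if t j = 0 then 0 else (mb j - t j) ^ 2) ≤ R)
    (hs1 : (2 * dl + e2) / y + e3 ≤ ε0 / 2)
    (hs2 : 4 * Kp * ((2 * dl + e2) / y + e3) + E + LR val *
      (2 * ((M + 1 : ℕ) : ℝ) * (e5 + ((2 * (dl + E) + e2) / y + e3 + e4) / amin) +
        3 / ((M + 1 : ℕ) : ℝ)) < r - (R + e1 + dl + E)) : False := by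
  have hwd := SDAlg.wdOf_pos hP
  have hwds := SDAlg.wdOf_sum hP
  have hpm := SDAlg.pOf_mono hP
  have hp0 := SDAlg.pOf_nonneg hP
  have hp1 := SDAlg.pOf_le_one hP
  have hD : 0 < Dd (wdOf n (mm n)) (pOf n P) 0 :=
    Dd_pos hwd hwds hpm hp1 (by simpa [pOf] using hP0)
  set wd := wdOf n (mm n) with hwddef
  set pp := pOf n P with hppdef
  set h := hh w val wd pp with hhdef
  have hhs : IsStepField wd h := hh_stepField hv hw hs hwd hwds hpm hp0 hp1 hD
  have hstep : ∀ a' : Fin M → ℝ, IsStepField wd (fun i => h i + VF r0 a' i) := fun a' =>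
    ⟨hhs.1, hhs.2.1, hhs.2.2.1, hhs.2.2.2.1.add (VF_mono r0 a'), fun i =>
      add_nonneg (hhs.2.2.2.2 i) (VF_nonneg r0 a' i)⟩
  have hγ' : ∀ j, (0:ℝ) ≤ ((γ j : ℚ) : ℝ) := fun j => by exact_mod_cast (hγ j).le
  have hγs' : ∑ j, ((γ j : ℚ) : ℝ) = 1 := by exact_mod_cast hγs
  have hr0 : 0 < r0 := by
    rcases Nat.eq_zero_or_pos r0 with h0 | h0
    · rw [h0, mul_zero] at hn; omega
    · exact h0
  have hqlt : ∀ q : Fin M, ((q : ℕ) + 1) * r0 < n + 1 := by
    intro q
    rw [hn]
    exact Nat.mul_lt_mul_of_pos_right (by have := q.2; omega) hr0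
  set bt := b1 c t Kp el mb with hbt
  set bz := b0 c t Kp el mb with hbz
  have hamin : 0 < amin := lt_of_lt_of_le hy hya
  -- the values at `bz`
  have hval : ∀ (k : Fin (K + 1)) (j : Fin J) (a' : Fin M → ℝ), (∀ q, |a' q - a j q| ≤ y) →
      |F k (bt j) a' - (CC w val wd pp k + cv wd h (bz j) (VF r0 a'))| ≤ dl + E := by
    intro k j a' ha'
    have g1 := h1 k j (bt j) a' (by rw [sub_self, abs_zero]; exact hy.le) ha'
    have g2 := fieldValueAt_lip (hstep a') (bt j) (bz j)
    have g3 := b0_b1 c t Kp el mb hel j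
    have e : F k (bt j) a' - (CC w val wd pp k + cv wd h (bz j) (VF r0 a')) =
        (F k (bt j) a' - (CC w val wd pp k + cv wd h (bt j) (VF r0 a'))) +
        (fieldValueAt (bt j) wd (fun i => h i + VF r0 a' i) -
          fieldValueAt (bz j) wd (fun i => h i + VF r0 a' i)) := by
      unfold cv; ring
    rw [e]
    refine (abs_add_le _ _).trans (add_le_add g1 (g2.trans g3))
  -- main-field contact
  have hcT : ∀ (j : Fin J) (q : Fin M), |T1 0 j q - a j q * (1 - ∑ i : Fin (n + 1),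
      if ((q : ℕ) + 1) * r0 ≤ (i : ℕ) then wd i * pAt (bz j) wd (fun i => h i + VF r0 (a j) i) i
        else 0)| ≤ (2 * (dl + E) + e2) / y := by
    intro j q
    have hupd : ∀ s : ℝ, |s| ≤ y → ∀ q', |Function.update (a j) q (a j q + s) q' - a j q'| ≤ y := by
      intro s hs' q'
      by_cases hq : q' = q
      · subst hq; rw [Function.update_self, add_sub_cancel_left]; exact hs'
      · rw [Function.update_of_ne hq, sub_self, abs_zero]; exact hy.le
    have hself : Function.update (a j) q (a j q) = a j := Function.update_eq_self q (a j)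
    have key := contact_beta (m := n) (w := wd)
      (hv := fun i => h i + VF r0 (Function.update (a j) q 0) i)
      (hstep (Function.update (a j) q 0)) ⟨((q : ℕ) + 1) * r0, hqlt q⟩ (bz j) (a j q)
      (f := fun x => F 0 (bt j) (Function.update (a j) q x))
      (C0 := CC w val wd pp 0 +
        1 / 2 * (h (Fin.last n) + VF r0 (Function.update (a j) q 0) (Fin.last n)))
      (T := T1 0 j q) (y := y) (dl := dl + E) (e := e2) hy ?_ ?_ ?_ ?_ ?_
    · have e : ∀ i : Fin (n + 1), (h i + VF r0 (Function.update (a j) q 0) i +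
          (a j q) ^ 2 * ind ⟨((q : ℕ) + 1) * r0, hqlt q⟩ i) = h i + VF r0 (a j) i := by
        intro i
        have h' := VF_update r0 (a j) q (a j q) i
        rw [hself] at h'
        rw [h', add_assoc]
        congr 2
        unfold ind
        have : ((⟨((q : ℕ) + 1) * r0, hqlt q⟩ : Fin (n + 1)) ≤ i) ↔
            ((q : ℕ) + 1) * r0 ≤ (i : ℕ) := Iff.rfl
        by_cases hh' : ((q : ℕ) + 1) * r0 ≤ (i : ℕ)
        · rw [if_pos hh', if_pos (this.2 hh'), mul_one]
        · rw [if_neg hh', if_neg (fun h'' => hh' (this.1 h'')), mul_zero]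
      simp only [e] at key
      exact key
    · have g := hval 0 j (Function.update (a j) q (a j q + y)) (hupd y (abs_of_pos hy).le)
      rw [cv_update (bz j) r0 (a j) q (hqlt q) (a j q + y)] at g
      have := (abs_le.1 g).1
      linarith
    · have g := hval 0 j (Function.update (a j) q (a j q + -y)) (hupd (-y) (by
        rw [abs_neg, abs_of_pos hy]))
      rw [cv_update (bz j) r0 (a j) q (hqlt q) (a j q + -y)] at g
      have := (abs_le.1 g).1
      simp only [sub_eq_add_neg]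
      linarith
    · have g := hval 0 j (a j) (fun q => by rw [sub_self, abs_zero]; exact hy.le)
      rw [← hself, cv_update (bz j) r0 (a j) q (hqlt q) (a j q)] at g
      have := (abs_le.1 g).2
      linarith
    · have g := h2 0 j q y (abs_of_pos hy)
      have := (abs_le.1 g).2
      simp only [hself]
      linarith
    · have g := h2 0 j q (-y) (by rw [abs_neg, abs_of_pos hy])
      have := (abs_le.1 g).2
      simp only [hself, sub_eq_add_neg]
      linarith
  -- magnetisation contact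
  have hmag : ∀ j, t j ≠ 0 → |mb j - magAt (bz j) wd (fun i => h i + VF r0 (a j) i)| ≤
      (2 * dl + e2) / y + e3 := by
    intro j hj
    have hbj : bz j = bt j := b0_of_ne c t Kp el mb hj
    have hz : ∀ q, |a j q - a j q| ≤ y := fun q => by rw [sub_self, abs_zero]; exact hy.le
    have key := contact_b (m := n) (w := wd) (hv := fun i => h i + VF r0 (a j) i)
      (hstep (a j)) (bt j) (f := fun x => F 0 x (a j))
      (C0 := CC w val wd pp 0 + 1 / 2 * (h (Fin.last n) + VF r0 (a j) (Fin.last n)))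
      (T := M1 0 j) (y := y) (dl := dl) (e := e2) hy ?_ ?_ ?_ ?_ ?_
    · rw [hbj]
      have g := h3' 0 j hj
      have e : mb j - magAt (bt j) wd (fun i => h i + VF r0 (a j) i) =
          (M1 0 j - magAt (bt j) wd (fun i => h i + VF r0 (a j) i)) + -(M1 0 j - mb j) := by ring
      rw [e]
      refine (abs_add_le _ _).trans ?_
      rw [abs_neg]
      exact add_le_add key g
    · have g := h1 0 j (bt j + y) (a j) (by rw [add_sub_cancel_left, abs_of_pos hy]) hz
      unfold cv at g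
      have := (abs_le.1 g).1
      linarith
    · have g := h1 0 j (bt j - y) (a j) (by
        rw [sub_sub_cancel_left, abs_neg, abs_of_pos hy]) hz
      unfold cv at g
      have := (abs_le.1 g).1
      linarith
    · have g := h1 0 j (bt j) (a j) (by rw [sub_self, abs_zero]; exact hy.le) hz
      unfold cv at g
      have := (abs_le.1 g).2
      linarith
    · have g := h2' 0 j y (abs_of_pos hy)
      have := (abs_le.1 g).2
      linarith
    · have g := h2' 0 j (-y) (by rw [abs_neg, abs_of_pos hy])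
      have := (abs_le.1 g).2
      simp only [sub_eq_add_neg]
      linarith
  -- tails
  set eT := e5 + ((2 * (dl + E) + e2) / y + e3 + e4) / amin with heT
  have heT0 : 0 ≤ eT := by positivity
  have hP' : ∑ i, wd i * |gP γ bz wd (fun j i => h i + VF r0 (a j) i) i - pp i| ≤
      2 * ((M + 1 : ℕ) : ℝ) * eT + 3 / ((M + 1 : ℕ) : ℝ) := by
    have hst : ∀ j, IsStepField wd (fun i => h i + VF r0 (a j) i) := fun j => hstep (a j)
    have hgm : Monotone (gP γ bz wd (fun j i => h i + VF r0 (a j) i)) := by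
      intro i i' hi
      unfold gP
      exact Finset.sum_le_sum fun j _ =>
        mul_le_mul_of_nonneg_left (pAt_mono (hst j) (bz j) hi) (hγ' j)
    have hg0 : ∀ i, 0 ≤ gP γ bz wd (fun j i => h i + VF r0 (a j) i) i := fun i =>
      Finset.sum_nonneg fun j _ => mul_nonneg (hγ' j) (pAt_nonneg (hst j) _ _)
    have hg1 : ∀ i, gP γ bz wd (fun j i => h i + VF r0 (a j) i) i ≤ 1 := fun i => by
      unfold gP
      calc ∑ j, ((γ j : ℚ) : ℝ) * pAt (bz j) wd (fun i => h i + VF r0 (a j) i) i ≤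
          ∑ j, ((γ j : ℚ) : ℝ) * 1 := Finset.sum_le_sum fun j _ =>
            mul_le_mul_of_nonneg_left (pAt_le_one (hst j) _ _) (hγ' j)
        _ = 1 := by simp only [mul_one]; exact hγs'
    have key := LL1.l1_fin (M := M + 1) (r := r0) hn hgm hpm hg0 hg1 hp0 hp1 heT0 ?_
    · refine le_trans (le_of_eq (Finset.sum_congr rfl fun i _ => ?_)) key
      rw [hwddef, wd_eq]
    · intro q hq1 hq2
      obtain ⟨x, hx⟩ : ∃ x : Fin M, (x : ℕ) + 1 = q := ⟨⟨q - 1, by omega⟩, by simp only; omega⟩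
      have hsplit : (∑ i : Fin (n + 1), if q * r0 ≤ (i : ℕ) then ((n : ℝ) + 1)⁻¹ *
          (gP γ bz wd (fun j i => h i + VF r0 (a j) i) i - pp i) else 0) =
          (∑ j, ((γ j : ℚ) : ℝ) * ((∑ i : Fin (n + 1), if ((x : ℕ) + 1) * r0 ≤ (i : ℕ) then
            wd i * pAt (bz j) wd (fun i => h i + VF r0 (a j) i) i else 0) - RR j x)) +
          (∑ j, ((γ j : ℚ) : ℝ) * RR j x -
            ((n : ℝ) + 1)⁻¹ * ∑ i ∈ Finset.Ico (((x : ℕ) + 1) * r0) (n + 1), P i) := by
        rw [sum_Ico_fin n _ P, hx]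
        have e1 : ∀ i : Fin (n + 1), (if q * r0 ≤ (i : ℕ) then ((n : ℝ) + 1)⁻¹ *
            (gP γ bz wd (fun j i => h i + VF r0 (a j) i) i - pp i) else 0) =
            (∑ j, ((γ j : ℚ) : ℝ) * if q * r0 ≤ (i : ℕ) then
              wd i * pAt (bz j) wd (fun i => h i + VF r0 (a j) i) i else 0) -
            ((n : ℝ) + 1)⁻¹ * if q * r0 ≤ (i : ℕ) then P i else 0 := by
          intro i
          split_ifs with hc
          · unfold gP
            rw [mul_sub, Finset.mul_sum]
            congr 1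
            refine Finset.sum_congr rfl fun j _ => ?_
            rw [hwddef, wd_eq]; ring
          · simp
        rw [Finset.sum_congr rfl fun i _ => e1 i, Finset.sum_sub_distrib, Finset.sum_comm,
          ← Finset.mul_sum]
        simp only [mul_sub, Finset.sum_sub_distrib, ← Finset.mul_sum]
        ring
      rw [hsplit]
      refine (abs_add_le _ _).trans ?_
      have hb2 := h5 x
      have hb1 : |∑ j, ((γ j : ℚ) : ℝ) * ((∑ i : Fin (n + 1),
          if ((x : ℕ) + 1) * r0 ≤ (i : ℕ) then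
            wd i * pAt (bz j) wd (fun i => h i + VF r0 (a j) i) i else 0) - RR j x)| ≤
          ((2 * (dl + E) + e2) / y + e3 + e4) / amin := by
        have hj : ∀ j, |(∑ i : Fin (n + 1), if ((x : ℕ) + 1) * r0 ≤ (i : ℕ) then
            wd i * pAt (bz j) wd (fun i => h i + VF r0 (a j) i) i else 0) - RR j x| ≤
            ((2 * (dl + E) + e2) / y + e3 + e4) / amin := by
          intro j
          set S := ∑ i : Fin (n + 1), if ((x : ℕ) + 1) * r0 ≤ (i : ℕ) then
            wd i * pAt (bz j) wd (fun i => h i + VF r0 (a j) i) i else 0 with hS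
          have g1 := hcT j x
          have g2 := h3 0 j x
          have g3 := h4 j x
          have hpos : 0 < a j x := lt_of_lt_of_le hamin (ha j x)
          have e : a j x * (S - RR j x) = (T1 0 j x - a j x * (1 - S)) + -(T1 0 j x - TN j x) +
              -(TN j x - a j x * (1 - RR j x)) := by ring
          have g4 : |a j x * (S - RR j x)| ≤ (2 * (dl + E) + e2) / y + e3 + e4 := by
            rw [e]
            refine (abs_add_le _ _).trans ?_
            rw [abs_neg]
            refine add_le_add ((abs_add_le _ _).trans ?_) g3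
            rw [abs_neg]
            exact add_le_add g1 g2
          rw [abs_mul, abs_of_pos hpos] at g4
          rw [le_div_iff₀ hamin]
          calc |S - RR j x| * amin ≤ |S - RR j x| * a j x :=
                mul_le_mul_of_nonneg_left (ha j x) (abs_nonneg _)
            _ = a j x * |S - RR j x| := mul_comm _ _
            _ ≤ _ := g4
        refine (Finset.abs_sum_le_sum_abs _ _).trans ?_
        calc ∑ j, |((γ j : ℚ) : ℝ) * ((∑ i : Fin (n + 1),
              if ((x : ℕ) + 1) * r0 ≤ (i : ℕ) then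
                wd i * pAt (bz j) wd (fun i => h i + VF r0 (a j) i) i else 0) - RR j x)| ≤
              ∑ j, ((γ j : ℚ) : ℝ) * (((2 * (dl + E) + e2) / y + e3 + e4) / amin) :=
            Finset.sum_le_sum fun j _ => by
              rw [abs_mul, abs_of_nonneg (hγ' j)]
              exact mul_le_mul_of_nonneg_left (hj j) (hγ' j)
          _ = _ := by rw [← Finset.sum_mul, hγs', one_mul]
      rw [heT, add_comm e5]
      exact add_le_add hb1 hb2
  -- the value
  have hvalue : ∑ j, ((γ j : ℚ) : ℝ) * ((if t j = 0 then 0 else Kp * (mb j ^ 2 - t j ^ 2)) +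
        (fieldValueAt (bz j) wd (fun i => h i + VF r0 (a j) i) +
        1 / 2 * (h (Fin.last n) + VF r0 (a j) (Fin.last n)))) -
        1 / 2 * h (Fin.last n) + 1 / 2 * ∑ i, wd i * (pp i * h i) +
        spectralPart (atomic w val) (val (Fin.last K)) (stepFn wd pp) +
        Kp * ∑ j, ((γ j : ℚ) : ℝ) * (if t j = 0 then 0 else (mb j - t j) ^ 2) ≤
      r - (r - (R + e1 + dl + E)) := by
    have hCC := sum_CC hv hw hs hwd hwds hpm hp0 hp1 hD
    have hz : ∀ j q, |a j q - a j q| ≤ y := fun j q => by rw [sub_self, abs_zero]; exact hy.le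
    have hlow : ∀ k j, CC w val wd pp k + cv wd h (bz j) (VF r0 (a j)) - (dl + E) ≤
        F k (bt j) (a j) := by
      intro k j
      have := (abs_le.1 (hval k j (a j) (hz j))).1
      linarith
    have hsum : ∑ k, ∑ j, w k * ((γ j : ℚ) : ℝ) *
        ((if t j = 0 then 0 else Kp * (mb j ^ 2 - t j ^ 2)) +
          (CC w val wd pp k + cv wd h (bz j) (VF r0 (a j)) - (dl + E))) ≤ Inc + e1 := by
      refine le_trans (Finset.sum_le_sum fun k _ => Finset.sum_le_sum fun j _ => ?_) h6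
      exact mul_le_mul_of_nonneg_left (add_le_add le_rfl (hlow k j))
        (mul_nonneg (hw k).le (hγ' j))
    have e1' : ∑ k, ∑ j, w k * ((γ j : ℚ) : ℝ) *
        ((if t j = 0 then 0 else Kp * (mb j ^ 2 - t j ^ 2)) +
          (CC w val wd pp k + cv wd h (bz j) (VF r0 (a j)) - (dl + E))) =
        ∑ j, ((γ j : ℚ) : ℝ) * ((if t j = 0 then 0 else Kp * (mb j ^ 2 - t j ^ 2)) +
          cv wd h (bz j) (VF r0 (a j))) + ∑ k, w k * CC w val wd pp k - (dl + E) := by
      have e2' : ∀ k j, w k * ((γ j : ℚ) : ℝ) *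
        ((if t j = 0 then 0 else Kp * (mb j ^ 2 - t j ^ 2)) +
          (CC w val wd pp k + cv wd h (bz j) (VF r0 (a j)) - (dl + E))) =
          w k * (((γ j : ℚ) : ℝ) * ((if t j = 0 then 0 else Kp * (mb j ^ 2 - t j ^ 2)) +
            cv wd h (bz j) (VF r0 (a j)))) + (w k * (CC w val wd pp k - (dl + E))) *
            ((γ j : ℚ) : ℝ) := by
        intro k j; ring
      have e3' : ∀ k, ∑ j, w k * ((γ j : ℚ) : ℝ) *
        ((if t j = 0 then 0 else Kp * (mb j ^ 2 - t j ^ 2)) +
          (CC w val wd pp k + cv wd h (bz j) (VF r0 (a j)) - (dl + E))) =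
          w k * (∑ j, ((γ j : ℚ) : ℝ) * ((if t j = 0 then 0 else Kp * (mb j ^ 2 - t j ^ 2)) +
            cv wd h (bz j) (VF r0 (a j)))) + (w k * CC w val wd pp k - w k * (dl + E)) := by
        intro k
        rw [Finset.sum_congr rfl fun j _ => e2' k j, Finset.sum_add_distrib, ← Finset.mul_sum,
          ← Finset.mul_sum, hγs', mul_one, mul_sub]
      rw [Finset.sum_congr rfl fun k _ => e3' k, Finset.sum_add_distrib, ← Finset.sum_mul, hs,
        one_mul, Finset.sum_sub_distrib, ← Finset.sum_mul, hs, one_mul]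
      ring
    rw [e1', hCC] at hsum
    simp only [cv] at hsum
    linarith
  have hCF := CF_le hv hw hs hwd hwds hpm hp0 hp1 hD
  have hLR := LR_nonneg hv
  have he' : 0 ≤ 2 * ((M + 1 : ℕ) : ℝ) * eT + 3 / ((M + 1 : ℕ) : ℝ) := by positivity
  refine contra hv hw hs hγ hγs hr hwd hwds hpm hp0 hp1 hD (V := fun j => VF r0 (a j))
    (fun j => VF_mono r0 (a j)) (fun j i => VF_nonneg r0 (a j) i) hKp hel hE
    (δ := (2 * dl + e2) / y + e3) (by positivity) hmb ht (b := bz) (fun j => rfl) hQ hε0 hmag hs1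
    hvalue hP' ?_
  have : CF w val wd pp * (2 * ((M + 1 : ℕ) : ℝ) * eT + 3 / ((M + 1 : ℕ) : ℝ)) ≤
      LR val * (2 * ((M + 1 : ℕ) : ℝ) * eT + 3 / ((M + 1 : ℕ) : ℝ)) :=
    mul_le_mul_of_nonneg_right hCF he'
  linarith

end

end Crest.Agent.R164.LF
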