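import Crest.Agent.R164.LCrude3
import Crest.Agent.R164.LIbpm

/-!
Row 164, L side (helper494): **(INCB), upper part**: upper bound of the increments of the enriched
free energy.
-/

set_option autoImplicit false
set_option linter.unusedSectionVars false

namespace Crest.Agent.R164.LG

open Finset MeasureTheory Filter Topology Crest.Agent.R141 Crest.Agent.R164 Crest.Agent.R164.Haar
open Crest.Agent.R164.LD (Prm HL EPh EO PL TO RJ MO)
open Crest.Agent.R164.ED (sk sj eigS aS lmS W0S W1S)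

noncomputable section

variable (X : Glob)

theorem kapSn {N : ℕ} (L : Fin N → X.LB) (l : X.LB) :
    Glob.kap (Fin.snoc L l : Fin (N + 1) → X.LB) = sk (Glob.kap L) l.1 := by
  funext i
  refine Fin.lastCases ?_ (fun j => ?_) i
  · unfold Glob.kap; rw [Fin.snoc_last, ED.sk_last]
  · unfold Glob.kap; rw [Fin.snoc_castSucc, ED.sk_castSucc]

theorem labSn {N : ℕ} (L : Fin N → X.LB) (l : X.LB) :
    Glob.lab (Fin.snoc L l : Fin (N + 1) → X.LB) = sj (Glob.lab L) l.2 := by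
  funext i
  refine Fin.lastCases ?_ (fun j => ?_) i
  · unfold Glob.lab; rw [Fin.snoc_last, ED.sj_last]
  · unfold Glob.lab; rw [Fin.snoc_castSucc, ED.sj_castSucc]

theorem cardSn {N : ℕ} {α : Type*} [DecidableEq α] (f : Fin N → α) (a : α) :
    ((Finset.univ.filter fun i => (Fin.snoc (α := fun _ => α) f a : Fin (N + 1) → α) i = a).card : ℝ)
      = ((Finset.univ.filter fun i => f i = a).card : ℝ) + 1 := by
  rw [Finset.card_filter, Finset.card_filter, Fin.sum_univ_castSucc]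
  simp only [Fin.snoc_castSucc, Fin.snoc_last, if_true]
  push_cast
  rfl

theorem abs_lm_le {p : Par} {E A S : ℝ} {θ : Prm p X.K X.J} (h : Bd X E A S θ)
    (k : Fin (X.K + 1)) (g : Fin p.nc) : |θ.lm k g| ≤ Real.sqrt S := by
  have h1 := h.lm k
  have h2 : θ.lm k g ^ 2 ≤ ∑ g, θ.lm k g ^ 2 :=
    Finset.single_le_sum (f := fun g => θ.lm k g ^ 2) (fun _ _ => sq_nonneg _) (Finset.mem_univ g)
  exact Real.abs_le_sqrt (h2.trans h1)

/-- **(INCB), upper part.** -/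
theorem incb_upper (E A S Kmax d0 : ℝ) (hd : Small X d0) (p : Par) (hnb : p.nb = 0) :
    ∃ (C : ℝ) (Na : ℕ), ∀ (N : ℕ), Na ≤ N → ∀ n : ℕ, ∀ Kp : ℝ, 0 ≤ Kp → Kp ≤ Kmax →
    ∀ θ : Prm p X.K X.J, Bd X E A S θ → ∀ L : Fin N → X.LB, LabAvg.Good X.al d0 L → ∀ l : X.LB,
    Ph X n Kp θ (Fin.snoc L l : Fin (N + 1) → X.LB) - Ph X n Kp θ L ≤ C := by
  set Λ0 : ℝ := ∑ k, |X.val k| with hΛ0
  set BV : ℝ := ∑ j, |X.c j| + 4 * Kmax + E with hBV
  set Bv : ℝ := ∑ j, |X.c j| + 12 * Kmax + E with hBv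
  set CT : ℝ := CSys.CT p Λ0 (Real.sqrt S) |A| BV with hCT
  refine ⟨3 * (((4 + 3 * Λ0) + Λ0 ^ 2 + 2 * (S * CT) + CT) / (d0 / 2) +
    (12 + 8 * Λ0 + 1 / 2 * A ^ 2 + Bv)) + p.nc * p.T * (p.nc * p.T * p.τ),
    max 1 (p.nc * p.T), ?_⟩
  intro N hN n Kp hKp0 hKp θ hθ L hL l
  have hN1 : 1 ≤ N := (le_max_left _ _).trans hN
  have hT : p.nc * p.T ≤ N := (le_max_right _ _).trans hN
  have hN0 : 0 < N := hN1
  have hNr : (1 : ℝ) ≤ N := by exact_mod_cast hN1
  obtain ⟨k, j⟩ := l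
  have i1 := X.hnu N
  have i2 := X.hnu (N + 1)
  have hE : 0 ≤ E := (abs_nonneg _).trans (hθ.el j)
  have ht : ∀ j, |X.t j| ≤ 1 := fun j => (X.ht j).le
  have hKm : 0 ≤ Kmax := hKp0.trans hKp
  have hcj : ∀ j, |X.c j| ≤ ∑ j, |X.c j| := fun j =>
    Finset.single_le_sum (f := fun j => |X.c j|) (fun _ _ => abs_nonneg _) (Finset.mem_univ j)
  have hval : ∀ k, |X.val k| ≤ Λ0 := fun k =>
    Finset.single_le_sum (f := fun k => |X.val k|) (fun _ _ => abs_nonneg _) (Finset.mem_univ k)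
  have hBv0 : 0 ≤ Bv := by
    have : 0 ≤ ∑ j, |X.c j| := Finset.sum_nonneg fun _ _ => abs_nonneg _
    rw [hBv]; positivity
  have he : ∀ i, |eigS X.val (Glob.kap L) k i| ≤ Λ0 := fun i => hval _
  have hA : ∑ g, aS θ (Glob.lab L) j (Fin.last N) g ^ 2 ≤ A ^ 2 := by
    rw [ED.aS_last]; exact hθ.am j
  have hv : ∀ σ b, |ED.vT (W0S X.c X.t Kp θ (Glob.lab L)) (W1S X.c X.t Kp θ (Glob.lab L) j) σ b| ≤
      Bv := by
    intro σ b
    refine (ED.abs_vT_le X.c X.t Kp θ (Glob.lab L) j hKp0 ht hθ.el σ b).trans ?_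
    rw [hBv]
    linarith [hcj j]
  have hW : ∀ σ, |W1S X.c X.t Kp θ (Glob.lab L) j σ| ≤ BV * ((N : ℝ) + 1) := by
    intro σ
    refine (ED.abs_W1S_le X.c X.t Kp θ (Glob.lab L) j hKp0 ht hθ.el σ).trans ?_
    rw [hBV]
    refine mul_le_mul_of_nonneg_right ?_ (by positivity)
    linarith
  -- the increment
  have h1 := LCr.incr_le (n := n) (a := aS θ (Glob.lab L) j) (lam := lmS θ (Glob.kap L) k) hnb hN0
    hT (X.hR N) (X.hR (N + 1)) he hA hv hBv0
  have e1 : Ph X n Kp θ (Fin.snoc L (k, j) : Fin (N + 1) → X.LB) =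
      EPh (X.nu (N + 1)) n X.val X.c X.t Kp θ (sk (Glob.kap L) k) (sj (Glob.lab L) j) := by
    unfold Ph
    rw [kapSn, labSn]
  have e2 : Ph X n Kp θ L = EPh (X.nu N) n X.val X.c X.t Kp θ (Glob.kap L) (Glob.lab L) := rfl
  rw [e1, e2, ED.EPh_snoc, ED.EPh_eq X.val X.c X.t Kp θ (Glob.kap L) (Glob.lab L) k j]
  refine h1.trans ?_
  -- the moments
  have h2 := LCr.EE_RR_le (n := n) (W1 := W1S X.c X.t Kp θ (Glob.lab L) j)
    (a := aS θ (Glob.lab L) j) (lam := lmS θ (Glob.kap L) k) (Λ := Real.sqrt S) (Λa := |A|)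
    (S := S) (δ := d0 / 2) (c0 := 12 + 8 * Λ0 + 1 / 2 * A ^ 2 + Bv)
    (Cl := Finset.univ.filter fun i => sk (Glob.kap L) k i = k)
    (Gr := Finset.univ.filter fun i => sj (Glob.lab L) j i = j)
    hnb (X.hR (N + 1)) he (fun i g => abs_lm_le X hθ _ g) (fun i g => abs_am_le X hθ _ g) hW
    (fun i => hθ.lm _) (by have := hd.1; positivity)
    (fun i hi => ED.inv_row X.val X.c X.t Kp θ (Glob.kap L) (Glob.lab L) k j
      (Finset.mem_filter.1 hi).2)
    (fun i hi => ED.inv_site X.val X.c X.t Kp θ (Glob.kap L) (Glob.lab L) k j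
      (Finset.mem_filter.1 hi).2)
    (by
      rw [cardSn]
      have := rK_ge X hd hL k j
      have hd1 := hd.1
      nlinarith)
    (by
      rw [cardSn]
      have := rJ_ge X hd hL j
      unfold Mag.rJ at this
      have hd1 := hd.1
      nlinarith)
  have h3 : (p.nc * p.T * (p.nc * p.T * p.τ) : ℝ) / ((N : ℝ) + 1) ≤
      p.nc * p.T * (p.nc * p.T * p.τ) := by
    have hτ := p.hτ0
    refine div_le_self ?_ (by linarith)
    positivity
  linarith

end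

end Crest.Agent.R164.LG
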