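import Crest.Agent.R164.TLaw
import Crest.Agent.R164.GXch3
import Crest.Agent.R164.EDn

/-!
Row 164, L side (helper494): upper bound of the increment of the free energy, part 1:
the supporting line in the `(N+1)`-system and the pathwise bound.
-/

set_option autoImplicit false
set_option linter.unusedSectionVars false

namespace Crest.Agent.R164.LCr

open Finset MeasureTheory Crest.Agent.R141 Crest.Agent.R164 Crest.Agent.R164.PF
  Crest.Agent.R164.Haar Crest.Agent.R164.ED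
open Crest.ProbabilityR.InvariantGlass

noncomputable section

variable {p : Par} {N n : ℕ}

/-- restriction of a base configuration to the first `N` sites -/
def resS (s : SY.SS p n (univ : Finset (Fin (N + 1) → Bool))) :
    SY.SS p n (univ : Finset (Fin N → Bool)) :=
  (⟨fun i => s.1.1 i.castSucc, mem_univ _⟩, fun g i => s.2.1 g i.castSucc,
    fun g i => s.2.2 g i.castSucc)

theorem resS_glS (s : SY.SS p n (univ : Finset (Fin N → Bool))) (l : LS p n) (b : Bool) :
    resS (glS s l b) = s := by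
  refine Prod.ext (Subtype.ext ?_) (Prod.ext ?_ ?_)
  · funext i
    show Fin.snoc (α := fun _ => Bool) _ _ _ = _
    rw [Fin.snoc_castSucc]
  · funext g i
    show Fin.snoc (α := fun _ => Fin n → Bool) _ _ _ = _
    rw [Fin.snoc_castSucc]
  · funext g i
    show Fin.snoc (α := fun _ => Fin n → Bool) _ _ _ = _
    rw [Fin.snoc_castSucc]

/-- a Hamiltonian of the first `N` sites -/
def exS (H0 : SY.SS p n (univ : Finset (Fin N → Bool)) → ℝ) :
    SY.SS p n (univ : Finset (Fin (N + 1) → Bool)) → ℝ := fun s => H0 (resS s)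

/-- the free energy of a Hamiltonian of the first `N` sites -/
theorem Phi_res (hnb : p.nb = 0) (H0 : SY.SS p n (univ : Finset (Fin N → Bool)) → ℝ)
    (d : DD p N) :
    G.Phi (BU p (N + 1) n) (exS H0) (F4.liftD p N d) = G.Phi (BU p N n) H0 d := by
  rw [Phi_gl H0 (exS H0) hnb d]
  have h1 : ∀ u, xw H0 (exS H0) u = 0 := by
    intro u
    have h := resS_glS u.1.1.1 u.1.2 u.2
    show H0 (resS (glS u.1.1.1 u.1.2 u.2)) - H0 u.1.1.1 = 0
    have h2 : H0 (resS (glS u.1.1.1 u.1.2 u.2)) = H0 u.1.1.1 := congrArg H0 h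
    rw [h2, sub_self]
  have h2 : Xr H0 (exS H0) = fun _ => (0 : ℝ) := by
    funext w
    have h3 : Real.exp (Xr H0 (exS H0) w) = Real.exp 0 := by
      unfold Xr
      rw [exp_redB, h1, h1]
      norm_num
    exact Real.exp_injective h3
  rw [h2]
  have h4 : aE (stP p N n H0 d) (stF p N n) p.xs (fun _ => (0 : ℝ)) = 0 := by
    unfold aE
    have h5 : A (stP p N n H0 d) (stF p N n) p.xs (fun _ => (0 : ℝ)) 0 = fun _ => (0 : ℝ) :=
      funext fun w => A_const (stP_isProb H0 d) p.xs_expo.pos 0 0 w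
    rw [h5]
    exact eE_const (stP_isProb H0 d) 0
  rw [h4, add_zero]

/-- **supporting line** -/
theorem Phi_le_res (hnb : p.nb = 0) (H0 : SY.SS p n (univ : Finset (Fin N → Bool)) → ℝ)
    (H1 : SY.SS p n (univ : Finset (Fin (N + 1) → Bool)) → ℝ) (d : DD p N) :
    G.Phi (BU p (N + 1) n) H1 (F4.liftD p N d) ≤ G.Phi (BU p N n) H0 d +
      eE (G.PP (BU p (N + 1) n) H1 (F4.liftD p N d)) (fun ω => H1 ω.1 - exS H0 ω.1) := by
  have h := US.Phi_add_ge (BU p (N + 1) n) (SY.base_SF_zero univ_nonempty) H1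
    (fun s => exS H0 s - H1 s) (F4.liftD p N d)
  have e : (fun s : (BU p (N + 1) n).S => H1 s + (exS H0 s - H1 s)) = exS H0 := by
    funext s
    show H1 s + (exS H0 s - H1 s) = exS H0 s
    ring
  rw [e] at h
  have h3 := Phi_res hnb H0 d
  have e2 : eE (G.PP (BU p (N + 1) n) H1 (F4.liftD p N d)) (fun ω => exS H0 ω.1 - H1 ω.1) =
      - eE (G.PP (BU p (N + 1) n) H1 (F4.liftD p N d)) (fun ω => H1 ω.1 - exS H0 ω.1) := by
    rw [← neg_one_mul, ← eE_smul]
    congr 1
    funext ω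
    ring
  linarith

/-! ### The last column and row in the coupling -/

variable (eig : Fin (N + 1) → ℝ) (W0 : (Fin N → Bool) → ℝ) (W1 : (Fin (N + 1) → Bool) → ℝ)
  (a lam : Fin (N + 1) → Fin p.nc → ℝ)

/-- the last column of the coupled matrix -/
theorem cplS_last_col {G : Fin (N + 1) → ℝ} (hG : nrm G ≠ 0) (V : Mat (Fin N))
    (i : Fin (N + 1)) : cplS V G i (Fin.last N) = un G i := by
  have h : cplS V G i (Fin.last N) = (Qs (un G) * Matrix.of (ext V)) i (Fin.last N) := rfl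
  rw [h, Matrix.mul_apply, Fin.sum_univ_castSucc]
  simp only [Matrix.of_apply, ext_castSucc_last, ext_last_last, mul_zero, mul_one,
    Finset.sum_const_zero, zero_add]
  exact Qs_last (sum_un hG) i

/-- the quantities of the bound -/
def RR (Λ c0 : ℝ) (U : Mat (Fin (N + 1))) (s : SY.SS p n (univ : Finset (Fin (N + 1) → Bool))) :
    ℝ :=
  (4 + 3 * Λ) * SY.xU (Matrix.of U) s.1.1 (Fin.last N) ^ 2 +
    GX.Js eig U s.1.1 (Fin.last N) ^ 2 +
    (∑ i, GX.sphi lam s.2.2 i * U i (Fin.last N)) ^ 2 +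
    GX.sphi lam s.2.2 (Fin.last N) ^ 2 +
    ∑ g, SY.zf s.2.1 g (Fin.last N) ^ 2 + c0

theorem alg_bound {X th Js Ss ph Λ E1 E2 u2 q mf vt A2 z2 Bv : ℝ} (hΛ : 0 ≤ Λ)
    (hth : |th| ≤ |X| + 2)
    (hE1 : |E1| ≤ |Js| + Λ * |X|) (hu2 : |u2| ≤ Λ) (hq : |q| ≤ Λ) (hE2 : |E2| ≤ |Ss| + |ph|)
    (hmf : |mf| ≤ 1 / 2 * A2 + z2) (hvt : |vt| ≤ Bv) :
    (th * E1 - 1 / 2 * th ^ 2 * u2 + 1 / 2 * q * X ^ 2) + mf + (th * E2 + ph * X) + vt ≤
      (4 + 3 * Λ) * X ^ 2 + Js ^ 2 + Ss ^ 2 + ph ^ 2 + z2 +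
        (12 + 8 * Λ + 1 / 2 * A2 + Bv) := by
  have hth2 : th ^ 2 ≤ 2 * X ^ 2 + 8 := by
    have h1 : th ^ 2 ≤ (|X| + 2) ^ 2 := by
      rw [← sq_abs th]
      exact pow_le_pow_left₀ (abs_nonneg _) hth 2
    have h2 : (|X| + 2) ^ 2 ≤ 2 * |X| ^ 2 + 8 := by nlinarith [sq_nonneg (|X| - 2)]
    rw [sq_abs] at h2
    linarith
  have a1 : th * E1 ≤ 1 / 2 * (th ^ 2 + Js ^ 2) + Λ / 2 * (th ^ 2 + X ^ 2) := by
    have h1 : th * E1 ≤ |th| * (|Js| + Λ * |X|) := by
      calc th * E1 ≤ |th * E1| := le_abs_self _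
        _ = |th| * |E1| := abs_mul _ _
        _ ≤ _ := mul_le_mul_of_nonneg_left hE1 (abs_nonneg _)
    have h2 : |th| * |Js| ≤ 1 / 2 * (th ^ 2 + Js ^ 2) := by
      nlinarith [sq_nonneg (|th| - |Js|), sq_abs th, sq_abs Js]
    have h3 : |th| * |X| ≤ 1 / 2 * (th ^ 2 + X ^ 2) := by
      nlinarith [sq_nonneg (|th| - |X|), sq_abs th, sq_abs X]
    have h4 := mul_le_mul_of_nonneg_left h3 hΛ
    nlinarith
  have a2 : -(1 / 2 * th ^ 2 * u2) ≤ 1 / 2 * Λ * th ^ 2 := by
    have := (abs_le.1 hu2).1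
    nlinarith [sq_nonneg th]
  have a3 : 1 / 2 * q * X ^ 2 ≤ 1 / 2 * Λ * X ^ 2 := by
    have := (abs_le.1 hq).2
    nlinarith [sq_nonneg X]
  have a4 : mf ≤ 1 / 2 * A2 + z2 := (le_abs_self _).trans hmf
  have a5 : th * E2 ≤ 1 / 2 * (th ^ 2 + Ss ^ 2) + 1 / 2 * (th ^ 2 + ph ^ 2) := by
    have h1 : th * E2 ≤ |th| * (|Ss| + |ph|) := by
      calc th * E2 ≤ |th * E2| := le_abs_self _
        _ = |th| * |E2| := abs_mul _ _
        _ ≤ _ := mul_le_mul_of_nonneg_left hE2 (abs_nonneg _)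
    have h2 : |th| * |Ss| ≤ 1 / 2 * (th ^ 2 + Ss ^ 2) := by
      nlinarith [sq_nonneg (|th| - |Ss|), sq_abs th, sq_abs Ss]
    have h3 : |th| * |ph| ≤ 1 / 2 * (th ^ 2 + ph ^ 2) := by
      nlinarith [sq_nonneg (|th| - |ph|), sq_abs th, sq_abs ph]
    nlinarith
  have a6 : ph * X ≤ 1 / 2 * (ph ^ 2 + X ^ 2) := by nlinarith [sq_nonneg (ph - X)]
  have a7 : vt ≤ Bv := (le_abs_self _).trans hvt
  have a8 : Λ * th ^ 2 ≤ Λ * (2 * X ^ 2 + 8) := mul_le_mul_of_nonneg_left hth2 hΛ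
  nlinarith [sq_nonneg X, sq_nonneg Js, sq_nonneg Ss]

theorem glS_resS (s : SY.SS p n (univ : Finset (Fin (N + 1) → Bool))) :
    glS (resS s) (fun g => s.2.1 g (Fin.last N), fun g => s.2.2 g (Fin.last N))
      (s.1.1 (Fin.last N)) = s := by
  refine Prod.ext (Subtype.ext ?_) (Prod.ext ?_ ?_)
  · funext i
    refine Fin.lastCases ?_ (fun j => ?_) i
    · show Fin.snoc (α := fun _ => Bool) _ _ _ = _
      rw [Fin.snoc_last]
    · show Fin.snoc (α := fun _ => Bool) _ _ _ = _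
      rw [Fin.snoc_castSucc]; rfl
  · funext g i
    refine Fin.lastCases ?_ (fun j => ?_) i
    · show Fin.snoc (α := fun _ => Fin n → Bool) _ _ _ = _
      rw [Fin.snoc_last]
    · show Fin.snoc (α := fun _ => Fin n → Bool) _ _ _ = _
      rw [Fin.snoc_castSucc]; rfl
  · funext g i
    refine Fin.lastCases ?_ (fun j => ?_) i
    · show Fin.snoc (α := fun _ => Fin n → Bool) _ _ _ = _
      rw [Fin.snoc_last]
    · show Fin.snoc (α := fun _ => Fin n → Bool) _ _ _ = _
      rw [Fin.snoc_castSucc]; rfl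

/-- **the pathwise bound** -/
theorem path_le {Λ : ℝ} (he : ∀ i, |eig i| ≤ Λ) {A2 Bv : ℝ}
    (hA : ∑ g, a (Fin.last N) g ^ 2 ≤ A2) (hv : ∀ σ b, |vT W0 W1 σ b| ≤ Bv)
    {G : Fin (N + 1) → ℝ} (hG : nrm G ≠ 0) (V : Mat (Fin N))
    (s' : SY.SS p n (univ : Finset (Fin (N + 1) → Bool))) :
    HN1 eig W1 a lam (cplS V G) s' - exS (HN eig W0 a lam V) s' ≤
      RR eig lam Λ (12 + 8 * Λ + 1 / 2 * A2 + Bv) (cplS V G) s' := by
  obtain ⟨s, l, b, rfl⟩ : ∃ s l b, glS (N := N) s l b = s' := ⟨_, _, _, glS_resS s'⟩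
  have hex : exS (HN eig W0 a lam V) (glS s l b) = HN eig W0 a lam V s := by
    unfold exS
    rw [resS_glS]
  rw [hex, xw_core eig W0 W1 a lam hG V s l b]
  have hΛ : 0 ≤ Λ := (abs_nonneg _).trans (he (Fin.last N))
  set x := SY.xU (Matrix.of V) s.1.1 with hx
  set θ := sv b - rr G * gz G x with hθ
  set X := sg (un G) * gz G x + un G (Fin.last N) * sv b with hX
  set ul := un G (Fin.last N) with hul
  have hsum := sum_un hG
  have hul1 : |ul| ≤ 1 := by
    have h2 : un G (Fin.last N) ^ 2 ≤ ∑ i, un G i ^ 2 :=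
      Finset.single_le_sum (f := fun i => un G i ^ 2) (fun i _ => sq_nonneg _) (Finset.mem_univ _)
    rw [hsum] at h2
    rw [abs_le_one_iff_mul_self_le_one]
    nlinarith
  -- the coordinates in the `(N+1)`-system
  have hXl : SY.xU (Matrix.of (cplS V G)) (glS s l b).1.1 (Fin.last N) = X := xU_last hG V s.1.1 b
  have hXi : ∀ i : Fin N, SY.xU (Matrix.of (cplS V G)) (glS s l b).1.1 i.castSucc =
      x i + un G i.castSucc * θ := fun i => xU_castSucc hG V s.1.1 b i
  have hJs : GX.Js eig (cplS V G) (glS s l b).1.1 (Fin.last N) =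
      gk G (fun i => eig i.castSucc) x + θ * mu_ (fun i => eig i.castSucc) G +
        ul * (eig (Fin.last N) * X) := by
    unfold GX.Js
    rw [Fin.sum_univ_castSucc]
    simp only [cplS_last_col hG V, hXl, hXi]
    congr 1
    unfold gk mu_
    rw [Finset.mul_sum, ← Finset.sum_add_distrib]
    refine Finset.sum_congr rfl fun i _ => ?_
    ring
  have hph : GX.sphi lam (glS s l b).2.2 (Fin.last N) = L2 lam l := by
    unfold GX.sphi L2
    refine Finset.sum_congr rfl fun g _ => ?_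
    rw [zf_gl2_last]
  have hSs : ∑ i, GX.sphi lam (glS s l b).2.2 i * cplS V G i (Fin.last N) =
      FF lam G s + L2 lam l * ul := by
    rw [Fin.sum_univ_castSucc, hph]
    simp only [cplS_last_col hG V]
    congr 1
    unfold GX.sphi FF
    simp only [Finset.sum_mul]
    rw [Finset.sum_comm]
    refine Finset.sum_congr rfl fun g _ => Finset.sum_congr rfl fun i _ => ?_
    rw [zf_gl2_castSucc]
    ring
  have hz : ∀ g, SY.zf (glS s l b).2.1 g (Fin.last N) = zl l.1 g := fun g => zf_gl_last s l b g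
  unfold RR
  rw [hXl, hJs, hSs, hph]
  simp only [hz]
  set ph := L2 lam l
  set z2 := ∑ g, zl l.1 g ^ 2
  have hsb : |sv b| = 1 := sv_abs b
  have hrr := rr_mem G hG
  have hgz : |gz G x| ≤ |X| + 1 := by
    have h1 : gz G x = sg (un G) * (X - ul * sv b) := by
      rw [hX]
      have := sg_mul_self (un G)
      calc gz G x = (sg (un G) * sg (un G)) * gz G x := by rw [this, one_mul]
        _ = _ := by ring
    have h2 : |sg (un G)| = 1 := by
      have := sg_mul_self (un G)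
      have h3 : |sg (un G)| * |sg (un G)| = 1 := by rw [← abs_mul, this, abs_one]
      nlinarith [abs_nonneg (sg (un G))]
    rw [h1, abs_mul, h2, one_mul]
    refine (abs_sub _ _).trans ?_
    rw [abs_mul, hsb, mul_one]
    linarith
  have hth : |θ| ≤ |X| + 2 := by
    rw [hθ]
    refine (abs_sub _ _).trans ?_
    rw [abs_mul, hsb, abs_of_pos (by linarith [hrr.1] : 0 < rr G)]
    have : rr G * |gz G x| ≤ 1 * (|X| + 1) :=
      mul_le_mul hrr.2 hgz (abs_nonneg _) (by norm_num)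
    linarith
  have hmu : |mu_ (fun i => eig i.castSucc) G| ≤ Λ := by
    unfold mu_
    refine (Finset.abs_sum_le_sum_abs _ _).trans ?_
    have h1 : ∀ i : Fin N, |eig i.castSucc * un G i.castSucc ^ 2| ≤ Λ * un G i.castSucc ^ 2 := by
      intro i
      rw [abs_mul, abs_of_nonneg (sq_nonneg (un G i.castSucc))]
      exact mul_le_mul_of_nonneg_right (he _) (sq_nonneg _)
    refine (Finset.sum_le_sum fun i _ => h1 i).trans ?_
    rw [← Finset.mul_sum]
    have h2 : ∑ i : Fin N, un G i.castSucc ^ 2 ≤ 1 := by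
      rw [Fin.sum_univ_castSucc] at hsum
      nlinarith [sq_nonneg (un G (Fin.last N))]
    nlinarith
  set gkk := gk G (fun i => eig i.castSucc) x
  set muu := mu_ (fun i => eig i.castSucc) G
  set q := eig (Fin.last N)
  have hq : |q| ≤ Λ := he _
  have hmf : |sv b * yb (a (Fin.last N)) l| ≤ 1 / 2 * A2 + z2 := by
    rw [abs_mul, hsb, one_mul]
    unfold yb
    refine (Finset.abs_sum_le_sum_abs _ _).trans ?_
    have h1 : ∀ g, |a (Fin.last N) g * zl l.1 g| ≤
        1 / 2 * a (Fin.last N) g ^ 2 + zl l.1 g ^ 2 := by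
      intro g
      rw [abs_mul]
      nlinarith [sq_nonneg (|a (Fin.last N) g| - |zl l.1 g|), sq_abs (a (Fin.last N) g),
        sq_abs (zl l.1 g), sq_nonneg (zl l.1 g)]
    refine (Finset.sum_le_sum fun g _ => h1 g).trans ?_
    rw [Finset.sum_add_distrib, ← Finset.mul_sum]
    have : 1 / 2 * ∑ g, a (Fin.last N) g ^ 2 ≤ 1 / 2 * A2 :=
      mul_le_mul_of_nonneg_left hA (by norm_num)
    linarith
  have h := alg_bound (X := X) (th := θ) (Js := gkk + θ * muu + ul * (q * X))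
    (Ss := FF lam G s + ph * ul) (ph := ph) (Λ := Λ) (E1 := gkk + θ * muu)
    (E2 := FF lam G s) (u2 := muu) (q := q) (mf := sv b * yb (a (Fin.last N)) l)
    (vt := W1 (Fin.snoc (α := fun _ => Bool) s.1.1 b) - W0 s.1.1) (A2 := A2) (z2 := z2)
    (Bv := Bv) hΛ hth ?_ hmu hq ?_ hmf (hv s.1.1 b)
  · refine le_trans (le_of_eq ?_) h
    ring
  · have e : gkk + θ * muu = (gkk + θ * muu + ul * (q * X)) - ul * (q * X) := by ring
    conv_lhs => rw [e]
    refine (abs_sub _ _).trans ?_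
    have : |ul * (q * X)| ≤ Λ * |X| := by
      rw [abs_mul, abs_mul]
      calc |ul| * (|q| * |X|) ≤ 1 * (Λ * |X|) :=
            mul_le_mul hul1 (mul_le_mul_of_nonneg_right hq (abs_nonneg _))
              (mul_nonneg (abs_nonneg _) (abs_nonneg _)) (by norm_num)
        _ = Λ * |X| := one_mul _
    linarith
  · have e : FF lam G s = (FF lam G s + ph * ul) - ph * ul := by ring
    conv_lhs => rw [e]
    refine (abs_sub _ _).trans ?_
    have : |ph * ul| ≤ |ph| := by
      rw [abs_mul]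
      calc |ph| * |ul| ≤ |ph| * 1 := mul_le_mul_of_nonneg_left hul1 (abs_nonneg _)
        _ = |ph| := mul_one _
    linarith

end

end Crest.Agent.R164.LCr
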