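import Crest.Agent.R164.LCrude1
import Crest.Agent.R164.EDlaw

/-!
Row 164, L side (helper494): upper bound of the increment of the free energy, part 2: averages.
-/

set_option autoImplicit false
set_option linter.unusedSectionVars false

namespace Crest.Agent.R164.LCr

open Finset MeasureTheory Crest.Agent.R141 Crest.Agent.R164 Crest.Agent.R164.PF
  Crest.Agent.R164.Haar Crest.Agent.R164.ED
open Crest.ProbabilityR.InvariantGlass

noncomputable section

variable {p : Par} {N n : ℕ}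

/-- dependence of the free energy on the pointers. -/
theorem Phi_d_le (hnb : p.nb = 0) {M : ℕ} (H : (BU p M n).S → ℝ) (d d' : DD p M) :
    |G.Phi (BU p M n) H d - G.Phi (BU p M n) H d'| ≤ p.nc * p.T * p.τ := by
  have h1 : ∀ ω, |G.UU (BU p M n) H d ω - G.UU (BU p M n) H d' ω| ≤ p.nc * p.T * p.τ := by
    intro ω
    have b1 := CSys.WW_bounds (n := n) (A := (Finset.univ : Finset (Fin M → Bool)))
      univ_nonempty hnb d ω
    have b2 := CSys.WW_bounds (n := n) (A := (Finset.univ : Finset (Fin M → Bool)))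
      univ_nonempty hnb d' ω
    unfold G.UU
    rw [abs_le]
    constructor <;> linarith [b1.1, b1.2, b2.1, b2.2]
  unfold G.Phi
  rw [← eE_sub]
  exact LS2.abs_eE_le (G.prior_isProb (BU p M n)) fun ω =>
    A_sub_abs_le (G.prior_isProb (BU p M n)) p.xs_expo.pos h1 0 ω

/-- the Hamiltonians are admissible families -/
theorem adm_Hs {M : ℕ} (eig : Fin M → ℝ) (t : ℝ) (W : (Fin M → Bool) → ℝ)
    (a lam : Fin M → Fin p.nc → ℝ) {ν : Measure (Mat (Fin M))} (hν : RHaar ν) :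
    LS2.Adm (BU p M n) ν (fun U => GX.Hs (n := n) (A := univ) eig t W a lam U) where
  meas s := (GX.continuous_Hs s).measurable
  bdd := by
    obtain ⟨C, _, hC⟩ := Rot.exists_bound
      (fun (U : Fin M → Fin M → ℝ) (s : SY.SS p n (univ : Finset (Fin M → Bool))) =>
        GX.Hs (n := n) (A := univ) eig t W a lam U s)
      (fun s => GX.continuous_Hs s)
    refine ⟨C, ?_⟩
    filter_upwards [hν.mem] with U hU s
    exact hC U hU s

variable {eig : Fin (N + 1) → ℝ} {W0 : (Fin N → Bool) → ℝ} {W1 : (Fin (N + 1) → Bool) → ℝ}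
  {a lam : Fin (N + 1) → Fin p.nc → ℝ}

theorem continuous_RR (Λ c0 : ℝ) (s : SY.SS p n (univ : Finset (Fin (N + 1) → Bool))) :
    Continuous fun U : Mat (Fin (N + 1)) => RR eig lam Λ c0 U s := by
  unfold RR
  refine Continuous.add (Continuous.add (Continuous.add (Continuous.add (Continuous.add ?_ ?_) ?_)
    continuous_const) continuous_const) continuous_const
  · exact continuous_const.mul ((GX.continuous_xU s.1.1 (Fin.last N)).pow 2)
  · exact (GX.continuous_Js s.1.1 (Fin.last N)).pow 2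
  · fun_prop

theorem RR_nonneg {Λ c0 : ℝ} (hΛ : 0 ≤ Λ) (hc : 0 ≤ c0) (U : Mat (Fin (N + 1)))
    (s : SY.SS p n (univ : Finset (Fin (N + 1) → Bool))) : 0 ≤ RR eig lam Λ c0 U s := by
  unfold RR
  have h1 : 0 ≤ ∑ g, SY.zf s.2.1 g (Fin.last N) ^ 2 := Finset.sum_nonneg fun _ _ => sq_nonneg _
  positivity

theorem adm_RR {Λ c0 : ℝ} (hΛ : 0 ≤ Λ) (hc : 0 ≤ c0) :
    TLaw.Adm (p := p) (N := N) (n := n) (fun U _ ω => RR eig lam Λ c0 U ω.1) where
  meas _ ω := (continuous_RR Λ c0 ω.1).measurable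
  nn U _ ω := RR_nonneg hΛ hc U ω.1
  bdd := by
    obtain ⟨C, _, hC⟩ := Rot.exists_bound
      (fun (U : Fin (N + 1) → Fin (N + 1) → ℝ)
        (s : SY.SS p n (univ : Finset (Fin (N + 1) → Bool))) => RR eig lam Λ c0 U s)
      (fun s => continuous_RR Λ c0 s)
    exact ⟨C, fun U hU _ ω => (le_abs_self _).trans (hC U hU ω.1)⟩

variable {μ : Measure (Mat (Fin N))} [IsProbabilityMeasure μ]
  {ν : Measure (Mat (Fin (N + 1)))} [IsProbabilityMeasure ν]

/-- **upper bound of the increment by the moments of the `(N+1)`-system.** -/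
theorem incr_le (hnb : p.nb = 0) (hN : 0 < N) (hT : p.nc * p.T ≤ N) (hμ : RHaar μ)
    (hν : RHaar ν) {Λ : ℝ} (he : ∀ i, |eig i| ≤ Λ) {A2 Bv : ℝ}
    (hA : ∑ g, a (Fin.last N) g ^ 2 ≤ A2) (hv : ∀ σ b, |vT W0 W1 σ b| ≤ Bv) (hBv : 0 ≤ Bv) :
    ∫ U, Ed p (N + 1) (fun d => G.Phi (BU p (N + 1) n) (HN1 eig W1 a lam U) d) ∂ν -
      ∫ V, Ed p N (fun d => G.Phi (BU p N n) (HN eig W0 a lam V) d) ∂μ ≤
      3 * TLaw.EE1 (n := n) eig W1 a lam ν
        (fun U _ ω => RR eig lam Λ (12 + 8 * Λ + 1 / 2 * A2 + Bv) U ω.1) +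
      p.nc * p.T * (p.nc * p.T * p.τ) / ((N : ℝ) + 1) := by
  have hΛ : 0 ≤ Λ := (abs_nonneg _).trans (he (Fin.last N))
  have hA2 : 0 ≤ A2 := (Finset.sum_nonneg fun _ _ => sq_nonneg _).trans hA
  set c0 := 12 + 8 * Λ + 1 / 2 * A2 + Bv with hc0
  have hc0' : 0 ≤ c0 := by rw [hc0]; positivity
  have hH1 := adm_Hs (n := n) eig 1 W1 a lam hν
  have hH0 := adm_Hs (n := n) (fun i : Fin N => eig i.castSucc) 1 W0 (fun i => a i.castSucc)
    (fun i => lam i.castSucc) hμ
  have hR := adm_RR (p := p) (N := N) (n := n) (eig := eig) (lam := lam) hΛ hc0'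
  -- step 1: law of the pointers
  set F : Mat (Fin (N + 1)) → ℝ := fun U =>
    Ed p (N + 1) (fun d => G.Phi (BU p (N + 1) n) (HN1 eig W1 a lam U) d) with hF
  set F' : Mat (Fin (N + 1)) → ℝ := fun U =>
    Ed p N (fun d => G.Phi (BU p (N + 1) n) (HN1 eig W1 a lam U) (F4.liftD p N d)) with hF'
  set F0 : Mat (Fin N) → ℝ := fun V =>
    Ed p N (fun d => G.Phi (BU p N n) (HN eig W0 a lam V) d) with hF0
  set K : ℝ := p.nc * p.T * (p.nc * p.T * p.τ) / ((N : ℝ) + 1) with hK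
  have h1 : ∀ U, F U ≤ F' U + K := by
    intro U
    have h := EDlaw.Ed_succ_sub p hN
      (fun d => G.Phi (BU p (N + 1) n) (HN1 eig W1 a lam U) d)
      (G.Phi (BU p (N + 1) n) (HN1 eig W1 a lam U) (fun _ => none)) (M := p.nc * p.T * p.τ)
      (fun d => Phi_d_le hnb _ d _)
    have h2 := (abs_le.1 h).2
    have h3 : Ed p N (fun d => G.Phi (BU p (N + 1) n) (HN1 eig W1 a lam U)
        (EDlaw.emb p d)) = F' U := rfl
    rw [h3] at h2
    show Ed p (N + 1) (fun d => G.Phi (BU p (N + 1) n) (HN1 eig W1 a lam U) d) ≤ F' U + K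
    linarith
  have iF : Integrable F ν := by
    rw [hF]
    unfold Ed
    exact integrable_finsetSum _ fun d _ => (hH1.int_Phi d).const_mul _
  have iF' : Integrable F' ν := by
    rw [hF']
    unfold Ed
    exact integrable_finsetSum _ fun d _ => (hH1.int_Phi _).const_mul _
  have iF0 : Integrable F0 μ := by
    rw [hF0]
    unfold Ed
    exact integrable_finsetSum _ fun d _ => (hH0.int_Phi d).const_mul _
  have h2 : ∫ U, F U ∂ν ≤ ∫ U, F' U ∂ν + K := by
    have h3 := integral_mono iF (iF'.add (integrable_const K)) h1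
    have h4 : ∫ U, (F' U + K) ∂ν = ∫ U, F' U ∂ν + K := by
      rw [integral_add iF' (integrable_const K)]
      simp
    exact h3.trans_eq h4
  -- step 2: coupling
  have h3 := cplS_integral hμ hν F' iF'.aestronglyMeasurable
  set P := μ.prod (gam (Fin (N + 1))) with hP
  set IAq : Mat (Fin N) × (Fin (N + 1) → ℝ) → ℝ := fun q => Ed p N (fun d =>
    TLaw.IA (n := n) eig W1 a lam (fun U _ ω => RR eig lam Λ c0 U ω.1) (F4.liftD p N d)
      (cplS q.1 q.2))
    with hIAq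
  have iIA : Integrable IAq P := TLaw.integrable_lift hN hT hμ hν hR
  have iF0q : Integrable (fun q : Mat (Fin N) × (Fin (N + 1) → ℝ) => F0 q.1) P :=
    iF0.comp_fst (gam (Fin (N + 1)))
  have iF'q : Integrable (fun q : Mat (Fin N) × (Fin (N + 1) → ℝ) => F' (cplS q.1 q.2)) P :=
    TLaw.integrable_cplS hμ hν iF'
  have hae : ∀ᵐ q ∂P, nrm q.2 ≠ 0 :=
    (Measure.quasiMeasurePreserving_snd).ae gam_nrm_ne_zero
  have h4 : ∫ q, F' (cplS q.1 q.2) ∂P ≤ ∫ q, (F0 q.1 + IAq q) ∂P := by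
    refine integral_mono_ae iF'q (iF0q.add iIA) ?_
    filter_upwards [hae] with q hq
    show F' (cplS q.1 q.2) ≤ F0 q.1 + IAq q
    rw [hF', hF0, hIAq, ← Ed_add]
    refine Ed_mono p N fun d => ?_
    have h5 := Phi_le_res (n := n) hnb (HN eig W0 a lam q.1) (HN1 eig W1 a lam (cplS q.1 q.2)) d
    have h6 : eE (G.PP (BU p (N + 1) n) (HN1 eig W1 a lam (cplS q.1 q.2)) (F4.liftD p N d))
        (fun ω => HN1 eig W1 a lam (cplS q.1 q.2) ω.1 - exS (HN eig W0 a lam q.1) ω.1) ≤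
        TLaw.IA (n := n) eig W1 a lam (fun U _ ω => RR eig lam Λ c0 U ω.1) (F4.liftD p N d)
          (cplS q.1 q.2) := by
      unfold TLaw.IA
      exact eE_mono (G.PP_isProb _ _ _) fun ω =>
        path_le eig W0 W1 a lam he hA hv hq q.1 ω.1
    linarith
  have h5 : ∫ q, (F0 q.1 + IAq q) ∂P = ∫ V, F0 V ∂μ + ∫ q, IAq q ∂P := by
    rw [integral_add iF0q iIA]
    congr 1
    rw [hP, integral_fun_fst]
    simp
  have h6 : ∫ q, IAq q ∂P ≤ 3 * TLaw.EE1 (n := n) eig W1 a lam ν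
      (fun U _ ω => RR eig lam Λ c0 U ω.1) := TLaw.tl0 hN hT hμ hν hR
  linarith

end

end Crest.Agent.R164.LCr
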