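import Crest.Agent.R164.LCrude2

/-!
Row 164, L side (helper494): upper bound of the increment of the free energy, part 3: the moments
of the `(N+1)`-system.
-/

set_option autoImplicit false
set_option linter.unusedSectionVars false

namespace Crest.Agent.R164.LCr

open Finset MeasureTheory Crest.Agent.R141 Crest.Agent.R164 Crest.Agent.R164.PF
  Crest.Agent.R164.Haar Crest.Agent.R164.ED
open Crest.ProbabilityR.InvariantGlass

noncomputable section

variable {p : Par} {M n : ℕ} {eig : Fin M → ℝ} {W : (Fin M → Bool) → ℝ}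
  {a lam : Fin M → Fin p.nc → ℝ} {ν : Measure (Mat (Fin M))} [IsProbabilityMeasure ν]

theorem sum_zf_sq_le_Tc (c : SY.FC p M n) (g : Fin p.nc) :
    ∑ i, SY.zf c g i ^ 2 ≤ CSys.Tc c := LS2.sum_zf_le c g

theorem sum_sphi_sq_le {S : ℝ} (hS : ∀ i, ∑ g, lam i g ^ 2 ≤ S) (c : SY.FC p M n) :
    ∑ i, GX.sphi lam c i ^ 2 ≤ S * CSys.Tc c := by
  unfold GX.sphi CSys.Tc
  rw [Finset.sum_comm (s := (Finset.univ : Finset (Fin p.nc))), Finset.mul_sum]
  refine Finset.sum_le_sum fun i _ => ?_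
  refine (Finset.sum_mul_sq_le_sq_mul_sq _ _ _).trans ?_
  exact mul_le_mul_of_nonneg_right (hS i) (Finset.sum_nonneg fun _ _ => sq_nonneg _)

/-- second moments of the coins in the average `EE` -/
theorem EE_Ts_le (hnb : p.nb = 0) (hM : 0 < M) (hν : RHaar ν) {Λ0 Λ Λa BV : ℝ}
    (he : ∀ i, |eig i| ≤ Λ0) (hl : ∀ i g, |lam i g| ≤ Λ) (ha : ∀ i g, |a i g| ≤ Λa)
    (hW : ∀ σ, |W σ| ≤ BV * M) :
    GX.EE (n := n) (A := univ) univ_nonempty ν eig 1 W a lam (fun _ _ ω => CSys.Ts ω.1) ≤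
      CSys.CT p Λ0 Λ Λa BV * M := by
  unfold GX.EE
  have h1 : ∀ᵐ U ∂ν, Ed p M (fun d => eE (G.PP (SY.base p n univ univ_nonempty)
      (GX.Hs eig 1 W a lam U) d) (fun ω => CSys.Ts ω.1)) ≤ CSys.CT p Λ0 Λ Λa BV * M := by
    filter_upwards [hν.mem] with U hU
    calc Ed p M (fun d => eE (G.PP (SY.base p n univ univ_nonempty)
        (GX.Hs eig 1 W a lam U) d) (fun ω => CSys.Ts ω.1))
        ≤ Ed p M (fun _ => CSys.CT p Λ0 Λ Λa BV * M) := by
          refine Ed_mono p M fun d => ?_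
          exact CSys.eE_Ts_HU (n := n) (A := (Finset.univ : Finset (Fin M → Bool)))
            univ_nonempty eig 1 W a lam d hnb hM he (by norm_num) hl ha hW hU
      _ = _ := Ed_const p hM _
  have hi := GX.integrable_Ed (n := n) (A := (univ : Finset (Fin M → Bool)))
    (hA := univ_nonempty) (eig := eig) (t := 1) (V := W) (a := a) (lam := lam) hν
    (O := fun _ _ ω => CSys.Ts ω.1) (fun _ _ => continuous_const)
  calc _ ≤ ∫ _U : Mat (Fin M), CSys.CT p Λ0 Λ Λa BV * M ∂ν :=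
        integral_mono_ae hi (integrable_const _) h1
    _ = _ := by simp

theorem cancel_le {δ M c e B : ℝ} (hδ : 0 < δ) (hM : 0 < M) (hc : δ * M ≤ c) (he : 0 ≤ e)
    (h : c * e ≤ B * M) : e ≤ B / δ := by
  rw [le_div_iff₀ hδ]
  have h1 : δ * M * e ≤ c * e := mul_le_mul_of_nonneg_right hc he
  have h2 : M * (e * δ) ≤ M * B := by nlinarith
  exact le_of_mul_le_mul_left h2 hM

theorem EE_nonneg' {O : Mat (Fin M) → DD p M → G.Om (SY.base p n univ univ_nonempty) → ℝ}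
    (hM : 0 < M) (hν : RHaar ν) (hO : ∀ d ω, Continuous fun U => O U d ω)
    (h : ∀ U d ω, 0 ≤ O U d ω) :
    0 ≤ GX.EE (n := n) (A := univ) univ_nonempty ν eig 1 W a lam O := by
  have h1 := GX.EE_mono (n := n) (A := (univ : Finset (Fin M → Bool))) (hA := univ_nonempty)
    (eig := eig) (t := 1) (V := W) (a := a) (lam := lam) hν (O := fun _ _ _ => 0) (O' := O)
    (fun _ _ => continuous_const) hO (fun U _ d ω => h U d ω)
  rwa [GX.EE_const hM] at h1

end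

end Crest.Agent.R164.LCr

namespace Crest.Agent.R164.LCr

open Finset MeasureTheory Crest.Agent.R141 Crest.Agent.R164 Crest.Agent.R164.PF
  Crest.Agent.R164.Haar Crest.Agent.R164.ED
open Crest.ProbabilityR.InvariantGlass

noncomputable section

variable {p : Par} {N n : ℕ} {eig : Fin (N + 1) → ℝ} {W1 : (Fin (N + 1) → Bool) → ℝ}
  {a lam : Fin (N + 1) → Fin p.nc → ℝ} {ν : Measure (Mat (Fin (N + 1)))} [IsProbabilityMeasure ν]

/-- **the moments of the bound** -/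
theorem EE_RR_le (hnb : p.nb = 0) (hν : RHaar ν) {Λ0 Λ Λa BV S δ c0 : ℝ}
    (he : ∀ i, |eig i| ≤ Λ0) (hl : ∀ i g, |lam i g| ≤ Λ) (ha : ∀ i g, |a i g| ≤ Λa)
    (hW : ∀ σ, |W1 σ| ≤ BV * ((N : ℝ) + 1)) (hS : ∀ i, ∑ g, lam i g ^ 2 ≤ S) (hδ : 0 < δ)
    {Cl Gr : Finset (Fin (N + 1))}
    (hCl : ∀ i ∈ Cl, GX.Inv (Equiv.swap (Fin.last N) i) 1 eig W1 a lam)
    (hGr : ∀ i ∈ Gr, GX.Inv 1 (Equiv.swap (Fin.last N) i) eig W1 a lam)
    (hcl : δ * ((N : ℝ) + 1) ≤ Cl.card) (hgr : δ * ((N : ℝ) + 1) ≤ Gr.card) :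
    TLaw.EE1 (n := n) eig W1 a lam ν (fun U _ ω => RR eig lam Λ0 c0 U ω.1) ≤
      ((4 + 3 * Λ0) + Λ0 ^ 2 + 2 * (S * CSys.CT p Λ0 Λ Λa BV) + CSys.CT p Λ0 Λ Λa BV) / δ +
        c0 := by
  have hM : (0 : ℝ) < (N : ℝ) + 1 := by positivity
  have hM' : 0 < N + 1 := Nat.succ_pos N
  have hΛ0 : 0 ≤ Λ0 := (abs_nonneg _).trans (he (Fin.last N))
  have hS0 : 0 ≤ S := (Finset.sum_nonneg fun _ _ => sq_nonneg _).trans (hS (Fin.last N))
  set CT := CSys.CT p Λ0 Λ Λa BV with hCT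
  -- the averages
  set X2 : Mat (Fin (N + 1)) → DD p (N + 1) → OU p (N + 1) n → ℝ :=
    fun U _ ω => SY.xU (Matrix.of U) ω.1.1.1 (Fin.last N) ^ 2 with hX2
  set J2 : Mat (Fin (N + 1)) → DD p (N + 1) → OU p (N + 1) n → ℝ :=
    fun U _ ω => GX.Js eig U ω.1.1.1 (Fin.last N) ^ 2 with hJ2
  set S2 : Mat (Fin (N + 1)) → DD p (N + 1) → OU p (N + 1) n → ℝ :=
    fun U _ ω => (∑ i, GX.sphi lam ω.1.2.2 i * U i (Fin.last N)) ^ 2 with hS2
  set P2 : Mat (Fin (N + 1)) → DD p (N + 1) → OU p (N + 1) n → ℝ :=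
    fun _ _ ω => GX.sphi lam ω.1.2.2 (Fin.last N) ^ 2 with hP2
  set Z2 : Fin p.nc → Mat (Fin (N + 1)) → DD p (N + 1) → OU p (N + 1) n → ℝ :=
    fun g _ _ ω => SY.zf ω.1.2.1 g (Fin.last N) ^ 2 with hZ2
  set E : (Mat (Fin (N + 1)) → DD p (N + 1) → OU p (N + 1) n → ℝ) → ℝ :=
    fun O => GX.EE (n := n) (A := univ) univ_nonempty ν eig 1 W1 a lam O with hE
  have cX : ∀ (d : DD p (N + 1)) (ω : OU p (N + 1) n), Continuous fun U => X2 U d ω :=
    fun d ω => (GX.continuous_xU ω.1.1.1 (Fin.last N)).pow 2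
  have cJ : ∀ (d : DD p (N + 1)) (ω : OU p (N + 1) n), Continuous fun U => J2 U d ω :=
    fun d ω => (GX.continuous_Js ω.1.1.1 (Fin.last N)).pow 2
  have cS : ∀ (d : DD p (N + 1)) (ω : OU p (N + 1) n), Continuous fun U => S2 U d ω := by
    intro d ω
    rw [hS2]
    fun_prop
  have cP : ∀ (d : DD p (N + 1)) (ω : OU p (N + 1) n), Continuous fun U => P2 U d ω :=
    fun d ω => continuous_const
  have cZ : ∀ (g : Fin p.nc) (d : DD p (N + 1)) (ω : OU p (N + 1) n),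
      Continuous fun U => Z2 g U d ω := fun g d ω => continuous_const
  -- decomposition
  have hdec : TLaw.EE1 (n := n) eig W1 a lam ν (fun U _ ω => RR eig lam Λ0 c0 U ω.1) =
      (4 + 3 * Λ0) * E X2 + E J2 + E S2 + E P2 + ∑ g, E (Z2 g) + c0 := by
    have e1 : (fun (U : Mat (Fin (N + 1))) (_ : DD p (N + 1)) (ω : OU p (N + 1) n) =>
        RR eig lam Λ0 c0 U ω.1) = fun U d ω => ((((4 + 3 * Λ0) * X2 U d ω + J2 U d ω) +
          S2 U d ω + P2 U d ω) + ∑ g, Z2 g U d ω) + c0 := rfl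
    have k1 : ∀ (d : DD p (N + 1)) (ω : OU p (N + 1) n),
        Continuous fun U => (4 + 3 * Λ0) * X2 U d ω := fun d ω => continuous_const.mul (cX d ω)
    have k2 : ∀ (d : DD p (N + 1)) (ω : OU p (N + 1) n),
        Continuous fun U => (4 + 3 * Λ0) * X2 U d ω + J2 U d ω :=
      fun d ω => (k1 d ω).add (cJ d ω)
    have k3 : ∀ (d : DD p (N + 1)) (ω : OU p (N + 1) n),
        Continuous fun U => (4 + 3 * Λ0) * X2 U d ω + J2 U d ω + S2 U d ω :=
      fun d ω => (k2 d ω).add (cS d ω)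
    have k4 : ∀ (d : DD p (N + 1)) (ω : OU p (N + 1) n),
        Continuous fun U => (4 + 3 * Λ0) * X2 U d ω + J2 U d ω + S2 U d ω + P2 U d ω :=
      fun d ω => (k3 d ω).add (cP d ω)
    have k5 : ∀ (d : DD p (N + 1)) (ω : OU p (N + 1) n),
        Continuous fun U => ∑ g, Z2 g U d ω :=
      fun d ω => continuous_finsetSum _ fun g _ => cZ g d ω
    have k6 : ∀ (d : DD p (N + 1)) (ω : OU p (N + 1) n),
        Continuous fun U => ((4 + 3 * Λ0) * X2 U d ω + J2 U d ω + S2 U d ω + P2 U d ω) +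
          ∑ g, Z2 g U d ω := fun d ω => (k4 d ω).add (k5 d ω)
    show GX.EE (n := n) (A := univ) univ_nonempty ν eig 1 W1 a lam _ = _
    rw [e1, GX.EE_add hν k6 (fun _ _ => continuous_const), GX.EE_add hν k4 k5,
      GX.EE_add hν k3 cP, GX.EE_add hν k2 cS, GX.EE_add hν k1 cJ, GX.EE_smul, GX.EE_const hM',
      GX.EE_sum hν univ (fun g _ => cZ g)]
  rw [hdec]
  have hTs : E (fun _ _ ω => CSys.Ts ω.1) ≤ CT * ((N : ℝ) + 1) := by
    have h := EE_Ts_le (n := n) hnb hM' hν he hl ha (W := W1) (BV := BV)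
      (fun σ => by push_cast; exact hW σ)
    push_cast at h
    exact h
  have hTs0 : 0 ≤ E (fun _ _ ω => CSys.Ts ω.1) :=
    EE_nonneg' hM' hν (fun _ _ => continuous_const) (fun _ _ ω => CSys.Ts_nonneg ω.1)
  have hCT0 : 0 ≤ CT := by
    by_contra hneg
    push Not at hneg
    have : CT * ((N : ℝ) + 1) < 0 := mul_neg_of_neg_of_pos hneg hM
    linarith
  have hphi : E (fun _ _ ω => ∑ i, GX.sphi lam ω.1.2.2 i ^ 2) ≤ S * CT * ((N : ℝ) + 1) := by
    have h1 : E (fun _ _ ω => ∑ i, GX.sphi lam ω.1.2.2 i ^ 2) ≤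
        E (fun _ _ ω => S * CSys.Ts ω.1) := by
      refine GX.EE_mono hν (fun _ _ => continuous_const) (fun _ _ => continuous_const)
        fun U _ d ω => ?_
      refine (sum_sphi_sq_le hS ω.1.2.2).trans (mul_le_mul_of_nonneg_left ?_ hS0)
      unfold CSys.Ts
      linarith [CSys.Tc_nonneg ω.1.2.1]
    have h2 : E (fun _ _ ω => S * CSys.Ts ω.1) = S * E (fun _ _ ω => CSys.Ts ω.1) :=
      GX.EE_smul _ _
    rw [h2] at h1
    have h3 := mul_le_mul_of_nonneg_left hTs hS0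
    linarith
  have b1 : E X2 ≤ 1 / δ := by
    refine cancel_le hδ hM hcl (EE_nonneg' hM' hν cX fun _ _ _ => sq_nonneg _) ?_
    have h := GX.T1 (n := n) (A := (univ : Finset (Fin (N + 1) → Bool))) (hA := univ_nonempty)
      (t := 1) hν hM' hCl
    push_cast at h
    rw [one_mul]
    exact h
  have b2 : E J2 ≤ Λ0 ^ 2 / δ := by
    refine cancel_le hδ hM hgr (EE_nonneg' hM' hν cJ fun _ _ _ => sq_nonneg _) ?_
    have h := GX.T2 (n := n) (A := (univ : Finset (Fin (N + 1) → Bool))) (hA := univ_nonempty)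
      (t := 1) hν hM' he hGr (fun _ _ σ => GX.univ_mem_iff _ σ)
    push_cast at h
    exact h
  have b3 : E S2 ≤ S * CT / δ := by
    refine cancel_le hδ hM hgr (EE_nonneg' hM' hν cS fun _ _ _ => sq_nonneg _) ?_
    have h := GX.T3 (n := n) (A := (univ : Finset (Fin (N + 1) → Bool))) (hA := univ_nonempty)
      (t := 1) hν hGr (fun _ _ σ => GX.univ_mem_iff _ σ)
    exact h.trans hphi
  have b4 : E P2 ≤ S * CT / δ := by
    refine cancel_le hδ hM hcl (EE_nonneg' hM' hν cP fun _ _ _ => sq_nonneg _) ?_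
    have h := GX.T4' (n := n) (A := (univ : Finset (Fin (N + 1) → Bool))) (hA := univ_nonempty)
      (t := 1) hν hCl
    exact h.trans hphi
  have b5 : ∑ g, E (Z2 g) ≤ CT / δ := by
    refine cancel_le hδ hM hgr (Finset.sum_nonneg fun g _ =>
      EE_nonneg' hM' hν (cZ g) fun _ _ _ => sq_nonneg _) ?_
    have h1 : ∀ g, (Gr.card : ℝ) * E (Z2 g) ≤ E (fun _ _ ω => ∑ j, SY.zf ω.1.2.1 g j ^ 2) :=
      fun g => GX.T6 (n := n) (A := (univ : Finset (Fin (N + 1) → Bool)))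
        (hA := univ_nonempty) (t := 1) hν g hGr (fun _ _ σ => GX.univ_mem_iff _ σ)
    rw [Finset.mul_sum]
    refine (Finset.sum_le_sum fun g _ => h1 g).trans ?_
    have h2 : ∑ g, E (fun _ _ ω => ∑ j, SY.zf ω.1.2.1 g j ^ 2) =
        E (fun _ _ ω => ∑ g, ∑ j, SY.zf ω.1.2.1 g j ^ 2) :=
      (GX.EE_sum (O := fun g _ _ ω => ∑ j, SY.zf ω.1.2.1 g j ^ 2) hν univ
        (fun g _ _ _ => continuous_const)).symm
    rw [h2]
    refine le_trans ?_ hTs
    refine GX.EE_mono hν (fun _ _ => continuous_const) (fun _ _ => continuous_const)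
      fun U _ d ω => ?_
    unfold CSys.Ts
    have := CSys.Tc_nonneg ω.1.2.2
    have h3 : ∑ g, ∑ j, SY.zf ω.1.2.1 g j ^ 2 = CSys.Tc ω.1.2.1 := rfl
    rw [h3]
    linarith
  have b1' := mul_le_mul_of_nonneg_left b1 (by positivity : 0 ≤ 4 + 3 * Λ0)
  have e : ((4 + 3 * Λ0) + Λ0 ^ 2 + 2 * (S * CT) + CT) / δ =
      (4 + 3 * Λ0) * (1 / δ) + Λ0 ^ 2 / δ + S * CT / δ + S * CT / δ + CT / δ := by ring
  rw [e]
  linarith

end

end Crest.Agent.R164.LCr
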