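import Crest.Agent.R164.FieldGroup2
import Crest.Agent.R164.CvE
import Crest.Agent.R164.Mag1

/-!
Row 164, L side (helper275): the explicit side of contact.

For a step field `hv` and a nondecreasing nonnegative `c : Fin k → ℝ`, the function
`β ↦ fieldValueAt b w (hv + β² c) + β² c_last / 2` is convex and differentiable with derivative
`β (c_last - Σ w_i c_i pAt_i)`; `b ↦ fieldValueAt b w hv` is convex and differentiable with
derivative `magAt`.  Also the elementary contact lemma.
-/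

set_option autoImplicit false

namespace Crest.Agent.R164.LDeriv

open MeasureTheory Set Filter Topology ProbabilityTheory
open Crest.ProbabilityR.InvariantGlass
open Crest.Agent.R164.GC

noncomputable section

/-! ### contact lemma -/

/-- **Contact lemma** (one sided bounds). `g` is above its tangent with slope `D`;
`g ≤ f + dl` at `±y`, `f ≤ g + dl` at `0`, `f (±y) ≤ f 0 ± y T + e`. -/
theorem contact {f g : ℝ → ℝ} {T D y dl e : ℝ} (hy : 0 < y)
    (hg : ∀ x, g 0 + D * x ≤ g x) (h1 : g y ≤ f y + dl) (h2 : g (-y) ≤ f (-y) + dl)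
    (h0 : f 0 ≤ g 0 + dl) (f1 : f y ≤ f 0 + y * T + e) (f2 : f (-y) ≤ f 0 - y * T + e) :
    |T - D| ≤ (2 * dl + e) / y := by
  have a1 := hg y
  have a2 := hg (-y)
  rw [abs_le, neg_le, le_div_iff₀ hy, le_div_iff₀ hy]
  constructor <;> nlinarith

/-- contact lemma at a general base point -/
theorem contact_at {f g : ℝ → ℝ} {x0 T D y dl e : ℝ} (hy : 0 < y)
    (hg : ∀ x, g x0 + D * (x - x0) ≤ g x) (h1 : g (x0 + y) ≤ f (x0 + y) + dl)
    (h2 : g (x0 - y) ≤ f (x0 - y) + dl)
    (h0 : f x0 ≤ g x0 + dl) (f1 : f (x0 + y) ≤ f x0 + y * T + e)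
    (f2 : f (x0 - y) ≤ f x0 - y * T + e) :
    |T - D| ≤ (2 * dl + e) / y := by
  have := contact (f := fun x => f (x0 + x)) (g := fun x => g (x0 + x)) (T := T) (D := D)
    (y := y) (dl := dl) (e := e) hy (fun x => by
      have := hg (x0 + x)
      rw [add_sub_cancel_left] at this
      simpa using this) h1 (by simpa [sub_eq_add_neg] using h2) (by simpa using h0)
      (by simpa using f1) (by simpa [sub_eq_add_neg] using f2)
  exact this

/-- convex differentiable functions are above their tangents -/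
theorem tangent_of_convex {g : ℝ → ℝ} (hg : ConvexOn ℝ univ g) {x0 D : ℝ}
    (hd : HasDerivAt g D x0) (x : ℝ) : g x0 + D * (x - x0) ≤ g x := by
  rcases lt_trichotomy x x0 with h | h | h
  · have h1 := hg.slope_le_deriv (mem_univ x) (mem_univ x0) h hd.differentiableAt
    rw [hd.deriv, slope_def_field, div_le_iff₀ (by linarith)] at h1
    nlinarith
  · rw [h]; simp
  · have h1 := hg.deriv_le_slope (mem_univ x0) (mem_univ x) h hd.differentiableAt
    rw [hd.deriv, slope_def_field, le_div_iff₀ (by linarith)] at h1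
    nlinarith

/-! ### joint convexity of the recursion -/

/-- one Gaussian step as a functional of the integrand -/
def OP (a : ℝ) (φ : ℝ → ℝ) : ℝ :=
  if a = 0 then ∫ g, φ g ∂gaussianReal 0 1
  else a⁻¹ * Real.log (∫ g, Real.exp (a * φ g) ∂gaussianReal 0 1)

theorem gaussOp_eq_OP (a v : ℝ) (f : ℝ → ℝ) (x : ℝ) :
    gaussOp a v f x = OP a (fun g => f (x + Real.sqrt v * g)) := rfl

/-- log-sum-exp is monotone and convex -/
theorem OP_conv {a : ℝ} (ha : 0 ≤ a) {φ0 φ1 φ : ℝ → ℝ} {t : ℝ} (ht0 : 0 ≤ t) (ht1 : t ≤ 1)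
    (i0 : Integrable φ0 (gaussianReal 0 1)) (i1 : Integrable φ1 (gaussianReal 0 1))
    (i : Integrable φ (gaussianReal 0 1))
    (e0 : Integrable (fun g => Real.exp (a * φ0 g)) (gaussianReal 0 1))
    (e1 : Integrable (fun g => Real.exp (a * φ1 g)) (gaussianReal 0 1))
    (e : Integrable (fun g => Real.exp (a * φ g)) (gaussianReal 0 1))
    (h : ∀ g, φ g ≤ (1 - t) * φ0 g + t * φ1 g) :
    OP a φ ≤ (1 - t) * OP a φ0 + t * OP a φ1 := by
  unfold OP
  rcases ha.eq_or_lt with h0 | hpos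
  · rw [if_pos h0.symm, if_pos h0.symm, if_pos h0.symm, ← integral_const_mul,
      ← integral_const_mul, ← integral_add (i0.const_mul _) (i1.const_mul _)]
    exact integral_mono i ((i0.const_mul _).add (i1.const_mul _)) h
  · rw [if_neg hpos.ne', if_neg hpos.ne', if_neg hpos.ne']
    set Z0 := ∫ g, Real.exp (a * φ0 g) ∂gaussianReal 0 1 with hZ0
    set Z1 := ∫ g, Real.exp (a * φ1 g) ∂gaussianReal 0 1 with hZ1
    have p0 : 0 < Z0 := integral_exp_pos e0
    have p1 : 0 < Z1 := integral_exp_pos e1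
    have p : 0 < ∫ g, Real.exp (a * φ g) ∂gaussianReal 0 1 := integral_exp_pos e
    have key : ∀ g, Real.exp (a * φ g) ≤ Real.exp ((1 - t) * Real.log Z0 + t * Real.log Z1) *
        ((1 - t) * (Real.exp (a * φ0 g) / Z0) + t * (Real.exp (a * φ1 g) / Z1)) := by
      intro g
      have c1 : Real.exp ((1 - t) * (a * φ0 g - Real.log Z0) + t * (a * φ1 g - Real.log Z1)) ≤
          (1 - t) * Real.exp (a * φ0 g - Real.log Z0) + t * Real.exp (a * φ1 g - Real.log Z1) := by
        have := convexOn_exp.2 (mem_univ (a * φ0 g - Real.log Z0))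
          (mem_univ (a * φ1 g - Real.log Z1)) (sub_nonneg.2 ht1) ht0 (by ring)
        simpa [smul_eq_mul] using this
      rw [Real.exp_sub, Real.exp_sub, Real.exp_log p0, Real.exp_log p1] at c1
      have c2 : Real.exp (a * φ g) ≤ Real.exp ((1 - t) * Real.log Z0 + t * Real.log Z1) *
          Real.exp ((1 - t) * (a * φ0 g - Real.log Z0) + t * (a * φ1 g - Real.log Z1)) := by
        rw [← Real.exp_add]
        refine Real.exp_le_exp.2 ?_
        have := mul_le_mul_of_nonneg_left (h g) ha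
        nlinarith
      exact c2.trans (mul_le_mul_of_nonneg_left c1 (Real.exp_pos _).le)
    have hint : ∫ g, Real.exp (a * φ g) ∂gaussianReal 0 1 ≤
        Real.exp ((1 - t) * Real.log Z0 + t * Real.log Z1) := by
      have j0 := (e0.div_const Z0).const_mul (1 - t)
      have j1 := (e1.div_const Z1).const_mul t
      refine (integral_mono e ((j0.add j1).const_mul _) key).trans (le_of_eq ?_)
      rw [integral_const_mul]
      have : ∫ g, ((1 - t) * (Real.exp (a * φ0 g) / Z0) + t * (Real.exp (a * φ1 g) / Z1))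
          ∂gaussianReal 0 1 = 1 := by
        rw [integral_add j0 j1, integral_const_mul, integral_const_mul, integral_div,
          integral_div, ← hZ0, ← hZ1, div_self p0.ne', div_self p1.ne']
        ring
      show _ * (∫ g, ((1 - t) * (Real.exp (a * φ0 g) / Z0) + t * (Real.exp (a * φ1 g) / Z1))
          ∂gaussianReal 0 1) = _
      rw [this, mul_one]
    have hlog := Real.log_le_log p hint
    rw [Real.log_exp] at hlog
    have := mul_le_mul_of_nonneg_left hlog (inv_nonneg.2 ha)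
    refine this.trans (le_of_eq ?_)
    ring

/-- joint convexity -/
def JC (F : ℝ → ℝ → ℝ) : Prop :=
  ∀ β0 β1 x0 x1 t : ℝ, 0 ≤ t → t ≤ 1 →
    F ((1 - t) * β0 + t * β1) ((1 - t) * x0 + t * x1) ≤ (1 - t) * F β0 x0 + t * F β1 x1

theorem OP_int {f : ℝ → ℝ} (hf : Lip1 f) (x c : ℝ) :
    Integrable (fun g => f (x + c * g)) (gaussianReal 0 1) := (EG.lip hf).int c x

theorem OP_int_exp {f : ℝ → ℝ} (hf : Lip1 f) (a x c : ℝ) :
    Integrable (fun g => Real.exp (a * f (x + c * g))) (gaussianReal 0 1) :=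
  (EG.exp_lip hf a).int c x

/-- a Gaussian step with `β`-dependent scale keeps joint convexity -/
theorem JC.step {a : ℝ} (ha : 0 ≤ a) {F : ℝ → ℝ → ℝ} (hF : JC F) (hl : ∀ β, Lip1 (F β))
    (s r : ℝ) : JC (fun β x => OP a (fun g => F β (x + (s + r * β) * g))) := by
  intro β0 β1 x0 x1 t ht0 ht1
  refine OP_conv ha ht0 ht1 (OP_int (hl _) _ _) (OP_int (hl _) _ _) (OP_int (hl _) _ _)
    (OP_int_exp (hl _) _ _ _) (OP_int_exp (hl _) _ _ _) (OP_int_exp (hl _) _ _ _) fun g => ?_
  have := hF β0 β1 (x0 + (s + r * β0) * g) (x1 + (s + r * β1) * g) t ht0 ht1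
  refine le_trans (le_of_eq ?_) this
  congr 1
  ring

theorem OP_neg (a : ℝ) (φ : ℝ → ℝ) : OP a (fun g => φ (-g)) = OP a φ := by
  unfold OP
  split_ifs
  · exact Mag.gauss_neg φ
  · rw [Mag.gauss_neg (fun g => Real.exp (a * φ g))]

theorem OP_sqrt (a c β : ℝ) (hc : 0 ≤ c) (f : ℝ → ℝ) (x : ℝ) :
    gaussOp a (c * β ^ 2) f x = OP a (fun g => f (x + (0 + Real.sqrt c * β) * g)) := by
  rw [gaussOp_eq_OP, Real.sqrt_mul hc, Real.sqrt_sq_eq_abs, zero_add]
  rcases abs_cases β with ⟨h, _⟩ | ⟨h, _⟩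
  · rw [h]
  · rw [h, ← OP_neg a (fun g => f (x + (Real.sqrt c * β) * g))]
    congr 1
    funext g
    ring_nf

/-- the moved list: `(v, w, c)` becomes `(v + c β², w)` -/
def bq (β : ℝ) (q : ℝ × ℝ × ℝ) : ℝ × ℝ := (q.1 + q.2.2 * β ^ 2, q.2.1)

theorem cls_chain : ∀ (L : List (ℝ × ℝ)) (a : ℝ), Adm a L → ∃ C, Cv.Cls C (chain a L)
  | [], _, _ => ⟨2, Cv.cls_lc⟩
  | (v, w) :: L, a, h => by
      obtain ⟨C, hC⟩ := cls_chain L (a + w) h.2.2.2
      exact ⟨C + 8, hC.gop h.1 h.le_one v⟩

theorem adm_bq : ∀ (L : List (ℝ × ℝ × ℝ)) (a : ℝ), Adm a (L.map pr) → (∀ q ∈ L, 0 ≤ q.2.2) →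
    ∀ β, Adm a (L.map (bq β))
  | [], _, h, _, _ => h
  | (v, w, c) :: L, a, h, h1, β => by
      refine ⟨h.1, ?_, h.2.2.1, adm_bq L (a + w) h.2.2.2
        (fun q hq => h1 q (List.mem_cons_of_mem _ hq)) β⟩
      have h2 : 0 ≤ c := h1 (v, w, c) List.mem_cons_self
      have h3 : 0 ≤ v := h.2.1
      show 0 ≤ v + c * β ^ 2
      positivity

/-- **joint convexity of the recursion in the starting point and in `β`** -/
theorem chain_JC : ∀ (L : List (ℝ × ℝ × ℝ)) (a : ℝ), Adm a (L.map pr) → (∀ q ∈ L, 0 ≤ q.2.2) →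
    JC (fun β => chain a (L.map (bq β)))
  | [], _, _, _ => by
      intro β0 β1 x0 x1 t ht0 ht1
      have := Cv.cls_lc.convexOn.2 (mem_univ x0) (mem_univ x1) (sub_nonneg.2 ht1) ht0 (by ring)
      rw [smul_eq_mul, smul_eq_mul, smul_eq_mul, smul_eq_mul] at this
      exact this
  | (v, w, c) :: L, a, h, h1 => by
      have h1' : ∀ q ∈ L, 0 ≤ q.2.2 := fun q hq => h1 q (List.mem_cons_of_mem _ hq)
      have ih := chain_JC L (a + w) h.2.2.2 h1'
      have hc : 0 ≤ c := h1 (v, w, c) List.mem_cons_self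
      have hv : 0 ≤ v := h.2.1
      have hl : ∀ β, Lip1 (chain (a + w) (L.map (bq β))) := fun β =>
        (chain_sm _ _ (adm_bq L (a + w) h.2.2.2 h1' β)).lip
      have s1 := ih.step h.1 hl 0 (Real.sqrt c)
      have e1 : (fun β x => OP a (fun g => chain (a + w) (L.map (bq β))
          (x + (0 + Real.sqrt c * β) * g))) =
          fun β => gaussOp a (c * β ^ 2) (chain (a + w) (L.map (bq β))) := by
        funext β x
        exact (OP_sqrt a c β hc _ x).symm
      rw [e1] at s1
      have hl2 : ∀ β, Lip1 (gaussOp a (c * β ^ 2) (chain (a + w) (L.map (bq β)))) := fun β => by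
        have hA := adm_bq L (a + w) h.2.2.2 h1' β
        exact (gaussOp_sm (chain_sm _ _ hA) h.1 h.le_one (c * β ^ 2)).lip
      have s2 := s1.step h.1 hl2 (Real.sqrt v) 0
      have e2 : (fun β x => OP a (fun g => gaussOp a (c * β ^ 2) (chain (a + w) (L.map (bq β)))
          (x + (Real.sqrt v + 0 * β) * g))) =
          fun β => chain a (((v, w, c) :: L).map (bq β)) := by
        funext β x
        obtain ⟨C, hC⟩ := cls_chain _ _ (adm_bq L (a + w) h.2.2.2 h1' β)
        show _ = gaussOp a (v + c * β ^ 2) (chain (a + w) (L.map (bq β))) x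
        rw [Cv.gaussOp_add hC h.1 h.le_one hv (mul_nonneg hc (sq_nonneg β)), gaussOp_eq_OP,
          zero_mul, add_zero]
      rw [e2] at s2
      exact s2

/-! ### the field value along a segment of step fields -/

theorem PG_SL {k : ℕ} {w hv : Fin k → ℝ} (h : IsStepField w hv) (b : ℝ) (hv' : Fin k → ℝ) :
    PG 0 (inc 0 (toL w hv)) (SL 0 (toL w hv')) b = ∑ i, w i * (pAt b w hv i * hv' i) := by
  have hSLi : IntegrableOn (SL 0 (toL w hv')) (Ioo 0 1) := by
    have h1 := (SL_int (toL w hv') 0 0 1)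
    rwa [intervalIntegrable_iff_integrableOn_Ioo_of_le zero_le_one] at h1
  rw [← integral_pathP h b hSLi, ← integral_pathP_stepFn h b hv']
  refine setIntegral_congr_fun measurableSet_Ioo fun u hu => ?_
  show pathP b w hv u * _ = pathP b w hv u * stepFn w hv' u
  rw [stepFn_eq_SL h.2.1 hv' hu.1]

/-- **right derivative along a segment** -/
theorem path_right {k : ℕ} {w h0 h1 : Fin k → ℝ} (H0 : IsStepField w h0) (H1 : IsStepField w h1)
    (b : ℝ) {t : ℕ → ℝ} (ht : ∀ n, 0 < t n ∧ t n ≤ 1) (ht0 : Tendsto t atTop (𝓝 0)) :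
    Tendsto (fun n => (fieldValueAt b w (fun i => (1 - t n) * h0 i + t n * h1 i) -
      fieldValueAt b w h0) / t n) atTop
      (𝓝 (-(1 / 2) * ∑ i, w i * (pAt b w h0 i * (h1 i - h0 i)))) := by
  set M : List (ℝ × ℝ × ℝ) := List.ofFn (fun i => (w i, h0 i, h1 i)) with hM
  have L0 : toL w h0 = M.map p1 := by
    unfold toL; rw [hM, List.map_ofFn]; rfl
  have L1 : toL w h1 = M.map p2 := by
    unfold toL; rw [hM, List.map_ofFn]; rfl
  have Lt : ∀ t : ℝ, toL w (fun i => (1 - t) * h0 i + t * h1 i) = M.map (ipl t) := fun t => by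
    unfold toL; rw [hM, List.map_ofFn]; rfl
  have hMpos : ∀ q ∈ M, 0 < q.1 := by
    intro q hq
    rw [hM, List.mem_ofFn] at hq
    obtain ⟨i, rfl⟩ := hq
    exact H0.2.1 i
  have hP : PosW (M.map p1) := by rw [← L0]; exact posW_toL H0.2.1 h0
  have hm1 : Mono 0 (M.map p1) := by
    rw [← L0]; exact mono_toL k 0 w h0 H0.2.2.2.2 H0.2.2.2.1
  have hm2 : Mono 0 (M.map p2) := by
    rw [← L1]; exact mono_toL k 0 w h1 H1.2.2.2.2 H1.2.2.2.1
  have hs1 : sumw (M.map p1) = 1 := by rw [← L0, sumw_toL, H0.2.2.1]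
  set T := tri 0 0 M with hT
  have hTA : Adm 0 (T.map pr) := by
    rw [hT, tri_pr]
    exact adm_inc _ 0 0 le_rfl hP hm1 (by rw [hs1, zero_add])
  obtain ⟨_, hcc⟩ := chain_path T 0 hTA (tri_nonneg M 0 0 hm2)
  have hval : ∀ t : ℝ, fieldValueAt b w (fun i => (1 - t) * h0 i + t * h1 i) =
      chain 0 (T.map (sh t)) b - ((1 - t) * lastV 0 (M.map p1) + t * lastV 0 (M.map p2)) / 2 := by
    intro t
    have e1 := inc_ipl t M 0 0
    have e2 := lastV_ipl t M 0 0
    rw [mul_zero, mul_zero, add_zero] at e1 e2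
    rw [fieldValueAt_eq, Lt]
    unfold fvL
    rw [e1, e2]
  have hv0 : fieldValueAt b w h0 = chain 0 (T.map (sh 0)) b - lastV 0 (M.map p1) / 2 := by
    have h2 := hval 0
    have e : (fun i => (1 - 0) * h0 i + 0 * h1 i) = h0 := by
      funext i
      ring
    rw [e] at h2
    rw [h2]
    ring
  have hlim := hcc t (fun _ => b) b ht ht0 tendsto_const_nhds
  have hd : dsum T = lastV 0 (M.map p2) - lastV 0 (M.map p1) := by
    rw [hT, dsum_tri]
    ring
  have hWQ : WQ 0 T 0 b = (∑ i, w i * (pAt b w h0 i * h1 i)) -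
      ∑ i, w i * (pAt b w h0 i * h0 i) := by
    have e1 := WQ_tri M 0 0 0 hMpos
    rw [sub_zero] at e1
    have hAm : Adm 0 (inc 0 (M.map p1)) := by
      rw [← tri_pr M 0 0]
      exact hTA
    rw [hT, e1, PG_sub (fun a b => SL_int _ _ a b) (fun a b => SL_int _ _ a b) _ _ _ hAm,
      ← L0, ← L1, PG_SL H0, PG_SL H0]
  have h3 := hlim.sub_const ((lastV 0 (M.map p2) - lastV 0 (M.map p1)) / 2)
  have e : 1 / 2 * dsum T - 1 / 2 * WQ 0 T 0 b - (lastV 0 (M.map p2) - lastV 0 (M.map p1)) / 2 =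
      -(1 / 2) * ∑ i, w i * (pAt b w h0 i * (h1 i - h0 i)) := by
    rw [hd, hWQ, ← Finset.sum_sub_distrib]
    have : ∀ i, w i * (pAt b w h0 i * h1 i) - w i * (pAt b w h0 i * h0 i) =
        w i * (pAt b w h0 i * (h1 i - h0 i)) := fun i => by ring
    simp only [this]
    ring
  rw [e] at h3
  refine h3.congr fun n => ?_
  have hn := (ht n).1.ne'
  rw [hval (t n), hv0]
  field_simp
  ring

/-- right derivative along a segment, as a limit at `0+` -/
theorem path_right' {k : ℕ} {w h0 h1 : Fin k → ℝ} (H0 : IsStepField w h0)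
    (H1 : IsStepField w h1) (b : ℝ) :
    Tendsto (fun t => (fieldValueAt b w (fun i => (1 - t) * h0 i + t * h1 i) -
      fieldValueAt b w h0) / t) (𝓝[>] 0)
      (𝓝 (-(1 / 2) * ∑ i, w i * (pAt b w h0 i * (h1 i - h0 i)))) := by
  refine tendsto_of_seq_tendsto fun x hx => ?_
  set t : ℕ → ℝ := fun n => if 0 < x n ∧ x n ≤ 1 then x n else 1 / ((n : ℝ) + 1) with ht
  have hev : ∀ᶠ n in atTop, 0 < x n ∧ x n ≤ 1 := by
    have h1 : ∀ᶠ y in 𝓝[>] (0 : ℝ), 0 < y ∧ y ≤ 1 := by
      have : Ioc (0 : ℝ) 1 ∈ 𝓝[>] (0 : ℝ) := Ioc_mem_nhdsGT one_pos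
      exact this
    exact hx.eventually h1
  have hxt : x =ᶠ[atTop] t := by
    filter_upwards [hev] with n hn
    rw [ht]
    simp only
    rw [if_pos hn]
  have hpos : ∀ n, 0 < t n ∧ t n ≤ 1 := by
    intro n
    rw [ht]
    simp only
    split_ifs with h
    · exact h
    · constructor
      · positivity
      · rw [div_le_one (by positivity)]
        have : (0 : ℝ) ≤ n := Nat.cast_nonneg n
        linarith
  have ht0 : Tendsto t atTop (𝓝 0) := (hx.mono_right nhdsWithin_le_nhds).congr' hxt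
  refine (path_right H0 H1 b hpos ht0).congr' ?_
  filter_upwards [hxt] with n hn
  show _ = (fieldValueAt b w (fun i => (1 - x n) * h0 i + x n * h1 i) -
      fieldValueAt b w h0) / x n
  rw [hn]

/-! ### adding `v c` to the field -/

section add

variable {k : ℕ} {w hv c : Fin k → ℝ}

/-- the moved field -/
def hC (hv c : Fin k → ℝ) (v : ℝ) (i : Fin k) : ℝ := hv i + v * c i

theorem hC_step (h : IsStepField w hv) (hc : Monotone c) (hc0 : ∀ i, 0 ≤ c i) {v : ℝ}
    (hv0 : 0 ≤ v) : IsStepField w (hC hv c v) := by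
  refine ⟨h.1, h.2.1, h.2.2.1, ?_, fun i => ?_⟩
  · intro i j hij
    exact add_le_add (h.2.2.2.1 hij) (mul_le_mul_of_nonneg_left (hc hij) hv0)
  · exact add_nonneg (h.2.2.2.2 i) (mul_nonneg hv0 (hc0 i))

/-- derivative in the variance `v`, from the right at `v = 0` -/
theorem hasDeriv_v (h : IsStepField w hv) (hc : Monotone c) (hc0 : ∀ i, 0 ≤ c i) (b : ℝ) {v : ℝ}
    (hv0 : 0 ≤ v) : HasDerivWithinAt (fun v => fieldValueAt b w (hC hv c v))
      (-(1 / 2) * ∑ i, w i * (pAt b w (hC hv c v) i * c i)) (Ici 0) v := by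
  have H0 := hC_step h hc hc0 hv0
  -- right derivative
  have hR : HasDerivWithinAt (fun v => fieldValueAt b w (hC hv c v))
      (-(1 / 2) * ∑ i, w i * (pAt b w (hC hv c v) i * c i)) (Ici v) v := by
    rw [← hasDerivWithinAt_Ioi_iff_Ici, hasDerivWithinAt_iff_tendsto_slope' (by simp)]
    have H1 := hC_step h hc hc0 (v := v + 1) (by linarith)
    have hp := path_right' H0 H1 b
    have e1 : ∀ i, hC hv c (v + 1) i - hC hv c v i = c i := fun i => by unfold hC; ring
    simp only [e1] at hp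
    have hm : Tendsto (fun x : ℝ => x - v) (𝓝[>] v) (𝓝[>] 0) := by
      refine tendsto_nhdsWithin_of_tendsto_nhds_of_eventually_within _ ?_ ?_
      · have : Tendsto (fun x : ℝ => x - v) (𝓝 v) (𝓝 (v - v)) :=
          (continuous_id.sub continuous_const).tendsto v
        rw [sub_self] at this
        exact this.mono_left nhdsWithin_le_nhds
      · filter_upwards [self_mem_nhdsWithin] with x hx
        exact sub_pos.2 (show v < x from hx)
    refine (hp.comp hm).congr fun x => ?_
    show _ = slope (fun v => fieldValueAt b w (hC hv c v)) v x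
    rw [slope_def_field]
    show (fieldValueAt b w (fun i => (1 - (x - v)) * hC hv c v i + (x - v) * hC hv c (v + 1) i) -
      _) / (x - v) = _
    congr 3
    funext i
    unfold hC
    ring
  rcases hv0.eq_or_lt with h0 | hpos
  · rw [← h0] at hR ⊢
    exact hR
  -- left derivative
  have hL : HasDerivWithinAt (fun v => fieldValueAt b w (hC hv c v))
      (-(1 / 2) * ∑ i, w i * (pAt b w (hC hv c v) i * c i)) (Iic v) v := by
    rw [← hasDerivWithinAt_Iio_iff_Iic, hasDerivWithinAt_iff_tendsto_slope' (by simp)]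
    have H1 := hC_step h hc hc0 (v := 0) le_rfl
    have hp := path_right' H0 H1 b
    have e1 : ∀ i, hC hv c 0 i - hC hv c v i = -(v * c i) := fun i => by unfold hC; ring
    simp only [e1] at hp
    have hm : Tendsto (fun x : ℝ => (v - x) / v) (𝓝[<] v) (𝓝[>] 0) := by
      refine tendsto_nhdsWithin_of_tendsto_nhds_of_eventually_within _ ?_ ?_
      · have : Tendsto (fun x : ℝ => (v - x) / v) (𝓝 v) (𝓝 ((v - v) / v)) :=
          ((continuous_const.sub continuous_id).div_const v).tendsto v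
        rw [sub_self, zero_div] at this
        exact this.mono_left nhdsWithin_le_nhds
      · filter_upwards [self_mem_nhdsWithin] with x hx
        exact div_pos (sub_pos.2 (show x < v from hx)) hpos
    have h5 := (hp.comp hm).const_mul (-(1 / v))
    have e2 : -(1 / v) * (-(1 / 2) * ∑ i, w i * (pAt b w (hC hv c v) i * -(v * c i))) =
        -(1 / 2) * ∑ i, w i * (pAt b w (hC hv c v) i * c i) := by
      have e3 : ∀ i, w i * (pAt b w (hC hv c v) i * -(v * c i)) =
          (-v) * (w i * (pAt b w (hC hv c v) i * c i)) := fun i => by ring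
      simp only [e3]
      rw [← Finset.mul_sum]
      field_simp
    rw [e2] at h5
    refine h5.congr' ?_
    filter_upwards [self_mem_nhdsWithin] with x hx
    have hx : x < v := hx
    show _ = slope (fun v => fieldValueAt b w (hC hv c v)) v x
    rw [slope_def_field]
    show -(1 / v) * ((fieldValueAt b w (fun i => (1 - (v - x) / v) * hC hv c v i +
      (v - x) / v * hC hv c 0 i) - _) / ((v - x) / v)) = _
    have e4 : (fun i => (1 - (v - x) / v) * hC hv c v i + (v - x) / v * hC hv c 0 i) =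
        hC hv c x := by
      funext i
      unfold hC
      field_simp
      ring
    rw [e4]
    have hxv : x - v ≠ 0 := by linarith
    have hxv' : v - x ≠ 0 := by linarith
    field_simp
    ring
  have hU : HasDerivWithinAt (fun v => fieldValueAt b w (hC hv c v))
      (-(1 / 2) * ∑ i, w i * (pAt b w (hC hv c v) i * c i)) (Iic v ∪ Ici v) v := hL.union hR
  exact hU.mono (by rw [Iic_union_Ici]; exact subset_univ _)

theorem incr_hC (hv c : Fin k → ℝ) (v : ℝ) (i : Fin k) :
    incr 0 (hC hv c v) i = incr 0 hv i + incr 0 c i * v := by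
  unfold incr hC
  have e : ∑ l : Fin k, (if l.val + 1 = i.val then hv l + v * c l else 0) =
      (∑ l : Fin k, if l.val + 1 = i.val then hv l else 0) +
      v * ∑ l : Fin k, if l.val + 1 = i.val then c l else 0 := by
    rw [Finset.mul_sum, ← Finset.sum_add_distrib]
    refine Finset.sum_congr rfl fun l _ => ?_
    split_ifs <;> ring
  rw [e]
  split_ifs <;> ring

theorem adm_mem_nonneg : ∀ (L : List (ℝ × ℝ)) (a : ℝ), Adm a L → ∀ q ∈ L, 0 ≤ q.1
  | [], _, _, q, hq => by simp at hq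
  | (v, w) :: L, a, h, q, hq => by
      rcases List.mem_cons.1 hq with rfl | hq
      · exact h.2.1
      · exact adm_mem_nonneg L (a + w) h.2.2.2 q hq

theorem incr_nonneg (hw : ∀ i, 0 < w i) (hs : ∑ i, w i = 1) (hc : Monotone c)
    (hc0 : ∀ i, 0 ≤ c i) (i : Fin k) : 0 ≤ incr 0 c i := by
  have hk : 0 < k := lt_of_le_of_lt (Nat.zero_le _) i.2
  have h : IsStepField w c := ⟨hk, hw, hs, hc, hc0⟩
  have hA := adm_of_step h
  rw [inc_toL] at hA
  refine adm_mem_nonneg _ _ hA (incr 0 c i, w i) ?_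
  rw [List.mem_ofFn]
  exact ⟨i, rfl⟩

/-- the list of the triples `(v, w, c)` -/
def triL (w hv c : Fin k → ℝ) : List (ℝ × ℝ × ℝ) :=
  List.ofFn (fun i => (incr 0 hv i, w i, incr 0 c i))

theorem inc_hC (w hv c : Fin k → ℝ) (β : ℝ) :
    inc 0 (toL w (hC hv c (β ^ 2))) = (triL w hv c).map (bq β) := by
  rw [inc_toL]
  unfold triL
  rw [List.map_ofFn]
  congr 1
  funext i
  rw [incr_hC]
  rfl

theorem triL_pr (w hv c : Fin k → ℝ) : (triL w hv c).map pr = inc 0 (toL w hv) := by
  rw [inc_toL]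
  unfold triL
  rw [List.map_ofFn]
  rfl

theorem lastV_hC (w hv c : Fin k → ℝ) (v : ℝ) :
    lastV 0 (toL w (hC hv c v)) = lastV 0 (toL w hv) + v * lastV 0 (toL w c) := by
  rw [lastV_toL, lastV_toL, lastV_toL]
  unfold hC
  have e0 : (if k = 0 then (0 : ℝ) else 0) = 0 := by split_ifs <;> rfl
  have e : ∑ l : Fin k, (if l.val + 1 = k then hv l + v * c l else 0) =
      (∑ l : Fin k, if l.val + 1 = k then hv l else 0) +
      v * ∑ l : Fin k, if l.val + 1 = k then c l else 0 := by
    rw [Finset.mul_sum, ← Finset.sum_add_distrib]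
    refine Finset.sum_congr rfl fun l _ => ?_
    split_ifs <;> ring
  rw [e, e0]
  ring

theorem value_hC (b : ℝ) (w hv c : Fin k → ℝ) (β : ℝ) :
    fieldValueAt b w (hC hv c (β ^ 2)) + β ^ 2 * lastV 0 (toL w c) / 2 =
      chain 0 ((triL w hv c).map (bq β)) b - lastV 0 (toL w hv) / 2 := by
  rw [fieldValueAt_eq]
  unfold fvL
  rw [inc_hC, lastV_hC]
  ring

/-- joint convexity of the value in `(b, β)` -/
theorem value_JC (h : IsStepField w hv) (hc : Monotone c) (hc0 : ∀ i, 0 ≤ c i) :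
    JC (fun β b => fieldValueAt b w (hC hv c (β ^ 2)) + β ^ 2 * lastV 0 (toL w c) / 2) := by
  have hJ := chain_JC (triL w hv c) 0 (by rw [triL_pr]; exact adm_of_step h) (by
    intro q hq
    unfold triL at hq
    rw [List.mem_ofFn] at hq
    obtain ⟨i, rfl⟩ := hq
    exact incr_nonneg h.2.1 h.2.2.1 hc hc0 i)
  intro β0 β1 b0 b1 t ht0 ht1
  simp only [value_hC]
  have := hJ β0 β1 b0 b1 t ht0 ht1
  simp only at this
  nlinarith

end add

/-! ### final form for `Fin (m + 1)` -/

section fin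

variable {m : ℕ} {w hv c : Fin (m + 1) → ℝ}

theorem lastV_last (w c : Fin (m + 1) → ℝ) : lastV 0 (toL w c) = c (Fin.last m) := by
  rw [lastV_toL, if_neg (by omega), zero_add, Finset.sum_eq_single (Fin.last m)]
  · rw [if_pos (by simp)]
  · intro l _ hl
    refine if_neg fun hc => hl ?_
    apply Fin.ext
    rw [Fin.val_last]
    omega
  · intro hn
    exact absurd (Finset.mem_univ _) hn

/-- the explicit functional of contact -/
def Gc (w hv c : Fin (m + 1) → ℝ) (b β : ℝ) : ℝ :=
  fieldValueAt b w (fun i => hv i + β ^ 2 * c i) + β ^ 2 * c (Fin.last m) / 2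

theorem Gc_eq (w hv c : Fin (m + 1) → ℝ) (b β : ℝ) :
    Gc w hv c b β = fieldValueAt b w (hC hv c (β ^ 2)) + β ^ 2 * lastV 0 (toL w c) / 2 := by
  rw [lastV_last]
  rfl

theorem Gc_JC (h : IsStepField w hv) (hc : Monotone c) (hc0 : ∀ i, 0 ≤ c i) :
    JC (fun β b => Gc w hv c b β) := by
  have := value_JC h hc hc0
  simp only [Gc_eq]
  exact this

/-- **convexity in `β`** -/
theorem Gc_convex_beta (h : IsStepField w hv) (hc : Monotone c) (hc0 : ∀ i, 0 ≤ c i) (b : ℝ) :
    ConvexOn ℝ univ (Gc w hv c b) := by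
  refine ⟨convex_univ, fun x _ y _ s t hs ht hst => ?_⟩
  have hs' : s = 1 - t := by linarith
  subst hs'
  have := Gc_JC h hc hc0 x y b b t ht (by linarith)
  simp only at this
  rw [show (1 - t) * b + t * b = b by ring] at this
  simpa [smul_eq_mul] using this

/-- **convexity in `b`** -/
theorem Gc_convex_b (h : IsStepField w hv) (hc : Monotone c) (hc0 : ∀ i, 0 ≤ c i) (β : ℝ) :
    ConvexOn ℝ univ (fun b => Gc w hv c b β) := by
  refine ⟨convex_univ, fun x _ y _ s t hs ht hst => ?_⟩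
  have hs' : s = 1 - t := by linarith
  subst hs'
  have := Gc_JC h hc hc0 β β x y t ht (by linarith)
  simp only at this
  rw [show (1 - t) * β + t * β = β by ring] at this
  simpa [smul_eq_mul] using this

/-- **derivative in `β`** -/
theorem Gc_deriv_beta (h : IsStepField w hv) (hc : Monotone c) (hc0 : ∀ i, 0 ≤ c i) (b β : ℝ) :
    HasDerivAt (Gc w hv c b) (β * (c (Fin.last m) -
      ∑ i, w i * (pAt b w (fun i => hv i + β ^ 2 * c i) i * c i))) β := by
  have h1 := hasDeriv_v h hc hc0 b (sq_nonneg β)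
  have h2 : HasDerivAt (fun β : ℝ => β ^ 2) (2 * β) β := by
    have := hasDerivAt_pow 2 β
    simpa using this
  have h3 : HasDerivAt (fun β : ℝ => fieldValueAt b w (hC hv c (β ^ 2)))
      ((-(1 / 2) * ∑ i, w i * (pAt b w (hC hv c (β ^ 2)) i * c i)) * (2 * β)) β :=
    HasDerivWithinAt.comp_hasDerivAt (h₂ := fun v => fieldValueAt b w (hC hv c v))
      (h := fun β : ℝ => β ^ 2) β h1 h2 (Eventually.of_forall fun x => sq_nonneg x)
  have h4 := h3.add ((h2.mul_const (c (Fin.last m))).div_const 2)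
  refine h4.congr_deriv ?_
  show (-(1 / 2) * ∑ i, w i * (pAt b w (fun i => hv i + β ^ 2 * c i) i * c i)) * (2 * β) + _ = _
  ring

/-- **derivative in `b`** -/
theorem Gc_deriv_b (h : IsStepField w hv) (hc : Monotone c) (hc0 : ∀ i, 0 ≤ c i) (b β : ℝ) :
    HasDerivAt (fun b => Gc w hv c b β) (magAt b w (fun i => hv i + β ^ 2 * c i)) b :=
  (hasDerivAt_fieldValueAt (hC_step h hc hc0 (sq_nonneg β)) b).add_const _

/-- tangent inequality in `β` -/
theorem Gc_tangent_beta (h : IsStepField w hv) (hc : Monotone c) (hc0 : ∀ i, 0 ≤ c i)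
    (b β x : ℝ) : Gc w hv c b β + β * (c (Fin.last m) -
      ∑ i, w i * (pAt b w (fun i => hv i + β ^ 2 * c i) i * c i)) * (x - β) ≤ Gc w hv c b x :=
  tangent_of_convex (Gc_convex_beta h hc hc0 b) (Gc_deriv_beta h hc hc0 b β) x

/-- tangent inequality in `b` -/
theorem Gc_tangent_b (h : IsStepField w hv) (hc : Monotone c) (hc0 : ∀ i, 0 ≤ c i)
    (b β x : ℝ) : Gc w hv c b β + magAt b w (fun i => hv i + β ^ 2 * c i) * (x - b) ≤
      Gc w hv c x β :=
  tangent_of_convex (g := fun b => Gc w hv c b β) (Gc_convex_b h hc hc0 β)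
    (Gc_deriv_b h hc hc0 b β) x

end fin

/-! ### contact for the explicit functional -/

section cont

variable {m : ℕ} {w hv : Fin (m + 1) → ℝ}

/-- indicator of the levels `≥ iq` -/
def ind (iq : Fin (m + 1)) (i : Fin (m + 1)) : ℝ := if iq ≤ i then 1 else 0

theorem ind_mono (iq : Fin (m + 1)) : Monotone (ind iq) := by
  intro i j hij
  unfold ind
  split_ifs with h1 h2
  · exact le_rfl
  · exact absurd (h1.trans hij) h2
  · exact zero_le_one
  · exact le_rfl

theorem ind_nonneg (iq i : Fin (m + 1)) : 0 ≤ ind iq i := by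
  unfold ind
  split_ifs
  · exact zero_le_one
  · exact le_rfl

theorem ind_last (iq : Fin (m + 1)) : ind iq (Fin.last m) = 1 := if_pos (Fin.le_last iq)

/-- **contact in `β`** at the active level `iq`: `f` is the (limiting) increment as a function of
the strength of the new site at `iq`, `T` its derivative at `β0`. -/
theorem contact_beta (h : IsStepField w hv) (iq : Fin (m + 1)) (b β0 : ℝ) {f : ℝ → ℝ}
    {C0 T y dl e : ℝ} (hy : 0 < y)
    (h1 : C0 + Gc w hv (ind iq) b (β0 + y) ≤ f (β0 + y) + dl)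
    (h2 : C0 + Gc w hv (ind iq) b (β0 - y) ≤ f (β0 - y) + dl)
    (h0 : f β0 ≤ C0 + Gc w hv (ind iq) b β0 + dl)
    (f1 : f (β0 + y) ≤ f β0 + y * T + e) (f2 : f (β0 - y) ≤ f β0 - y * T + e) :
    |T - β0 * (1 - ∑ i, if iq ≤ i then
      w i * pAt b w (fun i => hv i + β0 ^ 2 * ind iq i) i else 0)| ≤ (2 * dl + e) / y := by
  have hD : β0 * (ind iq (Fin.last m) -
      ∑ i, w i * (pAt b w (fun i => hv i + β0 ^ 2 * ind iq i) i * ind iq i)) =
      β0 * (1 - ∑ i, if iq ≤ i then
        w i * pAt b w (fun i => hv i + β0 ^ 2 * ind iq i) i else 0) := by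
    rw [ind_last]
    congr 2
    refine Finset.sum_congr rfl fun i _ => ?_
    conv_lhs => rw [ind]
    split_ifs <;> ring
  rw [← hD]
  refine contact_at (g := fun x => C0 + Gc w hv (ind iq) b x) hy (fun x => ?_) h1 h2 h0 f1 f2
  have := Gc_tangent_beta h (ind_mono iq) (ind_nonneg iq) b β0 x
  linarith

/-- **contact in `b`** (for any fixed moved field): `T` the derivative of `f` at `b0`. -/
theorem contact_b (h : IsStepField w hv) (b0 : ℝ) {f : ℝ → ℝ} {C0 T y dl e : ℝ} (hy : 0 < y)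
    (h1 : C0 + fieldValueAt (b0 + y) w hv ≤ f (b0 + y) + dl)
    (h2 : C0 + fieldValueAt (b0 - y) w hv ≤ f (b0 - y) + dl)
    (h0 : f b0 ≤ C0 + fieldValueAt b0 w hv + dl)
    (f1 : f (b0 + y) ≤ f b0 + y * T + e) (f2 : f (b0 - y) ≤ f b0 - y * T + e) :
    |T - magAt b0 w hv| ≤ (2 * dl + e) / y := by
  refine contact_at (g := fun x => C0 + fieldValueAt x w hv) hy (fun x => ?_) h1 h2 h0 f1 f2
  have := fieldValueAt_tangent h b0 x
  show C0 + _ + _ ≤ _
  linarith

end cont

end

end Crest.Agent.R164.LDeriv
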