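import Crest.Agent.R164.LStr6
import Crest.Agent.R164.LLimA1

/-!
Row 164, L side (GL8'): from the Γ-form of the structure (LSTRUCT-1) to the fields `ov` and `pu` of
`LG.StrD`: averaged deviations of the block overlaps of `N^{-1/2} U s` and purity.
-/

set_option autoImplicit false

namespace Crest.Agent.R164.LDev

open Finset MeasureTheory Crest.Agent.R141 Crest.Agent.R164 Crest.Agent.R164.RSys
open Crest.Agent.R164.Rot (OK xc)
open Crest.Agent.R164.RotRel (rr dav dav_add dav_smul dav_const dav_mono XU integrable_cont avcS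
  frob)
open Crest.Agent.R164.CavG (ip pur cvr dv cEv)

noncomputable section

section pointwise

variable {Ω : Type} [Fintype Ω] {N : ℕ}

/-- the two definitions of the conditional covariance agree -/
theorem cvr_eq {P : Ω → ℝ} (hP : IsProb P) (r : Setoid Ω) (x : Ω → Fin N → ℝ) (i j : Fin N)
    (ω : Ω) : cvr P r x i j ω = covR P r (fun a => x a i) (fun a => x a j) ω := by
  unfold cvr dv cEv covR
  have e : (fun a => (x a i - cE P r (fun a => x a i) ω) * (x a j - cE P r (fun a => x a j) ω)) =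
      fun a => (x a i * x a j - cE P r (fun a => x a j) ω * x a i -
        cE P r (fun a => x a i) ω * x a j) +
        cE P r (fun a => x a i) ω * cE P r (fun a => x a j) ω := by
    funext a; ring
  rw [e, cE_add P r (fun a => x a i * x a j - cE P r (fun a => x a j) ω * x a i -
        cE P r (fun a => x a i) ω * x a j)
      (fun _ => cE P r (fun a => x a i) ω * cE P r (fun a => x a j) ω),
    cE_sub P r (fun a => x a i * x a j - cE P r (fun a => x a j) ω * x a i)
      (fun a => cE P r (fun a => x a i) ω * x a j),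
    cE_sub P r (fun a => x a i * x a j) (fun a => cE P r (fun a => x a j) ω * x a i),
    cE_smul, cE_smul, cE_const hP]
  ring

/-- purity is invariant under rotations and scaling -/
theorem pur_rot {P : Ω → ℝ} (hP : IsProb P) {U : Fin N → Fin N → ℝ} (hU : U ∈ OK N)
    (𝓕 : Filt Ω) (k : ℕ) {m : ℕ} (hm : 𝓕.L ≤ m) (s : Ω → Fin N → ℝ) :
    pur P (𝓕.F k) (fun ω i => (Real.sqrt N)⁻¹ * XU s U i ω) =
      avcS P 𝓕 (fun i ω => s ω i) k m := by
  have hcE : ∀ i, cE P (𝓕.F m) (fun ω => s ω i) = fun ω => s ω i := by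
    intro i
    funext ω
    exact cE_of_meas hP (rmeas_of_ge (𝓕 := 𝓕) hm _) ω
  have e1 : ∀ ω, ∑ i, ∑ j, cvr P (𝓕.F k) (fun ω i => (Real.sqrt N)⁻¹ * XU s U i ω) i j ω ^ 2 =
      ((N : ℝ) ^ 2)⁻¹ * ∑ i, ∑ j, covR P (𝓕.F k) (fun ω => s ω i) (fun ω => s ω j) ω ^ 2 := by
    intro ω
    have h2 : ∀ i j, cvr P (𝓕.F k) (fun ω i => (Real.sqrt N)⁻¹ * XU s U i ω) i j ω =
        (N : ℝ)⁻¹ * covR P (𝓕.F k) (XU s U i) (XU s U j) ω := by
      intro i j
      rw [cvr_eq hP]
      unfold covR
      have h3 : (fun a => (Real.sqrt N)⁻¹ * XU s U i a * ((Real.sqrt N)⁻¹ * XU s U j a)) =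
          fun a => (N : ℝ)⁻¹ * (XU s U i a * XU s U j a) := by
        funext a
        have h4 : (Real.sqrt N)⁻¹ * (Real.sqrt N)⁻¹ = (N : ℝ)⁻¹ := by
          rw [← mul_inv, Real.mul_self_sqrt (Nat.cast_nonneg N)]
        rw [← h4]; ring
      have h5 : (Real.sqrt N)⁻¹ * (Real.sqrt N)⁻¹ = (N : ℝ)⁻¹ := by
        rw [← mul_inv, Real.mul_self_sqrt (Nat.cast_nonneg N)]
      rw [h3, cE_smul, cE_smul, cE_smul, ← h5]
      ring
    simp only [h2, mul_pow]
    rw [← frob (Q := P) hU (𝓕.F k) (fun i ω => s ω i) (fun i ω => XU s U i ω) (fun i w => rfl) ω]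
    rw [Finset.mul_sum]
    refine Finset.sum_congr rfl fun i _ => ?_
    rw [Finset.mul_sum]
    refine Finset.sum_congr rfl fun j _ => ?_
    rw [inv_pow]
  unfold pur avcS
  simp only [e1, hcE]
  rw [eE_smul, eE_sum]
  congr 1
  refine Finset.sum_congr rfl fun i _ => ?_
  rw [eE_sum]

end pointwise

section sys

variable {p : Par} {N n : ℕ} {A : Finset (Fin N → Bool)} {hA : A.Nonempty}
  {κ : Type} [Fintype κ] [DecidableEq κ]
  {eig : Fin N → ℝ} {t : ℝ} {V : (Fin N → Bool) → ℝ} {a lam : Fin N → Fin p.nc → ℝ}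
  {μ : Measure (Fin N → Fin N → ℝ)} [IsProbabilityMeasure μ]
  {c : ℕ → Fin p.nc} {sel : Fin p.nc → DD p N → Fin p.T} {nn : ℕ}

/-- scaled application `N^{-1/2} U s` -/
def xs (n : ℕ) (hA : A.Nonempty) (p : Par) (U : Fin N → Fin N → ℝ)
    (ω : G.Om (SY.base p n A hA)) (i : Fin N) : ℝ :=
  (Real.sqrt N)⁻¹ * SY.xU (Matrix.of U) ω.1.1.1 i

theorem xs_eq (U : Fin N → Fin N → ℝ) :
    xs n hA p U = fun ω i => (Real.sqrt N)⁻¹ * XU (sp n hA) U i ω := rfl

/-- the block inner product is the scaled block overlap -/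
theorem ip_eq (hN : 0 < N) (lab : Fin N → κ) (k : κ) (hB : 0 < (blk lab k).card) (l : ℕ)
    (d : DD p N) (U : Fin N → Fin N → ℝ) (ω : G.Om (SY.base p n A hA)) :
    ip lab k (cEv (PQ n hA eig t V a lam U d) ((G.fil (SY.base p n A hA)).F l)
        (xs n hA p U) ω)
      (cEv (PQ n hA eig t V a lam U d) ((G.fil (SY.base p n A hA)).F l) (xs n hA p U) ω) =
    ((blk lab k).card : ℝ) / N * ro n hA eig t V a lam (blk lab k) l d U ω := by
  unfold ip ro rr blk
  rw [← Finset.sum_filter]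
  have hc : ((univ.filter fun i => lab i = k).card : ℝ) ≠ 0 := by
    have : (0 : ℝ) < ((blk lab k).card : ℝ) := by exact_mod_cast hB
    exact this.ne'
  have e1 : ∀ i, cEv (PQ n hA eig t V a lam U d) ((G.fil (SY.base p n A hA)).F l)
      (xs n hA p U) ω i = (Real.sqrt N)⁻¹ * cE (PQ n hA eig t V a lam U d)
        ((G.fil (SY.base p n A hA)).F l) (XU (sp n hA) U i) ω := by
    intro i
    unfold cEv
    rw [xs_eq]
    exact cE_smul _ _ _ _ _
  have h5 : (Real.sqrt N)⁻¹ * (Real.sqrt N)⁻¹ = (N : ℝ)⁻¹ := by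
    rw [← mul_inv, Real.mul_self_sqrt (Nat.cast_nonneg N)]
  simp only [e1]
  rw [← mul_assoc, div_mul_eq_mul_div, mul_inv_cancel₀ hc, one_div, Finset.mul_sum]
  refine Finset.sum_congr rfl fun i _ => ?_
  rw [← h5]
  ring

/-- **block overlaps (field `ov`)** -/
theorem ov_le (hμ : ∀ᵐ U ∂μ, U ∈ OK N) (hN : 0 < N) (lab : Fin N → κ) (k : κ) {K : ℝ}
    (hK : (N : ℝ) ≤ K * (blk lab k).card) {wk δ e0 η G0 Gh : ℝ} (hw0 : 0 ≤ wk) (hw1 : wk ≤ 1)
    (hδ : |((blk lab k).card : ℝ) / N - wk| ≤ δ) {b : ℕ}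
    (hc : cnc n hA eig t V a lam μ c sel nn (blk lab k) b G0 ≤ e0) (hG : |G0 - Gh| ≤ η) :
    ∫ U, Ed p N (fun d => eE (PQ n hA eig t V a lam U d) (fun ω =>
      |ip lab k (cEv (PQ n hA eig t V a lam U d) ((G.fil (SY.base p n A hA)).F
          (RSys.lv c sel nn d b)) (xs n hA p U) ω)
        (cEv (PQ n hA eig t V a lam U d) ((G.fil (SY.base p n A hA)).F
          (RSys.lv c sel nn d b)) (xs n hA p U) ω) - wk * Gh|)) ∂μ ≤ δ * K + e0 + η := by
  have hN' : (0 : ℝ) < N := by exact_mod_cast hN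
  have hB : 0 < (blk lab k).card := by
    rcases Nat.eq_zero_or_pos (blk lab k).card with h | h
    · rw [h] at hK; simp at hK; omega
    · exact h
  have hB' : (0 : ℝ) < ((blk lab k).card : ℝ) := by exact_mod_cast hB
  have hK0 : 0 ≤ K := by
    by_contra h
    push Not at h
    nlinarith
  have hδ0 : 0 ≤ δ := (abs_nonneg _).trans hδ
  set f : DD p N → (Fin N → Fin N → ℝ) → G.Om (SY.base p n A hA) → ℝ := fun d U ω =>
    |((blk lab k).card : ℝ) / N * ro n hA eig t V a lam (blk lab k) (RSys.lv c sel nn d b) d U ω -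
      wk * Gh| with hf
  have e0' : ∀ (U : Fin N → Fin N → ℝ) (d : DD p N), (fun ω : G.Om (SY.base p n A hA) =>
      |ip lab k (cEv (PQ n hA eig t V a lam U d) ((G.fil (SY.base p n A hA)).F
          (RSys.lv c sel nn d b)) (xs n hA p U) ω)
        (cEv (PQ n hA eig t V a lam U d) ((G.fil (SY.base p n A hA)).F
          (RSys.lv c sel nn d b)) (xs n hA p U) ω) - wk * Gh|) = f d U := by
    intro U d
    funext ω
    rw [ip_eq hN lab k hB]
  simp only [e0']
  have hint : ∀ d, Integrable (fun U => eE (PQ n hA eig t V a lam U d) (f d U)) μ := fun d =>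
    integrable_cont hμ (cont_eEf n hA eig t V a lam d (f := fun U ω => f d U ω) fun ω =>
      ((continuous_const.mul (cont_ro n hA eig t V a lam d _ _ ω)).sub continuous_const).abs)
  have hint2 : ∀ d, Integrable (fun U => eE (PQ n hA eig t V a lam U d) (fun ω =>
      |ro n hA eig t V a lam (blk lab k) (RSys.lv c sel nn d b) d U ω - G0|)) μ := fun d =>
    int_cnc hμ d _ _ _
  have e2 : ∫ U, Ed p N (fun d => eE (PQ n hA eig t V a lam U d) (f d U)) ∂μ =
      dav (dw p N) μ (fun d U => eE (PQ n hA eig t V a lam U d) (f d U)) := by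
    unfold Ed dav
    rw [integral_finsetSum _ fun d _ => (hint d).const_mul _]
    simp only [integral_const_mul]
  rw [e2]
  have h1 : dav (dw p N) μ (fun d U => eE (PQ n hA eig t V a lam U d) (f d U)) ≤
      dav (dw p N) μ (fun d U => (δ * K + η) + eE (PQ n hA eig t V a lam U d) (fun ω =>
        |ro n hA eig t V a lam (blk lab k) (RSys.lv c sel nn d b) d U ω - G0|)) := by
    refine dav_mono (dw_nonneg p N) hint (fun d => (integrable_const _).add (hint2 d)) fun d => ?_
    filter_upwards [hμ] with U hU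
    have hQ := PQ_isProb n hA eig t V a lam U d
    rw [← eE_const hQ (δ * K + η), ← eE_add]
    refine eE_mono hQ fun ω => ?_
    have hr0 : 0 ≤ ro n hA eig t V a lam (blk lab k) (RSys.lv c sel nn d b) d U ω := by
      unfold ro rr
      exact mul_nonneg (by positivity) (Finset.sum_nonneg fun _ _ => sq_nonneg _)
    have hr1 := ro_le (n := n) (hA := hA) (eig := eig) (t := t) (V := V) (a := a) (lam := lam)
      hU hN hK (RSys.lv c sel nn d b) d ω
    set r := ro n hA eig t V a lam (blk lab k) (RSys.lv c sel nn d b) d U ω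
    set q := ((blk lab k).card : ℝ) / N
    have e3 : q * r - wk * Gh = (q - wk) * r + wk * (r - G0) + wk * (G0 - Gh) := by ring
    have t1 : |(q - wk) * r| ≤ δ * K := by
      rw [abs_mul, abs_of_nonneg hr0]
      exact mul_le_mul hδ hr1 hr0 hδ0
    have t2 : |wk * (r - G0)| ≤ |r - G0| := by
      rw [abs_mul, abs_of_nonneg hw0]
      exact mul_le_of_le_one_left (abs_nonneg _) hw1
    have t3 : |wk * (G0 - Gh)| ≤ η := by
      rw [abs_mul, abs_of_nonneg hw0]
      exact (mul_le_of_le_one_left (abs_nonneg _) hw1).trans hG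
    show |q * r - wk * Gh| ≤ δ * K + η + |r - G0|
    rw [e3]
    have t4 := abs_add_le ((q - wk) * r + wk * (r - G0)) (wk * (G0 - Gh))
    have t5 := abs_add_le ((q - wk) * r) (wk * (r - G0))
    linarith
  refine h1.trans ?_
  rw [dav_add (fun d => integrable_const _) hint2, dav_const (dw_sum p hN)]
  unfold cnc at hc
  linarith

/-- **purity (field `pu`)** -/
theorem pu_le (hμ : ∀ᵐ U ∂μ, U ∈ OK N) (hN : 0 < N)
    (hc : ∀ b, b + 1 < nn → (c b : ℕ) < c (b + 1)) {η : ℝ} (hη : 0 ≤ η)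
    (hpur : ∀ b < nn, Ed p N (fun d => ∫ U, G.purNum (SY.base p n A hA)
      (Hs n A eig t V a lam U) (c b, sel (c b) d) d ∂μ) ≤ η) {b : ℕ} (hb : b < nn) :
    ∫ U, Ed p N (fun d => pur (PQ n hA eig t V a lam U d)
      ((G.fil (SY.base p n A hA)).F (RSys.lv c sel nn d b)) (xs n hA p U)) ∂μ ≤ η := by
  have h1 := dav_avcS (c := c) (sel := sel) (nn := nn) (b' := nn) hμ hN hc hη hpur hb.le
  have hcont : ∀ d, Integrable (fun U => avcS (PQ n hA eig t V a lam U d)
      (G.fil (SY.base p n A hA)) (fun i ω => sp n hA ω i) (RSys.lv c sel nn d b)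
      (RSys.lv c sel nn d nn)) μ := by
    intro d
    have : ∀ U, avcS (PQ n hA eig t V a lam U d) (G.fil (SY.base p n A hA))
          (fun i ω => sp n hA ω i) (RSys.lv c sel nn d b) (RSys.lv c sel nn d nn) =
          avcS (RotRel.QG (G.prior (SY.base p n A hA)) (G.fil (SY.base p n A hA)) p.xs
      (fun i => t * eig i) (sp n hA) (RotRel.hlin (sp n hA) (H0 n hA V a d) (zz n hA lam)) U)
          (G.fil (SY.base p n A hA))
          (fun i ω => sp n hA ω i) (RSys.lv c sel nn d b) (RSys.lv c sel nn d nn) := by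
      intro U; rw [PQ_eq]
    simp only [this]
    exact integrable_cont hμ (RotRel.contG_avcS (G.prior_isProb _) p.xs_expo _ _
      (RotRel.isField_lin _ _ _).cont _ _)
  have e1 : ∫ U, Ed p N (fun d => pur (PQ n hA eig t V a lam U d)
      ((G.fil (SY.base p n A hA)).F (RSys.lv c sel nn d b)) (xs n hA p U)) ∂μ =
      ∫ U, Ed p N (fun d => avcS (PQ n hA eig t V a lam U d)
      (G.fil (SY.base p n A hA)) (fun i ω => sp n hA ω i) (RSys.lv c sel nn d b)
      (RSys.lv c sel nn d nn)) ∂μ := by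
    refine integral_congr_ae ?_
    filter_upwards [hμ] with U hU
    congr 1
    funext d
    rw [xs_eq]
    exact pur_rot (PQ_isProb n hA eig t V a lam U d) hU _ _ (by rw [RSys.lv_top]; exact le_rfl) _
  rw [e1]
  have e2 : ∫ U, Ed p N (fun d => avcS (PQ n hA eig t V a lam U d)
      (G.fil (SY.base p n A hA)) (fun i ω => sp n hA ω i) (RSys.lv c sel nn d b)
      (RSys.lv c sel nn d nn)) ∂μ = dav (dw p N) μ (fun d U => avcS (PQ n hA eig t V a lam U d)
      (G.fil (SY.base p n A hA)) (fun i ω => sp n hA ω i) (RSys.lv c sel nn d b)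
      (RSys.lv c sel nn d nn)) := by
    unfold Ed dav
    rw [integral_finsetSum _ fun d _ => (hcont d).const_mul _]
    simp only [integral_const_mul]
  rw [e2]
  exact h1

end sys

end

end Crest.Agent.R164.LDev
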