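import Crest.Agent.R164.LFinal
import Crest.Agent.R164.CvI

/-!
Row 164, L side (helper893): from an approximately critical structure to a contradiction with the
hypothesis of `Mag.LBP`.
-/

set_option autoImplicit false

namespace Crest.Agent.R164.LF

open MeasureTheory Set Filter Topology
open Crest.ProbabilityR.InvariantGlass
open Crest.Agent.R164.GC Crest.Agent.R164.PAlg Crest.Agent.R164.Mag
open Crest.Agent.R164.RTrans Crest.Agent.R164.Atomic

noncomputable section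

theorem magAt_zero' {k : ℕ} {w hv : Fin k → ℝ} (h : IsStepField w hv) : magAt 0 w hv = 0 := by
  have h1 := hasDerivAt_fieldValueAt h 0
  have h2 : HasDerivAt (fun b => fieldValueAt (-b) w hv) (magAt (-0) w hv * (-1)) 0 := by
    have h3 : HasDerivAt (fun b => fieldValueAt b w hv) (magAt (-0) w hv) (-0) :=
      hasDerivAt_fieldValueAt h (-0)
    exact h3.comp (0:ℝ) (hasDerivAt_neg (0:ℝ))
  have e : (fun b => fieldValueAt (-b) w hv) = fun b => fieldValueAt b w hv :=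
    funext fun b => Mag.fieldValueAt_neg b w hv
  rw [e, neg_zero] at h2
  have := h1.unique h2
  linarith

/-- the constant in front of the `ℓ¹` error -/
def CF {K : ℕ} (w val : Fin (K + 1) → ℝ) {m : ℕ} (wd p : Fin (m + 1) → ℝ) : ℝ :=
  1 / 2 * hh w val wd p (Fin.last m) +
    (1 / 2) * ((val (Fin.last K) - val 0) ^ 2 * (1 + (val (Fin.last K) - val 0)))

/-- **The contradiction.** -/
theorem contra {K m J : ℕ} {w val : Fin (K + 1) → ℝ} (hv : StrictMono val)
    (hw : ∀ k, 0 < w k) (hs : ∑ k, w k = 1) {γ : Fin J → ℚ} (hγ : ∀ j, 0 < γ j)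
    (hγs : ∑ j, γ j = 1) {c t : Fin J → ℝ} {ε0 r : ℝ}
    (hr : ∀ m' : Fin J → ℝ, (∀ j, |m' j - t j| ≤ ε0) → (∀ j, t j = 0 → m' j = 0) →
      (r : EReal) ≤ ((∑ j : Fin J, ((γ j : ℚ) : ℝ) * c j * m' j : ℝ) : EReal) +
        VR (atomic w val) (val (Fin.last K)) γ m')
    {wd p : Fin (m + 1) → ℝ} (hwd : ∀ i, 0 < wd i) (hwds : ∑ i, wd i = 1)
    (hp : Monotone p) (hp0 : ∀ i, 0 ≤ p i) (hp1 : ∀ i, p i ≤ 1) (hD : 0 < Dd wd p 0)
    {V : Fin J → Fin (m + 1) → ℝ} (hV : ∀ j, Monotone (V j)) (hV0 : ∀ j i, 0 ≤ V j i)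
    {Kp E δ e ε1 : ℝ} (hKp : 0 ≤ Kp) {el mb b : Fin J → ℝ} (hel : ∀ j, |el j| ≤ E)
    (hE : 0 ≤ E) (hδ0 : 0 ≤ δ)
    (hmb : ∀ j, |mb j| ≤ 1) (ht : ∀ j, |t j| < 1)
    (hb : ∀ j, b j = if t j = 0 then 0 else c j - 2 * Kp * (mb j - t j) + el j)
    (hQ : ∀ j, t j ≠ 0 → |mb j - t j| ≤ ε0 / 2) (hε0 : 0 ≤ ε0)
    (hmag : ∀ j, t j ≠ 0 → |mb j - magAt (b j) wd (fun i => hh w val wd p i + V j i)| ≤ δ)
    (hδ : δ ≤ ε0 / 2)
    (hval : ∑ j, ((γ j : ℚ) : ℝ) * ((if t j = 0 then 0 else Kp * (mb j ^ 2 - t j ^ 2)) +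
        (fieldValueAt (b j) wd (fun i => hh w val wd p i + V j i) +
        1 / 2 * (hh w val wd p (Fin.last m) + V j (Fin.last m)))) -
        1 / 2 * hh w val wd p (Fin.last m) + 1 / 2 * ∑ i, wd i * (p i * hh w val wd p i) +
        spectralPart (atomic w val) (val (Fin.last K)) (stepFn wd p) +
        Kp * ∑ j, ((γ j : ℚ) : ℝ) * (if t j = 0 then 0 else (mb j - t j) ^ 2) ≤ r - ε1)
    (hP : ∑ i, wd i * |gP γ b wd (fun j i => hh w val wd p i + V j i) i - p i| ≤ e)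
    (hbad : 4 * Kp * δ + E + CF w val wd p * e < ε1) : False := by
  have hhs := hh_stepField hv hw hs hwd hwds hp hp0 hp1 hD
  set hj : Fin J → Fin (m + 1) → ℝ := fun j i => hh w val wd p i + V j i with hjdef
  have hstep : ∀ j, IsStepField wd (hj j) := fun j =>
    ⟨hhs.1, hhs.2.1, hhs.2.2.1, hhs.2.2.2.1.add (hV j), fun i =>
      add_nonneg (hhs.2.2.2.2 i) (hV0 j i)⟩
  have hγ' : ∀ j, (0:ℝ) ≤ ((γ j : ℚ) : ℝ) := fun j => by exact_mod_cast (hγ j).le
  have hγs' : ∑ j, ((γ j : ℚ) : ℝ) = 1 := by exact_mod_cast hγs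
  set mh : Fin J → ℝ := fun j => magAt (b j) wd (hj j) with hmh
  have hmh0 : ∀ j, t j = 0 → mh j = 0 := by
    intro j hj0
    have : b j = 0 := by rw [hb, if_pos hj0]
    show magAt (b j) wd (hj j) = 0
    rw [this]
    exact magAt_zero' (hstep j)
  have hnear : ∀ j, |mh j - t j| ≤ ε0 := by
    intro j
    by_cases h0 : t j = 0
    · rw [hmh0 j h0, h0]; simpa using hε0
    · have h1 := hQ j h0
      have h2 := hmag j h0
      have h3 : |mh j - t j| ≤ |mb j - mh j| + |mb j - t j| := by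
        have : mh j - t j = -(mb j - mh j) + (mb j - t j) := by ring
        rw [this]
        refine (abs_add_le _ _).trans ?_
        rw [abs_neg]
      linarith
  have hR := hr mh hnear hmh0
  set X : ℝ := r - ε1 - Kp * ∑ j, ((γ j : ℚ) : ℝ) * (if t j = 0 then 0 else (mb j - t j) ^ 2) -
    ∑ j, ((γ j : ℚ) : ℝ) * (if t j = 0 then 0 else Kp * (mb j ^ 2 - t j ^ 2)) with hXdef
  have hX : ∑ j, ((γ j : ℚ) : ℝ) * (fieldValueAt (b j) wd (fun i => hh w val wd p i + V j i) +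
        1 / 2 * (hh w val wd p (Fin.last m) + V j (Fin.last m))) -
        1 / 2 * hh w val wd p (Fin.last m) + 1 / 2 * ∑ i, wd i * (p i * hh w val wd p i) +
        spectralPart (atomic w val) (val (Fin.last K)) (stepFn wd p) ≤ X := by
    simp only [mul_add (((γ _ : ℚ) : ℝ)) (ite _ _ _) _, Finset.sum_add_distrib] at hval
    rw [hXdef]
    linarith
  have hF := final Cv.conc hv hw hs hγ hγs hwd hwds hp hp0 hp1 hD hV hV0 b hX hP
  have hF' : VR (atomic w val) (val (Fin.last K)) γ mh ≤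
      ((X - ∑ j, ((γ j : ℚ) : ℝ) * (b j * mh j) + CF w val wd p * e : ℝ) : EReal) := hF
  have hfin := hR.trans (add_le_add le_rfl hF')
  rw [← EReal.coe_add, EReal.coe_le_coe_iff] at hfin
  -- the pointwise identity
  have hpt : ∀ j, ((γ j : ℚ) : ℝ) * c j * mh j -
      Kp * (((γ j : ℚ) : ℝ) * (if t j = 0 then 0 else (mb j - t j) ^ 2)) -
      ((γ j : ℚ) : ℝ) * (if t j = 0 then 0 else Kp * (mb j ^ 2 - t j ^ 2)) -
      ((γ j : ℚ) : ℝ) * (b j * mh j) ≤ ((γ j : ℚ) : ℝ) * (4 * Kp * δ + E) := by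
    intro j
    by_cases h0 : t j = 0
    · rw [hmh0 j h0, if_pos h0, if_pos h0]
      have : 0 ≤ ((γ j : ℚ) : ℝ) * (4 * Kp * δ + E) := mul_nonneg (hγ' j) (by positivity)
      simpa using this
    · rw [if_neg h0, if_neg h0, hb, if_neg h0]
      have e1 : ((γ j : ℚ) : ℝ) * c j * mh j - Kp * (((γ j : ℚ) : ℝ) * (mb j - t j) ^ 2) -
          ((γ j : ℚ) : ℝ) * (Kp * (mb j ^ 2 - t j ^ 2)) -
          ((γ j : ℚ) : ℝ) * ((c j - 2 * Kp * (mb j - t j) + el j) * mh j) =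
          ((γ j : ℚ) : ℝ) * (-(2 * Kp * ((mb j - t j) * (mb j - mh j))) - el j * mh j) := by ring
      rw [e1]
      refine mul_le_mul_of_nonneg_left ?_ (hγ' j)
      have a1 : |(mb j - t j) * (mb j - mh j)| ≤ 2 * δ := by
        rw [abs_mul]
        have b1 : |mb j - t j| ≤ 2 := by
          refine (abs_sub _ _).trans ?_
          linarith [hmb j, (ht j).le]
        exact mul_le_mul b1 (hmag j h0) (abs_nonneg _) (by norm_num)
      have a2 : |el j * mh j| ≤ E := by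
        rw [abs_mul]
        have b1 : |mh j| ≤ 1 := (abs_magAt_lt (hstep j) (b j)).le
        calc |el j| * |mh j| ≤ E * 1 := mul_le_mul (hel j) b1 (abs_nonneg _) hE
          _ = E := mul_one _
      have a3 := (abs_le.1 a1).1
      have a4 := (abs_le.1 a2).1
      nlinarith
  have hsum := Finset.sum_le_sum fun j (_ : j ∈ Finset.univ) => hpt j
  rw [← Finset.sum_mul, hγs', one_mul, Finset.sum_sub_distrib, Finset.sum_sub_distrib,
    Finset.sum_sub_distrib, ← Finset.mul_sum] at hsum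
  rw [hXdef] at hfin
  linarith

end

end Crest.Agent.R164.LF
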