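import Mathlib

/-!
Row 164 (helper275): MONO-TAIL.  Tail sums of a monotone quantity over the cells versus tail sums of
its values at one level per window.
-/

set_option autoImplicit false

namespace Crest.Agent.R164.LTail

open Finset

/-- blocks of cells -/
theorem sum_blocks (wc : ℕ) (f : ℕ → ℝ) {a b : ℕ} (hab : a ≤ b) :
    ∑ g ∈ Ico (a * wc) (b * wc), f g =
      ∑ i ∈ Ico a b, ∑ g ∈ Ico (i * wc) ((i + 1) * wc), f g := by
  induction b, hab using Nat.le_induction with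
  | base => simp
  | succ b hab ih =>
    rw [Finset.sum_Ico_succ_top hab, ← ih,
      Finset.sum_Ico_consecutive _ (Nat.mul_le_mul_right _ hab)
        (Nat.mul_le_mul_right _ (Nat.le_succ b))]

/-- abstract form: `Rm g` = value at the label step of the cell `g`, `P i` = value at the level of
the window `i`. -/
theorem mono_tail_abs {n wc : ℕ} (hw : 0 < wc) (Rm P : ℕ → ℝ)
    (hR0 : ∀ g, 0 ≤ Rm g) (hR1 : ∀ g, Rm g ≤ 1) (hP0 : ∀ i ≤ n, 0 ≤ P i) (hP1 : ∀ i ≤ n, P i ≤ 1)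
    (hlo : ∀ i ≤ n, ∀ g, (i + 1) * wc ≤ g → P i ≤ Rm g)
    (hup : ∀ i ≤ n, ∀ g, g < i * wc → Rm g ≤ P i)
    {iq : ℕ} (h1 : 1 ≤ iq) (h2 : iq ≤ n + 1) :
    |(1 / ((((n + 1) * wc : ℕ) : ℝ) + 1)) * ∑ g ∈ Ico (iq * wc - 1) ((n + 1) * wc), Rm g -
      (1 / ((n : ℝ) + 1)) * ∑ i ∈ Ico iq (n + 1), P i| ≤ 2 / ((n : ℝ) + 1) := by
  have hn : (0:ℝ) < (n:ℝ) + 1 := by positivity
  have hwR : (1:ℝ) ≤ wc := by exact_mod_cast hw
  set S : ℝ := ∑ i ∈ Ico iq (n + 1), P i with hS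
  have hS0 : 0 ≤ S := Finset.sum_nonneg fun i hi => hP0 i (by
    have := (Finset.mem_Ico.1 hi).2; omega)
  have hS1 : S ≤ (n:ℝ) + 1 := by
    have h3 : S ≤ ∑ i ∈ Ico iq (n + 1), (1:ℝ) := Finset.sum_le_sum fun i hi => hP1 i (by
      have := (Finset.mem_Ico.1 hi).2; omega)
    rw [Finset.sum_const, Nat.card_Ico, nsmul_eq_mul, mul_one] at h3
    have h4 : ((n + 1 - iq : ℕ) : ℝ) ≤ ((n + 1 : ℕ) : ℝ) := by
      exact_mod_cast Nat.sub_le _ _
    push_cast at h4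
    linarith
  -- the block sums
  set T : ℝ := ∑ g ∈ Ico (iq * wc) ((n + 1) * wc), Rm g with hT
  have hsplit : ∑ g ∈ Ico (iq * wc - 1) ((n + 1) * wc), Rm g = Rm (iq * wc - 1) + T := by
    have h3 : iq * wc - 1 < (n + 1) * wc := by
      have := Nat.mul_le_mul_right wc h2
      have : 0 < (n + 1) * wc := by positivity
      omega
    rw [Finset.sum_eq_sum_Ico_succ_bot h3]
    have h4 : iq * wc - 1 + 1 = iq * wc := by
      have : 0 < iq * wc := by positivity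
      omega
    rw [h4]
  have hTb : T = ∑ i ∈ Ico iq (n + 1), ∑ g ∈ Ico (i * wc) ((i + 1) * wc), Rm g :=
    sum_blocks wc Rm h2
  have hcard : ∀ i : ℕ, ((i + 1) * wc - i * wc : ℕ) = wc := by
    intro i
    rw [Nat.add_mul, one_mul]; omega
  have hbu : ∀ (i : ℕ) (c : ℝ), (∀ g ∈ Ico (i * wc) ((i + 1) * wc), Rm g ≤ c) →
      ∑ g ∈ Ico (i * wc) ((i + 1) * wc), Rm g ≤ wc * c := by
    intro i c h
    refine (Finset.sum_le_sum h).trans (le_of_eq ?_)
    rw [Finset.sum_const, Nat.card_Ico, hcard, nsmul_eq_mul]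
  have hbl : ∀ (i : ℕ) (c : ℝ), (∀ g ∈ Ico (i * wc) ((i + 1) * wc), c ≤ Rm g) →
      wc * c ≤ ∑ g ∈ Ico (i * wc) ((i + 1) * wc), Rm g := by
    intro i c h
    refine le_trans (le_of_eq ?_) (Finset.sum_le_sum h)
    rw [Finset.sum_const, Nat.card_Ico, hcard, nsmul_eq_mul]
  -- upper bound of `T`
  have hTu : T ≤ wc * (S + 1) := by
    rcases Nat.lt_or_ge n iq with hlt | hge
    · have : iq = n + 1 := by omega
      rw [hT, this, Finset.Ico_self, Finset.sum_empty]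
      positivity
    · rw [hTb, Finset.sum_Ico_succ_top hge]
      have h3 : ∑ i ∈ Ico iq n, ∑ g ∈ Ico (i * wc) ((i + 1) * wc), Rm g ≤
          wc * ∑ i ∈ Ico iq n, P (i + 1) := by
        rw [Finset.mul_sum]
        refine Finset.sum_le_sum fun i hi => hbu i _ fun g hg => ?_
        have hi' := Finset.mem_Ico.1 hi
        exact hup (i + 1) (by omega) g (Finset.mem_Ico.1 hg).2
      have h4 : ∑ g ∈ Ico (n * wc) ((n + 1) * wc), Rm g ≤ wc * 1 := hbu n 1 fun g _ => hR1 g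
      have h5 : ∑ i ∈ Ico iq n, P (i + 1) ≤ S := by
        rw [Finset.sum_Ico_add' (fun i => P i) iq n 1, hS]
        refine Finset.sum_le_sum_of_subset_of_nonneg
          (Finset.Ico_subset_Ico (Nat.le_succ _) le_rfl) fun i hi _ => hP0 i (by
            have := (Finset.mem_Ico.1 hi).2; omega)
      have h6 : (wc:ℝ) * ∑ i ∈ Ico iq n, P (i + 1) ≤ wc * S :=
        mul_le_mul_of_nonneg_left h5 (by positivity)
      linarith
  -- lower bound of `T`
  have hTl : wc * (S - 1) ≤ T := by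
    rw [hTb]
    have h3 : wc * ∑ i ∈ Ico iq (n + 1), P (i - 1) ≤
        ∑ i ∈ Ico iq (n + 1), ∑ g ∈ Ico (i * wc) ((i + 1) * wc), Rm g := by
      rw [Finset.mul_sum]
      refine Finset.sum_le_sum fun i hi => hbl i _ fun g hg => ?_
      have hi' := Finset.mem_Ico.1 hi
      refine hlo (i - 1) (by omega) g ?_
      have : i - 1 + 1 = i := by omega
      rw [this]
      exact (Finset.mem_Ico.1 hg).1
    have h4 : S - 1 ≤ ∑ i ∈ Ico iq (n + 1), P (i - 1) := by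
      have e1 : ∑ i ∈ Ico iq (n + 1), P (i - 1) = ∑ i ∈ Ico (iq - 1) n, P i := by
        have := Finset.sum_Ico_add' (fun i => P (i - 1)) (iq - 1) n 1
        have e2 : iq - 1 + 1 = iq := by omega
        rw [e2] at this
        rw [← this]
        refine Finset.sum_congr rfl fun i _ => ?_
        simp
      rw [e1]
      rcases Nat.lt_or_ge n iq with hlt | hge
      · have : iq = n + 1 := by omega
        have hS' : S = 0 := by rw [hS, this, Finset.Ico_self, Finset.sum_empty]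
        have h5 : 0 ≤ ∑ i ∈ Ico (iq - 1) n, P i := Finset.sum_nonneg fun i hi => hP0 i (by
          have := (Finset.mem_Ico.1 hi).2; omega)
        linarith
      · rw [hS, Finset.sum_Ico_succ_top hge]
        have h5 : ∑ i ∈ Ico iq n, P i ≤ ∑ i ∈ Ico (iq - 1) n, P i :=
          Finset.sum_le_sum_of_subset_of_nonneg
            (Finset.Ico_subset_Ico (Nat.sub_le _ _) le_rfl) fun i hi _ => hP0 i (by
              have := (Finset.mem_Ico.1 hi).2; omega)
        have h6 := hP1 n le_rfl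
        linarith
    exact (mul_le_mul_of_nonneg_left h4 (by positivity)).trans h3
  -- conclusion
  have hD : (0:ℝ) < (((n + 1) * wc : ℕ) : ℝ) + 1 := by positivity
  have hDeq : (((n + 1) * wc : ℕ) : ℝ) + 1 = ((n:ℝ) + 1) * wc + 1 := by push_cast; ring
  rw [hsplit, abs_le]
  have hr0 := hR0 (iq * wc - 1)
  have hr1 := hR1 (iq * wc - 1)
  rw [hDeq] at hD ⊢
  constructor
  · have h3 : (1 / ((n:ℝ) + 1)) * S - 2 / ((n:ℝ) + 1) ≤
        (1 / (((n:ℝ) + 1) * wc + 1)) * (wc * (S - 1)) := by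
      rw [div_mul_eq_mul_div, div_mul_eq_mul_div, div_sub_div_same, div_le_div_iff₀ hn hD]
      nlinarith
    have h4 : (1 / (((n:ℝ) + 1) * wc + 1)) * (wc * (S - 1)) ≤
        (1 / (((n:ℝ) + 1) * wc + 1)) * (Rm (iq * wc - 1) + T) :=
      mul_le_mul_of_nonneg_left (by linarith) (by positivity)
    linarith
  · have h3 : (1 / (((n:ℝ) + 1) * wc + 1)) * (1 + wc * (S + 1)) ≤
        (1 / ((n:ℝ) + 1)) * S + 2 / ((n:ℝ) + 1) := by
      rw [div_mul_eq_mul_div, div_mul_eq_mul_div, ← add_div, div_le_div_iff₀ hD hn]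
      nlinarith
    have h4 : (1 / (((n:ℝ) + 1) * wc + 1)) * (Rm (iq * wc - 1) + T) ≤
        (1 / (((n:ℝ) + 1) * wc + 1)) * (1 + wc * (S + 1)) :=
      mul_le_mul_of_nonneg_left (by linarith) (by positivity)
    linarith

/-- **MONO-TAIL**: `R` monotone with values in `[0,1]` (function of the step), `m g` = label step of
the cell `g`, `τ i` = level in the cell `cell i` of the window `i`. -/
theorem mono_tail {n wc : ℕ} (hw : 0 < wc) (R : ℕ → ℝ) (hR : Monotone R)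
    (h0 : ∀ l, 0 ≤ R l) (h1 : ∀ l, R l ≤ 1) (m : ℕ → ℕ) (hm : Monotone m)
    (cell τ : ℕ → ℕ) (hcell : ∀ i ≤ n, i * wc ≤ cell i ∧ cell i < (i + 1) * wc)
    (hτ1 : ∀ i ≤ n, ∀ g < cell i, m g ≤ τ i) (hτ2 : ∀ i ≤ n, τ i ≤ m (cell i))
    {iq : ℕ} (hq1 : 1 ≤ iq) (hq2 : iq ≤ n + 1) :
    |(1 / ((((n + 1) * wc : ℕ) : ℝ) + 1)) *
        ∑ g ∈ Ico (iq * wc - 1) ((n + 1) * wc), R (m g) -
      (1 / ((n : ℝ) + 1)) * ∑ i ∈ Ico iq (n + 1), R (τ i)| ≤ 2 / ((n : ℝ) + 1) := by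
  refine mono_tail_abs hw (fun g => R (m g)) (fun i => R (τ i)) (fun g => h0 _) (fun g => h1 _)
    (fun i _ => h0 _) (fun i _ => h1 _) (fun i hi g hg => hR ?_) (fun i hi g hg => hR ?_) hq1 hq2
  · exact (hτ2 i hi).trans (hm ((hcell i hi).2.le.trans hg))
  · exact hτ1 i hi g (hg.trans_le (hcell i hi).1)

/-- the same with two different monotone profiles whose values agree up to `e` (for instance the
averages in the `N` and the `N + 1` systems). -/
theorem mono_tail' {n wc : ℕ} (hw : 0 < wc) (R : ℕ → ℝ) (hR : Monotone R)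
    (h0 : ∀ l, 0 ≤ R l) (h1 : ∀ l, R l ≤ 1) (m : ℕ → ℕ) (hm : Monotone m)
    (cell τ : ℕ → ℕ) (hcell : ∀ i ≤ n, i * wc ≤ cell i ∧ cell i < (i + 1) * wc)
    (hτ1 : ∀ i ≤ n, ∀ g < cell i, m g ≤ τ i) (hτ2 : ∀ i ≤ n, τ i ≤ m (cell i))
    {iq : ℕ} (hq1 : 1 ≤ iq) (hq2 : iq ≤ n + 1) {a e : ℝ}
    (ha : |a - (1 / ((((n + 1) * wc : ℕ) : ℝ) + 1)) *
        ∑ g ∈ Ico (iq * wc - 1) ((n + 1) * wc), R (m g)| ≤ e) :
    |a - (1 / ((n : ℝ) + 1)) * ∑ i ∈ Ico iq (n + 1), R (τ i)| ≤ e + 2 / ((n : ℝ) + 1) := by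
  have h := mono_tail hw R hR h0 h1 m hm cell τ hcell hτ1 hτ2 hq1 hq2
  rw [abs_le] at *
  constructor <;> linarith [h.1, h.2, ha.1, ha.2]

end Crest.Agent.R164.LTail
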