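import Crest.Agent.R164.LGDef
import Crest.Agent.R164.LIbp
import Crest.Agent.R164.LTail

/-!
Row 164 (helper275), GL11 of helper893: `MTAIL`, group overlaps at the label steps and the path.
-/

set_option autoImplicit false

namespace Crest.Agent.R164.LG

open Finset MeasureTheory Filter Topology Crest.Agent.R141 Crest.Agent.R164 Crest.Agent.R164.Haar
open Crest.Agent.R164.LD (Prm HL EPh EO PL TO RJ MO)

noncomputable section

variable {p : Par} {N : ℕ}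

theorem Rs_nonneg (n : ℕ) (P : G.Om (LD.B p N n) → ℝ) (l : ℕ) (ω : G.Om (LD.B p N n)) :
    0 ≤ Rs n P l ω := by
  unfold Rs
  exact mul_nonneg (by positivity) (Finset.sum_nonneg fun _ _ => sq_nonneg _)

theorem Rs_le_one (hN : 0 < N) {n : ℕ} {P : G.Om (LD.B p N n) → ℝ} (hP : IsProb P) (l : ℕ)
    (ω : G.Om (LD.B p N n)) : Rs n P l ω ≤ 1 := by
  unfold Rs
  have hN' : (0:ℝ) < N := by exact_mod_cast hN
  rw [inv_mul_le_iff₀ hN', mul_one]
  calc ∑ i, (cE P ((G.fil (LD.B p N n)).F l) (fun ω => sv (ω.1.1.1 i)) ω) ^ 2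
      ≤ ∑ _i : Fin N, (1:ℝ) := Finset.sum_le_sum fun i _ => LD.cE_sv_sq_le hP i _ ω
    _ = N := by simp

theorem eE_Rs_mono {n : ℕ} {P : G.Om (LD.B p N n) → ℝ} (hP : IsProb P) {l l' : ℕ} (h : l ≤ l') :
    eE P (Rs n P l) ≤ eE P (Rs n P l') := by
  have e : ∀ l, eE P (Rs n P l) = (N : ℝ)⁻¹ * ∑ i, eE P (fun ω =>
      (cE P ((G.fil (LD.B p N n)).F l) (fun ω => sv (ω.1.1.1 i)) ω) ^ 2) := by
    intro l
    unfold Rs
    rw [eE_smul, eE_sum]
  rw [e, e]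
  refine mul_le_mul_of_nonneg_left (Finset.sum_le_sum fun i _ => ?_) (by positivity)
  have hr : (G.fil (LD.B p N n)).F l' ≤ (G.fil (LD.B p N n)).F l :=
    (G.fil (LD.B p N n)).anti' h
  rw [← eE_cE hP ((G.fil (LD.B p N n)).F l) (fun ω => (cE P
    ((G.fil (LD.B p N n)).F l') (fun w => sv (w.1.1.1 i)) ω) ^ 2)]
  refine eE_mono hP fun w => ?_
  have h1 := cE_sq_le hP ((G.fil (LD.B p N n)).F l)
    (cE P ((G.fil (LD.B p N n)).F l') (fun w => sv (w.1.1.1 i))) w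
  rwa [cE_tower hP hr] at h1

variable (X : Glob) (n : ℕ) (Kp : ℝ) (θ : Prm p X.K X.J) (L : Fin N → X.LB)

theorem Pl_isProb (U : Mat (Fin N)) (d : DD p N) : IsProb (Pl X n Kp θ L U d) :=
  LD.PL_isProb X.val X.c X.t Kp θ (Glob.kap L) (Glob.lab L) U d

theorem adm_Rs (l : DD p N → ℕ) :
    LD.OAdm (X.nu N) (fun U d ω => Rs n (Pl X n Kp θ L U d) (l d) ω) where
  meas d ω := by
    unfold Rs
    refine Measurable.const_mul (Finset.measurable_sum _ fun i _ => ?_) _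
    exact (G.meas_cE (P := fun U => Pl X n Kp θ L U d)
      (f := fun _ w => sv (w.1.1.1 i))
      (fun ω => LD.meas_PL X.val X.c X.t Kp θ (Glob.kap L) (Glob.lab L) d ω)
      (fun _ => measurable_const) _ ω).pow_const 2
  bdd d := by
    rcases Nat.eq_zero_or_pos N with h0 | hN
    · subst h0
      refine ⟨0, Filter.Eventually.of_forall fun U ω => ?_⟩
      unfold Rs
      simp
    · refine ⟨1, Filter.Eventually.of_forall fun U ω => ?_⟩
      rw [abs_of_nonneg (Rs_nonneg n _ _ ω)]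
      exact Rs_le_one hN (Pl_isProb X n Kp θ L U d) _ ω

/-- averaged spin overlap at a level depending on `d` -/
def Rl (l : DD p N → ℕ) : ℝ := Eo X n Kp θ L (fun U d ω => Rs n (Pl X n Kp θ L U d) (l d) ω)

theorem Rl_mono {l l' : DD p N → ℕ} (h : ∀ d, l d ≤ l' d) :
    Rl X n Kp θ L l ≤ Rl X n Kp θ L l' := by
  have := X.hnu N
  exact LD.EO_mono X.val X.c X.t Kp θ (Glob.kap L) (Glob.lab L) (adm_Rs X n Kp θ L l)
    (adm_Rs X n Kp θ L l') fun d => Filter.Eventually.of_forall fun U =>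
      eE_Rs_mono (Pl_isProb X n Kp θ L U d) (h d)

theorem Rl_nonneg (hN : 0 < N) (l : DD p N → ℕ) : 0 ≤ Rl X n Kp θ L l := by
  have := X.hnu N
  have h := LD.EO_mono' X.val X.c X.t Kp θ (Glob.kap L) (Glob.lab L)
    (LD.OAdm.const (mu := X.nu N) (n := n) (fun (_ : DD p N) _ => (0 : ℝ)))
    (adm_Rs X n Kp θ L l) (fun d => Filter.Eventually.of_forall fun U ω =>
      Rs_nonneg n (Pl X n Kp θ L U d) (l d) ω)
  rwa [LD.EO_const X.val X.c X.t Kp θ (Glob.kap L) (Glob.lab L) hN] at h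

theorem Rl_le_one (hN : 0 < N) (l : DD p N → ℕ) : Rl X n Kp θ L l ≤ 1 := by
  have := X.hnu N
  have h := LD.EO_mono' X.val X.c X.t Kp θ (Glob.kap L) (Glob.lab L)
    (adm_Rs X n Kp θ L l)
    (LD.OAdm.const (mu := X.nu N) (n := n) (fun (_ : DD p N) _ => (1 : ℝ)))
    (fun d => Filter.Eventually.of_forall fun U ω =>
      Rs_le_one hN (Pl_isProb X n Kp θ L U d) (l d) ω)
  rwa [LD.EO_const X.val X.c X.t Kp θ (Glob.kap L) (Glob.lab L) hN] at h

/-- averaged group overlap -/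
def Rg (j : Fin X.J) (l : ℕ) : ℝ :=
  Eo X n Kp θ L (fun U d ω => RJ n (Pl X n Kp θ L U d) (Glob.lab L) j l ω)

theorem Rg_nonneg (hN : 0 < N) (j : Fin X.J) (l : ℕ) : 0 ≤ Rg X n Kp θ L j l := by
  have := X.hnu N
  have h := LD.EO_mono' X.val X.c X.t Kp θ (Glob.kap L) (Glob.lab L)
    (LD.OAdm.const (mu := X.nu N) (n := n) (fun (_ : DD p N) _ => (0 : ℝ)))
    (LD.adm_RJ X.val X.c X.t Kp θ (Glob.kap L) (Glob.lab L) j l)
    (fun d => Filter.Eventually.of_forall fun U ω => LD.RJ_nonneg n _ (Glob.lab L) j l ω)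
  rwa [LD.EO_const X.val X.c X.t Kp θ (Glob.kap L) (Glob.lab L) hN] at h

theorem Rg_le_one (hN : 0 < N) (j : Fin X.J) (l : ℕ) : Rg X n Kp θ L j l ≤ 1 := by
  have := X.hnu N
  have h := LD.EO_mono' X.val X.c X.t Kp θ (Glob.kap L) (Glob.lab L)
    (LD.adm_RJ X.val X.c X.t Kp θ (Glob.kap L) (Glob.lab L) j l)
    (LD.OAdm.const (mu := X.nu N) (n := n) (fun (_ : DD p N) _ => (1 : ℝ)))
    (fun d => Filter.Eventually.of_forall fun U ω =>
      LD.RJ_le_one (Pl_isProb X n Kp θ L U d) (Glob.lab L) j l ω)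
  rwa [LD.EO_const X.val X.c X.t Kp θ (Glob.kap L) (Glob.lab L) hN] at h

/-- the overlap is the weighted sum of the group overlaps -/
theorem sum_Rg (l : ℕ) : ∑ j, (Mag.rJ (Glob.lab L) j / (N : ℝ)) * Rg X n Kp θ L j l =
    Rl X n Kp θ L (fun _ => l) := by
  have := X.hnu N
  have h1 : ∀ j, (Mag.rJ (Glob.lab L) j / (N : ℝ)) * Rg X n Kp θ L j l =
      Eo X n Kp θ L (fun U d ω => (Mag.rJ (Glob.lab L) j / (N : ℝ)) *
        RJ n (Pl X n Kp θ L U d) (Glob.lab L) j l ω) := fun j =>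
    (LD.EO_smul X.val X.c X.t Kp θ (Glob.kap L) (Glob.lab L)
      (LD.adm_RJ X.val X.c X.t Kp θ (Glob.kap L) (Glob.lab L) j l) _).symm
  simp only [h1]
  have h2 := LD.EO_sum X.val X.c X.t Kp θ (Glob.kap L) (Glob.lab L) (n := n) (mu := X.nu N)
    Finset.univ (O := fun j U d ω => (Mag.rJ (Glob.lab L) j / (N : ℝ)) *
        RJ n (Pl X n Kp θ L U d) (Glob.lab L) j l ω)
    (fun j _ => (LD.adm_RJ X.val X.c X.t Kp θ (Glob.kap L) (Glob.lab L) j l).smul _)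
  refine h2.symm.trans ?_
  unfold Rl Eo
  congr 1
  funext U d ω
  exact LD.sum_RJ n (Pl X n Kp θ L U d) (Glob.lab L) l ω

variable {X n Kp θ L}

theorem good_ratio {d0 : ℝ} (hN : 0 < N) (hL : LabAvg.Good X.al d0 L) (j : Fin X.J) :
    |((X.γ j : ℚ) : ℝ) - Mag.rJ (Glob.lab L) j / (N : ℝ)| ≤ ((X.K : ℝ) + 1) * d0 := by
  have hN' : (0:ℝ) < N := by exact_mod_cast hN
  have h := LabTr.Good_snd (α := X.w) (γ := fun j => ((X.γ j : ℚ) : ℝ)) X.hs hL j
  rw [Fintype.card_fin] at h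
  have e : ((X.γ j : ℚ) : ℝ) - Mag.rJ (Glob.lab L) j / (N : ℝ) =
      -((((LabAvg.cnt (fun i => (L i).2) j : ℕ) : ℝ) - N * ((X.γ j : ℚ) : ℝ)) / N) := by
    have : Mag.rJ (Glob.lab L) j = ((LabAvg.cnt (fun i => (L i).2) j : ℕ) : ℝ) := rfl
    rw [this]
    field_simp
    ring
  rw [e, abs_neg, abs_div, abs_of_pos hN', div_le_iff₀ hN']
  refine h.trans (le_of_eq ?_)
  push_cast
  ring

/-- **(GL11)** -/
theorem mtail (X : Glob) : MTAIL X := by
  intro d0 hd0 p N n n' wc Kp θ L es lv P hN hL hS q r hr hwc hqr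
  have hN' : (0:ℝ) < N := by exact_mod_cast hN
  have hd : 0 < d0 := hd0.1
  have hnc : (0:ℝ) < (p.nc : ℝ) + 1 := by positivity
  -- the group sums
  set Y : Fin X.J → ℝ := fun j => ((p.nc : ℝ) + 1)⁻¹ *
      ∑ g' ∈ Finset.Ico (cellA (r * wc) q) p.nc, Rg X n Kp θ L j (p.mt g') with hY
  have hsum1 : ∀ j, ∑ g' ∈ Finset.Ico (cellA (r * wc) q) p.nc,
      Rg X n Kp θ L j (p.mt g') ≤ (p.nc : ℝ) := by
    intro j
    calc _ ≤ ∑ _g' ∈ Finset.Ico (cellA (r * wc) q) p.nc, (1:ℝ) :=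
          Finset.sum_le_sum fun g _ => Rg_le_one X n Kp θ L hN j _
      _ = ((p.nc - cellA (r * wc) q : ℕ) : ℝ) := by simp
      _ ≤ p.nc := by exact_mod_cast Nat.sub_le _ _
  have hY0 : ∀ j, 0 ≤ Y j := fun j => mul_nonneg (by positivity)
    (Finset.sum_nonneg fun g _ => Rg_nonneg X n Kp θ L hN j _)
  have hY1 : ∀ j, Y j ≤ 1 := by
    intro j
    rw [hY]
    simp only
    rw [inv_mul_le_iff₀ hnc]
    linarith [hsum1 j]
  -- replace `γ` by the true proportions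
  have h1 : |∑ j, ((X.γ j : ℚ) : ℝ) * Y j - ∑ j, (Mag.rJ (Glob.lab L) j / (N : ℝ)) * Y j| ≤
      (X.J : ℝ) * (((X.K : ℝ) + 1) * d0) := by
    rw [← Finset.sum_sub_distrib]
    refine (Finset.abs_sum_le_sum_abs _ _).trans ?_
    calc _ ≤ ∑ _j : Fin X.J, ((X.K : ℝ) + 1) * d0 := by
          refine Finset.sum_le_sum fun j _ => ?_
          rw [← sub_mul, abs_mul, abs_of_nonneg (hY0 j)]
          have h2 := good_ratio hN hL j
          have h3 : 0 ≤ ((X.K : ℝ) + 1) * d0 := by positivity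
          calc _ ≤ ((X.K : ℝ) + 1) * d0 * 1 := mul_le_mul h2 (hY1 j) (hY0 j) h3
            _ = _ := mul_one _
      _ = _ := by rw [Finset.sum_const, Finset.card_univ, Fintype.card_fin, nsmul_eq_mul]
  -- the total overlap
  have h2 : ∑ j, (Mag.rJ (Glob.lab L) j / (N : ℝ)) * Y j =
      (1 / ((((n' + 1) * wc : ℕ) : ℝ) + 1)) *
        ∑ g ∈ Finset.Ico ((q + 1) * r * wc - 1) ((n' + 1) * wc),
          Rl X n Kp θ L (fun _ => p.mt g) := by
    have e1 : ∀ j, (Mag.rJ (Glob.lab L) j / (N : ℝ)) * Y j = ((p.nc : ℝ) + 1)⁻¹ *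
        ∑ g' ∈ Finset.Ico (cellA (r * wc) q) p.nc,
          (Mag.rJ (Glob.lab L) j / (N : ℝ)) * Rg X n Kp θ L j (p.mt g') := by
      intro j
      rw [hY]
      simp only
      rw [mul_left_comm, Finset.mul_sum]
    simp only [e1]
    rw [← Finset.mul_sum, Finset.sum_comm]
    have e2 : ∀ g' : ℕ, ∑ j, (Mag.rJ (Glob.lab L) j / (N : ℝ)) * Rg X n Kp θ L j (p.mt g') =
        Rl X n Kp θ L (fun _ => p.mt g') := fun g' => sum_Rg X n Kp θ L _
    simp only [e2]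
    have e3 : cellA (r * wc) q = (q + 1) * r * wc - 1 := by
      unfold cellA
      rw [mul_assoc]
    rw [e3, hS.hp, one_div]
  -- monotonicity
  have hmono := LTail.mono_tail_abs (n := n') hwc (fun g => Rl X n Kp θ L (fun _ => p.mt g)) P
    (fun g => Rl_nonneg X n Kp θ L hN _) (fun g => Rl_le_one X n Kp θ L hN _)
    (fun i hi => by rw [hS.Peq i hi]; exact Rl_nonneg X n Kp θ L hN (fun d => lv d i))
    (fun i hi => by rw [hS.Peq i hi]; exact Rl_le_one X n Kp θ L hN (fun d => lv d i))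
    (fun i hi g hg => by
      rw [hS.Peq i hi]
      refine Rl_mono X n Kp θ L (l := fun d => lv d i) (l' := fun _ => p.mt g) fun d => ?_
      obtain ⟨g0, t0, h3, h4, h5, h6⟩ := hS.cell d i hi
      rw [h6]
      refine (Par.ct_lt_mt (p := p) h5).le.trans ?_
      unfold Par.mt
      exact Nat.mul_le_mul_right _ (by omega))
    (fun i hi g hg => by
      rw [hS.Peq i hi]
      refine Rl_mono X n Kp θ L (l := fun _ => p.mt g) (l' := fun d => lv d i) fun d => ?_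
      obtain ⟨g0, t0, h3, h4, h5, h6⟩ := hS.cell d i hi
      rw [h6]
      unfold Par.mt Par.ct
      have : (g + 1) * (p.T + 1) ≤ g0 * (p.T + 1) := Nat.mul_le_mul_right _ (by omega)
      omega)
    (iq := (q + 1) * r) (Nat.mul_pos (Nat.succ_pos q) hr) (by omega)
  rw [← h2] at hmono
  have e4 : ∑ j, ((X.γ j : ℚ) : ℝ) * (((p.nc : ℝ) + 1)⁻¹ *
      ∑ g' ∈ Finset.Ico (cellA (r * wc) q) p.nc,
        Eo X n Kp θ L (fun U d ω => RJ n (Pl X n Kp θ L U d) (Glob.lab L) j (p.mt g') ω)) =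
      ∑ j, ((X.γ j : ℚ) : ℝ) * Y j := rfl
  rw [e4]
  have h5 := abs_sub_le (∑ j, ((X.γ j : ℚ) : ℝ) * Y j)
    (∑ j, (Mag.rJ (Glob.lab L) j / (N : ℝ)) * Y j)
    (((n' : ℝ) + 1)⁻¹ * ∑ i ∈ Finset.Ico ((q + 1) * r) (n' + 1), P i)
  rw [one_div ((n' : ℝ) + 1)] at hmono
  have h6 : 0 ≤ (X.J : ℝ) * (((X.K : ℝ) + 1) * d0) := by positivity
  have h7 : 2 * ((X.K : ℝ) + 1) * X.J * d0 = 2 * ((X.J : ℝ) * (((X.K : ℝ) + 1) * d0)) := by ring
  rw [h7]
  linarith

end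

end Crest.Agent.R164.LG
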