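import Crest.Agent.R164.LGDef
import Crest.Agent.R164.LCrit2
import Crest.Agent.R164.LMTail
import Crest.Agent.R164.LIbpm
import Crest.Agent.R164.LPert2

/-!
Row 164, L side (helper893): final assembly, part 1: elementary facts about the selected system.
-/

set_option autoImplicit false

namespace Crest.Agent.R164.LG

open Finset MeasureTheory Filter Topology Crest.Agent.R141 Crest.Agent.R164 Crest.Agent.R164.Haar
open Crest.ProbabilityR.InvariantGlass (spinVec)
open Crest.Agent.R164.LD (Prm HL EPh EO PL TO RJ MO)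

noncomputable section

variable (X : Glob) {p : Par} {N : ℕ} (n : ℕ) (Kp : ℝ) (θ : Prm p X.K X.J) (L : Fin N → X.LB)

/-- mean magnetisation of the group `j` -/
def mbar (j : Fin X.J) : ℝ := Eo X n Kp θ L (fun _ _ ω => MO n (Glob.lab L) j ω)

/-- mean squared distance of the magnetisation of the group `j` -/
def mvar (j : Fin X.J) : ℝ := Eo X n Kp θ L (fun _ _ ω => (MO n (Glob.lab L) j ω - X.t j) ^ 2)

variable {n Kp θ L}

theorem adm_dev (j : Fin X.J) (x : ℝ) :
    LD.OAdm (p := p) (n := n) (X.nu N) (fun _ _ ω => (MO n (Glob.lab L) j ω - x) ^ 2) :=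
  LD.OAdm.const fun _ ω => (MO n (Glob.lab L) j ω - x) ^ 2

theorem abs_mbar_le (hN : 0 < N) (j : Fin X.J) : |mbar X n Kp θ L j| ≤ 1 := by
  have := X.hnu N
  refine LD.abs_EO_le X.val X.c X.t Kp θ (Glob.kap L) (Glob.lab L) hN
    (LD.adm_MO (mu := X.nu N) (n := n) (Glob.lab L) j) fun d => Filter.Eventually.of_forall fun U => ?_
  refine (eE_abs_le (LD.PL_isProb X.val X.c X.t Kp θ (Glob.kap L) (Glob.lab L) U d) _).trans ?_
  exact eE_le_of_le (LD.PL_isProb X.val X.c X.t Kp θ (Glob.kap L) (Glob.lab L) U d) fun ω =>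
    Mag.abs_mag_le _ _ _

theorem mvar_nonneg (hN : 0 < N) (j : Fin X.J) : 0 ≤ mvar X n Kp θ L j := by
  have := X.hnu N
  have h := LD.EO_mono' X.val X.c X.t Kp θ (Glob.kap L) (Glob.lab L)
    (LD.OAdm.const (mu := X.nu N) (n := n) (fun (_ : DD p N) _ => (0 : ℝ)))
    (adm_dev X (n := n) (L := L) j (X.t j)) (fun d => Filter.Eventually.of_forall fun U ω =>
      sq_nonneg _)
  rwa [LD.EO_const X.val X.c X.t Kp θ (Glob.kap L) (Glob.lab L) hN] at h

theorem mvar_le (hN : 0 < N) (j : Fin X.J) : mvar X n Kp θ L j ≤ 4 := by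
  have := X.hnu N
  have h := LD.EO_mono' X.val X.c X.t Kp θ (Glob.kap L) (Glob.lab L)
    (adm_dev X (n := n) (L := L) j (X.t j))
    (LD.OAdm.const (mu := X.nu N) (n := n) (fun (_ : DD p N) _ => (4 : ℝ)))
    (fun d => Filter.Eventually.of_forall fun U ω => by
      have h1 := abs_le.1 (Mag.abs_mag_le (Glob.lab L) ω.1.1.1 j)
      have h2 := abs_le.1 (X.ht j).le
      show (Mag.mag (Glob.lab L) ω.1.1.1 j - X.t j) ^ 2 ≤ 4
      nlinarith [h1.1, h1.2, h2.1, h2.2])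
  rwa [LD.EO_const X.val X.c X.t Kp θ (Glob.kap L) (Glob.lab L) hN] at h

/-- Jensen -/
theorem sq_mbar_le (hN : 0 < N) (j : Fin X.J) :
    (mbar X n Kp θ L j - X.t j) ^ 2 ≤ mvar X n Kp θ L j := by
  have := X.hnu N
  set a := mbar X n Kp θ L j - X.t j with ha
  have hM := LD.adm_MO (mu := X.nu N) (n := n) (p := p) (Glob.lab L) j
  have hc := LD.OAdm.const (mu := X.nu N) (n := n) (fun (_ : DD p N) (_ : G.Om (LD.B p N n)) =>
    (-(2 * a * X.t j + a ^ 2) : ℝ))
  have hO := (hM.smul (2 * a)).add hc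
  have h := LD.EO_mono' X.val X.c X.t Kp θ (Glob.kap L) (Glob.lab L) hO
    (adm_dev X (n := n) (L := L) j (X.t j)) (fun d => Filter.Eventually.of_forall fun U ω => by
      show 2 * a * MO n (Glob.lab L) j ω + -(2 * a * X.t j + a ^ 2) ≤
        (MO n (Glob.lab L) j ω - X.t j) ^ 2
      nlinarith [sq_nonneg (MO n (Glob.lab L) j ω - X.t j - a)])
  rw [LD.EO_add X.val X.c X.t Kp θ (Glob.kap L) (Glob.lab L) (hM.smul (2 * a)) hc,
    LD.EO_smul X.val X.c X.t Kp θ (Glob.kap L) (Glob.lab L) hM,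
    LD.EO_const X.val X.c X.t Kp θ (Glob.kap L) (Glob.lab L) hN] at h
  have e : EO (X.nu N) n X.val X.c X.t Kp θ (Glob.kap L) (Glob.lab L)
      (fun _ _ ω => MO n (Glob.lab L) j ω) = mbar X n Kp θ L j := rfl
  rw [e] at h
  have e2 : mvar X n Kp θ L j = EO (X.nu N) n X.val X.c X.t Kp θ (Glob.kap L) (Glob.lab L)
      (fun _ _ ω => (MO n (Glob.lab L) j ω - X.t j) ^ 2) := rfl
  rw [e2]
  have e3 : 2 * a * mbar X n Kp θ L j + -(2 * a * X.t j + a ^ 2) = a ^ 2 := by
    rw [ha]; ring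
  linarith

theorem gam_nonneg (j : Fin X.J) : (0 : ℝ) ≤ ((X.γ j : ℚ) : ℝ) := by exact_mod_cast (X.hγ j).le

theorem Qd_nonneg (hN : 0 < N) : 0 ≤ Qd X n Kp θ L := by
  unfold Qd
  refine Finset.sum_nonneg fun j _ => ?_
  split_ifs
  · exact le_rfl
  · exact mul_nonneg (div_nonneg (Mag.rJ_nonneg _ _) (Nat.cast_nonneg N))
      (mvar_nonneg X (n := n) (Kp := Kp) (θ := θ) (L := L) hN j)

/-- the weighted squared distances, with the exact weights `γ` -/
theorem Qd_ge {d0 : ℝ} (hN : 0 < N) (hd0 : 0 ≤ d0) (hL : LabAvg.Good X.al d0 L) :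
    (∑ j, if X.t j = 0 then 0 else ((X.γ j : ℚ) : ℝ) * mvar X n Kp θ L j) -
      X.J * (4 * (((X.K : ℝ) + 1) * d0)) ≤ Qd X n Kp θ L := by
  unfold Qd
  have h : ∀ j : Fin X.J, (if X.t j = 0 then 0 else ((X.γ j : ℚ) : ℝ) * mvar X n Kp θ L j) -
      4 * (((X.K : ℝ) + 1) * d0) ≤ if X.t j = 0 then 0 else (Mag.rJ (Glob.lab L) j / N) *
      Eo X n Kp θ L (fun _ _ ω => (MO n (Glob.lab L) j ω - X.t j) ^ 2) := by
    intro j
    have hpos : 0 ≤ 4 * (((X.K : ℝ) + 1) * d0) := by positivity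
    split_ifs
    · linarith
    · have h1 := good_ratio (X := X) (L := L) hN hL j
      have h2 := mvar_nonneg X (n := n) (Kp := Kp) (θ := θ) (L := L) hN j
      have h3 := mvar_le X (n := n) (Kp := Kp) (θ := θ) (L := L) hN j
      have h4 := (abs_le.1 h1).2
      show _ ≤ (Mag.rJ (Glob.lab L) j / N) * mvar X n Kp θ L j
      have h5 : (((X.γ j : ℚ) : ℝ) - Mag.rJ (Glob.lab L) j / N) * mvar X n Kp θ L j ≤
          (((X.K : ℝ) + 1) * d0) * 4 :=
        (mul_le_mul_of_nonneg_right h4 h2).trans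
          (mul_le_mul_of_nonneg_left h3 (by positivity))
      linarith
  have hs := Finset.sum_le_sum fun j (_ : j ∈ Finset.univ) => h j
  rw [Finset.sum_sub_distrib, Finset.sum_const, Finset.card_univ, Fintype.card_fin,
    nsmul_eq_mul] at hs
  exact hs

/-- the quadratic term of `crit` -/
theorem quad_le {d0 : ℝ} (hN : 0 < N) (hd0 : 0 ≤ d0) (hKp : 0 ≤ Kp)
    (hL : LabAvg.Good X.al d0 L) :
    Kp * ∑ j, ((X.γ j : ℚ) : ℝ) * (if X.t j = 0 then 0 else
      (mbar X n Kp θ L j - X.t j) ^ 2) ≤ Kp * Qd X n Kp θ L +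
        Kp * (X.J * (4 * (((X.K : ℝ) + 1) * d0))) := by
  rw [← mul_add]
  refine mul_le_mul_of_nonneg_left ?_ hKp
  have h1 := Qd_ge X (n := n) (Kp := Kp) (θ := θ) hN hd0 hL
  have h2 : ∑ j, ((X.γ j : ℚ) : ℝ) * (if X.t j = 0 then 0 else
      (mbar X n Kp θ L j - X.t j) ^ 2) ≤
      ∑ j, if X.t j = 0 then 0 else ((X.γ j : ℚ) : ℝ) * mvar X n Kp θ L j := by
    refine Finset.sum_le_sum fun j _ => ?_
    split_ifs
    · rw [mul_zero]
    · exact mul_le_mul_of_nonneg_left (sq_mbar_le X hN j) (gam_nonneg X j)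
  linarith

/-- smallness of the deviation of the magnetisations, from the lower bound of the increment -/
theorem dev_small {C0 Inc R ε0 g : ℝ} (hN : 0 < N) (hKp : 0 ≤ Kp)
    (hlow : (∑ j, if X.t j = 0 then 0 else ((X.γ j : ℚ) : ℝ) * (Kp * mvar X n Kp θ L j)) - C0 ≤
      Inc) (hR : Inc + Kp * Qd X n Kp θ L ≤ R) (hε0 : 0 ≤ ε0) (hg : 0 < g)
    (hgj : ∀ j, g ≤ ((X.γ j : ℚ) : ℝ)) (hK : R + C0 ≤ Kp * g * (ε0 / 2) ^ 2)
    (hKp' : 0 < Kp) (j : Fin X.J) (hj : X.t j ≠ 0) :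
    |mbar X n Kp θ L j - X.t j| ≤ ε0 / 2 := by
  have h1 : 0 ≤ Kp * Qd X n Kp θ L := mul_nonneg hKp (Qd_nonneg X hN)
  have h2 : ((X.γ j : ℚ) : ℝ) * (Kp * mvar X n Kp θ L j) ≤
      ∑ j, if X.t j = 0 then 0 else ((X.γ j : ℚ) : ℝ) * (Kp * mvar X n Kp θ L j) := by
    have := Finset.single_le_sum (f := fun j => if X.t j = 0 then 0 else
      ((X.γ j : ℚ) : ℝ) * (Kp * mvar X n Kp θ L j)) (fun j _ => by
        split_ifs
        · exact le_rfl
        · exact mul_nonneg (gam_nonneg X j) (mul_nonneg hKp (mvar_nonneg X hN j)))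
      (Finset.mem_univ j)
    simpa only [if_neg hj] using this
  have h3 := sq_mbar_le X (n := n) (Kp := Kp) (θ := θ) (L := L) hN j
  have h4 : Kp * g * (mbar X n Kp θ L j - X.t j) ^ 2 ≤ Kp * g * (ε0 / 2) ^ 2 := by
    have a1 : g * (Kp * (mbar X n Kp θ L j - X.t j) ^ 2) ≤
        ((X.γ j : ℚ) : ℝ) * (Kp * mvar X n Kp θ L j) :=
      mul_le_mul (hgj j) (mul_le_mul_of_nonneg_left h3 hKp) (by positivity) (gam_nonneg X j)
    nlinarith
  have h5 : (mbar X n Kp θ L j - X.t j) ^ 2 ≤ (ε0 / 2) ^ 2 :=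
    le_of_mul_le_mul_left h4 (by positivity)
  exact abs_le_of_sq_le_sq h5 (by linarith)

/-! ### active cells -/

/-- the set of the active cells -/
def actS (p : Par) (M B : ℕ) : Finset (Fin p.nc) :=
  Finset.univ.filter fun g => ∃ x : Fin M, (g : ℕ) = cellA B x

theorem cellA_inj {B : ℕ} (hB : 0 < B) {x y : ℕ} (h : cellA B x = cellA B y) : x = y := by
  unfold cellA at h
  have h1 : 0 < (x + 1) * B := Nat.mul_pos (Nat.succ_pos x) hB
  have h2 : 0 < (y + 1) * B := Nat.mul_pos (Nat.succ_pos y) hB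
  have h3 : (x + 1) * B = (y + 1) * B := by omega
  have h4 := Nat.eq_of_mul_eq_mul_right hB h3
  omega

theorem cellA_lt {B M : ℕ} (hB : 0 < B) (x : Fin M) (hnc : p.nc = (M + 1) * B) :
    cellA B x < p.nc := by
  rw [hnc]
  unfold cellA
  have h1 : ((x : ℕ) + 1) * B ≤ (M + 1) * B := Nat.mul_le_mul_right B (by have := x.2; omega)
  have h2 : 0 < ((x : ℕ) + 1) * B := Nat.mul_pos (Nat.succ_pos x) hB
  omega

/-- the active cell `x` -/
def cA {B M : ℕ} (hB : 0 < B) (hnc : p.nc = (M + 1) * B) (x : Fin M) : Fin p.nc :=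
  ⟨cellA B x, cellA_lt hB x hnc⟩

theorem cA_mem {B M : ℕ} (hB : 0 < B) (hnc : p.nc = (M + 1) * B) (x : Fin M) :
    cA hB hnc x ∈ actS p M B := by
  unfold actS
  rw [Finset.mem_filter]
  exact ⟨Finset.mem_univ _, x, rfl⟩

/-- strengths of the group `j` -/
def aOf {B M : ℕ} (hB : 0 < B) (hnc : p.nc = (M + 1) * B)
    (θ : LS2.Cd X.K X.J (actS p M B) → ℝ) (j : Fin X.J) (x : Fin M) : ℝ :=
  θ (Sum.inr (Sum.inl (j, ⟨cA hB hnc x, cA_mem hB hnc x⟩)))

theorem amF_cA {B M : ℕ} (hB : 0 < B) (hnc : p.nc = (M + 1) * B) (a : Fin M → ℝ) (x : Fin M) :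
    amF p B a (cA hB hnc x) = a x := by
  unfold amF
  rw [Finset.sum_eq_single x]
  · exact if_pos rfl
  · intro y _ hy
    rw [if_neg]
    intro h
    exact hy (Fin.ext (cellA_inj hB (h : cellA B x = cellA B y)).symm)
  · intro h; exact absurd (Finset.mem_univ _) h

theorem amF_zero {B M : ℕ} (a : Fin M → ℝ) {g : Fin p.nc} (hg : g ∉ actS p M B) :
    amF p B a g = 0 := by
  unfold amF
  refine Finset.sum_eq_zero fun x _ => ?_
  rw [if_neg]
  intro h
  apply hg
  unfold actS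
  rw [Finset.mem_filter]
  exact ⟨Finset.mem_univ _, x, h⟩

theorem prm_am {B M : ℕ} (hB : 0 < B) (hnc : p.nc = (M + 1) * B)
    (θ : LS2.Cd X.K X.J (actS p M B) → ℝ) (j : Fin X.J) :
    (LS2.prm (actS p M B) θ).am j = amF p B (aOf X hB hnc θ j) := by
  funext g
  by_cases hg : g ∈ actS p M B
  · obtain ⟨x, hx⟩ := (Finset.mem_filter.1 hg).2
    have e : g = cA hB hnc x := Fin.ext hx
    subst e
    rw [amF_cA]
    unfold LS2.prm aOf
    simp only
    rw [dif_pos hg]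
  · rw [amF_zero _ hg]
    unfold LS2.prm
    simp only
    rw [dif_neg hg]

theorem amF_update {B M : ℕ} (hB : 0 < B) (hnc : p.nc = (M + 1) * B) (a : Fin M → ℝ) (x : Fin M)
    (y : ℝ) : Function.update (amF p B a) (cA hB hnc x) y =
      amF p B (Function.update a x y) := by
  funext g
  by_cases hg : g = cA hB hnc x
  · subst hg
    rw [Function.update_self, amF_cA, Function.update_self]
  · rw [Function.update_of_ne hg]
    unfold amF
    refine Finset.sum_congr rfl fun x' _ => ?_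
    by_cases hx : (g : ℕ) = cellA B x'
    · have : x' ≠ x := by
        rintro rfl
        exact hg (Fin.ext hx)
      rw [if_pos hx, if_pos hx, Function.update_of_ne this]
    · rw [if_neg hx, if_neg hx]

theorem card_actS (p : Par) (M B : ℕ) : (actS p M B).card ≤ M := by
  classical
  have h : actS p M B ⊆ (Finset.univ : Finset (Fin M)).biUnion fun x =>
      Finset.univ.filter fun g : Fin p.nc => (g : ℕ) = cellA B x := by
    intro g hg
    obtain ⟨x, hx⟩ := (Finset.mem_filter.1 hg).2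
    rw [Finset.mem_biUnion]
    exact ⟨x, Finset.mem_univ _, Finset.mem_filter.2 ⟨Finset.mem_univ _, hx⟩⟩
  refine (Finset.card_le_card h).trans (Finset.card_biUnion_le.trans ?_)
  calc ∑ x : Fin M, (Finset.univ.filter fun g : Fin p.nc => (g : ℕ) = cellA B x).card ≤
      ∑ _x : Fin M, 1 := Finset.sum_le_sum fun x _ => by
        rw [Finset.card_le_one]
        intro a ha b hb
        exact Fin.ext ((Finset.mem_filter.1 ha).2.trans (Finset.mem_filter.1 hb).2.symm)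
    _ = M := by simp

/-- bounds of the parameters on the box -/
theorem bd_prm {M B : ℕ} {θ : LS2.Cd X.K X.J (actS p M B) → ℝ} {E A a S l : ℝ}
    (ha0 : 0 ≤ a) (hA : (M : ℝ) * a ^ 2 ≤ A ^ 2) (hS : (p.nc : ℝ) * l ^ 2 ≤ S)
    (h1 : ∀ j, |θ (Sum.inl j)| ≤ E) (h2 : ∀ j g, |θ (Sum.inr (Sum.inl (j, g)))| ≤ a)
    (h3 : ∀ k g, |θ (Sum.inr (Sum.inr (k, g)))| ≤ l) :
    Bd X E A S (LS2.prm (actS p M B) θ) where
  el j := h1 j
  am j := by
    have h : ∀ g, (LS2.prm (actS p M B) θ).am j g ^ 2 ≤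
        if g ∈ actS p M B then a ^ 2 else 0 := by
      intro g
      unfold LS2.prm
      simp only
      by_cases hg : g ∈ actS p M B
      · rw [dif_pos hg, if_pos hg]
        exact sq_le_sq' (by have := (abs_le.1 (h2 j ⟨g, hg⟩)).1; linarith)
          (abs_le.1 (h2 j ⟨g, hg⟩)).2
      · rw [dif_neg hg, if_neg hg]; simp
    calc ∑ g, (LS2.prm (actS p M B) θ).am j g ^ 2 ≤
        ∑ g, if g ∈ actS p M B then a ^ 2 else 0 := Finset.sum_le_sum fun g _ => h g
      _ = (actS p M B).card * a ^ 2 := by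
        rw [← Finset.sum_filter, Finset.sum_const, nsmul_eq_mul, Finset.filter_mem_eq_inter,
          Finset.univ_inter]
      _ ≤ M * a ^ 2 := mul_le_mul_of_nonneg_right (by exact_mod_cast card_actS p M B)
          (sq_nonneg a)
      _ ≤ A ^ 2 := hA
  lm k := by
    have h : ∀ g, (LS2.prm (actS p M B) θ).lm k g ^ 2 ≤ l ^ 2 := by
      intro g
      have := abs_le.1 (h3 k g)
      exact sq_le_sq' (by unfold LS2.prm; simp only; linarith) this.2
    calc ∑ g, (LS2.prm (actS p M B) θ).lm k g ^ 2 ≤ ∑ _g : Fin p.nc, l ^ 2 :=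
          Finset.sum_le_sum fun g _ => h g
      _ = p.nc * l ^ 2 := by
        rw [Finset.sum_const, Finset.card_univ, Fintype.card_fin, nsmul_eq_mul]
      _ ≤ S := hS

end

end Crest.Agent.R164.LG
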