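import Crest.Agent.R164.LGDef
import Crest.Agent.R164.LLimB

/-!
Row 164, L side, (GL5) (helper716): the exact interface `LG.LLIMB`.
-/

set_option autoImplicit false

namespace Crest.Agent.R164.LLimB

open MeasureTheory ProbabilityTheory Finset
open Crest.Agent.R164.CavG (gm gstep th gval th_zero th_succ vC vv)
open Crest.Agent.R141.Fact (ySk ySk_zero ySk_pos)
open Crest.Agent.R164.EG
open Crest.Agent.R164.PAlg Crest.Agent.R164.Atomic
open Crest.Agent.R164.SDAlg (gap Ghat StepD wdOf pOf)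
open Crest.Agent.R164.GEx (BM cb cfErr coarse_fine_vC cfErr_tendsto gval_le_add)
open Crest.Agent.R164.ClipG (Trunc uniform_trunc)

noncomputable section

/-- adding a constant to the leaf weight -/
theorem gval_const_add {ι : Type*} [Fintype ι] {c : ℝ} {w : (ι → ℝ) → ℝ} (h : BM c w) {J : ℕ}
    {y : ℕ → ℝ} (v : ℕ → ι → ℝ) (a : ℝ) (hy : ∀ m, m ≤ J → 0 < y m) :
    gval J y v (fun z => a + w z) = a + gval J y v w := by
  have h' : BM (|a| + c) (fun z => a + w z) :=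
    ⟨h.meas.const_add a, fun z => (abs_add_le _ _).trans (add_le_add_right (h.bd z) _)⟩
  have h1 := gval_le_add h' h v (a := a) (fun z => by rw [add_comm]) J hy
  have h2 := gval_le_add h h' v (a := -a) (fun z => by ring_nf; exact le_rfl) J hy
  linarith

variable {K : ℕ}

/-- `(GL5)` with the depth of the coarse model chosen before the truncation -/
theorem coarse_exact' {w val : Fin (K + 1) → ℝ} (hv : StrictMono val) (hw : ∀ k, 0 < w k)
    (hs : ∑ k, w k = 1) (B V : ℝ) {ε : ℝ} (hε : 0 < ε) : ∃ K0 : ℝ, 0 < K0 ∧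
    ∀ (C : ℝ), K0 ≤ C → ∃ J0 : ℕ, ∀ J, J0 ≤ J →
    ∀ (Kc : ℝ), K0 ≤ Kc → Kc ≤ C → ∀ ψ : ℝ → ℝ, Trunc Kc C ψ →
    ∀ (q n : ℕ), 0 < q → n + 1 = q * (J + 1) → ∀ p : ℕ → ℝ,
    StepD (n + 1) (fun a => (a : ℝ) / ((n : ℝ) + 1)) p → p 0 < 1 →
    ∀ vy : ℕ → ℝ, (∀ m, 0 ≤ vy m) → ∑ m ∈ range (n + 2), vy m ≤ V →
    ∀ b : ℝ, |b| ≤ B → ∀ l : Fin (K + 1),
    |gval J (ySk J) (vC J (Qc w val n q p) (cb J q vy)) (fun z => ψ (WS w val b l z)) -
      ExV w val n p vy b l| ≤ ε := by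
  obtain ⟨K0, hK0, hmain⟩ := uniform_trunc hv hw hs B V (half_pos hε)
  refine ⟨K0, hK0, ?_⟩
  intro C hKC
  have hJ := (cfErr_tendsto C).eventually (gt_mem_nhds (half_pos hε))
  obtain ⟨J0, hJ0⟩ := Filter.eventually_atTop.1 hJ
  refine ⟨J0 + 1, ?_⟩
  intro J hJ1 Kc hKc hC ψ T q n hq hn p h hp0 vy hvy hV b hb l
  have hC0 : 0 < C := by linarith
  have hJp : 0 < J := by omega
  -- the fine covariances
  set Qf : ℕ → Fin (K + 1) → ℝ := fun i k =>
    w k * Ghat w (gap val 1) (n + 1) (fun a => (a : ℝ) / ((n : ℝ) + 1)) p k (n + 1 - i) with hQf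
  have hBM : BM C (fun z : Unit ⊕ Fin (K + 1) → ℝ => ψ (WS w val b l z)) :=
    ⟨T.meas.comp (measurable_WS w val b l), fun z => abs_le.2 ⟨T.bd _, (T.up _).trans
      (max_le (min_le_right _ _) (by linarith))⟩⟩
  -- monotonicity of `Ghat`
  have hQm : ∀ m k, m ≤ n → Qf (m + 1) k ≤ Qf m k := by
    intro m k hm
    have e : n + 1 - m = (n + 1 - (m + 1)) + 1 := by omega
    simp only [hQf]
    rw [e]
    exact mul_le_mul_of_nonneg_left (Ghat_step_nonneg hv hw h (by omega) k) (hw k).le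
  have hQ0 : ∀ k, 0 ≤ Qf (n + 1) k := fun k =>
    mul_nonneg (hw k).le (Ghat_nonneg hv hw h k _ (by omega))
  have h1 := coarse_fine_vC hBM (J := J) (q := q) (n := n) hq hJp hn hQ0 hQm hvy
  have h2 := hmain Kc C hKc hC ψ T n (fun a => (a : ℝ) / ((n : ℝ) + 1)) p h hp0 (ySk n) vy
    (fun i o => vC n Qf vy i (so _ o)) ?_ (fun i _ => hvy i) (fun i _ => rfl) ?_ ?_ hV b hb l
  · have e := gval_reindex (so (Fin (K + 1))) n (ySk n) (vC n Qf vy) (fun z => ψ (WS w val b l z))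
    have e3 : (fun x : Option (Fin (K + 1)) → ℝ =>
        ψ (WS w val b l fun i' => x ((so (Fin (K + 1))).symm i'))) =
        fun x => ψ (WF w val b l x) := by
      funext x
      unfold WS
      simp only [Equiv.symm_apply_apply]
    rw [e3] at e
    rw [← e] at h2
    have h3 := hJ0 J (by omega)
    have h1' := abs_le.1 h1
    have h2' := abs_le.1 h2
    refine abs_le.2 ?_
    unfold ExV
    show _ ≤ gval J (ySk J) (vC J (fun i => Qf (q * i)) (cb J q vy)) _ - _ ∧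
      gval J (ySk J) (vC J (fun i => Qf (q * i)) (cb J q vy)) _ - _ ≤ _
    constructor <;> linarith [h1'.1, h1'.2, h2'.1, h2'.2]
  · intro i hi
    unfold ySk
    rw [Nat.cast_sub (by omega)]
    push_cast
    ring
  · intro i hi k
    show (if i ≤ n then Qf i k - Qf (i + 1) k else Qf i k) = _
    rw [if_pos hi]
    simp only [hQf]
    rw [show n + 1 - (i + 1) = n - i by omega]
  · intro k
    show (if n + 1 ≤ n then _ else Qf (n + 1) k) = _
    rw [if_neg (by omega)]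
    simp only [hQf, Nat.sub_self]

/-- the shifted truncation -/
theorem trunc_shift {tr cst B : ℝ} (hB : B < tr) (hc : |cst| ≤ B) :
    Trunc (tr - B) (tr + 1 + B) (fun x => ED.psi tr (cst + x) - cst) := by
  have hB0 : 0 ≤ B := (abs_nonneg _).trans hc
  have htr : 0 ≤ tr := by linarith
  have hcst : ED.psi tr cst = cst := ED.psi_of_abs_le (by linarith)
  refine Trunc.of_mono (by linarith) ?_ ?_ ?_ ?_
  · intro x y hxy
    exact sub_le_sub_right (ED.psi_monotone htr (by linarith)) _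
  · intro x
    have h := ED.psi_lipschitz htr cst (cst + x)
    rw [hcst] at h
    simpa using h
  · intro x hx
    rw [ED.psi_of_abs_le ((abs_add_le _ _).trans (by linarith))]
    ring
  · intro x
    have h := ED.abs_psi_le htr (cst + x)
    exact (abs_sub _ _).trans (by linarith)

section

variable (X : LG.Glob)

theorem bvf_nonneg {M : ℕ} (n' r : ℕ) (a : Fin M → ℝ) (m : ℕ) : 0 ≤ LG.bvf n' r a m := by
  unfold LG.bvf
  refine sum_nonneg fun q _ => ?_
  split_ifs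
  · exact sq_nonneg _
  · exact le_rfl

theorem bvf_sum {M : ℕ} (n' r : ℕ) (a : Fin M → ℝ) (s : Finset ℕ) :
    ∑ m ∈ s, LG.bvf n' r a m =
      ∑ q : Fin M, if n' + 1 - ((q : ℕ) + 1) * r ∈ s then a q ^ 2 else 0 := by
  unfold LG.bvf
  rw [sum_comm]
  refine sum_congr rfl fun q _ => ?_
  rw [sum_ite_eq']

/-- the label steps lie below the top -/
theorem step_le {M n' r : ℕ} (hn : n' + 1 = (M + 1) * r) (x : Fin M) :
    ((x : ℕ) + 1) * r + r ≤ n' + 1 := by
  rw [hn, ← Nat.succ_mul]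
  exact Nat.mul_le_mul_right _ (by have := x.2; omega)

theorem bvf_total {M : ℕ} {n' r : ℕ} {a : Fin M → ℝ} {A : ℝ} (ha : ∀ i, 0 ≤ a i ∧ a i ≤ A) :
    ∑ m ∈ range (n' + 2), LG.bvf n' r a m ≤ M * A ^ 2 := by
  rw [bvf_sum]
  calc _ ≤ ∑ x : Fin M, A ^ 2 := sum_le_sum fun x _ => by
        split_ifs
        · exact pow_le_pow_left₀ (ha x).1 (ha x).2 2
        · exact sq_nonneg _
    _ = M * A ^ 2 := by simp

/-- the field path of the main fields -/
theorem Hl_bvf {M n' r : ℕ} (hr : 0 < r) (hn : n' + 1 = (M + 1) * r) (a : Fin M → ℝ) :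
    Hl n' (LG.bvf n' r a) = fun i : Fin (n' + 1) =>
      ∑ x : Fin M, if ((x : ℕ) + 1) * r ≤ (i : ℕ) then a x ^ 2 else 0 := by
  funext i
  unfold Hl
  rw [bvf_sum]
  refine sum_congr rfl fun x _ => ?_
  have h2 := step_le hn x
  have h3 := i.2
  refine if_congr ?_ rfl rfl
  rw [mem_Icc]
  omega

/-- the exact value in the form of `LF.ch` -/
theorem ExV_bvf {M n' r : ℕ} (hr : 0 < r) (hn : n' + 1 = (M + 1) * r) (a : Fin M → ℝ) (P : ℕ → ℝ)
    (b : ℝ) (k : Fin (X.K + 1)) :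
    ExV X.w X.val n' P (LG.bvf n' r a) b k =
      CC X.w X.val (wdOf n' (LG.mu n')) (pOf n' P) k +
      LF.ch (wdOf n' (LG.mu n')) (hh X.w X.val (wdOf n' (LG.mu n')) (pOf n' P)) b
        (fun i => ∑ x : Fin M, if ((x : ℕ) + 1) * r ≤ (i : ℕ) then a x ^ 2 else 0) := by
  have h0 : LG.bvf n' r a 0 = 0 := by
    unfold LG.bvf
    refine sum_eq_zero fun x _ => if_neg ?_
    have h2 := step_le hn x
    omega
  unfold ExV LF.ch
  rw [← Hl_bvf hr hn, fieldValueAt_eq_chainV, h0]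
  show CC X.w X.val (wdOf n' (LG.mu n')) (pOf n' P) k + 0 / 2 +
    chainV b (wdOf n' (LG.mu n')) (fun i => hh X.w X.val (wdOf n' (LG.mu n')) (pOf n' P) i +
      Hl n' (LG.bvf n' r a) i) = _
  ring

/-- **(GL5)** in the names of `LGDef`: the coarse functional of `LLIMA` versus the exact value -/
theorem llimb (M : ℕ) (A Bm : ℝ) {ε : ℝ} (hε : 0 < ε) : ∃ tr0 : ℝ, 0 < tr0 ∧ ∀ tr : ℝ, tr0 ≤ tr →
    ∃ J0 : ℕ, ∀ J : ℕ, J0 ≤ J → ∀ s : ℕ, J + 1 = (M + 1) * s → ∀ q : ℕ, 0 < q → ∀ n' : ℕ,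
    n' + 1 = q * (J + 1) → ∀ P : ℕ → ℝ, StepD (n' + 1) (LG.mu n') P → P 0 < 1 →
    ∀ (k : Fin (X.K + 1)) (b : ℝ) (a : Fin M → ℝ), |b| ≤ Bm → (∀ i, 0 ≤ a i ∧ a i ≤ A) →
    |gval J (ySk J) (vC J (Qc X.w X.val n' q P) (cb J q (LG.bvf n' (q * s) a)))
        (fun z => ED.psi tr (WS X.w X.val b k z)) -
      (CC X.w X.val (wdOf n' (LG.mu n')) (pOf n' P) k +
        LF.ch (wdOf n' (LG.mu n')) (hh X.w X.val (wdOf n' (LG.mu n')) (pOf n' P)) b
          (fun i => ∑ x : Fin M, if ((x : ℕ) + 1) * (q * s) ≤ (i : ℕ) then a x ^ 2 else 0))| ≤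
      ε := by
  obtain ⟨K0, hK0, hmain⟩ := coarse_exact_psi X.hv X.hw X.hs Bm (M * A ^ 2) hε
  refine ⟨K0, hK0, fun tr htr => ?_⟩
  obtain ⟨J0, hJ0⟩ := hmain tr htr
  refine ⟨J0, ?_⟩
  intro J hJ s hs q hq n' hn P hP hP0 k b a hb ha
  have hs0 : 0 < s := by
    rcases Nat.eq_zero_or_pos s with h | h
    · rw [h] at hs; omega
    · exact h
  have hqs : 0 < q * s := Nat.mul_pos hq hs0
  have hn2 : n' + 1 = (M + 1) * (q * s) := by rw [hn, hs]; ring
  rw [← ExV_bvf X hqs hn2]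
  exact hJ0 J hJ q n' hq hn P hP hP0 (LG.bvf n' (q * s) a) (bvf_nonneg _ _ _) (bvf_total ha) b hb k

end

end

end Crest.Agent.R164.LLimB
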