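import Crest.Agent.R164.LFin1
import Crest.Agent.R164.LLimB2

/-!
Row 164, L side (helper893): final assembly, part 2: the contradiction at the selected system.
-/

set_option autoImplicit false

namespace Crest.Agent.R164.LG

open Finset MeasureTheory Filter Topology Crest.Agent.R141 Crest.Agent.R164 Crest.Agent.R164.Haar
open Crest.ProbabilityR.InvariantGlass (spinVec)
open Crest.Agent.R164.LD (Prm HL EPh EO PL TO RJ MO)

noncomputable section

variable (X : Glob) {p : Par} {N : ℕ}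

/-- the tail overlaps of the group `j` from the active cell `x` -/
def RRj (n : ℕ) (Kp : ℝ) (θ : Prm p X.K X.J) (L : Fin N → X.LB) (B : ℕ) (j : Fin X.J)
    (x : ℕ) : ℝ :=
  ((p.nc : ℝ) + 1)⁻¹ * ∑ g' ∈ Finset.Ico (cellA B x) p.nc,
    Eo X n Kp θ L (fun U d ω => RJ n (Pl X n Kp θ L U d) (Glob.lab L) j (p.mt g') ω)

theorem Inc_eq (n : ℕ) (Kp : ℝ) (θ : Prm p X.K X.J) (L : Fin N → X.LB) :
    LSel.Inc X.al (Ph X n Kp θ : (Fin N → X.LB) → ℝ) (Ph X n Kp θ) L =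
      ∑ k, ∑ j, X.w k * ((X.γ j : ℚ) : ℝ) *
        (Ph X n Kp θ (Fin.snoc L (k, j) : Fin (N + 1) → X.LB) - Ph X n Kp θ L) := by
  unfold LSel.Inc
  rw [Fintype.sum_prod_type]
  rfl

set_option maxHeartbeats 1000000 in
/-- **The contradiction at the selected system.** -/
theorem local_false {ε r : ℝ} (hε : 0 ≤ ε)
    (hr : ∀ m' : Fin X.J → ℝ, (∀ j, |m' j - X.t j| ≤ ε) → (∀ j, X.t j = 0 → m' j = 0) →
      (r : EReal) ≤ ((∑ j : Fin X.J, ((X.γ j : ℚ) : ℝ) * X.c j * m' j : ℝ) : EReal) +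
        Mag.VR (Atomic.atomic X.w X.val) (X.val (Fin.last X.K)) X.γ m')
    {M J s q wc n' : ℕ} (hJ : J + 1 = (M + 1) * s) (hn' : n' + 1 = q * (J + 1)) (hwc : 0 < wc)
    {n : ℕ} (hN : 0 < N)
    {Kp E1 amin amax Bm tr dl ed e3 e4 e5 e6 y Cd R0 : ℝ} (hKp : 0 ≤ Kp) (hE1 : 0 ≤ E1)
    {B : ℕ} (hBe : B = q * s * wc)
    {θ : LS2.Cd X.K X.J (actS p M B) → ℝ} {L : Fin N → X.LB}
    (hθ1 : ∀ j, |θ (Sum.inl j)| ≤ E1)
    (hθ2 : ∀ j g, amin ≤ θ (Sum.inr (Sum.inl (j, g))) ∧ θ (Sum.inr (Sum.inl (j, g))) ≤ amax)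
    {lv : DD p N → ℕ → ℕ} {P : ℕ → ℝ} {es : ℝ}
    (hS : StrD X n Kp (LS2.prm (actS p M B) θ) L n' wc es lv P)
    (hy : 0 < y) (hy1 : y ≤ 1) (hya : y ≤ amin) (hya' : y ≤ amax)
    (hdl : 0 ≤ dl) (hed : 0 ≤ ed) (hCd : 0 ≤ Cd) (he3 : 0 ≤ e3) (he4 : 0 ≤ e4) (he5 : 0 ≤ e5)
    (hBm : ∀ j, |bb X Kp (LS2.prm (actS p M B) θ).el
      (mbar X n Kp (LS2.prm (actS p M B) θ) L) j| + 1 ≤ Bm)
    -- E-DIFF
    (hED : ∀ (k : Fin (X.K + 1)) (j : Fin X.J),
      (cc X Kp (mbar X n Kp (LS2.prm (actS p M B) θ) L) j +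
        cavF X n Kp (LS2.prm (actS p M B) θ) L tr k
          (bb X Kp (LS2.prm (actS p M B) θ).el (mbar X n Kp (LS2.prm (actS p M B) θ) L) j)
          ((LS2.prm (actS p M B) θ).am j) ≤
        Ph X n Kp (LS2.prm (actS p M B) θ) (Fin.snoc L (k, j) : Fin (N + 1) → X.LB) -
          Ph X n Kp (LS2.prm (actS p M B) θ) L + ed) ∧
      (∀ (g : Fin p.nc) (s : ℝ), |s| ≤ 1 →
        |cavF X n Kp (LS2.prm (actS p M B) θ) L tr k
            (bb X Kp (LS2.prm (actS p M B) θ).el (mbar X n Kp (LS2.prm (actS p M B) θ) L) j)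
            (Function.update ((LS2.prm (actS p M B) θ).am j) g
              ((LS2.prm (actS p M B) θ).am j g + s)) -
          cavF X n Kp (LS2.prm (actS p M B) θ) L tr k
            (bb X Kp (LS2.prm (actS p M B) θ).el (mbar X n Kp (LS2.prm (actS p M B) θ) L) j)
            ((LS2.prm (actS p M B) θ).am j) -
          s * T1 X n Kp (LS2.prm (actS p M B) θ) L k j g| ≤
            Cd * (|s| * Real.sqrt |s|) + |s| * ed) ∧
      (∀ s : ℝ, |s| ≤ 1 →
        |cavF X n Kp (LS2.prm (actS p M B) θ) L tr k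
            (bb X Kp (LS2.prm (actS p M B) θ).el (mbar X n Kp (LS2.prm (actS p M B) θ) L) j + s)
            ((LS2.prm (actS p M B) θ).am j) -
          cavF X n Kp (LS2.prm (actS p M B) θ) L tr k
            (bb X Kp (LS2.prm (actS p M B) θ).el (mbar X n Kp (LS2.prm (actS p M B) θ) L) j)
            ((LS2.prm (actS p M B) θ).am j) -
          s * M1 X n Kp (LS2.prm (actS p M B) θ) L k j| ≤
            Cd * (|s| * Real.sqrt |s|) + |s| * ed))
    -- limit and exact value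
    (hLA : ∀ (k : Fin (X.K + 1)) (b : ℝ) (a : Fin M → ℝ), |b| ≤ Bm →
      (∀ i, 0 ≤ a i ∧ a i ≤ 2 * amax) →
      |cavF X n Kp (LS2.prm (actS p M B) θ) L tr k b (amF p (q * s * wc) a) -
        CavG.gval J (Fact.ySk J) (CavG.vC J (LLimB.Qc X.w X.val n' q P)
          (GEx.cb J q (bvf n' (q * s) a))) (fun z => ED.psi tr (LLimB.WS X.w X.val b k z))| ≤
        dl / 2)
    (hLB : ∀ (k : Fin (X.K + 1)) (b : ℝ) (a : Fin M → ℝ), |b| ≤ Bm →
      (∀ i, 0 ≤ a i ∧ a i ≤ 2 * amax) →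
      |CavG.gval J (Fact.ySk J) (CavG.vC J (LLimB.Qc X.w X.val n' q P)
          (GEx.cb J q (bvf n' (q * s) a))) (fun z => ED.psi tr (LLimB.WS X.w X.val b k z)) -
        (EG.CC X.w X.val (SDAlg.wdOf n' (mu n')) (SDAlg.pOf n' P) k +
          LF.ch (SDAlg.wdOf n' (mu n'))
            (PAlg.hh X.w X.val (SDAlg.wdOf n' (mu n')) (SDAlg.pOf n' P)) b
            (fun i => ∑ x : Fin M, if ((x : ℕ) + 1) * (q * s) ≤ (i : ℕ) then a x ^ 2 else 0))| ≤
        dl / 2)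
    -- comparison of the two sizes
    (hT : ∀ (k : Fin (X.K + 1)) (j : Fin X.J) (g : Fin p.nc), g ∈ actS p M B →
      |T1 X n Kp (LS2.prm (actS p M B) θ) L k j g -
        Eo X n Kp (LS2.prm (actS p M B) θ) L (fun _ _ ω => TO n (Glob.lab L) j g ω)| ≤ e3)
    (hM : ∀ (k : Fin (X.K + 1)) (j : Fin X.J),
      |M1 X n Kp (LS2.prm (actS p M B) θ) L k j -
        mbar X n Kp (LS2.prm (actS p M B) θ) L j| ≤ e3)
    -- integration by parts
    (hI : ∀ (j : Fin X.J) (g : Fin p.nc),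
      |Eo X n Kp (LS2.prm (actS p M B) θ) L (fun _ _ ω => TO n (Glob.lab L) j g ω) -
        (LS2.prm (actS p M B) θ).am j g * (1 - ((p.nc : ℝ) + 1)⁻¹ *
          ∑ g' ∈ Finset.Ico (g : ℕ) p.nc,
            Eo X n Kp (LS2.prm (actS p M B) θ) L (fun U d ω =>
              RJ n (Pl X n Kp (LS2.prm (actS p M B) θ) L U d) (Glob.lab L) j (p.mt g') ω))| ≤ e4)
    (hTail : ∀ x : Fin M, |∑ j, ((X.γ j : ℚ) : ℝ) * RRj X n Kp (LS2.prm (actS p M B) θ) L B j x -
      ((n' : ℝ) + 1)⁻¹ * ∑ i ∈ Finset.Ico (((x : ℕ) + 1) * (q * s)) (n' + 1), P i| ≤ e5)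
    -- increment
    (hInc : LSel.Inc X.al (Ph X n Kp (LS2.prm (actS p M B) θ) : (Fin N → X.LB) → ℝ)
      (Ph X n Kp (LS2.prm (actS p M B) θ)) L + Kp * Qd X n Kp (LS2.prm (actS p M B) θ) L ≤ R0)
    {d0 : ℝ} (hd0 : 0 ≤ d0) (hL : LabAvg.Good X.al d0 L)
    (hQ6 : Kp * (X.J * (4 * (((X.K : ℝ) + 1) * d0))) ≤ e6)
    (hQ : ∀ j, X.t j ≠ 0 → |mbar X n Kp (LS2.prm (actS p M B) θ) L j - X.t j| ≤ ε / 2)
    -- smallness
    (hs1 : (2 * dl + (Cd * (y * Real.sqrt y) + y * ed)) / y + e3 ≤ ε / 2)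
    (hs2 : 4 * Kp * ((2 * dl + (Cd * (y * Real.sqrt y) + y * ed)) / y + e3) + E1 +
      LF.LR X.val * (2 * ((M + 1 : ℕ) : ℝ) *
        (e5 + ((2 * (dl + E1) + (Cd * (y * Real.sqrt y) + y * ed)) / y + e3 + e4) / amin) +
        3 / ((M + 1 : ℕ) : ℝ)) < r - ((R0 + e6) + ed + dl + E1)) : False := by
  subst hBe
  set θp := LS2.prm (actS p M (q * s * wc)) θ with hθp
  set mb := mbar X n Kp θp L with hmbdef
  have hq : 0 < q := by
    rcases Nat.eq_zero_or_pos q with h | h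
    · rw [h, zero_mul] at hn'; omega
    · exact h
  have hs : 0 < s := by
    rcases Nat.eq_zero_or_pos s with h | h
    · rw [h, mul_zero] at hJ; omega
    · exact h
  have hB : 0 < q * s * wc := Nat.mul_pos (Nat.mul_pos hq hs) hwc
  have hn : n' + 1 = (M + 1) * (q * s) := by rw [hn', hJ]; ring
  have hnc : p.nc = (M + 1) * (q * s * wc) := by rw [hS.hp, hn]; ring
  have hmb : ∀ j, |mb j| ≤ 1 := fun j => abs_mbar_le X hN j
  have h2am : 0 ≤ amax := hy.le.trans hya'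
  have ham : ∀ j, θp.am j = amF p (q * s * wc) (aOf X hB hnc θ j) := fun j => prm_am X hB hnc θ j
  have hsq : ∀ x : ℝ, |x| = y → |x| ≤ 1 := fun x hx => by rw [hx]; exact hy1
  refine LF.crit (K := X.K) (n := n') (J := X.J) (M := M) (r0 := q * s) hn X.hv X.hw X.hs X.hγ
    X.hγs X.ht hr (P := P) hS.step hS.lt1 hKp (el := θp.el) (mb := mb) (E := E1) (fun j => hθ1 j)
    hE1 hmb hQ hε (a := aOf X hB hnc θ) (amin := amin) (y := y) hy hya (fun j x => (hθ2 j _).1)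
    (F := fun k b a => cavF X n Kp θp L tr k b (amF p (q * s * wc) a)) (dl := dl) (e1 := ed)
    (e2 := Cd * (y * Real.sqrt y) + y * ed) (e3 := e3) (e4 := e4) (e5 := e5)
    (Inc := LSel.Inc X.al (Ph X n Kp θp : (Fin N → X.LB) → ℝ) (Ph X n Kp θp) L) (R := R0 + e6)
    (by positivity) he3 he4 he5 hdl ?_
    (T1 := fun k j x => T1 X n Kp θp L k j (cA hB hnc x)) (M1 := fun k j => M1 X n Kp θp L k j)
    (TN := fun j x => Eo X n Kp θp L (fun _ _ ω => TO n (Glob.lab L) j (cA hB hnc x) ω))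
    (RR := fun j x => RRj X n Kp θp L (q * s * wc) j x) ?_ ?_ ?_ ?_ ?_ ?_ ?_ ?_ hs1 hs2
  · -- the values
    intro k j b' a' hb' ha'
    have hb2 : |b'| ≤ Bm := by
      have h1 := hBm j
      have h2 : |b'| ≤ |b' - LF.b1 X.c X.t Kp θp.el mb j| + |LF.b1 X.c X.t Kp θp.el mb j| := by
        have := abs_add_le (b' - LF.b1 X.c X.t Kp θp.el mb j) (LF.b1 X.c X.t Kp θp.el mb j)
        rwa [sub_add_cancel] at this
      have h3 : |LF.b1 X.c X.t Kp θp.el mb j| = |bb X Kp θp.el mb j| := rfl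
      linarith
    have ha2 : ∀ i, 0 ≤ a' i ∧ a' i ≤ 2 * amax := by
      intro i
      have h1 := abs_le.1 (ha' i)
      have h2 := hθ2 j ⟨cA hB hnc i, cA_mem hB hnc i⟩
      have h3 : aOf X hB hnc θ j i = θ (Sum.inr (Sum.inl (j, ⟨cA hB hnc i, cA_mem hB hnc i⟩))) :=
        rfl
      rw [← h3] at h2
      constructor
      · linarith [h1.1, h2.1]
      · linarith [h1.2, h2.2]
    have g1 := hLA k b' a' hb2 ha2
    have g2 := hLB k b' a' hb2 ha2
    have e3 : LF.ch (SDAlg.wdOf n' (mu n'))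
            (PAlg.hh X.w X.val (SDAlg.wdOf n' (mu n')) (SDAlg.pOf n' P)) b'
            (fun i => ∑ x : Fin M, if ((x : ℕ) + 1) * (q * s) ≤ (i : ℕ) then a' x ^ 2 else 0) =
        LF.cv (SDAlg.wdOf n' (LF.mm n'))
          (PAlg.hh X.w X.val (SDAlg.wdOf n' (LF.mm n')) (SDAlg.pOf n' P)) b'
          (LF.VF (q * s) a') := rfl
    rw [e3] at g2
    have h5 := abs_sub_le (cavF X n Kp θp L tr k b' (amF p (q * s * wc) a'))
      (CavG.gval J (Fact.ySk J) (CavG.vC J (LLimB.Qc X.w X.val n' q P)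
          (GEx.cb J q (bvf n' (q * s) a'))) (fun z => ED.psi tr (LLimB.WS X.w X.val b' k z)))
      (EG.CC X.w X.val (SDAlg.wdOf n' (mu n')) (SDAlg.pOf n' P) k +
        LF.cv (SDAlg.wdOf n' (LF.mm n'))
          (PAlg.hh X.w X.val (SDAlg.wdOf n' (LF.mm n')) (SDAlg.pOf n' P)) b'
          (LF.VF (q * s) a'))
    refine h5.trans ?_
    linarith
  · -- difference quotients in the strengths
    intro k j x s' hs'
    have h := (hED k j).2.1 (cA hB hnc x) s' (hsq s' hs')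
    rw [ham j, amF_cA, amF_update, hs'] at h
    exact h
  · -- difference quotients in the linear field
    intro k j s' hs'
    have h := (hED k j).2.2 s' (hsq s' hs')
    rw [ham j, hs'] at h
    exact h
  · intro k j x
    exact hT k j (cA hB hnc x) (cA_mem hB hnc x)
  · intro k j _
    exact hM k j
  · intro j x
    have h := hI j (cA hB hnc x)
    rw [ham j, amF_cA] at h
    exact h
  · exact hTail
  · -- value of the increment
    rw [Inc_eq]
    have hterm : ∀ k j, X.w k * ((X.γ j : ℚ) : ℝ) *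
        ((if X.t j = 0 then 0 else Kp * (mb j ^ 2 - X.t j ^ 2)) +
          cavF X n Kp θp L tr k (LF.b1 X.c X.t Kp θp.el mb j)
            (amF p (q * s * wc) (aOf X hB hnc θ j))) ≤
        X.w k * ((X.γ j : ℚ) : ℝ) *
          (Ph X n Kp θp (Fin.snoc L (k, j) : Fin (N + 1) → X.LB) - Ph X n Kp θp L) +
          X.w k * ((X.γ j : ℚ) : ℝ) * ed := by
      intro k j
      rw [← mul_add]
      refine mul_le_mul_of_nonneg_left ?_ (mul_nonneg (X.hw k).le (gam_nonneg X j))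
      have h := (hED k j).1
      rw [ham j] at h
      exact h
    refine (Finset.sum_le_sum fun k _ => Finset.sum_le_sum fun j _ => hterm k j).trans
      (le_of_eq ?_)
    simp only [Finset.sum_add_distrib]
    congr 1
    have hγs' : ∑ j, ((X.γ j : ℚ) : ℝ) = 1 := by exact_mod_cast X.hγs
    calc ∑ k, ∑ j, X.w k * ((X.γ j : ℚ) : ℝ) * ed = ∑ k, X.w k * ed := by
          refine Finset.sum_congr rfl fun k _ => ?_
          rw [← Finset.sum_mul, ← Finset.mul_sum, hγs', mul_one]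
      _ = ed := by rw [← Finset.sum_mul, X.hs, one_mul]
  · have h := quad_le X (n := n) (Kp := Kp) (θ := θp) (L := L) hN hd0 hKp hL
    linarith

end

end Crest.Agent.R164.LG
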