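import Crest.Agent.R164.LSel2

/-!
Row 164 (helper436): selection of `(N, θ, K, labels)` for the lower bound, with all hypotheses
only for large `N` (module GL0 of helper893's list).
-/

set_option autoImplicit false

namespace Crest.Agent.R164.LSel

open Finset Filter
open Crest.Agent.R164.LabAvg

noncomputable section

variable {κ : Type*} [Fintype κ] [DecidableEq κ] {α : κ → ℝ}

/-- For arbitrarily large `N`: `g N < r` and `g (N/2) ≥ g N - ε`. -/
theorem halving' {g : ℕ → ℝ} {C r ε : ℝ} {Na : ℕ} (hg : ∀ N, Na ≤ N → |g N| ≤ C) (hε : 0 < ε)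
    (hinf : ∃ᶠ N in atTop, g N < r) {N0 : ℕ} (hNa : Na ≤ N0) :
    ∃ N, N0 ≤ N ∧ g N < r ∧ g N - ε ≤ g (N / 2) := by
  obtain ⟨k, hk⟩ := exists_nat_gt (2 * C / ε)
  obtain ⟨N, hN, hr⟩ := (frequently_atTop.1 hinf) (2 ^ k * (N0 + 1))
  by_contra hcon
  push Not at hcon
  -- all iterated halves satisfy the bound
  have key : ∀ j, j ≤ k → g (N / 2 ^ j) ≤ g N - j * ε ∧ g (N / 2 ^ j) < r := by
    intro j
    induction j with
    | zero => intro _; simp [hr]
    | succ j ih =>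
      intro hj
      obtain ⟨h1, h2⟩ := ih (by omega)
      have h3 : N0 ≤ N / 2 ^ j := by
        rw [Nat.le_div_iff_mul_le (by positivity)]
        calc N0 * 2 ^ j ≤ (N0 + 1) * 2 ^ k :=
              Nat.mul_le_mul (by omega) (Nat.pow_le_pow_right (by norm_num) (by omega))
          _ = 2 ^ k * (N0 + 1) := by ring
          _ ≤ N := hN
      have h4 := hcon (N / 2 ^ j) h3 h2
      rw [Nat.div_div_eq_div_mul, ← pow_succ] at h4
      constructor
      · push_cast; linarith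
      · linarith
  have h1 := (key k le_rfl).1
  have h0 : N0 ≤ N / 2 ^ k := by
    rw [Nat.le_div_iff_mul_le (by positivity)]
    calc N0 * 2 ^ k ≤ (N0 + 1) * 2 ^ k := Nat.mul_le_mul (by omega) le_rfl
      _ = 2 ^ k * (N0 + 1) := by ring
      _ ≤ N := hN
  have h0' : N / 2 ^ k ≤ N := Nat.div_le_self _ _
  have h2 := abs_le.1 (hg N (by omega))
  have h3 := abs_le.1 (hg (N / 2 ^ k) (by omega))
  rw [div_lt_iff₀ hε] at hk
  linarith [h2.2, h3.1]

variable {Θ : Type*} [Fintype Θ]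

set_option maxHeartbeats 1600000 in
/-- **Selection of `(N, θ, i, labels)`**, all hypotheses only for `Na ≤ N` and `N1 ≤ 2 * N + 1`.
`Φ N1 N θ i lab`: enriched free energy (number of coins chosen for the target size `N1`);
`Gp N i lab`: expected pressure at penalty `K_i`. -/
theorem selection'' (hα : ∀ k, 0 ≤ α k) (hs : ∑ k, α k = 1) (wθ : Θ → ℝ)
    (hw0 : ∀ θ, 0 ≤ wθ θ) (hw1 : ∑ θ, wθ θ = 1) {I : ℕ} (hI : 0 < I)
    (Φ : ℕ → (N : ℕ) → Θ → Fin I → (Fin N → κ) → ℝ)
    (Gp : (N : ℕ) → Fin I → (Fin N → κ) → ℝ) (labE : (N : ℕ) → Fin N → κ)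
    (Err Q : ℕ → (N : ℕ) → Θ → Fin I → (Fin N → κ) → ℝ)
    {Cg C Cq e1 δg r : ℝ} (hδg : 0 < δg) (he1 : 0 ≤ e1) (hC : 0 ≤ C) (Na : ℕ)
    -- boundedness of the pressures
    (hG : ∀ N i lab, Na ≤ N → |Gp N i lab| ≤ Cg)
    -- contradiction hypothesis
    (hcon : ∃ᶠ N in atTop, ∀ i, Gp N i (labE N) < r)
    -- (a) perturbation bound
    (ha : ∀ N1 N θ i lab, Na ≤ N → N ≤ N1 → N1 ≤ 2 * N + 1 →
      |Φ N1 N θ i lab - N * Gp N i lab| ≤ e1 * N)
    -- (b) transfer of the labels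
    (hb : ∀ i, Tendsto (fun N => Psi α (fun lab : Fin N → κ => |Gp N i lab - Gp N i (labE N)|))
      atTop (nhds 0))
    -- (c) lower bounds for the increments
    (hc : ∀ N1 N θ i lab, Na ≤ N → N < N1 → N1 ≤ 2 * N + 1 → Good α δg lab →
      -C ≤ Inc α (Φ N1 N θ i) (Φ N1 (N + 1) θ i) lab)
    (hc' : ∀ N1 N θ i lab, Na ≤ N → N < N1 → N1 ≤ 2 * N + 1 →
      -(C * N) ≤ Inc α (Φ N1 N θ i) (Φ N1 (N + 1) θ i) lab)
    -- (d) averaged structure errors
    (hErr0 : ∀ N1 N θ i lab, 0 ≤ Err N1 N θ i lab)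
    {δ : ℝ} (hδ : 0 < δ)
    (hd : ∃ N0, ∀ N1 N i lab, N0 ≤ N → N < N1 → N1 ≤ 2 * N + 1 → Good α δg lab →
      ∑ θ, wθ θ * Err N1 N θ i lab ≤ dsel r e1 C Cq I δ)
    -- (e) average over the penalty strengths
    (hQ0 : ∀ N1 N θ i lab, 0 ≤ Q N1 N θ i lab)
    (hQ : ∀ N1 N θ lab, Na ≤ N → N < N1 → N1 ≤ 2 * N + 1 → ∑ i, Q N1 N θ i lab ≤ Cq)
    (N0 : ℕ) :
    ∃ (N1 N : ℕ) (θ : Θ) (i : Fin I) (lab : Fin N → κ), N0 ≤ N ∧ N < N1 ∧ N1 ≤ 2 * N + 1 ∧
      0 < wθ θ ∧ Good α δg lab ∧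
      Inc α (Φ N1 N θ i) (Φ N1 (N + 1) θ i) lab + Q N1 N θ i lab ≤
        r + 3 * e1 + Cq / I + δ ∧ Err N1 N θ i lab ≤ δ := by
  classical
  have hI' : (0 : ℝ) < I := by exact_mod_cast hI
  -- small parameter
  obtain ⟨ε, hε, hε1, hεe⟩ : ∃ ε : ℝ, 0 < ε ∧ 8 * ε ≤ δ ∧ ε = δ / 8 :=
    ⟨δ / 8, by positivity, by linarith, rfl⟩
  -- the averaged pressure at the given labels
  set g : ℕ → ℝ := fun N => (I : ℝ)⁻¹ * ∑ i, Gp N i (labE N) with hgdef
  have hgb : ∀ N, Na ≤ N → |g N| ≤ Cg := by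
    intro N hNa
    simp only [hgdef]
    rw [abs_mul, abs_of_pos (inv_pos.2 hI')]
    have : |∑ i, Gp N i (labE N)| ≤ I * Cg := by
      refine (Finset.abs_sum_le_sum_abs _ _).trans ?_
      calc _ ≤ ∑ _i : Fin I, Cg := Finset.sum_le_sum fun i _ => hG N i _ hNa
        _ = _ := by simp
    calc (I : ℝ)⁻¹ * |∑ i, Gp N i (labE N)| ≤ (I : ℝ)⁻¹ * (I * Cg) :=
          mul_le_mul_of_nonneg_left this (by positivity)
      _ = Cg := by field_simp
  have hginf : ∃ᶠ N in atTop, g N < r := by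
    refine hcon.mono fun N hN => ?_
    simp only [hgdef]
    have : ∑ i, Gp N i (labE N) < ∑ _i : Fin I, r :=
      Finset.sum_lt_sum_of_nonempty ⟨⟨0, hI⟩, Finset.mem_univ _⟩ fun i _ => hN i
    rw [Finset.sum_const, Finset.card_univ, Fintype.card_fin, nsmul_eq_mul] at this
    calc (I : ℝ)⁻¹ * ∑ i, Gp N i (labE N) < (I : ℝ)⁻¹ * (I * r) :=
          mul_lt_mul_of_pos_left this (by positivity)
      _ = r := by field_simp
  -- constants for the structure errors
  set X0 : ℝ := r + 3 * e1 + Cq / I + 6 * ε with hX0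
  set B : ℝ := |X0| + ε + C + 1 with hB
  have hB1 : 1 ≤ B := by have := abs_nonneg X0; linarith
  obtain ⟨δ', hδ', hδ'1, hδ'2, hδ'e⟩ : ∃ δ' : ℝ, 0 < δ' ∧ δ' / ε * B < 1 ∧ δ' / ε * B ≤ δ ∧
      δ' / 2 = dsel r e1 C Cq I δ := by
    refine ⟨ε * min (1 / 2) δ / B, by positivity, ?_, ?_, by rw [hB, hX0, hεe]; rfl⟩
    · have : ε * min (1 / 2) δ / B / ε * B = min (1 / 2) δ := by field_simp
      rw [this]; exact lt_of_le_of_lt (min_le_left _ _) (by norm_num)
    · have : ε * min (1 / 2) δ / B / ε * B = min (1 / 2) δ := by field_simp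
      rw [this]; exact min_le_right _ _
  obtain ⟨Nd, hNd⟩ := hd
  rw [← hδ'e] at hNd
  -- transfer threshold
  have hbe : ∀ᶠ N in atTop, ∀ i, Psi α (fun lab : Fin N → κ =>
      |Gp N i lab - Gp N i (labE N)|) ≤ ε := by
    rw [Filter.eventually_all]
    intro i
    exact (hb i).eventually (ge_mem_nhds hε)
  obtain ⟨Nb, hNb⟩ := eventually_atTop.1 hbe
  -- threshold for the bad labels
  obtain ⟨Nc, hNc⟩ := exists_nat_gt
    (4 * (Fintype.card κ : ℝ) / δg ^ 4 * (C / ε + 2 / δ' + 1))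
  set Nst : ℕ := N0 + Nd + Nb + Nc + Na + 1 with hNst
  obtain ⟨N1, hN1, hgr, hgh⟩ := halving' hgb hε hginf (N0 := 2 * Nst) (by omega)
  set M := N1 / 2 with hM
  have hMst : Nst ≤ M := by omega
  have hM1 : 0 < M := by omega
  have hMN : M < N1 := by omega
  have hM2 : N1 ≤ 2 * M + 1 := by omega
  have hMr : (0:ℝ) < M := by exact_mod_cast hM1
  have hNMr : (M:ℝ) < N1 := by exact_mod_cast hMN
  have hM2' : 2 * M ≤ N1 := by omega
  have hM2r : 2 * (M:ℝ) ≤ N1 := by exact_mod_cast hM2'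
  -- bad mass for N ≥ M
  have hbad : ∀ N, M ≤ N → Psi α (fun lab : Fin N → κ => if Good α δg lab then 0 else 1) ≤ δ' / 2 ∧
      C * N * Psi α (fun lab : Fin N → κ => if Good α δg lab then 0 else 1) ≤ ε := by
    intro N hN
    have hN1' : 0 < N := by omega
    have hNr : (0:ℝ) < N := by exact_mod_cast hN1'
    have h1 := bad_mass4 (α := α) hα hs hδg hN1'
    set D : ℝ := 4 * (Fintype.card κ : ℝ) / δg ^ 4 with hD
    have hD0 : 0 ≤ D := by positivity
    have hNcN : D * (C / ε + 2 / δ' + 1) ≤ N := by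
      refine hNc.le.trans ?_
      exact_mod_cast (by omega : Nc ≤ N)
    have h2 : 4 * (Fintype.card κ : ℝ) / (δg ^ 4 * (N : ℝ) ^ 2) = D / N ^ 2 := by
      rw [hD]; field_simp
    rw [h2] at h1
    have hN1r : (1:ℝ) ≤ N := by exact_mod_cast hN1'
    have hCε : 0 ≤ C / ε := by positivity
    have hδ2 : 0 < 2 / δ' := by positivity
    constructor
    · refine h1.trans ?_
      rw [div_le_iff₀ (by positivity)]
      have h3 : D * (2 / δ') ≤ N := by nlinarith
      have h4 : D ≤ δ' / 2 * N := by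
        have : D = δ' / 2 * (D * (2 / δ')) := by field_simp
        rw [this]
        exact mul_le_mul_of_nonneg_left h3 (by positivity)
      have h5 : δ' / 2 * N ≤ δ' / 2 * (N:ℝ) ^ 2 := by
        refine mul_le_mul_of_nonneg_left ?_ (by positivity)
        nlinarith
      linarith
    · have h3 : D * (C / ε) ≤ N := by nlinarith
      calc C * N * Psi α (fun lab : Fin N → κ => if Good α δg lab then 0 else 1) ≤
          C * N * (D / N ^ 2) := mul_le_mul_of_nonneg_left h1 (by positivity)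
        _ = C * D / N := by field_simp
        _ ≤ ε := by
          rw [div_le_iff₀ hNr]
          have : C * D = ε * (D * (C / ε)) := by field_simp
          rw [this]
          exact mul_le_mul_of_nonneg_left h3 hε.le
  -- the averaged free energies
  set Ψ : ℕ → ℝ := fun N => ∑ θ, wθ θ * ((I : ℝ)⁻¹ * ∑ i, Psi α (Φ N1 N θ i)) with hΨ
  have hΨb : ∀ N, M ≤ N → N ≤ N1 → |Ψ N - N * g N| ≤ (e1 + ε) * N := by
    intro N hMN' hNN1
    have hN0 : 0 < N := by omega
    have hNr : (0:ℝ) < N := by exact_mod_cast hN0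
    have h1 : ∀ θ i, |Psi α (Φ N1 N θ i) - N * Gp N i (labE N)| ≤ (e1 + ε) * N := by
      intro θ i
      have e : Psi α (Φ N1 N θ i) - N * Gp N i (labE N) =
          Psi α (fun lab => Φ N1 N θ i lab - N * Gp N i (labE N)) := by
        rw [Psi_sub, Psi_const hs]
      rw [e]
      have h2 : |Psi α (fun lab => Φ N1 N θ i lab - N * Gp N i (labE N))| ≤
          Psi α (fun lab => e1 * N + N * |Gp N i lab - Gp N i (labE N)|) := by
        unfold Psi
        refine (Finset.abs_sum_le_sum_abs _ _).trans (Finset.sum_le_sum fun lab _ => ?_)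
        rw [abs_mul, abs_of_nonneg (wt_nonneg hα lab)]
        refine mul_le_mul_of_nonneg_left ?_ (wt_nonneg hα lab)
        show |Φ N1 N θ i lab - N * Gp N i (labE N)| ≤
          e1 * N + N * |Gp N i lab - Gp N i (labE N)|
        have e2 : Φ N1 N θ i lab - N * Gp N i (labE N) =
            (Φ N1 N θ i lab - N * Gp N i lab) + N * (Gp N i lab - Gp N i (labE N)) := by ring
        rw [e2]
        refine (abs_add_le _ _).trans (add_le_add (ha N1 N θ i lab (by omega) hNN1 (by omega)) ?_)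
        rw [abs_mul, abs_of_pos hNr]
      refine h2.trans ?_
      rw [Psi_add, Psi_const hs, Psi_smul]
      have h3 := hNb N (by omega) i
      nlinarith
    have e : Ψ N - N * g N = ∑ θ, wθ θ * ((I : ℝ)⁻¹ * ∑ i,
        (Psi α (Φ N1 N θ i) - N * Gp N i (labE N))) := by
      simp only [hΨ, hgdef, Finset.sum_sub_distrib, mul_sub]
      rw [← Finset.sum_mul, hw1, ← Finset.mul_sum]
      ring
    rw [e]
    refine (Finset.abs_sum_le_sum_abs _ _).trans ?_
    calc _ ≤ ∑ θ, wθ θ * ((e1 + ε) * N) := by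
          refine Finset.sum_le_sum fun θ _ => ?_
          rw [abs_mul, abs_of_nonneg (hw0 θ)]
          refine mul_le_mul_of_nonneg_left ?_ (hw0 θ)
          rw [abs_mul, abs_of_pos (inv_pos.2 hI')]
          have : |∑ i, (Psi α (Φ N1 N θ i) - N * Gp N i (labE N))| ≤ I * ((e1 + ε) * N) := by
            refine (Finset.abs_sum_le_sum_abs _ _).trans ?_
            calc _ ≤ ∑ _i : Fin I, (e1 + ε) * N := Finset.sum_le_sum fun i _ => h1 θ i
              _ = _ := by simp
          calc _ ≤ (I : ℝ)⁻¹ * (I * ((e1 + ε) * N)) :=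
                mul_le_mul_of_nonneg_left this (by positivity)
            _ = _ := by field_simp
      _ = _ := by rw [← Finset.sum_mul, hw1, one_mul]
  -- the total increment
  have htot : (Ψ N1 - Ψ M) / (N1 - M) ≤ r + 3 * e1 + 4 * ε := by
    rw [div_le_iff₀ (by linarith)]
    have h1 := (abs_le.1 (hΨb N1 hMN.le le_rfl)).2
    have h2 := (abs_le.1 (hΨb M le_rfl hMN.le)).1
    have h3 : (M:ℝ) * (g N1 - ε) ≤ M * g M := mul_le_mul_of_nonneg_left hgh hMr.le
    have h4 : ((N1:ℝ) - M) * g N1 ≤ (N1 - M) * r :=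
      mul_le_mul_of_nonneg_left hgr.le (by linarith)
    have h5 : (e1 + ε) * N1 + (e1 + ε) * M ≤ 3 * (e1 + ε) * (N1 - M) := by nlinarith
    have h6 : ε * (M:ℝ) ≤ ε * (N1 - M) := mul_le_mul_of_nonneg_left (by linarith) hε.le
    nlinarith
  -- the finite probability space
  set S : ℕ := N1 - M with hS
  have hS0 : 0 < S := by omega
  have hSr : (0:ℝ) < S := by exact_mod_cast hS0
  have hSr2 : (S:ℝ) = N1 - M := by rw [hS, Nat.cast_sub hMN.le]
  let Ξ := Σ n : Fin S, Θ × Fin I × (Fin (M + (n : ℕ)) → κ)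
  let w : Ξ → ℝ := fun ξ => (S:ℝ)⁻¹ * (wθ ξ.2.1 * ((I:ℝ)⁻¹ * wt α ξ.2.2.2))
  let X : Ξ → ℝ := fun ξ => if Good α δg ξ.2.2.2 then
    Inc α (Φ N1 (M + ξ.1) ξ.2.1 ξ.2.2.1) (Φ N1 (M + ξ.1 + 1) ξ.2.1 ξ.2.2.1) ξ.2.2.2 +
      Q N1 (M + ξ.1) ξ.2.1 ξ.2.2.1 ξ.2.2.2 else 0
  let Y : Ξ → ℝ := fun ξ => if Good α δg ξ.2.2.2 then
    Err N1 (M + ξ.1) ξ.2.1 ξ.2.2.1 ξ.2.2.2 else 1
  have hsum : ∀ f : (n : Fin S) → Θ → Fin I → (Fin (M + (n : ℕ)) → κ) → ℝ,
      ∑ ξ : Ξ, w ξ * f ξ.1 ξ.2.1 ξ.2.2.1 ξ.2.2.2 =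
        (S:ℝ)⁻¹ * ∑ n : Fin S, ∑ θ, wθ θ * ((I:ℝ)⁻¹ * ∑ i, Psi α (f n θ i)) := by
    intro f
    rw [Fintype.sum_sigma, Finset.mul_sum]
    refine Finset.sum_congr rfl fun n _ => ?_
    rw [Fintype.sum_prod_type, Finset.mul_sum]
    refine Finset.sum_congr rfl fun θ _ => ?_
    rw [Fintype.sum_prod_type]
    simp only [w, Psi, Finset.mul_sum]
    refine Finset.sum_congr rfl fun i _ => Finset.sum_congr rfl fun lab _ => ?_
    ring
  have hw_nonneg : ∀ ξ, 0 ≤ w ξ := fun ξ =>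
    mul_nonneg (by positivity) (mul_nonneg (hw0 _) (mul_nonneg (by positivity) (wt_nonneg hα _)))
  have hw_one : ∑ ξ, w ξ = 1 := by
    have h := hsum (fun _ _ _ _ => 1)
    simp only [mul_one] at h
    rw [h]
    simp only [Psi_const hs, Finset.sum_const, Finset.card_univ, Fintype.card_fin, nsmul_eq_mul,
      mul_one]
    have e : ∑ x, wθ x * ((I:ℝ)⁻¹ * I) = 1 := by
      rw [inv_mul_cancel₀ hI'.ne']; simpa using hw1
    rw [e, mul_one, inv_mul_cancel₀ hSr.ne']
  -- the average of X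
  have hXavg : ∑ ξ, w ξ * X ξ ≤ r + 3 * e1 + Cq / I + 5 * ε := by
    have h1 := hsum (fun n θ i lab => if Good α δg lab then
      Inc α (Φ N1 (M + n) θ i) (Φ N1 (M + n + 1) θ i) lab + Q N1 (M + n) θ i lab else 0)
    have h2 : ∀ n : Fin S, ∑ θ, wθ θ * ((I:ℝ)⁻¹ * ∑ i, Psi α (fun lab : Fin (M + (n : ℕ)) → κ =>
        if Good α δg lab then Inc α (Φ N1 (M + n) θ i) (Φ N1 (M + n + 1) θ i) lab +
          Q N1 (M + n) θ i lab else 0)) ≤ (Ψ (M + n + 1) - Ψ (M + n)) + (Cq / I + ε) := by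
      intro n
      have hn1 : M + (n:ℕ) < N1 := by have := n.2; omega
      have hn0 : 0 < M + (n:ℕ) := by omega
      obtain ⟨-, hb2⟩ := hbad (M + n) (by omega)
      set pb := Psi α (fun lab : Fin (M + (n:ℕ)) → κ => if Good α δg lab then (0:ℝ) else 1) with hpb
      have h3 : ∀ θ i, Psi α (fun lab : Fin (M + (n : ℕ)) → κ =>
          if Good α δg lab then Inc α (Φ N1 (M + n) θ i) (Φ N1 (M + n + 1) θ i) lab +
            Q N1 (M + n) θ i lab else 0) ≤
          (Psi α (Φ N1 (M + n + 1) θ i) - Psi α (Φ N1 (M + n) θ i)) +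
            Psi α (Q N1 (M + n) θ i) + ε := by
        intro θ i
        have h4 : ∀ lab : Fin (M + (n : ℕ)) → κ,
            (if Good α δg lab then Inc α (Φ N1 (M + n) θ i) (Φ N1 (M + n + 1) θ i) lab +
              Q N1 (M + n) θ i lab else 0) ≤
            Inc α (Φ N1 (M + n) θ i) (Φ N1 (M + n + 1) θ i) lab + Q N1 (M + n) θ i lab +
              C * ((M + n : ℕ) : ℝ) * (if Good α δg lab then 0 else 1) := by
          intro lab
          split_ifs with hgood
          · simp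
          · have h5 := hc' N1 (M + n) θ i lab (by omega) hn1 (by omega)
            have h6 := hQ0 N1 (M + n) θ i lab
            linarith
        have h5 := Psi_mono hα h4
        rw [Psi_add, Psi_add, Psi_Inc hs, Psi_smul] at h5
        have h6 : C * ((M + n : ℕ) : ℝ) * pb ≤ ε := hb2
        linarith
      calc _ ≤ ∑ θ, wθ θ * ((I:ℝ)⁻¹ * ∑ i, ((Psi α (Φ N1 (M + n + 1) θ i) -
            Psi α (Φ N1 (M + n) θ i)) + Psi α (Q N1 (M + n) θ i) + ε)) := by
            refine Finset.sum_le_sum fun θ _ => mul_le_mul_of_nonneg_left ?_ (hw0 θ)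
            refine mul_le_mul_of_nonneg_left ?_ (by positivity)
            exact Finset.sum_le_sum fun i _ => h3 θ i
        _ ≤ ∑ θ, wθ θ * ((I:ℝ)⁻¹ * ∑ i, (Psi α (Φ N1 (M + n + 1) θ i) -
            Psi α (Φ N1 (M + n) θ i)) + (Cq / I + ε)) := by
            refine Finset.sum_le_sum fun θ _ => mul_le_mul_of_nonneg_left ?_ (hw0 θ)
            have h7 : ∑ i, Psi α (Q N1 (M + n) θ i) ≤ Cq := by
              have : ∑ i, Psi α (Q N1 (M + n) θ i) =
                  Psi α (fun lab => ∑ i, Q N1 (M + n) θ i lab) := by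
                unfold Psi
                simp only [Finset.mul_sum]
                rw [Finset.sum_comm]
              rw [this, ← Psi_const (α := α) hs (M + n) Cq]
              exact Psi_mono hα fun lab => hQ N1 (M + n) θ lab (by omega) hn1 (by omega)
            rw [Finset.sum_add_distrib, Finset.sum_add_distrib, Finset.sum_const,
              Finset.card_univ, Fintype.card_fin, nsmul_eq_mul]
            have h8 : (I:ℝ)⁻¹ * (I * ε) = ε := by field_simp
            have h9 : (I:ℝ)⁻¹ * ∑ i, Psi α (Q N1 (M + n) θ i) ≤ (I:ℝ)⁻¹ * Cq :=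
              mul_le_mul_of_nonneg_left h7 (by positivity)
            have h10 : (I:ℝ)⁻¹ * Cq = Cq / I := by ring
            rw [mul_add, mul_add, h8]
            linarith
        _ = _ := by
            simp only [mul_add, Finset.sum_add_distrib, ← Finset.sum_mul, hw1, one_mul]
            have : ∑ θ, wθ θ * ((I:ℝ)⁻¹ * ∑ i, (Psi α (Φ N1 (M + n + 1) θ i) -
                Psi α (Φ N1 (M + n) θ i))) = Ψ (M + n + 1) - Ψ (M + n) := by
              simp only [hΨ, Finset.sum_sub_distrib, mul_sub]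
            rw [this]
    have h3 : ∑ n : Fin S, ((Ψ (M + n + 1) - Ψ (M + n)) + (Cq / I + ε)) =
        (Ψ N1 - Ψ M) + S * (Cq / I + ε) := by
      rw [Finset.sum_add_distrib, Finset.sum_const, Finset.card_univ, Fintype.card_fin,
        nsmul_eq_mul, Fin.sum_univ_eq_sum_range (fun n : ℕ => Ψ (M + n + 1) - Ψ (M + n)) S]
      have hts : ∑ i ∈ range S, (Ψ (M + i + 1) - Ψ (M + i)) = Ψ (M + S) - Ψ (M + 0) :=
        Finset.sum_range_sub (fun n => Ψ (M + n)) S
      rw [hts]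
      have : M + S = N1 := by omega
      rw [this, add_zero]
    have h4 : ∑ ξ, w ξ * X ξ ≤ (S:ℝ)⁻¹ * ((Ψ N1 - Ψ M) + S * (Cq / I + ε)) := by
      rw [← h3]
      refine le_trans (le_of_eq h1) ?_
      exact mul_le_mul_of_nonneg_left (Finset.sum_le_sum fun n _ => h2 n) (by positivity)
    have h5 : (S:ℝ)⁻¹ * ((Ψ N1 - Ψ M) + S * (Cq / I + ε)) =
        (Ψ N1 - Ψ M) / (N1 - M) + (Cq / I + ε) := by
      rw [← hSr2]; field_simp
    rw [h5] at h4
    linarith
  -- the average of Y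
  have hYavg : ∑ ξ, w ξ * Y ξ ≤ δ' := by
    have h1 := hsum (fun n θ i lab => if Good α δg lab then Err N1 (M + n) θ i lab else 1)
    have h2 : ∀ n : Fin S, ∑ θ, wθ θ * ((I:ℝ)⁻¹ * ∑ i, Psi α (fun lab : Fin (M + (n : ℕ)) → κ =>
        if Good α δg lab then Err N1 (M + n) θ i lab else 1)) ≤ δ' := by
      intro n
      have hn1 : M + (n:ℕ) < N1 := by have := n.2; omega
      obtain ⟨hb1, -⟩ := hbad (M + n) (by omega)
      have e : ∑ θ, wθ θ * ((I:ℝ)⁻¹ * ∑ i, Psi α (fun lab : Fin (M + (n : ℕ)) → κ =>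
          if Good α δg lab then Err N1 (M + n) θ i lab else 1)) =
          (I:ℝ)⁻¹ * ∑ i, Psi α (fun lab : Fin (M + (n : ℕ)) → κ => ∑ θ, wθ θ *
            (if Good α δg lab then Err N1 (M + n) θ i lab else 1)) := by
        unfold Psi
        simp only [Finset.mul_sum]
        rw [Finset.sum_comm]
        refine Finset.sum_congr rfl fun i _ => ?_
        rw [Finset.sum_comm]
        refine Finset.sum_congr rfl fun lab _ => Finset.sum_congr rfl fun θ _ => ?_
        ring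
      rw [e]
      have h3 : ∀ i, Psi α (fun lab : Fin (M + (n : ℕ)) → κ => ∑ θ, wθ θ *
          (if Good α δg lab then Err N1 (M + n) θ i lab else 1)) ≤ δ' := by
        intro i
        have h4 : ∀ lab : Fin (M + (n : ℕ)) → κ, ∑ θ, wθ θ *
            (if Good α δg lab then Err N1 (M + n) θ i lab else 1) ≤
            δ' / 2 + (if Good α δg lab then 0 else 1) := by
          intro lab
          split_ifs with hgood
          · rw [add_zero]
            exact hNd N1 (M + n) i lab (by omega) hn1 (by omega) hgood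
          · simp only [mul_one, hw1]
            linarith
        have h5 := Psi_mono hα h4
        rw [Psi_add, Psi_const hs] at h5
        linarith
      calc _ ≤ (I:ℝ)⁻¹ * ∑ _i : Fin I, δ' :=
            mul_le_mul_of_nonneg_left (Finset.sum_le_sum fun i _ => h3 i) (by positivity)
        _ = δ' := by
            rw [Finset.sum_const, Finset.card_univ, Fintype.card_fin, nsmul_eq_mul]; field_simp
    refine le_trans (le_of_eq h1) ?_
    calc _ ≤ (S:ℝ)⁻¹ * ∑ _n : Fin S, δ' :=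
          mul_le_mul_of_nonneg_left (Finset.sum_le_sum fun n _ => h2 n) (by positivity)
      _ = δ' := by
          rw [Finset.sum_const, Finset.card_univ, Fintype.card_fin, nsmul_eq_mul]; field_simp
  -- selection
  have hXC : ∀ ξ : Ξ, -C ≤ X ξ := by
    intro ξ
    simp only [X]
    split_ifs with hgood
    · have h1 := hc N1 (M + ξ.1) ξ.2.1 ξ.2.2.1 ξ.2.2.2 (by omega) (by have := ξ.1.2; omega)
        (by omega) hgood
      have h2 := hQ0 N1 (M + ξ.1) ξ.2.1 ξ.2.2.1 ξ.2.2.2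
      linarith
    · linarith
  have hY0 : ∀ ξ : Ξ, 0 ≤ Y ξ := by
    intro ξ
    simp only [Y]
    split_ifs
    · exact hErr0 _ _ _ _ _
    · exact zero_le_one
  obtain ⟨ξ, hξw, hξX, hξY⟩ := select hw_nonneg hw_one hε hδ' hXavg hXC hYavg hY0
  have hYlt : Y ξ ≤ δ' / ε * B := by
    refine hξY.trans (mul_le_mul_of_nonneg_left ?_ (by positivity))
    have := le_abs_self X0
    rw [hB]; linarith
  have hgood : Good α δg ξ.2.2.2 := by
    by_contra hbadξ
    have : Y ξ = 1 := by simp only [Y]; rw [if_neg hbadξ]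
    linarith
  have hX' : X ξ = Inc α (Φ N1 (M + ξ.1) ξ.2.1 ξ.2.2.1) (Φ N1 (M + ξ.1 + 1) ξ.2.1 ξ.2.2.1)
      ξ.2.2.2 + Q N1 (M + ξ.1) ξ.2.1 ξ.2.2.1 ξ.2.2.2 := by
    simp only [X]; rw [if_pos hgood]
  have hY' : Y ξ = Err N1 (M + ξ.1) ξ.2.1 ξ.2.2.1 ξ.2.2.2 := by
    simp only [Y]; rw [if_pos hgood]
  have hθ : 0 < wθ ξ.2.1 := by
    rcases (hw0 ξ.2.1).eq_or_lt with h | h
    · exfalso
      have : w ξ = 0 := by simp only [w]; rw [← h]; ring
      linarith
    · exact h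
  refine ⟨N1, M + ξ.1, ξ.2.1, ξ.2.2.1, ξ.2.2.2, by omega, by have := ξ.1.2; omega, by omega,
    hθ, hgood, ?_, ?_⟩
  · rw [← hX']; linarith
  · rw [← hY']; linarith

end

end Crest.Agent.R164.LSel
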