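import Crest.Agent.R164.LStruct2E

/-!
# Row 164, module LSTRUCT-2, part F

Choice of the grid: for finitely many penalty strengths, the average of the total error over a fine
grid is at most `δ` for all large `N`.
-/

set_option autoImplicit false
set_option linter.unusedSectionVars false
set_option linter.unusedVariables false

namespace Crest.Agent.R164.LS2

open Finset MeasureTheory Crest.Agent.R141 Crest.Agent.R164 Filter
open Crest.Agent.R164.LGrid (gavg pt sh SD)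
open Crest.Agent.R164.Haar (Mat RHaar)

noncomputable section

variable {p : Par} {K J : ℕ} {act : Finset (Fin p.nc)}

/-- the step of the grid with `I` points in the box `[lo, hi]`. -/
def stp (lo hi : Cd K J act → ℝ) (I : ℕ) (x : Cd K J act) : ℝ := (hi x - lo x) / ((I : ℝ) + 1)

theorem stp_pos {lo hi : Cd K J act → ℝ} (h : ∀ x, lo x < hi x) (I : ℕ) (x : Cd K J act) :
    0 < stp lo hi I x := by
  have := h x
  unfold stp
  exact div_pos (by linarith) (by positivity)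

theorem stp_top (lo hi : Cd K J act → ℝ) (I : ℕ) (x : Cd K J act) :
    lo x + ((I : ℝ) + 1) * stp lo hi I x = hi x := by
  unfold stp
  have : (I : ℝ) + 1 ≠ 0 := by positivity
  field_simp
  ring

/-- grid points lie in the box. -/
theorem pt_mem {lo hi : Cd K J act → ℝ} (h : ∀ x, lo x < hi x) {I : ℕ}
    (i : Cd K J act → Fin I) (x : Cd K J act) :
    lo x ≤ pt lo (stp lo hi I) i x ∧ pt lo (stp lo hi I) i x ≤ hi x := by
  have h1 := pt_inBox (θ0 := lo) (y := stp lo hi I) (stp_pos h I) i x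
  rw [stp_top] at h1
  exact h1

/-- grid points are strictly above `lo`. -/
theorem pt_gt {lo hi : Cd K J act → ℝ} (h : ∀ x, lo x < hi x) {I : ℕ}
    (i : Cd K J act → Fin I) (x : Cd K J act) : lo x < pt lo (stp lo hi I) i x := by
  have h1 := stp_pos h I x
  unfold pt
  have : 0 < (((i x : ℕ) : ℝ) + 1) * stp lo hi I x := by positivity
  linarith

theorem exists_min_pos {X : Type*} [Finite X] {f : X → ℝ} (hf : ∀ x, 0 < f x) :
    ∃ m : ℝ, 0 < m ∧ ∀ x, m ≤ f x := by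
  cases nonempty_fintype X
  rcases isEmpty_or_nonempty X with hX | hX
  · exact ⟨1, one_pos, fun x => (hX.false x).elim⟩
  · obtain ⟨x0, hx0⟩ := Finite.exists_min f
    exact ⟨f x0, hf x0, hx0⟩

variable (act)

/-- For large `I`, then large `N`, the bound `ErrB` is small. -/
theorem errB_small (val : Fin (K + 1) → ℝ) (c : Fin J → ℝ) (Kp R C0 : ℝ) {δ : ℝ} (hδ : 0 < δ) :
    ∃ I0 : ℕ, ∀ I : ℕ, I0 ≤ I → ∀ ym : ℝ, 0 < ym → ∃ N0 : ℕ, ∀ N : ℕ, N0 ≤ N →
      ErrB p act val c Kp R ym C0 I N ≤ δ := by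
  set a : ℝ := Fintype.card (Cd K J act) * (4 * (1 + CTR p val c Kp R)) +
    (((K + 1 : ℕ) : ℝ) * J) * (Fintype.card (Cd K J act) * (2 * (1 + CTR p val c Kp R))) with ha
  have h1 : Tendsto (fun I : ℕ => a / I) atTop (nhds 0) := tendsto_const_div_atTop_nhds_zero_nat a
  obtain ⟨I0, hI0⟩ := eventually_atTop.1 (h1.eventually_lt_const (half_pos hδ))
  refine ⟨I0, fun I hI ym hym => ?_⟩
  have h2 : Tendsto (fun N : ℕ => ((Fintype.card (Cd K J act) : ℝ) *
      (8 * (Real.sqrt (CVR p val c Kp R * N) + p.nc * p.T * p.τ) +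
        Real.log 2 * ((p.nc : ℝ) + 1)) / (N * ym) +
      (((K + 1 : ℕ) : ℝ) * J) * (Fintype.card (Cd K J act) *
        (2 * ((C0 + CF p val c Kp R) / N) / ym)))) atTop (nhds 0) := by
    have t1 : Tendsto (fun N : ℕ => Real.sqrt (CVR p val c Kp R * N) / N) atTop (nhds 0) := by
      have e : ∀ N : ℕ, Real.sqrt (CVR p val c Kp R * N) / N =
          Real.sqrt (CVR p val c Kp R) * (Real.sqrt N / N) := by
        intro N
        by_cases hc : 0 ≤ CVR p val c Kp R
        · rw [Real.sqrt_mul hc]; ring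
        · push Not at hc
          rw [Real.sqrt_eq_zero_of_nonpos hc.le, Real.sqrt_eq_zero_of_nonpos
            (mul_nonpos_of_nonpos_of_nonneg hc.le (Nat.cast_nonneg N))]
          simp
      simp only [e]
      have t0 : Tendsto (fun N : ℕ => Real.sqrt N / N) atTop (nhds 0) := by
        have e2 : ∀ N : ℕ, Real.sqrt N / N = (Real.sqrt N)⁻¹ := by
          intro N
          rw [Real.sqrt_div_self', one_div]
        simp only [e2]
        exact (Real.tendsto_sqrt_atTop.comp tendsto_natCast_atTop_atTop).inv_tendsto_atTop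
      simpa using t0.const_mul (Real.sqrt (CVR p val c Kp R))
    have t2 : Tendsto (fun N : ℕ => (1 : ℝ) / N) atTop (nhds 0) :=
      tendsto_const_div_atTop_nhds_zero_nat 1
    have t3 := ((t1.const_mul ((Fintype.card (Cd K J act) : ℝ) * 8 / ym)).add
      (t2.const_mul ((Fintype.card (Cd K J act) : ℝ) * (8 * (p.nc * p.T * p.τ) +
        Real.log 2 * ((p.nc : ℝ) + 1)) / ym))).add
      (t2.const_mul ((((K + 1 : ℕ) : ℝ) * J) * Fintype.card (Cd K J act) *
        (2 * (C0 + CF p val c Kp R)) / ym))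
    simp only [mul_zero, add_zero] at t3
    refine t3.congr fun N => ?_
    by_cases hN : (N : ℝ) = 0
    · simp [hN]
    · field_simp
      ring
  obtain ⟨N0, hN0⟩ := eventually_atTop.1 (h2.eventually_lt_const (half_pos hδ))
  refine ⟨N0, fun N hN => ?_⟩
  have b1 := hI0 I hI
  have b2 := hN0 N hN
  have e : ErrB p act val c Kp R ym C0 I N = a / I + ((Fintype.card (Cd K J act) : ℝ) *
      (8 * (Real.sqrt (CVR p val c Kp R * N) + p.nc * p.T * p.τ) +
        Real.log 2 * ((p.nc : ℝ) + 1)) / (N * ym) +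
      (((K + 1 : ℕ) : ℝ) * J) * (Fintype.card (Cd K J act) *
        (2 * ((C0 + CF p val c Kp R) / N) / ym))) := by
    rw [ha]
    unfold ErrB
    ring
  rw [e]
  linarith

/-- **Choice of the grid.** -/
theorem grid_err {m : ℕ} (hnb : p.nb = 0) (val : Fin (K + 1) → ℝ) (c t : Fin J → ℝ)
    (Kps : Fin m → ℝ) (ht : ∀ j, |t j| ≤ 1) (hK : ∀ i, 0 ≤ Kps i)
    {lo hi : Cd K J act → ℝ} (hlh : ∀ x, lo x < hi x) {R : ℝ} (hR0 : 0 ≤ R)
    (hlo : ∀ x, |lo x| ≤ R) (hhi : ∀ x, |hi x| ≤ R) (C0 : Fin m → ℝ) (hC0 : ∀ i, 0 ≤ C0 i)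
    {δ : ℝ} (hδ : 0 < δ) :
    ∃ I : ℕ, 0 < I ∧ ∃ N0 : ℕ, ∀ N : ℕ, N0 ≤ N → ∀ (i : Fin m) (n : ℕ)
      (kap : Fin N → Fin (K + 1)) (lab : Fin N → Fin J) (ν : Measure (Mat (Fin N)))
      [IsProbabilityMeasure ν] (ν' : Measure (Mat (Fin (N + 1)))) [IsProbabilityMeasure ν'],
      RHaar ν → RHaar ν' →
      (∀ θ : Cd K J act → ℝ, (∀ x, lo x ≤ θ x ∧ θ x ≤ hi x) → ∀ k' j',
        |LD.EPh ν' n val c t (Kps i) (prm act θ) (Fin.snoc kap k' : Fin (N + 1) → Fin (K + 1))
          (Fin.snoc lab j' : Fin (N + 1) → Fin J) -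
          LD.EPh ν n val c t (Kps i) (prm act θ) kap lab| ≤ C0 i) →
      gavg I (fun z => Err n val c t (Kps i) kap lab ν ν' (pt lo (stp lo hi I) z)) ≤ δ := by
  classical
  have h1 : ∀ i, ∃ I0 : ℕ, ∀ I : ℕ, I0 ≤ I → ∀ ym : ℝ, 0 < ym → ∃ N0 : ℕ, ∀ N : ℕ, N0 ≤ N →
      ErrB p act val c (Kps i) R ym (C0 i) I N ≤ δ := fun i => errB_small act val c _ R _ hδ
  choose I0 hI0 using h1
  obtain ⟨I, hI, hIpos⟩ : ∃ I : ℕ, (∀ i, I0 i ≤ I) ∧ 0 < I :=
    ⟨∑ i, I0 i + 1, fun i => (Finset.single_le_sum (f := I0) (fun _ _ => Nat.zero_le _)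
      (Finset.mem_univ i)).trans (Nat.le_succ _), Nat.succ_pos _⟩
  obtain ⟨ym, hym, hym'⟩ := exists_min_pos (stp_pos hlh I)
  have h2 : ∀ i, ∃ N0 : ℕ, ∀ N : ℕ, N0 ≤ N → ErrB p act val c (Kps i) R ym (C0 i) I N ≤ δ :=
    fun i => hI0 i I (hI i) ym hym
  choose N0 hN0 using h2
  refine ⟨I, hIpos, ∑ i, N0 i + 3, fun N hN i n kap lab ν _ ν' _ hν hν' hcr => ?_⟩
  have h3 : N0 i ≤ ∑ i, N0 i :=
    Finset.single_le_sum (f := N0) (fun _ _ => Nat.zero_le _) (Finset.mem_univ i)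
  refine (gavg_Err_le n val c t (Kps i) kap lab hnb (by omega) ht (hK i) hν hν'
    (stp_pos hlh I) hIpos hR0 hlo (fun x => by rw [stp_top]; exact hhi x) hym hym' (hC0 i)
    (fun θ hθ k' j' => hcr θ (fun x => ?_) k' j')).trans (hN0 i N (by omega))
  have := hθ x
  rw [stp_top] at this
  exact this

/-- the grid average as a weighted sum. -/
theorem gavg_eq_weights {C : Type*} [Fintype C] [DecidableEq C] (I : ℕ) (f : (C → Fin I) → ℝ) :
    gavg I f = ∑ i, ((I : ℝ) ^ Fintype.card C)⁻¹ * f i := by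
  unfold gavg; rw [Finset.mul_sum]

theorem weights_sum {C : Type*} [Fintype C] [DecidableEq C] {I : ℕ} (hI : 0 < I) :
    ∑ _i : C → Fin I, ((I : ℝ) ^ Fintype.card C)⁻¹ = 1 := by
  have h := LGrid.gavg_const (C := C) hI 1
  rw [gavg_eq_weights] at h
  simpa using h

end

end Crest.Agent.R164.LS2
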