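import Crest.Agent.R164.LabAvg
import Crest.Agent.R164.Mag0
import Crest.Agent.R164.Haar

/-!
Row 164 (helper436): the free energy `E log Z` as a function of the labels of the rows:
invariance under permutations and the one-sided Lipschitz bound used in `LabAvg.transfer`.
-/

set_option autoImplicit false

namespace Crest.Agent.R164.LabAvg

open Finset MeasureTheory
open Crest.ProbabilityR.InvariantGlass
open Crest.Agent.R164.Haar (Mat RHaar lmul)

noncomputable section

variable {κ : Type*} [DecidableEq κ] {N : ℕ}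

/-- Gibbs average -/
def gib (eig : Fin N → ℝ) (U : Matrix (Fin N) (Fin N) ℝ) (A : Finset (Fin N → Bool))
    (V f : (Fin N → Bool) → ℝ) : ℝ :=
  (∑ σ ∈ A, Real.exp (Mag.qd eig U σ + V σ) * f σ) / ∑ σ ∈ A, Real.exp (Mag.qd eig U σ + V σ)

theorem gib_den_pos {eig : Fin N → ℝ} {U : Matrix (Fin N) (Fin N) ℝ} {A : Finset (Fin N → Bool)}
    (hA : A.Nonempty) (V : (Fin N → Bool) → ℝ) :
    0 < ∑ σ ∈ A, Real.exp (Mag.qd eig U σ + V σ) :=
  Finset.sum_pos (fun _ _ => Real.exp_pos _) hA

theorem gib_mono {eig : Fin N → ℝ} {U : Matrix (Fin N) (Fin N) ℝ} {A : Finset (Fin N → Bool)}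
    (hA : A.Nonempty) (V : (Fin N → Bool) → ℝ) {f g : (Fin N → Bool) → ℝ} (h : ∀ σ, f σ ≤ g σ) :
    gib eig U A V f ≤ gib eig U A V g := by
  unfold gib
  refine div_le_div_of_nonneg_right ?_ (gib_den_pos hA V).le
  exact Finset.sum_le_sum fun σ _ => mul_le_mul_of_nonneg_left (h σ) (Real.exp_pos _).le

theorem gib_const {eig : Fin N → ℝ} {U : Matrix (Fin N) (Fin N) ℝ} {A : Finset (Fin N → Bool)}
    (hA : A.Nonempty) (V : (Fin N → Bool) → ℝ) (c : ℝ) : gib eig U A V (fun _ => c) = c := by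
  unfold gib
  rw [← Finset.sum_mul, mul_div_assoc, mul_comm]
  have := (gib_den_pos (eig := eig) (U := U) hA V).ne'
  field_simp

theorem gib_sum {eig : Fin N → ℝ} {U : Matrix (Fin N) (Fin N) ℝ} {A : Finset (Fin N → Bool)}
    (V : (Fin N → Bool) → ℝ) {ι : Type*} (s : Finset ι) (f : ι → (Fin N → Bool) → ℝ) :
    gib eig U A V (fun σ => ∑ i ∈ s, f i σ) = ∑ i ∈ s, gib eig U A V (f i) := by
  unfold gib
  rw [← Finset.sum_div]
  congr 1
  simp only [Finset.mul_sum]
  rw [Finset.sum_comm]

theorem gib_smul {eig : Fin N → ℝ} {U : Matrix (Fin N) (Fin N) ℝ} {A : Finset (Fin N → Bool)}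
    (V : (Fin N → Bool) → ℝ) (c : ℝ) (f : (Fin N → Bool) → ℝ) :
    gib eig U A V (fun σ => c * f σ) = c * gib eig U A V f := by
  unfold gib
  rw [← mul_div_assoc]
  congr 1
  rw [Finset.mul_sum]
  exact Finset.sum_congr rfl fun σ _ => by ring

/-- Jensen for the change of the spectrum. -/
theorem log_ZG_ge {eig eig' : Fin N → ℝ} {U : Matrix (Fin N) (Fin N) ℝ}
    {A : Finset (Fin N → Bool)} (hA : A.Nonempty) (V : (Fin N → Bool) → ℝ) :
    Real.log (Mag.ZG eig U A V) + gib eig U A V (fun σ => Mag.qd eig' U σ - Mag.qd eig U σ) ≤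
      Real.log (Mag.ZG eig' U A V) := by
  set Z := ∑ σ ∈ A, Real.exp (Mag.qd eig U σ + V σ) with hZ
  have hZ0 : 0 < Z := gib_den_pos hA V
  set D : (Fin N → Bool) → ℝ := fun σ => Mag.qd eig' U σ - Mag.qd eig U σ with hD
  have h1 : Real.exp (gib eig U A V D) ≤
      ∑ σ ∈ A, (Real.exp (Mag.qd eig U σ + V σ) / Z) * Real.exp (D σ) := by
    have h2 : gib eig U A V D = ∑ σ ∈ A, (Real.exp (Mag.qd eig U σ + V σ) / Z) • D σ := by
      unfold gib
      rw [Finset.sum_div]
      exact Finset.sum_congr rfl fun σ _ => by rw [smul_eq_mul]; ring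
    rw [h2]
    refine (convexOn_exp.map_sum_le (fun σ _ => by positivity) ?_ (fun σ _ => Set.mem_univ _))
    rw [← Finset.sum_div, div_self hZ0.ne']
  have h3 : ∑ σ ∈ A, (Real.exp (Mag.qd eig U σ + V σ) / Z) * Real.exp (D σ) =
      (∑ σ ∈ A, Real.exp (Mag.qd eig' U σ + V σ)) / Z := by
    rw [Finset.sum_div]
    refine Finset.sum_congr rfl fun σ _ => ?_
    rw [div_mul_eq_mul_div, ← Real.exp_add]
    congr 2
    simp only [hD]; ring
  rw [h3] at h1
  have h4 := Real.log_le_log (Real.exp_pos _) h1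
  have hZ'0 : 0 < ∑ σ ∈ A, Real.exp (Mag.qd eig' U σ + V σ) := gib_den_pos hA V
  rw [Real.log_exp, Real.log_div hZ'0.ne' hZ0.ne'] at h4
  unfold Mag.ZG
  rw [Real.log_mul (by positivity) hZ0.ne', Real.log_mul (by positivity) hZ'0.ne']
  linarith

/-! ### Permutations of the rows -/

/-- permutation matrix: `(prm π * U)_i = U_{π i}` -/
def prm (π : Equiv.Perm (Fin N)) : Matrix (Fin N) (Fin N) ℝ := fun i j => if π i = j then 1 else 0

theorem prm_mem (π : Equiv.Perm (Fin N)) : prm π ∈ Matrix.orthogonalGroup (Fin N) ℝ := by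
  rw [Matrix.mem_orthogonalGroup_iff]
  ext i j
  show ∑ k, (if π i = k then (1:ℝ) else 0) * (if π j = k then 1 else 0) = _
  rw [Matrix.one_apply, Finset.sum_eq_single (π i)]
  · by_cases h : i = j
    · subst h; simp
    · rw [if_pos rfl, if_neg (fun h' => h (π.injective h').symm), if_neg h]; simp
  · intro k _ hk; rw [if_neg (Ne.symm hk), zero_mul]
  · intro h; exact absurd (Finset.mem_univ _) h

theorem lmul_prm (π : Equiv.Perm (Fin N)) (U : Mat (Fin N)) (i j : Fin N) :
    lmul (prm π) U i j = U (π i) j := by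
  rw [Haar.lmul_apply]
  simp [prm]

theorem mulVec_prm (π : Equiv.Perm (Fin N)) (U : Mat (Fin N)) (s : Fin N → ℝ) (i : Fin N) :
    (Matrix.of (lmul (prm π) U)).mulVec s i = (Matrix.of U).mulVec s (π i) := by
  unfold Matrix.mulVec dotProduct
  refine Finset.sum_congr rfl fun j _ => ?_
  show lmul (prm π) U i j * s j = U (π i) j * s j
  rw [lmul_prm]

theorem qd_prm (π : Equiv.Perm (Fin N)) (eig : Fin N → ℝ) (U : Mat (Fin N)) (σ : Fin N → Bool) :
    Mag.qd (fun i => eig (π i)) (Matrix.of (lmul (prm π) U)) σ = Mag.qd eig (Matrix.of U) σ := by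
  unfold Mag.qd
  congr 1
  simp only [mulVec_prm]
  exact Equiv.sum_comp π (fun i => eig i * ((Matrix.of U).mulVec (spinVec σ) i) ^ 2)

variable {μ : Measure (Mat (Fin N))} [IsProbabilityMeasure μ] (hμ : RHaar μ)

/-- expected (unnormalised) free energy -/
def EL (μ : Measure (Mat (Fin N))) (eig : Fin N → ℝ) (A : Finset (Fin N → Bool))
    (V : (Fin N → Bool) → ℝ) : ℝ :=
  ∫ U, Real.log (Mag.ZG eig (Matrix.of U) A V) ∂μ

omit [IsProbabilityMeasure μ] in
theorem measurable_logZG (eig : Fin N → ℝ) (A : Finset (Fin N → Bool))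
    (V : (Fin N → Bool) → ℝ) :
    Measurable (fun U : Mat (Fin N) => Real.log (Mag.ZG eig (Matrix.of U) A V)) := by
  unfold Mag.ZG Mag.qd
  refine Real.measurable_log.comp (measurable_const.mul ?_)
  refine Finset.measurable_sum _ fun σ _ => ?_
  refine Real.measurable_exp.comp (Measurable.add_const (measurable_const.mul ?_) _)
  refine Finset.measurable_sum _ fun i _ => measurable_const.mul ?_
  have : Measurable (fun U : Mat (Fin N) => (Matrix.of U).mulVec (spinVec σ) i) := by
    unfold Matrix.mulVec dotProduct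
    refine Finset.measurable_sum _ fun j _ => Measurable.mul_const ?_ _
    exact (measurable_pi_apply j).comp (measurable_pi_apply i)
  exact this.pow_const 2

theorem logZG_eq (hN : 0 < N) (eig : Fin N → ℝ) (A : Finset (Fin N → Bool))
    (V : (Fin N → Bool) → ℝ) (U : Matrix (Fin N) (Fin N) ℝ) :
    Real.log (Mag.ZG eig U A V) = N * Mag.pressG eig U A V := by
  have hN' : (N:ℝ) ≠ 0 := by exact_mod_cast hN.ne'
  unfold Mag.pressG
  field_simp

include hμ in
theorem integrable_logZG (hN : 0 < N) (eig : Fin N → ℝ) {A : Finset (Fin N → Bool)}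
    (hA : A.Nonempty) (V : (Fin N → Bool) → ℝ) :
    Integrable (fun U : Mat (Fin N) => Real.log (Mag.ZG eig (Matrix.of U) A V)) μ := by
  have h := Mag.integrable_pressG μ eig measurable_id hμ.mem hA V
  have h2 := h.const_mul (N : ℝ)
  refine h2.congr (Filter.Eventually.of_forall fun U => ?_)
  exact (logZG_eq hN eig A V (Matrix.of U)).symm

include hμ in
/-- invariance under permutations of the spectrum -/
theorem EL_perm (eig : Fin N → ℝ) (A : Finset (Fin N → Bool))
    (V : (Fin N → Bool) → ℝ) (π : Equiv.Perm (Fin N)) :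
    EL μ (fun i => eig (π i)) A V = EL μ eig A V := by
  unfold EL
  rw [← hμ.integral_lmul (prm_mem π) _ (measurable_logZG _ A V).aestronglyMeasurable]
  refine integral_congr_ae (Filter.Eventually.of_forall fun U => ?_)
  show Real.log (Mag.ZG (fun i => eig (π i)) (Matrix.of (lmul (prm π) U)) A V) = _
  unfold Mag.ZG
  simp only [qd_prm]

omit [IsProbabilityMeasure μ] in
theorem measurable_gib (eig : Fin N → ℝ) (A : Finset (Fin N → Bool))
    (V : (Fin N → Bool) → ℝ) (i : Fin N) :
    Measurable (fun U : Mat (Fin N) =>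
      gib eig (Matrix.of U) A V (fun σ => ((Matrix.of U).mulVec (spinVec σ) i) ^ 2)) := by
  have hx : ∀ (σ : Fin N → Bool) (i : Fin N), Measurable
      (fun U : Mat (Fin N) => ((Matrix.of U).mulVec (spinVec σ) i) ^ 2) := by
    intro σ i
    have : Measurable (fun U : Mat (Fin N) => (Matrix.of U).mulVec (spinVec σ) i) := by
      unfold Matrix.mulVec dotProduct
      refine Finset.measurable_sum _ fun j _ => Measurable.mul_const ?_ _
      exact (measurable_pi_apply j).comp (measurable_pi_apply i)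
    exact this.pow_const 2
  have hw : ∀ σ : Fin N → Bool, Measurable
      (fun U : Mat (Fin N) => Real.exp (Mag.qd eig (Matrix.of U) σ + V σ)) := by
    intro σ
    unfold Mag.qd
    refine Real.measurable_exp.comp (Measurable.add_const (measurable_const.mul ?_) _)
    exact Finset.measurable_sum _ fun i _ => measurable_const.mul (hx σ i)
  unfold gib
  exact (Finset.measurable_sum _ fun σ _ => (hw σ).mul (hx σ i)).div
    (Finset.measurable_sum _ fun σ _ => hw σ)

theorem gib_sq_mem {eig : Fin N → ℝ} {A : Finset (Fin N → Bool)} (hA : A.Nonempty)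
    (V : (Fin N → Bool) → ℝ) {U : Mat (Fin N)}
    (hU : Matrix.of U ∈ Matrix.orthogonalGroup (Fin N) ℝ) (i : Fin N) :
    0 ≤ gib eig (Matrix.of U) A V (fun σ => ((Matrix.of U).mulVec (spinVec σ) i) ^ 2) ∧
    gib eig (Matrix.of U) A V (fun σ => ((Matrix.of U).mulVec (spinVec σ) i) ^ 2) ≤ N := by
  constructor
  · rw [← gib_const (eig := eig) (U := Matrix.of U) hA V 0]
    exact gib_mono hA V fun σ => sq_nonneg _
  · rw [← gib_const (eig := eig) (U := Matrix.of U) hA V N]
    refine gib_mono hA V fun σ => ?_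
    have h1 := sq_sum_mulVec hU (spinVec σ)
    rw [Mag.spin_sq_sum] at h1
    rw [← h1]
    exact Finset.single_le_sum (f := fun i => ((Matrix.of U).mulVec (spinVec σ) i) ^ 2)
      (fun j _ => sq_nonneg _) (Finset.mem_univ i)

include hμ in
theorem integrable_gib (eig : Fin N → ℝ) {A : Finset (Fin N → Bool)} (hA : A.Nonempty)
    (V : (Fin N → Bool) → ℝ) (i : Fin N) :
    Integrable (fun U : Mat (Fin N) =>
      gib eig (Matrix.of U) A V (fun σ => ((Matrix.of U).mulVec (spinVec σ) i) ^ 2)) μ := by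
  refine Integrable.of_bound (measurable_gib eig A V i).aestronglyMeasurable N ?_
  filter_upwards [hμ.mem] with U hU
  have h := gib_sq_mem (eig := eig) hA V hU i
  rw [Real.norm_eq_abs, abs_of_nonneg h.1]
  exact h.2

include hμ in
/-- two rows with the same eigenvalue have the same second moment -/
theorem int_gib_swap (eig : Fin N → ℝ) (A : Finset (Fin N → Bool))
    (V : (Fin N → Bool) → ℝ) {i j : Fin N} (hij : eig i = eig j) :
    ∫ U, gib eig (Matrix.of U) A V (fun σ => ((Matrix.of U).mulVec (spinVec σ) i) ^ 2) ∂μ =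
      ∫ U, gib eig (Matrix.of U) A V (fun σ => ((Matrix.of U).mulVec (spinVec σ) j) ^ 2) ∂μ := by
  rw [← hμ.integral_lmul (prm_mem (Equiv.swap i j)) _
    (measurable_gib eig A V i).aestronglyMeasurable]
  refine integral_congr_ae (Filter.Eventually.of_forall fun U => ?_)
  show gib eig (Matrix.of (lmul (prm (Equiv.swap i j)) U)) A V
    (fun σ => ((Matrix.of (lmul (prm (Equiv.swap i j)) U)).mulVec (spinVec σ) i) ^ 2) = _
  have he : (fun a => eig (Equiv.swap i j a)) = eig := by
    funext a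
    by_cases hi : a = i
    · subst hi; rw [Equiv.swap_apply_left, hij]
    · by_cases hj : a = j
      · subst hj; rw [Equiv.swap_apply_right, hij]
      · rw [Equiv.swap_apply_of_ne_of_ne hi hj]
  have hq : ∀ σ, Mag.qd eig (Matrix.of (lmul (prm (Equiv.swap i j)) U)) σ =
      Mag.qd eig (Matrix.of U) σ := by
    intro σ
    rw [← qd_prm (Equiv.swap i j) eig U σ, he]
  unfold gib
  simp only [hq, mulVec_prm, Equiv.swap_apply_left]

include hμ in
/-- second moment of a row coordinate -/
theorem int_gib_le (v : κ → ℝ) (lab : Fin N → κ) {A : Finset (Fin N → Bool)} (hA : A.Nonempty)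
    (V : (Fin N → Bool) → ℝ) (i : Fin N) :
    ∫ U, gib (fun i => v (lab i)) (Matrix.of U) A V
      (fun σ => ((Matrix.of U).mulVec (spinVec σ) i) ^ 2) ∂μ ≤ N / cnt lab (lab i) := by
  have hc : (0:ℝ) < cnt lab (lab i) := by
    have : 0 < cnt lab (lab i) := by
      unfold cnt
      exact Finset.card_pos.2 ⟨i, by simp⟩
    exact_mod_cast this
  rw [le_div_iff₀ hc, mul_comm]
  have h1 : (cnt lab (lab i) : ℝ) * ∫ U, gib (fun i => v (lab i)) (Matrix.of U) A V
      (fun σ => ((Matrix.of U).mulVec (spinVec σ) i) ^ 2) ∂μ =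
      ∑ j with lab j = lab i, ∫ U, gib (fun i => v (lab i)) (Matrix.of U) A V
      (fun σ => ((Matrix.of U).mulVec (spinVec σ) j) ^ 2) ∂μ := by
    have h2 : ∀ j ∈ univ.filter (fun j => lab j = lab i),
        ∫ U, gib (fun i => v (lab i)) (Matrix.of U) A V
          (fun σ => ((Matrix.of U).mulVec (spinVec σ) j) ^ 2) ∂μ =
        ∫ U, gib (fun i => v (lab i)) (Matrix.of U) A V
          (fun σ => ((Matrix.of U).mulVec (spinVec σ) i) ^ 2) ∂μ := by
      intro j hj
      simp only [mem_filter, mem_univ, true_and] at hj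
      exact int_gib_swap hμ (fun i => v (lab i)) A V (by show v (lab j) = v (lab i); rw [hj])
    rw [Finset.sum_congr rfl h2, Finset.sum_const, nsmul_eq_mul]
    rfl
  rw [h1]
  have h3 : ∑ j with lab j = lab i, ∫ U, gib (fun i => v (lab i)) (Matrix.of U) A V
      (fun σ => ((Matrix.of U).mulVec (spinVec σ) j) ^ 2) ∂μ ≤
      ∑ j, ∫ U, gib (fun i => v (lab i)) (Matrix.of U) A V
      (fun σ => ((Matrix.of U).mulVec (spinVec σ) j) ^ 2) ∂μ := by
    refine Finset.sum_le_sum_of_subset_of_nonneg (Finset.filter_subset _ _) fun j _ _ => ?_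
    refine integral_nonneg_of_ae ?_
    filter_upwards [hμ.mem] with U hU
    exact (gib_sq_mem hA V hU j).1
  refine h3.trans ?_
  rw [← integral_finsetSum _ fun j _ => integrable_gib hμ _ hA V j]
  have h4 : ∫ U, ∑ j, gib (fun i => v (lab i)) (Matrix.of U) A V
      (fun σ => ((Matrix.of U).mulVec (spinVec σ) j) ^ 2) ∂μ = ∫ _U, (N:ℝ) ∂μ := by
    refine integral_congr_ae ?_
    filter_upwards [hμ.mem] with U hU
    rw [← gib_sum]
    have h5 : (fun σ => ∑ j, ((Matrix.of U).mulVec (spinVec σ) j) ^ 2) = fun _ => (N:ℝ) := by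
      funext σ
      rw [sq_sum_mulVec hU (spinVec σ), Mag.spin_sq_sum]
    rw [h5, gib_const hA]
  rw [h4]
  simp

include hμ in
/-- **One-sided Lipschitz bound in the labels.** -/
theorem EL_lip (hN : 0 < N) (v : κ → ℝ) {Λ : ℝ} (hv : ∀ k, |v k| ≤ Λ) (lab lab' : Fin N → κ)
    {A : Finset (Fin N → Bool)} (hA : A.Nonempty) (V : (Fin N → Bool) → ℝ) :
    EL μ (fun i => v (lab i)) A V - Λ * ∑ i with lab i ≠ lab' i, (N:ℝ) / cnt lab (lab i) ≤
      EL μ (fun i => v (lab' i)) A V := by
  have hpt : ∀ U : Mat (Fin N), Real.log (Mag.ZG (fun i => v (lab i)) (Matrix.of U) A V) -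
      Λ * ∑ i with lab i ≠ lab' i, gib (fun i => v (lab i)) (Matrix.of U) A V
        (fun σ => ((Matrix.of U).mulVec (spinVec σ) i) ^ 2) ≤
      Real.log (Mag.ZG (fun i => v (lab' i)) (Matrix.of U) A V) := by
    intro U
    have h1 := log_ZG_ge (eig := fun i => v (lab i)) (eig' := fun i => v (lab' i))
      (U := Matrix.of U) hA V
    have h2 : gib (fun i => v (lab i)) (Matrix.of U) A V
        (fun σ => (-Λ) * ∑ i with lab i ≠ lab' i, ((Matrix.of U).mulVec (spinVec σ) i) ^ 2) ≤
        gib (fun i => v (lab i)) (Matrix.of U) A V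
        (fun σ => Mag.qd (fun i => v (lab' i)) (Matrix.of U) σ -
          Mag.qd (fun i => v (lab i)) (Matrix.of U) σ) := by
      refine gib_mono hA V fun σ => ?_
      unfold Mag.qd
      rw [← mul_sub, ← Finset.sum_sub_distrib, Finset.mul_sum, Finset.mul_sum,
        Finset.sum_filter]
      refine Finset.sum_le_sum fun i _ => ?_
      split_ifs with h
      · have h3 := abs_le.1 (hv (lab i))
        have h4 := abs_le.1 (hv (lab' i))
        nlinarith [sq_nonneg ((Matrix.of U).mulVec (spinVec σ) i)]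
      · rw [not_not] at h
        simp only [h]
        rw [sub_self, mul_zero]
    rw [gib_smul, gib_sum] at h2
    linarith
  have hint : Integrable (fun U : Mat (Fin N) =>
      Real.log (Mag.ZG (fun i => v (lab i)) (Matrix.of U) A V) -
      Λ * ∑ i with lab i ≠ lab' i, gib (fun i => v (lab i)) (Matrix.of U) A V
        (fun σ => ((Matrix.of U).mulVec (spinVec σ) i) ^ 2)) μ :=
    (integrable_logZG hμ hN _ hA V).sub
      ((integrable_finsetSum _ fun i _ => integrable_gib hμ _ hA V i).const_mul Λ)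
  have h1 := integral_mono hint (integrable_logZG hμ hN (fun i => v (lab' i)) hA V) hpt
  rw [integral_sub (integrable_logZG hμ hN _ hA V)
    ((integrable_finsetSum _ fun i _ => integrable_gib hμ _ hA V i).const_mul Λ),
    integral_const_mul, integral_finsetSum _ fun i _ => integrable_gib hμ _ hA V i] at h1
  have hΛ : 0 ≤ Λ ∨ IsEmpty (Fin N) := by
    left; exact (abs_nonneg _).trans (hv (lab ⟨0, hN⟩))
  have hΛ0 : 0 ≤ Λ := (abs_nonneg _).trans (hv (lab ⟨0, hN⟩))
  have h2 : Λ * ∑ i with lab i ≠ lab' i, ∫ U, gib (fun i => v (lab i)) (Matrix.of U) A V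
        (fun σ => ((Matrix.of U).mulVec (spinVec σ) i) ^ 2) ∂μ ≤
      Λ * ∑ i with lab i ≠ lab' i, (N:ℝ) / cnt lab (lab i) :=
    mul_le_mul_of_nonneg_left
      (Finset.sum_le_sum fun i _ => int_gib_le hμ v lab hA V i) hΛ0
  unfold EL
  linarith

include hμ in
/-- crude bound -/
theorem EL_crude (hN : 0 < N) (v : κ → ℝ) {Λ : ℝ} (hv : ∀ k, |v k| ≤ Λ) (lab lab' : Fin N → κ)
    {A : Finset (Fin N → Bool)} (hA : A.Nonempty) (V : (Fin N → Bool) → ℝ) :
    EL μ (fun i => v (lab i)) A V - Λ * N ≤ EL μ (fun i => v (lab' i)) A V := by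
  have hΛ0 : 0 ≤ Λ := (abs_nonneg _).trans (hv (lab ⟨0, hN⟩))
  have hpt : ∀ᵐ U ∂μ, Real.log (Mag.ZG (fun i => v (lab i)) (Matrix.of U) A V) - Λ * N ≤
      Real.log (Mag.ZG (fun i => v (lab' i)) (Matrix.of U) A V) := by
    filter_upwards [hμ.mem] with U hU
    have h1 := log_ZG_ge (eig := fun i => v (lab i)) (eig' := fun i => v (lab' i))
      (U := Matrix.of U) hA V
    have h2 : gib (fun i => v (lab i)) (Matrix.of U) A V (fun _ => -(Λ * N)) ≤
        gib (fun i => v (lab i)) (Matrix.of U) A V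
        (fun σ => Mag.qd (fun i => v (lab' i)) (Matrix.of U) σ -
          Mag.qd (fun i => v (lab i)) (Matrix.of U) σ) := by
      refine gib_mono hA V fun σ => ?_
      have h3 := abs_le.1 (Mag.abs_qd_le (fun i => hv (lab i)) hU σ)
      have h4 := abs_le.1 (Mag.abs_qd_le (fun i => hv (lab' i)) hU σ)
      linarith [h3.2, h4.1]
    rw [gib_const hA] at h2
    linarith
  have hi : Integrable (fun U : Mat (Fin N) =>
      Real.log (Mag.ZG (fun i => v (lab i)) (Matrix.of U) A V) - Λ * N) μ :=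
    (integrable_logZG hμ hN _ hA V).sub (integrable_const _)
  have h1 := integral_mono_ae hi (integrable_logZG hμ hN (fun i => v (lab' i)) hA V) hpt
  rw [integral_sub (integrable_logZG hμ hN _ hA V) (integrable_const _)] at h1
  simpa [EL] using h1

include hμ in
/-- **Transfer from i.i.d. labels to a given label vector**, for the real free energy. -/
theorem EL_transfer [Fintype κ] {α : κ → ℝ} (hα : ∀ k, 0 ≤ α k) (hs : ∑ k, α k = 1) (hN : 0 < N)
    (v : κ → ℝ) {Λ : ℝ} (hv : ∀ k, |v k| ≤ Λ) {a δ : ℝ} (ha : ∀ k, a ≤ α k) (ha0 : 0 < a)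
    (hδ : 0 < δ) (hδa : δ ≤ a / 2) {A : Finset (Fin N → Bool)} (hA : A.Nonempty)
    (V : (Fin N → Bool) → ℝ) {labE : Fin N → κ} (hE : Good α δ labE) :
    Psi α (fun lab => EL μ (fun i => v (lab i)) A V) -
      N * (Λ * (2 / a) * (2 * δ * Fintype.card κ)) - Λ * ((Fintype.card κ : ℝ) / δ ^ 2) ≤
      EL μ (fun i => v (labE i)) A V := by
  have hΛ0 : 0 ≤ Λ := (abs_nonneg _).trans (hv (labE ⟨0, hN⟩))
  refine transfer (F := fun lab => EL μ (fun i => v (lab i)) A V) hα hs hN ha ha0 hδ hδa hΛ0 hΛ0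
    (fun σ lab => ?_) (fun lab lab' => EL_lip hμ hN v hv lab lab' hA V)
    (fun lab lab' => EL_crude hμ hN v hv lab lab' hA V) hE
  exact EL_perm hμ (fun i => v (lab i)) A V σ

end

end Crest.Agent.R164.LabAvg
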