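import Crest.Agent.R164.Fin248
import Crest.Agent.R164.Atomic3

/-!
Row 164 (helper552): H248 from the two bounds (UB), (LB) for finite spectra.
-/

set_option autoImplicit false

namespace Crest.Agent.R164.Mag

open MeasureTheory Set Filter Topology
open Crest.ProbabilityR.InvariantGlass
open Crest.Agent.R164.Atomic

/-- **H248 (all of S0248) from (UB) and (LB) for spectra with finitely many distinct
eigenvalues of positive limiting proportion.** -/
theorem h248_of_bounds {Ω : Type} [MeasurableSpace Ω] {P : Measure Ω} [IsProbabilityMeasure P]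
    {Us : (N : ℕ) → Ω → (Fin N → Fin N → ℝ)} (hmeas : ∀ N, Measurable (Us N))
    (horth : ∀ N, ∀ᵐ ω ∂P, Matrix.of (Us N ω) ∈ Matrix.orthogonalGroup (Fin N) ℝ)
    (hHaar : ∀ (N : ℕ) (O : Matrix (Fin N) (Fin N) ℝ), O ∈ Matrix.orthogonalGroup (Fin N) ℝ →
      P.map (fun ω => fun i j => (Matrix.of (Us N ω) * O) i j) = P.map (Us N))
    {μ : Measure ℝ} [IsProbabilityMeasure μ] {lo hi : ℝ}
    (h : μ (Icc lo hi) = 1)
    (hedge : ∀ ε : ℝ, 0 < ε → 0 < μ (Icc lo (lo + ε)) ∧ 0 < μ (Icc (hi - ε) hi))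
    (eig : (N : ℕ) → Fin N → ℝ)
    (hweak : ∀ φ : ℝ → ℝ, Continuous φ → (∃ C : ℝ, ∀ x, |φ x| ≤ C) →
      Tendsto (fun N : ℕ => (1 / (N : ℝ)) * ∑ i : Fin N, φ (eig N i)) atTop (𝓝 (∫ x, φ x ∂μ)))
    (hext : ∀ ε : ℝ, 0 < ε → ∀ᶠ N : ℕ in atTop, ∀ i : Fin N, lo - ε ≤ eig N i ∧ eig N i ≤ hi + ε)
    (hUB : ∀ (K : ℕ) (w val : Fin (K + 1) → ℝ), StrictMono val → (∀ k, 0 < w k) →
      ∑ k, w k = 1 → ∀ (labE : (N : ℕ) → Fin N → Fin (K + 1)),
      (∀ k, Tendsto (fun N : ℕ =>
        ((Finset.univ.filter fun i : Fin N => labE N i = k).card : ℝ) / (N : ℝ)) atTop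
          (𝓝 (w k))) →
      UB (atomic w val) (val (Fin.last K)) (fun N i => val (labE N i)) P Us)
    (hLB : ∀ (K : ℕ) (w val : Fin (K + 1) → ℝ), StrictMono val → (∀ k, 0 < w k) →
      ∑ k, w k = 1 → ∀ (labE : (N : ℕ) → Fin N → Fin (K + 1)),
      (∀ k, Tendsto (fun N : ℕ =>
        ((Finset.univ.filter fun i : Fin N => labE N i = k).card : ℝ) / (N : ℝ)) atTop
          (𝓝 (w k))) →
      LB (atomic w val) (val (Fin.last K)) (fun N i => val (labE N i)) P Us) :
    H248 μ hi eig P Us := by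
  refine h248_of_atomic hmeas horth h hedge eig hweak hext ?_
  intro K w val hval hw hs labE hlab
  set Λ := ∑ k, |val k| with hΛ
  have hb : ∀ (N : ℕ) (i : Fin N), |val (labE N i)| ≤ Λ := fun N i =>
    Finset.single_le_sum (f := fun k => |val k|) (fun _ _ => abs_nonneg _) (Finset.mem_univ _)
  have hE := e248_of (μ := atomic w val) (lamPlus := val (Fin.last K))
    (eig := fun N i => val (labE N i)) (P := P) (Us := Us)
    (Λ := Λ) (Eventually.of_forall hb) hmeas horth hHaar (hUB K w val hval hw hs labE hlab)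
    (hLB K w val hval hw hs labE hlab)
  refine h248_of_e248 (val 0) ?_ hmeas horth hHaar hE
  intro ε hε
  refine Eventually.of_forall fun N i => ?_
  have h1 := hval.monotone (Fin.zero_le (labE N i))
  have h2 := hval.monotone (Fin.le_last (labE N i))
  constructor <;> linarith

end Crest.Agent.R164.Mag
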