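import Crest.Agent.R164.LPen
import Crest.Agent.R164.LabAvg2
import Crest.Agent.R164.Top248

/-!
Row 164 (helper552): (LB) from its penalised version, stated for the Haar laws.
-/

set_option autoImplicit false

namespace Crest.Agent.R164.Mag

open MeasureTheory Set Filter Topology
open Crest.ProbabilityR.InvariantGlass
open Crest.Agent.R164.Haar

section glue

variable {Ω : Type} [MeasurableSpace Ω] {P : Measure Ω} [IsProbabilityMeasure P]
  {N : ℕ} {W : Ω → (Fin N → Fin N → ℝ)} (hW : Measurable W)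
  (horth : ∀ᵐ ω ∂P, Matrix.of (W ω) ∈ Matrix.orthogonalGroup (Fin N) ℝ)
  (hHaar : ∀ O : Matrix (Fin N) (Fin N) ℝ, O ∈ Matrix.orthogonalGroup (Fin N) ℝ →
      P.map (fun ω => fun i j => (Matrix.of (W ω) * O) i j) = P.map W)
include hW horth hHaar

/-- the law of `W` satisfies `RHaar` -/
theorem rHaar_map : RHaar (P.map W) := by
  have h := AsConc.oInv_of_haar hW horth hHaar
  refine ⟨h.mem, fun O hO => ?_⟩
  have := h.inv O hO
  exact this

omit horth hHaar [IsProbabilityMeasure P] in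
theorem int_pressG_map (eig : Fin N → ℝ) (A : Finset (Fin N → Bool)) (V : (Fin N → Bool) → ℝ) :
    ∫ ω, pressG eig (Matrix.of (W ω)) A V ∂P =
      ∫ U, pressG eig (Matrix.of U) A V ∂(P.map W) := by
  have hmeas : Measurable (fun U : Fin N → Fin N → ℝ => pressG eig (Matrix.of U) A V) :=
    measurable_pressG (Ω := Fin N → Fin N → ℝ) eig measurable_id A V
  rw [integral_map hW.aemeasurable hmeas.aestronglyMeasurable]

end glue

/-- `∫ pressG = N⁻¹ * EL` -/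
theorem int_pressG_eq_EL {N : ℕ} (μ : Measure (Mat (Fin N))) (eig : Fin N → ℝ)
    (A : Finset (Fin N → Bool)) (V : (Fin N → Bool) → ℝ) :
    ∫ U, pressG eig (Matrix.of U) A V ∂μ = (1 / (N : ℝ)) * LabAvg.EL μ eig A V := by
  unfold LabAvg.EL pressG
  rw [integral_const_mul]

section defs

variable {Ω : Type} [MeasurableSpace Ω] (μ : Measure ℝ) (lamPlus : ℝ)
  (eig : (N : ℕ) → Fin N → ℝ) (P : Measure Ω) (Us : (N : ℕ) → Ω → (Fin N → Fin N → ℝ))

/-- **(LBP)** the penalised form of (LB), for any sequence of right-invariant laws on the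
orthogonal groups: for large `N` SOME penalty strength `K ≥ 0` gives the bound. -/
def LBP (nu : (N : ℕ) → Measure (Mat (Fin N))) : Prop :=
  ∀ (J : ℕ) (cval : Fin J → ℝ) (γ : Fin J → ℚ), (∀ j, 0 < γ j) → ∑ j, γ j = 1 →
    ∀ lab : (N : ℕ) → Fin N → Fin J,
    (∀ j : Fin J, Tendsto
      (fun N : ℕ => ((Finset.univ.filter fun r : Fin N => lab N r = j).card : ℝ) / (N : ℝ))
      atTop (nhds ((γ j : ℚ) : ℝ))) →
    ∀ t : Fin J → ℝ, (∀ j, |t j| < 1) → ∀ ε : ℝ, 0 < ε → ∀ r : ℝ,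
    (∀ m' : Fin J → ℝ, (∀ j, |m' j - t j| ≤ ε) → (∀ j, t j = 0 → m' j = 0) →
      (r : EReal) ≤ ((∑ j : Fin J, ((γ j : ℚ) : ℝ) * cval j * m' j : ℝ) : EReal) +
        VR μ lamPlus γ m') →
    ∀ᶠ N : ℕ in atTop, ∃ K : ℝ, 0 ≤ K ∧
      r - ε ≤ ∫ U, pressG (eig N) (Matrix.of U) Finset.univ (PEN cval t K (lab N)) ∂(nu N)

end defs

section main

variable {Ω : Type} [MeasurableSpace Ω] {μ : Measure ℝ} {lamPlus : ℝ}
  {eig : (N : ℕ) → Fin N → ℝ} {P : Measure Ω} [IsProbabilityMeasure P]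
  {Us : (N : ℕ) → Ω → (Fin N → Fin N → ℝ)}

theorem lb_of_lbp (hmeas : ∀ N, Measurable (Us N))
    (horth : ∀ N, ∀ᵐ ω ∂P, Matrix.of (Us N ω) ∈ Matrix.orthogonalGroup (Fin N) ℝ)
    (hHaar : ∀ (N : ℕ) (O : Matrix (Fin N) (Fin N) ℝ), O ∈ Matrix.orthogonalGroup (Fin N) ℝ →
      P.map (fun ω => fun i j => (Matrix.of (Us N ω) * O) i j) = P.map (Us N))
    (h : LBP μ lamPlus eig (fun N => P.map (Us N))) : LB μ lamPlus eig P Us := by
  intro J c γ hγ hs lab hlab t ht ε hε r hr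
  filter_upwards [h J c γ hγ hs lab hlab t ht ε hε r hr] with N hN
  obtain ⟨K, hK, h1⟩ := hN
  refine h1.trans ?_
  rw [← int_pressG_map (hmeas N)]
  exact press_ge_pen (hmeas N) (horth N) (hHaar N) (eig N) c t (lab N) hK

end main

/-- **H248 from (UB) and the penalised bound (LBP) for finite spectra.** -/
theorem h248_of_bounds' {Ω : Type} [MeasurableSpace Ω] {P : Measure Ω} [IsProbabilityMeasure P]
    {Us : (N : ℕ) → Ω → (Fin N → Fin N → ℝ)} (hmeas : ∀ N, Measurable (Us N))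
    (horth : ∀ N, ∀ᵐ ω ∂P, Matrix.of (Us N ω) ∈ Matrix.orthogonalGroup (Fin N) ℝ)
    (hHaar : ∀ (N : ℕ) (O : Matrix (Fin N) (Fin N) ℝ), O ∈ Matrix.orthogonalGroup (Fin N) ℝ →
      P.map (fun ω => fun i j => (Matrix.of (Us N ω) * O) i j) = P.map (Us N))
    {μ : Measure ℝ} [IsProbabilityMeasure μ] {lo hi : ℝ}
    (h : μ (Icc lo hi) = 1)
    (hedge : ∀ ε : ℝ, 0 < ε → 0 < μ (Icc lo (lo + ε)) ∧ 0 < μ (Icc (hi - ε) hi))
    (eig : (N : ℕ) → Fin N → ℝ)
    (hweak : ∀ φ : ℝ → ℝ, Continuous φ → (∃ C : ℝ, ∀ x, |φ x| ≤ C) →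
      Tendsto (fun N : ℕ => (1 / (N : ℝ)) * ∑ i : Fin N, φ (eig N i)) atTop (𝓝 (∫ x, φ x ∂μ)))
    (hext : ∀ ε : ℝ, 0 < ε → ∀ᶠ N : ℕ in atTop, ∀ i : Fin N, lo - ε ≤ eig N i ∧ eig N i ≤ hi + ε)
    (hUB : ∀ (K : ℕ) (w val : Fin (K + 1) → ℝ), StrictMono val → (∀ k, 0 < w k) →
      ∑ k, w k = 1 → ∀ (labE : (N : ℕ) → Fin N → Fin (K + 1)),
      (∀ k, Tendsto (fun N : ℕ =>
        ((Finset.univ.filter fun i : Fin N => labE N i = k).card : ℝ) / (N : ℝ)) atTop
          (𝓝 (w k))) →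
      UB (Atomic.atomic w val) (val (Fin.last K)) (fun N i => val (labE N i)) P Us)
    (hLB : ∀ (K : ℕ) (w val : Fin (K + 1) → ℝ), StrictMono val → (∀ k, 0 < w k) →
      ∑ k, w k = 1 → ∀ (labE : (N : ℕ) → Fin N → Fin (K + 1)),
      (∀ k, Tendsto (fun N : ℕ =>
        ((Finset.univ.filter fun i : Fin N => labE N i = k).card : ℝ) / (N : ℝ)) atTop
          (𝓝 (w k))) →
      ∀ nu : (N : ℕ) → Measure (Mat (Fin N)), (∀ N, IsProbabilityMeasure (nu N)) →
        (∀ N, RHaar (nu N)) →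
        LBP (Atomic.atomic w val) (val (Fin.last K)) (fun N i => val (labE N i)) nu) :
    H248 μ hi eig P Us := by
  refine h248_of_bounds hmeas horth hHaar h hedge eig hweak hext hUB ?_
  intro K w val hv hw hs labE hlab
  exact lb_of_lbp hmeas horth hHaar (hLB K w val hv hw hs labE hlab (fun N => P.map (Us N))
    (fun N => Measure.isProbabilityMeasure_map (hmeas N).aemeasurable)
    (fun N => rHaar_map (hmeas N) (horth N) (hHaar N)))

end Crest.Agent.R164.Mag
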