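import Crest.Agent.R164.LabTr
import Crest.Agent.R164.LPen2

/-!
Row 164 (helper362): the penalty `Mag.PEN` is an admissible family of extra weights for the
label transfer `LabTr`.
-/

set_option autoImplicit false

namespace Crest.Agent.R164.LabTr

open Finset MeasureTheory Filter Topology
open Crest.ProbabilityR.InvariantGlass
open Crest.Agent.R164.LabAvg
open Crest.Agent.R164.Haar (Mat RHaar lmul rmul)

noncomputable section

theorem rJ_perm {N J : ℕ} (lab : Fin N → Fin J) (π : Equiv.Perm (Fin N)) (j : Fin J) :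
    Mag.rJ (fun i => lab (π i)) j = Mag.rJ lab j := by
  have := cnt_perm lab π j
  unfold Mag.rJ
  unfold cnt at this
  rw [this]

theorem SJ_perm {N J : ℕ} (lab : Fin N → Fin J) (σ : Fin N → Bool) (π : Equiv.Perm (Fin N))
    (j : Fin J) : Mag.SJ (fun i => lab (π i)) (fun i => σ (π i)) j = Mag.SJ lab σ j := by
  unfold Mag.SJ
  rw [Finset.sum_filter, Finset.sum_filter]
  rw [← Equiv.sum_comp π (fun r => if lab r = j then spinVec σ r else 0)]
  rfl

theorem PEN_perm {N J : ℕ} (c t : Fin J → ℝ) (K : ℝ) (lab : Fin N → Fin J) (σ : Fin N → Bool)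
    (π : Equiv.Perm (Fin N)) :
    Mag.PEN c t K (fun i => lab (π i)) (fun i => σ (π i)) = Mag.PEN c t K lab σ := by
  unfold Mag.PEN
  simp only [rJ_perm, SJ_perm]

theorem abs_SJ_le_rJ {N J : ℕ} (lab : Fin N → Fin J) (σ : Fin N → Bool) (j : Fin J) :
    |Mag.SJ lab σ j| ≤ Mag.rJ lab j := by
  unfold Mag.SJ Mag.rJ
  refine (Finset.abs_sum_le_sum_abs _ _).trans ?_
  simp [abs_spinVec]

theorem rJ_diff {N J : ℕ} (lab lab' : Fin N → Fin J) (j : Fin J) :
    |Mag.rJ lab j - Mag.rJ lab' j| ≤ ((univ.filter fun i => lab i ≠ lab' i).card : ℝ) := by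
  unfold Mag.rJ
  rw [Finset.card_filter, Finset.card_filter, Finset.card_filter]
  push_cast
  rw [← Finset.sum_sub_distrib]
  refine (Finset.abs_sum_le_sum_abs _ _).trans (Finset.sum_le_sum fun i _ => ?_)
  by_cases h : lab i = lab' i
  · rw [h]; simp
  · rw [if_pos h]
    split_ifs <;> norm_num

theorem SJ_diff {N J : ℕ} (lab lab' : Fin N → Fin J) (σ : Fin N → Bool) (j : Fin J) :
    |Mag.SJ lab σ j - Mag.SJ lab' σ j| ≤ ((univ.filter fun i => lab i ≠ lab' i).card : ℝ) := by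
  unfold Mag.SJ
  rw [Finset.card_filter, Finset.sum_filter, Finset.sum_filter]
  push_cast
  rw [← Finset.sum_sub_distrib]
  refine (Finset.abs_sum_le_sum_abs _ _).trans (Finset.sum_le_sum fun i _ => ?_)
  by_cases h : lab i = lab' i
  · rw [h]; simp
  · rw [if_pos h]
    have := abs_spinVec σ i
    split_ifs <;> simp_all

theorem persp {r S r' S' t : ℝ} (h : |S| ≤ r) (h' : |S'| ≤ r') (ht : |t| ≤ 1) :
    |r * (S / r - t) ^ 2 - r' * (S' / r' - t) ^ 2| ≤ 8 * |r - r'| + 4 * |S - S'| := by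
  have hr : 0 ≤ r := (abs_nonneg _).trans h
  have hr' : 0 ≤ r' := (abs_nonneg _).trans h'
  have ht' := abs_le.1 ht
  have hb : ∀ u : ℝ, |u| ≤ 1 → (u - t) ^ 2 ≤ 4 := by
    intro u hu
    have := abs_le.1 hu
    nlinarith [this.1, this.2, ht'.1, ht'.2]
  rcases hr.eq_or_lt with h0 | h0
  · subst h0
    rcases hr'.eq_or_lt with h1 | h1
    · subst h1; simp
    · have hu' : |S' / r'| ≤ 1 := by
        rw [abs_div, abs_of_pos h1]; exact (div_le_one h1).2 h'
      have := hb _ hu'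
      rw [zero_mul, zero_sub, abs_neg, abs_of_nonneg (mul_nonneg hr' (sq_nonneg _)), zero_sub,
        abs_neg, abs_of_nonneg hr']
      nlinarith [abs_nonneg (S - S')]
  · have hu : |S / r| ≤ 1 := by
      rw [abs_div, abs_of_pos h0]; exact (div_le_one h0).2 h
    rcases hr'.eq_or_lt with h1 | h1
    · subst h1
      have := hb _ hu
      rw [zero_mul, sub_zero, abs_of_nonneg (mul_nonneg hr (sq_nonneg _)), sub_zero,
        abs_of_nonneg hr]
      nlinarith [abs_nonneg (S - S')]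
    · have hu' : |S' / r'| ≤ 1 := by
        rw [abs_div, abs_of_pos h1]; exact (div_le_one h1).2 h'
      set u := S / r with hudef
      set u' := S' / r' with hu'def
      have hS : S = r * u := by rw [hudef]; field_simp
      have hS' : S' = r' * u' := by rw [hu'def]; field_simp
      have e : r * (u - t) ^ 2 - r' * (u' - t) ^ 2 =
          (r - r') * (u - t) ^ 2 + ((r' - r) * u + (S - S')) * (u + u' - 2 * t) := by
        rw [hS, hS']; ring
      rw [e]
      refine (abs_add_le _ _).trans ?_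
      rw [abs_mul, abs_mul]
      have b1 : |(u - t) ^ 2| ≤ 4 := by rw [abs_of_nonneg (sq_nonneg _)]; exact hb u hu
      have b2 : |u + u' - 2 * t| ≤ 4 := by
        have h1 := abs_le.1 hu
        have h2 := abs_le.1 hu'
        rw [abs_le]; constructor <;> linarith [h1.1, h1.2, h2.1, h2.2, ht'.1, ht'.2]
      have b3 : |(r' - r) * u + (S - S')| ≤ |r - r'| + |S - S'| := by
        refine (abs_add_le _ _).trans ?_
        rw [abs_mul, abs_sub_comm r' r]
        have := mul_le_mul_of_nonneg_left hu (abs_nonneg (r - r'))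
        linarith
      have c1 := mul_le_mul_of_nonneg_left b1 (abs_nonneg (r - r'))
      have c2 : |(r' - r) * u + (S - S')| * |u + u' - 2 * t| ≤ (|r - r'| + |S - S'|) * 4 :=
        mul_le_mul b3 b2 (abs_nonneg _) (by positivity)
      linarith

theorem PEN_lip {N J : ℕ} (c : Fin J → ℝ) {t : Fin J → ℝ} (ht : ∀ j, |t j| ≤ 1) {K : ℝ}
    (hK : 0 ≤ K) (lab lab' : Fin N → Fin J) (σ : Fin N → Bool) :
    |Mag.PEN c t K lab σ - Mag.PEN c t K lab' σ| ≤
      (∑ j, |c j| + 12 * K * J) * ((univ.filter fun i => lab i ≠ lab' i).card : ℝ) := by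
  set D : ℝ := ((univ.filter fun i => lab i ≠ lab' i).card : ℝ) with hD
  have hD0 : 0 ≤ D := Nat.cast_nonneg _
  unfold Mag.PEN
  rw [← Finset.sum_sub_distrib]
  refine (Finset.abs_sum_le_sum_abs _ _).trans ?_
  have : ∀ j ∈ (univ : Finset (Fin J)), |(if t j = 0 then 0 else
      c j * Mag.SJ lab σ j - K * (Mag.rJ lab j * (Mag.SJ lab σ j / Mag.rJ lab j - t j) ^ 2)) -
      (if t j = 0 then 0 else
      c j * Mag.SJ lab' σ j - K * (Mag.rJ lab' j * (Mag.SJ lab' σ j / Mag.rJ lab' j - t j) ^ 2))| ≤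
      (|c j| + 12 * K) * D := by
    intro j _
    have h1 := SJ_diff lab lab' σ j
    have h2 := rJ_diff lab lab' j
    have h3 := persp (abs_SJ_le_rJ lab σ j) (abs_SJ_le_rJ lab' σ j) (ht j)
    rw [← hD] at h1 h2
    split_ifs
    · simp only [sub_self, abs_zero]; positivity
    · have e : c j * Mag.SJ lab σ j -
          K * (Mag.rJ lab j * (Mag.SJ lab σ j / Mag.rJ lab j - t j) ^ 2) -
          (c j * Mag.SJ lab' σ j -
          K * (Mag.rJ lab' j * (Mag.SJ lab' σ j / Mag.rJ lab' j - t j) ^ 2)) =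
          c j * (Mag.SJ lab σ j - Mag.SJ lab' σ j) -
          K * (Mag.rJ lab j * (Mag.SJ lab σ j / Mag.rJ lab j - t j) ^ 2 -
            Mag.rJ lab' j * (Mag.SJ lab' σ j / Mag.rJ lab' j - t j) ^ 2) := by ring
      rw [e]
      refine (abs_sub _ _).trans ?_
      rw [abs_mul, abs_mul, abs_of_nonneg hK]
      have d1 := mul_le_mul_of_nonneg_left h1 (abs_nonneg (c j))
      have d2 := mul_le_mul_of_nonneg_left h3 hK
      have d3 : K * (8 * |Mag.rJ lab j - Mag.rJ lab' j| + 4 * |Mag.SJ lab σ j - Mag.SJ lab' σ j|) ≤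
          K * (12 * D) := mul_le_mul_of_nonneg_left (by linarith) hK
      linarith
  refine (Finset.sum_le_sum this).trans ?_
  rw [← Finset.sum_mul, Finset.sum_add_distrib]
  simp only [Finset.sum_const, Finset.card_univ, Fintype.card_fin, nsmul_eq_mul]
  apply le_of_eq
  ring

/-- the penalties (with strengths bounded by `Kmax`, possibly depending on `N`) form an
admissible family -/
theorem PEN_VFam {J : ℕ} (c : Fin J → ℝ) {t : Fin J → ℝ} (ht : ∀ j, |t j| ≤ 1) {K : ℕ → ℝ}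
    {Kmax : ℝ} (hK : ∀ N, 0 ≤ K N) (hK' : ∀ N, K N ≤ Kmax) :
    VFam (ι := Fin J) (∑ j, |c j| + 12 * Kmax * J)
      (fun N lab σ => Mag.PEN c t (K N) lab σ) where
  C0 := by
    have h1 : 0 ≤ Kmax := (hK 0).trans (hK' 0)
    have h2 : 0 ≤ ∑ j, |c j| := Finset.sum_nonneg fun _ _ => abs_nonneg _
    positivity
  perm N lab σ π := PEN_perm c t (K N) lab σ π
  lip N lab lab' σ := by
    refine (PEN_lip c ht (hK N) lab lab' σ).trans ?_
    refine mul_le_mul_of_nonneg_right ?_ (Nat.cast_nonneg _)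
    have := hK' N
    have h3 : (0:ℝ) ≤ J := Nat.cast_nonneg _
    nlinarith [mul_le_mul_of_nonneg_right this h3]

/-- **GLUE-LAB** for the penalised pressure. -/
theorem tendsto_Psi_PEN {κ : Type*} [Fintype κ] [DecidableEq κ] [Nonempty κ] {J : ℕ} [NeZero J]
    (v : κ → ℝ) (c : Fin J → ℝ) {t : Fin J → ℝ} (ht : ∀ j, |t j| ≤ 1) {K : ℕ → ℝ}
    {Kmax : ℝ} (hK : ∀ N, 0 ≤ K N) (hK' : ∀ N, K N ≤ Kmax)
    {α : κ → ℝ} {γ : Fin J → ℝ} (hα : ∑ k, α k = 1) (hγ : ∑ j, γ j = 1) (hα0 : ∀ k, 0 < α k)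
    (hγ0 : ∀ j, 0 ≤ γ j) (μ : (N : ℕ) → Measure (Mat (Fin N)))
    (hμp : ∀ N, IsProbabilityMeasure (μ N)) (hμ : ∀ N, RHaar (μ N))
    (kap0 : (N : ℕ) → Fin N → κ) (lab0 : (N : ℕ) → Fin N → Fin J)
    (hk : ∀ k, Tendsto (fun N : ℕ => (cnt (kap0 N) k : ℝ) / N) atTop (𝓝 (α k)))
    (hl : ∀ j, Tendsto (fun N : ℕ => (cnt (lab0 N) j : ℝ) / N) atTop (𝓝 (γ j))) :
    Tendsto (fun N : ℕ => Psi (pr α γ) (fun l : Fin N → κ × Fin J =>
      |EP (μ N) v (fun i => (l i).1) (Mag.PEN c t (K N) (fun i => (l i).2)) -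
        EP (μ N) v (kap0 N) (Mag.PEN c t (K N) (lab0 N))|)) atTop (𝓝 0) :=
  tendsto_Psi v (PEN_VFam c ht hK hK') hα hγ hα0 hγ0 μ hμp hμ kap0 lab0 hk hl

/-- consequence: the deterministic expected pressure is at least the i.i.d. average, up to `o(1)` -/
theorem EP_ge_Psi {κ ι : Type*} [Fintype κ] [DecidableEq κ] [Nonempty κ] [Fintype ι]
    [DecidableEq ι] [Nonempty ι] (v : κ → ℝ)
    {C : ℝ} {V : (N : ℕ) → (Fin N → ι) → (Fin N → Bool) → ℝ} (hV : VFam C V)
    {α : κ → ℝ} {γ : ι → ℝ} (hα : ∑ k, α k = 1) (hγ : ∑ j, γ j = 1) (hα0 : ∀ k, 0 < α k)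
    (hγ0 : ∀ j, 0 ≤ γ j) (μ : (N : ℕ) → Measure (Mat (Fin N)))
    (hμp : ∀ N, IsProbabilityMeasure (μ N)) (hμ : ∀ N, RHaar (μ N))
    (kap0 : (N : ℕ) → Fin N → κ) (lab0 : (N : ℕ) → Fin N → ι)
    (hk : ∀ k, Tendsto (fun N : ℕ => (cnt (kap0 N) k : ℝ) / N) atTop (𝓝 (α k)))
    (hl : ∀ j, Tendsto (fun N : ℕ => (cnt (lab0 N) j : ℝ) / N) atTop (𝓝 (γ j))) {ε : ℝ}
    (hε : 0 < ε) : ∀ᶠ N : ℕ in atTop,
      |Psi (pr α γ) (fun l : Fin N → κ × ι =>
        EP (μ N) v (fun i => (l i).1) (V N (fun i => (l i).2))) -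
        EP (μ N) v (kap0 N) (V N (lab0 N))| ≤ ε := by
  have h := tendsto_Psi v hV hα hγ hα0 hγ0 μ hμp hμ kap0 lab0 hk hl
  have hpos : ∀ x, 0 ≤ pr α γ x := pr_nonneg (fun k => (hα0 k).le) hγ0
  filter_upwards [h.eventually (ge_mem_nhds hε)] with N hN
  refine le_trans ?_ hN
  have e : Psi (pr α γ) (fun l : Fin N → κ × ι =>
        EP (μ N) v (fun i => (l i).1) (V N (fun i => (l i).2))) -
        EP (μ N) v (kap0 N) (V N (lab0 N)) = Psi (pr α γ) (fun l : Fin N → κ × ι =>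
        EP (μ N) v (fun i => (l i).1) (V N (fun i => (l i).2)) -
        EP (μ N) v (kap0 N) (V N (lab0 N))) := by
    rw [Psi_sub, Psi_const (pr_sum hα hγ)]
  rw [e]
  unfold Psi
  refine (Finset.abs_sum_le_sum_abs _ _).trans (Finset.sum_le_sum fun l _ => ?_)
  rw [abs_mul, abs_of_nonneg (wt_nonneg hpos l)]

end

end Crest.Agent.R164.LabTr
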