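import Crest.Agent.R164.LFin2
import Crest.Agent.R164.LStruct2F
import Crest.Agent.R164.LSel3
import Crest.Agent.R164.LabPen

/-!
Row 164, L side (helper893): final assembly, part 3: the choice of the parameters.
-/

set_option autoImplicit false

namespace Crest.Agent.R164.LG

open Finset MeasureTheory Filter Topology Crest.Agent.R141 Crest.Agent.R164 Crest.Agent.R164.Haar
open Crest.ProbabilityR.InvariantGlass (spinVec)
open Crest.Agent.R164.LD (Prm HL EPh EO PL TO RJ MO)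

noncomputable section

theorem choose_n0 {Q : ℕ → ℕ → Prop}
    (h : ∃ Na : ℕ, ∀ N : ℕ, Na ≤ N → ∃ n0 : ℕ, ∀ n : ℕ, n0 ≤ n → Q N n) :
    ∃ (Na : ℕ) (f : ℕ → ℕ), ∀ N, Na ≤ N → ∀ n, f N ≤ n → Q N n := by
  obtain ⟨Na, hNa⟩ := h
  have h2 : ∀ N, ∃ n0 : ℕ, Na ≤ N → ∀ n : ℕ, n0 ≤ n → Q N n := by
    intro N
    by_cases hN : Na ≤ N
    · obtain ⟨n0, hn0⟩ := hNa N hN
      exact ⟨n0, fun _ => hn0⟩
    · exact ⟨0, fun h => absurd h hN⟩
  choose f hf using h2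
  exact ⟨Na, f, fun N hN n hn => hf N hN n hn⟩

/-- number of coins for the target size `N1` -/
def nnF (f : ℕ → ℕ) (N1 : ℕ) : ℕ := ∑ N ∈ Finset.range (N1 + 1), f N + 1

theorem le_nnF (f : ℕ → ℕ) {N N1 : ℕ} (h : N ≤ N1) : f N ≤ nnF f N1 := by
  unfold nnF
  have : f N ≤ ∑ N ∈ Finset.range (N1 + 1), f N :=
    Finset.single_le_sum (f := f) (fun _ _ => Nat.zero_le _) (Finset.mem_range.2 (by omega))
  omega

theorem nnF_pos (f : ℕ → ℕ) (N1 : ℕ) : 0 < nnF f N1 := Nat.succ_pos _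

/-- the final smallness inequality -/
theorem final_ineq {ε r R0 Kp Kmax LR M1 amin y dl E1 Cd ed e3 e4 e5 e6 κ Wt : ℝ}
    (hε : 0 < ε) (hy : 0 < y) (hamin : 0 < amin) (hKp0 : 0 ≤ Kp) (hKp : Kp ≤ Kmax)
    (hLR : 0 ≤ LR) (hM1 : 0 < M1) (hdl0 : 0 ≤ dl)
    (hM : LR * (3 / M1) ≤ ε / 16) (hκ : κ = ε / (64 * Wt))
    (hWt : Wt = 4 * Kmax + 2 * LR * M1 * (1 + 1 / amin) + 1)
    (hdl : dl ≤ κ * y / 4) (hE1 : E1 ≤ κ * y / 4) (hy1 : y ≤ 1) (hE10 : 0 ≤ E1)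
    (hCd : Cd * Real.sqrt y ≤ κ) (hed : ed ≤ κ) (hed0 : 0 ≤ ed)
    (he3 : e3 ≤ κ) (he4 : e4 ≤ κ) (he5 : e5 ≤ κ) (he6 : e6 ≤ ε / 16)
    (he30 : 0 ≤ e3) (he40 : 0 ≤ e4) (hCd0 : 0 ≤ Cd)
    (hR0 : R0 ≤ r - ε + 3 * (ε / 16)) :
    4 * Kp * ((2 * dl + (Cd * (y * Real.sqrt y) + y * ed)) / y + e3) + E1 +
      LR * (2 * M1 *
        (e5 + ((2 * (dl + E1) + (Cd * (y * Real.sqrt y) + y * ed)) / y + e3 + e4) / amin) +
        3 / M1) < r - ((R0 + e6) + ed + dl + E1) := by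
  have hKm : 0 ≤ Kmax := hKp0.trans hKp
  have hWt1 : 1 ≤ Wt := by
    rw [hWt]
    have : 0 ≤ 2 * LR * M1 * (1 + 1 / amin) := by positivity
    linarith
  have hκ0 : 0 < κ := by rw [hκ]; positivity
  have hκε : κ ≤ ε / 64 := by
    rw [hκ]
    exact div_le_div_of_nonneg_left hε.le (by norm_num) (by linarith)
  have hκW : κ * Wt = ε / 64 := by
    rw [hκ]; field_simp
  have hx1 : (2 * dl + (Cd * (y * Real.sqrt y) + y * ed)) / y ≤ 3 * κ := by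
    rw [div_le_iff₀ hy]
    nlinarith
  have hx2 : (2 * (dl + E1) + (Cd * (y * Real.sqrt y) + y * ed)) / y ≤ 3 * κ := by
    rw [div_le_iff₀ hy]
    nlinarith
  have h1 : 4 * Kp * ((2 * dl + (Cd * (y * Real.sqrt y) + y * ed)) / y + e3) ≤
      4 * Kmax * (5 * κ) := by
    have a1 : (2 * dl + (Cd * (y * Real.sqrt y) + y * ed)) / y + e3 ≤ 5 * κ := by linarith
    have a0 : 0 ≤ (2 * dl + (Cd * (y * Real.sqrt y) + y * ed)) / y + e3 := by positivity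
    exact mul_le_mul (by linarith) a1 a0 (by positivity)
  have h2 : (2 * (dl + E1) + (Cd * (y * Real.sqrt y) + y * ed)) / y + e3 + e4 ≤ 5 * κ := by
    linarith
  have h3 : ((2 * (dl + E1) + (Cd * (y * Real.sqrt y) + y * ed)) / y + e3 + e4) / amin ≤
      5 * κ * (1 / amin) := by
    rw [mul_one_div]
    exact div_le_div_of_nonneg_right h2 hamin.le
  have h4 : LR * (2 * M1 * (e5 + ((2 * (dl + E1) + (Cd * (y * Real.sqrt y) + y * ed)) / y +
      e3 + e4) / amin) + 3 / M1) ≤ 2 * LR * M1 * (5 * κ * (1 + 1 / amin)) + ε / 16 := by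
    rw [mul_add]
    refine add_le_add ?_ hM
    have a1 : e5 + ((2 * (dl + E1) + (Cd * (y * Real.sqrt y) + y * ed)) / y + e3 + e4) / amin ≤
        5 * κ * (1 + 1 / amin) := by
      have : 5 * κ * (1 + 1 / amin) = 5 * κ + 5 * κ * (1 / amin) := by ring
      rw [this]
      linarith
    calc LR * (2 * M1 * (e5 + ((2 * (dl + E1) + (Cd * (y * Real.sqrt y) + y * ed)) / y +
          e3 + e4) / amin)) ≤ LR * (2 * M1 * (5 * κ * (1 + 1 / amin))) := by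
          refine mul_le_mul_of_nonneg_left (mul_le_mul_of_nonneg_left a1 (by positivity)) hLR
      _ = 2 * LR * M1 * (5 * κ * (1 + 1 / amin)) := by ring
  have h5 : 4 * Kmax * (5 * κ) + 2 * LR * M1 * (5 * κ * (1 + 1 / amin)) ≤ 5 * (ε / 64) := by
    rw [← hκW, hWt]
    nlinarith
  have h6 : κ * y ≤ κ := by nlinarith
  nlinarith

end

end Crest.Agent.R164.LG
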