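import Crest.Agent.R164.LFin3

/-!
Row 164, L side (helper893): final assembly, part 4: `LBP` from the module statements.
-/

set_option autoImplicit false

namespace Crest.Agent.R164.LG

open Finset MeasureTheory Filter Topology Crest.Agent.R141 Crest.Agent.R164 Crest.Agent.R164.Haar
open Crest.ProbabilityR.InvariantGlass (spinVec)
open Crest.Agent.R164.LD (Prm HL EPh EO PL TO RJ MO)

noncomputable section

variable (X : Glob)

theorem al_pos (x : X.LB) : 0 < X.al x := by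
  unfold Glob.al LabTr.pr
  have h : (0:ℝ) < ((X.γ x.2 : ℚ) : ℝ) := by exact_mod_cast X.hγ x.2
  exact mul_pos (X.hw _) h

theorem al_sum : ∑ x, X.al x = 1 := by
  unfold Glob.al
  exact LabTr.pr_sum X.hs (by exact_mod_cast X.hγs)

/-- a priori bound of the penalised free energy, all labels -/
theorem crude_Inc {p : Par} (hnb : p.nb = 0) {N : ℕ} (n : ℕ) (hN : 0 < N) {Kp Kmax Cg : ℝ}
    (hKp0 : 0 ≤ Kp) (hKp : Kp ≤ Kmax)
    (hCg : ∀ (N : ℕ) (Kp : ℝ), 0 ≤ Kp → Kp ≤ Kmax → ∀ L : Fin N → X.LB, |Gp X Kp L| ≤ Cg)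
    {θ : Prm p X.K X.J} (hθ : Bd X 1 1 1 θ) (L : Fin N → X.LB) :
    -((3 * (Cg + 2) + 2 * (p.nc * p.T * p.τ)) * N) ≤
      LSel.Inc X.al (Ph X n Kp θ : (Fin N → X.LB) → ℝ) (Ph X n Kp θ) L := by
  have hW0 : 0 ≤ (p.nc : ℝ) * p.T * p.τ := by have := p.hτ0; positivity
  have hN1 : (1:ℝ) ≤ N := by exact_mod_cast hN
  have hCg0 : 0 ≤ Cg := (abs_nonneg _).trans (hCg N Kp hKp0 hKp L)
  have h0 := abs_le.1 (pert X hnb n hN Kp hθ L)
  have hG0 := abs_le.1 (hCg N Kp hKp0 hKp L)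
  have key : ∀ x : X.LB, -((3 * (Cg + 2) + 2 * (p.nc * p.T * p.τ)) * N) ≤
      Ph X n Kp θ (Fin.snoc L x : Fin (N + 1) → X.LB) - Ph X n Kp θ L := by
    intro x
    have h1 := abs_le.1 (pert X hnb n (Nat.succ_pos N) Kp hθ
      (Fin.snoc L x : Fin (N + 1) → X.LB))
    have hG1 := abs_le.1 (hCg (N + 1) Kp hKp0 hKp (Fin.snoc L x : Fin (N + 1) → X.LB))
    have a1 : (N:ℝ) * Gp X Kp L ≤ N * Cg := mul_le_mul_of_nonneg_left hG0.2 (by positivity)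
    have a2 : -(((N:ℝ) + 1) * Cg) ≤
        ((N:ℝ) + 1) * Gp X Kp (Fin.snoc L x : Fin (N + 1) → X.LB) := by
      have := mul_le_mul_of_nonneg_left hG1.1 (show (0:ℝ) ≤ (N:ℝ) + 1 by positivity)
      linarith
    have b1 := h1.1
    have b2 := h0.2
    push_cast at b1
    nlinarith
  unfold LSel.Inc
  calc -((3 * (Cg + 2) + 2 * (p.nc * p.T * p.τ)) * N) =
      ∑ x : X.LB, X.al x * -((3 * (Cg + 2) + 2 * (p.nc * p.T * p.τ)) * N) := by
        rw [← Finset.sum_mul, al_sum, one_mul]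
    _ ≤ _ := Finset.sum_le_sum fun x _ => mul_le_mul_of_nonneg_left (key x) (al_pos X x).le

theorem good_mono {α : X.LB → ℝ} {d d' : ℝ} (h : d ≤ d') {N : ℕ} {L : Fin N → X.LB}
    (hL : LabAvg.Good α d L) : LabAvg.Good α d' L := fun k =>
  (hL k).trans (mul_le_mul_of_nonneg_right h (Nat.cast_nonneg N))

/-- bound of the effective fields -/
theorem abs_bb_le {Kp Kmax : ℝ} (hKp0 : 0 ≤ Kp) (hKp : Kp ≤ Kmax) {el mb : Fin X.J → ℝ}
    (hel : ∀ j, |el j| ≤ 1) (hmb : ∀ j, |mb j| ≤ 1) (j : Fin X.J) :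
    |bb X Kp el mb j| + 1 ≤ ∑ j, |X.c j| + 4 * Kmax + 2 := by
  have h1 : |X.c j| ≤ ∑ j, |X.c j| :=
    Finset.single_le_sum (f := fun j => |X.c j|) (fun _ _ => abs_nonneg _) (Finset.mem_univ j)
  have h2 := abs_le.1 (hel j)
  have h3 := abs_le.1 (hmb j)
  have h4 := abs_le.1 (X.ht j).le
  have h5 : |mb j - X.t j| ≤ 2 := by rw [abs_le]; constructor <;> linarith
  have hK : 0 ≤ Kmax := hKp0.trans hKp
  unfold bb
  split_ifs
  · rw [zero_add]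
    have : 0 ≤ ∑ j, |X.c j| := (abs_nonneg _).trans h1
    have := hel j
    linarith
  · have h6 : |2 * Kp * (mb j - X.t j)| ≤ 2 * Kmax * 2 := by
      rw [abs_mul, abs_of_nonneg (by positivity : 0 ≤ 2 * Kp)]
      exact mul_le_mul (by linarith) h5 (abs_nonneg _) (by positivity)
    have h7 : |X.c j - 2 * Kp * (mb j - X.t j) + el j| ≤
        |X.c j| + |2 * Kp * (mb j - X.t j)| + |el j| :=
      (abs_add_le _ _).trans (add_le_add (abs_sub _ _) le_rfl)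
    have := hel j
    linarith


theorem lf_kap {N : ℕ} (L : Fin N → X.LB) (l : X.LB) :
    Glob.kap (Fin.snoc L l : Fin (N + 1) → X.LB) =
      (Fin.snoc (Glob.kap L) l.1 : Fin (N + 1) → Fin (X.K + 1)) := by
  funext i
  refine Fin.lastCases ?_ (fun i => ?_) i
  · simp [Glob.kap]
  · simp [Glob.kap]

theorem lf_lab {N : ℕ} (L : Fin N → X.LB) (l : X.LB) :
    Glob.lab (Fin.snoc L l : Fin (N + 1) → X.LB) =
      (Fin.snoc (Glob.lab L) l.2 : Fin (N + 1) → Fin X.J) := by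
  funext i
  refine Fin.lastCases ?_ (fun i => ?_) i
  · simp [Glob.lab]
  · simp [Glob.lab]

section cmp

variable {p : Par} {act : Finset (Fin p.nc)} {N : ℕ} (n : ℕ) {Kp : ℝ}
  {θ : LS2.Cd X.K X.J act → ℝ} {d0 : ℝ} {L : Fin N → X.LB}

theorem Er_nonneg : 0 ≤ Er X n Kp θ L := by
  have := X.hnu N
  have := X.hnu (N + 1)
  exact LS2.Err_nonneg _ _ _ _ _ _ _ _ _

theorem ratio_le (hN : 0 < N) (hd : Small X d0) (hL : LabAvg.Good X.al d0 L) (j : Fin X.J) :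
    (N : ℝ) / Mag.rJ (Glob.lab L) j ≤ d0⁻¹ := by
  have h := rJ_ge X hd hL j
  have hd0 := hd.1
  have hN' : (0:ℝ) < N := by exact_mod_cast hN
  have hr : 0 < Mag.rJ (Glob.lab L) j := lt_of_lt_of_le (by positivity) h
  rw [div_le_iff₀ hr, ← div_eq_inv_mul, le_div_iff₀ hd0]
  linarith

/-- concentration of the magnetisations -/
theorem dev_MO (hN : 0 < N) (hKp : 0 ≤ Kp) (hd : Small X d0) (hL : LabAvg.Good X.al d0 L)
    (j : Fin X.J) :
    Eo X n Kp (LS2.prm act θ) L (fun _ _ ω => |MO n (Glob.lab L) j ω -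
      mbar X n Kp (LS2.prm act θ) L j|) ≤ d0⁻¹ * Er X n Kp θ L := by
  have := X.hnu N
  have := X.hnu (N + 1)
  have h := LS2.conc_MO (ν := X.nu N) (ν' := X.nu (N + 1)) n X.val X.c X.t Kp (Glob.kap L)
    (Glob.lab L) hN (fun j => (X.ht j).le) hKp (X.hR N).mem θ j
  refine h.trans ?_
  exact mul_le_mul_of_nonneg_right (ratio_le X hN hd hL j) (Er_nonneg X n)

/-- the magnetisations at the two sizes -/
theorem cmp_MO (hnb : p.nb = 0) (hN : 0 < N) (hKp : 0 ≤ Kp) (hR : ∀ x, |θ x| ≤ 1)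
    (hd : Small X d0) (hL : LabAvg.Good X.al d0 L) (k : Fin (X.K + 1)) (j : Fin X.J) :
    |M1 X n Kp (LS2.prm act θ) L k j - mbar X n Kp (LS2.prm act θ) L j| ≤
      d0⁻¹ * Er X n Kp θ L + 2 * (1 + LS2.CTR p X.val X.c Kp 1) / (d0 ^ 2 * N) := by
  have := X.hnu N
  have := X.hnu (N + 1)
  have h := LS2.MO_compare (ν := X.nu N) (ν' := X.nu (N + 1)) n X.val X.c X.t Kp (Glob.kap L)
    (Glob.lab L) hnb hN (fun j => (X.ht j).le) hKp (X.hR N).mem (X.hR (N + 1)).mem zero_le_one hR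
    k j j hd.1 (rJ_ge X hd hL j)
  rw [abs_sub_comm]
  unfold M1 mbar Eo
  rw [lf_kap, lf_lab]
  exact h

/-- the main-field observables at the two sizes -/
theorem cmp_TO (hnb : p.nb = 0) (hN : 0 < N) (hKp : 0 ≤ Kp) (hR : ∀ x, |θ x| ≤ 1)
    (hd : Small X d0) (hL : LabAvg.Good X.al d0 L) (k : Fin (X.K + 1)) (j : Fin X.J)
    {g : Fin p.nc} (hg : g ∈ act) :
    |T1 X n Kp (LS2.prm act θ) L k j g -
        Eo X n Kp (LS2.prm act θ) L (fun _ _ ω => TO n (Glob.lab L) j g ω)| ≤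
      d0⁻¹ * Er X n Kp θ L + 2 * (1 + LS2.CTR p X.val X.c Kp 1) / (d0 ^ 2 * N) := by
  have := X.hnu N
  have := X.hnu (N + 1)
  have h := LS2.TO_compare (ν := X.nu N) (ν' := X.nu (N + 1)) n X.val X.c X.t Kp (Glob.kap L)
    (Glob.lab L) hnb hN (fun j => (X.ht j).le) hKp (X.hR N).mem (X.hR (N + 1)).mem zero_le_one hR
    k j j ⟨g, hg⟩ hd.1 (rJ_ge X hd hL j)
  rw [abs_sub_comm]
  unfold T1 Eo
  rw [lf_kap, lf_lab]
  exact h

end cmp

/-- the grid of parameters -/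
theorem grid_X (hINCB : INCB X) {p : Par} {act : Finset (Fin p.nc)} (hnb : p.nb = 0) {I : ℕ}
    {Kps : Fin I → ℝ} {Kmax : ℝ} (hK0 : ∀ i, 0 ≤ Kps i) (hKm : ∀ i, Kps i ≤ Kmax)
    {lo hi : LS2.Cd X.K X.J act → ℝ} (hlh : ∀ x, lo x < hi x) (hlo : ∀ x, |lo x| ≤ 1)
    (hhi : ∀ x, |hi x| ≤ 1)
    (hBd : ∀ θ : LS2.Cd X.K X.J act → ℝ, (∀ x, lo x ≤ θ x ∧ θ x ≤ hi x) →
      Bd X 1 1 1 (LS2.prm act θ))
    {d0 : ℝ} (hd : Small X d0) {δ : ℝ} (hδ : 0 < δ) :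
    ∃ Ig : ℕ, 0 < Ig ∧ ∃ (Na : ℕ) (f : ℕ → ℕ), ∀ N, Na ≤ N → ∀ n, f N ≤ n →
      ∀ (i : Fin I) (L : Fin N → X.LB), LabAvg.Good X.al d0 L →
      ∑ z : LS2.Cd X.K X.J act → Fin Ig, ((Ig : ℝ) ^ Fintype.card (LS2.Cd X.K X.J act))⁻¹ *
        Er X n (Kps i) (LGrid.pt lo (LS2.stp lo hi Ig) z) L ≤ δ := by
  classical
  obtain ⟨CI, NaI, hINC⟩ := hINCB 1 1 1 Kmax d0 hd p hnb
  obtain ⟨Ig, hIg, N0, hN0⟩ := LS2.grid_err (act := act) hnb X.val X.c X.t Kps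
    (fun j => (X.ht j).le) hK0 hlh zero_le_one hlo hhi (fun _ => |CI|) (fun _ => abs_nonneg _) hδ
  have h2 : ∀ N, ∃ n0 : ℕ, NaI ≤ N → ∀ n : ℕ, n0 ≤ n → ∀ Kp : ℝ, 0 ≤ Kp → Kp ≤ Kmax →
      ∀ θ : Prm p X.K X.J, Bd X 1 1 1 θ → ∀ L : Fin N → X.LB, LabAvg.Good X.al d0 L →
      ∀ l : X.LB,
      |Ph X n Kp θ (Fin.snoc L l : Fin (N + 1) → X.LB) - Ph X n Kp θ L| ≤ CI := by
    intro N
    by_cases hN : NaI ≤ N
    · obtain ⟨n0, hn0⟩ := hINC N hN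
      exact ⟨n0, fun _ => hn0⟩
    · exact ⟨0, fun h => absurd h hN⟩
  choose f hf using h2
  refine ⟨Ig, hIg, N0 + NaI, f, fun N hN n hn i L hL => ?_⟩
  have := X.hnu N
  have := X.hnu (N + 1)
  have h := hN0 N (by omega) i n (Glob.kap L) (Glob.lab L) (X.nu N) (X.nu (N + 1)) (X.hR N)
    (X.hR (N + 1)) (fun θ hθ k' j' => by
      have h1 := hf N (by omega) n hn (Kps i) (hK0 i) (hKm i) (LS2.prm act θ) (hBd θ hθ) L hL
        (k', j')
      unfold Ph at h1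
      rw [lf_kap, lf_lab] at h1
      exact h1.trans (le_abs_self _))
  rw [LS2.gavg_eq_weights] at h
  exact h

end

end Crest.Agent.R164.LG
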