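import Crest.Agent.R164.LFin4

/-!
Row 164, L side (helper893): final assembly, part 5: the choice of the constants.
-/

set_option autoImplicit false

namespace Crest.Agent.R164.LG

open Finset MeasureTheory Filter Topology

noncomputable section

theorem ex_min5 {a b c d e : ℝ} (ha : 0 < a) (hb : 0 < b) (hc : 0 < c) (hd : 0 < d) (he : 0 < e) :
    ∃ x : ℝ, 0 < x ∧ x ≤ a ∧ x ≤ b ∧ x ≤ c ∧ x ≤ d ∧ x ≤ e := by
  refine ⟨min a (min b (min c (min d e))), by positivity, min_le_left _ _,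
    (min_le_right _ _).trans (min_le_left _ _),
    (min_le_right _ _).trans ((min_le_right _ _).trans (min_le_left _ _)),
    (min_le_right _ _).trans ((min_le_right _ _).trans ((min_le_right _ _).trans
      (min_le_left _ _))),
    (min_le_right _ _).trans ((min_le_right _ _).trans ((min_le_right _ _).trans
      (min_le_right _ _)))⟩

/-- the choice of the size functions, from the statement for each size -/
theorem choose_f {Q : ℕ → ℕ → Prop} {Na : ℕ}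
    (h : ∀ N : ℕ, Na ≤ N → ∃ n0 : ℕ, ∀ n : ℕ, n0 ≤ n → Q N n) :
    ∃ f : ℕ → ℕ, ∀ N, Na ≤ N → ∀ n, f N ≤ n → Q N n := by
  have h2 : ∀ N, ∃ n0 : ℕ, Na ≤ N → ∀ n : ℕ, n0 ≤ n → Q N n := by
    intro N
    by_cases hN : Na ≤ N
    · obtain ⟨n0, hn0⟩ := h N hN
      exact ⟨n0, fun _ => hn0⟩
    · exact ⟨0, fun h => absurd h hN⟩
  choose f hf using h2
  exact ⟨f, hf⟩

theorem c_M (LR : ℝ) {ε : ℝ} (hε : 0 < ε) :
    ∃ M : ℕ, LR * (3 / ((M + 1 : ℕ) : ℝ)) ≤ ε / 16 := by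
  obtain ⟨M, hM⟩ := exists_nat_ge (48 * LR / ε)
  refine ⟨M, ?_⟩
  have hM1 : (0:ℝ) < ((M + 1 : ℕ) : ℝ) := by positivity
  rw [mul_div_assoc', div_le_iff₀ hM1]
  rw [div_le_iff₀ hε] at hM
  push_cast
  nlinarith

theorem c_K {R g ε : ℝ} (hR : 0 ≤ R) (hg : 0 < g) (hε : 0 < ε) :
    ∃ K0 : ℝ, 0 < K0 ∧ R ≤ K0 * g * (ε / 2) ^ 2 := by
  refine ⟨R / (g * (ε / 2) ^ 2) + 1, by positivity, ?_⟩
  have : (0:ℝ) < g * (ε / 2) ^ 2 := by positivity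
  rw [mul_assoc, add_mul, div_mul_cancel₀ _ this.ne']
  linarith

theorem c_I (Cq : ℝ) {ε : ℝ} (hε : 0 < ε) : ∃ I : ℕ, 0 < I ∧ Cq / I ≤ ε / 16 := by
  obtain ⟨I, hI⟩ := exists_nat_ge (16 * Cq / ε)
  refine ⟨I + 1, Nat.succ_pos I, ?_⟩
  have h1 : (0:ℝ) < ((I + 1 : ℕ) : ℝ) := by positivity
  rw [div_le_iff₀ h1]
  rw [div_le_iff₀ hε] at hI
  push_cast
  nlinarith

theorem c_Kps {K0 : ℝ} (hK0 : 0 < K0) (I : ℕ) (i : Fin I) :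
    K0 ≤ K0 * 2 ^ ((i : ℕ) + 1) ∧ K0 * 2 ^ ((i : ℕ) + 1) ≤ K0 * 2 ^ I := by
  constructor
  · have : (1:ℝ) ≤ 2 ^ ((i : ℕ) + 1) := one_le_pow₀ (by norm_num)
    nlinarith
  · exact mul_le_mul_of_nonneg_left (pow_le_pow_right₀ (by norm_num) (by have := i.2; omega))
      hK0.le

theorem c_a (M : ℕ) {e1 : ℝ} (he1 : 0 < e1) : ∃ A' amax amin : ℝ, 0 < A' ∧ A' ≤ 1 ∧
    A' ≤ e1 / 4 ∧ 0 < amin ∧ amin < amax ∧ amax ≤ 1 ∧ (M : ℝ) * amax ^ 2 ≤ A' ^ 2 := by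
  obtain ⟨A', hA'0, hA'1, hA'e⟩ : ∃ A' : ℝ, 0 < A' ∧ A' ≤ 1 ∧ A' ≤ e1 / 4 :=
    ⟨min 1 (e1 / 4), by positivity, min_le_left _ _, min_le_right _ _⟩
  have hM0 : (0:ℝ) ≤ M := Nat.cast_nonneg M
  have h0 : 0 < A' / (M + 1) := by positivity
  refine ⟨A', A' / (M + 1), A' / (M + 1) / 2, hA'0, hA'1, hA'e, by positivity, by linarith, ?_, ?_⟩
  · rw [div_le_one (by positivity)]
    linarith
  · rw [div_pow, mul_div_assoc', div_le_iff₀ (by positivity)]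
    have h1 : (M : ℝ) ≤ ((M:ℝ) + 1) ^ 2 := by nlinarith
    have := mul_le_mul_of_nonneg_right h1 (sq_nonneg A')
    linarith

theorem c_y {Cd κ amin : ℝ} (hCd : 0 ≤ Cd) (hκ : 0 < κ) (ha : 0 < amin) :
    ∃ y : ℝ, 0 < y ∧ y ≤ 1 ∧ y ≤ amin ∧ Cd * Real.sqrt y ≤ κ := by
  refine ⟨min (min 1 amin) ((κ / (Cd + 1)) ^ 2), by positivity,
    (min_le_left _ _).trans (min_le_left _ _), (min_le_left _ _).trans (min_le_right _ _), ?_⟩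
  have h1 : Real.sqrt (min (min 1 amin) ((κ / (Cd + 1)) ^ 2)) ≤ κ / (Cd + 1) := by
    refine (Real.sqrt_le_sqrt (min_le_right _ _)).trans (le_of_eq ?_)
    exact Real.sqrt_sq (by positivity)
  calc Cd * Real.sqrt (min (min 1 amin) ((κ / (Cd + 1)) ^ 2)) ≤ Cd * (κ / (Cd + 1)) :=
        mul_le_mul_of_nonneg_left h1 hCd
    _ ≤ κ := by
        rw [mul_div_assoc', div_le_iff₀ (by positivity)]
        nlinarith

theorem c_E {κ y e1 : ℝ} (hκ : 0 < κ) (hy : 0 < y) (he1 : 0 < e1) :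
    ∃ dl E1 : ℝ, 0 < dl ∧ dl ≤ κ * y / 4 ∧ 0 < E1 ∧ E1 ≤ κ * y / 4 ∧ E1 ≤ e1 / 8 ∧ E1 ≤ 1 :=
  ⟨κ * y / 4, min (κ * y / 4) (min (e1 / 8) 1), by positivity, le_rfl, by positivity,
    min_le_left _ _, (min_le_right _ _).trans (min_le_left _ _),
    (min_le_right _ _).trans (min_le_right _ _)⟩

theorem c_q {κ : ℝ} (hκ : 0 < κ) : ∃ qk : ℕ, ∀ n' : ℕ, qk ≤ n' + 1 →
    2 / ((n' : ℝ) + 1) ≤ κ / 2 := by
  obtain ⟨qk, hqk⟩ := exists_nat_ge (4 / κ)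
  refine ⟨qk, fun n' hn' => ?_⟩
  have h1 : (4:ℝ) / κ ≤ (n' : ℝ) + 1 := hqk.trans (by exact_mod_cast hn')
  rw [div_le_iff₀ hκ] at h1
  rw [div_le_iff₀ (by positivity)]
  linarith

theorem c_lo {himax η e1 : ℝ} (h1 : 0 < himax) (h2 : 0 < η) (h3 : 0 < e1) (nc : ℕ) :
    ∃ v lo : ℝ, 0 < lo ∧ lo ≤ himax ∧ v ≤ η ∧ v ≤ 1 ∧ v ≤ e1 / 8 ∧ 2 * lo ≤ 1 ∧
      (nc : ℝ) * (2 * lo) ^ 2 ≤ v := by
  obtain ⟨v, hv, hv1, hvη, hve, -, -⟩ := ex_min5 one_pos h2 (show (0:ℝ) < e1 / 8 by positivity)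
    one_pos one_pos
  obtain ⟨lo, hlo, hlo1, hlo2, -, -, -⟩ := ex_min5 h1
    (show (0:ℝ) < v / (4 * ((nc : ℝ) + 1)) by positivity) one_pos one_pos one_pos
  have hncp : (0:ℝ) < (nc : ℝ) + 1 := by positivity
  have h0 : (0:ℝ) ≤ (nc : ℝ) := Nat.cast_nonneg _
  have hlo3 : 4 * ((nc : ℝ) + 1) * lo ≤ v := by
    rw [le_div_iff₀ (by positivity)] at hlo2
    linarith
  have hlo4 : 2 * lo ≤ 1 := by nlinarith
  refine ⟨v, lo, hlo, hlo1, hvη, hv1, hve, hlo4, ?_⟩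
  have h1 : (2 * lo) ^ 2 ≤ 2 * lo := by nlinarith
  have h2 : (nc : ℝ) * (2 * lo) ^ 2 ≤ (nc : ℝ) * (2 * lo) := mul_le_mul_of_nonneg_left h1 h0
  nlinarith

theorem c_d {dm d1 dD κ ε Kmax : ℝ} (K J : ℕ) (hdm : 0 < dm) (hd1 : 0 < d1) (hdD : 0 < dD)
    (hκ : 0 < κ) (hε : 0 < ε) (hK : 0 ≤ Kmax) : ∃ d0 : ℝ, 0 < d0 ∧ d0 ≤ dm / 2 ∧ d0 ≤ d1 ∧
      d0 ≤ dD ∧ 2 * ((K : ℝ) + 1) * J * d0 ≤ κ / 2 ∧
      Kmax * (J * (4 * (((K : ℝ) + 1) * d0))) ≤ ε / 16 := by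
  obtain ⟨d0, hd0, hd0m, hd01, hd0D, hd0κ, hd0q⟩ := ex_min5 (half_pos hdm) hd1 hdD
    (show (0:ℝ) < κ / (4 * (((K : ℝ) + 1) * ((J : ℝ) + 1))) by positivity)
    (show (0:ℝ) < ε / (64 * (Kmax + 1) * (((K : ℝ) + 1) * ((J : ℝ) + 1))) by positivity)
  refine ⟨d0, hd0, hd0m, hd01, hd0D, ?_, ?_⟩
  · rw [le_div_iff₀ (by positivity)] at hd0κ
    have h0 : (0:ℝ) ≤ ((K : ℝ) + 1) * d0 := by positivity
    nlinarith
  · rw [le_div_iff₀ (by positivity)] at hd0q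
    have h1 : Kmax * (J * (4 * (((K : ℝ) + 1) * d0))) ≤
        (Kmax + 1) * (((J : ℝ) + 1) * (4 * (((K : ℝ) + 1) * d0))) := by
      have h0 : (0:ℝ) ≤ ((K : ℝ) + 1) * d0 := by positivity
      have hJ0 : (0:ℝ) ≤ (J : ℝ) := Nat.cast_nonneg _
      exact mul_le_mul (by linarith) (mul_le_mul_of_nonneg_right (by linarith) (by positivity))
        (by positivity) (by linarith)
    nlinarith

/-- a real function of `N` of the form `c / (d N)` is small -/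
theorem c_N {c d κ : ℝ} (hd : 0 < d) (hκ : 0 < κ) : ∃ Na : ℕ, ∀ N : ℕ, Na ≤ N → 0 < N →
    c / (d * N) ≤ κ := by
  obtain ⟨Na, hNa⟩ := exists_nat_ge (c / (d * κ))
  refine ⟨Na, fun N hN hN0 => ?_⟩
  have h0 : (0:ℝ) < N := by exact_mod_cast hN0
  have h1 : c / (d * κ) ≤ N := hNa.trans (by exact_mod_cast hN)
  rw [div_le_iff₀ (by positivity)] at h1
  rw [div_le_iff₀ (by positivity)]
  linarith

end

end Crest.Agent.R164.LG
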