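import Crest.Agent.R164.LFin5

/-!
Row 164, L side (helper893): final assembly, part 6: `LBP` from the module statements.
-/

set_option autoImplicit false

namespace Crest.Agent.R164.LG

open Finset MeasureTheory Filter Topology Crest.Agent.R141 Crest.Agent.R164 Crest.Agent.R164.Haar
open Crest.ProbabilityR.InvariantGlass (spinVec)
open Crest.Agent.R164.LD (Prm HL EPh EO PL TO RJ MO)

noncomputable section

variable (X : Glob)

theorem bd_mono {p : Par} {θ : Prm p X.K X.J} {E A S E' A' S' : ℝ} (h : Bd X E A S θ)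
    (hE : E ≤ E') (hA : A ^ 2 ≤ A' ^ 2) (hS : S ≤ S') : Bd X E' A' S' θ :=
  ⟨fun j => (h.el j).trans hE, fun j => (h.am j).trans hA, fun k => (h.lm k).trans hS⟩

theorem Qd_nonneg' {p : Par} {N : ℕ} (n : ℕ) (Kp : ℝ) (θ : Prm p X.K X.J) (L : Fin N → X.LB) :
    0 ≤ Qd X n Kp θ L := by
  rcases Nat.eq_zero_or_pos N with h | h
  · subst h
    unfold Qd
    refine Finset.sum_nonneg fun j _ => ?_
    split_ifs
    · exact le_rfl
    · simp
  · exact Qd_nonneg X h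

/-- lower corner of the box -/
def lob {p : Par} (act : Finset (Fin p.nc)) (amin lo : ℝ) : LS2.Cd X.K X.J act → ℝ :=
  Sum.elim (fun _ => 0) (Sum.elim (fun _ => amin) (fun _ => lo))

/-- upper corner of the box -/
def hib {p : Par} (act : Finset (Fin p.nc)) (E1 amax lo : ℝ) : LS2.Cd X.K X.J act → ℝ :=
  Sum.elim (fun _ => E1) (Sum.elim (fun _ => amax) (fun _ => 2 * lo))

theorem box_bd {p : Par} {M B : ℕ} {amin amax lo E1 A' v : ℝ} (hamin : 0 ≤ amin) (hlo : 0 ≤ lo)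
    (hMa : (M : ℝ) * amax ^ 2 ≤ A' ^ 2) (hlo5 : (p.nc : ℝ) * (2 * lo) ^ 2 ≤ v)
    (haa : amin ≤ amax)
    {θ : LS2.Cd X.K X.J (actS p M B) → ℝ}
    (h : ∀ x, lob X (actS p M B) amin lo x ≤ θ x ∧ θ x ≤ hib X (actS p M B) E1 amax lo x) :
    (∀ j, |θ (Sum.inl j)| ≤ E1) ∧
    (∀ j g, amin ≤ θ (Sum.inr (Sum.inl (j, g))) ∧ θ (Sum.inr (Sum.inl (j, g))) ≤ amax) ∧
    (∀ k g, lo ≤ θ (Sum.inr (Sum.inr (k, g))) ∧ θ (Sum.inr (Sum.inr (k, g))) ≤ 2 * lo) ∧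
    Bd X E1 A' v (LS2.prm (actS p M B) θ) := by
  have h1 : ∀ j, |θ (Sum.inl j)| ≤ E1 := fun j => by
    have := h (Sum.inl j)
    simp only [lob, hib, Sum.elim_inl] at this
    rw [abs_of_nonneg this.1]
    exact this.2
  have h2 : ∀ j g, amin ≤ θ (Sum.inr (Sum.inl (j, g))) ∧ θ (Sum.inr (Sum.inl (j, g))) ≤ amax :=
    fun j g => by
      have := h (Sum.inr (Sum.inl (j, g)))
      simp only [lob, hib, Sum.elim_inl, Sum.elim_inr] at this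
      exact this
  have h3 : ∀ k g, lo ≤ θ (Sum.inr (Sum.inr (k, g))) ∧ θ (Sum.inr (Sum.inr (k, g))) ≤ 2 * lo :=
    fun k g => by
      have := h (Sum.inr (Sum.inr (k, g)))
      simp only [lob, hib, Sum.elim_inr] at this
      exact this
  refine ⟨h1, h2, h3, bd_prm X (a := amax) (l := 2 * lo) (hamin.trans haa) hMa hlo5 h1
    (fun j g => ?_) fun k g => ?_⟩
  · have := h2 j g
    rw [abs_le]
    constructor <;> linarith [this.1, this.2]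
  · have := h3 k g
    rw [abs_le]
    constructor <;> linarith [this.1, this.2]

theorem prm_am_le {p : Par} {M B : ℕ} {θ : LS2.Cd X.K X.J (actS p M B) → ℝ} {A' : ℝ}
    (hA0 : 0 ≤ A') (hA1 : A' ≤ 1) {E v : ℝ} (h : Bd X E A' v (LS2.prm (actS p M B) θ))
    (j : Fin X.J) (g : Fin p.nc) : |(LS2.prm (actS p M B) θ).am j g| ≤ 1 := by
  have h1 := h.am j
  have h2 : (LS2.prm (actS p M B) θ).am j g ^ 2 ≤ ∑ g, (LS2.prm (actS p M B) θ).am j g ^ 2 :=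
    Finset.single_le_sum (f := fun g => (LS2.prm (actS p M B) θ).am j g ^ 2)
      (fun _ _ => sq_nonneg _) (Finset.mem_univ g)
  have h3 : A' ^ 2 ≤ 1 := by nlinarith
  exact abs_le_one_iff_mul_self_le_one.2 (by nlinarith)


theorem cmp_small {d0 Er c CT κ : ℝ} {N : ℕ} (hd0 : 0 < d0) (hEr : Er ≤ κ * d0 / 2)
    (h : CT / (d0 ^ 2 * N) ≤ κ / 2) (hc : c ≤ CT) (hN : 0 < N) :
    d0⁻¹ * Er + c / (d0 ^ 2 * N) ≤ κ := by
  have hN' : (0:ℝ) < N := by exact_mod_cast hN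
  have h1 : d0⁻¹ * Er ≤ κ / 2 := by
    rw [← div_eq_inv_mul, div_le_iff₀ hd0]
    linarith
  have h2 : c / (d0 ^ 2 * N) ≤ CT / (d0 ^ 2 * N) := div_le_div_of_nonneg_right hc (by positivity)
  linarith

theorem abs_box {p : Par} {act : Finset (Fin p.nc)} {lo hi θ : LS2.Cd X.K X.J act → ℝ}
    (hlo : ∀ x, |lo x| ≤ 1) (hhi : ∀ x, |hi x| ≤ 1) (h : ∀ x, lo x ≤ θ x ∧ θ x ≤ hi x)
    (x : LS2.Cd X.K X.J act) : |θ x| ≤ 1 := by
  have h1 := abs_le.1 (hlo x)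
  have h2 := abs_le.1 (hhi x)
  have h3 := h x
  rw [abs_le]
  constructor <;> linarith [h1.1, h2.2, h3.1, h3.2]

theorem tail_idx {n' M r : ℕ} (hr : 0 < r) (h : n' + 1 = (M + 1) * r) (x : Fin M) :
    ((x : ℕ) + 1) * r ≤ n' := by
  have h1 : ((x : ℕ) + 1) * r ≤ M * r := Nat.mul_le_mul_right r (by have := x.2; omega)
  have h2 : (M + 1) * r = M * r + r := by ring
  omega

theorem k_le {r ε R0 C0 K0 Kp g : ℝ} (hR0 : R0 ≤ r - ε + 3 * (ε / 16)) (hε : 0 < ε)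
    (hK : |r| + C0 ≤ K0 * g * (ε / 2) ^ 2) (h : K0 ≤ Kp) (hg : 0 < g) :
    R0 + C0 ≤ Kp * g * (ε / 2) ^ 2 := by
  have h1 : K0 * g * (ε / 2) ^ 2 ≤ Kp * g * (ε / 2) ^ 2 := by gcongr
  have h2 := le_abs_self r
  linarith

theorem s1_small {ε y κ dl Cd : ℝ} (hε : 0 < ε) (hy : 0 < y) (hκ : 0 < κ) (hκε : κ ≤ ε / 64)
    (hdl : dl ≤ κ * y / 4) (hy1 : y ≤ 1) (hCd : 0 ≤ Cd) (hyC : Cd * Real.sqrt y ≤ κ) :
    (2 * dl + (Cd * (y * Real.sqrt y) + y * κ)) / y + κ ≤ ε / 2 := by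
  have h1 : (2 * dl + (Cd * (y * Real.sqrt y) + y * κ)) / y ≤ 3 * κ := by
    rw [div_le_iff₀ hy]
    nlinarith
  linarith

theorem a_small {e1 E1 A' v W : ℝ} {N : ℕ} (hN : 0 < N) (he1 : 0 < e1) (hW : W / (e1 / 2) ≤ N)
    (hE : E1 ≤ e1 / 8) (hA0 : 0 < A') (hA1 : A' ≤ 1) (hA : A' ≤ e1 / 4) (hv : v ≤ e1 / 8) :
    (N : ℝ) * (E1 + A' ^ 2 / 2 + v / 2) + W ≤ e1 * N := by
  have hNr : (0:ℝ) < N := by exact_mod_cast hN
  rw [div_le_iff₀ (by positivity)] at hW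
  have h3 : E1 + A' ^ 2 / 2 + v / 2 ≤ e1 / 2 := by nlinarith
  have h4 : (N:ℝ) * (E1 + A' ^ 2 / 2 + v / 2) ≤ N * (e1 / 2) := mul_le_mul_of_nonneg_left h3 hNr.le
  linarith

theorem low_c {S C0 Cg W : ℝ} (h : 0 ≤ S) (hCg : 0 ≤ Cg) (hW : 0 ≤ W) :
    -(C0 + (3 * (Cg + 2) + 2 * W)) ≤ S - C0 := by linarith

theorem sum_mv_nonneg {p : Par} {N n : ℕ} {Kp : ℝ} {θ : Prm p X.K X.J} {L : Fin N → X.LB}
    (hN : 0 < N) (hKp : 0 ≤ Kp) : 0 ≤ ∑ j, if X.t j = 0 then 0 else ((X.γ j : ℚ) : ℝ) *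
      (Kp * Eo X n Kp θ L (fun _ _ ω => (MO n (Glob.lab L) j ω - X.t j) ^ 2)) := by
  refine Finset.sum_nonneg fun j _ => ?_
  split_ifs
  · exact le_rfl
  · exact mul_nonneg (gam_nonneg X j) (mul_nonneg hKp (mvar_nonneg X hN j))

set_option maxHeartbeats 4000000 in
/-- **The L side**: contradiction from a sequence of sizes with too small penalised pressures. -/
theorem lbp_false (hKAVG : KAVG X) (hLOWB : LOWB X) (hINCB : INCB X) (hEDIFF : EDIFF X)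
    (hSTRUCT : STRUCT X) (hLLIMA : LLIMA X) (labE : (N : ℕ) → Fin N → X.LB)
    (hk : ∀ k, Tendsto (fun N : ℕ => (LabAvg.cnt (fun i => (labE N i).1) k : ℝ) / N) atTop
      (𝓝 (X.w k)))
    (hl : ∀ j, Tendsto (fun N : ℕ => (LabAvg.cnt (fun i => (labE N i).2) j : ℝ) / N) atTop
      (𝓝 ((X.γ j : ℚ) : ℝ)))
    {ε r : ℝ} (hε : 0 < ε)
    (hr : ∀ m' : Fin X.J → ℝ, (∀ j, |m' j - X.t j| ≤ ε) → (∀ j, X.t j = 0 → m' j = 0) →
      (r : EReal) ≤ ((∑ j : Fin X.J, ((X.γ j : ℚ) : ℝ) * X.c j * m' j : ℝ) : EReal) +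
        Mag.VR (Atomic.atomic X.w X.val) (X.val (Fin.last X.K)) X.γ m')
    (hcon : ∃ᶠ N in atTop, ∀ Kp : ℝ, 0 ≤ Kp → Gp X Kp (labE N) < r - ε) : False := by
  classical
  have hγs' : ∑ j, ((X.γ j : ℚ) : ℝ) = 1 := by exact_mod_cast X.hγs
  have hJpos : 0 < X.J := by
    rcases Nat.eq_zero_or_pos X.J with h | h
    · exfalso
      have : IsEmpty (Fin X.J) := by rw [h]; infer_instance
      rw [Finset.univ_eq_empty, Finset.sum_empty] at hγs'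
      exact zero_ne_one hγs'
    · exact h
  have hNZ : NeZero X.J := ⟨hJpos.ne'⟩
  have hNELB : Nonempty X.LB := ⟨(0, ⟨0, hJpos⟩)⟩
  -- minimal proportions
  obtain ⟨g, hg, hgj⟩ := LS2.exists_min_pos (X := Fin X.J) (f := fun j => ((X.γ j : ℚ) : ℝ))
    (fun j => by exact_mod_cast X.hγ j)
  obtain ⟨dm, hdm, hdmx⟩ := LS2.exists_min_pos (X := X.LB) (f := X.al) (al_pos X)
  have hLR := LF.LR_nonneg X.hv
  obtain ⟨M, hM⟩ := c_M (LF.LR X.val) hε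
  -- constants of the modules
  obtain ⟨C0, hC0, hLOW⟩ := hLOWB 1 1 1
  obtain ⟨Cq, hCq, hKA⟩ := hKAVG 1 1 1
  obtain ⟨K0, hK0, hK0b⟩ := c_K (R := |r| + C0) (by positivity) hg hε
  obtain ⟨I, hI, hIb⟩ := c_I Cq hε
  obtain ⟨Kmax, hKmax⟩ : ∃ x, x = K0 * 2 ^ I := ⟨_, rfl⟩
  have hKmax0 : 0 ≤ Kmax := by rw [hKmax]; positivity
  obtain ⟨Kps, hKps⟩ : ∃ f : Fin I → ℝ, f = fun i : Fin I => K0 * 2 ^ ((i : ℕ) + 1) := ⟨_, rfl⟩
  have hKpsK0 : ∀ i, K0 ≤ Kps i := fun i => by rw [hKps]; exact (c_Kps hK0 I i).1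
  have hKps0 : ∀ i, 0 ≤ Kps i := fun i => hK0.le.trans (hKpsK0 i)
  have hKpsM : ∀ i, Kps i ≤ Kmax := fun i => by rw [hKps, hKmax]; exact (c_Kps hK0 I i).2
  obtain ⟨Cg, hCg⟩ := gpb X Kmax
  -- perturbation size and main strengths
  obtain ⟨e1, he1⟩ : ∃ x, x = ε / 64 := ⟨_, rfl⟩
  have he1p : 0 < e1 := by rw [he1]; positivity
  obtain ⟨A', amax, amin, hA'0, hA'1, hA'e, hamin0, haminmax, hamle1, hMa⟩ := c_a M he1p
  have hamax0 : 0 < amax := hamin0.trans haminmax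
  -- sizes
  obtain ⟨Wt, hWt⟩ : ∃ x, x = 4 * Kmax + 2 * LF.LR X.val * ((M + 1 : ℕ) : ℝ) * (1 + 1 / amin) + 1 :=
    ⟨_, rfl⟩
  have hWt1 : 1 ≤ Wt := by
    have : 0 ≤ 2 * LF.LR X.val * ((M + 1 : ℕ) : ℝ) * (1 + 1 / amin) := by positivity
    rw [hWt]; linarith
  obtain ⟨κ, hκ⟩ : ∃ x, x = ε / (64 * Wt) := ⟨_, rfl⟩
  have hκ0 : 0 < κ := by rw [hκ]; positivity
  have hκε : κ ≤ ε / 64 := by
    rw [hκ]
    exact div_le_div_of_nonneg_left hε.le (by norm_num) (by linarith)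
  obtain ⟨Cd, hCd, hED⟩ := hEDIFF 1 1 Kmax
  obtain ⟨y, hy, hy1, hya, hyC⟩ := c_y hCd hκ0 hamin0
  obtain ⟨dl, E1, hdl0, hdly, hE10, hE1k, hE1e, hE11⟩ := c_E hκ0 hy he1p
  -- truncation and coarse levels
  obtain ⟨Bm, hBm⟩ : ∃ x, x = ∑ j, |X.c j| + 4 * Kmax + 2 := ⟨_, rfl⟩
  obtain ⟨tr0a, htr⟩ := hED κ hκ0
  obtain ⟨tr0b, -, hLLB⟩ := LLimB.llimb X M (2 * amax) Bm (half_pos hdl0)
  obtain ⟨tr, htra, htrb, htr0⟩ : ∃ tr : ℝ, tr0a ≤ tr ∧ tr0b ≤ tr ∧ 0 ≤ tr :=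
    ⟨max (max tr0a tr0b) 0, (le_max_left _ _).trans (le_max_left _ _),
      (le_max_right _ _).trans (le_max_left _ _), le_max_right _ _⟩
  obtain ⟨η, d1, hη, hd1, hED2⟩ := htr tr htra
  obtain ⟨J0b, hJ0b⟩ := hLLB tr htrb
  obtain ⟨J0a, hJ0a⟩ := hLLIMA M (2 * amax) Bm (dl / 2) (half_pos hdl0) tr htr0
  obtain ⟨s, hs⟩ : ∃ s : ℕ, s = J0a + J0b + 1 := ⟨_, rfl⟩
  have hMs : s ≤ (M + 1) * s := Nat.le_mul_of_pos_left s (Nat.succ_pos M)
  obtain ⟨J, hJdef⟩ : ∃ J : ℕ, J + 1 = (M + 1) * s := ⟨(M + 1) * s - 1, by omega⟩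
  obtain ⟨es, hes, q0, hq0⟩ := hJ0a J (by omega) s hJdef
  obtain ⟨n1, hn1⟩ := hSTRUCT 1 1 Kmax es hes
  obtain ⟨qk, hqk⟩ := c_q hκ0
  obtain ⟨q, hq⟩ : ∃ q : ℕ, q = q0 + n1 + 1 + qk := ⟨_, rfl⟩
  have hqpos : 0 < q := by omega
  have hqJ : q ≤ q * (J + 1) := Nat.le_mul_of_pos_right q (Nat.succ_pos J)
  obtain ⟨n', hn'⟩ : ∃ n' : ℕ, n' + 1 = q * (J + 1) := ⟨q * (J + 1) - 1, by omega⟩
  have hn'κ : 2 / ((n' : ℝ) + 1) ≤ κ / 2 := hqk n' (by omega)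
  obtain ⟨wc, hwc, p, hnb, hnc, himax, hhimax, hST⟩ := hn1 n' (by omega)
  -- small strengths
  obtain ⟨v, lo, hlo, hlo1, hvη, hv1, hve, hlo4, hlo5⟩ := c_lo hhimax hη he1p p.nc
  obtain ⟨B, hB⟩ : ∃ B : ℕ, B = q * s * wc := ⟨_, rfl⟩
  obtain ⟨dD, hdD, NaS, hSTR⟩ := hST lo hlo hlo1 (actS p M B)
  -- quality of the labels
  obtain ⟨d0, hd0, hd0m, hd01, hd0D, hd0κ, hd0q⟩ := c_d X.K X.J hdm hd1 hdD hκ0 hε hKmax0
  have hSm : Small X d0 := ⟨hd0, fun x => by have := hdmx x; linarith⟩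
  -- the boxes
  have hlh : ∀ x, lob X (actS p M B) amin lo x < hib X (actS p M B) E1 amax lo x := by
    rintro (j | (jg | kg))
    · exact hE10
    · exact haminmax
    · show lo < 2 * lo
      linarith
  have hlo' : ∀ x, |lob X (actS p M B) amin lo x| ≤ 1 := by
    rintro (j | (jg | kg))
    · show |(0:ℝ)| ≤ 1
      simp
    · show |amin| ≤ 1
      rw [abs_of_pos hamin0]; linarith
    · show |lo| ≤ 1
      rw [abs_of_pos hlo]; linarith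
  have hhi' : ∀ x, |hib X (actS p M B) E1 amax lo x| ≤ 1 := by
    rintro (j | (jg | kg))
    · show |E1| ≤ 1
      rw [abs_of_pos hE10]; exact hE11
    · show |amax| ≤ 1
      rw [abs_of_pos hamax0]; exact hamle1
    · show |2 * lo| ≤ 1
      rw [abs_of_pos (by linarith)]; exact hlo4
  have hBox := fun (θ : LS2.Cd X.K X.J (actS p M B) → ℝ) (h : ∀ x, lob X (actS p M B) amin lo x ≤ θ x ∧
      θ x ≤ hib X (actS p M B) E1 amax lo x) =>
    box_bd X (E1 := E1) hamin0.le hlo.le hMa hlo5 haminmax.le h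
  have hA'sq : A' ^ 2 ≤ 1 ^ 2 := by nlinarith
  have hBd1 : ∀ θ : LS2.Cd X.K X.J (actS p M B) → ℝ, (∀ x, lob X (actS p M B) amin lo x ≤ θ x ∧
      θ x ≤ hib X (actS p M B) E1 amax lo x) → Bd X 1 1 1 (LS2.prm (actS p M B) θ) :=
    fun θ h => bd_mono X (hBox θ h).2.2.2 hE11 hA'sq hv1
  have hBdη : ∀ θ : LS2.Cd X.K X.J (actS p M B) → ℝ, (∀ x, lob X (actS p M B) amin lo x ≤ θ x ∧
      θ x ≤ hib X (actS p M B) E1 amax lo x) → Bd X 1 1 η (LS2.prm (actS p M B) θ) :=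
    fun θ h => bd_mono X (hBox θ h).2.2.2 hE11 hA'sq hvη
  -- thresholds of the modules
  obtain ⟨dc, hdc, NaE, hEDN⟩ := hED2 d0 hSm hd01 p hnb
  obtain ⟨NaL, hLOWN⟩ := hLOW d0 Kmax hSm p hnb
  obtain ⟨NaK, hKAN⟩ := hKA K0 hK0 I p hnb
  obtain ⟨n0I, hIBP⟩ := ibpm X 1 1 1 d0 hSm p hκ0
  obtain ⟨NaA, hLAN⟩ := hq0 q (by omega) n' wc hn' hwc p hnb
  obtain ⟨fE, hfE⟩ := choose_f hEDN
  obtain ⟨fL, hfL⟩ := choose_f hLOWN
  obtain ⟨fS, hfS⟩ := choose_f hSTR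
  obtain ⟨fA, hfA⟩ := choose_f hLAN
  obtain ⟨δ, hδ, hδD, hδε, hδc, hδκ, -⟩ := ex_min5 hdD (show 0 < ε / 16 by positivity)
    (show 0 < dc * d0 by positivity) (show 0 < κ * d0 / 2 by positivity) one_pos
  have hCg0 : 0 ≤ Cg := (abs_nonneg _).trans (hCg 0 0 le_rfl hKmax0 (fun i => i.elim0))
  have hW0 : 0 ≤ (p.nc : ℝ) * p.T * p.τ := by have := p.hτ0; positivity
  obtain ⟨C, hC⟩ : ∃ x, x = C0 + (3 * (Cg + 2) + 2 * (p.nc * p.T * p.τ)) := ⟨_, rfl⟩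
  have hCpos : 0 ≤ C := by rw [hC]; positivity
  obtain ⟨Ig, hIg, NaG, fG, hG⟩ := grid_X X hINCB hnb hKps0 hKpsM hlh hlo' hhi' hBd1 hSm
    (LSel.dsel_pos (r - ε) e1 Cq I hCpos hδ)
  obtain ⟨nn, hnn⟩ : ∃ f : ℕ → ℕ, f = nnF (fun N => fE N + fL N + fS N + fA N + fG N + n0I) :=
    ⟨_, rfl⟩
  have hnnle : ∀ N N1, N ≤ N1 → fE N + fL N + fS N + fA N + fG N + n0I ≤ nn N1 := by
    intro N N1 h
    rw [hnn]
    exact le_nnF (fun N => fE N + fL N + fS N + fA N + fG N + n0I) h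
  have hnnpos : ∀ N1, 0 < nn N1 := fun N1 => by rw [hnn]; exact nnF_pos _ _
  obtain ⟨CT, hCT⟩ : ∃ x, x = ∑ i, |2 * (1 + LS2.CTR p X.val X.c (Kps i) 1)| := ⟨_, rfl⟩
  obtain ⟨NaC, hNaC⟩ := c_N (c := CT) (d := d0 ^ 2) (by positivity) (half_pos hκ0)
  obtain ⟨NaP, hNaP⟩ := exists_nat_ge (((p.nc : ℝ) * p.T * p.τ) / (e1 / 2))
  obtain ⟨Na, hNa⟩ : ∃ x : ℕ, x = NaE + NaL + NaK + NaA + NaS + NaG + NaC + NaP + 1 := ⟨_, rfl⟩
  -- selection
  have hsel := LSel.selection'' (α := X.al) (fun x => (al_pos X x).le) (al_sum X)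
    (fun _ : LS2.Cd X.K X.J (actS p M B) → Fin Ig =>
      ((Ig : ℝ) ^ Fintype.card (LS2.Cd X.K X.J (actS p M B)))⁻¹)
    (fun _ => by positivity) (LS2.weights_sum hIg) hI
    (fun N1 N z i (L : Fin N → X.LB) => Ph X (nn N1) (Kps i) (LS2.prm (actS p M B)
      (LGrid.pt (lob X (actS p M B) amin lo)
        (LS2.stp (lob X (actS p M B) amin lo) (hib X (actS p M B) E1 amax lo) Ig) z)) L)
    (fun N i (L : Fin N → X.LB) => Gp X (Kps i) L) labE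
    (fun N1 N z i (L : Fin N → X.LB) => Er X (nn N1) (Kps i)
      (LGrid.pt (lob X (actS p M B) amin lo)
        (LS2.stp (lob X (actS p M B) amin lo) (hib X (actS p M B) E1 amax lo) Ig) z) L)
    (fun N1 N z i (L : Fin N → X.LB) => Kps i * Qd X (nn N1) (Kps i) (LS2.prm (actS p M B)
      (LGrid.pt (lob X (actS p M B) amin lo)
        (LS2.stp (lob X (actS p M B) amin lo) (hib X (actS p M B) E1 amax lo) Ig) z)) L)
    (Cg := Cg) (C := C) (Cq := Cq) (e1 := e1) (δg := d0) (r := r - ε) hd0 he1p.le hCpos Na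
    (fun N i L _ => hCg N (Kps i) (hKps0 i) (hKpsM i) L)
    (hcon.mono fun N h i => h (Kps i) (hKps0 i))
    ?_ ?_ ?_ ?_ ?_ (δ := δ) hδ ?_ ?_ ?_ Na
  · obtain ⟨N1, N, z, i, L, hNN0, hNN1, hN12, -, hL, hInc, hErr⟩ := hsel
    have hz := fun x => LS2.pt_mem hlh z x
    obtain ⟨θ, hθ⟩ : ∃ θ, θ = LGrid.pt (lob X (actS p M B) amin lo)
        (LS2.stp (lob X (actS p M B) amin lo) (hib X (actS p M B) E1 amax lo) Ig) z := ⟨_, rfl⟩
    rw [← hθ] at hz hInc hErr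
    have hnle := hnnle N N1 hNN1.le
    obtain ⟨n, hn⟩ : ∃ n, n = nn N1 := ⟨_, rfl⟩
    rw [← hn] at hInc hErr hnle
    obtain ⟨hx1, hx2, hx3, hx4⟩ := hBox θ hz
    have hb1 := hBd1 θ hz
    have hbη := hBdη θ hz
    have hN0 : 0 < N := by omega
    have hK0i := hKps0 i
    have hKMi := hKpsM i
    have hKpos : 0 < Kps i := hK0.trans_le (hKpsK0 i)
    obtain ⟨lv, P, hSD⟩ := hfS N (by omega) n (by omega) (Kps i) hK0i hKMi θ (fun j => hb1.el j)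
      (fun j g => prm_am_le X hA'0.le hA'1 hx4 j g) hx3 L (good_mono X hd0D hL) (hErr.trans hδD)
    have hmb := fun j => abs_mbar_le X (n := n) (Kp := Kps i) (θ := LS2.prm (actS p M B) θ)
      (L := L) hN0 j
    have hdev : ∀ j, X.t j ≠ 0 → Eo X n (Kps i) (LS2.prm (actS p M B) θ) L
        (fun _ _ ω => |MO n (Glob.lab L) j ω -
          mbar X n (Kps i) (LS2.prm (actS p M B) θ) L j|) ≤ dc := by
      intro j _
      refine (dev_MO X n hN0 hK0i hSm hL j).trans ?_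
      rw [← div_eq_inv_mul, div_le_iff₀ hd0]
      exact hErr.trans hδc
    have hcmp : d0⁻¹ * Er X n (Kps i) θ L +
        2 * (1 + LS2.CTR p X.val X.c (Kps i) 1) / (d0 ^ 2 * N) ≤ κ :=
      cmp_small hd0 (hErr.trans hδκ) (hNaC N (by omega) hN0)
        (by rw [hCT]; exact (le_abs_self _).trans (Finset.single_le_sum
          (f := fun i => |2 * (1 + LS2.CTR p X.val X.c (Kps i) 1)|) (fun _ _ => abs_nonneg _)
          (Finset.mem_univ i))) hN0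
    have hR0 : r - ε + 3 * e1 + Cq / I + δ ≤ r - ε + 3 * (ε / 16) := by rw [he1]; linarith
    have hlow := hfL N (by omega) n (by omega) (Kps i) hK0i hKMi _ hb1 L hL
    have hqs : 0 < q * s := Nat.mul_pos hqpos (by omega)
    have hn3 : n' + 1 = (M + 1) * (q * s) := by rw [hn', hJdef]; ring
    exact local_false X (Bm := Bm) (tr := tr) (ed := κ) (e3 := κ) (e4 := κ) (e5 := κ)
      (e6 := ε / 16) (R0 := r - ε + 3 * e1 + Cq / I + δ) (d0 := d0) (Kp := Kps i) (n := n)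
      (y := y) (Cd := Cd) (dl := dl) hε.le hr hJdef hn' hwc hN0 hK0i hE10.le hB hx1 hx2 hSD hy hy1
      hya (hya.trans haminmax.le) hdl0.le hκ0.le hCd hκ0.le hκ0.le hκ0.le
      (fun j => by
        rw [hBm]
        exact abs_bb_le X hK0i hKMi (fun j => hb1.el j) hmb j)
      (hfE N (by omega) n (by omega) (Kps i) hK0i hKMi _ hbη L hL _ hmb hdev)
      (hfA N (by omega) n (by omega) (Kps i) _ L lv P hSD)
      (hJ0b J (by omega) s hJdef q hqpos n' hn' P hSD.step hSD.lt1)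
      (fun k j g hg => (cmp_TO X n hnb hN0 hK0i (fun x => (abs_box X hlo' hhi' hz x)) hSm hL k j hg).trans hcmp)
      (fun k j => (cmp_MO X n hnb hN0 hK0i (fun x => (abs_box X hlo' hhi' hz x)) hSm hL k j).trans hcmp)
      (fun j g => hIBP N hN0 n (by omega) (Kps i) _ hb1 L hL j g)
      (fun x => by
        have h := mtail X d0 hSm p N n n' wc (Kps i) _ L es lv P hN0 hL hSD x (q * s) hqs hwc
          (tail_idx hqs hn3 x)
        rw [← hB] at h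
        refine h.trans ?_
        linarith)
      hInc hd0.le hL
      ((mul_le_mul_of_nonneg_right hKMi (by positivity)).trans hd0q)
      (fun j hj => dev_small X (C0 := C0) (R := r - ε + 3 * e1 + Cq / I + δ) (g := g) hN0 hK0i
        hlow hInc hε.le hg hgj (k_le hR0 hε hK0b (hKpsK0 i) hg) hKpos j hj)
      (s1_small hε hy hκ0 hκε hdly hy1 hCd hyC)
      (final_ineq hε hy hamin0 hK0i hKMi hLR (by positivity) hdl0.le hM hκ hWt hdly hE1k hy1 hE10.le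
        hyC le_rfl hκ0.le le_rfl le_rfl le_rfl le_rfl hκ0.le hκ0.le hCd hR0)
  · -- (a)
    intro N1 N z i L hN hN1 hN2
    have hN0 : 0 < N := by omega
    have hz := fun x => LS2.pt_mem hlh z x
    have h := pert X hnb (nn N1) hN0 (Kps i) (hBox _ hz).2.2.2 L
    refine h.trans ?_
    exact a_small hN0 he1p (hNaP.trans (by exact_mod_cast (by omega : NaP ≤ N))) hE1e hA'0 hA'1
      hA'e hve
  · -- (b)
    intro i
    exact LabTr.tendsto_Psi_PEN X.val X.c (fun j => (X.ht j).le) (K := fun _ => Kps i)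
      (fun _ => hKps0 i) (fun _ => hKpsM i) X.hs hγs' X.hw (fun j => gam_nonneg X j) X.nu X.hnu
      X.hR (fun N i => (labE N i).1) (fun N i => (labE N i).2) hk hl
  · -- (c)
    intro N1 N z i L hN hN1 hN2 hL
    have hN0 : 0 < N := by omega
    have hz := fun x => LS2.pt_mem hlh z x
    have hnle := hnnle N N1 hN1.le
    have h := hfL N (by omega) (nn N1) (by omega) (Kps i) (hKps0 i) (hKpsM i) _ (hBd1 _ hz) L hL
    refine le_trans ?_ h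
    rw [hC]
    refine low_c (sum_mv_nonneg X hN0 (hKps0 i)) hCg0 hW0
  · -- (c')
    intro N1 N z i L hN hN1 hN2
    have hN0 : 0 < N := by omega
    have hz := fun x => LS2.pt_mem hlh z x
    have h := crude_Inc X hnb (nn N1) hN0 (hKps0 i) (hKpsM i) hCg (hBd1 _ hz) L
    refine le_trans ?_ h
    rw [hC]
    exact neg_le_neg (mul_le_mul_of_nonneg_right (by linarith) (Nat.cast_nonneg N))
  · intro N1 N z i L
    exact Er_nonneg X _
  · -- (d)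
    refine ⟨Na, fun N1 N i L hN hN1 hN2 hL => ?_⟩
    have hnle := hnnle N N1 hN1.le
    exact hG N (by omega) (nn N1) (by omega) i L hL
  · intro N1 N z i L
    exact mul_nonneg (hKps0 i) (Qd_nonneg' X _ _ _ _)
  · -- (e)
    intro N1 N z L hN hN1 hN2
    have hz := fun x => LS2.pt_mem hlh z x
    have h := hKAN N (by omega) (nn N1) (hnnpos N1) _ (hBd1 _ hz) L
    rw [hKps]
    exact h

end

end Crest.Agent.R164.LG
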