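import Crest.Agent.R164.LFin6
import Crest.Agent.R164.LPen2

/-!
Row 164, L side (helper893): final assembly, part 7: the penalised lower bound `LBP` for finite
spectra, from the module statements.
-/

set_option autoImplicit false

namespace Crest.Agent.R164.LG

open Finset MeasureTheory Filter Topology Crest.Agent.R141 Crest.Agent.R164 Crest.Agent.R164.Haar

noncomputable section

/-- **The penalised lower bound**, from the module statements. -/
theorem lbp_of (hKAVG : ∀ X, KAVG X) (hLOWB : ∀ X, LOWB X) (hINCB : ∀ X, INCB X)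
    (hEDIFF : ∀ X, EDIFF X) (hSTRUCT : ∀ X, STRUCT X) (hLLIMA : ∀ X, LLIMA X)
    (K : ℕ) (w val : Fin (K + 1) → ℝ) (hv : StrictMono val) (hw : ∀ k, 0 < w k)
    (hs : ∑ k, w k = 1) (labE : (N : ℕ) → Fin N → Fin (K + 1))
    (hlabE : ∀ k, Tendsto (fun N : ℕ =>
      ((Finset.univ.filter fun i : Fin N => labE N i = k).card : ℝ) / (N : ℝ)) atTop (𝓝 (w k)))
    (nu : (N : ℕ) → Measure (Mat (Fin N))) (hnu : ∀ N, IsProbabilityMeasure (nu N))
    (hR : ∀ N, RHaar (nu N)) :
    Mag.LBP (Atomic.atomic w val) (val (Fin.last K)) (fun N i => val (labE N i)) nu := by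
  intro J cval γ hγ hγs lab hlab t ht ε hε r hr
  by_contra hne
  rw [Filter.not_eventually] at hne
  refine lbp_false ⟨K, J, w, val, hv, hw, hs, γ, hγ, hγs, cval, t, ht, nu, hnu, hR⟩
    (hKAVG _) (hLOWB _) (hINCB _) (hEDIFF _) (hSTRUCT _) (hLLIMA _)
    (fun N i => (labE N i, lab N i)) hlabE hlab hε hr (hne.mono fun N hN Kp hKp => ?_)
  by_contra h
  refine hN ⟨Kp, hKp, ?_⟩
  exact not_lt.1 h

end

end Crest.Agent.R164.LG
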