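import Crest.Agent.R164.LFin8
import Crest.Agent.R164.EDq9

/-!
Row 164, L side (helper893): **the penalised lower bound for finite spectra**, unconditional.
-/

set_option autoImplicit false

namespace Crest.Agent.R164.LG

open Finset MeasureTheory Filter Topology Crest.Agent.R141 Crest.Agent.R164 Crest.Agent.R164.Haar

noncomputable section

/-- **The penalised lower bound for finite spectra.** -/
theorem lbp_main (K : ℕ) (w val : Fin (K + 1) → ℝ) (hv : StrictMono val)
    (hw : ∀ k, 0 < w k) (hs : ∑ k, w k = 1) (labE : (N : ℕ) → Fin N → Fin (K + 1))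
    (hlabE : ∀ k, Tendsto (fun N : ℕ =>
      ((Finset.univ.filter fun i : Fin N => labE N i = k).card : ℝ) / (N : ℝ)) atTop (𝓝 (w k)))
    (nu : (N : ℕ) → Measure (Mat (Fin N))) (hnu : ∀ N, IsProbabilityMeasure (nu N))
    (hR : ∀ N, RHaar (nu N)) :
    Mag.LBP (Atomic.atomic w val) (val (Fin.last K)) (fun N i => val (labE N i)) nu :=
  lbp ED.ediff0 K w val hv hw hs labE hlabE nu hnu hR

end

end Crest.Agent.R164.LG
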