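import Crest.Agent.R164.FieldCrit
import Crest.Agent.R164.PAlg2
import Crest.Agent.R164.Mag1
import Crest.Agent.R164.RTrans2

/-!
Row 164, L side (helper893): final analysis. From an approximately critical step path to an upper
bound on the real constrained value `VR`.
-/

set_option autoImplicit false

namespace Crest.Agent.R164.LF

open MeasureTheory Set Filter Topology
open Crest.ProbabilityR.InvariantGlass
open Crest.Agent.R164.GC Crest.Agent.R164.PAlg Crest.Agent.R164.Mag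
open Crest.Agent.R164.RTrans Crest.Agent.R164.Atomic

noncomputable section

/-- the group path `P = Σ_j γ_j P_j` -/
def gP {J k : ℕ} (γ : Fin J → ℚ) (b : Fin J → ℝ) (wd : Fin k → ℝ) (h : Fin J → Fin k → ℝ)
    (i : Fin k) : ℝ := ∑ j, ((γ j : ℚ) : ℝ) * pAt (b j) wd (h j) i

theorem stepFn_sum {J k : ℕ} (γ : Fin J → ℝ) (wd : Fin k → ℝ) (q : Fin J → Fin k → ℝ) (u : ℝ) :
    stepFn wd (fun i => ∑ j, γ j * q j i) u = ∑ j, γ j * stepFn wd (q j) u := by
  unfold stepFn
  simp only [Finset.mul_sum]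
  rw [Finset.sum_comm]
  refine Finset.sum_congr rfl fun i _ => ?_
  split_ifs
  · rfl
  · simp

theorem stepFn_meas {k : ℕ} (w p : Fin k → ℝ) : Measurable (stepFn w p) := by
  unfold stepFn
  refine Finset.measurable_sum _ fun i _ => ?_
  refine Measurable.ite ?_ measurable_const measurable_const
  exact measurableSet_Ioc

theorem stepFn_bdd {k : ℕ} (w p : Fin k → ℝ) (u : ℝ) : |stepFn w p u| ≤ ∑ i, |p i| := by
  unfold stepFn
  refine (Finset.abs_sum_le_sum_abs _ _).trans (Finset.sum_le_sum fun i _ => ?_)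
  split_ifs
  · exact le_rfl
  · simp

theorem stepFn_int {k : ℕ} (w p : Fin k → ℝ) : IntegrableOn (stepFn w p) (Ioo 0 1) := by
  refine Measure.integrableOn_of_bounded (M := ∑ i, |p i|) ?_
    (stepFn_meas w p).aestronglyMeasurable ?_
  · exact measure_Ioo_lt_top.ne
  · exact Eventually.of_forall fun u => by rw [Real.norm_eq_abs]; exact stepFn_bdd w p u

theorem stepFn_mul_int {k k' : ℕ} (w p : Fin k → ℝ) (w' p' : Fin k' → ℝ) :
    IntegrableOn (fun u => stepFn w p u * stepFn w' p' u) (Ioo 0 1) := by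
  refine Measure.integrableOn_of_bounded (M := (∑ i, |p i|) * (∑ i, |p' i|)) ?_
    ((stepFn_meas w p).mul (stepFn_meas w' p')).aestronglyMeasurable ?_
  · exact measure_Ioo_lt_top.ne
  · refine Eventually.of_forall fun u => ?_
    rw [Real.norm_eq_abs, abs_mul]
    exact mul_le_mul (stepFn_bdd w p u) (stepFn_bdd w' p' u) (abs_nonneg _)
      (Finset.sum_nonneg fun _ _ => abs_nonneg _)

section trial

variable {m : ℕ} {wd : Fin (m + 1) → ℝ} (hwd : ∀ i, 0 < wd i) (hwds : ∑ i, wd i = 1)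
include hwd hwds

/-- step functions of monotone `[0,1]`-valued data are trial paths -/
theorem trial_step {q : Fin (m + 1) → ℝ} (hq : Monotone q) (h0 : ∀ i, 0 ≤ q i)
    (h1 : ∀ i, q i ≤ 1) : IsTrialPath (stepFn wd q) := by
  refine ⟨stepFn_meas wd q, ?_, ?_⟩
  · intro s hs t ht hst
    obtain ⟨i, hi⟩ := exists_cell hwds hs.1 hs.2.le
    obtain ⟨j, hj⟩ := exists_cell hwds ht.1 ht.2.le
    rw [stepFn_cell hwd q hi, stepFn_cell hwd q hj]
    rcases le_or_gt i j with hij | hij
    · exact hq hij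
    · exfalso
      have := ze_add_le hwd hij
      linarith [hi.1, hj.2]
  · intro s hs
    obtain ⟨i, hi⟩ := exists_cell hwds hs.1 hs.2.le
    rw [stepFn_cell hwd q hi]
    exact ⟨h0 i, h1 i⟩

end trial

theorem ereal_le_sub {x : EReal} {c B : ℝ} (h : x + (c : EReal) ≤ (B : EReal)) :
    x ≤ ((B - c : ℝ) : EReal) := by
  induction x with
  | bot => exact bot_le
  | top => simp at h
  | coe x =>
    have h' : x + c ≤ B := by exact_mod_cast h
    exact_mod_cast le_sub_iff_add_le.2 h'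

theorem ereal_coe_sum {ι : Type*} (s : Finset ι) (f : ι → ℝ) :
    ((∑ i ∈ s, f i : ℝ) : EReal) = ∑ i ∈ s, (f i : EReal) := by
  classical
  induction s using Finset.induction_on with
  | empty => simp
  | insert a s ha ih => rw [Finset.sum_insert ha, Finset.sum_insert ha, EReal.coe_add, ih]

theorem ereal_sum_le {J : ℕ} {γ : Fin J → ℝ} (hγ : ∀ j, 0 ≤ γ j) {x : Fin J → EReal}
    {y : Fin J → ℝ} (h : ∀ j, x j ≤ (y j : EReal)) :
    ∑ j, (γ j : EReal) * x j ≤ ((∑ j, γ j * y j : ℝ) : EReal) := by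
  rw [ereal_coe_sum]
  refine Finset.sum_le_sum fun j _ => ?_
  rw [EReal.coe_mul]
  exact mul_le_mul_of_nonneg_left (h j) (EReal.coe_nonneg.2 (hγ j))

section crit

variable {J m : ℕ} {γ : Fin J → ℚ} (hγ : ∀ j, 0 < γ j) {b : Fin J → ℝ}
  {wd : Fin (m + 1) → ℝ} {h : Fin J → Fin (m + 1) → ℝ} (hstep : ∀ j, IsStepField wd (h j))
include hγ hstep

/-- `S_m̂(P) ≤ Σ_j γ_j (ℓ_{b_j}(h_j) - b_j m̂_j + ½ ∫ P_j h_j)`. -/
theorem cepR_le (hC : Conc) :
    cepR γ (fun j => magAt (b j) wd (h j)) (stepFn wd (gP γ b wd h)) ≤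
      ((∑ j, ((γ j : ℚ) : ℝ) * (fieldValueAt (b j) wd (h j) - b j * magAt (b j) wd (h j) +
        1 / 2 * ∫ u in Ioo (0 : ℝ) 1, pathP (b j) wd (h j) u * stepFn wd (h j) u) : ℝ) :
          EReal) := by
  unfold cepR
  refine iSup_le fun k => iSup_le fun w' => iSup_le fun hv' => iSup_le fun h' => ?_
  have hγ' : ∀ j, (0:ℝ) ≤ ((γ j : ℚ) : ℝ) := fun j => by exact_mod_cast (hγ j).le
  have h1 : ∀ j, constrainedFieldValue (magAt (b j) wd (h j)) w' hv' ≤
      ((fieldValueAt (b j) wd (h j) - b j * magAt (b j) wd (h j) +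
        1 / 2 * (∫ u in Ioo (0 : ℝ) 1, pathP (b j) wd (h j) u * stepFn wd (h j) u) -
        1 / 2 * (∫ u in Ioo (0 : ℝ) 1, pathP (b j) wd (h j) u * stepFn w' hv' u) : ℝ) :
          EReal) := fun j => ereal_le_sub (critical_EReal hC (hstep j) h' (b j))
  have h2 := ereal_sum_le hγ' h1
  have h3 : ∫ u in Ioo (0 : ℝ) 1, stepFn wd (gP γ b wd h) u * stepFn w' hv' u =
      ∑ j, ((γ j : ℚ) : ℝ) * ∫ u in Ioo (0 : ℝ) 1, pathP (b j) wd (h j) u * stepFn w' hv' u := by
    have e : ∀ u, stepFn wd (gP γ b wd h) u * stepFn w' hv' u =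
        ∑ j, ((γ j : ℚ) : ℝ) * (pathP (b j) wd (h j) u * stepFn w' hv' u) := by
      intro u
      have := stepFn_sum (fun j => ((γ j : ℚ) : ℝ)) wd (fun j => pAt (b j) wd (h j)) u
      show stepFn wd (fun i => ∑ j, ((γ j : ℚ) : ℝ) * pAt (b j) wd (h j) i) u * _ = _
      rw [this, Finset.sum_mul]
      exact Finset.sum_congr rfl fun j _ => by unfold pathP; ring
    simp only [e]
    rw [integral_finsetSum]
    · exact Finset.sum_congr rfl fun j _ => integral_const_mul _ _
    · intro j _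
      exact (stepFn_mul_int _ _ _ _).const_mul _
  rw [h3]
  show ∑ j : Fin J, (((γ j : ℚ) : ℝ) : EReal) * constrainedFieldValue _ w' hv' + _ ≤ _
  refine (add_le_add h2 le_rfl).trans ?_
  rw [← EReal.coe_add, EReal.coe_le_coe_iff, Finset.mul_sum, ← Finset.sum_add_distrib]
  refine Finset.sum_le_sum fun j _ => le_of_eq ?_
  ring

theorem gP_nonneg (i : Fin (m + 1)) : 0 ≤ gP γ b wd h i :=
  Finset.sum_nonneg fun j _ => mul_nonneg (by exact_mod_cast (hγ j).le)
    (pAt_nonneg (hstep j) _ _)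

theorem gP_mono : Monotone (gP γ b wd h) := fun i i' hi =>
  Finset.sum_le_sum fun j _ => mul_le_mul_of_nonneg_left (pAt_mono (hstep j) _ hi)
    (by exact_mod_cast (hγ j).le)

theorem gP_le_one (hγs : ∑ j, γ j = 1) (i : Fin (m + 1)) : gP γ b wd h i ≤ 1 := by
  have h1 : gP γ b wd h i ≤ ∑ j, ((γ j : ℚ) : ℝ) * 1 :=
    Finset.sum_le_sum fun j _ => mul_le_mul_of_nonneg_left (pAt_le_one (hstep j) _ _)
      (by exact_mod_cast (hγ j).le)
  refine h1.trans (le_of_eq ?_)
  simp only [mul_one]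
  exact_mod_cast hγs

end crit

/-- **Final analysis.** -/
theorem final (hC : Conc) {K m J : ℕ} {w val : Fin (K + 1) → ℝ} (hv : StrictMono val)
    (hw : ∀ k, 0 < w k) (hs : ∑ k, w k = 1) {γ : Fin J → ℚ} (hγ : ∀ j, 0 < γ j)
    (hγs : ∑ j, γ j = 1) {wd p : Fin (m + 1) → ℝ} (hwd : ∀ i, 0 < wd i) (hwds : ∑ i, wd i = 1)
    (hp : Monotone p) (hp0 : ∀ i, 0 ≤ p i) (hp1 : ∀ i, p i ≤ 1) (hD : 0 < Dd wd p 0)
    {V : Fin J → Fin (m + 1) → ℝ} (hV : ∀ j, Monotone (V j)) (hV0 : ∀ j i, 0 ≤ V j i)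
    (b : Fin J → ℝ) {X e : ℝ}
    (hX : ∑ j, ((γ j : ℚ) : ℝ) * (fieldValueAt (b j) wd (fun i => hh w val wd p i + V j i) +
        1 / 2 * (hh w val wd p (Fin.last m) + V j (Fin.last m))) -
        1 / 2 * hh w val wd p (Fin.last m) + 1 / 2 * ∑ i, wd i * (p i * hh w val wd p i) +
        spectralPart (atomic w val) (val (Fin.last K)) (stepFn wd p) ≤ X)
    (hP : ∑ i, wd i * |gP γ b wd (fun j i => hh w val wd p i + V j i) i - p i| ≤ e) :
    VR (atomic w val) (val (Fin.last K)) γ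
      (fun j => magAt (b j) wd (fun i => hh w val wd p i + V j i)) ≤
      ((X - ∑ j, ((γ j : ℚ) : ℝ) * (b j * magAt (b j) wd (fun i => hh w val wd p i + V j i)) +
        (1 / 2 * hh w val wd p (Fin.last m) +
          (1 / 2) * ((val (Fin.last K) - val 0) ^ 2 * (1 + (val (Fin.last K) - val 0)))) * e :
            ℝ) : EReal) := by
  have hprob := atomic_prob (w := w) val (fun k => (hw k).le) hs
  set hj : Fin J → Fin (m + 1) → ℝ := fun j i => hh w val wd p i + V j i with hjdef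
  have hhs := hh_stepField hv hw hs hwd hwds hp hp0 hp1 hD
  have hstep : ∀ j, IsStepField wd (hj j) := fun j =>
    ⟨hhs.1, hhs.2.1, hhs.2.2.1, hhs.2.2.2.1.add (hV j), fun i =>
      add_nonneg (hhs.2.2.2.2 i) (hV0 j i)⟩
  have hγ' : ∀ j, (0:ℝ) ≤ ((γ j : ℚ) : ℝ) := fun j => by exact_mod_cast (hγ j).le
  have hγs' : ∑ j, ((γ j : ℚ) : ℝ) = 1 := by exact_mod_cast hγs
  set P := gP γ b wd hj with hPdef
  have hPt : IsTrialPath (stepFn wd P) :=
    trial_step hwd hwds (gP_mono hγ hstep) (gP_nonneg hγ hstep) (gP_le_one hγ hstep hγs)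
  have hpt : IsTrialPath (stepFn wd p) := trial_step hwd hwds hp hp0 hp1
  -- the spectral parts
  have hG := spectralPart_lip (supp hv hw hs) hPt hpt
  have hint : ∫ s in Ioo (0:ℝ) 1, |stepFn wd P s - stepFn wd p s| =
      ∑ i, wd i * |P i - p i| := by
    have := integral_cell hwd hwds (fun s => |stepFn wd P s - stepFn wd p s|)
      (fun i => |P i - p i|) (fun s i h1 h2 => by
        rw [stepFn_cell hwd P ⟨h1, h2⟩, stepFn_cell hwd p ⟨h1, h2⟩])
    exact this
  rw [hint] at hG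
  -- the value
  have hS := cepR_le hγ hstep hC (b := b)
  have hI : ∀ j, ∫ u in Ioo (0 : ℝ) 1, pathP (b j) wd (hj j) u * stepFn wd (hj j) u =
      ∑ i, wd i * (pAt (b j) wd (hj j) i * hj j i) := fun j =>
    integral_step_mul hwd hwds _ _
  refine (iInf₂_le _ hPt).trans ?_
  refine (add_le_add hS le_rfl).trans ?_
  rw [← EReal.coe_add, EReal.coe_le_coe_iff]
  simp only [hI]
  -- bookkeeping
  have hL1 : ∑ i, wd i * (P i * hh w val wd p i) ≤
      ∑ i, wd i * (p i * hh w val wd p i) + hh w val wd p (Fin.last m) * e := by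
    have h1 : ∀ i, wd i * (P i * hh w val wd p i) ≤
        wd i * (p i * hh w val wd p i) + hh w val wd p (Fin.last m) * (wd i * |P i - p i|) := by
      intro i
      have a1 : P i - p i ≤ |P i - p i| := le_abs_self _
      have a2 := hhs.2.2.2.2 i
      have a3 : hh w val wd p i ≤ hh w val wd p (Fin.last m) := hhs.2.2.2.1 (Fin.le_last i)
      have a4 := (hwd i).le
      have a5 : (P i - p i) * hh w val wd p i ≤ |P i - p i| * hh w val wd p (Fin.last m) :=
        (mul_le_mul_of_nonneg_right a1 a2).trans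
          (mul_le_mul_of_nonneg_left a3 (abs_nonneg _))
      have a6 := mul_le_mul_of_nonneg_left a5 a4
      nlinarith
    have h2 := Finset.sum_le_sum fun i (_ : i ∈ Finset.univ) => h1 i
    rw [Finset.sum_add_distrib, ← Finset.mul_sum] at h2
    have h3 := mul_le_mul_of_nonneg_left hP (hhs.2.2.2.2 (Fin.last m))
    linarith
  have hsplit : ∑ j, ((γ j : ℚ) : ℝ) * ∑ i, wd i * (pAt (b j) wd (hj j) i * hj j i) ≤
      ∑ i, wd i * (P i * hh w val wd p i) + ∑ j, ((γ j : ℚ) : ℝ) * V j (Fin.last m) := by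
    have h1 : ∀ j, ∑ i, wd i * (pAt (b j) wd (hj j) i * hj j i) ≤
        ∑ i, wd i * (pAt (b j) wd (hj j) i * hh w val wd p i) + V j (Fin.last m) := by
      intro j
      have h2 : ∀ i, wd i * (pAt (b j) wd (hj j) i * hj j i) ≤
          wd i * (pAt (b j) wd (hj j) i * hh w val wd p i) + wd i * V j (Fin.last m) := by
        intro i
        have a1 := pAt_nonneg (hstep j) (b j) i
        have a2 := pAt_le_one (hstep j) (b j) i
        have a3 := hV j (Fin.le_last i)
        have a4 := (hwd i).le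
        have a5 := hV0 j i
        have a6 : pAt (b j) wd (hj j) i * V j i ≤ V j (Fin.last m) := by nlinarith
        have a7 := mul_le_mul_of_nonneg_left a6 a4
        have e1 : hj j i = hh w val wd p i + V j i := rfl
        rw [e1]
        nlinarith
      have h3 := Finset.sum_le_sum fun i (_ : i ∈ Finset.univ) => h2 i
      rw [Finset.sum_add_distrib, ← Finset.sum_mul, hwds, one_mul] at h3
      exact h3
    have h4 := Finset.sum_le_sum fun j (_ : j ∈ Finset.univ) =>
      mul_le_mul_of_nonneg_left (h1 j) (hγ' j)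
    refine h4.trans (le_of_eq ?_)
    simp only [mul_add, Finset.sum_add_distrib]
    congr 1
    simp only [Finset.mul_sum]
    rw [Finset.sum_comm]
    refine Finset.sum_congr rfl fun i _ => ?_
    rw [hPdef]
    unfold gP
    rw [Finset.sum_mul, Finset.mul_sum]
    exact Finset.sum_congr rfl fun j _ => by ring
  have hG' := (abs_le.1 hG).2
  have hCe : (1 / 2) * ((val (Fin.last K) - val 0) ^ 2 * (1 + (val (Fin.last K) - val 0))) *
      ∑ i, wd i * |P i - p i| ≤
      (1 / 2) * ((val (Fin.last K) - val 0) ^ 2 * (1 + (val (Fin.last K) - val 0))) * e := by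
    refine mul_le_mul_of_nonneg_left hP ?_
    have : 0 ≤ val (Fin.last K) - val 0 := by
      have := hv.monotone (Fin.zero_le (Fin.last K)); linarith
    positivity
  have e1 : ∑ j, ((γ j : ℚ) : ℝ) * (fieldValueAt (b j) wd (hj j) -
      b j * magAt (b j) wd (hj j) + 1 / 2 * ∑ i, wd i * (pAt (b j) wd (hj j) i * hj j i)) =
      ∑ j, ((γ j : ℚ) : ℝ) * fieldValueAt (b j) wd (hj j) -
      ∑ j, ((γ j : ℚ) : ℝ) * (b j * magAt (b j) wd (hj j)) +
      1 / 2 * ∑ j, ((γ j : ℚ) : ℝ) * ∑ i, wd i * (pAt (b j) wd (hj j) i * hj j i) := by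
    rw [Finset.mul_sum, ← Finset.sum_sub_distrib, ← Finset.sum_add_distrib]
    exact Finset.sum_congr rfl fun j _ => by ring
  have e2 : ∑ j, ((γ j : ℚ) : ℝ) * (fieldValueAt (b j) wd (fun i => hh w val wd p i + V j i) +
        1 / 2 * (hh w val wd p (Fin.last m) + V j (Fin.last m))) =
      ∑ j, ((γ j : ℚ) : ℝ) * fieldValueAt (b j) wd (hj j) +
        1 / 2 * hh w val wd p (Fin.last m) + 1 / 2 * ∑ j, ((γ j : ℚ) : ℝ) * V j (Fin.last m) := by
    have : ∀ j, ((γ j : ℚ) : ℝ) * (fieldValueAt (b j) wd (fun i => hh w val wd p i + V j i) +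
        1 / 2 * (hh w val wd p (Fin.last m) + V j (Fin.last m))) =
        ((γ j : ℚ) : ℝ) * fieldValueAt (b j) wd (hj j) +
        (((γ j : ℚ) : ℝ) * (1 / 2 * hh w val wd p (Fin.last m)) +
          1 / 2 * (((γ j : ℚ) : ℝ) * V j (Fin.last m))) := fun j => by ring
    simp only [this, Finset.sum_add_distrib]
    rw [← Finset.sum_mul, hγs', ← Finset.mul_sum]
    ring
  rw [e2] at hX
  rw [e1]
  nlinarith

end

end Crest.Agent.R164.LF
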