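import Crest.Agent.R164.LStruct2G
import Crest.Agent.R164.LStruct2F
import Crest.Agent.R164.LGDef

/-!
# Row 164, module GL9: `LG.GRID`

The directions of the parameter vector `θ : Co X p M → ℝ` of `LGDef`, and the choice of the grid.
-/

set_option autoImplicit false
set_option linter.unusedSectionVars false
set_option linter.unusedVariables false

namespace Crest.Agent.R164.LGx

open Finset MeasureTheory Filter Crest.Agent.R141 Crest.Agent.R164 Crest.Agent.R164.Haar
open Crest.ProbabilityR.InvariantGlass (spinVec)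
open Crest.Agent.R164.LG
open Crest.Agent.R164.LGrid (gavg pt sh SD)
open Crest.Agent.R164.LS2 (Adm Fam PB InBox stp stp_pos stp_top exists_min_pos)

noncomputable section

variable (X : Glob) {p : Par} {N : ℕ}

/-- the part without parameters -/
def HZ (n : ℕ) (Kp : ℝ) (L : Fin N → X.LB) (U : Mat (Fin N))
    (s : SY.SS p n (Finset.univ : Finset (Fin N → Bool))) : ℝ :=
  1 * Mag.qd (fun i => X.val (Glob.kap L i)) (Matrix.of U) s.1.1 +
    Mag.PEN X.c X.t Kp (Glob.lab L) s.1.1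

/-- **the Hamiltonian is affine in the parameters.** -/
theorem Hm_eq (n M B : ℕ) (Kp : ℝ) (θ : Co X p M → ℝ) (L : Fin N → X.LB) (U : Mat (Fin N))
    (s : SY.SS p n (Finset.univ : Finset (Fin N → Bool))) :
    Hm X n Kp (prm X p M B θ) L U s = HZ X n Kp L U s + ∑ x, θ x * Vd X n M B L x U s := by
  rw [Fintype.sum_sum_type, Fintype.sum_sum_type, Fintype.sum_prod_type, Fintype.sum_prod_type]
  unfold Hm LD.HL SY.HS SY.h0q LD.VL HZ prm
  simp only [Vd]
  have e1 : ∑ i, (if X.t (Glob.lab L i) = 0 then 0 else θ (Sum.inl (Glob.lab L i))) *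
      spinVec s.1.1 i =
      ∑ j, θ (Sum.inl j) * (if X.t j = 0 then 0 else
        ∑ i, if Glob.lab L i = j then spinVec s.1.1 i else 0) := by
    rw [LS2.sum_lab (Glob.lab L) (fun j => if X.t j = 0 then 0 else θ (Sum.inl j))
      (fun i => spinVec s.1.1 i)]
    refine Finset.sum_congr rfl fun j _ => ?_
    by_cases hj : X.t j = 0
    · rw [if_pos hj, if_pos hj]; ring
    · rw [if_neg hj, if_neg hj]
  have e2 : ∑ g : Fin p.nc, ∑ i, amF p B (fun q => θ (Sum.inr (Sum.inl (Glob.lab L i, q)))) g *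
      (SY.zf s.2.1 g i * sv (s.1.1 i)) = ∑ j, ∑ q : Fin M, θ (Sum.inr (Sum.inl (j, q))) *
        ∑ g : Fin p.nc, (if (g : ℕ) = cellA B q then
          ∑ i, if Glob.lab L i = j then SY.zf s.2.1 g i * sv (s.1.1 i) else 0 else 0) := by
    have a1 : ∀ g : Fin p.nc, ∑ i, amF p B (fun q => θ (Sum.inr (Sum.inl (Glob.lab L i, q)))) g *
        (SY.zf s.2.1 g i * sv (s.1.1 i)) = ∑ j, ∑ q : Fin M, θ (Sum.inr (Sum.inl (j, q))) *
          (if (g : ℕ) = cellA B q then
          ∑ i, if Glob.lab L i = j then SY.zf s.2.1 g i * sv (s.1.1 i) else 0 else 0) := by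
      intro g
      rw [LS2.sum_lab (Glob.lab L) (fun j => amF p B (fun q => θ (Sum.inr (Sum.inl (j, q)))) g)
        (fun i => SY.zf s.2.1 g i * sv (s.1.1 i))]
      refine Finset.sum_congr rfl fun j _ => ?_
      unfold amF
      rw [Finset.sum_mul]
      refine Finset.sum_congr rfl fun q _ => ?_
      by_cases hq : (g : ℕ) = cellA B q
      · rw [if_pos hq, if_pos hq]
      · rw [if_neg hq, if_neg hq]; ring
    rw [Finset.sum_congr rfl fun g _ => a1 g, Finset.sum_comm]
    refine Finset.sum_congr rfl fun j _ => ?_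
    rw [Finset.sum_comm]
    refine Finset.sum_congr rfl fun q _ => ?_
    rw [Finset.mul_sum]
  have e3 : ∑ g : Fin p.nc, ∑ i, θ (Sum.inr (Sum.inr (Glob.kap L i, g))) *
      (SY.zf s.2.2 g i * SY.xU (Matrix.of U) s.1.1 i) =
      ∑ k, ∑ g, θ (Sum.inr (Sum.inr (k, g))) *
        ∑ i, if Glob.kap L i = k then SY.zf s.2.2 g i * SY.xU (Matrix.of U) s.1.1 i else 0 := by
    rw [Finset.sum_comm (s := (Finset.univ : Finset (Fin (X.K + 1))))]
    refine Finset.sum_congr rfl fun g _ => ?_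
    exact LS2.sum_lab (Glob.kap L) (fun k => θ (Sum.inr (Sum.inr (k, g))))
      (fun i => SY.zf s.2.2 g i * SY.xU (Matrix.of U) s.1.1 i)
  rw [e2, e3, e1]
  ring

theorem Hm_shift (n M B : ℕ) (Kp : ℝ) (L : Fin N → X.LB) (θ : Co X p M → ℝ) (x : Co X p M)
    (u : ℝ) :
    Hm X n Kp (prm X p M B (sh θ x u)) L = LS2.hs (LD.B p N n) (Hm X n Kp (prm X p M B θ) L)
      (Vd X n M B L x) u := by
  funext U s
  have h1 := Hm_eq X n M B Kp (sh θ x u) L U s
  have h2 := Hm_eq X n M B Kp θ L U s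
  unfold LS2.hs
  rw [h1, h2, add_assoc]
  congr 1
  have e : ∀ z, sh θ x u z * Vd X n M B L z U s =
      θ z * Vd X n M B L z U s + if z = x then u * Vd X n M B L z U s else 0 := by
    intro z
    by_cases hz : z = x
    · subst hz; rw [if_pos rfl, LGrid.sh_self]; ring
    · rw [if_neg hz, LGrid.sh_other θ u hz]; ring
  rw [Finset.sum_congr rfl fun z _ => e z, Finset.sum_add_distrib]
  simp

/-! ### Bounds of the directions -/

variable {n : ℕ}

/-- at most one cell is active for `q` -/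
theorem sum_cell (f : Fin p.nc → ℝ) (m : ℕ) {C : ℝ} (hC : 0 ≤ C) (hf : ∀ g, |f g| ≤ C) :
    |∑ g : Fin p.nc, if (g : ℕ) = m then f g else 0| ≤ C := by
  by_cases hm : m < p.nc
  · rw [Finset.sum_eq_single (⟨m, hm⟩ : Fin p.nc)]
    · rw [if_pos rfl]; exact hf _
    · intro g _ hg
      rw [if_neg]
      intro h
      exact hg (Fin.ext h)
    · intro h; exact absurd (Finset.mem_univ _) h
  · rw [Finset.sum_eq_zero]
    · rw [abs_zero]; exact hC
    · intro g _
      rw [if_neg]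
      intro h
      exact hm (h ▸ g.2)

theorem Vd_le (M B : ℕ) (L : Fin N → X.LB) (x : Co X p M) {U : Mat (Fin N)}
    (hU : Matrix.of U ∈ Matrix.orthogonalGroup (Fin N) ℝ)
    (s : SY.SS p n (Finset.univ : Finset (Fin N → Bool))) :
    |Vd X n M B L x U s| ≤ N + CSys.Ts s := by
  have hN : (0 : ℝ) ≤ N := Nat.cast_nonneg N
  have hT1 := CSys.Tc_nonneg s.2.1
  have hT2 := CSys.Tc_nonneg s.2.2
  have hs : ∑ i, (sv (s.1.1 i)) ^ 2 = N := by
    simp only [LS2.sv_sq, Finset.sum_const, Finset.card_univ, Fintype.card_fin, nsmul_eq_mul,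
      mul_one]
  rcases x with j | ⟨j, q⟩ | ⟨k, g⟩
  · show |if X.t j = 0 then 0 else ∑ i, if Glob.lab L i = j then spinVec s.1.1 i else 0| ≤
      N + CSys.Ts s
    have h1 : |∑ i, if Glob.lab L i = j then spinVec s.1.1 i else 0| ≤ N := by
      refine (Finset.abs_sum_le_sum_abs _ _).trans ?_
      calc ∑ i, |if Glob.lab L i = j then spinVec s.1.1 i else 0| ≤ ∑ _i : Fin N, (1 : ℝ) := by
            refine Finset.sum_le_sum fun i _ => ?_
            split_ifs
            · exact (sv_abs (s.1.1 i)).le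
            · rw [abs_zero]; exact zero_le_one
        _ = N := by simp
    split_ifs
    · rw [abs_zero]; unfold CSys.Ts; linarith
    · unfold CSys.Ts
      linarith
  · show |∑ g : Fin p.nc, if (g : ℕ) = cellA B q then
      ∑ i, if Glob.lab L i = j then SY.zf s.2.1 g i * sv (s.1.1 i) else 0 else 0| ≤
        N + CSys.Ts s
    have hC : (0 : ℝ) ≤ N + CSys.Tc s.2.1 := by linarith
    have h0 := sum_cell (fun g : Fin p.nc =>
      ∑ i, if Glob.lab L i = j then SY.zf s.2.1 g i * sv (s.1.1 i) else 0) (cellA B q) hC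
      (fun g => by
        have h1 := LS2.ite_sum_le (Glob.lab L) j (fun i => SY.zf s.2.1 g i)
          (fun i => sv (s.1.1 i))
        have h2 := LS2.sum_zf_le s.2.1 g
        rw [hs] at h1
        linarith)
    unfold CSys.Ts
    linarith
  · show |∑ i, if Glob.kap L i = k then SY.zf s.2.2 g i * SY.xU (Matrix.of U) s.1.1 i else 0| ≤
      N + CSys.Ts s
    have h1 := LS2.ite_sum_le (Glob.kap L) k (fun i => SY.zf s.2.2 g i)
      (fun i => SY.xU (Matrix.of U) s.1.1 i)
    have h2 := LS2.sum_zf_le s.2.2 g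
    have h3 : ∑ i, (SY.xU (Matrix.of U) s.1.1 i) ^ 2 = N := OvC.sum_xM_sq hU s.1.1
    rw [h3] at h1
    unfold CSys.Ts
    linarith

theorem meas_Vd (M B : ℕ) (L : Fin N → X.LB) (x : Co X p M)
    (s : SY.SS p n (Finset.univ : Finset (Fin N → Bool))) :
    Measurable fun U : Mat (Fin N) => Vd X n M B L x U s := by
  rcases x with j | ⟨j, q⟩ | ⟨k, g⟩
  · exact measurable_const
  · exact measurable_const
  · show Measurable fun U : Mat (Fin N) => ∑ i, if Glob.kap L i = k then
      SY.zf s.2.2 g i * SY.xU (Matrix.of U) s.1.1 i else 0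
    refine Finset.measurable_sum _ fun i _ => ?_
    split_ifs
    · refine Measurable.const_mul ?_ _
      unfold SY.xU
      simp only [Matrix.mulVec, dotProduct, Matrix.of_apply]
      fun_prop
    · exact measurable_const

instance instProb (N : ℕ) : IsProbabilityMeasure (X.nu N) := X.hnu N

theorem adm_Vd (M B : ℕ) (L : Fin N → X.LB) (x : Co X p M) :
    Adm (LD.B p N n) (X.nu N) (Vd X n M B L x) where
  meas s := meas_Vd X M B L x s
  bdd := by
    refine ⟨N + ∑ s' : SY.SS p n (Finset.univ : Finset (Fin N → Bool)), CSys.Ts s', ?_⟩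
    filter_upwards [(X.hR N).mem] with U hU s
    exact (Vd_le X M B L x hU s).trans (add_le_add le_rfl (LS2.Ts_le_sum s))

/-! ### Bounds of the parameters -/

theorem abs_amF_le {M : ℕ} (B : ℕ) {a : Fin M → ℝ} {R : ℝ} (hR : 0 ≤ R) (ha : ∀ q, |a q| ≤ R)
    (g : Fin p.nc) : |amF p B a g| ≤ (M + 1) * R := by
  unfold amF
  refine (Finset.abs_sum_le_sum_abs _ _).trans ?_
  calc ∑ q : Fin M, |if (g : ℕ) = cellA B q then a q else 0| ≤ ∑ _q : Fin M, R := by
        refine Finset.sum_le_sum fun q _ => ?_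
        split_ifs
        · exact ha q
        · rw [abs_zero]; exact hR
    _ = M * R := by simp
    _ ≤ (M + 1) * R := by nlinarith

theorem PB_prm (M B : ℕ) {θ : Co X p M → ℝ} {R : ℝ} (hR : 0 ≤ R) (hθ : ∀ x, |θ x| ≤ R) :
    PB (((M : ℝ) + 1) * R) (prm X p M B θ) where
  el j := by
    show |if X.t j = 0 then 0 else θ (Sum.inl j)| ≤ _
    have hM : (0 : ℝ) ≤ M := Nat.cast_nonneg M
    have h1 := hθ (Sum.inl j)
    split_ifs
    · rw [abs_zero]; positivity
    · nlinarith
  am j g := abs_amF_le B hR (fun q => hθ _) g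
  lm k g := by
    have hM : (0 : ℝ) ≤ M := Nat.cast_nonneg M
    have h1 := hθ (Sum.inr (Sum.inr (k, g)))
    show |θ (Sum.inr (Sum.inr (k, g)))| ≤ _
    nlinarith

/-- bounds in the form `Bd`. -/
theorem Bd_of_PB (M B : ℕ) {θ : Co X p M → ℝ} {R : ℝ} (hR : 0 ≤ R)
    (h : PB R (prm X p M B θ)) :
    Bd X R (Real.sqrt (p.nc * R ^ 2)) (p.nc * R ^ 2) (prm X p M B θ) where
  el := h.el
  am j := by
    rw [Real.sq_sqrt (by positivity)]
    calc ∑ g, (prm X p M B θ).am j g ^ 2 ≤ ∑ _g : Fin p.nc, R ^ 2 :=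
          Finset.sum_le_sum fun g _ => by
            rw [← sq_abs]; exact pow_le_pow_left₀ (abs_nonneg _) (h.am j g) 2
      _ = p.nc * R ^ 2 := by simp
  lm k := by
    calc ∑ g, (prm X p M B θ).lm k g ^ 2 ≤ ∑ _g : Fin p.nc, R ^ 2 :=
          Finset.sum_le_sum fun g _ => by
            rw [← sq_abs]; exact pow_le_pow_left₀ (abs_nonneg _) (h.lm k g) 2
      _ = p.nc * R ^ 2 := by simp

/-- **The L system is a family with linear parameters.** -/
theorem fam (M B : ℕ) {Kp : ℝ} (hKp : 0 ≤ Kp) (L : Fin N → X.LB) :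
    Fam (LD.B p N n) (X.nu N) (C := Co X p M) (fun θ => Hm X n Kp (prm X p M B θ) L)
      (Vd X n M B L) where
  zero := SY.base_SF_zero _
  shift θ x u := Hm_shift X n M B Kp L θ x u
  admH θ := by
    have hR : ∀ x, |θ x| ≤ ∑ x, |θ x| := fun x =>
      Finset.single_le_sum (f := fun x => |θ x|) (fun _ _ => abs_nonneg _) (Finset.mem_univ x)
    exact LS2.adm_HL n X.val X.c X.t (Glob.kap L) (Glob.lab L) (fun j => (X.ht j).le) hKp
      (PB_prm X M B (Finset.sum_nonneg fun _ _ => abs_nonneg _) hR) (X.hR N).mem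
  admV x := adm_Vd X M B L x

/-- the choice of the grid, for the parameters `LG.prm` (version 1 of `LGDef`) -/
def GRID : Prop := ∀ (Kmax d0 : ℝ), Small X d0 → ∀ (p : Par), p.nb = 0 → ∀ (M B : ℕ),
  ∀ (lo hi : Co X p M → ℝ), (∀ x, lo x < hi x) → ∀ δ : ℝ, 0 < δ →
  ∃ (I : ℕ) (θ : (Co X p M → Fin I) → Co X p M → ℝ), 0 < I ∧
  (∀ i x, lo x ≤ θ i x ∧ θ i x ≤ hi x) ∧ ∃ Na : ℕ, ∀ N : ℕ, Na ≤ N → ∃ n0 : ℕ, ∀ n : ℕ, n0 ≤ n →
  ∀ Kp : ℝ, 0 ≤ Kp → Kp ≤ Kmax → ∀ L : Fin N → X.LB, LabAvg.Good X.al d0 L →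
  LGrid.gavg I (fun i => Err X n M B Kp (θ i) L) ≤ δ

/-- **(GL9) The grid.** -/
theorem grid (hI : INCB X) : GRID X := by
  classical
  intro Kmax d0 hd0 p hnb M B lo hi hlh δ hδ
  by_cases hKm : 0 ≤ Kmax
  swap
  · refine ⟨1, fun _ => lo, one_pos, fun i x => ⟨le_rfl, (hlh x).le⟩, 0, fun N _ => ⟨0,
      fun n _ Kp h1 h2 => absurd (h1.trans h2) hKm⟩⟩
  -- constants
  set R0 : ℝ := ∑ x : Co X p M, (|lo x| + |hi x|) with hR0
  have hR00 : 0 ≤ R0 := Finset.sum_nonneg fun x _ => by positivity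
  have hbox : ∀ θ : Co X p M → ℝ, (∀ x, lo x ≤ θ x ∧ θ x ≤ hi x) → ∀ x, |θ x| ≤ R0 := by
    intro θ hθ x
    have h1 : |lo x| + |hi x| ≤ R0 :=
      Finset.single_le_sum (f := fun x => |lo x| + |hi x|) (fun _ _ => by positivity)
        (Finset.mem_univ x)
    have h2 := hθ x
    have h3 := neg_abs_le (lo x)
    have h4 := le_abs_self (hi x)
    rw [abs_le]
    constructor
    · linarith [abs_nonneg (hi x)]
    · linarith [abs_nonneg (lo x)]
  set R : ℝ := ((M : ℝ) + 1) * R0 with hR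
  have hRn : 0 ≤ R := by positivity
  obtain ⟨C0, Na, hC0⟩ := hI R (Real.sqrt (p.nc * R ^ 2)) (p.nc * R ^ 2) Kmax d0 hd0 p hnb
  set C1 : ℝ := |C0| + LS2.CF p X.val X.c Kmax R with hC1
  set Lc : ℝ := 1 + LS2.CTR p X.val X.c Kmax R with hLc
  have hCF := LS2.CF_nonneg (p := p) X.val X.c hKm hRn
  have hC1n : 0 ≤ C1 := by positivity
  obtain ⟨I0, hI0⟩ := LS2.num_small (Fintype.card (Co X p M)) ((Fintype.card X.LB : ℝ) *
    Fintype.card (Co X p M)) Lc (LS2.CVR p X.val X.c Kmax R) (p.nc * p.T * p.τ)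
    (Real.log 2 * ((p.nc : ℝ) + 1)) C1 hδ
  set I : ℕ := I0 + 1 with hIdef
  have hIpos : 0 < I := Nat.succ_pos _
  obtain ⟨ym, hym, hym'⟩ : ∃ m : ℝ, 0 < m ∧ ∀ x : Co X p M, m ≤ (hi x - lo x) / ((I : ℝ) + 1) :=
    exists_min_pos fun x => div_pos (by linarith [hlh x]) (by positivity)
  set y : Co X p M → ℝ := fun x => (hi x - lo x) / ((I : ℝ) + 1) with hy
  have hyp : ∀ x, 0 < y x := fun x => div_pos (by linarith [hlh x]) (by positivity)
  have htop : ∀ x, lo x + ((I : ℝ) + 1) * y x = hi x := by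
    intro x
    have : (I : ℝ) + 1 ≠ 0 := by positivity
    rw [hy]
    field_simp
    ring
  have hib : ∀ θ : Co X p M → ℝ, InBox lo y I θ → ∀ x, lo x ≤ θ x ∧ θ x ≤ hi x := by
    intro θ hθ x
    have := hθ x
    rw [htop] at this
    exact this
  obtain ⟨N0, hN0⟩ := hI0 I (Nat.le_succ _) ym hym
  refine ⟨I, fun i => pt lo y i, hIpos, fun i x => hib _ (LS2.pt_inBox hyp i) x, Na + N0 + 3,
    fun N hN => ?_⟩
  obtain ⟨n0, hn0⟩ := hC0 N (by omega)
  refine ⟨n0, fun n hn Kp hKp hKK L hL => ?_⟩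
  have hNp : 0 < N := by omega
  have hN2 : 2 < N := by omega
  have hNr : (0 : ℝ) < N := by exact_mod_cast hNp
  have hI' : (0 : ℝ) < I := by exact_mod_cast hIpos
  have htle : ∀ j, |X.t j| ≤ 1 := fun j => (X.ht j).le
  have hPB : ∀ θ : Co X p M → ℝ, InBox lo y I θ → PB R (prm X p M B θ) := fun θ hθ =>
    PB_prm X M B hR00 (hbox θ (hib θ hθ))
  have F := fam (n := n) X (p := p) M B hKp L
  set fl := Real.sqrt (LS2.CVR p X.val X.c Kmax R * N) + p.nc * p.T * p.τ with hfl
  have hfl0 : 0 ≤ 8 * fl + Real.log 2 * ((p.nc : ℝ) + 1) := by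
    have h2 := p.hτ0
    have h3 := Real.log_pos one_lt_two
    rw [hfl]
    positivity
  have hLb : ∀ θ : Co X p M → ℝ, InBox lo y I θ → ∀ x,
      |LS2.mN (LD.B p N n) (X.nu N) (Hm X n Kp (prm X p M B θ) L) (Vd X n M B L x)| ≤ Lc :=
    fun θ hθ x => LS2.mN_le' n X.val X.c X.t (Glob.kap L) (Glob.lab L) hnb hNp htle hKp hKK
      (X.hR N).mem (hPB θ hθ) (adm_Vd X M B L x)
      ((X.hR N).mem.mono fun U hU s => Vd_le X M B L x hU s)
  have hflb : ∀ θ : Co X p M → ℝ, InBox lo y I θ →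
      LS2.fluc (B := LD.B p N n) (X.nu N) (Hm X n Kp (prm X p M B θ) L) ≤ fl := fun θ hθ =>
    LS2.fluc_le' n X.val X.c X.t (Glob.kap L) (Glob.lab L) hnb hN2 htle hKp hKK (X.hR N)
      (hPB θ hθ)
  have hmain : gavg I (fun i => Err X n M B Kp (pt lo y i) L) ≤
      (Fintype.card (Co X p M) : ℝ) * (4 * Lc / I + (8 * fl + Real.log 2 * ((p.nc : ℝ) + 1)) /
        (N * ym)) + ((Fintype.card X.LB : ℝ) * Fintype.card (Co X p M)) *
        (2 * Lc / I + 2 * (C1 / N) / ym) := by
    unfold Err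
    rw [LGrid.gavg_add]
    refine add_le_add ?_ ?_
    · rw [LGrid.gavg_sum]
      calc ∑ x, gavg I (fun i => Ce X n M B Kp (pt lo y i) L x)
          ≤ ∑ _x : Co X p M, (4 * Lc / I + (8 * fl + Real.log 2 * ((p.nc : ℝ) + 1)) /
              (N * ym)) := by
            refine Finset.sum_le_sum fun x _ => ?_
            refine (LS2.gavg_cerr F hNp hyp hIpos hLb hflb x).trans ?_
            have : (8 * fl + Real.log 2 * ((p.nc : ℝ) + 1)) / (N * y x) ≤
                (8 * fl + Real.log 2 * ((p.nc : ℝ) + 1)) / (N * ym) :=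
              div_le_div_of_nonneg_left hfl0 (by positivity)
                (mul_le_mul_of_nonneg_left (hym' x) hNr.le)
            linarith
        _ = _ := by rw [Finset.sum_const, Finset.card_univ, nsmul_eq_mul]
    · rw [LGrid.gavg_sum]
      have key : ∀ l : X.LB, gavg I (fun i => ∑ x, |Me X n M B Kp (pt lo y i) L x -
          Me X n M B Kp (pt lo y i) (Fin.snoc L l : Fin (N + 1) → X.LB) x|) ≤
          (Fintype.card (Co X p M) : ℝ) * (2 * Lc / I + 2 * (C1 / N) / ym) := by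
        intro l
        have F' := fam (n := n) X (p := p) M B hKp (Fin.snoc L l : Fin (N + 1) → X.LB)
        have hε : ∀ θ : Co X p M → ℝ, InBox lo y I θ →
            |LS2.phi (LD.B p N n) (X.nu N) (fun θ => Hm X n Kp (prm X p M B θ) L) θ -
              LS2.phi (LD.B p (N + 1) n) (X.nu (N + 1)) (fun θ => Hm X n Kp (prm X p M B θ)
                (Fin.snoc L l : Fin (N + 1) → X.LB)) θ| ≤ C1 / N := by
          intro θ hθ
          have hB := Bd_of_PB X M B hRn (hPB θ hθ)
          have e1 := hn0 n hn Kp hKp hKK _ hB L hL l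
          have f1 : LS2.FF (LD.B p N n) (X.nu N) (Hm X n Kp (prm X p M B θ) L) =
              Ph X n Kp (prm X p M B θ) L :=
            LS2.FF_eq_EPh' n X.val X.c X.t (Glob.kap L) (Glob.lab L) htle hKp (hPB θ hθ)
              (X.hR N).mem
          have f2 : LS2.FF (LD.B p (N + 1) n) (X.nu (N + 1)) (Hm X n Kp (prm X p M B θ)
              (Fin.snoc L l : Fin (N + 1) → X.LB)) =
              Ph X n Kp (prm X p M B θ) (Fin.snoc L l : Fin (N + 1) → X.LB) :=
            LS2.FF_eq_EPh' n X.val X.c X.t _ _ htle hKp (hPB θ hθ) (X.hR (N + 1)).mem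
          rw [← f1, ← f2] at e1
          have e2 : |LS2.FF (LD.B p N n) (X.nu N) (Hm X n Kp (prm X p M B θ) L)| ≤
              LS2.CF p X.val X.c Kmax R * N :=
            LS2.abs_FF_le' n X.val X.c X.t (Glob.kap L) (Glob.lab L) hnb hNp htle hKp hKK
              (X.hR N).mem (hPB θ hθ)
          unfold LS2.phi
          set a := LS2.FF (LD.B p N n) (X.nu N) (Hm X n Kp (prm X p M B θ) L) with ha
          set b := LS2.FF (LD.B p (N + 1) n) (X.nu (N + 1)) (Hm X n Kp (prm X p M B θ)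
              (Fin.snoc L l : Fin (N + 1) → X.LB)) with hb
          have hN1 : (0 : ℝ) < (N : ℝ) + 1 := by positivity
          have e3 : (N : ℝ)⁻¹ * a - (((N + 1 : ℕ) : ℝ))⁻¹ * b =
              (((N : ℝ) + 1))⁻¹ * ((a - b) + (N : ℝ)⁻¹ * a) := by
            push_cast
            field_simp
            ring
          rw [e3, abs_mul, abs_of_pos (inv_pos.2 hN1), inv_mul_le_iff₀ hN1]
          have e4 : |a - b| ≤ |C0| := by rw [abs_sub_comm]; exact e1.trans (le_abs_self _)
          have e5 : |(N : ℝ)⁻¹ * a| ≤ LS2.CF p X.val X.c Kmax R := by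
            rw [abs_mul, abs_of_pos (inv_pos.2 hNr), inv_mul_le_iff₀ hNr]
            linarith
          have e6 : C1 ≤ ((N : ℝ) + 1) * (C1 / N) := by
            rw [mul_div_assoc', le_div_iff₀ hNr]
            nlinarith
          exact ((abs_add_le _ _).trans (add_le_add e4 e5)).trans e6
        rw [LGrid.gavg_sum]
        calc ∑ x, gavg I (fun i => |Me X n M B Kp (pt lo y i) L x -
              Me X n M B Kp (pt lo y i) (Fin.snoc L l : Fin (N + 1) → X.LB) x|)
            ≤ ∑ _x : Co X p M, (2 * Lc / I + 2 * (C1 / N) / ym) := by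
              refine Finset.sum_le_sum fun x _ => ?_
              refine (LS2.gavg_mN_compare F F' hyp hIpos hLb hε x).trans ?_
              have : 2 * (C1 / N) / y x ≤ 2 * (C1 / N) / ym :=
                div_le_div_of_nonneg_left (by positivity) hym (hym' x)
              linarith
          _ = _ := by rw [Finset.sum_const, Finset.card_univ, nsmul_eq_mul]
      calc ∑ l : X.LB, gavg I (fun i => ∑ x, |Me X n M B Kp (pt lo y i) L x -
            Me X n M B Kp (pt lo y i) (Fin.snoc L l : Fin (N + 1) → X.LB) x|)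
          ≤ ∑ _l : X.LB, (Fintype.card (Co X p M) : ℝ) * (2 * Lc / I + 2 * (C1 / N) / ym) :=
            Finset.sum_le_sum fun l _ => key l
        _ = _ := by rw [Finset.sum_const, Finset.card_univ, nsmul_eq_mul]; ring
  exact hmain.trans (hN0 N (by omega))

end

end Crest.Agent.R164.LGx
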