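import Crest.Agent.R164.LGridG
import Crest.Agent.R164.LStruct2E

/-!
# Row 164: consequences of a small structure error `LG.Err`

Concentration of the magnetisations, comparison of the group averages `T1`, `M1` of the
`(N+1)`-system with the `N`-system, block concentration.
-/

set_option autoImplicit false
set_option linter.unusedSectionVars false
set_option linter.unusedVariables false

namespace Crest.Agent.R164.LGx

open Finset MeasureTheory Filter Crest.Agent.R141 Crest.Agent.R164 Crest.Agent.R164.Haar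
open Crest.ProbabilityR.InvariantGlass (spinVec)
open Crest.Agent.R164.LG
open Crest.Agent.R164.LGrid (gavg pt sh SD)
open Crest.Agent.R164.LS2 (Adm Fam PB InBox dv mV)
open Crest.Agent.R164.LD (TO RJ MO)

noncomputable section

variable (X : Glob) {p : Par} {N : ℕ} {n M B : ℕ} {Kp : ℝ} {θ : Co X p M → ℝ}
  (L : Fin N → X.LB)

/-! ### Proportions -/

/-- the groups have macroscopic size -/
theorem rJ_ge {d0 : ℝ} (hd : Small X d0) (hL : LabAvg.Good X.al d0 L) (j : Fin X.J) :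
    d0 * N ≤ Mag.rJ (Glob.lab L) j := by
  have h1 := (abs_le.1 (hL (0, j))).1
  have h2 := hd.2 (0, j)
  have hN : (0 : ℝ) ≤ N := Nat.cast_nonneg N
  have h3 : ((LabAvg.cnt L (0, j) : ℕ) : ℝ) ≤ Mag.rJ (Glob.lab L) j := by
    unfold LabAvg.cnt Mag.rJ
    have : (Finset.univ.filter fun i => L i = (0, j)).card ≤
        (Finset.univ.filter fun r => Glob.lab L r = j).card := by
      refine Finset.card_le_card fun i hi => ?_
      rw [Finset.mem_filter] at hi ⊢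
      refine ⟨Finset.mem_univ _, ?_⟩
      show (L i).2 = j
      rw [hi.2]
    exact_mod_cast this
  nlinarith [mul_nonneg hN (sub_nonneg.2 h2)]

/-- the blocks have macroscopic size -/
theorem blk_ge {d0 : ℝ} (hd : Small X d0) (hL : LabAvg.Good X.al d0 L) (k : Fin (X.K + 1)) :
    d0 * N ≤ ((LS2.blkK (Glob.kap L) k).card : ℝ) := by
  have hJ : Nonempty (Fin X.J) := by
    by_contra h
    rw [not_nonempty_iff] at h
    have := X.hγs
    rw [Finset.univ_eq_empty, Finset.sum_empty] at this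
    exact absurd this (by norm_num)
  obtain ⟨j⟩ := hJ
  have h1 := (abs_le.1 (hL (k, j))).1
  have h2 := hd.2 (k, j)
  have hN : (0 : ℝ) ≤ N := Nat.cast_nonneg N
  have h3 : ((LabAvg.cnt L (k, j) : ℕ) : ℝ) ≤ ((LS2.blkK (Glob.kap L) k).card : ℝ) := by
    unfold LabAvg.cnt LS2.blkK
    have : (Finset.univ.filter fun i => L i = (k, j)).card ≤
        (Finset.univ.filter fun r => Glob.kap L r = k).card := by
      refine Finset.card_le_card fun i hi => ?_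
      rw [Finset.mem_filter] at hi ⊢
      refine ⟨Finset.mem_univ _, ?_⟩
      show (L i).1 = k
      rw [hi.2]
    exact_mod_cast this
  nlinarith [mul_nonneg hN (sub_nonneg.2 h2)]

theorem lab_snoc (k : Fin (X.K + 1)) (j : Fin X.J) :
    Glob.lab (Fin.snoc L (k, j) : Fin (N + 1) → X.LB) =
      (Fin.snoc (Glob.lab L) j : Fin (N + 1) → Fin X.J) := by
  funext i
  unfold Glob.lab
  refine Fin.lastCases ?_ (fun i => ?_) i
  · rw [Fin.snoc_last, Fin.snoc_last]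
  · rw [Fin.snoc_castSucc, Fin.snoc_castSucc]

theorem kap_snoc (k : Fin (X.K + 1)) (j : Fin X.J) :
    Glob.kap (Fin.snoc L (k, j) : Fin (N + 1) → X.LB) =
      (Fin.snoc (Glob.kap L) k : Fin (N + 1) → Fin (X.K + 1)) := by
  funext i
  unfold Glob.kap
  refine Fin.lastCases ?_ (fun i => ?_) i
  · rw [Fin.snoc_last, Fin.snoc_last]
  · rw [Fin.snoc_castSucc, Fin.snoc_castSucc]

/-! ### Parameters -/

theorem PB_of_Bd {E A S : ℝ} (hE : 0 ≤ E) {ϑ : LD.Prm p X.K X.J} (h : Bd X E A S ϑ) :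
    PB (E + |A| + Real.sqrt S) ϑ where
  el j := (h.el j).trans (by have := Real.sqrt_nonneg S; linarith [abs_nonneg A])
  am j g := by
    have h1 : ϑ.am j g ^ 2 ≤ A ^ 2 :=
      (Finset.single_le_sum (f := fun g => ϑ.am j g ^ 2) (fun _ _ => sq_nonneg _)
        (Finset.mem_univ g)).trans (h.am j)
    have h2 := abs_le_abs_of_sq_le_sq h1
    have := Real.sqrt_nonneg S
    linarith
  lm k g := by
    have h1 : ϑ.lm k g ^ 2 ≤ S :=
      (Finset.single_le_sum (f := fun g => ϑ.lm k g ^ 2) (fun _ _ => sq_nonneg _)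
        (Finset.mem_univ g)).trans (h.lm k)
    have h2 : |ϑ.lm k g| ≤ Real.sqrt S := Real.abs_le_sqrt h1
    linarith [abs_nonneg A]
where
  abs_le_abs_of_sq_le_sq {a b : ℝ} (h : a ^ 2 ≤ b ^ 2) : |a| ≤ |b| := sq_le_sq.1 h

/-! ### Means -/

theorem Eo_eq_mV (hKp : 0 ≤ Kp) {R : ℝ} {ϑ : LD.Prm p X.K X.J} (hR : PB R ϑ)
    {V : Mat (Fin N) → SY.SS p n (Finset.univ : Finset (Fin N → Bool)) → ℝ}
    (hV : Adm (LD.B p N n) (X.nu N) V) :
    Eo X n Kp ϑ L (fun U _ ω => V U ω.1) =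
      mV (B := LD.B p N n) (X.nu N) (Hm X n Kp ϑ L) V := by
  have hH := LS2.adm_HL (ν := X.nu N) n X.val X.c X.t (Glob.kap L) (Glob.lab L)
    (fun j => (X.ht j).le) hKp hR (X.hR N).mem
  have h1 : Eo X n Kp ϑ L (fun U _ ω => V U ω.1) =
      ∫ U, ∑ d, dw p N d * eE (Pl X n Kp ϑ L U d) (fun ω => V U ω.1) ∂(X.nu N) := rfl
  have hi : ∀ d : DD p N, Integrable
      (fun U => eE (Pl X n Kp ϑ L U d) (fun ω => V U ω.1)) (X.nu N) :=
    fun d => hH.int_obs hV d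
  rw [h1, integral_finsetSum _ fun d _ => (hi d).const_mul _]
  simp only [integral_const_mul]
  rfl

theorem MO_eq {j : Fin X.J} (ht : X.t j ≠ 0) (U : Mat (Fin N)) (ω : G.Om (LD.B p N n)) :
    MO n (Glob.lab L) j ω = (Mag.rJ (Glob.lab L) j)⁻¹ * Vd X n M B L (Sum.inl j) U ω.1 := by
  show MO n (Glob.lab L) j ω = (Mag.rJ (Glob.lab L) j)⁻¹ * (if X.t j = 0 then 0 else
      ∑ i, if Glob.lab L i = j then spinVec ω.1.1.1 i else 0)
  rw [if_neg ht]
  unfold LD.MO Mag.mag Mag.rJ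
  rw [div_eq_inv_mul, Finset.sum_filter]

theorem TO_eq (j : Fin X.J) (q : Fin M) {g : Fin p.nc} (hg : (g : ℕ) = cellA B q)
    (U : Mat (Fin N)) (ω : G.Om (LD.B p N n)) :
    TO n (Glob.lab L) j g ω =
      (Mag.rJ (Glob.lab L) j)⁻¹ * Vd X n M B L (Sum.inr (Sum.inl (j, q))) U ω.1 := by
  show TO n (Glob.lab L) j g ω = (Mag.rJ (Glob.lab L) j)⁻¹ *
    (∑ g : Fin p.nc, if (g : ℕ) = cellA B q then
      ∑ i, if Glob.lab L i = j then SY.zf ω.1.2.1 g i * sv (ω.1.1.1 i) else 0 else 0)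
  rw [Finset.sum_eq_single g]
  · rw [if_pos hg]; rfl
  · intro g' _ hne
    rw [if_neg]
    intro h
    exact hne (Fin.ext (h.trans hg.symm))
  · intro h; exact absurd (Finset.mem_univ _) h

theorem Eo_MO (hN : 0 < N) (hKp : 0 ≤ Kp) {R : ℝ} (hR : PB R (prm X p M B θ)) {j : Fin X.J}
    (ht : X.t j ≠ 0) :
    Eo X n Kp (prm X p M B θ) L (fun _ _ ω => MO n (Glob.lab L) j ω) =
      N / Mag.rJ (Glob.lab L) j * Me X n M B Kp θ L (Sum.inl j) := by
  have hNr : (N : ℝ) ≠ 0 := by positivity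
  have hV := adm_Vd (n := n) X M B L (Sum.inl j : Co X p M)
  have e : (fun (U : Mat (Fin N)) (_ : DD p N) (ω : G.Om (LD.B p N n)) =>
      MO n (Glob.lab L) j ω) =
      fun U _ ω => (fun U s => (Mag.rJ (Glob.lab L) j)⁻¹ *
        Vd X n M B L (Sum.inl j) U s) U ω.1 := by
    funext U _ ω; exact MO_eq X L ht U ω
  rw [e, Eo_eq_mV X L hKp hR (LS2.adm_smul n hV _), LS2.mV_smul]
  unfold Me LS2.mN
  field_simp

theorem Eo_TO (hN : 0 < N) (hKp : 0 ≤ Kp) {R : ℝ} (hR : PB R (prm X p M B θ)) (j : Fin X.J)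
    (q : Fin M) {g : Fin p.nc} (hg : (g : ℕ) = cellA B q) :
    Eo X n Kp (prm X p M B θ) L (fun _ _ ω => TO n (Glob.lab L) j g ω) =
      N / Mag.rJ (Glob.lab L) j * Me X n M B Kp θ L (Sum.inr (Sum.inl (j, q))) := by
  have hNr : (N : ℝ) ≠ 0 := by positivity
  have hV := adm_Vd (n := n) X M B L (Sum.inr (Sum.inl (j, q)) : Co X p M)
  have e : (fun (U : Mat (Fin N)) (_ : DD p N) (ω : G.Om (LD.B p N n)) =>
      TO n (Glob.lab L) j g ω) =
      fun U _ ω => (fun U s => (Mag.rJ (Glob.lab L) j)⁻¹ *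
        Vd X n M B L (Sum.inr (Sum.inl (j, q))) U s) U ω.1 := by
    funext U _ ω; exact TO_eq X L j q hg U ω
  rw [e, Eo_eq_mV X L hKp hR (LS2.adm_smul n hV _), LS2.mV_smul]
  unfold Me LS2.mN
  field_simp

/-! ### The parts of the error -/

theorem Ce_nonneg (x : Co X p M) : 0 ≤ Ce X n M B Kp θ L x := LS2.cerr_nonneg _ _

theorem Err_nonneg : 0 ≤ Err X n M B Kp θ L :=
  add_nonneg (Finset.sum_nonneg fun x _ => Ce_nonneg X L x)
    (Finset.sum_nonneg fun _ _ => Finset.sum_nonneg fun _ _ => abs_nonneg _)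

theorem Ce_le_Err (x : Co X p M) : Ce X n M B Kp θ L x ≤ Err X n M B Kp θ L := by
  have h1 : Ce X n M B Kp θ L x ≤ ∑ x, Ce X n M B Kp θ L x :=
    Finset.single_le_sum (f := fun x => Ce X n M B Kp θ L x) (fun x _ => Ce_nonneg X L x)
      (Finset.mem_univ x)
  have h2 : 0 ≤ ∑ l : X.LB, ∑ x, |Me X n M B Kp θ L x -
      Me X n M B Kp θ (Fin.snoc L l : Fin (N + 1) → X.LB) x| :=
    Finset.sum_nonneg fun _ _ => Finset.sum_nonneg fun _ _ => abs_nonneg _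
  unfold Err
  linarith

theorem Me_le_Err (l : X.LB) (x : Co X p M) : |Me X n M B Kp θ L x -
    Me X n M B Kp θ (Fin.snoc L l : Fin (N + 1) → X.LB) x| ≤ Err X n M B Kp θ L := by
  have h1 : |Me X n M B Kp θ L x - Me X n M B Kp θ (Fin.snoc L l : Fin (N + 1) → X.LB) x| ≤
      ∑ x, |Me X n M B Kp θ L x - Me X n M B Kp θ (Fin.snoc L l : Fin (N + 1) → X.LB) x| :=
    Finset.single_le_sum (f := fun x => |Me X n M B Kp θ L x -
      Me X n M B Kp θ (Fin.snoc L l : Fin (N + 1) → X.LB) x|) (fun _ _ => abs_nonneg _)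
      (Finset.mem_univ x)
  have h2 : ∑ x, |Me X n M B Kp θ L x -
      Me X n M B Kp θ (Fin.snoc L l : Fin (N + 1) → X.LB) x| ≤
      ∑ l : X.LB, ∑ x, |Me X n M B Kp θ L x -
        Me X n M B Kp θ (Fin.snoc L l : Fin (N + 1) → X.LB) x| :=
    Finset.single_le_sum (f := fun l : X.LB => ∑ x, |Me X n M B Kp θ L x -
      Me X n M B Kp θ (Fin.snoc L l : Fin (N + 1) → X.LB) x|)
      (fun _ _ => Finset.sum_nonneg fun _ _ => abs_nonneg _) (Finset.mem_univ l)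
  have h3 : 0 ≤ ∑ x, Ce X n M B Kp θ L x := Finset.sum_nonneg fun x _ => Ce_nonneg X L x
  unfold Err
  linarith

/-- **(A) Concentration of the magnetisations.** -/
theorem conc_MO (hN : 0 < N) (hKp : 0 ≤ Kp) {R : ℝ} (hR : PB R (prm X p M B θ)) {j : Fin X.J}
    (ht : X.t j ≠ 0) {g e : ℝ} (hg : 0 < g) (hr : g * N ≤ Mag.rJ (Glob.lab L) j)
    (he : Err X n M B Kp θ L ≤ e) :
    Eo X n Kp (prm X p M B θ) L (fun _ _ ω => |MO n (Glob.lab L) j ω -
      Eo X n Kp (prm X p M B θ) L (fun _ _ ω => MO n (Glob.lab L) j ω)|) ≤ g⁻¹ * e := by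
  have hNp : (0 : ℝ) < N := by exact_mod_cast hN
  have hNr : (N : ℝ) ≠ 0 := hNp.ne'
  have hr0 : 0 ≤ (Mag.rJ (Glob.lab L) j)⁻¹ := inv_nonneg.2 (Mag.rJ_nonneg _ j)
  have hrp : 0 < Mag.rJ (Glob.lab L) j := lt_of_lt_of_le (by positivity) hr
  have hV := adm_Vd (n := n) X M B L (Sum.inl j : Co X p M)
  rw [Eo_MO X L hN hKp hR ht]
  set m := mV (B := LD.B p N n) (X.nu N) (Hm X n Kp (prm X p M B θ) L)
    (Vd X n M B L (Sum.inl j)) with hm
  have hmm : N / Mag.rJ (Glob.lab L) j * Me X n M B Kp θ L (Sum.inl j) =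
      (Mag.rJ (Glob.lab L) j)⁻¹ * m := by
    unfold Me LS2.mN
    rw [← hm]
    field_simp
  rw [hmm]
  have e1 : (fun (U : Mat (Fin N)) (_ : DD p N) (ω : G.Om (LD.B p N n)) =>
      |MO n (Glob.lab L) j ω - (Mag.rJ (Glob.lab L) j)⁻¹ * m|) =
      fun U _ ω => (fun U s => (Mag.rJ (Glob.lab L) j)⁻¹ *
        |Vd X n M B L (Sum.inl j) U s - m|) U ω.1 := by
    funext U _ ω
    show |MO n (Glob.lab L) j ω - (Mag.rJ (Glob.lab L) j)⁻¹ * m| =
      (Mag.rJ (Glob.lab L) j)⁻¹ * |Vd X n M B L (Sum.inl j) U ω.1 - m|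
    rw [MO_eq (M := M) (B := B) X L ht U ω, ← mul_sub, abs_mul, abs_of_nonneg hr0]
  rw [e1, Eo_eq_mV X L hKp hR (LS2.adm_smul n (LS2.adm_dev n hV m) _), LS2.mV_smul]
  have h1 : mV (B := LD.B p N n) (X.nu N) (Hm X n Kp (prm X p M B θ) L)
      (fun U s => |Vd X n M B L (Sum.inl j) U s - m|) =
      N * Ce X n M B Kp θ L (Sum.inl j) := by
    unfold Ce LS2.cerr
    rw [mul_inv_cancel_left₀ hNr]
    rfl
  rw [h1]
  have h2 := (Ce_le_Err (n := n) (B := B) (Kp := Kp) (θ := θ) X L (Sum.inl j)).trans he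
  have h3 : (Mag.rJ (Glob.lab L) j)⁻¹ * N ≤ g⁻¹ := by
    rw [inv_mul_le_iff₀ hrp, ← div_eq_mul_inv, le_div_iff₀ hg]
    linarith
  have he0 : 0 ≤ e := (Err_nonneg X L).trans he
  calc (Mag.rJ (Glob.lab L) j)⁻¹ * (N * Ce X n M B Kp θ L (Sum.inl j))
      = ((Mag.rJ (Glob.lab L) j)⁻¹ * N) * Ce X n M B Kp θ L (Sum.inl j) := by ring
    _ ≤ g⁻¹ * e := mul_le_mul h3 h2 (Ce_nonneg X L _) (inv_pos.2 hg).le

/-- **(B) Main-field observables of the `N`- and `(N+1)`-systems.** -/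
theorem T1_compare (hnb : p.nb = 0) (hN : 0 < N) {Kmax : ℝ} (hKp : 0 ≤ Kp) (hKm : Kp ≤ Kmax)
    {R : ℝ} (hR : PB R (prm X p M B θ)) (k : Fin (X.K + 1)) (j : Fin X.J) (q : Fin M)
    {c : Fin p.nc} (hc : (c : ℕ) = cellA B q) {g e : ℝ} (hg : 0 < g)
    (hr : g * N ≤ Mag.rJ (Glob.lab L) j) (he : Err X n M B Kp θ L ≤ e) :
    |Eo X n Kp (prm X p M B θ) L (fun _ _ ω => TO n (Glob.lab L) j c ω) -
      T1 X n Kp (prm X p M B θ) L k j c| ≤
      g⁻¹ * e + 2 * (1 + LS2.CTR p X.val X.c Kmax R) / (g ^ 2 * N) := by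
  unfold T1
  rw [Eo_TO X L hN hKp hR j q hc, Eo_TO X (Fin.snoc L (k, j) : Fin (N + 1) → X.LB)
    (Nat.succ_pos N) hKp hR j q hc, lab_snoc, LS2.rJ_snoc, if_pos rfl]
  have hcard : Mag.rJ (Glob.lab L) j ≤ N := by
    unfold Mag.rJ
    exact_mod_cast (Finset.card_le_univ _).trans_eq (Fintype.card_fin N)
  have hb := LS2.mN_le' (n := n) (N := N + 1) X.val X.c X.t
    (Glob.kap (Fin.snoc L (k, j) : Fin (N + 1) → X.LB))
    (Glob.lab (Fin.snoc L (k, j) : Fin (N + 1) → X.LB)) hnb (Nat.succ_pos N)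
    (fun j => (X.ht j).le) hKp hKm (X.hR (N + 1)).mem hR
    (adm_Vd (n := n) X M B (Fin.snoc L (k, j) : Fin (N + 1) → X.LB)
      (Sum.inr (Sum.inl (j, q)) : Co X p M))
    ((X.hR (N + 1)).mem.mono fun U hU s => Vd_le X M B _ _ hU s)
  have h := LS2.ratio_compare (m := Me X n M B Kp θ L (Sum.inr (Sum.inl (j, q))))
    (m' := Me X n M B Kp θ (Fin.snoc L (k, j) : Fin (N + 1) → X.LB) (Sum.inr (Sum.inl (j, q))))
    (r := Mag.rJ (Glob.lab L) j)
    (r' := Mag.rJ (Glob.lab L) j + 1) (M := N) (L := 1 + LS2.CTR p X.val X.c Kmax R)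
    hg (by exact_mod_cast hN) hr (by linarith) le_rfl hcard hb
    ((Me_le_Err X L (k, j) (Sum.inr (Sum.inl (j, q)))).trans he)
  push_cast
  exact h

/-- **(C) Magnetisations of the `N`- and `(N+1)`-systems.** -/
theorem M1_compare (hnb : p.nb = 0) (hN : 0 < N) {Kmax : ℝ} (hKp : 0 ≤ Kp) (hKm : Kp ≤ Kmax)
    {R : ℝ} (hR : PB R (prm X p M B θ)) (k : Fin (X.K + 1)) {j : Fin X.J} (ht : X.t j ≠ 0)
    {g e : ℝ} (hg : 0 < g)
    (hr : g * N ≤ Mag.rJ (Glob.lab L) j) (he : Err X n M B Kp θ L ≤ e) :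
    |Eo X n Kp (prm X p M B θ) L (fun _ _ ω => MO n (Glob.lab L) j ω) -
      M1 X n Kp (prm X p M B θ) L k j| ≤
      g⁻¹ * e + 2 * (1 + LS2.CTR p X.val X.c Kmax R) / (g ^ 2 * N) := by
  unfold M1
  rw [Eo_MO X L hN hKp hR ht, Eo_MO X (Fin.snoc L (k, j) : Fin (N + 1) → X.LB)
    (Nat.succ_pos N) hKp hR ht, lab_snoc, LS2.rJ_snoc, if_pos rfl]
  have hcard : Mag.rJ (Glob.lab L) j ≤ N := by
    unfold Mag.rJ
    exact_mod_cast (Finset.card_le_univ _).trans_eq (Fintype.card_fin N)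
  have hb := LS2.mN_le' (n := n) (N := N + 1) X.val X.c X.t
    (Glob.kap (Fin.snoc L (k, j) : Fin (N + 1) → X.LB))
    (Glob.lab (Fin.snoc L (k, j) : Fin (N + 1) → X.LB)) hnb (Nat.succ_pos N)
    (fun j => (X.ht j).le) hKp hKm (X.hR (N + 1)).mem hR
    (adm_Vd (n := n) X M B (Fin.snoc L (k, j) : Fin (N + 1) → X.LB)
      (Sum.inl j : Co X p M))
    ((X.hR (N + 1)).mem.mono fun U hU s => Vd_le X M B _ _ hU s)
  have h := LS2.ratio_compare (m := Me X n M B Kp θ L (Sum.inl j))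
    (m' := Me X n M B Kp θ (Fin.snoc L (k, j) : Fin (N + 1) → X.LB) (Sum.inl j))
    (r := Mag.rJ (Glob.lab L) j)
    (r' := Mag.rJ (Glob.lab L) j + 1) (M := N) (L := 1 + LS2.CTR p X.val X.c Kmax R)
    hg (by exact_mod_cast hN) hr (by linarith) le_rfl hcard hb
    ((Me_le_Err X L (k, j) (Sum.inl j)).trans he)
  push_cast
  exact h

/-- **(D) Concentration of the block observables** (hypothesis of `OvC.data_sys`). -/
theorem conc_OH (hN : 0 < N) (k : Fin (X.K + 1)) {g : ℕ} (hg : g < p.nc) {e : ℝ}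
    (he : Err X n M B Kp θ L ≤ e) :
    RotRel.dav (dw p N) (X.nu N) (fun d U => eE (Pl X n Kp (prm X p M B θ) L U d)
      (fun ω => |OvC.OH n (LD.univ_ne N) p (LS2.blkK (Glob.kap L) k) g U ω -
        Me X n M B Kp θ L (Sum.inr (Sum.inr (k, ⟨g, hg⟩)))|)) ≤ e := by
  have hN0 : (0 : ℝ) ≤ (N : ℝ)⁻¹ := by positivity
  have e1 : (fun (d : DD p N) (U : Mat (Fin N)) =>
      eE (Pl X n Kp (prm X p M B θ) L U d)
      (fun ω => |OvC.OH n (LD.univ_ne N) p (LS2.blkK (Glob.kap L) k) g U ω -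
        Me X n M B Kp θ L (Sum.inr (Sum.inr (k, ⟨g, hg⟩)))|)) = fun d U => (N : ℝ)⁻¹ *
      eE (Pl X n Kp (prm X p M B θ) L U d)
      (fun ω => |Vd X n M B L (Sum.inr (Sum.inr (k, ⟨g, hg⟩)) : Co X p M) U ω.1 -
        mV (B := LD.B p N n) (X.nu N) (Hm X n Kp (prm X p M B θ) L)
          (Vd X n M B L (Sum.inr (Sum.inr (k, ⟨g, hg⟩)) : Co X p M))|) := by
    funext d U
    rw [← eE_smul]
    congr 1
    funext ω
    have h3 : OvC.OH n (LD.univ_ne N) p (LS2.blkK (Glob.kap L) k) g U ω =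
        (N : ℝ)⁻¹ * Vd X n M B L (Sum.inr (Sum.inr (k, ⟨g, hg⟩)) : Co X p M) U ω.1 := by
      show _ = (N : ℝ)⁻¹ * ∑ i, if Glob.kap L i = k then
        SY.zf ω.1.2.2 ⟨g, hg⟩ i * SY.xU (Matrix.of U) ω.1.1.1 i else 0
      unfold OvC.OH LS2.blkK
      rw [Finset.sum_filter]
      congr 1
      refine Finset.sum_congr rfl fun i _ => ?_
      by_cases h1 : Glob.kap L i = k
      · simp only [if_pos h1, dif_pos hg]; rfl
      · simp only [if_neg h1]
    unfold Me LS2.mN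
    rw [h3, ← mul_sub, abs_mul, abs_of_nonneg hN0]
  rw [e1, RotRel.dav_smul]
  have h1 : (N : ℝ)⁻¹ * RotRel.dav (dw p N) (X.nu N) (fun d U =>
      eE (Pl X n Kp (prm X p M B θ) L U d)
      (fun ω => |Vd X n M B L (Sum.inr (Sum.inr (k, ⟨g, hg⟩)) : Co X p M) U ω.1 -
        mV (B := LD.B p N n) (X.nu N) (Hm X n Kp (prm X p M B θ) L)
          (Vd X n M B L (Sum.inr (Sum.inr (k, ⟨g, hg⟩)) : Co X p M))|)) =
      Ce X n M B Kp θ L (Sum.inr (Sum.inr (k, ⟨g, hg⟩))) := rfl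
  rw [h1]
  exact (Ce_le_Err X L _).trans he

end

end Crest.Agent.R164.LGx
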