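import Crest.Agent.R164.LPert
import Crest.Agent.R164.ConcSys2

/-!
# Row 164, L side, module GL3 part 1 (helper60): second moment of the weighted small fields

`E^{P_H} Σ_i (Σ_g lam_{i,g} ζ_{i,g})² ≤ C(S, A) N + C τ card(Stp)` for every Hamiltonian `SY.HS`, uniformly
in the potential `h0`, the number of coins and the pointers.
-/

set_option autoImplicit false
set_option linter.unusedSectionVars false

namespace Crest.Agent.R164.LInc

open Finset MeasureTheory Crest.Agent.R141 Crest.Agent.R141.SysF Crest.Agent.R141.SysIC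
  Crest.Agent.R164

noncomputable section

/-! ### one site -/

section site

variable {κ : Type} [Fintype κ] [DecidableEq κ] {n : ℕ}

/-- weighted coin field of one site -/
def Yl (b : κ → ℝ) (c : κ → Fin n → Bool) : ℝ := ∑ g, b g * CSys.zc n (c g)

theorem Yl_exp (b : κ → ℝ) (x : ℝ) :
    eE (unif (κ → Fin n → Bool)) (fun c => Real.exp (x * Yl b c)) ≤
      Real.exp (x ^ 2 * (∑ g, b g ^ 2) / 2) := by
  have e1 : (fun c : κ → Fin n → Bool => Real.exp (x * Yl b c)) =
      fun c => ∏ g, (fun g m => Real.exp ((x * b g) * CSys.zc n m)) g (c g) := by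
    funext c
    rw [← Real.exp_sum]
    congr 1
    unfold Yl
    rw [Finset.mul_sum]
    exact Finset.sum_congr rfl fun g _ => by ring
  rw [e1, unif_prod (fun (g : κ) (m : Fin n → Bool) => Real.exp ((x * b g) * CSys.zc n m))]
  have e2 : ∀ g : κ, eE (unif (Fin n → Bool)) (fun m => Real.exp ((x * b g) * CSys.zc n m)) ≤
      Real.exp ((x * b g) ^ 2 / 2) := by
    intro g
    have h := CSys.sum_exp_lin n (x * b g)
    have h3 : eE (unif (Fin n → Bool)) (fun m => Real.exp ((x * b g) * CSys.zc n m)) =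
        ((2 : ℝ) ^ n)⁻¹ * ∑ c : Fin n → Bool, Real.exp (CSys.zc n c * (x * b g)) := by
      unfold eE unif
      rw [Finset.mul_sum, Fintype.card_fun, Fintype.card_bool, Fintype.card_fin]
      push_cast
      refine Finset.sum_congr rfl fun c _ => ?_
      rw [mul_comm (x * b g)]
    rw [h3, inv_mul_le_iff₀ (by positivity)]
    exact h
  refine (Finset.prod_le_prod (fun g _ => eE_nonneg (unif_isProb _) fun _ => (Real.exp_pos _).le)
    fun g _ => e2 g).trans (le_of_eq ?_)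
  rw [← Real.exp_sum]
  congr 1
  rw [Finset.mul_sum, Finset.sum_div]
  exact Finset.sum_congr rfl fun g _ => by ring

/-- `E exp(Y²/(4(S+1))) ≤ 2` -/
theorem Yl_exp_sq (b : κ → ℝ) {S : ℝ} (hS : ∑ g, b g ^ 2 ≤ S) :
    eE (unif (κ → Fin n → Bool)) (fun c => Real.exp (1 / (4 * (S + 1)) * Yl b c ^ 2)) ≤ 2 := by
  have hS0 : 0 ≤ S := (Finset.sum_nonneg fun g _ => sq_nonneg (b g)).trans hS
  have hpi := Real.sqrt_pos.mpr Real.pi_pos
  set β : ℝ := (Real.sqrt (S + 1))⁻¹ with hβ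
  have hβ2 : β ^ 2 = (S + 1)⁻¹ := by
    rw [hβ, inv_pow, Real.sq_sqrt (by linarith)]
  have hq : IsProb (unif (κ → Fin n → Bool)) := unif_isProb _
  have e0 : ∀ c : κ → Fin n → Bool, (β * Yl b c) ^ 2 / 4 = 1 / (4 * (S + 1)) * Yl b c ^ 2 := by
    intro c
    rw [mul_pow, hβ2]
    field_simp
  have h1 : eE (unif (κ → Fin n → Bool)) (fun c => Real.sqrt Real.pi *
      Real.exp (1 / (4 * (S + 1)) * Yl b c ^ 2)) =
      ∫ x : ℝ, eE (unif (κ → Fin n → Bool)) (fun c => Real.exp (-x ^ 2 + (β * Yl b c) * x)) := by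
    unfold eE
    rw [integral_finsetSum _ fun c _ => (CSys.integral_exp_lin (β * Yl b c)).1.const_mul _]
    refine Finset.sum_congr rfl fun c _ => ?_
    rw [integral_const_mul, (CSys.integral_exp_lin (β * Yl b c)).2, e0]
  have hi2 : Integrable (fun x : ℝ => Real.exp (-(1 / 2) * x ^ 2)) :=
    integrable_exp_neg_mul_sq (by norm_num : (0 : ℝ) < 1 / 2)
  have h2 : ∫ x : ℝ, eE (unif (κ → Fin n → Bool)) (fun c => Real.exp (-x ^ 2 + (β * Yl b c) * x)) ≤
      ∫ x : ℝ, Real.exp (-(1 / 2) * x ^ 2) := by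
    refine integral_mono ?_ hi2 ?_
    · unfold eE
      exact integrable_finsetSum _ fun c _ => (CSys.integral_exp_lin (β * Yl b c)).1.const_mul _
    intro x
    show eE (unif (κ → Fin n → Bool)) (fun c => Real.exp (-x ^ 2 + (β * Yl b c) * x)) ≤
      Real.exp (-(1 / 2) * x ^ 2)
    have e : (fun c : κ → Fin n → Bool => Real.exp (-x ^ 2 + (β * Yl b c) * x)) =
        fun c => Real.exp (-x ^ 2) * Real.exp ((β * x) * Yl b c) := by
      funext c
      rw [← Real.exp_add]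
      congr 1; ring
    rw [e, eE_smul]
    refine (mul_le_mul_of_nonneg_left (Yl_exp b (β * x)) (Real.exp_pos _).le).trans ?_
    rw [← Real.exp_add]
    apply Real.exp_le_exp.2
    have h5 : (β * x) ^ 2 * (∑ g, b g ^ 2) ≤ x ^ 2 := by
      rw [mul_pow, hβ2, mul_assoc, mul_left_comm]
      calc x ^ 2 * ((S + 1)⁻¹ * ∑ g, b g ^ 2) ≤ x ^ 2 * 1 := by
            refine mul_le_mul_of_nonneg_left ?_ (sq_nonneg x)
            rw [inv_mul_le_iff₀ (by linarith)]
            linarith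
        _ = x ^ 2 := mul_one _
    linarith
  have h3 : ∫ x : ℝ, Real.exp (-(1 / 2) * x ^ 2) = Real.sqrt 2 * Real.sqrt Real.pi := by
    rw [integral_gaussian, ← Real.sqrt_mul (by norm_num)]
    congr 1
    ring
  rw [h3, ← h1, eE_smul] at h2
  have h6 : Real.sqrt 2 ≤ 2 := by
    rw [Real.sqrt_le_left (by norm_num)]; norm_num
  refine le_trans ?_ h6
  rw [mul_comm] at h2
  exact le_of_mul_le_mul_right h2 hpi

/-- linear and quadratic terms together -/
theorem Yl_exp_both (b : κ → ℝ) {S : ℝ} (hS : ∑ g, b g ^ 2 ≤ S) (x : ℝ) :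
    eE (unif (κ → Fin n → Bool)) (fun c => Real.exp (x * Yl b c + 1 / (8 * (S + 1)) *
      Yl b c ^ 2)) ≤ Real.exp (2 * (S + 1) * x ^ 2) * 2 := by
  have hS0 : 0 ≤ S := (Finset.sum_nonneg fun g _ => sq_nonneg (b g)).trans hS
  have hq : IsProb (unif (κ → Fin n → Bool)) := unif_isProb _
  have h1 : ∀ c : κ → Fin n → Bool, Real.exp (x * Yl b c + 1 / (8 * (S + 1)) * Yl b c ^ 2) ≤
      Real.exp (2 * (S + 1) * x ^ 2) * Real.exp (1 / (4 * (S + 1)) * Yl b c ^ 2) := by
    intro c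
    rw [← Real.exp_add]
    apply Real.exp_le_exp.2
    have hp : 0 < S + 1 := by linarith
    have h2 : 1 / (4 * (S + 1)) * Yl b c ^ 2 = 2 * (1 / (8 * (S + 1)) * Yl b c ^ 2) := by
      field_simp; ring
    have h3 : x * Yl b c ≤ 2 * (S + 1) * x ^ 2 + 1 / (8 * (S + 1)) * Yl b c ^ 2 := by
      have h4 : 0 ≤ 2 * (S + 1) * (x - Yl b c / (4 * (S + 1))) ^ 2 := by positivity
      have h5 : 2 * (S + 1) * (x - Yl b c / (4 * (S + 1))) ^ 2 =
          2 * (S + 1) * x ^ 2 + 1 / (8 * (S + 1)) * Yl b c ^ 2 - x * Yl b c := by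
        field_simp; ring
      linarith
    linarith
  refine (eE_mono hq h1).trans ?_
  rw [eE_smul]
  exact mul_le_mul_of_nonneg_left (Yl_exp_sq b hS) (Real.exp_pos _).le

end site

/-! ### all sites -/

variable {p : Par} {N n : ℕ}

/-- weighted small field of the row `i` -/
def Yi (lam : Fin N → Fin p.nc → ℝ) (c : SY.FC p N n) (i : Fin N) : ℝ :=
  ∑ g, lam i g * SY.zf c g i

/-- transposition of the coins -/
def trC : SY.FC p N n ≃ (Fin N → Fin p.nc → Fin n → Bool) := Equiv.piComm _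

theorem unif_trC (f : (Fin N → Fin p.nc → Fin n → Bool) → ℝ) :
    eE (unif (SY.FC p N n)) (fun c => f (trC c)) =
      eE (unif (Fin N → Fin p.nc → Fin n → Bool)) f := by
  unfold eE unif
  rw [Fintype.card_congr (trC (p := p) (N := N) (n := n))]
  exact Equiv.sum_comp (trC (p := p) (N := N) (n := n)) (fun c =>
    (Fintype.card (Fin N → Fin p.nc → Fin n → Bool) : ℝ)⁻¹ * f c)

theorem Yi_exp (lam : Fin N → Fin p.nc → ℝ) {S : ℝ} (hS : ∀ i, ∑ g, lam i g ^ 2 ≤ S)
    (x : Fin N → ℝ) :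
    eE (unif (SY.FC p N n)) (fun c => Real.exp (∑ i, (x i * Yi lam c i +
      1 / (8 * (S + 1)) * Yi lam c i ^ 2))) ≤
      Real.exp (2 * (S + 1) * ∑ i, x i ^ 2) * 2 ^ N := by
  have e1 : (fun c : SY.FC p N n => Real.exp (∑ i, (x i * Yi lam c i +
      1 / (8 * (S + 1)) * Yi lam c i ^ 2))) = fun c =>
      (fun c' : Fin N → Fin p.nc → Fin n → Bool => ∏ i, (fun i m => Real.exp (x i * Yl (lam i) m +
        1 / (8 * (S + 1)) * Yl (lam i) m ^ 2)) i (c' i)) (trC c) := by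
    funext c
    show _ = ∏ i, Real.exp (x i * Yl (lam i) (trC c i) +
      1 / (8 * (S + 1)) * Yl (lam i) (trC c i) ^ 2)
    rw [← Real.exp_sum]
    rfl
  rw [e1, unif_trC (fun c' : Fin N → Fin p.nc → Fin n → Bool => ∏ i, (fun i m =>
    Real.exp (x i * Yl (lam i) m + 1 / (8 * (S + 1)) * Yl (lam i) m ^ 2)) i (c' i)),
    unif_prod (fun (i : Fin N) (m : Fin p.nc → Fin n → Bool) => Real.exp (x i * Yl (lam i) m +
        1 / (8 * (S + 1)) * Yl (lam i) m ^ 2))]
  refine (Finset.prod_le_prod (fun i _ => eE_nonneg (unif_isProb _) fun _ => (Real.exp_pos _).le)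
    fun i _ => Yl_exp_both (lam i) (hS i) (x i)).trans (le_of_eq ?_)
  rw [Finset.prod_mul_distrib, ← Real.exp_sum, Finset.prod_const, Finset.card_univ,
    Fintype.card_fin, Finset.mul_sum]

/-! ### the enriched system -/

variable {A : Finset (Fin N → Bool)}

/-- exponential moment of the fields plus the quadratic term -/
theorem exp_fsY (a lam : Fin N → Fin p.nc → ℝ) (x : (Fin N → Bool) → Fin N → ℝ)
    (σ : Fin N → Bool) {R S : ℝ} (hR : ∀ i, ∑ g, a i g ^ 2 ≤ R) (hS : ∀ i, ∑ g, lam i g ^ 2 ≤ S)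
    (hx : ∑ i, x σ i ^ 2 ≤ N) :
    eE (unif (SY.FC p N n)) (fun c => eE (unif (SY.FC p N n)) (fun c' =>
      Real.exp (LPert.fs a lam x (c, c') σ + 1 / (8 * (S + 1)) * ∑ i, Yi lam c' i ^ 2))) ≤
      Real.exp (N * (R / 2 + 2 * (S + 1) + 1)) := by
  rcases Nat.eq_zero_or_pos N with h0 | hN
  · subst h0
    have h1 : ∀ c c' : SY.FC p 0 n, LPert.fs a lam x (c, c') σ +
        1 / (8 * (S + 1)) * ∑ i, Yi lam c' i ^ 2 = 0 := by
      intro c c'
      unfold LPert.fs
      simp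
    simp only [h1, Real.exp_zero, eE_const (unif_isProb (SY.FC p 0 n)), Nat.cast_zero, zero_mul,
      le_refl]
  have hS0 : 0 ≤ S :=
    (Finset.sum_nonneg fun g _ => sq_nonneg (lam ⟨0, hN⟩ g)).trans (hS ⟨0, hN⟩)
  have e1 : ∀ c c' : SY.FC p N n, Real.exp (LPert.fs a lam x (c, c') σ +
      1 / (8 * (S + 1)) * ∑ i, Yi lam c' i ^ 2) =
      (∏ g, ∏ i, (fun g i z => Real.exp (a i g * sv (σ i) * z)) g i (SY.zf c g i)) *
      Real.exp (∑ i, (x σ i * Yi lam c' i + 1 / (8 * (S + 1)) * Yi lam c' i ^ 2)) := by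
    intro c c'
    simp only [← Real.exp_sum]
    rw [← Real.exp_add]
    congr 1
    unfold LPert.fs
    rw [Finset.sum_add_distrib, ← Finset.mul_sum, ← add_assoc]
    congr 1
    congr 1
    · refine Finset.sum_congr rfl fun g _ => Finset.sum_congr rfl fun i _ => ?_
      ring
    · rw [Finset.sum_comm]
      refine Finset.sum_congr rfl fun i _ => ?_
      unfold Yi
      rw [Finset.mul_sum]
      refine Finset.sum_congr rfl fun g _ => ?_
      ring
  have e2 : ∀ c : SY.FC p N n, eE (unif (SY.FC p N n)) (fun c' =>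
      Real.exp (LPert.fs a lam x (c, c') σ + 1 / (8 * (S + 1)) * ∑ i, Yi lam c' i ^ 2)) =
      eE (unif (SY.FC p N n)) (fun c' => Real.exp (∑ i, (x σ i * Yi lam c' i +
        1 / (8 * (S + 1)) * Yi lam c' i ^ 2))) *
      (∏ g, ∏ i, (fun g i z => Real.exp (a i g * sv (σ i) * z)) g i (SY.zf c g i)) := by
    intro c
    simp only [e1]
    rw [eE_smul, mul_comm]
  simp only [e2]
  rw [eE_smul]
  have e3 := Z.avg_cells (p := p) (n := n) (fun g i z => Real.exp (a i g * sv (σ i) * z))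
  rw [e3]
  have h1 : ∏ g, ∏ i, CoinG.bavg n (fun z => Real.exp (a i g * sv (σ i) * z)) ≤
        Real.exp (N * (R / 2)) := by
    calc ∏ g, ∏ i, CoinG.bavg n (fun z => Real.exp (a i g * sv (σ i) * z))
        ≤ ∏ g, ∏ i, Real.exp ((a i g * sv (σ i)) ^ 2 / 2) := by
          refine Finset.prod_le_prod (fun g _ => Finset.prod_nonneg fun i _ =>
            (CoinG.bavg_pos n fun _ => Real.exp_pos _).le) fun g _ => ?_
          exact Finset.prod_le_prod (fun i _ => (CoinG.bavg_pos n fun _ => Real.exp_pos _).le)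
            fun i _ => CoinG.bavg_exp_le n _
      _ = Real.exp (∑ i, (∑ g, a i g ^ 2) / 2) := by
          simp only [← Real.exp_sum]
          congr 1
          rw [Finset.sum_comm]
          refine Finset.sum_congr rfl fun i _ => ?_
          rw [Finset.sum_div]
          refine Finset.sum_congr rfl fun g _ => ?_
          have : sv (σ i) ^ 2 = 1 := by cases σ i <;> simp [sv]
          rw [mul_pow, this, mul_one]
      _ ≤ Real.exp (N * (R / 2)) := by
          apply Real.exp_le_exp.2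
          calc ∑ i, (∑ g, a i g ^ 2) / 2 ≤ ∑ _i : Fin N, R / 2 :=
                Finset.sum_le_sum fun i _ => by linarith [hR i]
            _ = N * (R / 2) := by simp
  have h2 := Yi_exp (n := n) lam hS (x σ)
  have h3 : Real.exp (2 * (S + 1) * ∑ i, x σ i ^ 2) * 2 ^ N ≤
      Real.exp (N * (2 * (S + 1) + 1)) := by
    have h4 : (2 : ℝ) ^ N ≤ Real.exp (N * 1) := by
      rw [Real.exp_nat_mul]
      exact pow_le_pow_left₀ (by norm_num) (by linarith [Real.exp_one_gt_d9]) _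
    calc Real.exp (2 * (S + 1) * ∑ i, x σ i ^ 2) * 2 ^ N ≤
        Real.exp (2 * (S + 1) * N) * Real.exp (N * 1) := by
          refine mul_le_mul ?_ h4 (by positivity) (Real.exp_pos _).le
          apply Real.exp_le_exp.2
          exact mul_le_mul_of_nonneg_left hx (by linarith)
      _ = Real.exp (N * (2 * (S + 1) + 1)) := by
          rw [← Real.exp_add]; congr 1; ring
  have hpos : 0 ≤ ∏ g, ∏ i, CoinG.bavg n (fun z => Real.exp (a i g * sv (σ i) * z)) :=
    Finset.prod_nonneg fun g _ => Finset.prod_nonneg fun i _ =>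
      (CoinG.bavg_pos n fun _ => Real.exp_pos _).le
  calc _ ≤ Real.exp (N * (2 * (S + 1) + 1)) * Real.exp (N * (R / 2)) :=
        mul_le_mul (h2.trans h3) h1 hpos (Real.exp_pos _).le
    _ = _ := by rw [← Real.exp_add]; congr 1; ring

/-- free energy with the quadratic term -/
theorem Phi_Y_le (hA : A.Nonempty) (hb : p.nb = 0) (h0 : (Fin N → Bool) → ℝ)
    (a lam : Fin N → Fin p.nc → ℝ) (x : (Fin N → Bool) → Fin N → ℝ) {R S : ℝ}
    (hR : ∀ i, ∑ g, a i g ^ 2 ≤ R) (hS : ∀ i, ∑ g, lam i g ^ 2 ≤ S)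
    (hx : ∀ σ ∈ A, ∑ i, x σ i ^ 2 ≤ N) (d : DD p N) :
    G.Phi (SY.base p n A hA) (fun s => SY.HS h0 a lam x s +
      1 / (8 * (S + 1)) * ∑ i, Yi lam s.2.2 i ^ 2) d ≤
      LPert.LA A h0 + N * (R / 2 + 2 * (S + 1) + 1) + p.τ * Fintype.card (Stp p) := by
  have hcA : (0:ℝ) < (A.card : ℝ) := by exact_mod_cast hA.card_pos
  set HV : SY.SS p n A → ℝ := fun s => SY.HS h0 a lam x s +
      1 / (8 * (S + 1)) * ∑ i, Yi lam s.2.2 i ^ 2 with hHV
  have h1 := (abs_le.1 (G.Phi_F2 (SY.base p n A hA) HV d)).2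
  rw [hb] at h1
  have hP := Z.qS_isProb (p := p) (n := n) hA
  have hF0 : (Z.filS p n hA).F 0 = ⊤ := SY.base_SF_zero hA
  set cc : ℝ := N * (R / 2 + 2 * (S + 1) + 1) with hcc
  have h2 : G.Phi0 (SY.base p n A hA) HV ≤ LPert.LA A h0 + cc := by
    rw [Z.Phi0_eq]
    refine eE_le_of_le hP fun s => ?_
    refine (A_le_log hP p.xs_expo _ 0 s).trans ?_
    rw [hF0, eE_top hP, LPert.eE_qS hA]
    have h3 : ∀ σ : {σ : Fin N → Bool // σ ∈ A},
        eE (unif (SY.FC p N n)) (fun c => eE (unif (SY.FC p N n)) (fun c' =>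
          Real.exp (HV ((σ, c, c') : SY.SS p n A)))) ≤
        Real.exp (h0 σ.1) * Real.exp cc := by
      intro σ
      have e1 : ∀ c c' : SY.FC p N n, Real.exp (HV ((σ, c, c') : SY.SS p n A)) =
          Real.exp (h0 σ.1) * Real.exp (LPert.fs a lam x (c, c') σ.1 +
            1 / (8 * (S + 1)) * ∑ i, Yi lam c' i ^ 2) := by
        intro c c'
        rw [hHV, ← Real.exp_add]
        congr 1
        show SY.HS h0 a lam x ((σ, c, c') : SY.SS p n A) + _ = _
        rw [LPert.HS_fs, add_assoc]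
      simp only [e1, eE_smul]
      exact mul_le_mul_of_nonneg_left (exp_fsY a lam x σ.1 hR hS (hx σ.1 σ.2)) (Real.exp_pos _).le
    have h4 : (A.card : ℝ)⁻¹ * ∑ σ : {σ : Fin N → Bool // σ ∈ A},
        eE (unif (SY.FC p N n)) (fun c => eE (unif (SY.FC p N n)) (fun c' =>
          Real.exp (HV ((σ, c, c') : SY.SS p n A)))) ≤
        ((A.card : ℝ)⁻¹ * ∑ σ ∈ A, Real.exp (h0 σ)) * Real.exp cc := by
      rw [mul_assoc]
      refine mul_le_mul_of_nonneg_left ?_ (inv_pos.2 hcA).le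
      rw [Finset.sum_mul, ← Finset.sum_coe_sort A (fun σ => Real.exp (h0 σ) * Real.exp cc)]
      exact Finset.sum_le_sum fun σ _ => h3 σ
    have h5 : 0 < (A.card : ℝ)⁻¹ * ∑ σ : {σ : Fin N → Bool // σ ∈ A},
        eE (unif (SY.FC p N n)) (fun c => eE (unif (SY.FC p N n)) (fun c' =>
          Real.exp (HV ((σ, c, c') : SY.SS p n A)))) := by
      rw [← LPert.eE_qS hA (fun s => Real.exp (HV s))]
      have := cE_pos hP (r := ⊤) (f := fun w => Real.exp (HV w))
        (fun _ => Real.exp_pos _) s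
      rwa [eE_top hP] at this
    refine (Real.log_le_log h5 h4).trans (le_of_eq ?_)
    rw [Real.log_mul (LPert.LA_pos hA h0).ne' (Real.exp_pos _).ne', Real.log_exp]
    rfl
  have h6 : (N : ℝ) * (((0 : ℕ) : ℝ) * (p.Q : ℝ)⁻¹) = 0 := by simp
  rw [h6] at h1
  show G.Phi (SY.base p n A hA) HV d ≤ _
  linarith

/-- **second moment of the weighted small fields** -/
theorem eE_Yi_le (hA : A.Nonempty) (hb : p.nb = 0) (h0 : (Fin N → Bool) → ℝ)
    (a lam : Fin N → Fin p.nc → ℝ) (x : (Fin N → Bool) → Fin N → ℝ) {R S : ℝ}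
    (hS0 : 0 ≤ S)
    (hR : ∀ i, ∑ g, a i g ^ 2 ≤ R) (hS : ∀ i, ∑ g, lam i g ^ 2 ≤ S)
    (hx : ∀ σ ∈ A, ∑ i, x σ i ^ 2 ≤ N) (d : DD p N) :
    eE (G.PP (SY.base p n A hA) (SY.HS h0 a lam x) d) (fun ω => ∑ i, Yi lam ω.1.2.2 i ^ 2) ≤
      8 * (S + 1) * (N * (R / 2 + 2 * (S + 1) + 1) + p.τ * Fintype.card (Stp p)) := by
  have h1 := Phi_Y_le (n := n) hA hb h0 a lam x hR hS hx d
  have h2 := LPert.LA_le_Phi (n := n) hA hb h0 a lam x d
  have h3 := US.Phi_add_ge (SY.base p n A hA) (SY.base_SF_zero hA) (SY.HS h0 a lam x)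
    (fun s => 1 / (8 * (S + 1)) * ∑ i, Yi lam s.2.2 i ^ 2) d
  rw [eE_smul (G.PP (SY.base p n A hA) (SY.HS h0 a lam x) d) (1 / (8 * (S + 1)))
    (fun ω => ∑ i, Yi lam ω.1.2.2 i ^ 2)] at h3
  set X := eE (G.PP (SY.base p n A hA) (SY.HS h0 a lam x) d)
    (fun ω => ∑ i, Yi lam ω.1.2.2 i ^ 2) with hX
  have h4 : 1 / (8 * (S + 1)) * X ≤ N * (R / 2 + 2 * (S + 1) + 1) +
      p.τ * Fintype.card (Stp p) := by linarith
  rw [one_div, inv_mul_le_iff₀ (by linarith)] at h4
  exact h4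

end

end Crest.Agent.R164.LInc
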