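import Crest.Agent.R164.LInc1
import Crest.Agent.R164.LabMom
import Crest.Agent.R164.EDn

/-!
# Row 164, L side, module GL3 part 2 (helper60): lower bound of the step at a fixed coupling
-/

set_option autoImplicit false
set_option linter.unusedSectionVars false

namespace Crest.Agent.R164.LInc

open Finset MeasureTheory ProbabilityTheory Crest.Agent.R141 Crest.Agent.R141.SysF
  Crest.Agent.R141.SysIC
  Crest.Agent.R164 Crest.Agent.R164.ED Crest.Agent.R164.PF Crest.Agent.R164.Haar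

noncomputable section

/-! ### moments of the normalised Gaussian vector -/

section un

variable {N : ℕ}

theorem abs_un_le (G : Fin (N + 1) → ℝ) (i : Fin (N + 1)) : |un G i| ≤ 1 := by
  by_cases hG : nrm G = 0
  · unfold un
    rw [hG, div_zero, abs_zero]; exact zero_le_one
  · have h1 : un G i ^ 2 ≤ 1 := by
      rw [← sum_un hG]
      exact Finset.single_le_sum (f := fun i => un G i ^ 2) (fun i _ => sq_nonneg _)
        (Finset.mem_univ _)
    rw [← sq_abs] at h1
    exact (sq_le_one_iff₀ (abs_nonneg _)).1 h1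

theorem int_un_rot {O : Matrix (Fin (N + 1)) (Fin (N + 1)) ℝ}
    (hO : O ∈ Matrix.orthogonalGroup (Fin (N + 1)) ℝ) {f : (Fin (N + 1) → ℝ) → ℝ}
    (hf : Measurable f) :
    ∫ G, f (un G) ∂(gam (Fin (N + 1))) = ∫ G, f (O.mulVec (un G)) ∂(gam (Fin (N + 1))) := by
  have hm : Measurable (fun G : Fin (N + 1) → ℝ => f (un G)) :=
    hf.comp (measurable_pi_lambda _ fun i => measurable_un i)
  conv_lhs => rw [← gam_rot hO]
  rw [integral_map (continuous_mulVec O).measurable.aemeasurable hm.aestronglyMeasurable]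
  simp only [un_mulVec hO]

theorem sgn_mem (i : Fin (N + 1)) : Matrix.diagonal (fun k => if k = i then (-1 : ℝ) else 1) ∈
    Matrix.orthogonalGroup (Fin (N + 1)) ℝ := by
  rw [Matrix.mem_orthogonalGroup_iff, Matrix.diagonal_transpose, Matrix.diagonal_mul_diagonal]
  have h : (fun k : Fin (N + 1) => (if k = i then (-1 : ℝ) else 1) *
      (if k = i then (-1 : ℝ) else 1)) = fun _ => (1 : ℝ) := by
    funext k
    split_ifs <;> norm_num
  rw [h, Matrix.diagonal_one]

theorem int_un_mul {i j : Fin (N + 1)} (hij : i ≠ j) :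
    ∫ G, un G i * un G j ∂(gam (Fin (N + 1))) = 0 := by
  have h := int_un_rot (sgn_mem i) (f := fun u => u i * u j) (by fun_prop)
  have e : ∀ G : Fin (N + 1) → ℝ,
      (Matrix.diagonal (fun k => if k = i then (-1 : ℝ) else 1)).mulVec (un G) i *
      (Matrix.diagonal (fun k => if k = i then (-1 : ℝ) else 1)).mulVec (un G) j =
      -(un G i * un G j) := by
    intro G
    rw [Matrix.mulVec_diagonal, Matrix.mulVec_diagonal, if_pos rfl, if_neg (Ne.symm hij)]
    ring
  simp only [e] at h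
  rw [integral_neg] at h
  linarith

theorem int_un_sq_eq (i j : Fin (N + 1)) :
    ∫ G, un G i ^ 2 ∂(gam (Fin (N + 1))) = ∫ G, un G j ^ 2 ∂(gam (Fin (N + 1))) := by
  have hO := perm_mem (ι := Fin (N + 1)) (Equiv.swap i j)
  have h := int_un_rot hO (f := fun u => u i ^ 2) (by fun_prop)
  rw [h]
  congr 1
  funext G
  congr 1
  simp only [Matrix.mulVec, dotProduct, Matrix.of_apply, ite_mul, one_mul, zero_mul,
    Finset.sum_ite_eq, Finset.mem_univ, if_true, Equiv.swap_apply_left]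

theorem integrable_un_mul (i j : Fin (N + 1)) :
    Integrable (fun G : Fin (N + 1) → ℝ => un G i * un G j) (gam (Fin (N + 1))) := by
  refine Integrable.of_bound ((measurable_un i).mul (measurable_un j)).aestronglyMeasurable 1 ?_
  refine Filter.Eventually.of_forall fun G => ?_
  rw [Real.norm_eq_abs, abs_mul]
  exact mul_le_one₀ (abs_un_le G i) (abs_nonneg _) (abs_un_le G j)

theorem int_un_sq (i : Fin (N + 1)) :
    ∫ G, un G i ^ 2 ∂(gam (Fin (N + 1))) = 1 / ((N : ℝ) + 1) := by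
  have h1 : ∑ j : Fin (N + 1), ∫ G, un G j ^ 2 ∂(gam (Fin (N + 1))) = 1 := by
    rw [← integral_finsetSum]
    · have h2 : ∀ᵐ G ∂(gam (Fin (N + 1))), ∑ j, un G j ^ 2 = 1 := by
        filter_upwards [gam_nrm_ne_zero] with G hG
        exact sum_un hG
      rw [integral_congr_ae h2]
      simp
    · intro j _
      have := integrable_un_mul (N := N) j j
      simpa only [sq] using this
  rw [Finset.sum_congr rfl fun j _ => int_un_sq_eq j i] at h1
  rw [Finset.sum_const, Finset.card_univ, Fintype.card_fin, nsmul_eq_mul] at h1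
  push_cast at h1
  rw [eq_div_iff (by positivity)]
  linarith

/-- second moment of the linear forms of the last column -/
theorem int_lin_sq (y : Fin N → ℝ) :
    ∫ G, (∑ i : Fin N, un G i.castSucc * y i) ^ 2 ∂(gam (Fin (N + 1))) =
      (∑ i, y i ^ 2) / ((N : ℝ) + 1) := by
  have e1 : ∀ G : Fin (N + 1) → ℝ, (∑ i : Fin N, un G i.castSucc * y i) ^ 2 =
      ∑ i : Fin N, ∑ j : Fin N, (y i * y j) * (un G i.castSucc * un G j.castSucc) := by
    intro G
    rw [sq, Finset.sum_mul_sum]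
    exact Finset.sum_congr rfl fun i _ => Finset.sum_congr rfl fun j _ => by ring
  simp only [e1]
  rw [integral_finsetSum _ fun i _ => integrable_finsetSum _ fun j _ =>
    (integrable_un_mul _ _).const_mul _]
  have e2 : ∀ i : Fin N, ∫ G, ∑ j : Fin N, (y i * y j) * (un G i.castSucc * un G j.castSucc)
      ∂(gam (Fin (N + 1))) = y i ^ 2 * (1 / ((N : ℝ) + 1)) := by
    intro i
    rw [integral_finsetSum _ fun j _ => (integrable_un_mul _ _).const_mul _]
    simp only [integral_const_mul]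
    rw [Finset.sum_eq_single i]
    · have h1 := int_un_sq (N := N) i.castSucc
      simp only [← sq]
      rw [h1]
    · intro j _ hj
      rw [int_un_mul (fun h => hj ((Fin.castSucc_injective N h).symm)), mul_zero]
    · intro h; exact absurd (Finset.mem_univ i) h
  rw [Finset.sum_congr rfl fun i _ => e2 i, ← Finset.sum_mul]
  ring

theorem integrable_lin_sq (y : Fin N → ℝ) :
    Integrable (fun G : Fin (N + 1) → ℝ => (∑ i : Fin N, un G i.castSucc * y i) ^ 2)
      (gam (Fin (N + 1))) := by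
  have e1 : (fun G : Fin (N + 1) → ℝ => (∑ i : Fin N, un G i.castSucc * y i) ^ 2) =
      fun G => ∑ i : Fin N, ∑ j : Fin N, (y i * y j) * (un G i.castSucc * un G j.castSucc) := by
    funext G
    rw [sq, Finset.sum_mul_sum]
    exact Finset.sum_congr rfl fun i _ => Finset.sum_congr rfl fun j _ => by ring
  rw [e1]
  exact integrable_finsetSum _ fun i _ => integrable_finsetSum _ fun j _ =>
    (integrable_un_mul _ _).const_mul _

end un

/-! ### odd functions of the coins of the new site -/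

section coins

variable {p : Par} {n : ℕ}

/-- all coins flipped -/
def ngC (c : LC p n) : LC p n := fun g t => !(c g t)

theorem ngC_ngC (c : LC p n) : ngC (ngC c) = c := by
  funext g t
  simp [ngC]

theorem zl_ngC (c : LC p n) (g : Fin p.nc) : zl (ngC c) g = - zl c g := by
  unfold zl ngC
  rw [← mul_neg, ← Finset.sum_neg_distrib]
  congr 1
  refine Finset.sum_congr rfl fun t _ => ?_
  cases c g t <;> simp [sv]

/-- the flip of all coins of the new site -/
def ngE : LS p n ≃ LS p n where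
  toFun l := (ngC l.1, ngC l.2)
  invFun l := (ngC l.1, ngC l.2)
  left_inv l := by simp [ngC_ngC]
  right_inv l := by simp [ngC_ngC]

theorem eE_lsP_odd {f : LS p n → ℝ} (hf : ∀ l, f (ngE l) = - f l) : eE (lsP p n) f = 0 := by
  have h : eE (lsP p n) f = - eE (lsP p n) f := by
    conv_lhs => rw [show eE (lsP p n) f = ∑ l, lsP p n l * f l from rfl,
      ← Equiv.sum_comp (ngE (p := p) (n := n)) (fun l => lsP p n l * f l)]
    simp only [hf]
    unfold eE
    rw [← Finset.sum_neg_distrib]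
    refine Finset.sum_congr rfl fun l _ => ?_
    show lsP p n l * - f l = _
    ring
  linarith

end coins

/-! ### Gibbs' inequality for the last spin -/

theorem redB_ge {Ω' : Type*} (X : Ω' × Bool → ℝ) (ω : Ω') {t : ℝ} (ht : |t| ≤ 1) :
    (1 + t) / 2 * X (ω, true) + (1 - t) / 2 * X (ω, false) - Real.log 2 ≤ redB X ω := by
  have h1 := abs_le.1 ht
  have h2 := exp_redB X ω
  have h3 : ∀ e : Bool, X (ω, e) - Real.log 2 ≤ redB X ω := by
    intro e
    rw [← Real.exp_le_exp, Real.exp_sub, Real.exp_log (by norm_num), h2]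
    cases e
    · have := Real.exp_pos (X (ω, true)); linarith
    · have := Real.exp_pos (X (ω, false)); linarith
  have a1 := mul_le_mul_of_nonneg_left (h3 true) (by linarith : 0 ≤ (1 + t) / 2)
  have a2 := mul_le_mul_of_nonneg_left (h3 false) (by linarith : 0 ≤ (1 - t) / 2)
  nlinarith

/-! ### the pointwise lower bound -/

/-- quadratic part -/
theorem quad_ge {e r z k q mu lam s F Λ : ℝ} (he : e ^ 2 = 1) (hs : s ^ 2 = 1)
    (hr0 : 0 ≤ r) (hr1 : r ≤ 1) (hq : q ^ 2 ≤ 1) (hm : |mu| ≤ Λ) (hl : |lam| ≤ Λ) :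
    -((2 + 2 * Λ) * (1 + z ^ 2)) - 1 / 2 * k ^ 2 - 1 / 2 * F ^ 2 ≤
      (e - r * z) * k + 1 / 2 * (e - r * z) ^ 2 * mu + 1 / 2 * lam * (s * z + q * e) ^ 2 +
        F * (e - r * z) := by
  have hΛ : 0 ≤ Λ := (abs_nonneg _).trans hm
  have h1 : (e - r * z) ^ 2 ≤ 2 * (1 + z ^ 2) := by
    have h3 : (r * z) ^ 2 ≤ z ^ 2 := by
      rw [mul_pow]
      exact mul_le_of_le_one_left (sq_nonneg z) (pow_le_one₀ hr0 hr1)
    nlinarith [sq_nonneg (e + r * z)]
  have h2 : (s * z + q * e) ^ 2 ≤ 2 * (1 + z ^ 2) := by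
    have h3 : (s * z) ^ 2 = z ^ 2 := by rw [mul_pow, hs, one_mul]
    have h4 : (q * e) ^ 2 ≤ 1 := by rw [mul_pow, he, mul_one]; exact hq
    nlinarith [sq_nonneg (s * z - q * e)]
  have a1 : -(1 + z ^ 2) - 1 / 2 * k ^ 2 ≤ (e - r * z) * k := by
    nlinarith [sq_nonneg ((e - r * z) + k)]
  have a2 : -(1 + z ^ 2) - 1 / 2 * F ^ 2 ≤ F * (e - r * z) := by
    nlinarith [sq_nonneg ((e - r * z) + F)]
  have a3 : -(Λ * (1 + z ^ 2)) ≤ 1 / 2 * (e - r * z) ^ 2 * mu := by
    have h4 : -Λ ≤ mu := (abs_le.1 hm).1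
    have h5 := mul_le_mul_of_nonneg_left h4 (sq_nonneg (e - r * z))
    have h6 := mul_le_mul_of_nonneg_right h1 hΛ
    nlinarith
  have a4 : -(Λ * (1 + z ^ 2)) ≤ 1 / 2 * lam * (s * z + q * e) ^ 2 := by
    have h4 : -Λ ≤ lam := (abs_le.1 hl).1
    have h5 := mul_le_mul_of_nonneg_left h4 (sq_nonneg (s * z + q * e))
    have h6 := mul_le_mul_of_nonneg_right h2 hΛ
    nlinarith
  linarith

variable {p : Par} {N n : ℕ}

variable (eig : Fin (N + 1) → ℝ) (W0 : (Fin N → Bool) → ℝ) (W1 : (Fin (N + 1) → Bool) → ℝ)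
  (a lam : Fin (N + 1) → Fin p.nc → ℝ)

/-- the mean of the increment of the potential -/
def vbar (t : ℝ) (σ : Fin N → Bool) : ℝ :=
  (1 + t) / 2 * vT W0 W1 σ true + (1 - t) / 2 * vT W0 W1 σ false

/-- the lower bound at a configuration -/
def lb (Λ t : ℝ) (V : Mat (Fin N)) (G : Fin (N + 1) → ℝ)
    (s : SY.SS p n (univ : Finset (Fin N → Bool))) : ℝ :=
  -((2 + 2 * Λ) * (1 + gz G (SY.xU (Matrix.of V) s.1.1) ^ 2)) -
    1 / 2 * gk G (fun i => eig i.castSucc) (SY.xU (Matrix.of V) s.1.1) ^ 2 -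
    1 / 2 * FF lam G s ^ 2 + vbar W0 W1 t s.1.1 - Real.log 2

/-- the odd part -/
def od (t : ℝ) (V : Mat (Fin N)) (G : Fin (N + 1) → ℝ)
    (s : SY.SS p n (univ : Finset (Fin N → Bool))) (l : LS p n) : ℝ :=
  t * yb (a (Fin.last N)) l + L2 lam l * (sg (un G) * gz G (SY.xU (Matrix.of V) s.1.1) +
        un G (Fin.last N) * t)

theorem abs_mu_le {Λ : ℝ} (he : ∀ i, |eig i| ≤ Λ) {G : Fin (N + 1) → ℝ} (hG : nrm G ≠ 0) :
    |mu_ (fun i : Fin N => eig i.castSucc) G| ≤ Λ := by
  have hΛ : 0 ≤ Λ := (abs_nonneg _).trans (he (Fin.last N))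
  unfold mu_
  refine (Finset.abs_sum_le_sum_abs _ _).trans ?_
  calc ∑ i : Fin N, |eig i.castSucc * un G i.castSucc ^ 2| ≤
      ∑ i : Fin N, Λ * un G i.castSucc ^ 2 := by
        refine Finset.sum_le_sum fun i _ => ?_
        rw [abs_mul, abs_of_nonneg (sq_nonneg (un G i.castSucc))]
        exact mul_le_mul_of_nonneg_right (he _) (sq_nonneg _)
    _ = Λ * ∑ i : Fin N, un G i.castSucc ^ 2 := by rw [Finset.mul_sum]
    _ ≤ Λ * 1 := by
        refine mul_le_mul_of_nonneg_left ?_ hΛ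
        have h := sum_un hG
        rw [Fin.sum_univ_castSucc] at h
        linarith [sq_nonneg (un G (Fin.last N))]
    _ = Λ := mul_one _

/-- **the pointwise lower bound of the step** -/
theorem Xr_ge {Λ t : ℝ} (he : ∀ i, |eig i| ≤ Λ) (ht : |t| ≤ 1) {G : Fin (N + 1) → ℝ}
    (hG : nrm G ≠ 0) (V : Mat (Fin N)) (w : OU p N n × LS p n) :
    lb eig W0 W1 lam Λ t V G w.1.1 + od a lam t V G w.1.1 w.2 ≤
      Xr (HN eig W0 a lam V) (HN1 eig W1 a lam (cplS V G)) w := by
  refine le_trans ?_ (redB_ge (xw (HN eig W0 a lam V) (HN1 eig W1 a lam (cplS V G))) w ht)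
  have hr := rr_mem G hG
  have hq : un G (Fin.last N) ^ 2 ≤ 1 := by
    rw [← sum_un hG]
    exact Finset.single_le_sum (f := fun i => un G i ^ 2) (fun i _ => sq_nonneg _)
      (Finset.mem_univ _)
  have hs2 : sg (un G) ^ 2 = 1 := by rw [sq]; exact sg_mul_self _
  have hm := abs_mu_le eig he hG
  have key : ∀ e : Bool, -((2 + 2 * Λ) * (1 + gz G (SY.xU (Matrix.of V) w.1.1.1.1) ^ 2)) -
      1 / 2 * gk G (fun i => eig i.castSucc) (SY.xU (Matrix.of V) w.1.1.1.1) ^ 2 -
      1 / 2 * FF lam G w.1.1 ^ 2 + vT W0 W1 w.1.1.1.1 e + sv e * yb (a (Fin.last N)) w.2 +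
      L2 lam w.2 * (sg (un G) * gz G (SY.xU (Matrix.of V) w.1.1.1.1) +
        un G (Fin.last N) * sv e) ≤
      xw (HN eig W0 a lam V) (HN1 eig W1 a lam (cplS V G)) (w, e) := by
    intro e
    rw [xw_formula eig W0 W1 a lam hG V (w, e)]
    have he2 : sv e ^ 2 = 1 := by cases e <;> norm_num [sv]
    have h1 := quad_ge (e := sv e) (r := rr G) (z := gz G (SY.xU (Matrix.of V) w.1.1.1.1))
      (k := gk G (fun i => eig i.castSucc) (SY.xU (Matrix.of V) w.1.1.1.1))
      (q := un G (Fin.last N)) (mu := mu_ (fun i : Fin N => eig i.castSucc) G)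
      (lam := eig (Fin.last N)) (s := sg (un G)) (F := FF lam G w.1.1) (Λ := Λ)
      he2 hs2 (by linarith [hr.1]) hr.2 hq hm (he _)
    show _ ≤ (sv e - rr G * gz G (SY.xU (Matrix.of V) w.1.1.1.1)) *
        gk G (fun i => eig i.castSucc) (SY.xU (Matrix.of V) w.1.1.1.1) +
      (1 / 2) * (sv e - rr G * gz G (SY.xU (Matrix.of V) w.1.1.1.1)) ^ 2 *
        mu_ (fun i => eig i.castSucc) G +
      (1 / 2) * eig (Fin.last N) * (sg (un G) * gz G (SY.xU (Matrix.of V) w.1.1.1.1) +
        un G (Fin.last N) * sv e) ^ 2 +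
      vT W0 W1 w.1.1.1.1 e +
      sv e * yb (a (Fin.last N)) w.2 +
      FF lam G w.1.1 * (sv e - rr G * gz G (SY.xU (Matrix.of V) w.1.1.1.1)) +
      L2 lam w.2 * (sg (un G) * gz G (SY.xU (Matrix.of V) w.1.1.1.1) +
        un G (Fin.last N) * sv e)
    linarith
  have h1 := abs_le.1 ht
  have k1 := mul_le_mul_of_nonneg_left (key true) (by linarith : 0 ≤ (1 + t) / 2)
  have k2 := mul_le_mul_of_nonneg_left (key false) (by linarith : 0 ≤ (1 - t) / 2)
  have s1 : sv true = 1 := rfl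
  have s2 : sv false = -1 := rfl
  rw [s1] at k1
  rw [s2] at k2
  unfold lb od vbar
  nlinarith

theorem od_odd (t : ℝ) (V : Mat (Fin N)) (G : Fin (N + 1) → ℝ)
    (s : SY.SS p n (univ : Finset (Fin N → Bool))) (l : LS p n) :
    od a lam t V G s (ngE l) = - od a lam t V G s l := by
  have h1 : yb (a (Fin.last N)) (ngE l) = - yb (a (Fin.last N)) l := by
    unfold yb
    rw [← Finset.sum_neg_distrib]
    refine Finset.sum_congr rfl fun g _ => ?_
    show _ * zl (ngC l.1) g = _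
    rw [zl_ngC]; ring
  have h2 : L2 lam (ngE l) = - L2 lam l := by
    unfold L2
    rw [← Finset.sum_neg_distrib]
    refine Finset.sum_congr rfl fun g _ => ?_
    show _ * zl (ngC l.2) g = _
    rw [zl_ngC]; ring
  unfold od
  rw [h1, h2]; ring

/-- **lower bound of the step, in mean** -/
theorem aE_Xr_ge {Λ t : ℝ} (he : ∀ i, |eig i| ≤ Λ) (ht : |t| ≤ 1) {g : Fin (N + 1) → ℝ}
    (hG : nrm g ≠ 0) (V : Mat (Fin N)) (d : DD p N) :
    eE (G.PP (BU p N n) (HN eig W0 a lam V) d) (fun ω => lb eig W0 W1 lam Λ t V g ω.1) ≤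
      aE (stP p N n (HN eig W0 a lam V) d) (stF p N n) p.xs
        (Xr (HN eig W0 a lam V) (HN1 eig W1 a lam (cplS V g))) := by
  have hP := stP_isProb (n := n) (HN eig W0 a lam V) d
  refine le_trans ?_ (eE_le_aE (𝓕 := stF p N n) hP p.xs_expo.pos _)
  refine le_trans ?_ (eE_mono hP fun w => Xr_ge eig W0 W1 a lam he ht hG V w)
  have hPP := G.PP_isProb (BU p N n) (HN eig W0 a lam V) d
  unfold stP
  rw [eE_prod]
  refine le_of_eq ?_
  congr 1
  funext ω
  rw [eE_add (lsP p n) (fun _ => lb eig W0 W1 lam Λ t V g ω.1)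
    (fun l => od a lam t V g ω.1 l), eE_const lsP_isProb,
    eE_lsP_odd (fun l => od_odd a lam t V g ω.1 l), add_zero]

end

end Crest.Agent.R164.LInc
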