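import Crest.Agent.R164.LInc2
import Crest.Agent.R164.GXch3
import Crest.Agent.R164.EDlaw

/-!
# Row 164, L side, module GL3 part 3 (helper60): lower bound of the increment, integrated
-/

set_option autoImplicit false
set_option linter.unusedSectionVars false

namespace Crest.Agent.R164.LInc

open Finset MeasureTheory ProbabilityTheory Crest.Agent.R141 Crest.Agent.R141.SysF
  Crest.Agent.R141.SysIC
  Crest.Agent.R164 Crest.Agent.R164.ED Crest.Agent.R164.PF Crest.Agent.R164.Haar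

noncomputable section

variable {p : Par} {N n : ℕ}

/-! ### change of the law of the pointers -/

theorem emb_eq (d : DD p N) : EDlaw.emb p d = F4.liftD p N d := rfl

/-- the error of the change of the law of the pointers -/
def epsD (p : Par) (N : ℕ) : ℝ :=
  p.nc * p.T * (p.τ * Fintype.card (Stp p)) / ((N : ℝ) + 1)

theorem Ed_lift_ge (hb : p.nb = 0) (hN : 0 < N)
    (H1 : SY.SS p n (univ : Finset (Fin (N + 1) → Bool)) → ℝ) :
    |Ed p (N + 1) (fun d => G.Phi (BU p (N + 1) n) H1 d) -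
      Ed p N (fun d => G.Phi (BU p (N + 1) n) H1 (F4.liftD p N d))| ≤ epsD p N := by
  refine EDlaw.Ed_succ_sub p hN (fun d => G.Phi (BU p (N + 1) n) H1 d)
    (G.Phi0 (BU p (N + 1) n) H1) fun d => ?_
  have h := G.Phi_F2 (BU p (N + 1) n) H1 d
  rw [hb] at h
  simpa using h

variable (eig : Fin (N + 1) → ℝ) (W0 : (Fin N → Bool) → ℝ) (W1 : (Fin (N + 1) → Bool) → ℝ)
  (a lam : Fin (N + 1) → Fin p.nc → ℝ)

/-- mean of the lower bound at a fixed coupling -/
def mlb (n : ℕ) (Λ t : ℝ) (V : Mat (Fin N)) (g : Fin (N + 1) → ℝ) : ℝ :=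
  Ed p N (fun d => eE (G.PP (BU p N n) (HN eig W0 a lam V) d)
    (fun ω => lb eig W0 W1 lam Λ t V g ω.1))

/-- **the step at a fixed coupling** -/
theorem step_ge (hb : p.nb = 0) (hN : 0 < N) {Λ t : ℝ} (he : ∀ i, |eig i| ≤ Λ) (ht : |t| ≤ 1)
    {g : Fin (N + 1) → ℝ} (hg : nrm g ≠ 0) (V : Mat (Fin N)) :
    Ed p N (fun d => G.Phi (BU p N n) (HN eig W0 a lam V) d) +
      mlb eig W0 W1 a lam n Λ t V g - epsD p N ≤
      Ed p (N + 1) (fun d => G.Phi (BU p (N + 1) n) (HN1 eig W1 a lam (cplS V g)) d) := by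
  have h1 := (abs_le.1 (Ed_lift_ge (n := n) hb hN (HN1 eig W1 a lam (cplS V g)))).1
  have h2 : Ed p N (fun d => G.Phi (BU p N n) (HN eig W0 a lam V) d) +
      mlb eig W0 W1 a lam n Λ t V g ≤ Ed p N (fun d => G.Phi (BU p (N + 1) n)
        (HN1 eig W1 a lam (cplS V g)) (F4.liftD p N d)) := by
    unfold mlb
    rw [← Ed_add]
    refine Ed_mono p N fun d => ?_
    rw [Phi_gl (HN eig W0 a lam V) (HN1 eig W1 a lam (cplS V g)) hb d]
    exact add_le_add le_rfl (aE_Xr_ge eig W0 W1 a lam he ht hg V d)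
  linarith

/-! ### bounds and integrability of the lower bound -/

theorem sum_un_le (g : Fin (N + 1) → ℝ) : ∑ i : Fin N, un g i.castSucc ^ 2 ≤ 1 := by
  by_cases hg : nrm g = 0
  · have h : ∀ i, un g i = 0 := fun i => by unfold un; rw [hg, div_zero]
    simp [h]
  · have h := sum_un hg
    rw [Fin.sum_univ_castSucc] at h
    linarith [sq_nonneg (un g (Fin.last N))]

theorem lin_sq_le (g : Fin (N + 1) → ℝ) (y : Fin N → ℝ) :
    (∑ i : Fin N, un g i.castSucc * y i) ^ 2 ≤ ∑ i, y i ^ 2 := by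
  refine (Finset.sum_mul_sq_le_sq_mul_sq _ _ _).trans ?_
  exact mul_le_of_le_one_left (Finset.sum_nonneg fun i _ => sq_nonneg _) (sum_un_le g)

theorem FF_eq (g : Fin (N + 1) → ℝ) (s : SY.SS p n (univ : Finset (Fin N → Bool))) :
    FF lam g s = ∑ i : Fin N, un g i.castSucc * Yi (fun i => lam i.castSucc) s.2.2 i := by
  unfold FF Yi
  rw [Finset.sum_comm]
  refine Finset.sum_congr rfl fun i _ => ?_
  rw [Finset.mul_sum]
  exact Finset.sum_congr rfl fun g _ => by ring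

theorem gk_eq' (g : Fin (N + 1) → ℝ) (e x : Fin N → ℝ) :
    gk g e x = ∑ i : Fin N, un g i.castSucc * (e i * x i) := by
  unfold gk
  exact Finset.sum_congr rfl fun i _ => by ring

/-- the lower bound integrated over the last column -/
def lbI (Λ t : ℝ) (V : Mat (Fin N)) (s : SY.SS p n (univ : Finset (Fin N → Bool))) : ℝ :=
  -((2 + 2 * Λ) * (1 + (∑ i, SY.xU (Matrix.of V) s.1.1 i ^ 2) / ((N : ℝ) + 1))) -
    1 / 2 * ((∑ i, (eig i.castSucc * SY.xU (Matrix.of V) s.1.1 i) ^ 2) / ((N : ℝ) + 1)) -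
    1 / 2 * ((∑ i, Yi (fun i => lam i.castSucc) s.2.2 i ^ 2) / ((N : ℝ) + 1)) +
      vbar W0 W1 t s.1.1 - Real.log 2

theorem lb_eq (Λ t : ℝ) (V : Mat (Fin N)) (g : Fin (N + 1) → ℝ)
    (s : SY.SS p n (univ : Finset (Fin N → Bool))) :
    lb eig W0 W1 lam Λ t V g s = (-(2 + 2 * Λ) + vbar W0 W1 t s.1.1 - Real.log 2) +
      (-(2 + 2 * Λ)) * (∑ i : Fin N, un g i.castSucc * SY.xU (Matrix.of V) s.1.1 i) ^ 2 +
      (-(1 / 2)) * (∑ i : Fin N, un g i.castSucc * (eig i.castSucc *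
        SY.xU (Matrix.of V) s.1.1 i)) ^ 2 +
      (-(1 / 2)) * (∑ i : Fin N, un g i.castSucc * Yi (fun i => lam i.castSucc) s.2.2 i) ^ 2 := by
  unfold lb
  rw [FF_eq, gk_eq']
  unfold gz
  ring

theorem int_lb (Λ t : ℝ) (V : Mat (Fin N)) (s : SY.SS p n (univ : Finset (Fin N → Bool))) :
    Integrable (fun g => lb eig W0 W1 lam Λ t V g s) (gam (Fin (N + 1))) ∧
    ∫ g, lb eig W0 W1 lam Λ t V g s ∂(gam (Fin (N + 1))) = lbI eig W0 W1 lam Λ t V s := by
  have i1 := (integrable_lin_sq (SY.xU (Matrix.of V) s.1.1)).const_mul (-(2 + 2 * Λ))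
  have i2 := (integrable_lin_sq (fun i => eig i.castSucc * SY.xU (Matrix.of V) s.1.1 i)).const_mul
    (-(1 / 2))
  have i3 := (integrable_lin_sq (Yi (fun i => lam i.castSucc) s.2.2)).const_mul (-(1 / 2))
  have i0 : Integrable (fun _ : Fin (N + 1) → ℝ =>
      -(2 + 2 * Λ) + vbar W0 W1 t s.1.1 - Real.log 2) (gam (Fin (N + 1))) := integrable_const _
  simp only [lb_eq]
  have j1 : Integrable (fun g : Fin (N + 1) → ℝ =>
      (-(2 + 2 * Λ) + vbar W0 W1 t s.1.1 - Real.log 2) +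
      (-(2 + 2 * Λ)) * (∑ i : Fin N, un g i.castSucc * SY.xU (Matrix.of V) s.1.1 i) ^ 2)
      (gam (Fin (N + 1))) := i0.add i1
  have j2 : Integrable (fun g : Fin (N + 1) → ℝ =>
      (-(2 + 2 * Λ) + vbar W0 W1 t s.1.1 - Real.log 2) +
      (-(2 + 2 * Λ)) * (∑ i : Fin N, un g i.castSucc * SY.xU (Matrix.of V) s.1.1 i) ^ 2 +
      (-(1 / 2)) * (∑ i : Fin N, un g i.castSucc * (eig i.castSucc *
        SY.xU (Matrix.of V) s.1.1 i)) ^ 2) (gam (Fin (N + 1))) := j1.add i2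
  refine ⟨j2.add i3, ?_⟩
  rw [integral_add j2 i3, integral_add j1 i2, integral_add i0 i1,
    integral_const_mul, integral_const_mul, integral_const_mul, int_lin_sq, int_lin_sq, int_lin_sq,
    integral_const, probReal_univ, one_smul]
  unfold lbI
  ring

theorem int_eE {Θ : Type*} [MeasurableSpace Θ] (ν : Measure Θ) {Ω : Type*} [Fintype Ω]
    (P : Ω → ℝ) (f : Θ → Ω → ℝ)
    (hi : ∀ ω, Integrable (fun g => f g ω) ν) :
    Integrable (fun g => eE P (f g)) ν ∧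
    ∫ g, eE P (f g) ∂ν = eE P (fun ω => ∫ g, f g ω ∂ν) := by
  unfold eE
  refine ⟨integrable_finsetSum _ fun ω _ => (hi ω).const_mul _, ?_⟩
  rw [integral_finsetSum _ fun ω _ => (hi ω).const_mul _]
  exact Finset.sum_congr rfl fun ω _ => integral_const_mul _ _

theorem int_Ed {Θ : Type*} [MeasurableSpace Θ] (ν : Measure Θ) (f : Θ → DD p N → ℝ)
    (hi : ∀ d, Integrable (fun g => f g d) ν) :
    ∫ g, Ed p N (f g) ∂ν = Ed p N (fun d => ∫ g, f g d ∂ν) := by
  unfold Ed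
  rw [integral_finsetSum _ fun d _ => (hi d).const_mul _]
  exact Finset.sum_congr rfl fun d _ => integral_const_mul _ _

theorem sum_xU_sq' {V : Mat (Fin N)} (hV : Matrix.of V ∈ Matrix.orthogonalGroup (Fin N) ℝ)
    (σ : Fin N → Bool) : ∑ i, SY.xU (Matrix.of V) σ i ^ 2 = N := by
  unfold SY.xU
  rw [sq_sum_mulVec hV, Mag.spin_sq_sum]

theorem sum_ex_sq_le {Λ : ℝ} (he : ∀ i, |eig i| ≤ Λ) {V : Mat (Fin N)}
    (hV : Matrix.of V ∈ Matrix.orthogonalGroup (Fin N) ℝ) (σ : Fin N → Bool) :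
    ∑ i : Fin N, (eig i.castSucc * SY.xU (Matrix.of V) σ i) ^ 2 ≤ Λ ^ 2 * N := by
  rw [← sum_xU_sq' hV σ, Finset.mul_sum]
  refine Finset.sum_le_sum fun i _ => ?_
  rw [mul_pow]
  refine mul_le_mul_of_nonneg_right ?_ (sq_nonneg _)
  exact sq_le_sq' (by linarith [(abs_le.1 (he i.castSucc)).1]) (abs_le.1 (he i.castSucc)).2

/-- bound of the lower bound -/
theorem abs_lb_le {Λ t : ℝ} (he : ∀ i, |eig i| ≤ Λ) {V : Mat (Fin N)}
    (hV : Matrix.of V ∈ Matrix.orthogonalGroup (Fin N) ℝ) (g : Fin (N + 1) → ℝ)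
    (s : SY.SS p n (univ : Finset (Fin N → Bool))) :
    |lb eig W0 W1 lam Λ t V g s| ≤ (2 + 2 * Λ) * (1 + N) + 1 / 2 * (Λ ^ 2 * N) + Real.log 2 +
      ∑ s : SY.SS p n (univ : Finset (Fin N → Bool)),
        (1 / 2 * (∑ i, Yi (fun i => lam i.castSucc) s.2.2 i ^ 2) + |vbar W0 W1 t s.1.1|) := by
  have hΛ : 0 ≤ Λ := (abs_nonneg _).trans (he (Fin.last N))
  have h1 := lin_sq_le g (SY.xU (Matrix.of V) s.1.1)
  rw [sum_xU_sq' hV] at h1
  have h2 := (lin_sq_le g (fun i => eig i.castSucc * SY.xU (Matrix.of V) s.1.1 i)).trans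
    (sum_ex_sq_le eig he hV s.1.1)
  have h3 := lin_sq_le g (Yi (fun i => lam i.castSucc) s.2.2)
  have h4 : 1 / 2 * (∑ i, Yi (fun i => lam i.castSucc) s.2.2 i ^ 2) + |vbar W0 W1 t s.1.1| ≤
      ∑ s : SY.SS p n (univ : Finset (Fin N → Bool)),
        (1 / 2 * (∑ i, Yi (fun i => lam i.castSucc) s.2.2 i ^ 2) + |vbar W0 W1 t s.1.1|) :=
    Finset.single_le_sum (f := fun s : SY.SS p n (univ : Finset (Fin N → Bool)) =>
      1 / 2 * (∑ i, Yi (fun i => lam i.castSucc) s.2.2 i ^ 2) + |vbar W0 W1 t s.1.1|)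
      (fun s _ => by positivity) (Finset.mem_univ s)
  have h5 := abs_le.1 (le_refl |vbar W0 W1 t s.1.1|)
  have hl := Real.log_nonneg (by norm_num : (1:ℝ) ≤ 2)
  have a1 := mul_le_mul_of_nonneg_left h1 (by linarith : 0 ≤ 2 + 2 * Λ)
  rw [lb_eq, abs_le]
  set z1 := (∑ i : Fin N, un g i.castSucc * SY.xU (Matrix.of V) s.1.1 i) ^ 2
  set z2 := (∑ i : Fin N, un g i.castSucc * (eig i.castSucc *
        SY.xU (Matrix.of V) s.1.1 i)) ^ 2
  set z3 := (∑ i : Fin N, un g i.castSucc * Yi (fun i => lam i.castSucc) s.2.2 i) ^ 2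
  have p1 : 0 ≤ z1 := sq_nonneg _
  have p2 : 0 ≤ z2 := sq_nonneg _
  have p3 : 0 ≤ z3 := sq_nonneg _
  have p4 : 0 ≤ (2 + 2 * Λ) * z1 := by positivity
  constructor
  · linarith
  · have q1 : 0 ≤ (2 + 2 * Λ) * (1 + (N:ℝ)) := by positivity
    have q2 : 0 ≤ 1 / 2 * (Λ ^ 2 * (N:ℝ)) := by positivity
    have q3 : 0 ≤ ∑ i, Yi (fun i => lam i.castSucc) s.2.2 i ^ 2 :=
      Finset.sum_nonneg fun i _ => sq_nonneg _
    linarith

theorem measurable_lb (Λ t : ℝ) (s : SY.SS p n (univ : Finset (Fin N → Bool))) :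
    Measurable (fun q : Mat (Fin N) × (Fin (N + 1) → ℝ) =>
      lb eig W0 W1 lam Λ t q.1 q.2 s) := by
  simp only [lb_eq]
  have hx : ∀ i, Measurable (fun q : Mat (Fin N) × (Fin (N + 1) → ℝ) =>
      SY.xU (Matrix.of q.1) s.1.1 i) := fun i =>
    (GX.continuous_xU s.1.1 i).measurable.comp measurable_fst
  have hu : ∀ i, Measurable (fun q : Mat (Fin N) × (Fin (N + 1) → ℝ) => un q.2 i) := fun i =>
    (measurable_un i).comp measurable_snd
  refine Measurable.add (Measurable.add (Measurable.add measurable_const ?_) ?_) ?_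
  · exact ((Finset.measurable_sum _ fun i _ => (hu _).mul (hx i)).pow_const 2).const_mul _
  · exact ((Finset.measurable_sum _ fun i _ => (hu _).mul ((hx i).const_mul _)).pow_const
      2).const_mul _
  · exact ((Finset.measurable_sum _ fun i _ => (hu _).mul_const _).pow_const 2).const_mul _

section measure

variable {μ : Measure (Mat (Fin N))} [IsProbabilityMeasure μ]

theorem meas_PPN (d : DD p N) (ω : OU p N n) :
    Measurable fun V : Mat (Fin N) => G.PP (BU p N n) (HN eig W0 a lam V) d ω :=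
  G.meas_PP (BU p N n) (H := fun V => HN eig W0 a lam V)
    (fun s => (GX.continuous_Hs s).measurable) d ω

theorem integrable_mlb (hμ : RHaar μ) {Λ t : ℝ} (he : ∀ i, |eig i| ≤ Λ) (d : DD p N) :
    Integrable (fun q : Mat (Fin N) × (Fin (N + 1) → ℝ) =>
      eE (G.PP (BU p N n) (HN eig W0 a lam q.1) d) (fun ω => lb eig W0 W1 lam Λ t q.1 q.2 ω.1))
      (μ.prod (gam (Fin (N + 1)))) := by
  refine Integrable.of_bound (G.meas_eE (fun ω => (meas_PPN eig W0 a lam d ω).comp measurable_fst)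
    (fun ω => measurable_lb eig W0 W1 lam Λ t ω.1)).aestronglyMeasurable
    ((2 + 2 * Λ) * (1 + N) + 1 / 2 * (Λ ^ 2 * N) + Real.log 2 +
      ∑ s : SY.SS p n (univ : Finset (Fin N → Bool)),
        (1 / 2 * (∑ i, Yi (fun i => lam i.castSucc) s.2.2 i ^ 2) + |vbar W0 W1 t s.1.1|)) ?_
  have h2 : ∀ᵐ q ∂(μ.prod (gam (Fin (N + 1)))),
        Matrix.of q.1 ∈ Matrix.orthogonalGroup (Fin N) ℝ :=
      (Measure.quasiMeasurePreserving_fst).ae hμ.mem
  filter_upwards [h2] with q hq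
  rw [Real.norm_eq_abs]
  exact LS2.abs_eE_le (G.PP_isProb _ _ _) fun ω => abs_lb_le eig W0 W1 lam he hq q.2 ω.1

/-- integral of the mean lower bound -/
theorem int_mlb (hμ : RHaar μ) {Λ t : ℝ} (he : ∀ i, |eig i| ≤ Λ) :
    Integrable (fun q : Mat (Fin N) × (Fin (N + 1) → ℝ) =>
      mlb eig W0 W1 a lam n Λ t q.1 q.2) (μ.prod (gam (Fin (N + 1)))) ∧
    ∫ q, mlb eig W0 W1 a lam n Λ t q.1 q.2 ∂(μ.prod (gam (Fin (N + 1)))) =
      ∫ V, Ed p N (fun d => eE (G.PP (BU p N n) (HN eig W0 a lam V) d)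
        (fun ω => lbI eig W0 W1 lam Λ t V ω.1)) ∂μ := by
  have hi : Integrable (fun q : Mat (Fin N) × (Fin (N + 1) → ℝ) =>
      mlb eig W0 W1 a lam n Λ t q.1 q.2) (μ.prod (gam (Fin (N + 1)))) := by
    unfold mlb Ed
    exact integrable_finsetSum _ fun d _ =>
      (integrable_mlb eig W0 W1 a lam hμ he d).const_mul _
  refine ⟨hi, ?_⟩
  rw [integral_prod _ hi]
  congr 1
  funext V
  have h1 : ∀ d : DD p N, Integrable (fun g : Fin (N + 1) → ℝ =>
      eE (G.PP (BU p N n) (HN eig W0 a lam V) d) (fun ω => lb eig W0 W1 lam Λ t V g ω.1))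
      (gam (Fin (N + 1))) ∧ ∫ g, eE (G.PP (BU p N n) (HN eig W0 a lam V) d)
        (fun ω => lb eig W0 W1 lam Λ t V g ω.1) ∂(gam (Fin (N + 1))) =
      eE (G.PP (BU p N n) (HN eig W0 a lam V) d) (fun ω => lbI eig W0 W1 lam Λ t V ω.1) := by
    intro d
    have h2 := int_eE (gam (Fin (N + 1))) (G.PP (BU p N n) (HN eig W0 a lam V) d)
      (fun g ω => lb eig W0 W1 lam Λ t V g ω.1)
      (fun ω => (int_lb eig W0 W1 lam Λ t V ω.1).1)
    refine ⟨h2.1, h2.2.trans ?_⟩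
    congr 1
    funext ω
    exact (int_lb eig W0 W1 lam Λ t V ω.1).2
  unfold mlb
  rw [int_Ed (gam (Fin (N + 1))) (fun g d => eE (G.PP (BU p N n) (HN eig W0 a lam V) d)
    (fun ω => lb eig W0 W1 lam Λ t V g ω.1)) fun d => (h1 d).1]
  congr 1
  funext d
  exact (h1 d).2

end measure

end

end Crest.Agent.R164.LInc
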