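import Crest.Agent.R164.LInc3

/-!
# Row 164, L side, module GL3 part 4 (helper60): lower bound of the increment, uniform in the penalty

`EPh(N+1, snoc (k,j)) - EPh(N) ≥ [t_j ≠ 0] (Kp E (m_j - t_j)² - 4 Kp / (r_j + 1)) - C`.
-/

set_option autoImplicit false
set_option linter.unusedSectionVars false

namespace Crest.Agent.R164.LInc

open Finset MeasureTheory ProbabilityTheory Crest.Agent.R141 Crest.Agent.R141.SysF
  Crest.Agent.R141.SysIC
  Crest.Agent.R164 Crest.Agent.R164.ED Crest.Agent.R164.PF Crest.Agent.R164.Haar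

noncomputable section

variable {p : Par} {N n K J : ℕ}

section gen

variable (eig : Fin (N + 1) → ℝ) (W0 : (Fin N → Bool) → ℝ) (W1 : (Fin (N + 1) → Bool) → ℝ)
  (a lam : Fin (N + 1) → Fin p.nc → ℝ)

theorem continuous_lbI (Λ t : ℝ) (s : SY.SS p n (univ : Finset (Fin N → Bool))) :
    Continuous fun V : Mat (Fin N) => lbI eig W0 W1 lam Λ t V s := by
  unfold lbI
  have hx : ∀ i, Continuous (fun V : Mat (Fin N) => SY.xU (Matrix.of V) s.1.1 i) := fun i =>
    GX.continuous_xU s.1.1 i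
  have h1 : Continuous fun V : Mat (Fin N) => ∑ i, SY.xU (Matrix.of V) s.1.1 i ^ 2 :=
    continuous_finsetSum _ fun i _ => (hx i).pow 2
  have h2 : Continuous fun V : Mat (Fin N) =>
      ∑ i, (eig i.castSucc * SY.xU (Matrix.of V) s.1.1 i) ^ 2 :=
    continuous_finsetSum _ fun i _ => (continuous_const.mul (hx i)).pow 2
  fun_prop

/-- the constant of the lower bound -/
def C1 (Λ R S : ℝ) : ℝ :=
  (2 + 2 * Λ) * 2 + 1 / 2 * Λ ^ 2 + Real.log 2 + 4 * (S + 1) * (R / 2 + 2 * (S + 1) + 1)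

/-- the error of the lower bound -/
def eps1 (p : Par) (S : ℝ) (N : ℕ) : ℝ := 4 * (S + 1) * (p.τ * Fintype.card (Stp p)) / ((N : ℝ) + 1)

theorem mean_lbI_ge (hb : p.nb = 0) {Λ t R S : ℝ} (he : ∀ i, |eig i| ≤ Λ)
    (hS0 : 0 ≤ S) (hR0 : 0 ≤ R)
    (hR : ∀ i, ∑ g, a i g ^ 2 ≤ R) (hS : ∀ i, ∑ g, lam i g ^ 2 ≤ S) {V : Mat (Fin N)}
    (hV : Matrix.of V ∈ Matrix.orthogonalGroup (Fin N) ℝ) (d : DD p N) :
    eE (G.PP (BU p N n) (HN eig W0 a lam V) d) (fun ω => vbar W0 W1 t ω.1.1.1) -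
      (C1 Λ R S + eps1 p S N) ≤
      eE (G.PP (BU p N n) (HN eig W0 a lam V) d) (fun ω => lbI eig W0 W1 lam Λ t V ω.1) := by
  have hΛ : 0 ≤ Λ := (abs_nonneg _).trans (he (Fin.last N))
  have hN1 : (0:ℝ) < (N:ℝ) + 1 := by positivity
  set P := G.PP (BU p N n) (HN eig W0 a lam V) d with hPdef
  have hP : IsProb P := G.PP_isProb _ _ _
  have hY := eE_Yi_le (p := p) (n := n) (A := (univ : Finset (Fin N → Bool))) univ_nonempty hb
    (SY.h0q (fun i : Fin N => eig i.castSucc) (Matrix.of V) 1 W0) (fun i => a i.castSucc)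
    (fun i => lam i.castSucc) (SY.xU (Matrix.of V)) (R := R) (S := S) hS0 (fun i => hR _)
    (fun i => hS _) (fun σ _ => (sum_xU_sq' hV σ).le) d
  have hY : eE P (fun ω => ∑ i, Yi (fun i => lam i.castSucc) ω.1.2.2 i ^ 2) ≤
      8 * (S + 1) * (N * (R / 2 + 2 * (S + 1) + 1) + p.τ * Fintype.card (Stp p)) := hY
  have h1 : ∀ ω : OU p N n, vbar W0 W1 t ω.1.1.1 +
      (-((2 + 2 * Λ) * 2 + 1 / 2 * Λ ^ 2 + Real.log 2) +
      (-(1 / 2 / ((N : ℝ) + 1))) * ∑ i, Yi (fun i => lam i.castSucc) ω.1.2.2 i ^ 2) ≤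
      lbI eig W0 W1 lam Λ t V ω.1 := by
    intro ω
    unfold lbI
    have h2 : (∑ i, SY.xU (Matrix.of V) ω.1.1.1 i ^ 2) / ((N : ℝ) + 1) ≤ 1 := by
      rw [sum_xU_sq' hV, div_le_one hN1]; linarith
    have h3 : (∑ i : Fin N, (eig i.castSucc * SY.xU (Matrix.of V) ω.1.1.1 i) ^ 2) /
        ((N : ℝ) + 1) ≤ Λ ^ 2 := by
      rw [div_le_iff₀ hN1]
      have h4 := sum_ex_sq_le eig he hV ω.1.1.1
      nlinarith [sq_nonneg Λ]
    have h5 := mul_le_mul_of_nonneg_left h2 (by linarith : 0 ≤ 2 + 2 * Λ)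
    have h6 : 1 / 2 * ((∑ i, Yi (fun i => lam i.castSucc) ω.1.2.2 i ^ 2) / ((N : ℝ) + 1)) =
        1 / 2 / ((N : ℝ) + 1) * ∑ i, Yi (fun i => lam i.castSucc) ω.1.2.2 i ^ 2 := by ring
    rw [h6]
    linarith
  refine le_trans ?_ (eE_mono hP h1)
  rw [eE_add P (fun ω => vbar W0 W1 t ω.1.1.1) (fun ω =>
      -((2 + 2 * Λ) * 2 + 1 / 2 * Λ ^ 2 + Real.log 2) +
      (-(1 / 2 / ((N : ℝ) + 1))) * ∑ i, Yi (fun i => lam i.castSucc) ω.1.2.2 i ^ 2),
    eE_add P (fun _ => -((2 + 2 * Λ) * 2 + 1 / 2 * Λ ^ 2 + Real.log 2))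
      (fun ω => (-(1 / 2 / ((N : ℝ) + 1))) * ∑ i, Yi (fun i => lam i.castSucc) ω.1.2.2 i ^ 2),
    eE_const hP, eE_smul P (-(1 / 2 / ((N : ℝ) + 1)))
      (fun ω => ∑ i, Yi (fun i => lam i.castSucc) ω.1.2.2 i ^ 2)]
  have h7 : 1 / 2 / ((N : ℝ) + 1) * eE P (fun ω => ∑ i, Yi (fun i => lam i.castSucc) ω.1.2.2 i ^ 2) ≤
      4 * (S + 1) * (R / 2 + 2 * (S + 1) + 1) + eps1 p S N := by
    refine (mul_le_mul_of_nonneg_left hY (by positivity)).trans ?_
    unfold eps1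
    have h8 : 1 / 2 / ((N : ℝ) + 1) * (8 * (S + 1) * (N * (R / 2 + 2 * (S + 1) + 1) +
        p.τ * Fintype.card (Stp p))) = (N / ((N : ℝ) + 1)) * (4 * (S + 1) *
        (R / 2 + 2 * (S + 1) + 1)) + 4 * (S + 1) * (p.τ * Fintype.card (Stp p)) / ((N : ℝ) + 1) := by
      field_simp; ring
    rw [h8]
    have h9 : (N : ℝ) / ((N : ℝ) + 1) ≤ 1 := by rw [div_le_one hN1]; linarith
    have h10 : 0 ≤ 4 * (S + 1) * (R / 2 + 2 * (S + 1) + 1) := by positivity
    have h11 := mul_le_mul_of_nonneg_right h9 h10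
    linarith
  unfold C1
  linarith

end gen

variable (val : Fin (K + 1) → ℝ) (c t : Fin J → ℝ) (Kp : ℝ) (θ : LD.Prm p K J)
  (kap : Fin N → Fin (K + 1)) (lab : Fin N → Fin J) (k : Fin (K + 1)) (j : Fin J)

variable {μ : Measure (Mat (Fin N))} [IsProbabilityMeasure μ]
  {ν : Measure (Mat (Fin (N + 1)))} [IsProbabilityMeasure ν]

/-- integration of the step -/
theorem EPh_ge0 (hμ : RHaar μ) (hν : RHaar ν) (hb : p.nb = 0) (hN : 0 < N) {Λ T : ℝ}
    (he : ∀ k, |val k| ≤ Λ) (hT : |T| ≤ 1) :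
    LD.EPh μ n val c t Kp θ kap lab + ∫ V, Ed p N (fun d => eE (G.PP (BU p N n)
      (HN (eigS val kap k) (W0S c t Kp θ lab) (aS θ lab j) (lmS θ kap k) V) d)
        (fun ω => lbI (eigS val kap k) (W0S c t Kp θ lab) (W1S c t Kp θ lab j) (lmS θ kap k)
          Λ T V ω.1)) ∂μ - epsD p N ≤
      LD.EPh ν n val c t Kp θ (sk kap k) (sj lab j) := by
  have he' : ∀ i, |eigS val kap k i| ≤ Λ := fun i => he _
  have hi1 : Integrable (fun U => LD.PhU n val c t Kp θ (sk kap k) (sj lab j) U) ν :=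
    LPert.integrable_PhU hν.mem
  have hi0 : Integrable (fun V => LD.PhU n val c t Kp θ kap lab V) μ :=
    LPert.integrable_PhU hμ.mem
  have hml := int_mlb (n := n) (eigS val kap k) (W0S c t Kp θ lab) (W1S c t Kp θ lab j)
    (aS θ lab j) (lmS θ kap k) hμ (Λ := Λ) (t := T) he'
  have h1 : LD.EPh ν n val c t Kp θ (sk kap k) (sj lab j) =
      ∫ q, LD.PhU n val c t Kp θ (sk kap k) (sj lab j) (cplS q.1 q.2)
        ∂(μ.prod (gam (Fin (N + 1)))) :=
    cplS_integral hμ hν _ hi1.aestronglyMeasurable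
  have hi1' : Integrable (fun q : Mat (Fin N) × (Fin (N + 1) → ℝ) =>
      LD.PhU n val c t Kp θ (sk kap k) (sj lab j) (cplS q.1 q.2))
        (μ.prod (gam (Fin (N + 1)))) := by
    have h2 := hi1
    rw [← cplS_law hμ hν] at h2
    exact (integrable_map_measure h2.aestronglyMeasurable measurable_cplS.aemeasurable).1 h2
  have hi0' : Integrable (fun q : Mat (Fin N) × (Fin (N + 1) → ℝ) =>
      LD.PhU n val c t Kp θ kap lab q.1) (μ.prod (gam (Fin (N + 1)))) := hi0.comp_fst _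
  have hi2 : Integrable (fun q : Mat (Fin N) × (Fin (N + 1) → ℝ) =>
      LD.PhU n val c t Kp θ kap lab q.1 + mlb (eigS val kap k) (W0S c t Kp θ lab)
        (W1S c t Kp θ lab j) (aS θ lab j) (lmS θ kap k) n Λ T q.1 q.2)
      (μ.prod (gam (Fin (N + 1)))) := hi0'.add hml.1
  have h3 : ∫ q, (LD.PhU n val c t Kp θ kap lab q.1 + mlb (eigS val kap k) (W0S c t Kp θ lab)
        (W1S c t Kp θ lab j) (aS θ lab j) (lmS θ kap k) n Λ T q.1 q.2 - epsD p N)
        ∂(μ.prod (gam (Fin (N + 1)))) ≤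
      ∫ q, LD.PhU n val c t Kp θ (sk kap k) (sj lab j) (cplS q.1 q.2)
        ∂(μ.prod (gam (Fin (N + 1)))) := by
    refine integral_mono_ae (hi2.sub (integrable_const _)) hi1' ?_
    have h4 : ∀ᵐ q ∂(μ.prod (gam (Fin (N + 1)))), nrm q.2 ≠ 0 :=
      (Measure.quasiMeasurePreserving_snd).ae gam_nrm_ne_zero
    filter_upwards [h4] with q hq
    have h5 := step_ge (n := n) (eigS val kap k) (W0S c t Kp θ lab) (W1S c t Kp θ lab j)
      (aS θ lab j) (lmS θ kap k) hb hN he' hT hq q.1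
    rw [← PhU_eq val c t Kp θ kap lab k j] at h5
    exact h5
  rw [← h1, integral_sub hi2 (integrable_const _), integral_add hi0' hml.1, hml.2,
    integral_const, probReal_univ, one_smul] at h3
  have h6 : ∫ q, LD.PhU n val c t Kp θ kap lab q.1 ∂(μ.prod (gam (Fin (N + 1)))) =
      LD.EPh μ n val c t Kp θ kap lab := by
    rw [integral_fun_fst (fun V => LD.PhU n val c t Kp θ kap lab V), probReal_univ, one_smul]
    rfl
  rw [h6] at h3
  exact h3

/-- the penalty part of the increment -/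
def pen (σ : Fin N → Bool) : ℝ :=
  if t j = 0 then 0 else Kp * (Mag.mag lab σ j - t j) ^ 2 - 4 * Kp / (Mag.rJ lab j + 1)

theorem vbar_ge (hKp : 0 ≤ Kp) (ht : |t j| ≤ 1) (σ : Fin N → Bool) :
    pen t Kp lab j σ - (|c j| + |θ.el j|) ≤
      vbar (W0S c t Kp θ lab) (W1S c t Kp θ lab j) (t j) σ := by
  have hr := Mag.rJ_nonneg lab j
  have hr1 : 0 < Mag.rJ lab j + 1 := by linarith
  have e1 : ∀ x : ℝ, -|x| ≤ x * t j := by
    intro x
    have h1 : |x * t j| ≤ |x| := by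
      rw [abs_mul]; exact mul_le_of_le_one_right (abs_nonneg _) ht
    exact (abs_le.1 h1).1
  unfold vbar pen
  rw [vT_eq, vT_eq]
  have s1 : sv true = 1 := rfl
  have s2 : sv false = -1 := rfl
  rw [s1, s2]
  by_cases h0 : t j = 0
  · simp only [h0, if_true]
    have := abs_nonneg (c j)
    have := abs_nonneg (θ.el j)
    linarith
  · simp only [if_neg h0]
    set m := Mag.mag lab σ j
    have hm := abs_le.1 (Mag.abs_mag_le lab σ j)
    have htt := abs_le.1 ht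
    have h2 := e1 (c j)
    have h3 := e1 (θ.el j)
    set r1 := Mag.rJ lab j + 1
    have h4 : (1 + t j) / 2 * ((1 - m) ^ 2 / r1) + (1 - t j) / 2 * ((-1 - m) ^ 2 / r1) ≤ 4 / r1 := by
      have h5 : (1 - m) ^ 2 / r1 ≤ 4 / r1 := by
        rw [div_le_div_iff_of_pos_right hr1]; nlinarith
      have h6 : (-1 - m) ^ 2 / r1 ≤ 4 / r1 := by
        rw [div_le_div_iff_of_pos_right hr1]; nlinarith
      have h7 := mul_le_mul_of_nonneg_left h5 (by linarith : 0 ≤ (1 + t j) / 2)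
      have h8 := mul_le_mul_of_nonneg_left h6 (by linarith : 0 ≤ (1 - t j) / 2)
      linarith
    have h9 := mul_le_mul_of_nonneg_left h4 hKp
    have e2 : 4 * Kp / r1 = Kp * (4 / r1) := by ring
    rw [e2]
    have e3 : (1 + t j) / 2 * (c j * 1 - Kp * ((m - t j) ^ 2 + 2 * (m - t j) * (1 - m) +
        (1 - m) ^ 2 / r1) + θ.el j * 1) + (1 - t j) / 2 * (c j * -1 - Kp * ((m - t j) ^ 2 +
        2 * (m - t j) * (-1 - m) + (-1 - m) ^ 2 / r1) + θ.el j * -1) =
        c j * t j + θ.el j * t j + Kp * (m - t j) ^ 2 -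
        Kp * ((1 + t j) / 2 * ((1 - m) ^ 2 / r1) + (1 - t j) / 2 * ((-1 - m) ^ 2 / r1)) := by ring
    rw [e3]
    linarith

/-- **GL3, single label**: lower bound of the increment, uniform in the penalty, the number of
coins and the labels. -/
theorem EPh_ge (hμ : RHaar μ) (hν : RHaar ν) (hb : p.nb = 0) (hN : 0 < N) {Λ E R S : ℝ}
    (he : ∀ k, |val k| ≤ Λ) (ht : ∀ j, |t j| ≤ 1) (hKp : 0 ≤ Kp) (hS0 : 0 ≤ S) (hR0 : 0 ≤ R)
    (hE : ∀ j, |θ.el j| ≤ E) (hR : ∀ j, ∑ g, θ.am j g ^ 2 ≤ R)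
    (hS : ∀ k, ∑ g, θ.lm k g ^ 2 ≤ S) :
    LD.EPh μ n val c t Kp θ kap lab +
      (if t j = 0 then 0 else Kp * LD.EO μ n val c t Kp θ kap lab
        (fun _ _ ω => (LD.MO n lab j ω - t j) ^ 2) - 4 * Kp / (Mag.rJ lab j + 1)) -
      (C1 Λ R S + |c j| + E + eps1 p S N + epsD p N) ≤
      LD.EPh ν n val c t Kp θ (sk kap k) (sj lab j) := by
  have he' : ∀ i, |eigS val kap k i| ≤ Λ := fun i => he _
  have h1 := EPh_ge0 (n := n) val c t Kp θ kap lab k j hμ hν hb hN he (ht j)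
  set C := C1 Λ R S + eps1 p S N + (|c j| + E) with hC
  have hO : LD.OAdm (n := n) (p := p) μ (fun _ _ ω => pen t Kp lab j ω.1.1.1) :=
    LD.OAdm.const (fun _ ω => pen t Kp lab j ω.1.1.1)
  have h2 : LD.EO μ n val c t Kp θ kap lab (fun _ _ ω => pen t Kp lab j ω.1.1.1) - C ≤
      ∫ V, Ed p N (fun d => eE (G.PP (BU p N n)
      (HN (eigS val kap k) (W0S c t Kp θ lab) (aS θ lab j) (lmS θ kap k) V) d)
        (fun ω => lbI (eigS val kap k) (W0S c t Kp θ lab) (W1S c t Kp θ lab j) (lmS θ kap k)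
          Λ (t j) V ω.1)) ∂μ := by
    have h3 : LD.EO μ n val c t Kp θ kap lab (fun _ _ ω => pen t Kp lab j ω.1.1.1 + -C) =
        LD.EO μ n val c t Kp θ kap lab (fun _ _ ω => pen t Kp lab j ω.1.1.1) - C := by
      rw [LD.EO_add val c t Kp θ kap lab hO (LD.OAdm.const (fun _ _ => -C)),
        LD.EO_const val c t Kp θ kap lab hN]
      ring
    rw [← h3]
    have hc1 : ∀ (d : DD p N) (ω : OU p N n), Continuous fun _ : Mat (Fin N) =>
        pen t Kp lab j ω.1.1.1 + -C := fun _ _ => continuous_const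
    have hi1 := GX.integrable_Ed (hA := LD.univ_ne N) (n := n) (p := p)
      (eig := fun i : Fin N => eigS val kap k i.castSucc) (t := 1)
      (V := W0S c t Kp θ lab) (a := fun i => aS θ lab j i.castSucc)
      (lam := fun i => lmS θ kap k i.castSucc) hμ
      (O := fun _ _ ω => pen t Kp lab j ω.1.1.1 + -C) hc1
    have hi2 := GX.integrable_Ed (hA := LD.univ_ne N) (n := n) (p := p)
      (eig := fun i : Fin N => eigS val kap k i.castSucc) (t := 1)
      (V := W0S c t Kp θ lab) (a := fun i => aS θ lab j i.castSucc)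
      (lam := fun i => lmS θ kap k i.castSucc) hμ
      (O := fun V _ ω => lbI (eigS val kap k) (W0S c t Kp θ lab) (W1S c t Kp θ lab j)
        (lmS θ kap k) Λ (t j) V ω.1) (fun _ ω => continuous_lbI _ _ _ _ _ _ _)
    have h4 : LD.EO μ n val c t Kp θ kap lab (fun _ _ ω => pen t Kp lab j ω.1.1.1 + -C) =
        ∫ V, Ed p N (fun d => eE (G.PP (BU p N n)
        (HN (eigS val kap k) (W0S c t Kp θ lab) (aS θ lab j) (lmS θ kap k) V) d)
        (fun ω => pen t Kp lab j ω.1.1.1 + -C)) ∂μ := by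
      unfold LD.EO
      simp only [PL_eq_PP val c t Kp θ kap lab k j]
    rw [h4]
    refine integral_mono_ae hi1 hi2 ?_
    filter_upwards [hμ.mem] with V hV
    refine Ed_mono p N fun d => ?_
    have h5 := mean_lbI_ge (n := n) (eigS val kap k) (W0S c t Kp θ lab) (W1S c t Kp θ lab j)
      (aS θ lab j) (lmS θ kap k) (t := t j) hb he' hS0 hR0 (fun i => hR _) (fun i => hS _) hV d
    refine le_trans ?_ h5
    have hPP := G.PP_isProb (BU p N n)
      (HN (eigS val kap k) (W0S c t Kp θ lab) (aS θ lab j) (lmS θ kap k) V) d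
    have h6 := eE_mono hPP (f := fun ω => pen t Kp lab j ω.1.1.1 + -(|c j| + E))
      (g := fun ω => vbar (W0S c t Kp θ lab) (W1S c t Kp θ lab j) (t j) ω.1.1.1) (fun ω => by
        have h7 := vbar_ge c t Kp θ lab j hKp (ht j) ω.1.1.1
        have h8 := hE j
        linarith)
    rw [eE_add _ (fun ω : OU p N n => pen t Kp lab j ω.1.1.1) (fun _ => -(|c j| + E)),
      eE_const hPP] at h6
    show eE _ (fun ω : OU p N n => pen t Kp lab j ω.1.1.1 + -C) ≤ _
    rw [eE_add _ (fun ω : OU p N n => pen t Kp lab j ω.1.1.1) (fun _ => -C),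
      eE_const hPP]
    linarith
  have h9 : LD.EO μ n val c t Kp θ kap lab (fun _ _ ω => pen t Kp lab j ω.1.1.1) =
      (if t j = 0 then 0 else Kp * LD.EO μ n val c t Kp θ kap lab
        (fun _ _ ω => (LD.MO n lab j ω - t j) ^ 2) - 4 * Kp / (Mag.rJ lab j + 1)) := by
    unfold pen
    by_cases h0 : t j = 0
    · simp only [h0, if_true]
      exact LD.EO_const val c t Kp θ kap lab hN 0
    · simp only [if_neg h0]
      have hO1 : LD.OAdm (n := n) (p := p) μ (fun _ _ ω => (LD.MO n lab j ω - t j) ^ 2) :=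
        LD.OAdm.const (fun _ ω => (LD.MO n lab j ω - t j) ^ 2)
      rw [← LD.EO_smul val c t Kp θ kap lab hO1]
      have h10 := LD.EO_sub val c t Kp θ kap lab (hO1.smul Kp)
        (LD.OAdm.const (fun _ _ => 4 * Kp / (Mag.rJ lab j + 1)))
      rw [LD.EO_const val c t Kp θ kap lab hN] at h10
      exact h10
  rw [h9] at h2
  linarith

end

end Crest.Agent.R164.LInc
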