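import Mathlib

/-!
Row 164 (helper436): abstract tools of the L side.

* `LSel.sd_grid`: on a finite grid of parameters the average of the second differences of a
  coordinatewise Lipschitz function is small;
* `LSel.deriv_close`: derivatives of two convex functions which are close at three points;
* `LSel.select`: selection of a good parameter.
-/

set_option autoImplicit false

namespace Crest.Agent.R164.LSel

open Finset

noncomputable section

/-! ### Second differences in one variable -/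

/-- second difference in one variable -/
def sd1 (f : ℝ → ℝ) (y x : ℝ) : ℝ := f (x + y) + f (x - y) - 2 * f x

theorem sd1_nonneg {f : ℝ → ℝ} (hf : ConvexOn ℝ Set.univ f) (y x : ℝ) : 0 ≤ sd1 f y x := by
  unfold sd1
  have h0 := hf.2
  have h : f ((1 / 2 : ℝ) • (x + y) + (1 / 2 : ℝ) • (x - y)) ≤
      (1 / 2 : ℝ) • f (x + y) + (1 / 2 : ℝ) • f (x - y) :=
    h0 (Set.mem_univ (x + y)) (Set.mem_univ (x - y)) (by norm_num) (by norm_num) (by norm_num)
  simp only [smul_eq_mul] at h
  have e : 1 / 2 * (x + y) + 1 / 2 * (x - y) = x := by ring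
  rw [e] at h
  linarith

/-- telescoping of second differences -/
theorem sum_sd1 (f : ℝ → ℝ) (a y : ℝ) (I : ℕ) :
    ∑ i ∈ range I, sd1 f y (a + ((i : ℝ) + 1) * y) =
      (f (a + ((I : ℝ) + 1) * y) - f (a + (I : ℝ) * y)) - (f (a + y) - f a) := by
  induction I with
  | zero => simp
  | succ I ih =>
    rw [Finset.sum_range_succ, ih]
    unfold sd1
    push_cast
    have e1 : a + ((I : ℝ) + 1) * y + y = a + ((I : ℝ) + 1 + 1) * y := by ring
    have e2 : a + ((I : ℝ) + 1) * y - y = a + (I : ℝ) * y := by ring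
    rw [e1, e2]
    ring

theorem sum_sd1_le {f : ℝ → ℝ} {a y L : ℝ} (I : ℕ)
    (h : ∀ x, |f (x + y) - f x| ≤ L * y) :
    ∑ i ∈ range I, sd1 f y (a + ((i : ℝ) + 1) * y) ≤ 2 * (L * y) := by
  rw [sum_sd1]
  have h1 := (abs_le.1 (h (a + (I : ℝ) * y))).2
  have h2 := (abs_le.1 (h a)).1
  have e : a + (I : ℝ) * y + y = a + ((I : ℝ) + 1) * y := by ring
  rw [e] at h1
  linarith

/-- local form: the Lipschitz bound is only needed at the two end points of the grid -/
theorem sum_sd1_le' {f : ℝ → ℝ} {a y L : ℝ} (I : ℕ)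
    (h1 : |f (a + (I : ℝ) * y + y) - f (a + (I : ℝ) * y)| ≤ L * y)
    (h2 : |f (a + y) - f a| ≤ L * y) :
    ∑ i ∈ range I, sd1 f y (a + ((i : ℝ) + 1) * y) ≤ 2 * (L * y) := by
  rw [sum_sd1]
  have h1 := (abs_le.1 h1).2
  have h2 := (abs_le.1 h2).1
  have e : a + (I : ℝ) * y + y = a + ((I : ℝ) + 1) * y := by ring
  rw [e] at h1
  linarith

/-! ### Second differences on a grid -/

section grid

variable {C : Type*} [Fintype C] [DecidableEq C]

/-- second difference in the coordinate `c` -/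
def SD (φ : (C → ℝ) → ℝ) (y : C → ℝ) (c : C) (θ : C → ℝ) : ℝ :=
  φ (Function.update θ c (θ c + y c)) + φ (Function.update θ c (θ c - y c)) - 2 * φ θ

/-- the grid point -/
def gpt (θ₀ y : C → ℝ) {I : ℕ} (i : C → Fin I) : C → ℝ :=
  fun c => θ₀ c + (((i c : ℕ) : ℝ) + 1) * y c

omit [Fintype C] in
theorem SD_eq (φ : (C → ℝ) → ℝ) (y : C → ℝ) (c : C) (θ : C → ℝ) :
    SD φ y c θ = sd1 (fun x => φ (Function.update θ c x)) (y c) (θ c) := by
  unfold SD sd1
  simp only [Function.update_eq_self]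

omit [Fintype C] in
theorem SD_nonneg {φ : (C → ℝ) → ℝ} {c : C} {θ : C → ℝ}
    (h : ConvexOn ℝ Set.univ (fun x => φ (Function.update θ c x))) (y : C → ℝ) :
    0 ≤ SD φ y c θ := by
  rw [SD_eq]; exact sd1_nonneg h _ _

/-- sum over the grid of the second differences in the coordinate `c` -/
theorem sum_SD_le {φ : (C → ℝ) → ℝ} {θ₀ y : C → ℝ} {I : ℕ} (hI : 0 < I) {c : C} {L : ℝ}
    (h : ∀ (i : C → Fin I) (x : ℝ),
      |φ (Function.update (gpt θ₀ y i) c (x + y c)) - φ (Function.update (gpt θ₀ y i) c x)| ≤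
        L * y c) :
    ∑ i : C → Fin I, SD φ y c (gpt θ₀ y i) ≤ (I : ℝ) ^ (Fintype.card C - 1) * (2 * (L * y c)) := by
  classical
  -- split the coordinate `c`
  let e := Equiv.funSplitAt c (Fin I)
  have h1 : ∑ i : C → Fin I, SD φ y c (gpt θ₀ y i) =
      ∑ q : {j // j ≠ c} → Fin I, ∑ t : Fin I, SD φ y c (gpt θ₀ y (e.symm (t, q))) := by
    rw [← Equiv.sum_comp e.symm, Fintype.sum_prod_type_right]
  rw [h1]
  have h2 : ∀ q : {j // j ≠ c} → Fin I,
      ∑ t : Fin I, SD φ y c (gpt θ₀ y (e.symm (t, q))) ≤ 2 * (L * y c) := by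
    intro q
    let t0 : Fin I := ⟨0, hI⟩
    have h3 : ∀ t : Fin I, SD φ y c (gpt θ₀ y (e.symm (t, q))) =
        sd1 (fun x => φ (Function.update (gpt θ₀ y (e.symm (t0, q))) c x)) (y c)
          (θ₀ c + (((t : ℕ) : ℝ) + 1) * y c) := by
      intro t
      rw [SD_eq]
      have h4 : gpt θ₀ y (e.symm (t, q)) c = θ₀ c + (((t : ℕ) : ℝ) + 1) * y c := by
        unfold gpt
        simp [e, Equiv.funSplitAt]
      rw [h4]
      congr 1
      funext x
      congr 1
      funext j
      by_cases hj : j = c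
      · subst hj; simp
      · simp only [Function.update_of_ne hj]
        unfold gpt
        simp [e, Equiv.funSplitAt, Equiv.piSplitAt, hj]
    simp only [h3]
    rw [Fin.sum_univ_eq_sum_range (fun t : ℕ =>
      sd1 (fun x => φ (Function.update (gpt θ₀ y (e.symm (t0, q))) c x)) (y c)
          (θ₀ c + ((t : ℝ) + 1) * y c)) I]
    exact sum_sd1_le I (fun x => h (e.symm (t0, q)) x)
  calc _ ≤ ∑ _q : {j // j ≠ c} → Fin I, 2 * (L * y c) := Finset.sum_le_sum fun q _ => h2 q
    _ = _ := by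
      rw [Finset.sum_const, Finset.card_univ, Fintype.card_fun, Fintype.card_fin, nsmul_eq_mul]
      congr 2
      · push_cast
        congr 1
        simp [Fintype.card_subtype_compl]

/-- average over the grid of the normalised second difference in the coordinate `c` -/
theorem avg_SD_le {φ : (C → ℝ) → ℝ} {θ₀ y : C → ℝ} {I : ℕ} (hI : 0 < I) {c : C} {L : ℝ}
    (hy : 0 < y c)
    (h : ∀ (i : C → Fin I) (x : ℝ),
      |φ (Function.update (gpt θ₀ y i) c (x + y c)) - φ (Function.update (gpt θ₀ y i) c x)| ≤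
        L * y c) :
    ((I : ℝ) ^ Fintype.card C)⁻¹ * ∑ i : C → Fin I, SD φ y c (gpt θ₀ y i) / y c ≤
      2 * L / I := by
  have hI' : (0 : ℝ) < I := by exact_mod_cast hI
  have hC : 0 < Fintype.card C := Fintype.card_pos_iff.2 ⟨c⟩
  have h1 := sum_SD_le hI h
  rw [← Finset.sum_div]
  have h2 : ((I : ℝ) ^ Fintype.card C)⁻¹ * ((∑ i : C → Fin I, SD φ y c (gpt θ₀ y i)) / y c) ≤
      ((I : ℝ) ^ Fintype.card C)⁻¹ * (((I : ℝ) ^ (Fintype.card C - 1) * (2 * (L * y c))) / y c) := by
    refine mul_le_mul_of_nonneg_left ?_ (by positivity)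
    exact div_le_div_of_nonneg_right h1 hy.le
  refine h2.trans (le_of_eq ?_)
  have e : (I : ℝ) ^ Fintype.card C = (I : ℝ) ^ (Fintype.card C - 1) * I := by
    rw [← pow_succ]; congr 1; omega
  rw [e]
  field_simp

/-- average over the grid of the sum over all coordinates -/
theorem avg_sum_SD_le {φ : (C → ℝ) → ℝ} {θ₀ y : C → ℝ} {I : ℕ} (hI : 0 < I) {L : C → ℝ}
    (hy : ∀ c, 0 < y c)
    (h : ∀ (c : C) (i : C → Fin I) (x : ℝ),
      |φ (Function.update (gpt θ₀ y i) c (x + y c)) - φ (Function.update (gpt θ₀ y i) c x)| ≤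
        L c * y c) :
    ((I : ℝ) ^ Fintype.card C)⁻¹ * ∑ i : C → Fin I, ∑ c, SD φ y c (gpt θ₀ y i) / y c ≤
      (∑ c, 2 * L c) / I := by
  rw [Finset.sum_comm, Finset.mul_sum, Finset.sum_div]
  exact Finset.sum_le_sum fun c _ => avg_SD_le hI (hy c) (h c)

end grid

/-! ### Comparison of derivatives -/

/-- Derivatives of two convex functions which are close at three points. -/
theorem deriv_close {f g : ℝ → ℝ} {x y f' g' D : ℝ} (hy : 0 < y)
    (hf : ConvexOn ℝ Set.univ f) (hg : ConvexOn ℝ Set.univ g)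
    (hf' : HasDerivAt f f' x) (hg' : HasDerivAt g g' x)
    (h0 : |f x - g x| ≤ D) (h1 : |f (x + y) - g (x + y)| ≤ D) (h2 : |f (x - y) - g (x - y)| ≤ D) :
    |f' - g'| ≤ 2 * D / y + sd1 f y x / y + sd1 g y x / y := by
  have key : ∀ {F : ℝ → ℝ} {F' : ℝ}, ConvexOn ℝ Set.univ F → HasDerivAt F F' x →
      F' * y ≤ F (x + y) - F x ∧ F x - F (x - y) ≤ F' * y := by
    intro F F' hF hF'
    have ha := hF.deriv_le_slope (Set.mem_univ x) (Set.mem_univ (x + y)) (by linarith)
      hF'.differentiableAt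
    have hb := hF.slope_le_deriv (Set.mem_univ (x - y)) (Set.mem_univ x) (by linarith)
      hF'.differentiableAt
    rw [hF'.deriv] at ha hb
    rw [slope_def_field, le_div_iff₀ (by linarith)] at ha
    rw [slope_def_field, div_le_iff₀ (by linarith)] at hb
    constructor
    · have e : x + y - x = y := by ring
      rw [e] at ha; exact ha
    · have e : x - (x - y) = y := by ring
      rw [e] at hb; exact hb
  obtain ⟨f1, f2⟩ := key hf hf'
  obtain ⟨g1, g2⟩ := key hg hg'
  have s1 := sd1_nonneg hf y x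
  have s2 := sd1_nonneg hg y x
  have a0 := abs_le.1 h0
  have a1 := abs_le.1 h1
  have a2 := abs_le.1 h2
  have e : 2 * D / y + sd1 f y x / y + sd1 g y x / y = (2 * D + sd1 f y x + sd1 g y x) / y := by
    ring
  rw [e, le_div_iff₀ hy]
  have e2 : |f' - g'| * y = |f' * y - g' * y| := by
    rw [← sub_mul, abs_mul, abs_of_pos hy]
  rw [e2, abs_le]
  unfold sd1 at *
  constructor <;> linarith [a0.1, a0.2, a1.1, a1.2, a2.1, a2.2]

/-- Derivative of a convex function and difference quotients. -/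
theorem deriv_quot {f : ℝ → ℝ} {x y f' : ℝ} (hy : 0 < y) (hf : ConvexOn ℝ Set.univ f)
    (hf' : HasDerivAt f f' x) :
    0 ≤ f (x + y) - f x - f' * y ∧ f (x + y) - f x - f' * y ≤ sd1 f y x ∧
    0 ≤ f (x - y) - f x + f' * y ∧ f (x - y) - f x + f' * y ≤ sd1 f y x := by
  have ha := hf.deriv_le_slope (Set.mem_univ x) (Set.mem_univ (x + y)) (by linarith)
      hf'.differentiableAt
  have hb := hf.slope_le_deriv (Set.mem_univ (x - y)) (Set.mem_univ x) (by linarith)
      hf'.differentiableAt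
  rw [hf'.deriv] at ha hb
  rw [slope_def_field, le_div_iff₀ (by linarith)] at ha
  rw [slope_def_field, div_le_iff₀ (by linarith)] at hb
  have e : x + y - x = y := by ring
  have e' : x - (x - y) = y := by ring
  rw [e] at ha
  rw [e'] at hb
  unfold sd1
  refine ⟨by linarith, by linarith, by linarith, by linarith⟩

/-! ### Selection -/

/-- **Selection lemma.** -/
theorem select {Ξ : Type*} [Fintype Ξ] {w X Y : Ξ → ℝ} (hw : ∀ i, 0 ≤ w i) (hw1 : ∑ i, w i = 1)
    {x C δ ε : ℝ} (hε : 0 < ε) (hδ : 0 < δ) (hX : ∑ i, w i * X i ≤ x) (hXC : ∀ i, -C ≤ X i)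
    (hY : ∑ i, w i * Y i ≤ δ) (hY0 : ∀ i, 0 ≤ Y i) :
    ∃ i, 0 < w i ∧ X i ≤ x + ε ∧ Y i ≤ δ / ε * (x + ε + C) := by
  have h1 : ∃ i, 0 < w i ∧ X i + ε / δ * Y i ≤ x + ε := by
    by_contra hcon
    push Not at hcon
    have h2 : ∀ i, w i * (x + ε) ≤ w i * (X i + ε / δ * Y i) := by
      intro i
      rcases (hw i).eq_or_lt with h | h
      · rw [← h]; simp
      · exact mul_le_mul_of_nonneg_left (hcon i h).le h.le
    obtain ⟨i0, hi0⟩ : ∃ i, 0 < w i := by
      by_contra hh
      push Not at hh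
      have : ∑ i, w i ≤ 0 := Finset.sum_nonpos fun i _ => hh i
      linarith
    have h3 : ∑ i, w i * (x + ε) < ∑ i, w i * (X i + ε / δ * Y i) :=
      Finset.sum_lt_sum (fun i _ => h2 i)
        ⟨i0, Finset.mem_univ _, mul_lt_mul_of_pos_left (hcon i0 hi0) hi0⟩
    rw [← Finset.sum_mul, hw1, one_mul] at h3
    have h4 : ∑ i, w i * (X i + ε / δ * Y i) = ∑ i, w i * X i + ε / δ * ∑ i, w i * Y i := by
      rw [Finset.mul_sum, ← Finset.sum_add_distrib]
      exact Finset.sum_congr rfl fun i _ => by ring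
    rw [h4] at h3
    have h5 : ε / δ * ∑ i, w i * Y i ≤ ε / δ * δ := mul_le_mul_of_nonneg_left hY (by positivity)
    have h6 : ε / δ * δ = ε := by field_simp
    linarith
  obtain ⟨i, hi, hi2⟩ := h1
  refine ⟨i, hi, ?_, ?_⟩
  · have : 0 ≤ ε / δ * Y i := mul_nonneg (by positivity) (hY0 i)
    linarith
  · have h2 : ε / δ * Y i ≤ x + ε + C := by linarith [hXC i]
    have h3 : Y i = δ / ε * (ε / δ * Y i) := by field_simp
    rw [h3]
    exact mul_le_mul_of_nonneg_left h2 (by positivity)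

end

end Crest.Agent.R164.LSel
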