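import Crest.Agent.R164.OvConc
import Crest.Agent.R164.RotRel2
import Crest.Agent.R141.Sys

/-!
Row 164, LSTRUCT-1, part 1: choice of good cells in the windows.

A family of laws `Q d U` on a finite space, continuous in the matrix `U`, outer average `dav q ν`.
From the concentration of `E_l r^k_{m_g}` for every cell `g` (`hO2`) and of the leaf overlaps
(`hO4`), pigeonhole over the cells of `nw` windows gives levels `τ d b` at which all block overlaps
are concentrated around their averages.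
-/

set_option autoImplicit false

namespace Crest.Agent.R164.LStr

open Finset MeasureTheory Crest.Agent.R141 Crest.Agent.R164.Rot Crest.Agent.R164.RotRel
  Crest.Agent.R164

noncomputable section

variable {Ω : Type*} [Fintype Ω] {𝓕 : Filt Ω} {N : ℕ} {D : Type*} [Fintype D]

/-- a continuous family of laws and coordinates, with an outer average. -/
structure Fam (Q : D → (Fin N → Fin N → ℝ) → Ω → ℝ)
    (X : (Fin N → Fin N → ℝ) → Fin N → Ω → ℝ) (q : D → ℝ)
    (ν : Measure (Fin N → Fin N → ℝ)) : Prop where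
  ok : ∀ᵐ U ∂ν, U ∈ OK N
  q0 : ∀ d, 0 ≤ q d
  q1 : ∑ d, q d = 1
  prob : ∀ d U, IsProb (Q d U)
  cQ : ∀ d ω, Continuous fun U => Q d U ω
  cX : ∀ i ω, Continuous fun U => X U i ω

/-! ### Continuity -/

theorem cont_eE {T : Type*} [TopologicalSpace T] {P f : T → Ω → ℝ}
    (hP : ∀ ω, Continuous fun u => P u ω) (hf : ∀ ω, Continuous fun u => f u ω) :
    Continuous fun u => eE (P u) (f u) := by
  unfold eE
  exact continuous_finsetSum _ fun ω _ => (hP ω).mul (hf ω)

theorem cont_cE {T : Type*} [TopologicalSpace T] {P f : T → Ω → ℝ} (hPr : ∀ u, IsProb (P u))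
    (hP : ∀ ω, Continuous fun u => P u ω) (hf : ∀ ω, Continuous fun u => f u ω) (r : Setoid Ω)
    (ω : Ω) : Continuous fun u => cE (P u) r (f u) ω := by
  classical
  unfold cE
  refine Continuous.div (continuous_finsetSum _ fun a _ => (hP a).mul (hf a))
    (continuous_finsetSum _ fun a _ => hP a) fun u => ?_
  exact (cls_pos (hPr u) r ω).ne'

section fam

variable {Q : D → (Fin N → Fin N → ℝ) → Ω → ℝ} {X : (Fin N → Fin N → ℝ) → Fin N → Ω → ℝ}
  {q : D → ℝ} {ν : Measure (Fin N → Fin N → ℝ)}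

theorem Fam.cont_rr (h : Fam Q X q ν) (d : D) (B : Finset (Fin N)) (l : ℕ) (ω : Ω) :
    Continuous fun U => rr (X U) (Q d U) 𝓕 B l ω := by
  unfold rr
  exact continuous_const.mul (continuous_finsetSum _ fun i _ =>
    (cont_cE (h.prob d) (h.cQ d) (fun a => h.cX i a) _ ω).pow 2)

theorem Fam.int_eE (h : Fam Q X q ν) [IsProbabilityMeasure ν] (d : D)
    {f : (Fin N → Fin N → ℝ) → Ω → ℝ} (hf : ∀ ω, Continuous fun U => f U ω) :
    Integrable (fun U => eE (Q d U) (f U)) ν :=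
  integrable_cont h.ok (cont_eE (h.cQ d) hf)

/-- average of the overlap at a level. -/
def EV (𝓕 : Filt Ω) (Q : D → (Fin N → Fin N → ℝ) → Ω → ℝ)
    (X : (Fin N → Fin N → ℝ) → Fin N → Ω → ℝ) (q : D → ℝ) (ν : Measure (Fin N → Fin N → ℝ))
    (B : Finset (Fin N)) (l : D → ℕ) : ℝ :=
  dav q ν fun d U => eE (Q d U) (rr (X U) (Q d U) 𝓕 B (l d))

/-- averaged distance of the overlap at a level from a constant. -/
def EC (𝓕 : Filt Ω) (Q : D → (Fin N → Fin N → ℝ) → Ω → ℝ)
    (X : (Fin N → Fin N → ℝ) → Fin N → Ω → ℝ) (q : D → ℝ) (ν : Measure (Fin N → Fin N → ℝ))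
    (B : Finset (Fin N)) (l : D → ℕ) (c : ℝ) : ℝ :=
  dav q ν fun d U => eE (Q d U) fun w => |rr (X U) (Q d U) 𝓕 B (l d) w - c|

/-- averaged distance of the conditional expectation of the overlap at a later level. -/
def EM (𝓕 : Filt Ω) (Q : D → (Fin N → Fin N → ℝ) → Ω → ℝ)
    (X : (Fin N → Fin N → ℝ) → Fin N → Ω → ℝ) (q : D → ℝ) (ν : Measure (Fin N → Fin N → ℝ))
    (B : Finset (Fin N)) (l m : D → ℕ) (c : ℝ) : ℝ :=
  dav q ν fun d U => eE (Q d U) fun w =>
    |cE (Q d U) (𝓕.F (l d)) (rr (X U) (Q d U) 𝓕 B (m d)) w - c|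

theorem dav_sub {q : D → ℝ} {ν : Measure (Fin N → Fin N → ℝ)}
    {f g : D → (Fin N → Fin N → ℝ) → ℝ} (hf : ∀ d, Integrable (f d) ν)
    (hg : ∀ d, Integrable (g d) ν) :
    dav q ν (fun d U => f d U - g d U) = dav q ν f - dav q ν g := by
  unfold dav
  rw [← Finset.sum_sub_distrib]
  refine Finset.sum_congr rfl fun d _ => ?_
  rw [integral_sub (hf d) (hg d), mul_sub]

variable [IsProbabilityMeasure ν]

theorem Fam.int_rr (h : Fam Q X q ν) (d : D) (B : Finset (Fin N)) (l : ℕ) :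
    Integrable (fun U => eE (Q d U) (rr (X U) (Q d U) 𝓕 B l)) ν :=
  h.int_eE d fun ω => h.cont_rr d B l ω

theorem Fam.int_ec (h : Fam Q X q ν) (d : D) (B : Finset (Fin N)) (l : ℕ) (c : ℝ) :
    Integrable (fun U => eE (Q d U) fun w => |rr (X U) (Q d U) 𝓕 B l w - c|) ν :=
  h.int_eE d fun ω => ((h.cont_rr d B l ω).sub continuous_const).abs

theorem Fam.int_em (h : Fam Q X q ν) (d : D) (B : Finset (Fin N)) (l m : ℕ) (c : ℝ) :
    Integrable (fun U => eE (Q d U) fun w =>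
      |cE (Q d U) (𝓕.F l) (rr (X U) (Q d U) 𝓕 B m) w - c|) ν :=
  h.int_eE d fun ω => ((cont_cE (h.prob d) (h.cQ d) (fun a => h.cont_rr d B m a) _ ω).sub
    continuous_const).abs

theorem Fam.EV_nonneg (h : Fam Q X q ν) (B : Finset (Fin N)) (l : D → ℕ) :
    0 ≤ EV 𝓕 Q X q ν B l := by
  unfold EV dav
  exact Finset.sum_nonneg fun d _ => mul_nonneg (h.q0 d) (integral_nonneg fun U =>
    eE_nonneg (h.prob d U) fun w => rr_nonneg (X := X U) B (l d) w)

theorem Fam.EV_mono (h : Fam Q X q ν) (B : Finset (Fin N)) {l l' : D → ℕ}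
    (hl : ∀ d, l d ≤ l' d) : EV 𝓕 Q X q ν B l ≤ EV 𝓕 Q X q ν B l' := by
  unfold EV
  exact dav_mono h.q0 (fun d => h.int_rr d B (l d)) (fun d => h.int_rr d B (l' d))
    fun d => Filter.Eventually.of_forall fun U => OvC.eE_rr_mono (X U) (h.prob d U) B (hl d)

theorem Fam.EV_le (h : Fam Q X q ν) {B : Finset (Fin N)} (hB : 0 < B.card) {K : ℝ}
    (hK : ∀ U ∈ OK N, ∀ w, ∑ i ∈ B, X U i w ^ 2 ≤ K * B.card) (l : D → ℕ) :
    EV 𝓕 Q X q ν B l ≤ K := by
  have h1 : EV 𝓕 Q X q ν B l ≤ dav q ν (fun _ _ => K) := by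
    unfold EV
    refine dav_mono h.q0 (fun d => h.int_rr d B (l d)) (fun d => integrable_const K) fun d => ?_
    filter_upwards [h.ok] with U hU
    exact eE_le_of_le (h.prob d U) fun w => rr_le (X := X U) (h.prob d U) hB (hK U hU) (l d) w
  rwa [dav_const h.q1] at h1

/-- averaged (O3). -/
theorem Fam.EC_le (h : Fam Q X q ν) (B : Finset (Fin N)) {l l' : D → ℕ}
    (hl : ∀ d, l d ≤ l' d) (c : ℝ) :
    EC 𝓕 Q X q ν B l c ≤ EM 𝓕 Q X q ν B l l' c + (EV 𝓕 Q X q ν B l' - EV 𝓕 Q X q ν B l) := by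
  unfold EC EM EV
  rw [← dav_sub (fun d => h.int_rr d B (l' d)) (fun d => h.int_rr d B (l d)),
    ← dav_add (f := fun d U => eE (Q d U) fun w =>
        |cE (Q d U) (𝓕.F (l d)) (rr (X U) (Q d U) 𝓕 B (l' d)) w - c|)
      (g := fun d U => eE (Q d U) (rr (X U) (Q d U) 𝓕 B (l' d)) -
        eE (Q d U) (rr (X U) (Q d U) 𝓕 B (l d))) (fun d => h.int_em d B (l d) (l' d) c)
      (fun d => (h.int_rr d B (l' d)).sub (h.int_rr d B (l d)))]
  refine dav_mono h.q0 (fun d => h.int_ec d B (l d) c) (fun d => (h.int_em d B (l d) (l' d) c).add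
    ((h.int_rr d B (l' d)).sub (h.int_rr d B (l d)))) fun d => ?_
  exact Filter.Eventually.of_forall fun U => OvC.O3 (X U) (h.prob d U) B (hl d) c

/-- replacing the constant by the average. -/
theorem Fam.EC_self (h : Fam Q X q ν) (B : Finset (Fin N)) (l : D → ℕ) (c : ℝ) :
    EC 𝓕 Q X q ν B l (EV 𝓕 Q X q ν B l) ≤ 2 * EC 𝓕 Q X q ν B l c := by
  have h1 : |EV 𝓕 Q X q ν B l - c| ≤ EC 𝓕 Q X q ν B l c := by
    have e1 : EV 𝓕 Q X q ν B l - c = dav q ν (fun d U => eE (Q d U)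
        (fun w => rr (X U) (Q d U) 𝓕 B (l d) w - c)) := by
      have e2 : (fun (d : D) (U : Fin N → Fin N → ℝ) => eE (Q d U)
          (fun w => rr (X U) (Q d U) 𝓕 B (l d) w - c)) =
          fun d U => eE (Q d U) (rr (X U) (Q d U) 𝓕 B (l d)) - c := by
        funext d U
        rw [eE_sub, eE_const (h.prob d U)]
      rw [e2, dav_sub (f := fun d U => eE (Q d U) (rr (X U) (Q d U) 𝓕 B (l d)))
        (g := fun _ _ => c) (fun d => h.int_rr d B (l d)) (fun d => integrable_const c),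
        dav_const h.q1]
      rfl
    rw [e1]
    unfold EC dav
    refine (Finset.abs_sum_le_sum_abs _ _).trans (Finset.sum_le_sum fun d _ => ?_)
    rw [abs_mul, abs_of_nonneg (h.q0 d)]
    refine mul_le_mul_of_nonneg_left ?_ (h.q0 d)
    refine (abs_integral_le_integral_abs).trans ?_
    refine integral_mono (h.int_eE d (fun ω => (h.cont_rr d B (l d) ω).sub continuous_const)).abs
      (h.int_ec d B (l d) c) fun U => ?_
    exact Crest.Agent.R141.eE_abs_le (h.prob d U) _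
  have h2 : EC 𝓕 Q X q ν B l (EV 𝓕 Q X q ν B l) ≤
      EC 𝓕 Q X q ν B l c + |EV 𝓕 Q X q ν B l - c| := by
    have e3 : EC 𝓕 Q X q ν B l c + |EV 𝓕 Q X q ν B l - c| = dav q ν (fun d U =>
        eE (Q d U) (fun w => |rr (X U) (Q d U) 𝓕 B (l d) w - c|) + |EV 𝓕 Q X q ν B l - c|) := by
      rw [dav_add (f := fun d U => eE (Q d U) (fun w => |rr (X U) (Q d U) 𝓕 B (l d) w - c|))
        (g := fun _ _ => |EV 𝓕 Q X q ν B l - c|) (fun d => h.int_ec d B (l d) c)
        (fun d => integrable_const _), dav_const h.q1]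
      rfl
    rw [e3]
    unfold EC
    refine dav_mono h.q0 (fun d => h.int_ec d B (l d) _)
      (fun d => (h.int_ec d B (l d) c).add (integrable_const _)) fun d => ?_
    refine Filter.Eventually.of_forall fun U => ?_
    have h3 : ∀ w, |rr (X U) (Q d U) 𝓕 B (l d) w - EV 𝓕 Q X q ν B l| ≤
        |rr (X U) (Q d U) 𝓕 B (l d) w - c| + |EV 𝓕 Q X q ν B l - c| := by
      intro w
      have e : rr (X U) (Q d U) 𝓕 B (l d) w - EV 𝓕 Q X q ν B l =
        (rr (X U) (Q d U) 𝓕 B (l d) w - c) - (EV 𝓕 Q X q ν B l - c) := by ring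
      rw [e]; exact abs_sub _ _
    refine (eE_mono (h.prob d U) h3).trans (le_of_eq ?_)
    rw [eE_add, eE_const (h.prob d U)]
  linarith

/-! ### Good cells -/

/-- the levels. -/
def lev (p : Par) (nw : ℕ) (cell : ℕ → ℕ) (sel : ℕ → D → ℕ) (d : D) (b : ℕ) : ℕ :=
  if b < nw then p.ct (cell b) (sel (cell b) d) else p.L

omit [Fintype D] in
theorem ct_lt_of_cell (p : Par) {g g' t : ℕ} (hgg : g < g') (ht : t < p.T) (t' : ℕ) :
    p.ct g t < p.ct g' t' := by
  have h1 := p.ct_lt_mt (g := g) ht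
  have h2 : p.mt g ≤ p.ct g' t' := by
    unfold Par.mt Par.ct
    have : (g + 1) * (p.T + 1) ≤ g' * (p.T + 1) := Nat.mul_le_mul_right _ hgg
    omega
  omega

omit [Fintype D] in
theorem mt_lt_ct (p : Par) {g g' : ℕ} (hgg : g < g') (t' : ℕ) : p.mt g < p.ct g' t' := by
  unfold Par.mt Par.ct
  have : (g + 1) * (p.T + 1) ≤ g' * (p.T + 1) := Nat.mul_le_mul_right _ hgg
  omega

omit [Fintype D] in
theorem lev_mono (p : Par) {nw wc : ℕ} (hp : p.nc = nw * wc) {cell : ℕ → ℕ} {sel : ℕ → D → ℕ}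
    (hsel : ∀ g < p.nc, ∀ d, sel g d < p.T)
    (hcell : ∀ b < nw, b * wc < cell b ∧ cell b + 1 < (b + 1) * wc) (d : D) :
    Monotone (lev p nw cell sel d) := by
  have hnc : ∀ b < nw, cell b < p.nc := by
    intro b hb
    have h1 := (hcell b hb).2
    have h2 : (b + 1) * wc ≤ nw * wc := Nat.mul_le_mul_right _ hb
    omega
  refine monotone_nat_of_le_succ fun b => ?_
  unfold lev
  by_cases h1 : b + 1 < nw
  · rw [if_pos h1, if_pos (by omega : b < nw)]
    have h3 := (hcell b (by omega)).2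
    have h4 := (hcell (b + 1) h1).1
    exact (ct_lt_of_cell p (by omega) (hsel _ (hnc b (by omega)) d) _).le
  · rw [if_neg h1]
    by_cases h2 : b < nw
    · rw [if_pos h2]
      exact ((p.ct_lt_mt (hsel _ (hnc b h2) d)).trans (p.mt_lt_L (hnc b h2))).le
    · rw [if_neg h2]

/-- **Good levels.** -/
theorem good_levels (h : Fam Q X q ν) {κ : Type*} [Fintype κ] (Bl : κ → Finset (Fin N))
    (hBl : ∀ k, 0 < (Bl k).card) {K : ℝ}
    (hK : ∀ k, ∀ U ∈ OK N, ∀ w, ∑ i ∈ Bl k, X U i w ^ 2 ≤ K * (Bl k).card)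
    (p : Par) (hL : 𝓕.L = p.L) {nw wc : ℕ} (hwc : 3 ≤ wc) (hp : p.nc = nw * wc)
    {sel : ℕ → D → ℕ} (hsel : ∀ g < p.nc, ∀ d, sel g d < p.T) {cc : κ → ℕ → ℝ} {cl : κ → ℝ}
    {e1 : ℝ}
    (hO2 : ∀ k g, g + 1 < p.nc → ∀ l : D → ℕ, (∀ d, l d < p.mt g) →
      EM 𝓕 Q X q ν (Bl k) l (fun _ => p.mt g) (cc k g) ≤ e1)
    (hO4 : ∀ k, EC 𝓕 Q X q ν (Bl k) (fun _ => p.L) (cl k) ≤ e1) (hK0 : 0 ≤ K) :
    ∃ cell : ℕ → ℕ, (∀ b < nw, b * wc < cell b ∧ cell b + 1 < (b + 1) * wc) ∧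
      ∀ k, ∀ b ≤ nw, EC 𝓕 Q X q ν (Bl k) (fun d => lev p nw cell sel d b)
        (EV 𝓕 Q X q ν (Bl k) (fun d => lev p nw cell sel d b)) ≤
        2 * (e1 + (Fintype.card κ * K) / (wc - 2 : ℕ)) := by
  classical
  have hpig : ∀ b, b < nw → ∃ g, b * wc ≤ g ∧ g < b * wc + (wc - 2) ∧
      ∑ k, (EV 𝓕 Q X q ν (Bl k) (fun _ => p.mt (g + 1)) -
        EV 𝓕 Q X q ν (Bl k) (fun _ => p.mt g)) ≤ (∑ _k : κ, K) / (wc - 2 : ℕ) := by
    intro b _
    exact OvC.pigeon (s := (univ : Finset κ)) (fun k g => EV 𝓕 Q X q ν (Bl k) (fun _ => p.mt g))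
      (fun _ => K) (fun k _ g => h.EV_nonneg (Bl k) _)
      (fun k _ g => h.EV_le (hBl k) (hK k) _) (b * wc) (by omega)
  choose! gg hg1 hg2 hg3 using hpig
  have hT : 0 < p.T ∨ IsEmpty D ∨ p.nc = 0 := by
    by_cases h0 : p.nc = 0
    · exact Or.inr (Or.inr h0)
    · rcases isEmpty_or_nonempty D with hD | ⟨⟨d⟩⟩
      · exact Or.inr (Or.inl hD)
      · exact Or.inl ((Nat.zero_le _).trans_lt (hsel 0 (Nat.pos_of_ne_zero h0) d))
  refine ⟨fun b => gg b + 1, ?_, ?_⟩
  · intro b hb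
    have h1 := hg1 b hb
    have h2 := hg2 b hb
    have h3 : (b + 1) * wc = b * wc + wc := by ring
    refine ⟨?_, ?_⟩
    · show b * wc < gg b + 1
      omega
    · show gg b + 1 + 1 < (b + 1) * wc
      omega
  · intro k b hb
    have hwp : (0 : ℝ) < ((wc - 2 : ℕ) : ℝ) := by
      have : 0 < wc - 2 := by omega
      exact_mod_cast this
    have hx0 : 0 ≤ (Fintype.card κ * K) / (wc - 2 : ℕ) := by positivity
    rcases Nat.lt_or_ge b nw with hb' | hb'
    · have h1 := hg1 b hb'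
      have h2 := hg2 b hb'
      have h3 : (b + 1) * wc = b * wc + wc := by ring
      have h4 : (b + 1) * wc ≤ nw * wc := Nat.mul_le_mul_right _ hb'
      have hcell : gg b + 1 + 1 < p.nc := by omega
      have hlev : ∀ d, lev p nw (fun b => gg b + 1) sel d b =
          p.ct (gg b + 1) (sel (gg b + 1) d) := fun d => by
        unfold lev; rw [if_pos hb']
      have hlt : ∀ d, lev p nw (fun b => gg b + 1) sel d b < p.mt (gg b + 1) := fun d => by
        rw [hlev]; exact p.ct_lt_mt (hsel _ (by omega) d)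
      have hge : ∀ d, p.mt (gg b) ≤ lev p nw (fun b => gg b + 1) sel d b := fun d => by
        rw [hlev]; exact (mt_lt_ct p (Nat.lt_succ_self _) _).le
      have e1' := h.EC_le (𝓕 := 𝓕) (Bl k) (l := fun d => lev p nw (fun b => gg b + 1) sel d b)
        (l' := fun _ => p.mt (gg b + 1)) (fun d => (hlt d).le) (cc k (gg b + 1))
      have e2 := hO2 k (gg b + 1) hcell _ hlt
      have e3 := h.EV_mono (𝓕 := 𝓕) (Bl k) (l := fun _ => p.mt (gg b))
        (l' := fun d => lev p nw (fun b => gg b + 1) sel d b) hge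
      have e4 : EV 𝓕 Q X q ν (Bl k) (fun _ => p.mt (gg b + 1)) -
          EV 𝓕 Q X q ν (Bl k) (fun _ => p.mt (gg b)) ≤ (Fintype.card κ * K) / (wc - 2 : ℕ) := by
        have h5 := hg3 b hb'
        rw [Finset.sum_const, Finset.card_univ, nsmul_eq_mul] at h5
        refine le_trans ?_ h5
        exact Finset.single_le_sum (f := fun k => EV 𝓕 Q X q ν (Bl k) (fun _ => p.mt (gg b + 1)) -
          EV 𝓕 Q X q ν (Bl k) (fun _ => p.mt (gg b))) (fun l _ => sub_nonneg.2
            (h.EV_mono (Bl l) fun _ => by unfold Par.mt; exact Nat.mul_le_mul_right _ (by omega)))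
          (Finset.mem_univ k)
      refine (h.EC_self (Bl k) _ (cc k (gg b + 1))).trans ?_
      refine mul_le_mul_of_nonneg_left ?_ zero_le_two
      linarith
    · have hbe : b = nw := le_antisymm hb hb'
      subst hbe
      have hlev : (fun d => lev p b (fun b => gg b + 1) sel d b) = fun _ : D => p.L := by
        funext d; unfold lev; rw [if_neg (lt_irrefl _)]
      rw [hlev]
      refine (h.EC_self (Bl k) _ (cl k)).trans ?_
      refine mul_le_mul_of_nonneg_left ?_ zero_le_two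
      linarith [hO4 k]

end fam

end

end Crest.Agent.R164.LStr
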