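import Crest.Agent.R164.SDAlg2

/-!
Row 164: deterministic consequences of the approximate left-rotation relations, part 3: the main
estimate `|Γ^k_a - Γhat^k_a| ≤ C √ε` for all levels `a`, with `C` independent of the number of
levels.
-/

set_option autoImplicit false

namespace Crest.Agent.R164.SDAlg

open Finset

noncomputable section

variable {κ : Type} [Fintype κ]

namespace Rel

variable {α θ : κ → ℝ} {n : ℕ} {m : ℕ → ℝ} {G : κ → ℕ → ℝ} {p : ℕ → ℝ} {ε : ℝ}
variable {k0 : κ} {A Δ : ℝ}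

/-- the constant -/
def CC (A Δ : ℝ) : ℝ :=
  2 / c0 A Δ * (2 + Δ * A ^ 2 + 10 * A * Δ / c0 A Δ) + 2 * (2 * Δ / (c0 A Δ) ^ 2) / c0 A Δ +
    12 / c0 A Δ

theorem CC_nonneg (hA : 0 ≤ A) (hΔ : 0 ≤ Δ) : 0 ≤ CC A Δ := by
  have hc := c0_pos hA hΔ
  unfold CC
  positivity

variable (hA : Atoms α θ k0 A Δ)

include hA

/-- Lipschitz continuity of `τ_a` along the levels. -/
theorem tau_sub_le (h : Rel α θ n m G p ε) {a b : ℕ} (hab : a ≤ b) (hb : b ≤ n) {x0 : ℝ}
    (hx : m b ≤ x0) :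
    |tau α (fun k => θ k0 - θ k) (Dl m n p a) - tau α (fun k => θ k0 - θ k) (Dl m n p b)| ≤
      x0 / c0 A Δ := by
  have hd0 : ∀ k, 0 ≤ (fun k => θ k0 - θ k) k := hA.d_nonneg
  have hk0 : (fun k => θ k0 - θ k) k0 = 0 := by simp
  have hc := c0_pos hA.A_nonneg hA.hΔ
  have ha : a ≤ n := hab.trans hb
  have hx0 : 0 ≤ x0 := (h.m_nonneg hb).trans hx
  have h1 := abs_sub_le_of_ss hA.pos hA.sum hd0
    (tau_nonneg α (fun k => θ k0 - θ k) (Dl m n p b))
    (tau_nonneg α (fun k => θ k0 - θ k) (Dl m n p a))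
    (hA.tau_le (h.Dp_nonneg b) (h.Dp_le_one hb)) (hA.tau_le (h.Dp_nonneg a) (h.Dp_le_one ha))
    hA.gap hA.hΔ
  rw [ss_tau hA.pos hd0 hk0 (h.Dp_nonneg a), ss_tau hA.pos hd0 hk0 (h.Dp_nonneg b)] at h1
  have h2 : Dl m n p a - Dl m n p b = ∑ c ∈ Ico a b, m (c + 1) * (p (c + 1) - p c) := by
    unfold Dl
    rw [← Finset.sum_Ico_consecutive _ hab hb]
    ring
  have h3 : |Dl m n p a - Dl m n p b| ≤ x0 := by
    rw [h2, abs_of_nonneg]
    · calc ∑ c ∈ Ico a b, m (c + 1) * (p (c + 1) - p c)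
          ≤ ∑ c ∈ Ico a b, x0 * (p (c + 1) - p c) := by
            apply Finset.sum_le_sum
            intro c hc
            rw [Finset.mem_Ico] at hc
            exact mul_le_mul_of_nonneg_right
              ((mono_of_succ h.mmono (by omega : c + 1 ≤ b) hb).trans hx)
              (sub_nonneg.2 (h.pmono c (by omega)))
        _ = x0 * (p b - p a) := by rw [← Finset.mul_sum, Finset.sum_Ico_sub p hab]
        _ ≤ x0 * 1 := by
            apply mul_le_mul_of_nonneg_left _ hx0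
            have := h.p_le_one hb
            have := h.p_nonneg ha
            linarith
        _ = x0 := mul_one _
    · apply Finset.sum_nonneg
      intro c hc
      rw [Finset.mem_Ico] at hc
      exact mul_nonneg (h.m_nonneg (by omega)) (sub_nonneg.2 (h.pmono c (by omega)))
  rw [le_div_iff₀ hc]
  linarith

/-- `Γhat` at low exponents. -/
theorem ghat_low (h : Rel α θ n m G p ε) {a : ℕ} (ha : a ≤ n) {x0 : ℝ} (hx : m a ≤ x0) (k : κ) :
    |Ghat α (fun k => θ k0 - θ k) n m p k a - p a * ww α (fun k => θ k0 - θ k)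
        (tau α (fun k => θ k0 - θ k) (Dl m n p a)) (tau α (fun k => θ k0 - θ k) (Dl m n p a)) k| ≤
      2 * (2 * Δ / (c0 A Δ) ^ 2) / c0 A Δ * x0 := by
  set d : κ → ℝ := fun k => θ k0 - θ k with hd
  have hd0 : ∀ k, 0 ≤ d k := hA.d_nonneg
  have hc := c0_pos hA.A_nonneg hA.hΔ
  have hΔ0 := hA.hΔ
  have hx0 : 0 ≤ x0 := (h.m_nonneg ha).trans hx
  set W := ww α d (tau α d (Dl m n p a)) (tau α d (Dl m n p a)) k with hW
  have hτA : ∀ b, b ≤ n → tau α d (Dl m n p b) ≤ A := fun b hb =>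
    hA.tau_le (h.Dp_nonneg b) (h.Dp_le_one hb)
  have hdiff : ∀ b c, b ≤ a → c ≤ a →
      |ww α d (tau α d (Dl m n p b)) (tau α d (Dl m n p c)) k - W| ≤
        2 * (2 * Δ / (c0 A Δ) ^ 2) / c0 A Δ * x0 := by
    intro b c hb hc'
    have h1 := ww_lip hA.pos hA.sum hd0 hA.gap hΔ0
      (tau_nonneg α d (Dl m n p b)) (tau_nonneg α d (Dl m n p c))
      (tau_nonneg α d (Dl m n p a)) (tau_nonneg α d (Dl m n p a))
      (hτA b (hb.trans ha)) (hτA c (hc'.trans ha)) (hτA a ha) (hτA a ha) k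
    have h2 := tau_sub_le hA h hb ha hx
    have h3 := tau_sub_le hA h hc' ha hx
    refine h1.trans ?_
    have h4 : 0 ≤ 2 * Δ / (c0 A Δ) ^ 2 := by positivity
    calc 2 * Δ / (c0 A Δ) ^ 2 * _ ≤ 2 * Δ / (c0 A Δ) ^ 2 * (x0 / c0 A Δ + x0 / c0 A Δ) :=
          mul_le_mul_of_nonneg_left (add_le_add h2 h3) h4
      _ = _ := by ring
  have hpa : p a = p 0 + ∑ b ∈ range a, (p (b + 1) - p b) := by
    rw [Finset.sum_range_sub p a]; ring
  have e1 : Ghat α d n m p k a - p a * W =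
      p 0 * (ww α d (tau α d (Dl m n p 0)) (tau α d (Dl m n p 0)) k - W) +
      ∑ b ∈ range a, (p (b + 1) - p b) *
        (ww α d (tau α d (Dl m n p (b + 1))) (tau α d (Dl m n p b)) k - W) := by
    unfold Ghat
    simp only [mul_sub (p (_ + 1) - p _), Finset.sum_sub_distrib]
    rw [hpa, add_mul, Finset.sum_mul]
    ring
  rw [e1]
  set Y := 2 * (2 * Δ / (c0 A Δ) ^ 2) / c0 A Δ * x0 with hY
  have hY0 : 0 ≤ Y := by rw [hY]; positivity
  refine (abs_add_le _ _).trans ?_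
  have t1 : |p 0 * (ww α d (tau α d (Dl m n p 0)) (tau α d (Dl m n p 0)) k - W)| ≤ p 0 * Y := by
    rw [abs_mul, abs_of_nonneg h.p0]
    exact mul_le_mul_of_nonneg_left (hdiff 0 0 (Nat.zero_le a) (Nat.zero_le a)) h.p0
  have t2 : |∑ b ∈ range a, (p (b + 1) - p b) *
        (ww α d (tau α d (Dl m n p (b + 1))) (tau α d (Dl m n p b)) k - W)| ≤
      ∑ b ∈ range a, (p (b + 1) - p b) * Y := by
    refine (Finset.abs_sum_le_sum_abs _ _).trans (Finset.sum_le_sum ?_)
    intro b hb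
    rw [Finset.mem_range] at hb
    have hp := sub_nonneg.2 (h.pmono b (by omega))
    rw [abs_mul, abs_of_nonneg hp]
    exact mul_le_mul_of_nonneg_left (hdiff (b + 1) b (by omega) (by omega)) hp
  have t3 : p 0 * Y + ∑ b ∈ range a, (p (b + 1) - p b) * Y = p a * Y := by
    rw [hpa, add_mul, Finset.sum_mul]
  have t4 : p a * Y ≤ 1 * Y := mul_le_mul_of_nonneg_right (h.p_le_one ha) hY0
  linarith

/-- increments of `Γhat`. -/
theorem ghat_inc (h : Rel α θ n m G p ε) {b : ℕ} (hb : b < n) (k : κ) :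
    (p (b + 1) - p b) * ww α (fun k => θ k0 - θ k)
      (tau α (fun k => θ k0 - θ k) (Dl m n p (b + 1)))
      (tau α (fun k => θ k0 - θ k) (Dl m n p b)) k =
    (m (b + 1))⁻¹ * (FF (fun k => θ k0 - θ k) (tau α (fun k => θ k0 - θ k) (Dl m n p b)) k -
      FF (fun k => θ k0 - θ k) (tau α (fun k => θ k0 - θ k) (Dl m n p (b + 1))) k) := by
  have hd0 : ∀ k, 0 ≤ (fun k => θ k0 - θ k) k := hA.d_nonneg
  have hk0 : (fun k => θ k0 - θ k) k0 = 0 := by simp
  have h1 := FF_sub_eq hA.pos hd0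
    (tau_nonneg α (fun k => θ k0 - θ k) (Dl m n p (b + 1)))
    (tau_nonneg α (fun k => θ k0 - θ k) (Dl m n p b)) k
  rw [ss_tau hA.pos hd0 hk0 (h.Dp_nonneg b), ss_tau hA.pos hd0 hk0 (h.Dp_nonneg (b + 1)),
    Dl_succ hb] at h1
  have hm := (h.mpos (b + 1) (by omega) (by omega)).ne'
  rw [Dl_succ hb, h1]
  field_simp
  ring

/-- **Main estimate.** -/
theorem gamma_close (h : Rel α θ n m G p ε) (hε0 : 0 < ε) (hε : ε ≤ 1) {a : ℕ} (ha : a ≤ n)
    (k : κ) :
    |G k a - Ghat α (fun k => θ k0 - θ k) n m p k a| ≤ CC A Δ * Real.sqrt ε := by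
  classical
  set d : κ → ℝ := fun k => θ k0 - θ k with hd
  have hd0 : ∀ k, 0 ≤ d k := hA.d_nonneg
  have hc := c0_pos hA.A_nonneg hA.hΔ
  have hΔ0 := hA.hΔ
  have hA0 := hA.A_nonneg
  set x0 := Real.sqrt ε with hx0
  have hx0p : 0 < x0 := Real.sqrt_pos.2 hε0
  have hsq : x0 * x0 = ε := Real.mul_self_sqrt hε0.le
  have hx1 : x0 ≤ 1 := Real.sqrt_le_one.2 hε
  have hεx : ε ≤ x0 := by nlinarith
  set a0 := Nat.findGreatest (fun b => m b ≤ x0) a with ha0
  have ha0a : a0 ≤ a := Nat.findGreatest_le a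
  have hma0 : m a0 ≤ x0 := by
    have := Nat.findGreatest_spec (P := fun b => m b ≤ x0) (Nat.zero_le a)
      (by rw [h.m0]; exact hx0p.le)
    exact this
  have hlow : |G k a0 - Ghat α d n m p k a0| ≤
      (2 / c0 A Δ * (2 + Δ * A ^ 2 + 10 * A * Δ / c0 A Δ) +
        2 * (2 * Δ / (c0 A Δ) ^ 2) / c0 A Δ) * x0 := by
    have h1 := step2 hA h hε (ha0a.trans ha) hma0 k
    have h2 := ghat_low hA h (ha0a.trans ha) hma0 k
    rw [abs_sub_comm] at h2
    have h3 := abs_sub_le (G k a0)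
      (p a0 * ww α d (tau α d (Dl m n p a0)) (tau α d (Dl m n p a0)) k)
      (Ghat α d n m p k a0)
    have h4 : 2 / c0 A Δ * (2 * ε + Δ * A ^ 2 * x0 + 10 * A * Δ * ε / c0 A Δ) ≤
        2 / c0 A Δ * (2 + Δ * A ^ 2 + 10 * A * Δ / c0 A Δ) * x0 := by
      rw [mul_assoc (2 / c0 A Δ)]
      apply mul_le_mul_of_nonneg_left _ (by positivity)
      have e1 : 10 * A * Δ * ε / c0 A Δ = (10 * A * Δ / c0 A Δ) * ε := by ring
      have e2 : (10 * A * Δ / c0 A Δ) * ε ≤ (10 * A * Δ / c0 A Δ) * x0 :=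
        mul_le_mul_of_nonneg_left hεx (by positivity)
      rw [e1]
      nlinarith
    rw [add_mul]
    linarith
  have hx0c : 0 ≤ 12 / c0 A Δ * x0 := by positivity
  by_cases hcase : a0 = a
  · rw [hcase] at hlow
    unfold CC
    have : (2 / c0 A Δ * (2 + Δ * A ^ 2 + 10 * A * Δ / c0 A Δ) +
        2 * (2 * Δ / (c0 A Δ) ^ 2) / c0 A Δ + 12 / c0 A Δ) * x0 =
      (2 / c0 A Δ * (2 + Δ * A ^ 2 + 10 * A * Δ / c0 A Δ) +
        2 * (2 * Δ / (c0 A Δ) ^ 2) / c0 A Δ) * x0 + 12 / c0 A Δ * x0 := by ring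
    rw [this]
    linarith
  · have hlt : a0 < a := lt_of_le_of_ne ha0a hcase
    have hm1 : x0 < m (a0 + 1) := by
      by_contra hcon
      push Not at hcon
      have := Nat.le_findGreatest (P := fun b => m b ≤ x0) (by omega : a0 + 1 ≤ a) hcon
      omega
    -- differences
    set e : ℕ → ℝ := fun b => Dl m n (G k) b - FF d (tau α d (Dl m n p b)) k with he
    set u : ℕ → ℝ := fun b => if b < n then (m (b + 1))⁻¹ else 1 with hu
    have hun : ∀ b, b < n → u b = (m (b + 1))⁻¹ := fun b hb => by simp [hu, hb]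
    have hu0 : ∀ b, a0 ≤ b → b ≤ a → 0 ≤ u b := by
      intro b _ hb
      by_cases hbn : b < n
      · rw [hun b hbn]
        exact inv_nonneg.2 (h.m_nonneg (by omega))
      · simp [hu, hbn]
    have hum : ∀ b, a0 ≤ b → b < a → u (b + 1) ≤ u b := by
      intro b _ hb
      rw [hun b (by omega)]
      by_cases hbn : b + 1 < n
      · rw [hun (b + 1) hbn]
        exact inv_anti₀ (h.mpos (b + 1) (by omega) (by omega)) (h.mmono (b + 1) hbn)
      · have hbn' : b + 1 = n := by omega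
        have : u (b + 1) = 1 := by simp [hu, hbn]
        rw [this, hbn', h.mn, inv_one]
    have hee : ∀ b, a0 ≤ b → b ≤ a → |e b| ≤ 6 * ε / c0 A Δ := fun b _ hb =>
      (step1 hA h hε (hb.trans ha)).2 k
    have hab := abel_anti (u := u) (e := e) ha0a hu0 hum hee
    have hG : G k a - G k a0 = ∑ b ∈ Ico a0 a, u b * (Dl m n (G k) b - Dl m n (G k) (b + 1)) := by
      rw [← Finset.sum_Ico_sub (G k) ha0a]
      apply Finset.sum_congr rfl
      intro b hb
      rw [Finset.mem_Ico] at hb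
      rw [hun b (by omega), Dl_succ (by omega : b < n)]
      have hm := (h.mpos (b + 1) (by omega) (by omega)).ne'
      field_simp
      ring
    have hGh : Ghat α d n m p k a - Ghat α d n m p k a0 =
        ∑ b ∈ Ico a0 a, u b * (FF d (tau α d (Dl m n p b)) k -
          FF d (tau α d (Dl m n p (b + 1))) k) := by
      unfold Ghat
      have e1 : ∑ b ∈ range a, (p (b + 1) - p b) *
          ww α d (tau α d (Dl m n p (b + 1))) (tau α d (Dl m n p b)) k =
          (∑ b ∈ range a0, (p (b + 1) - p b) *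
          ww α d (tau α d (Dl m n p (b + 1))) (tau α d (Dl m n p b)) k) +
          ∑ b ∈ Ico a0 a, (p (b + 1) - p b) *
          ww α d (tau α d (Dl m n p (b + 1))) (tau α d (Dl m n p b)) k := by
        rw [Finset.range_eq_Ico, Finset.range_eq_Ico]
        exact (Finset.sum_Ico_consecutive _ (Nat.zero_le a0) ha0a).symm
      rw [e1]
      rw [add_sub_add_left_eq_sub, add_sub_cancel_left]
      apply Finset.sum_congr rfl
      intro b hb
      rw [Finset.mem_Ico] at hb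
      rw [hun b (by omega)]
      exact ghat_inc hA h (by omega) k
    have hdiff : (G k a - G k a0) - (Ghat α d n m p k a - Ghat α d n m p k a0) =
        ∑ b ∈ Ico a0 a, u b * (e b - e (b + 1)) := by
      rw [hG, hGh, ← Finset.sum_sub_distrib]
      apply Finset.sum_congr rfl
      intro b _
      simp only [he]
      ring
    rw [← hdiff, hun a0 (by omega)] at hab
    have hinv : (m (a0 + 1))⁻¹ ≤ x0⁻¹ := inv_anti₀ hx0p hm1.le
    have h5 : 2 * (6 * ε / c0 A Δ) * (m (a0 + 1))⁻¹ ≤ 12 / c0 A Δ * x0 := by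
      calc 2 * (6 * ε / c0 A Δ) * (m (a0 + 1))⁻¹ ≤ 2 * (6 * ε / c0 A Δ) * x0⁻¹ :=
            mul_le_mul_of_nonneg_left hinv (by positivity)
        _ = 12 / c0 A Δ * x0 := by
            rw [← hsq]
            field_simp
            ring
    have h6 : G k a - Ghat α d n m p k a = (G k a0 - Ghat α d n m p k a0) +
        ((G k a - G k a0) - (Ghat α d n m p k a - Ghat α d n m p k a0)) := by ring
    rw [h6]
    refine (abs_add_le _ _).trans ?_
    unfold CC
    have : (2 / c0 A Δ * (2 + Δ * A ^ 2 + 10 * A * Δ / c0 A Δ) +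
        2 * (2 * Δ / (c0 A Δ) ^ 2) / c0 A Δ + 12 / c0 A Δ) * x0 =
      (2 / c0 A Δ * (2 + Δ * A ^ 2 + 10 * A * Δ / c0 A Δ) +
        2 * (2 * Δ / (c0 A Δ) ^ 2) / c0 A Δ) * x0 + 12 / c0 A Δ * x0 := by ring
    rw [this]
    linarith

end Rel

end

end Crest.Agent.R164.SDAlg
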