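import Crest.Agent.R164.OvAvg
import Crest.Agent.R164.SDAlg3

/-!
Row 164, LSTRUCT-1, part 2: `SDAlg.Rel` from the rotation relations and the mean overlaps.
-/

set_option autoImplicit false

namespace Crest.Agent.R164.LStr

open Finset MeasureTheory Crest.Agent.R141 Crest.Agent.R164.OvC
open Crest.Agent.R164.RotRel (rr rr_nonneg eC dav dav_add dav_smul dav_const dav_mono XU)
open Crest.Agent.R164.Rot (OK xc)

noncomputable section

theorem rotRel_eq (mm : ℕ → ℝ) (n : ℕ) (c : ℝ) (gk gl : ℕ → ℝ) (a : ℕ) :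
    RotRel.Rel mm n c gk gl a = gk a - gl a - c * SDAlg.Br mm n gk gl a := by
  unfold RotRel.Rel SDAlg.Br RotRel.DD SDAlg.Dl
  rw [Finset.range_eq_Ico]

/-- the uniform levels. -/
def ml (n : ℕ) (b : ℕ) : ℝ := (b : ℝ) / n

theorem ml_nonneg (n b : ℕ) : 0 ≤ ml n b := by unfold ml; positivity

theorem ml_top {n : ℕ} (hn : 0 < n) : ml n n = 1 := by
  unfold ml
  have : (n : ℝ) ≠ 0 := by positivity
  exact div_self this

theorem ml_zero (n : ℕ) : ml n 0 = 0 := by simp [ml]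

theorem ml_mono (n : ℕ) {a b : ℕ} (h : a ≤ b) : ml n a ≤ ml n b := by
  unfold ml
  exact div_le_div_of_nonneg_right (by exact_mod_cast h) (Nat.cast_nonneg n)

/-- **the data of `SDAlg`**. -/
theorem sdRel_of {κ : Type} [Fintype κ] {α θ w : κ → ℝ} {n : ℕ} (hn : 0 < n) {Γ : κ → ℕ → ℝ}
    {K δ ε : ℝ} (hΓ0 : ∀ k, 0 ≤ Γ k 0) (hΓm : ∀ k b, b < n → Γ k b ≤ Γ k (b + 1))
    (hΓK : ∀ k b, b ≤ n → Γ k b ≤ K) (hw0 : ∀ k, 0 ≤ w k) (hwα : ∀ k, |w k - α k| ≤ δ)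
    (htop : ∑ k, w k * Γ k n = 1) (hε : Fintype.card κ * (δ * K) ≤ ε)
    (hε0 : 0 ≤ ε) (hrel : ∀ k l a, a ≤ n → k ≠ l →
      |RotRel.Rel (ml n) n (θ k - θ l) (Γ k) (Γ l) a| ≤ ε) :
    SDAlg.Rel α θ n (ml n) Γ (fun b => ∑ k, w k * Γ k b) ε where
  m0 := ml_zero n
  mpos b hb _ := by
    unfold ml
    have h1 : (0 : ℝ) < b := by exact_mod_cast hb
    have h2 : (0 : ℝ) < n := by exact_mod_cast hn
    exact div_pos h1 h2
  mmono b _ := ml_mono n (Nat.le_succ b)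
  mn := ml_top hn
  G0 := hΓ0
  Gmono := hΓm
  p0 := Finset.sum_nonneg fun k _ => mul_nonneg (hw0 k) (hΓ0 k)
  pmono b hb := Finset.sum_le_sum fun k _ => mul_le_mul_of_nonneg_left (hΓm k b hb) (hw0 k)
  pn := htop
  papp b hb := by
    rw [← Finset.sum_sub_distrib]
    refine (Finset.abs_sum_le_sum_abs _ _).trans ?_
    have hΓnn : ∀ k, 0 ≤ Γ k b := fun k => by
      have : ∀ c, c ≤ n → 0 ≤ Γ k c := by
        intro c
        induction c with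
        | zero => intro _; exact hΓ0 k
        | succ c ih => intro hc; exact (ih (by omega)).trans (hΓm k c (by omega))
      exact this b hb
    have h1 : ∀ k ∈ (univ : Finset κ), |w k * Γ k b - α k * Γ k b| ≤ δ * K := by
      intro k _
      rw [← sub_mul, abs_mul, abs_of_nonneg (hΓnn k)]
      exact mul_le_mul (hwα k) (hΓK k b hb) (hΓnn k) ((abs_nonneg _).trans (hwα k))
    refine (Finset.sum_le_sum h1).trans ?_
    rw [Finset.sum_const, Finset.card_univ, nsmul_eq_mul]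
    exact hε
  rel k l a ha := by
    by_cases hkl : k = l
    · subst hkl
      simp only [sub_self, zero_mul, abs_zero]
      exact hε0
    · have := hrel k l a ha hkl
      rwa [rotRel_eq] at this

section sums

variable {Ω : Type*} [Fintype Ω] {𝓕 : Filt Ω} {N : ℕ} {κ : Type*} [Fintype κ]

/-- sum of the block overlaps. -/
theorem rr_sum {Q : Ω → ℝ} (X : Fin N → Ω → ℝ) {B : κ → Finset (Fin N)}
    (hB : ∀ f : Fin N → ℝ, ∑ k, ∑ i ∈ B k, f i = ∑ i, f i) (l : ℕ)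
    (ω : Ω) : ∑ k, ((B k).card / N : ℝ) * rr X Q 𝓕 (B k) l ω =
      (N : ℝ)⁻¹ * ∑ i, (cE Q (𝓕.F l) (X i) ω) ^ 2 := by
  rw [← hB, Finset.mul_sum]
  refine Finset.sum_congr rfl fun k _ => ?_
  rw [← card_mul_rr X Q 𝓕 (B k) l ω]
  ring

/-- the spin overlap is the sum of the block overlaps. -/
theorem rr_sum_spin {Q : Ω → ℝ} (s : Ω → Fin N → ℝ) {U : Fin N → Fin N → ℝ} (hU : U ∈ OK N)
    {B : κ → Finset (Fin N)} (hB : ∀ f : Fin N → ℝ, ∑ k, ∑ i ∈ B k, f i = ∑ i, f i)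
    (l : ℕ) (ω : Ω) :
    ∑ k, ((B k).card / N : ℝ) * rr (XU s U) Q 𝓕 (B k) l ω =
      (N : ℝ)⁻¹ * ∑ i, (cE Q (𝓕.F l) (fun w => s w i) ω) ^ 2 := by
  rw [rr_sum (XU s U) hB l ω]
  congr 1
  have h1 : ∀ i, cE Q (𝓕.F l) (XU s U i) ω = ∑ p, U i p * cE Q (𝓕.F l) (fun w => s w p) ω := by
    intro i
    have : XU s U i = fun a => ∑ p, U i p * s a p := by
      funext a; unfold XU xc Matrix.mulVec dotProduct; rfl
    rw [this, cE_sum]
    refine Finset.sum_congr rfl fun p _ => ?_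
    rw [cE_smul]
  simp only [h1]
  exact RotRel.OK_norm hU fun p => cE Q (𝓕.F l) (fun w => s w p) ω

variable {D : Type*} [Fintype D] {q : D → ℝ} {ν : Measure (Fin N → Fin N → ℝ)}
  {Q : D → (Fin N → Fin N → ℝ) → Ω → ℝ}

/-- averaged spin overlap at a level. -/
def Pm (q : D → ℝ) (ν : Measure (Fin N → Fin N → ℝ)) (Q : D → (Fin N → Fin N → ℝ) → Ω → ℝ)
    (𝓕 : Filt Ω) (s : Ω → Fin N → ℝ) (l : D → ℕ) : ℝ :=
  dav q ν (fun d U => eE (Q d U) fun ω =>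
    (N : ℝ)⁻¹ * ∑ i, (cE (Q d U) (𝓕.F (l d)) (fun w => s w i) ω) ^ 2)

theorem Rm_sum [IsProbabilityMeasure ν] (s : Ω → Fin N → ℝ) (hν : ∀ᵐ U ∂ν, U ∈ OK N)
    {B : κ → Finset (Fin N)} (hB : ∀ f : Fin N → ℝ, ∑ k, ∑ i ∈ B k, f i = ∑ i, f i)
    (hint : ∀ d k l, Integrable (fun U => eE (Q d U) (rr (XU s U) (Q d U) 𝓕 (B k) l)) ν)
    (l : D → ℕ) :
    ∑ k, ((B k).card / N : ℝ) * Rm q ν Q 𝓕 (fun U => XU s U) B k l = Pm q ν Q 𝓕 s l := by
  unfold Rm Pm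
  simp only [← dav_smul]
  rw [← dav_sum univ fun k _ d => (hint d k (l d)).const_mul _]
  unfold dav
  refine Finset.sum_congr rfl fun d _ => ?_
  congr 1
  refine integral_congr_ae ?_
  filter_upwards [hν] with U hU
  have e : ∀ k, ((B k).card / N : ℝ) * eE (Q d U) (rr (XU s U) (Q d U) 𝓕 (B k) (l d)) =
      eE (Q d U) fun ω => ((B k).card / N : ℝ) * rr (XU s U) (Q d U) 𝓕 (B k) (l d) ω := by
    intro k; rw [eE_smul]
  simp only [e]
  rw [← eE_sum]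
  congr 1
  funext ω
  exact rr_sum_spin s hU hB (l d) ω

/-- at the leaf the spin overlap is `1`. -/
theorem Pm_top [IsProbabilityMeasure ν] (hN : 0 < N) (hq1 : ∑ d, q d = 1)
    (hprob : ∀ d U, IsProb (Q d U)) (s : Ω → Fin N → ℝ) (hs : ∀ w, ∑ i, s w i ^ 2 = N) :
    Pm q ν Q 𝓕 s (fun _ => 𝓕.L) = 1 := by
  have hN' : (N : ℝ) ≠ 0 := by positivity
  unfold Pm
  have e : ∀ d U, eE (Q d U) (fun ω =>
      (N : ℝ)⁻¹ * ∑ i, (cE (Q d U) (𝓕.F 𝓕.L) (fun w => s w i) ω) ^ 2) = 1 := by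
    intro d U
    have e1 : (fun ω => (N : ℝ)⁻¹ * ∑ i, (cE (Q d U) (𝓕.F 𝓕.L) (fun w => s w i) ω) ^ 2) =
        fun _ => 1 := by
      funext ω
      have e2 : ∀ i, cE (Q d U) (𝓕.F 𝓕.L) (fun w => s w i) ω = s ω i := by
        intro i
        rw [𝓕.bot 𝓕.L le_rfl, cE_bot (hprob d U)]
      simp only [e2, hs ω]
      exact inv_mul_cancel₀ hN'
    rw [e1, eE_const (hprob d U)]
  simp only [e]
  exact dav_const hq1 1

end sums

end

end Crest.Agent.R164.LStr
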