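import Crest.Agent.R164.LStr2
import Crest.Agent.R141.Sys

/-!
Row 164, LSTRUCT-1, part 3: exponents and levels for `nw` windows of `wc` cells.
-/

set_option autoImplicit false

namespace Crest.Agent.R164.LStr

open Finset Crest.Agent.R141

noncomputable section

section lv

variable {D : Type*} (p : Par) {nw wc : ℕ}

/-- levels of the selected coins, leaf at `nw`. -/
def lv (nw : ℕ) (cell : ℕ → ℕ) (sel : ℕ → D → ℕ) (d : D) (b : ℕ) : ℕ :=
  if b < nw then p.ct (cell b) (sel (cell b) d) else p.L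

theorem lv_lt (cell : ℕ → ℕ) (sel : ℕ → D → ℕ) (d : D) {b : ℕ} (hb : b < nw) :
    lv p nw cell sel d b = p.ct (cell b) (sel (cell b) d) := if_pos hb

theorem lv_top (cell : ℕ → ℕ) (sel : ℕ → D → ℕ) (d : D) : lv p nw cell sel d nw = p.L :=
  if_neg (lt_irrefl _)

variable {p}

theorem lv_cell (hp : p.nc = nw * wc) {cell : ℕ → ℕ}
    (hcell : ∀ b < nw, b * wc ≤ cell b ∧ cell b < (b + 1) * wc) {b : ℕ} (hb : b < nw) :
    cell b < p.nc := by
  have h1 := (hcell b hb).2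
  have h2 : (b + 1) * wc ≤ nw * wc := Nat.mul_le_mul_right _ hb
  omega

theorem cell_lt {cell : ℕ → ℕ}
    (hcell : ∀ b < nw, b * wc ≤ cell b ∧ cell b < (b + 1) * wc) {b b' : ℕ} (hbb : b < b')
    (hb : b' < nw) : cell b < cell b' := by
  have h1 := (hcell b (by omega)).2
  have h2 := (hcell b' hb).1
  have h3 : (b + 1) * wc ≤ b' * wc := Nat.mul_le_mul_right _ hbb
  omega

theorem lv_mono (hp : p.nc = nw * wc) {cell : ℕ → ℕ} {sel : ℕ → D → ℕ}
    (hsel : ∀ g < p.nc, ∀ d, sel g d < p.T)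
    (hcell : ∀ b < nw, b * wc ≤ cell b ∧ cell b < (b + 1) * wc) (d : D) :
    Monotone (lv p nw cell sel d) := by
  refine monotone_nat_of_le_succ fun b => ?_
  unfold lv
  by_cases h1 : b + 1 < nw
  · rw [if_pos h1, if_pos (by omega : b < nw)]
    have h3 := cell_lt hcell (Nat.lt_succ_self b) h1
    have h4 := p.ct_lt_mt (g := cell b) (hsel _ (lv_cell hp hcell (by omega : b < nw)) d)
    have h5 : p.mt (cell b) ≤ p.ct (cell (b + 1)) (sel (cell (b + 1)) d) := by
      unfold Par.mt Par.ct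
      have : (cell b + 1) * (p.T + 1) ≤ cell (b + 1) * (p.T + 1) := Nat.mul_le_mul_right _ h3
      omega
    omega
  · rw [if_neg h1]
    by_cases h2 : b < nw
    · rw [if_pos h2]
      exact ((p.ct_lt_mt (hsel _ (lv_cell hp hcell h2) d)).trans
        (p.mt_lt_L (lv_cell hp hcell h2))).le
    · rw [if_neg h2]

/-- upper bound for the exponents. -/
theorem xs_le (hp : p.nc = nw * wc) {g b : ℕ} (hb : b < nw) (hg : g < (b + 1) * wc) {t m : ℕ}
    (ht : t < p.T) (hm : m ≤ p.ct g t) : p.xs m ≤ ((b : ℝ) + 1) / nw := by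
  have hnw : (0 : ℝ) < nw := by exact_mod_cast (Nat.zero_le b).trans_lt hb
  have h1 : (m - 1) / (p.T + 1) ≤ g := by
    have h2 : m - 1 ≤ g * (p.T + 1) + t := by unfold Par.ct at hm; omega
    calc (m - 1) / (p.T + 1) ≤ (g * (p.T + 1) + t) / (p.T + 1) := Nat.div_le_div_right h2
      _ = g := by
        rw [Nat.add_comm, Nat.add_mul_div_right _ _ (Nat.succ_pos _),
          Nat.div_eq_of_lt (by omega), Nat.zero_add]
  unfold Par.xs
  refine (min_le_right _ _).trans ?_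
  have h3 : ((((m - 1) / (p.T + 1) : ℕ) : ℝ) + 1) ≤ (b + 1) * wc := by
    have h4 : (m - 1) / (p.T + 1) + 1 ≤ (b + 1) * wc := by omega
    exact_mod_cast h4
  have h5 : ((p.nc : ℝ)) = nw * wc := by rw [hp]; push_cast; ring
  rw [h5, div_le_div_iff₀ (by positivity) hnw]
  have h6 : (0:ℝ) ≤ (b:ℝ) + 1 := by positivity
  calc ((((m - 1) / (p.T + 1) : ℕ) : ℝ) + 1) * nw ≤ ((b + 1) * wc) * nw :=
        mul_le_mul_of_nonneg_right h3 hnw.le
    _ ≤ (b + 1) * (nw * wc + 1) := by nlinarith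

/-- lower bound for the exponents. -/
theorem le_xs (hp : p.nc = nw * wc) {g b : ℕ} (hb : b < nw) (hg : b * wc ≤ g) {t m : ℕ}
    (hm : p.ct g t < m) : (b : ℝ) / nw ≤ p.xs m := by
  have hnw : (0 : ℝ) < nw := by exact_mod_cast (Nat.zero_le b).trans_lt hb
  have hbn : (b : ℝ) ≤ nw := by exact_mod_cast hb.le
  have h1 : g ≤ (m - 1) / (p.T + 1) := by
    rw [Nat.le_div_iff_mul_le (Nat.succ_pos p.T)]
    unfold Par.ct at hm
    have h0 : g * p.T.succ = g * (p.T + 1) := rfl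
    rw [h0]; omega
  unfold Par.xs
  refine le_min ?_ ?_
  · rw [div_le_one hnw]; exact hbn
  · have h3 : (b : ℝ) * wc + 1 ≤ ((((m - 1) / (p.T + 1) : ℕ) : ℝ) + 1) := by
      have h4 : b * wc + 1 ≤ (m - 1) / (p.T + 1) + 1 := by omega
      exact_mod_cast h4
    have h5 : ((p.nc : ℝ)) = nw * wc := by rw [hp]; push_cast; ring
    rw [h5, div_le_div_iff₀ hnw (by positivity)]
    calc (b : ℝ) * (nw * wc + 1) ≤ ((b : ℝ) * wc + 1) * nw := by nlinarith
      _ ≤ _ := mul_le_mul_of_nonneg_right h3 hnw.le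

/-- `hlow` of `RotRel.rel_spin`. -/
theorem lv_low (hnw : 0 < nw) (hp : p.nc = nw * wc) {cell : ℕ → ℕ} {sel : ℕ → D → ℕ}
    (hsel : ∀ g < p.nc, ∀ d, sel g d < p.T)
    (hcell : ∀ b < nw, b * wc ≤ cell b ∧ cell b < (b + 1) * wc) (d : D) (m : ℕ)
    (hm : m ≤ lv p nw cell sel d 0) : p.xs m ≤ 1 / (nw : ℝ) := by
  rw [lv_lt p cell sel d hnw] at hm
  have h := xs_le hp hnw (hcell 0 hnw).2 (hsel _ (lv_cell hp hcell hnw) d) hm
  simpa using h

/-- `hw` of `RotRel.rel_spin`. -/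
theorem lv_win (hp : p.nc = nw * wc) {cell : ℕ → ℕ} {sel : ℕ → D → ℕ}
    (hsel : ∀ g < p.nc, ∀ d, sel g d < p.T)
    (hcell : ∀ b < nw, b * wc ≤ cell b ∧ cell b < (b + 1) * wc) (d : D) (b : ℕ) (hb : b < nw)
    (m : ℕ) (h1 : lv p nw cell sel d b < m) (h2 : m ≤ lv p nw cell sel d (b + 1)) :
    |p.xs m - ml nw (b + 1)| ≤ 1 / (nw : ℝ) := by
  have hnw : (0 : ℝ) < nw := by exact_mod_cast (Nat.zero_le b).trans_lt hb
  rw [lv_lt p cell sel d hb] at h1
  have hlo := le_xs hp hb (hcell b hb).1 h1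
  have e : ml nw (b + 1) = (b : ℝ) / nw + 1 / nw := by
    unfold ml; push_cast; ring
  have hup : p.xs m ≤ (b : ℝ) / nw + 2 / nw := by
    by_cases hb' : b + 1 < nw
    · rw [lv_lt p cell sel d hb'] at h2
      have h := xs_le hp hb' (hcell _ hb').2 (hsel _ (lv_cell hp hcell hb') d) h2
      refine h.trans (le_of_eq ?_)
      push_cast; ring
    · have hbe : b + 1 = nw := by omega
      have h3 : p.xs m ≤ 1 := p.xs_expo.le_one m
      have h4 : (b : ℝ) / nw + 1 / nw = 1 := by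
        rw [← add_div]
        have : ((b : ℝ) + 1) = nw := by exact_mod_cast hbe
        rw [this]; exact div_self hnw.ne'
      have h5 : (0 : ℝ) < 1 / nw := by positivity
      have h6 : (2 : ℝ) / nw = 1 / nw + 1 / nw := by ring
      rw [h6]
      linarith
  rw [e, abs_le]
  have h6 : (2 : ℝ) / nw = 1 / nw + 1 / nw := by ring
  constructor <;> linarith

end lv

end

end Crest.Agent.R164.LStr
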