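import Crest.Agent.R164.PurSys
import Crest.Agent.R164.ConcSys2
import Crest.Agent.R164.LStr3

/-!
Row 164, LSTRUCT-1, part 4: second moments of the fields under the law of the system.
-/

set_option autoImplicit false

namespace Crest.Agent.R164.LStr

open Finset MeasureTheory Crest.Agent.R141 Crest.Agent.R164 Crest.Agent.R164.SY
  Crest.Agent.R164.OvC
open Crest.Agent.R164.Rot (OK)

noncomputable section

variable {p : Par} {N n : ℕ} {A : Finset (Fin N → Bool)} (hA : A.Nonempty)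

/-- bound of the Hamiltonian `HS` by the squares of the fields. -/
theorem abs_HS_le {h0 : (Fin N → Bool) → ℝ} {a lam : Fin N → Fin p.nc → ℝ}
    {x : (Fin N → Bool) → Fin N → ℝ} {B0 Am Lm : ℝ} (h0B : ∀ σ, |h0 σ| ≤ B0)
    (ha : ∀ i g, |a i g| ≤ Am) (hl : ∀ i g, |lam i g| ≤ Lm) (hx : ∀ σ, ∑ i, x σ i ^ 2 ≤ N)
    (s : SS p n A) : |HS h0 a lam x s| ≤
      (B0 + 2 * Am ^ 2 * p.nc * N + 2 * Lm ^ 2 * p.nc * N) + 1 / 8 * CSys.Ts s := by
  have h1 := CSys.abs_small_le s.2.1 a ha (fun i => sv (s.1.1 i))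
  have h2 := CSys.abs_small_le s.2.2 lam hl (fun i => x s.1.1 i)
  have h3 : ∑ i, (sv (s.1.1 i)) ^ 2 = (N : ℝ) := by
    have : ∀ i, (sv (s.1.1 i)) ^ 2 = 1 := by
      intro i
      rw [← sq_abs, sv_abs, one_pow]
    simp [this]
  rw [h3] at h1
  have h4 : 2 * Lm ^ 2 * p.nc * ∑ i, (x s.1.1 i) ^ 2 ≤ 2 * Lm ^ 2 * p.nc * N :=
    mul_le_mul_of_nonneg_left (hx _) (by positivity)
  have h5 : |HS h0 a lam x s| ≤ |h0 s.1.1| + |∑ g, ∑ i, a i g * (zf s.2.1 g i * sv (s.1.1 i))| +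
      |∑ g, ∑ i, lam i g * (zf s.2.2 g i * x s.1.1 i)| := by
    unfold HS
    exact (abs_add_le _ _).trans (add_le_add (abs_add_le _ _) le_rfl)
  have h6 := h0B s.1.1
  unfold CSys.Ts
  linarith

/-- second moment of the total small field at the sites. -/
theorem small_sq_le (hnb : p.nb = 0) {H : SS p n A → ℝ} {B : ℝ}
    (hH : ∀ s, |H s| ≤ B + 1 / 8 * CSys.Ts s) {lam : Fin N → Fin p.nc → ℝ} {Lm : ℝ}
    (hl : ∀ i g, |lam i g| ≤ Lm) (d : DD p N) :
    eE (G.PP (base p n A hA) H d) (fun ω => ∑ i, (∑ g, lam i g * zf ω.1.2.2 g i) ^ 2) ≤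
      Lm ^ 2 * p.nc * (16 * B + 8 * (p.nc * p.T * p.τ) + 32 * (N * p.nc)) := by
  have hP := G.PP_isProb (base p n A hA) H d
  have h1 : ∀ ω : G.Om (base p n A hA), ∑ i, (∑ g, lam i g * zf ω.1.2.2 g i) ^ 2 ≤
      (Lm ^ 2 * p.nc) * CSys.Ts ω.1 := by
    intro ω
    have h2 : ∀ i, (∑ g, lam i g * zf ω.1.2.2 g i) ^ 2 ≤
        (Lm ^ 2 * p.nc) * ∑ g, (zf ω.1.2.2 g i) ^ 2 := by
      intro i
      have h3 := Finset.sum_mul_sq_le_sq_mul_sq (univ : Finset (Fin p.nc)) (fun g => lam i g)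
        (fun g => zf ω.1.2.2 g i)
      refine h3.trans ?_
      refine mul_le_mul_of_nonneg_right ?_ (Finset.sum_nonneg fun _ _ => sq_nonneg _)
      have h4 : ∀ g ∈ (univ : Finset (Fin p.nc)), (lam i g) ^ 2 ≤ Lm ^ 2 := by
        intro g _
        rw [← sq_abs (lam i g)]
        exact pow_le_pow_left₀ (abs_nonneg _) (hl i g) 2
      refine (Finset.sum_le_sum h4).trans (le_of_eq ?_)
      rw [Finset.sum_const, Finset.card_univ, Fintype.card_fin, nsmul_eq_mul]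
      ring
    refine (Finset.sum_le_sum fun i _ => h2 i).trans ?_
    rw [← Finset.mul_sum]
    refine mul_le_mul_of_nonneg_left ?_ (by positivity)
    have h5 : ∑ i, ∑ g, (zf ω.1.2.2 g i) ^ 2 = CSys.Tc ω.1.2.2 := by
      unfold CSys.Tc
      exact Finset.sum_comm
    rw [h5]
    unfold CSys.Ts
    linarith [CSys.Tc_nonneg ω.1.2.1]
  refine (eE_mono hP h1).trans ?_
  rw [eE_smul]
  exact mul_le_mul_of_nonneg_left (CSys.eE_Ts_le hA hnb H hH d) (by positivity)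

/-- bound of the quadratic part. -/
theorem abs_qd_le {eig : Fin N → ℝ} {Λ : ℝ} (hΛ : ∀ i, |eig i| ≤ Λ) {U : Fin N → Fin N → ℝ}
    (hU : U ∈ OK N) (σ : Fin N → Bool) : |Mag.qd eig (Matrix.of U) σ| ≤ Λ / 2 * N := by
  unfold Mag.qd
  rw [abs_mul, abs_of_pos (by norm_num : (0:ℝ) < 1 / 2)]
  have h1 : |∑ i, eig i * ((Matrix.of U).mulVec
      (Crest.ProbabilityR.InvariantGlass.spinVec σ) i) ^ 2| ≤ ∑ i, Λ * (xM U σ i) ^ 2 := by
    refine (Finset.abs_sum_le_sum_abs _ _).trans (Finset.sum_le_sum fun i _ => ?_)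
    rw [abs_mul, abs_of_nonneg (sq_nonneg ((Matrix.of U).mulVec
      (Crest.ProbabilityR.InvariantGlass.spinVec σ) i))]
    exact mul_le_mul_of_nonneg_right (hΛ i) (sq_nonneg _)
  rw [← Finset.mul_sum, sum_xM_sq hU σ] at h1
  linarith

end

end Crest.Agent.R164.LStr
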