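import Crest.Agent.R164.RotRel3
import Crest.Agent.R164.Haar
import Crest.Agent.R164.GSpin
import Crest.Agent.R164.Sys164
import Crest.Agent.R164.OvConc
import Crest.Agent.R164.SDAlg2

/-!
Row 164: the left-rotation relations for the finite system of `Sys164.lean`.

`rotSys_rel`: concentration of the block overlaps at the levels `lv d b`, purity of the spins and
smallness of the small fields imply `SDAlg.Rel` for the averaged block overlaps `Gam`.
-/

set_option autoImplicit false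

namespace Crest.Agent.R164.RSys

open Finset MeasureTheory Crest.Agent.R141 Crest.Agent.R164.Rot Crest.Agent.R164.RotRel

noncomputable section

variable {p : Par} {N : ℕ} {A : Finset (Fin N → Bool)}

/-- the Hamiltonian for the matrix `U` -/
def Hs (n : ℕ) (A : Finset (Fin N → Bool)) (eig : Fin N → ℝ) (t : ℝ) (V : (Fin N → Bool) → ℝ)
    (a lam : Fin N → Fin p.nc → ℝ)
    (U : Fin N → Fin N → ℝ) : SY.SS p n A → ℝ :=
  SY.HS (SY.h0q eig (Matrix.of U) t V) a lam (SY.xU (Matrix.of U))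

variable (n : ℕ) (hA : A.Nonempty)

/-- the spins -/
def sp (ω : G.Om (SY.base p n A hA)) (i : Fin N) : ℝ := sv (ω.1.1.1 i)

/-- the part of the log-weight which does not depend on the matrix -/
def H0 (V : (Fin N → Bool) → ℝ) (a : Fin N → Fin p.nc → ℝ) (d : DD p N)
    (ω : G.Om (SY.base p n A hA)) : ℝ :=
  V ω.1.1.1 + (∑ g, ∑ i, a i g * (SY.zf ω.1.2.1 g i * sv (ω.1.1.1 i))) +
    G.WW (SY.base p n A hA) d ω

/-- the total small field at the coordinate `i` -/
def zz (lam : Fin N → Fin p.nc → ℝ) (i : Fin N) (ω : G.Om (SY.base p n A hA)) : ℝ :=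
  ∑ g, lam i g * SY.zf ω.1.2.2 g i

theorem UU_eq (eig : Fin N → ℝ) (t : ℝ) (V : (Fin N → Bool) → ℝ) (a lam : Fin N → Fin p.nc → ℝ)
    (U : Fin N → Fin N → ℝ) (d : DD p N) :
    G.UU (SY.base p n A hA) (Hs n A eig t V a lam U) d =
      HG (fun i => t * eig i) (sp n hA) (hlin (sp n hA) (H0 n hA V a d) (zz n hA lam)) U := by
  funext ω
  have e1 : SY.h0q eig (Matrix.of U) t V ω.1.1.1 =
      quad (fun i => t * eig i) (sp n hA ω) U + V ω.1.1.1 := by
    unfold SY.h0q Mag.qd quad xc sp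
    congr 1
    rw [← mul_assoc, mul_comm t, mul_assoc, Finset.mul_sum]
    congr 1
    refine Finset.sum_congr rfl fun i _ => ?_
    rw [← mul_assoc]
    rfl
  have e2 : ∑ g, ∑ i, lam i g * (SY.zf ω.1.2.2 g i * SY.xU (Matrix.of U) ω.1.1.1 i) =
      ∑ i, zz n hA lam i ω * xc (sp n hA ω) i U := by
    rw [Finset.sum_comm]
    refine Finset.sum_congr rfl fun i _ => ?_
    unfold zz
    rw [Finset.sum_mul]
    refine Finset.sum_congr rfl fun g _ => ?_
    rw [← mul_assoc]
    rfl
  unfold G.UU Hs SY.HS HG hlin H0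
  rw [e1, e2]
  ring

/-- the tilted law for the matrix `U` and the pointers `d` -/
def PQ (eig : Fin N → ℝ) (t : ℝ) (V : (Fin N → Bool) → ℝ) (a lam : Fin N → Fin p.nc → ℝ)
    (U : Fin N → Fin N → ℝ) (d : DD p N) : G.Om (SY.base p n A hA) → ℝ :=
  G.PP (SY.base p n A hA) (Hs n A eig t V a lam U) d

theorem PQ_eq (eig : Fin N → ℝ) (t : ℝ) (V : (Fin N → Bool) → ℝ) (a lam : Fin N → Fin p.nc → ℝ)
    (U : Fin N → Fin N → ℝ) (d : DD p N) :
    PQ n hA eig t V a lam U d = QG (G.prior (SY.base p n A hA)) (G.fil (SY.base p n A hA)) p.xs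
      (fun i => t * eig i) (sp n hA) (hlin (sp n hA) (H0 n hA V a d) (zz n hA lam)) U := by
  unfold PQ G.PP QG
  rw [UU_eq]

theorem PQ_isProb (eig : Fin N → ℝ) (t : ℝ) (V : (Fin N → Bool) → ℝ)
    (a lam : Fin N → Fin p.nc → ℝ) (U : Fin N → Fin N → ℝ) (d : DD p N) :
    IsProb (PQ n hA eig t V a lam U d) := G.PP_isProb _ _ _

theorem sp_sq (ω : G.Om (SY.base p n A hA)) : ∑ i, sp n hA ω i ^ 2 = N := by
  have : ∀ i, sp n hA ω i ^ 2 = 1 := by
    intro i
    unfold sp sv
    split_ifs <;> norm_num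
  simp only [this]
  simp

/-- the Hamiltonian depends continuously on the matrix. -/
theorem meas_Hs (eig : Fin N → ℝ) (t : ℝ) (V : (Fin N → Bool) → ℝ)
    (a lam : Fin N → Fin p.nc → ℝ) (s : SY.SS p n A) :
    Measurable fun U : Fin N → Fin N → ℝ => Hs n A eig t V a lam U s := by
  refine Continuous.measurable ?_
  have hx : ∀ i, Continuous fun U : Fin N → Fin N → ℝ => (Matrix.of U).mulVec
      (Crest.ProbabilityR.InvariantGlass.spinVec s.1.1) i := fun i =>
    continuous_xc (Crest.ProbabilityR.InvariantGlass.spinVec s.1.1) i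
  unfold Hs SY.HS SY.h0q Mag.qd SY.xU
  refine ((Continuous.add ?_ continuous_const).add continuous_const).add ?_
  · exact continuous_const.mul (continuous_const.mul (continuous_finsetSum _ fun i _ =>
      continuous_const.mul ((hx i).pow 2)))
  · exact continuous_finsetSum _ fun g _ => continuous_finsetSum _ fun i _ =>
      continuous_const.mul (continuous_const.mul (hx i))

/-! ### Levels -/

/-- the level `b`: the step `sel` in the cell `c b`; the leaf for `b ≥ nn`. -/
def lv (c : ℕ → Fin p.nc) (sel : Fin p.nc → DD p N → Fin p.T) (nn : ℕ) (d : DD p N) (b : ℕ) : ℕ :=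
  if b < nn then p.ct (c b) (sel (c b) d) else p.L

variable {c : ℕ → Fin p.nc} {sel : Fin p.nc → DD p N → Fin p.T} {nn : ℕ}

theorem lv_top (d : DD p N) : lv c sel nn d nn = p.L := by
  unfold lv; rw [if_neg (lt_irrefl _)]

theorem lv_of_lt {b : ℕ} (h : b < nn) (d : DD p N) :
    lv c sel nn d b = p.ct (c b) (sel (c b) d) := by
  unfold lv; rw [if_pos h]

theorem lv_le_L (d : DD p N) (b : ℕ) : lv c sel nn d b ≤ p.L := by
  unfold lv
  split_ifs
  · exact (p.ct_lt_mt (sel (c b) d).2).le.trans (p.mt_lt_L (c b).2).le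
  · exact le_rfl

theorem ct_mono {g g' : ℕ} (h : g < g') {t : ℕ} (ht : t < p.T) (t' : ℕ) :
    p.ct g t ≤ p.ct g' t' := by
  unfold Par.ct
  have : (g + 1) * (p.T + 1) ≤ g' * (p.T + 1) := Nat.mul_le_mul_right _ h
  have h2 : (g + 1) * (p.T + 1) = g * (p.T + 1) + (p.T + 1) := by ring
  omega

theorem lv_mono (hc : ∀ b, b + 1 < nn → (c b : ℕ) < c (b + 1)) (d : DD p N) :
    Monotone (lv c sel nn d) := by
  refine monotone_nat_of_le_succ fun b => ?_
  by_cases h : b + 1 < nn
  · rw [lv_of_lt h, lv_of_lt (by omega)]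
    exact ct_mono (hc b h) (sel (c b) d).2 _
  · have : lv c sel nn d (b + 1) = p.L := by unfold lv; rw [if_neg h]
    rw [this]; exact lv_le_L d b

theorem xs_ct (g : Fin p.nc) {t : ℕ} (ht : t < p.T) : p.xs (p.ct g t) = p.xi g := by
  refine p.xs_cell g.2 ?_ (p.ct_lt_mt ht).le
  unfold Par.ct; omega

theorem lv_low {δ : ℝ} (hnn : 0 < nn) (h0 : p.xi (c 0) ≤ δ) (d : DD p N) (m : ℕ)
    (hm : m ≤ lv c sel nn d 0) : p.xs m ≤ δ := by
  refine (p.xs_expo.mono hm).trans ?_
  rw [lv_of_lt hnn, xs_ct _ (sel (c 0) d).2]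
  exact h0

theorem lv_win {δ : ℝ} {mm : ℕ → ℝ} (hlo : ∀ b, b < nn → mm (b + 1) - δ ≤ p.xi (c b))
    (hhi : ∀ b, b + 1 < nn → p.xi (c (b + 1)) ≤ mm (b + 1) + δ) (htop : 1 ≤ mm nn + δ)
    (d : DD p N) (b : ℕ) (hb : b < nn) (m : ℕ) (h1 : lv c sel nn d b < m)
    (h2 : m ≤ lv c sel nn d (b + 1)) : |p.xs m - mm (b + 1)| ≤ δ := by
  rw [lv_of_lt hb] at h1
  have a1 : p.xi (c b) ≤ p.xs m := by
    rw [← xs_ct (c b) (sel (c b) d).2]
    exact p.xs_expo.mono h1.le
  have a2 : p.xs m ≤ mm (b + 1) + δ := by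
    by_cases h : b + 1 < nn
    · rw [lv_of_lt h] at h2
      refine (p.xs_expo.mono h2).trans ?_
      rw [xs_ct _ (sel (c (b + 1)) d).2]
      exact hhi b h
    · have : b + 1 = nn := by omega
      rw [this]
      exact (p.xs_expo.le_one m).trans htop
  have a3 := hlo b hb
  rw [abs_le]
  constructor <;> linarith

/-! ### Overlaps -/

section main

variable {κ : Type} [Fintype κ] [DecidableEq κ]

/-- the block of the label `k` -/
def blk (lab : Fin N → κ) (k : κ) : Finset (Fin N) := univ.filter fun i => lab i = k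

variable (eig : Fin N → ℝ) (t : ℝ) (V : (Fin N → Bool) → ℝ) (a lam : Fin N → Fin p.nc → ℝ)

/-- block overlap of the system at the level `l` -/
def ro (B : Finset (Fin N)) (l : ℕ) (d : DD p N) (U : Fin N → Fin N → ℝ)
    (ω : G.Om (SY.base p n A hA)) : ℝ :=
  rr (XU (sp n hA) U) (PQ n hA eig t V a lam U d) (G.fil (SY.base p n A hA)) B l ω

/-- averaged block overlap at the level `b` -/
def Gam (μ : Measure (Fin N → Fin N → ℝ)) (c : ℕ → Fin p.nc)
    (sel : Fin p.nc → DD p N → Fin p.T) (nn : ℕ) (B : Finset (Fin N)) (b : ℕ) : ℝ :=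
  dav (dw p N) μ (fun d U => eE (PQ n hA eig t V a lam U d)
    (ro n hA eig t V a lam B (lv c sel nn d b) d U))

/-- averaged spin overlap at the level `b` -/
def pb (μ : Measure (Fin N → Fin N → ℝ)) (c : ℕ → Fin p.nc)
    (sel : Fin p.nc → DD p N → Fin p.T) (nn : ℕ) (b : ℕ) : ℝ :=
  dav (dw p N) μ (fun d U => eE (PQ n hA eig t V a lam U d) (fun ω => (N : ℝ)⁻¹ *
    ∑ i, (cE (PQ n hA eig t V a lam U d) ((G.fil (SY.base p n A hA)).F (lv c sel nn d b))
      (fun ω => sp n hA ω i) ω) ^ 2))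

/-- concentration error at the level `b` -/
def cnc (μ : Measure (Fin N → Fin N → ℝ)) (c : ℕ → Fin p.nc)
    (sel : Fin p.nc → DD p N → Fin p.T) (nn : ℕ) (B : Finset (Fin N)) (b : ℕ) (c0 : ℝ) : ℝ :=
  dav (dw p N) μ (fun d U => eE (PQ n hA eig t V a lam U d)
    (fun ω => |ro n hA eig t V a lam B (lv c sel nn d b) d U ω - c0|))

section cont

variable (d : DD p N)

theorem cont_eEf {f : (Fin N → Fin N → ℝ) → G.Om (SY.base p n A hA) → ℝ}
    (hf : ∀ ω, Continuous fun U => f U ω) :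
    Continuous fun U => eE (PQ n hA eig t V a lam U d) (f U) := by
  simp only [PQ_eq]
  exact contG_eE (G.prior_isProb _) p.xs_expo _ _ (isField_lin _ _ _).cont hf

theorem cont_cEf {f : (Fin N → Fin N → ℝ) → G.Om (SY.base p n A hA) → ℝ}
    (hf : ∀ ω, Continuous fun U => f U ω) (l : ℕ) (ω : G.Om (SY.base p n A hA)) :
    Continuous fun U => cE (PQ n hA eig t V a lam U d) ((G.fil (SY.base p n A hA)).F l)
      (f U) ω := by
  simp only [PQ_eq]
  exact contG_cE (G.prior_isProb _) p.xs_expo _ _ (isField_lin _ _ _).cont hf l ω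

theorem cont_ro (B : Finset (Fin N)) (l : ℕ) (ω : G.Om (SY.base p n A hA)) :
    Continuous fun U => ro n hA eig t V a lam B l d U ω := by
  unfold ro rr
  exact continuous_const.mul (continuous_finsetSum _ fun i _ =>
    (cont_cEf n hA eig t V a lam d (fun ω => cont_XU (sp n hA) i ω) l ω).pow 2)

end cont

variable {μ : Measure (Fin N → Fin N → ℝ)} [IsProbabilityMeasure μ]
variable {n hA eig t V a lam}

theorem int_ro (hμ : ∀ᵐ U ∂μ, U ∈ OK N) (d : DD p N) (B : Finset (Fin N)) (l : ℕ) :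
    Integrable (fun U => eE (PQ n hA eig t V a lam U d) (ro n hA eig t V a lam B l d U)) μ :=
  integrable_cont hμ (cont_eEf n hA eig t V a lam d fun ω => cont_ro n hA eig t V a lam d B l ω)

theorem int_cnc (hμ : ∀ᵐ U ∂μ, U ∈ OK N) (d : DD p N) (B : Finset (Fin N)) (l : ℕ) (c0 : ℝ) :
    Integrable (fun U => eE (PQ n hA eig t V a lam U d)
      (fun ω => |ro n hA eig t V a lam B l d U ω - c0|)) μ :=
  integrable_cont hμ (cont_eEf n hA eig t V a lam d (f := fun U ω =>
    |ro n hA eig t V a lam B l d U ω - c0|) fun ω =>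
      ((cont_ro n hA eig t V a lam d B l ω).sub continuous_const).abs)

variable {K : ℝ}

theorem ro_le {U : Fin N → Fin N → ℝ} (hU : U ∈ OK N) {B : Finset (Fin N)}
    (hN : 0 < N) (hK : (N : ℝ) ≤ K * B.card) (l : ℕ) (d : DD p N)
    (ω : G.Om (SY.base p n A hA)) : ro n hA eig t V a lam B l d U ω ≤ K := by
  have hN' : (0:ℝ) < N := by exact_mod_cast hN
  have hB : 0 < B.card := by
    rcases Nat.eq_zero_or_pos B.card with h | h
    · rw [h] at hK; simp at hK; linarith
    · exact h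
  exact rr_le (XU (sp n hA) U) (PQ_isProb n hA eig t V a lam U d) hB
    (block_XU_sq hU (sp n hA) (fun ω => (sp_sq n hA ω).le) hK) l ω

omit [IsProbabilityMeasure μ] in
theorem Gam_nonneg (B : Finset (Fin N)) (b : ℕ) :
    0 ≤ Gam n hA eig t V a lam μ c sel nn B b := by
  unfold Gam dav
  refine Finset.sum_nonneg fun d _ => mul_nonneg (dw_nonneg p N d) ?_
  exact integral_nonneg fun U => eE_nonneg (PQ_isProb n hA eig t V a lam U d) fun ω =>
    rr_nonneg _ _ _ _

theorem Gam_le (hμ : ∀ᵐ U ∂μ, U ∈ OK N) (hN : 0 < N) {B : Finset (Fin N)}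
    (hK : (N : ℝ) ≤ K * B.card) (b : ℕ) : Gam n hA eig t V a lam μ c sel nn B b ≤ K := by
  have h : Gam n hA eig t V a lam μ c sel nn B b ≤
      dav (dw p N) μ (fun (_ : DD p N) (_ : Fin N → Fin N → ℝ) => K) := by
    refine dav_mono (dw_nonneg p N) (fun d => int_ro hμ d B _) (fun _ => integrable_const K)
      fun d => ?_
    filter_upwards [hμ] with U hU
    exact eE_le_of_le (PQ_isProb n hA eig t V a lam U d) fun ω => ro_le hU hN hK _ d ω
  rwa [dav_const (dw_sum p hN)] at h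

theorem Gam_mono (hμ : ∀ᵐ U ∂μ, U ∈ OK N) (hc : ∀ b, b + 1 < nn → (c b : ℕ) < c (b + 1))
    (B : Finset (Fin N)) {b b' : ℕ} (h : b ≤ b') :
    Gam n hA eig t V a lam μ c sel nn B b ≤ Gam n hA eig t V a lam μ c sel nn B b' := by
  refine dav_mono (dw_nonneg p N) (fun d => int_ro hμ d B _) (fun d => int_ro hμ d B _) fun d => ?_
  refine Filter.Eventually.of_forall fun U => ?_
  exact OvC.eE_rr_mono (XU (sp n hA) U) (PQ_isProb n hA eig t V a lam U d) B (lv_mono hc d h)

/-- recentering at the mean costs a factor 2 -/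
theorem cnc_Gam (hμ : ∀ᵐ U ∂μ, U ∈ OK N) (hN : 0 < N) (B : Finset (Fin N)) (b : ℕ) (c0 : ℝ) :
    cnc n hA eig t V a lam μ c sel nn B b (Gam n hA eig t V a lam μ c sel nn B b) ≤
      2 * cnc n hA eig t V a lam μ c sel nn B b c0 := by
  have h1 : |Gam n hA eig t V a lam μ c sel nn B b - c0| ≤
      cnc n hA eig t V a lam μ c sel nn B b c0 := by
    have e : Gam n hA eig t V a lam μ c sel nn B b - c0 = ∑ d, dw p N d * ∫ U,
        (eE (PQ n hA eig t V a lam U d) (ro n hA eig t V a lam B (lv c sel nn d b) d U) - c0) ∂μ := by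
      have h2 : ∀ d, ∫ U, (eE (PQ n hA eig t V a lam U d)
          (ro n hA eig t V a lam B (lv c sel nn d b) d U) - c0) ∂μ =
          ∫ U, eE (PQ n hA eig t V a lam U d) (ro n hA eig t V a lam B (lv c sel nn d b) d U) ∂μ -
            c0 := by
        intro d
        rw [integral_sub (int_ro hμ d B _) (integrable_const c0)]
        simp
      simp only [h2, mul_sub, Finset.sum_sub_distrib]
      rw [← Finset.sum_mul, dw_sum p hN, one_mul]
      rfl
    rw [e]
    unfold cnc dav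
    refine (Finset.abs_sum_le_sum_abs _ _).trans (Finset.sum_le_sum fun d _ => ?_)
    rw [abs_mul, abs_of_nonneg (dw_nonneg p N d)]
    refine mul_le_mul_of_nonneg_left ?_ (dw_nonneg p N d)
    refine (abs_integral_le_integral_abs).trans ?_
    refine integral_mono ((int_ro hμ d B _).sub (integrable_const c0)).abs (int_cnc hμ d B _ c0)
      fun U => ?_
    have e2 : eE (PQ n hA eig t V a lam U d) (ro n hA eig t V a lam B (lv c sel nn d b) d U) - c0 =
        eE (PQ n hA eig t V a lam U d)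
          (fun ω => ro n hA eig t V a lam B (lv c sel nn d b) d U ω - c0) := by
      rw [eE_sub, eE_const (PQ_isProb n hA eig t V a lam U d)]
    show |eE (PQ n hA eig t V a lam U d) (ro n hA eig t V a lam B (lv c sel nn d b) d U) - c0| ≤ _
    rw [e2]
    exact Crest.Agent.R141.eE_abs_le (PQ_isProb n hA eig t V a lam U d) _
  have h3 : cnc n hA eig t V a lam μ c sel nn B b (Gam n hA eig t V a lam μ c sel nn B b) ≤
      cnc n hA eig t V a lam μ c sel nn B b c0 + |Gam n hA eig t V a lam μ c sel nn B b - c0| := by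
    have e : cnc n hA eig t V a lam μ c sel nn B b c0 +
        |Gam n hA eig t V a lam μ c sel nn B b - c0| =
        dav (dw p N) μ (fun d U => eE (PQ n hA eig t V a lam U d)
          (fun ω => |ro n hA eig t V a lam B (lv c sel nn d b) d U ω - c0|) +
            |Gam n hA eig t V a lam μ c sel nn B b - c0|) := by
      rw [dav_add (fun d => int_cnc hμ d B _ c0) (fun d => integrable_const _),
        dav_const (dw_sum p hN)]
      rfl
    rw [e]
    refine dav_mono (dw_nonneg p N) (fun d => int_cnc hμ d B _ _)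
      (fun d => (int_cnc hμ d B _ c0).add (integrable_const _)) fun d => ?_
    refine Filter.Eventually.of_forall fun U => ?_
    have hQ := PQ_isProb n hA eig t V a lam U d
    have e3 : eE (PQ n hA eig t V a lam U d)
          (fun ω => |ro n hA eig t V a lam B (lv c sel nn d b) d U ω - c0|) +
            |Gam n hA eig t V a lam μ c sel nn B b - c0| =
        eE (PQ n hA eig t V a lam U d)
          (fun ω => |ro n hA eig t V a lam B (lv c sel nn d b) d U ω - c0| +
            |Gam n hA eig t V a lam μ c sel nn B b - c0|) := by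
      rw [eE_add, eE_const hQ]
    rw [e3]
    refine eE_mono hQ fun ω => ?_
    have := abs_sub_le (ro n hA eig t V a lam B (lv c sel nn d b) d U ω) c0
      (Gam n hA eig t V a lam μ c sel nn B b)
    rw [abs_sub_comm c0] at this
    exact this
  linarith

/-! ### The spin overlap -/

/-- `|E_l x|² = |E_l s|²` -/
theorem sum_cE_XU {Q : G.Om (SY.base p n A hA) → ℝ} {U : Fin N → Fin N → ℝ} (hU : U ∈ OK N)
    (r : Setoid (G.Om (SY.base p n A hA))) (ω : G.Om (SY.base p n A hA)) :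
    ∑ i, (cE Q r (XU (sp n hA) U i) ω) ^ 2 = ∑ i, (cE Q r (fun ω => sp n hA ω i) ω) ^ 2 := by
  have : ∀ i, cE Q r (XU (sp n hA) U i) ω = ∑ q, U i q * cE Q r (fun ω => sp n hA ω q) ω := by
    intro i
    have e : XU (sp (p := p) n hA) U i = fun ω => ∑ q, U i q * sp n hA ω q := by
      funext ω; unfold XU xc Matrix.mulVec dotProduct; rfl
    rw [e, cE_sum]
    refine Finset.sum_congr rfl fun q _ => ?_
    rw [cE_smul]
  simp only [this]
  exact OK_norm hU fun q => cE Q r (fun ω => sp n hA ω q) ω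

theorem sum_blk (lab : Fin N → κ) (f : Fin N → ℝ) :
    ∑ k, ∑ i ∈ blk lab k, f i = ∑ i, f i := by
  unfold blk
  exact Finset.sum_fiberwise univ lab f

/-- the spin overlap is the weighted sum of the block overlaps -/
theorem sum_ro {U : Fin N → Fin N → ℝ} (hU : U ∈ OK N) (lab : Fin N → κ) (l : ℕ) (d : DD p N)
    (ω : G.Om (SY.base p n A hA)) :
    ∑ k, ((blk lab k).card / (N : ℝ)) * ro n hA eig t V a lam (blk lab k) l d U ω =
      (N : ℝ)⁻¹ * ∑ i, (cE (PQ n hA eig t V a lam U d) ((G.fil (SY.base p n A hA)).F l)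
        (fun ω => sp n hA ω i) ω) ^ 2 := by
  have h1 : ∀ k, ((blk lab k).card / (N : ℝ)) * ro n hA eig t V a lam (blk lab k) l d U ω =
      (N : ℝ)⁻¹ * ∑ i ∈ blk lab k, (cE (PQ n hA eig t V a lam U d)
        ((G.fil (SY.base p n A hA)).F l) (XU (sp n hA) U i) ω) ^ 2 := by
    intro k
    rw [← OvC.card_mul_rr (XU (sp n hA) U)]
    unfold ro
    ring
  simp only [h1]
  rw [← Finset.mul_sum, sum_blk lab, sum_cE_XU hU]

theorem pb_eq (hμ : ∀ᵐ U ∂μ, U ∈ OK N) (lab : Fin N → κ) (b : ℕ) :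
    pb n hA eig t V a lam μ c sel nn b =
      ∑ k, ((blk lab k).card / (N : ℝ)) * Gam n hA eig t V a lam μ c sel nn (blk lab k) b := by
  unfold pb Gam dav
  simp only [Finset.mul_sum]
  rw [Finset.sum_comm]
  refine Finset.sum_congr rfl fun d _ => ?_
  have e : ∀ k, (blk lab k).card / (N : ℝ) * (dw p N d * ∫ U, eE (PQ n hA eig t V a lam U d)
      (ro n hA eig t V a lam (blk lab k) (lv c sel nn d b) d U) ∂μ) =
      dw p N d * ∫ U, ((blk lab k).card / (N : ℝ)) * eE (PQ n hA eig t V a lam U d)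
      (ro n hA eig t V a lam (blk lab k) (lv c sel nn d b) d U) ∂μ := by
    intro k
    rw [integral_const_mul]; ring
  simp only [e]
  rw [← Finset.mul_sum, ← integral_finsetSum _ fun k _ => (int_ro hμ d (blk lab k) _).const_mul _]
  congr 1
  refine integral_congr_ae ?_
  filter_upwards [hμ] with U hU
  have e2 : ∀ k, (blk lab k).card / (N : ℝ) * eE (PQ n hA eig t V a lam U d)
      (ro n hA eig t V a lam (blk lab k) (lv c sel nn d b) d U) =
      eE (PQ n hA eig t V a lam U d) (fun ω => (blk lab k).card / (N : ℝ) *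
        ro n hA eig t V a lam (blk lab k) (lv c sel nn d b) d U ω) := by
    intro k; rw [eE_smul]
  simp only [e2]
  rw [← eE_sum]
  congr 1
  funext ω
  rw [sum_ro hU lab]
  rw [Finset.mul_sum]

omit [IsProbabilityMeasure μ] in
theorem pb_nonneg (b : ℕ) : 0 ≤ pb n hA eig t V a lam μ c sel nn b := by
  unfold pb dav
  refine Finset.sum_nonneg fun d _ => mul_nonneg (dw_nonneg p N d) ?_
  exact integral_nonneg fun U => eE_nonneg (PQ_isProb n hA eig t V a lam U d) fun ω =>
    mul_nonneg (by positivity) (Finset.sum_nonneg fun _ _ => sq_nonneg _)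

theorem pb_top (hN : 0 < N) : pb n hA eig t V a lam μ c sel nn nn = 1 := by
  have hN' : (N:ℝ) ≠ 0 := by exact_mod_cast hN.ne'
  unfold pb
  have e : ∀ (d : DD p N) (U : Fin N → Fin N → ℝ),
      eE (PQ n hA eig t V a lam U d) (fun ω => (N : ℝ)⁻¹ *
        ∑ i, (cE (PQ n hA eig t V a lam U d) ((G.fil (SY.base p n A hA)).F (lv c sel nn d nn))
          (fun ω => sp n hA ω i) ω) ^ 2) = 1 := by
    intro d U
    have hQ := PQ_isProb n hA eig t V a lam U d
    have e1 : (fun ω => (N : ℝ)⁻¹ *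
        ∑ i, (cE (PQ n hA eig t V a lam U d) ((G.fil (SY.base p n A hA)).F (lv c sel nn d nn))
          (fun ω => sp n hA ω i) ω) ^ 2) = fun _ => 1 := by
      funext ω
      rw [lv_top]
      have e2 : ∀ i, cE (PQ n hA eig t V a lam U d) ((G.fil (SY.base p n A hA)).F p.L)
          (fun ω => sp n hA ω i) ω = sp n hA ω i := fun i =>
        cE_of_meas hQ (rmeas_of_ge (𝓕 := G.fil (SY.base p n A hA)) le_rfl _) ω
      simp only [e2]
      rw [sp_sq, inv_mul_cancel₀ hN']
    rw [e1, eE_const hQ]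
  simp only [e]
  exact dav_const (dw_sum p hN) 1

/-! ### Purity -/

omit [IsProbabilityMeasure μ] in
theorem avcS_zero {Ω : Type*} [Fintype Ω] {Q : Ω → ℝ} (hQ : IsProb Q) {𝓕 : Filt Ω}
    (f : Fin N → Ω → ℝ) {k m : ℕ} (h : m ≤ k) : avcS Q 𝓕 f k m = 0 := by
  unfold avcS
  have e : ∀ i j w, covR Q (𝓕.F k) (cE Q (𝓕.F m) (f i)) (cE Q (𝓕.F m) (f j)) w = 0 := by
    intro i j w
    have hm : ∀ i, RMeas (𝓕.F k) (cE Q (𝓕.F m) (f i)) := fun i =>
      (cE_meas Q (𝓕.F m) (f i)).mono (𝓕.antitone h)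
    unfold covR
    rw [cE_mul_right (hm j), cE_of_meas hQ (hm i), cE_of_meas hQ (hm j)]
    ring
  simp only [e]
  simp [eE_const hQ]

/-- purity of the spins from the purity numbers -/
theorem dav_avcS (hμ : ∀ᵐ U ∂μ, U ∈ OK N) (hN : 0 < N)
    (hc : ∀ b, b + 1 < nn → (c b : ℕ) < c (b + 1)) {η : ℝ} (hη : 0 ≤ η)
    (hpur : ∀ b < nn, Ed p N (fun d => ∫ U, G.purNum (SY.base p n A hA)
      (Hs n A eig t V a lam U) (c b, sel (c b) d) d ∂μ) ≤ η) {b b' : ℕ} (hb : b ≤ nn) :
    dav (dw p N) μ (fun d U => avcS (PQ n hA eig t V a lam U d) (G.fil (SY.base p n A hA))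
      (fun i ω => sp n hA ω i) (lv c sel nn d b) (lv c sel nn d b')) ≤ η := by
  by_cases h : b' ≤ b
  · have e : ∀ (d : DD p N) (U : Fin N → Fin N → ℝ),
        avcS (PQ n hA eig t V a lam U d) (G.fil (SY.base p n A hA))
          (fun i ω => sp n hA ω i) (lv c sel nn d b) (lv c sel nn d b') = 0 := fun d U =>
      avcS_zero (PQ_isProb n hA eig t V a lam U d) _ (lv_mono hc d h)
    simp only [e]
    rw [dav_const (dw_sum p hN)]
    exact hη
  · push Not at h
    rcases Nat.lt_or_ge b nn with hbn | hbn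
    · refine le_trans ?_ (hpur b hbn)
      refine dav_mono (dw_nonneg p N) (fun d => ?_) (fun d => ?_) fun d => ?_
      · have : ∀ U, avcS (PQ n hA eig t V a lam U d) (G.fil (SY.base p n A hA))
          (fun i ω => sp n hA ω i) (lv c sel nn d b) (lv c sel nn d b') =
          avcS (QG (G.prior (SY.base p n A hA)) (G.fil (SY.base p n A hA)) p.xs
      (fun i => t * eig i) (sp n hA) (hlin (sp n hA) (H0 n hA V a d) (zz n hA lam)) U)
          (G.fil (SY.base p n A hA))
          (fun i ω => sp n hA ω i) (lv c sel nn d b) (lv c sel nn d b') := by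
          intro U; rw [PQ_eq]
        simp only [this]
        exact integrable_cont hμ (contG_avcS (G.prior_isProb _) p.xs_expo _ _
          (isField_lin _ _ _).cont _ _)
      · exact G.integrable_purNum (SY.base p n A hA) μ hN
          (fun s => meas_Hs n eig t V a lam s) _ _
      · refine Filter.Eventually.of_forall fun U => ?_
        have h1 := G.avc2_le_purNum (SY.base p n A hA) hN (Hs n A eig t V a lam U) d
          (c b, sel (c b) d) (m := lv c sel nn d b') (by
            have := lv_mono (sel := sel) hc d h.le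
            rw [lv_of_lt hbn] at this
            exact this) (lv_le_L d b')
        rw [lv_of_lt hbn]
        exact h1
    · have : b = nn := le_antisymm hb hbn
      subst this
      have e : ∀ (d : DD p N) (U : Fin N → Fin N → ℝ),
          avcS (PQ n hA eig t V a lam U d) (G.fil (SY.base p n A hA))
            (fun i ω => sp n hA ω i) (lv c sel b d b) (lv c sel b d b') = 0 := fun d U =>
        avcS_zero (PQ_isProb n hA eig t V a lam U d) _ (by rw [lv_top]; exact lv_le_L d b')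
      simp only [e]
      rw [dav_const (dw_sum p hN)]
      exact hη

/-! ### The relations -/

/-- the error of the relations -/
def epsR (K Cl : ℝ) (nn : ℕ) (e ρ κ δ : ℝ) : ℝ :=
  2 * e + Cl * (4 * δ * K ^ 2 + 6 * nn * ((2 * nn + 3) * K ^ 2 * ρ + 2 * K * e)) +
    3 / 2 * κ * (K ^ 2 + 1)

/-- **The left-rotation relations for the system.** -/
theorem rotSys (hμ : Haar.RHaar μ) (hN : 0 < N) {Bk Bl : Finset (Fin N)} (hd : Disjoint Bk Bl)
    {lk ll : ℝ} (hlk : ∀ i ∈ Bk, eig i = lk) (hll : ∀ i ∈ Bl, eig i = ll)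
    (hKk : (N : ℝ) ≤ K * Bk.card) (hKl : (N : ℝ) ≤ K * Bl.card) (hnn : 0 < nn)
    (hc : ∀ b, b + 1 < nn → (c b : ℕ) < c (b + 1)) {mm : ℕ → ℝ} (hm0 : ∀ b, 0 ≤ mm b)
    (hm1 : ∀ b, mm b ≤ 1) {δ : ℝ} (hδ : 0 ≤ δ) (hlow : p.xi (c 0) ≤ δ)
    (hlo : ∀ b, b < nn → mm (b + 1) - δ ≤ p.xi (c b))
    (hhi : ∀ b, b + 1 < nn → p.xi (c (b + 1)) ≤ mm (b + 1) + δ) (htop : 1 ≤ mm nn + δ)
    {ρ κ' : ℝ} (hρ : 0 < ρ) (hκ : 0 < κ')
    (hpur : ∀ b < nn, Ed p N (fun d => ∫ U, G.purNum (SY.base p n A hA)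
      (Hs n A eig t V a lam U) (c b, sel (c b) d) d ∂μ) ≤ ρ ^ 2)
    (hz : 4 * K ^ 2 * dav (dw p N) μ (fun d U => (N : ℝ)⁻¹ * eE (PQ n hA eig t V a lam U d)
      (fun ω => ∑ i, zz n hA lam i ω ^ 2)) ≤ κ' ^ 2)
    {ck cl : ℕ → ℝ} {e0 : ℝ}
    (hck : ∀ b ≤ nn, cnc n hA eig t V a lam μ c sel nn Bk b (ck b) ≤ e0)
    (hcl : ∀ b ≤ nn, cnc n hA eig t V a lam μ c sel nn Bl b (cl b) ≤ e0)
    {Cl : ℝ} (hCl : |t * lk - t * ll| ≤ Cl) {b0 : ℕ} (hb0 : b0 ≤ nn) :
    |Gam n hA eig t V a lam μ c sel nn Bk b0 - Gam n hA eig t V a lam μ c sel nn Bl b0 -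
      (t * lk - t * ll) * SDAlg.Br mm nn (Gam n hA eig t V a lam μ c sel nn Bk)
        (Gam n hA eig t V a lam μ c sel nn Bl) b0| ≤
      epsR K Cl nn ((nn + 1) * (2 * e0)) ρ κ' δ := by
  have hOK : ∀ᵐ U ∂μ, U ∈ OK N := hμ.mem
  have hleft : LeftInv μ := hμ.left.inv
  have hN' : (0:ℝ) < N := by exact_mod_cast hN
  have hK0 : 0 ≤ K := by
    by_contra hneg
    push Not at hneg
    have h1 : K * Bk.card ≤ 0 := mul_nonpos_of_nonpos_of_nonneg hneg.le (Nat.cast_nonneg _)
    linarith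
  set Gk := Gam n hA eig t V a lam μ c sel nn Bk with hGk
  set Gl := Gam n hA eig t V a lam μ c sel nn Bl with hGl
  have hgk : ∀ b, 0 ≤ Gk b ∧ Gk b ≤ K := fun b => ⟨Gam_nonneg _ _, Gam_le hOK hN hKk b⟩
  have hgl : ∀ b, 0 ≤ Gl b ∧ Gl b ≤ K := fun b => ⟨Gam_nonneg _ _, Gam_le hOK hN hKl b⟩
  -- concentration
  have conc : ∀ (B : Finset (Fin N)) (cc : ℕ → ℝ),
      (∀ b ≤ nn, cnc n hA eig t V a lam μ c sel nn B b (cc b) ≤ e0) →
      dav (dw p N) μ (fun d U => eC (XU (sp n hA) U) (QG (G.prior (SY.base p n A hA))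
        (G.fil (SY.base p n A hA)) p.xs (fun i => t * eig i) (sp n hA)
        (hlin (sp n hA) (H0 n hA V a d) (zz n hA lam)) U) (G.fil (SY.base p n A hA)) B
        (lv c sel nn d) nn (Gam n hA eig t V a lam μ c sel nn B)) ≤ (nn + 1) * (2 * e0) := by
    intro B cc hcc
    have e1 : dav (dw p N) μ (fun d U => eC (XU (sp n hA) U) (QG (G.prior (SY.base p n A hA))
        (G.fil (SY.base p n A hA)) p.xs (fun i => t * eig i) (sp n hA)
        (hlin (sp n hA) (H0 n hA V a d) (zz n hA lam)) U) (G.fil (SY.base p n A hA)) B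
        (lv c sel nn d) nn (Gam n hA eig t V a lam μ c sel nn B)) =
        ∑ b ∈ range (nn + 1), cnc n hA eig t V a lam μ c sel nn B b
          (Gam n hA eig t V a lam μ c sel nn B b) := by
      unfold cnc dav
      rw [Finset.sum_comm]
      refine Finset.sum_congr rfl fun d _ => ?_
      rw [← Finset.mul_sum, ← integral_finsetSum _ fun b _ => int_cnc hOK d B _ _]
      congr 1
      refine integral_congr_ae (Filter.Eventually.of_forall fun U => ?_)
      simp only [← PQ_eq]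
      rfl
    rw [e1]
    have e2 : ∀ b ∈ range (nn + 1), cnc n hA eig t V a lam μ c sel nn B b
          (Gam n hA eig t V a lam μ c sel nn B b) ≤ 2 * e0 := by
      intro b hb
      have hb' : b ≤ nn := by have := Finset.mem_range.mp hb; omega
      refine (cnc_Gam hOK hN B b (cc b)).trans ?_
      linarith [hcc b hb']
    refine (Finset.sum_le_sum e2).trans (le_of_eq ?_)
    rw [Finset.sum_const, Finset.card_range, nsmul_eq_mul]
    push_cast
    ring
  -- purity
  have pur : ∀ b' b, b ≤ nn → dav (dw p N) μ (fun d U => avcS (QG (G.prior (SY.base p n A hA))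
        (G.fil (SY.base p n A hA)) p.xs (fun i => t * eig i) (sp n hA)
        (hlin (sp n hA) (H0 n hA V a d) (zz n hA lam)) U) (G.fil (SY.base p n A hA))
        (fun i w => sp n hA w i) (lv c sel nn d b) (lv c sel nn d b')) ≤ ρ ^ 2 := by
    intro b' b hb
    have := dav_avcS (n := n) (hA := hA) (eig := eig) (t := t) (V := V) (a := a) (lam := lam) (c := c)
      (sel := sel) (nn := nn) hOK hN hc (sq_nonneg ρ) hpur (b' := b') hb
    simp only [PQ_eq] at this
    exact this
  -- fields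
  have fld : dav (dw p N) μ (fun d U => av Bk Bl (fun i j =>
      eE (QG (G.prior (SY.base p n A hA))
        (G.fil (SY.base p n A hA)) p.xs (fun i => t * eig i) (sp n hA)
        (hlin (sp n hA) (H0 n hA V a d) (zz n hA lam)) U)
        (fun w => dlin (sp n hA) (zz n hA lam) i j U w ^ 2))) ≤ κ' ^ 2 := by
    refine le_trans ?_ hz
    rw [← dav_smul]
    refine dav_mono (dw_nonneg p N) (fun d => ?_) (fun d => ?_) fun d => ?_
    · exact integrable_cont hOK (contG_dh (G.prior_isProb _) p.xs_expo _ _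
        (isField_lin _ _ _).cont Bk Bl (isField_lin _ (H0 n hA V a d) _).dcont)
    · exact ((integrable_cont hOK (cont_eEf n hA eig t V a lam d (f := fun _ ω =>
        ∑ i, zz n hA lam i ω ^ 2) fun ω => continuous_const)).const_mul _).const_mul _
    · filter_upwards [hOK] with U hU
      have h1 := lin_bound (Q := QG (G.prior (SY.base p n A hA))
        (G.fil (SY.base p n A hA)) p.xs (fun i => t * eig i) (sp n hA)
        (hlin (sp n hA) (H0 n hA V a d) (zz n hA lam)) U)
        (QG_isProb (G.prior_isProb _) p.xs_expo _ _ _ U) hU (sp n hA)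
        (fun ω => (sp_sq n hA ω).le) hN hK0 hKk hKl (zz n hA lam)
      refine h1.trans (le_of_eq ?_)
      rw [← PQ_eq]
  have main := rel_spinG (𝓕 := G.fil (SY.base p n A hA)) μ hOK hleft hN hd
    (G.prior_isProb (SY.base p n A hA)) p.xs_expo (fun i => t * eig i)
    (lk := t * lk) (ll := t * ll) (fun i hi => by rw [hlk i hi]) (fun i hi => by rw [hll i hi])
    (sp n hA) (fun ω => (sp_sq n hA ω).le) hKk hKl (dw_nonneg p N) (dw_sum p hN)
    (h := fun d => hlin (sp n hA) (H0 n hA V a d) (zz n hA lam))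
    (dh := fun _ => dlin (sp n hA) (zz n hA lam))
    (fun d => isField_lin (sp n hA) (H0 n hA V a d) (zz n hA lam))
    (τ := lv c sel nn) (fun d => lv_mono hc d) (n := nn) (fun d => lv_top d) hm0 hm1 hδ
    (fun d m hm => lv_low hnn hlow d m hm)
    (fun d b hb m h1 h2 => lv_win hlo hhi htop d b hb m h1 h2)
    (gk := Gk) (gl := Gl) hgk hgl hρ hκ hb0
    (e := (nn + 1) * (2 * e0)) (conc Bk ck hck) (conc Bl cl hcl)
    (fun b hb => pur b0 b hb) (fun b hb => pur nn b hb) fld
  have e3 : RotRel.Rel mm nn (t * lk - t * ll) Gk Gl b0 = Gk b0 - Gl b0 -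
      (t * lk - t * ll) * SDAlg.Br mm nn Gk Gl b0 := by
    unfold RotRel.Rel SDAlg.Br RotRel.DD SDAlg.Dl
    rw [Finset.range_eq_Ico]
  rw [e3] at main
  refine main.trans ?_
  unfold epsR
  have hX : 0 ≤ 4 * δ * K ^ 2 + 6 * nn * ((2 * nn + 3) * K ^ 2 * ρ +
      2 * K * ((nn + 1) * (2 * e0))) := by
    have he0 : 0 ≤ e0 := by
      refine le_trans ?_ (hck 0 (Nat.zero_le _))
      unfold cnc dav
      exact Finset.sum_nonneg fun d _ => mul_nonneg (dw_nonneg p N d)
        (integral_nonneg fun U => eE_nonneg (PQ_isProb n hA eig t V a lam U d) fun _ =>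
          abs_nonneg _)
    positivity
  have := mul_le_mul_of_nonneg_right hCl hX
  linarith

/-- **`SDAlg.Rel` for the averaged overlaps of the system.** -/
theorem rotSys_rel (hμ : Haar.RHaar μ) (hN : 0 < N) (lab : Fin N → κ) {val : κ → ℝ}
    (hlab : ∀ i, eig i = val (lab i)) (hK : ∀ k, (N : ℝ) ≤ K * (blk lab k).card) (hnn : 0 < nn)
    (hc : ∀ b, b + 1 < nn → (c b : ℕ) < c (b + 1)) {mm : ℕ → ℝ} (hmz : mm 0 = 0)
    (hmp : ∀ b, 1 ≤ b → b ≤ nn → 0 < mm b) (hmm : ∀ b, b < nn → mm b ≤ mm (b + 1))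
    (hmn : mm nn = 1) (hm0 : ∀ b, 0 ≤ mm b) (hm1 : ∀ b, mm b ≤ 1)
    {δ : ℝ} (hδ : 0 ≤ δ) (hlow : p.xi (c 0) ≤ δ)
    (hlo : ∀ b, b < nn → mm (b + 1) - δ ≤ p.xi (c b))
    (hhi : ∀ b, b + 1 < nn → p.xi (c (b + 1)) ≤ mm (b + 1) + δ)
    {ρ κ' : ℝ} (hρ : 0 < ρ) (hκ : 0 < κ')
    (hpur : ∀ b < nn, Ed p N (fun d => ∫ U, G.purNum (SY.base p n A hA)
      (Hs n A eig t V a lam U) (c b, sel (c b) d) d ∂μ) ≤ ρ ^ 2)
    (hz : 4 * K ^ 2 * dav (dw p N) μ (fun d U => (N : ℝ)⁻¹ * eE (PQ n hA eig t V a lam U d)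
      (fun ω => ∑ i, zz n hA lam i ω ^ 2)) ≤ κ' ^ 2)
    {cc : κ → ℕ → ℝ} {e0 : ℝ}
    (hcc : ∀ k, ∀ b ≤ nn, cnc n hA eig t V a lam μ c sel nn (blk lab k) b (cc k b) ≤ e0)
    {Cl : ℝ} (hCl : ∀ k l, |t * val k - t * val l| ≤ Cl) (hCl0 : 0 ≤ Cl) {α : κ → ℝ} {eα : ℝ}
    (hα : ∑ k, |(blk lab k).card / (N : ℝ) - α k| ≤ eα) {ε : ℝ}
    (hε1 : epsR K Cl nn ((nn + 1) * (2 * e0)) ρ κ' δ ≤ ε) (hε2 : eα * K ≤ ε) :
    SDAlg.Rel α (fun k => t * val k) nn mm
      (fun k => Gam n hA eig t V a lam μ c sel nn (blk lab k))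
      (pb n hA eig t V a lam μ c sel nn) ε where
  m0 := hmz
  mpos := hmp
  mmono := hmm
  mn := hmn
  G0 k := Gam_nonneg _ _
  Gmono k b _ := Gam_mono hμ.mem hc _ (Nat.le_succ b)
  p0 := pb_nonneg 0
  pmono b _ := by
    rw [pb_eq hμ.mem lab, pb_eq hμ.mem lab]
    exact Finset.sum_le_sum fun k _ => mul_le_mul_of_nonneg_left
      (Gam_mono hμ.mem hc _ (Nat.le_succ b)) (by positivity)
  pn := pb_top hN
  papp b _ := by
    rw [pb_eq hμ.mem lab, ← Finset.sum_sub_distrib]
    refine (Finset.abs_sum_le_sum_abs _ _).trans ?_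
    refine le_trans ?_ hε2
    have hK0 : ∀ k : κ, 0 ≤ K := by
      intro k
      have hN' : (0:ℝ) < N := by exact_mod_cast hN
      by_contra hneg
      push Not at hneg
      have h1 : K * (blk lab k).card ≤ 0 :=
        mul_nonpos_of_nonpos_of_nonneg hneg.le (Nat.cast_nonneg _)
      linarith [hK k]
    have h1 : ∀ k ∈ (univ : Finset κ), |(blk lab k).card / (N : ℝ) *
        Gam n hA eig t V a lam μ c sel nn (blk lab k) b -
        α k * Gam n hA eig t V a lam μ c sel nn (blk lab k) b| ≤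
        |(blk lab k).card / (N : ℝ) - α k| * K := by
      intro k _
      rw [← sub_mul, abs_mul, abs_of_nonneg (Gam_nonneg (blk lab k) b)]
      exact mul_le_mul_of_nonneg_left (Gam_le hμ.mem hN (hK k) b) (abs_nonneg _)
    refine (Finset.sum_le_sum h1).trans ?_
    rw [← Finset.sum_mul]
    have hκne : Nonempty κ := ⟨lab ⟨0, hN⟩⟩
    exact mul_le_mul_of_nonneg_right hα (hK0 hκne.some)
  rel k l b hb := by
    by_cases hkl : k = l
    · subst hkl
      simp only [sub_self, zero_mul, abs_zero]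
      refine le_trans ?_ hε1
      have he0 : 0 ≤ e0 := by
        refine le_trans ?_ (hcc k 0 (Nat.zero_le _))
        unfold cnc dav
        exact Finset.sum_nonneg fun d _ => mul_nonneg (dw_nonneg p N d)
          (integral_nonneg fun U => eE_nonneg (PQ_isProb n hA eig t V a lam U d) fun _ =>
            abs_nonneg _)
      have hK0 : 0 ≤ K := by
        have hN' : (0:ℝ) < N := by exact_mod_cast hN
        by_contra hneg
        push Not at hneg
        have h1 : K * (blk lab k).card ≤ 0 :=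
          mul_nonpos_of_nonpos_of_nonneg hneg.le (Nat.cast_nonneg _)
        linarith [hK k]
      unfold epsR
      positivity
    · have hd : Disjoint (blk lab k) (blk lab l) := by
        rw [Finset.disjoint_left]
        intro i h1 h2
        unfold blk at h1 h2
        rw [Finset.mem_filter] at h1 h2
        exact hkl (h1.2.symm.trans h2.2)
      refine le_trans ?_ hε1
      refine rotSys hμ hN hd (lk := val k) (ll := val l) ?_ ?_ (hK k) (hK l) hnn hc hm0 hm1 hδ
        hlow hlo hhi (by rw [hmn]; linarith) hρ hκ hpur hz (hcc k) (hcc l) (hCl k l) hb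
      · intro i hi
        unfold blk at hi
        rw [Finset.mem_filter] at hi
        rw [hlab i, hi.2]
      · intro i hi
        unfold blk at hi
        rw [Finset.mem_filter] at hi
        rw [hlab i, hi.2]

end main

end

end Crest.Agent.R164.RSys
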