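import Crest.Agent.R164.LStr4
import Crest.Agent.R164.RotSys

/-!
Row 164, LSTRUCT-1, part 5: the system at fixed size.

`cells`: choice of the cells (helper278's `OvC.good_cells` for helper888's `RSys` notation).
`xi_low`, `xi_up`: exponents of the cells.  `small_fields`: hypothesis `hz` of `rotSys_rel`.
-/

set_option autoImplicit false

namespace Crest.Agent.R164.LStr

open Finset MeasureTheory Crest.Agent.R141 Crest.Agent.R164 Crest.Agent.R164.RSys
open Crest.Agent.R164.Rot (OK xc)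
open Crest.Agent.R164.RotRel (rr dav dav_add dav_smul dav_const dav_mono XU integrable_cont)

noncomputable section

variable {p : Par} {N n : ℕ} {A : Finset (Fin N → Bool)} {hA : A.Nonempty}
  {κ : Type} [Fintype κ] [DecidableEq κ]
  {eig : Fin N → ℝ} {t : ℝ} {V : (Fin N → Bool) → ℝ} {a lam : Fin N → Fin p.nc → ℝ}
  {μ : Measure (Fin N → Fin N → ℝ)} [IsProbabilityMeasure μ]

theorem continuous_h0q (σ : Fin N → Bool) :
    Continuous fun U : Fin N → Fin N → ℝ => SY.h0q eig (Matrix.of U) t V σ := by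
  unfold SY.h0q Mag.qd
  refine (continuous_const.mul (continuous_const.mul (continuous_finsetSum _ fun i _ =>
    continuous_const.mul ?_))).add continuous_const
  exact (Rot.continuous_xc (Crest.ProbabilityR.InvariantGlass.spinVec σ) i).pow 2

/-- **Choice of the cells.** -/
theorem cells (hμ : ∀ᵐ U ∂μ, U ∈ OK N) (hN : 0 < N) (hn : 0 < n) (lab : Fin N → κ)
    (hB : ∀ k, 0 < (blk lab k).card) {K : ℝ} (hK : ∀ k, (N : ℝ) ≤ K * (blk lab k).card)
    (bk : κ → ℕ → ℝ) (hlam : ∀ i (g : Fin p.nc), lam i g = bk (lab i) g) {κ0 Λ : ℝ}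
    (hκ0 : 0 < κ0) (hbk : ∀ k g, κ0 ≤ bk k g) (hbΛ : ∀ k g, bk k g ≤ Λ)
    (hsmall : Λ * Real.sqrt N ≤ Real.sqrt n / 8) (dd : κ → ℕ → ℝ) {e : ℝ} (he : 0 ≤ e)
    (hconc : ∀ k g, g < p.nc → dav (dw p N) μ (fun d U =>
      eE (PQ n hA eig t V a lam U d) (fun ω => |OvC.OH n hA p (blk lab k) g U ω - dd k g|)) ≤ e)
    {nw wc : ℕ} (hwc : 2 ≤ wc) (hp : p.nc = nw * wc) (sel : Fin p.nc → DD p N → Fin p.T)
    (hK0 : 0 ≤ K) :
    ∃ c : ℕ → Fin p.nc, (∀ b < nw, b * wc ≤ c b ∧ (c b : ℕ) < (b + 1) * wc) ∧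
      ∀ k, ∀ b ≤ nw, ∃ c0, cnc n hA eig t V a lam μ c sel nw (blk lab k) b c0 ≤
        OvC.errC (Fintype.card κ) p.nc (wc - 1) K κ0 e
          (52 * Λ ^ 2 * Real.sqrt N ^ 3 / Real.sqrt n) +
        K * ((e + 52 * Λ ^ 2 * Real.sqrt N ^ 3 / Real.sqrt n) / κ0 + ((p.nc : ℝ) + 1)⁻¹) := by
  set err : ℝ := 52 * Λ ^ 2 * Real.sqrt N ^ 3 / Real.sqrt n with herr
  have herr0 : 0 ≤ err := by rw [herr]; positivity
  have hdata := OvC.data_sys (n := n) (hA := hA)
    (h0 := fun U => SY.h0q eig (Matrix.of U) t V) (a := a) (lam := lam) hN hn μ hμ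
    (fun σ => continuous_h0q σ) (fun k => blk lab k) hB hK bk
    (fun k i hi g => by
      have h1 : lab i = k := (Finset.mem_filter.1 hi).2
      rw [hlam, h1]) hκ0 hbk hbΛ hsmall dd he hconc
  rw [← herr] at hdata
  have hw1 : 0 < wc - 1 := by omega
  obtain ⟨cell, hc1, hc2⟩ := OvC.good_cells hdata (fun b => b * wc) hw1 (J := nw) (by
    intro b hb
    have h1 : (b + 1) * wc ≤ nw * wc := Nat.mul_le_mul_right _ hb
    have h2 : (b + 1) * wc = b * wc + wc := by ring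
    show b * wc + (wc - 1) < p.nc
    omega)
  have hlt : ∀ b < nw, cell b < p.nc := by
    intro b hb
    have h1 : (b + 1) * wc ≤ nw * wc := Nat.mul_le_mul_right _ hb
    have h2 : (b + 1) * wc = b * wc + wc := by ring
    have h3 := (hc1 b hb).2
    omega
  set c : ℕ → Fin p.nc := fun b => if h : cell b < p.nc then ⟨cell b, h⟩ else ⟨0, p.hnc⟩ with hc
  have hcb : ∀ b < nw, (c b : ℕ) = cell b := by
    intro b hb
    simp only [hc, dif_pos (hlt b hb)]
  refine ⟨c, ?_, ?_⟩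
  · intro b hb
    rw [hcb b hb]
    have h3 := hc1 b hb
    have h2 : (b + 1) * wc = b * wc + wc := by ring
    refine ⟨h3.1, ?_⟩
    have := h3.2
    omega
  · intro k b hb
    have e1 : 0 ≤ OvC.errC (Fintype.card κ) p.nc (wc - 1) K κ0 e err := by
      unfold OvC.errC
      positivity
    have e2 : 0 ≤ K * ((e + err) / κ0 + ((p.nc : ℝ) + 1)⁻¹) := by positivity
    rcases Nat.lt_or_ge b nw with hb' | hb'
    · obtain ⟨c0, hc0⟩ := hc2 b hb' k (fun d => RSys.lv c sel nw d b) (fun d => by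
        have h1 : RSys.lv c sel nw d b = p.ct (c b) (sel (c b) d) := RSys.lv_of_lt hb' d
        have h2 := OvC.ct_mem p (g := (c b : ℕ)) (sel (c b) d).2
        rw [hcb b hb'] at h2
        show OvC.stp p (cell b) ≤ RSys.lv c sel nw d b ∧ RSys.lv c sel nw d b < OvC.stp p (cell b + 1)
        rw [h1, hcb b hb']
        exact h2)
      refine ⟨c0, le_trans (le_of_eq ?_) (hc0.trans (le_add_of_nonneg_right e2))⟩
      rfl
    · have hbe : b = nw := le_antisymm hb hb'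
      obtain ⟨c0, hc0⟩ := OvC.leaf_conc hdata k
      refine ⟨c0, le_trans (le_of_eq ?_) (hc0.trans (le_add_of_nonneg_left e1))⟩
      have h1 : ∀ d, RSys.lv c sel nw d b = (G.fil (SY.base p n A hA)).L := by
        intro d
        rw [hbe, RSys.lv_top]
        rfl
      unfold cnc OvC.Cm
      simp only [h1]
      rfl

/-- lower bound of the exponents. -/
theorem xi_low (p : Par) {nw wc : ℕ} (hp : p.nc = nw * wc) {b g : ℕ} (hb : b ≤ nw)
    (hnw : 0 < nw) (hg : b * wc ≤ g) : (b : ℝ) / nw ≤ p.xi g := by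
  have hnw' : (0 : ℝ) < nw := by exact_mod_cast hnw
  have hbn : (b : ℝ) ≤ nw := by exact_mod_cast hb
  have h1 : (b : ℝ) * wc ≤ g := by exact_mod_cast hg
  unfold Par.xi
  have h5 : ((p.nc : ℝ)) = nw * wc := by rw [hp]; push_cast; ring
  rw [h5, div_le_div_iff₀ hnw' (by positivity)]
  nlinarith

/-- upper bound of the exponents. -/
theorem xi_up (p : Par) {nw wc : ℕ} (hp : p.nc = nw * wc) {b g : ℕ}
    (hnw : 0 < nw) (hg : g < (b + 1) * wc) : p.xi g ≤ ((b : ℝ) + 1) / nw := by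
  have hnw' : (0 : ℝ) < nw := by exact_mod_cast hnw
  have h1 : (g : ℝ) + 1 ≤ (b + 1) * wc := by exact_mod_cast hg
  unfold Par.xi
  have h5 : ((p.nc : ℝ)) = nw * wc := by rw [hp]; push_cast; ring
  rw [h5, div_le_div_iff₀ (by positivity) hnw']
  nlinarith

/-- the constant of the second moments of the small fields. -/
def CZ (p : Par) (Lam CV Am : ℝ) : ℝ :=
  p.nc * (16 * (Lam / 2 + CV + 2 * Am ^ 2 * p.nc + 2 * p.nc) + 8 * (p.nc * p.T * p.τ) +
    32 * p.nc)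

theorem CZ_nonneg (p : Par) {Lam CV Am : ℝ} (h1 : 0 ≤ Lam) (h2 : 0 ≤ CV) : 0 ≤ CZ p Lam CV Am := by
  have := p.hτ0.le
  unfold CZ
  positivity

/-- hypothesis `hz` of `rotSys_rel`. -/
theorem small_fields (hμ : ∀ᵐ U ∂μ, U ∈ OK N) (hN : 0 < N) (hnb : p.nb = 0) {Lam CV Am Lm : ℝ}
    (hCV : 0 ≤ CV) (heig : ∀ i, |eig i| ≤ Lam) (ht : |t| ≤ 1) (hV : ∀ σ, |V σ| ≤ CV * N)
    (ha : ∀ i g, |a i g| ≤ Am) (hl : ∀ i g, |lam i g| ≤ Lm) (hLm : Lm ≤ 1) (hLm0 : 0 ≤ Lm)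
    (K : ℝ) :
    4 * K ^ 2 * dav (dw p N) μ (fun d U => (N : ℝ)⁻¹ * eE (PQ n hA eig t V a lam U d)
      (fun ω => ∑ i, zz n hA lam i ω ^ 2)) ≤ 4 * K ^ 2 * (Lm ^ 2 * CZ p Lam CV Am) := by
  have hN' : (0 : ℝ) < N := by exact_mod_cast hN
  have hN1 : (1 : ℝ) ≤ N := by exact_mod_cast hN
  have hLam : 0 ≤ Lam := (abs_nonneg _).trans (heig ⟨0, hN⟩)
  refine mul_le_mul_of_nonneg_left ?_ (by positivity)
  have h1 : ∀ d, ∀ᵐ U ∂μ, (N : ℝ)⁻¹ * eE (PQ n hA eig t V a lam U d)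
      (fun ω => ∑ i, zz n hA lam i ω ^ 2) ≤ Lm ^ 2 * CZ p Lam CV Am := by
    intro d
    filter_upwards [hμ] with U hU
    have h0 : ∀ σ, |SY.h0q eig (Matrix.of U) t V σ| ≤ (Lam / 2 + CV) * N := by
      intro σ
      unfold SY.h0q
      refine (abs_add_le _ _).trans ?_
      rw [abs_mul]
      have h2 := abs_qd_le heig hU σ
      have h3 : |t| * |Mag.qd eig (Matrix.of U) σ| ≤ 1 * (Lam / 2 * N) :=
        mul_le_mul ht h2 (abs_nonneg _) zero_le_one
      have := hV σ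
      linarith
    have hH : ∀ s : SY.SS p n A, |Hs n A eig t V a lam U s| ≤
        ((Lam / 2 + CV) * N + 2 * Am ^ 2 * p.nc * N + 2 * Lm ^ 2 * p.nc * N) +
          1 / 8 * CSys.Ts s := fun s =>
      abs_HS_le h0 ha hl (fun σ => (OvC.sum_xM_sq hU σ).le) s
    have h4 := small_sq_le hA hnb hH hl d
    have h5 : (N : ℝ)⁻¹ * eE (PQ n hA eig t V a lam U d) (fun ω => ∑ i, zz n hA lam i ω ^ 2) ≤
        (N : ℝ)⁻¹ * (Lm ^ 2 * p.nc * (16 * ((Lam / 2 + CV) * N + 2 * Am ^ 2 * p.nc * N +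
          2 * Lm ^ 2 * p.nc * N) + 8 * (p.nc * p.T * p.τ) + 32 * (N * p.nc))) :=
      mul_le_mul_of_nonneg_left h4 (by positivity)
    refine h5.trans ?_
    have hτ := p.hτ0.le
    have hc : (0 : ℝ) ≤ p.nc := Nat.cast_nonneg _
    have h6 : Lm ^ 2 ≤ 1 := by nlinarith
    have h7 : (16 * ((Lam / 2 + CV) * N + 2 * Am ^ 2 * p.nc * N +
          2 * Lm ^ 2 * p.nc * N) + 8 * (p.nc * p.T * p.τ) + 32 * (N * p.nc)) ≤
        N * (16 * (Lam / 2 + CV + 2 * Am ^ 2 * p.nc + 2 * p.nc) + 8 * (p.nc * p.T * p.τ) +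
          32 * p.nc) := by
      have h8 : 2 * Lm ^ 2 * p.nc * N ≤ 2 * p.nc * N := by
        have := mul_le_mul_of_nonneg_right h6 (mul_nonneg hc hN'.le)
        nlinarith
      have h9 : 8 * ((p.nc : ℝ) * p.T * p.τ) ≤ N * (8 * (p.nc * p.T * p.τ)) := by
        have : 0 ≤ 8 * ((p.nc : ℝ) * p.T * p.τ) := by positivity
        nlinarith
      nlinarith
    calc (N : ℝ)⁻¹ * (Lm ^ 2 * p.nc * (16 * ((Lam / 2 + CV) * N + 2 * Am ^ 2 * p.nc * N +
          2 * Lm ^ 2 * p.nc * N) + 8 * (p.nc * p.T * p.τ) + 32 * (N * p.nc))) ≤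
        (N : ℝ)⁻¹ * (Lm ^ 2 * p.nc * (N * (16 * (Lam / 2 + CV + 2 * Am ^ 2 * p.nc + 2 * p.nc) +
          8 * (p.nc * p.T * p.τ) + 32 * p.nc))) := by
          refine mul_le_mul_of_nonneg_left (mul_le_mul_of_nonneg_left h7 (by positivity))
            (by positivity)
      _ = Lm ^ 2 * CZ p Lam CV Am := by
          unfold CZ
          field_simp
  have h2 : dav (dw p N) μ (fun d U => (N : ℝ)⁻¹ * eE (PQ n hA eig t V a lam U d)
      (fun ω => ∑ i, zz n hA lam i ω ^ 2)) ≤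
      dav (dw p N) μ (fun _ _ => Lm ^ 2 * CZ p Lam CV Am) := by
    refine dav_mono (dw_nonneg p N) (fun d => ?_) (fun d => integrable_const _) h1
    exact (integrable_cont hμ (cont_eEf n hA eig t V a lam d (f := fun _ ω =>
        ∑ i, zz n hA lam i ω ^ 2) fun ω => continuous_const)).const_mul _
  rwa [dav_const (dw_sum p hN)] at h2

end

end Crest.Agent.R164.LStr
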