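import Crest.Agent.R164.LStr5
import Crest.Agent.R164.SDAlg3

/-!
Row 164, LSTRUCT-1, part 6: the structure theorem with all quantifiers.
-/

set_option autoImplicit false

namespace Crest.Agent.R164.LStr

open Finset MeasureTheory Crest.Agent.R141 Crest.Agent.R164 Crest.Agent.R164.RSys
open Crest.Agent.R164.Rot (OK xc)
open Crest.Agent.R164.RotRel (rr dav dav_add dav_smul dav_const dav_mono XU integrable_cont)

noncomputable section

/-- `SDAlg.Rel` only depends on `m b` for `b ≤ n`. -/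
theorem rel_congr_m {κ : Type} [Fintype κ] {α θ : κ → ℝ} {n : ℕ} {m m' : ℕ → ℝ}
    {G : κ → ℕ → ℝ} {q : ℕ → ℝ} {ε : ℝ} (hm : ∀ b, b ≤ n → m b = m' b)
    (h : SDAlg.Rel α θ n m G q ε) : SDAlg.Rel α θ n m' G q ε := by
  have hDl : ∀ (F : ℕ → ℝ) a, SDAlg.Dl m' n F a = SDAlg.Dl m n F a := by
    intro F a
    unfold SDAlg.Dl
    refine Finset.sum_congr rfl fun b hb => ?_
    rw [Finset.mem_Ico] at hb
    rw [hm (b + 1) (by omega)]
  exact {
    m0 := by rw [← hm 0 (Nat.zero_le n)]; exact h.m0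
    mpos := fun b h1 h2 => by rw [← hm b h2]; exact h.mpos b h1 h2
    mmono := fun b hb => by rw [← hm b hb.le, ← hm (b + 1) hb]; exact h.mmono b hb
    mn := by rw [← hm n le_rfl]; exact h.mn
    G0 := h.G0
    Gmono := h.Gmono
    p0 := h.p0
    pmono := h.pmono
    pn := h.pn
    papp := h.papp
    rel := by
      intro k l a ha
      have e : SDAlg.Br m' n (G k) (G l) a = SDAlg.Br m n (G k) (G l) a := by
        unfold SDAlg.Br
        rw [hDl, hDl]
        congr 1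
        refine Finset.sum_congr rfl fun b hb => ?_
        rw [Finset.mem_range] at hb
        rw [hm (b + 1) (by omega)]
      rw [e]
      exact h.rel k l a ha }

/-- concentration of the observables of the small fields. -/
def DC {p : Par} {N : ℕ} (n : ℕ) {A : Finset (Fin N → Bool)} (hA : A.Nonempty) {κ : Type}
    [Fintype κ] [DecidableEq κ] (μ : Measure (Fin N → Fin N → ℝ)) (lab : Fin N → κ)
    (eig : Fin N → ℝ) (t : ℝ) (V : (Fin N → Bool) → ℝ) (a lam : Fin N → Fin p.nc → ℝ)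
    (δ : ℝ) : Prop :=
  ∀ (k : κ) (g : ℕ), g < p.nc → ∃ dd : ℝ, dav (dw p N) μ (fun d U =>
    eE (PQ n hA eig t V a lam U d) (fun ω => |OvC.OH n hA p (blk lab k) g U ω - dd|)) ≤ δ

theorem exists_wm {κ : Type} [Fintype κ] [Nonempty κ] {w : κ → ℝ} (hw : ∀ k, 0 < w k) :
    ∃ wm : ℝ, 0 < wm ∧ ∀ k, wm ≤ w k := by
  obtain ⟨k0, -, hk0⟩ := Finset.exists_min_image (univ : Finset κ) w Finset.univ_nonempty
  exact ⟨w k0, hw k0, fun k => hk0 k (Finset.mem_univ k)⟩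

theorem err_le {β δ1 : ℝ} (hβ0 : 0 ≤ β) (hβ : 2 * β ≤ 1) (hδ1 : 0 < δ1) {N n : ℕ}
    (hn : (52 / δ1) ^ 2 * (N : ℝ) ^ 3 ≤ n) (hn0 : 0 < n) :
    52 * (2 * β) ^ 2 * Real.sqrt N ^ 3 / Real.sqrt n ≤ δ1 := by
  have hn' : (0 : ℝ) < n := by exact_mod_cast hn0
  have hs : 0 < Real.sqrt n := Real.sqrt_pos.2 hn'
  rw [div_le_iff₀ hs]
  have h1 : (2 * β) ^ 2 ≤ 1 := by nlinarith
  have h2 : 0 ≤ Real.sqrt N ^ 3 := by positivity
  have h3 : 52 / δ1 * Real.sqrt N ^ 3 ≤ Real.sqrt n := by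
    apply Real.le_sqrt_of_sq_le
    rw [mul_pow, ← pow_mul, mul_comm 3 2, pow_mul, Real.sq_sqrt (Nat.cast_nonneg N)]
    exact hn
  calc 52 * (2 * β) ^ 2 * Real.sqrt N ^ 3 ≤ 52 * 1 * Real.sqrt N ^ 3 := by
        refine mul_le_mul_of_nonneg_right ?_ h2
        linarith
    _ = δ1 * (52 / δ1 * Real.sqrt N ^ 3) := by field_simp
    _ ≤ δ1 * Real.sqrt n := mul_le_mul_of_nonneg_left h3 hδ1.le

theorem small_le {β : ℝ} (hβ : 2 * β ≤ 1) {N n : ℕ} (hn : 64 * N ≤ n) :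
    2 * β * Real.sqrt N ≤ Real.sqrt n / 8 := by
  have h1 : Real.sqrt N ≤ Real.sqrt n / 8 := by
    rw [le_div_iff₀ (by norm_num)]
    have h2 : Real.sqrt N * 8 = Real.sqrt (64 * N) := by
      rw [Real.sqrt_mul (by norm_num)]
      have : Real.sqrt 64 = 8 := by
        rw [show (64 : ℝ) = 8 ^ 2 by norm_num, Real.sqrt_sq (by norm_num)]
      rw [this, mul_comm]
    rw [h2]
    exact Real.sqrt_le_sqrt (by exact_mod_cast hn)
  calc 2 * β * Real.sqrt N ≤ 1 * Real.sqrt N :=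
        mul_le_mul_of_nonneg_right hβ (Real.sqrt_nonneg _)
    _ ≤ _ := by rw [one_mul]; exact h1

/-- **LSTRUCT-1: the structure theorem**, explicit constants; `p` does not depend on `CV`. -/
theorem lstr_core {κ : Type} [Fintype κ] [DecidableEq κ] [Nonempty κ] {w val : κ → ℝ}
    {wm : ℝ} (hwm0 : 0 < wm) (hwm : ∀ k, wm ≤ w k)
    {Lam : ℝ} (hval : ∀ k, |val k| ≤ Lam) (M : ℕ) (e0 : ℝ) (he0 : 0 < e0) :
    ∃ (wc : ℕ) (p : Par), 2 ≤ wc ∧ p.nc = (M + 1) * wc ∧ p.nb = 0 ∧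
      ∀ CV : ℝ, 0 ≤ CV → ∀ Am : ℝ, ∃ βm : ℝ, 0 < βm ∧
      ∀ β : ℝ, 0 < β → β ≤ βm → ∃ δ : ℝ, 0 < δ ∧
      Fintype.card κ * (δ * (2 / wm)) ≤ 1 / ((M : ℝ) + 1) ∧
      ∃ (N0 : ℕ) (n0 : ℕ → ℕ), ∀ N, N0 ≤ N → ∀ n, n0 N ≤ n →
      ∀ (A : Finset (Fin N → Bool)) (hA : A.Nonempty) (μ : Measure (Fin N → Fin N → ℝ)),
      IsProbabilityMeasure μ → Haar.RHaar μ → ∀ lab : Fin N → κ,
      (∀ k, |((blk lab k).card : ℝ) / N - w k| ≤ δ) → ∀ t : ℝ, |t| ≤ 1 →
      ∀ V : (Fin N → Bool) → ℝ, (∀ σ, |V σ| ≤ CV * N) → ∀ a : Fin N → Fin p.nc → ℝ,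
      (∀ i g, |a i g| ≤ Am) → ∀ bk : κ → Fin p.nc → ℝ, (∀ k g, β ≤ bk k g ∧ bk k g ≤ 2 * β) →
      DC n hA μ lab (fun i => val (lab i)) t V a (fun i g => bk (lab i) g) δ →
      ∃ (c : ℕ → Fin p.nc) (sel : Fin p.nc → DD p N → Fin p.T),
        (∀ b ≤ M, b * wc ≤ c b ∧ (c b : ℕ) < (b + 1) * wc) ∧
        SDAlg.Rel w (fun k => t * val k) (M + 1) (fun b => (b : ℝ) / ((M : ℝ) + 1))
          (fun k => Gam n hA (fun i => val (lab i)) t V a (fun i g => bk (lab i) g) μ c sel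
            (M + 1) (blk lab k))
          (pb n hA (fun i => val (lab i)) t V a (fun i g => bk (lab i) g) μ c sel (M + 1))
          ((8 * Lam * (2 / wm) ^ 2 + 3) / ((M : ℝ) + 1)) ∧
        (∀ k, ∀ b ≤ M + 1, cnc n hA (fun i => val (lab i)) t V a (fun i g => bk (lab i) g) μ c
          sel (M + 1) (blk lab k) b (Gam n hA (fun i => val (lab i)) t V a
            (fun i g => bk (lab i) g) μ c sel (M + 1) (blk lab k) b) ≤ e0) ∧
        (∀ b ≤ M, Ed p N (fun d => ∫ U, G.purNum (SY.base p n A hA)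
          (Hs n A (fun i => val (lab i)) t V a (fun i g => bk (lab i) g) U)
          (c b, sel (c b) d) d ∂μ) ≤ e0) ∧
        (∀ k, (N : ℝ) ≤ 2 / wm * (blk lab k).card) := by
  have hLam : 0 ≤ Lam := (abs_nonneg _).trans (hval (Classical.arbitrary κ))
  set K : ℝ := 2 / wm with hKdef
  have hK : 0 < K := by positivity
  set κc : ℝ := (Fintype.card κ : ℝ) with hκc
  have hκ1 : 1 ≤ κc := by
    rw [hκc]; exact_mod_cast Fintype.card_pos
  have hκ0 : 0 < κc := by linarith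
  set R : ℝ := (M : ℝ) + 1 with hR
  have hR1 : 1 ≤ R := by rw [hR]; linarith [Nat.cast_nonneg (α := ℝ) M]
  have hR0 : 0 < R := by linarith
  -- constants
  set X1 : ℝ := (R + 1) * 2 * (2 + 12 * (2 * Lam) * R * K) with hX1
  have hX1p : 0 < X1 := by positivity
  set e1 : ℝ := min (e0 / 2) (1 / (R * X1)) with he1
  have he1p : 0 < e1 := by rw [he1]; positivity
  have he1a : e1 ≤ e0 / 2 := min_le_left _ _
  have he1b : e1 * X1 ≤ 1 / R := by
    have h : e1 ≤ 1 / (R * X1) := min_le_right _ _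
    rw [le_div_iff₀ (by positivity)] at h
    rw [le_div_iff₀ hR0]
    linarith
  set X2 : ℝ := 2 * Lam * (6 * R * ((2 * R + 3) * K ^ 2)) + 1 with hX2
  have hX2p : 0 < X2 := by positivity
  set ρ : ℝ := min (1 / (R * X2)) (min 1 e0) with hρ
  have hρp : 0 < ρ := by rw [hρ]; positivity
  have hρ1 : ρ ≤ 1 := (min_le_right _ _).trans (min_le_left _ _)
  have hρe : ρ ^ 2 ≤ e0 := by
    have h1 : ρ ≤ e0 := (min_le_right _ _).trans (min_le_right _ _)
    nlinarith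
  have hρb : ρ * X2 ≤ 1 / R := by
    have h : ρ ≤ 1 / (R * X2) := min_le_left _ _
    rw [le_div_iff₀ (by positivity)] at h
    rw [le_div_iff₀ hR0]
    linarith
  obtain ⟨wc1, hwc1⟩ := exists_nat_gt (4 * κc * K / e1)
  have hwc1p : (0 : ℝ) < wc1 := lt_of_le_of_lt (by positivity) hwc1
  have hwc1n : 0 < wc1 := by exact_mod_cast hwc1p
  have hwq : κc * K / wc1 ≤ e1 / 4 := by
    rw [div_lt_iff₀ he1p] at hwc1
    rw [div_le_iff₀ hwc1p]
    linarith
  obtain ⟨p, hp1, hp2, NP, hNP⟩ := G.spin_purity ((M + 1) * (wc1 + 1)) (by positivity)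
    (sq_pos_of_pos hρp)
  refine ⟨wc1 + 1, p, by omega, hp1, hp2, ?_⟩
  intro CV hCV Am
  have hncR : (p.nc : ℝ) = R * (wc1 + 1) := by rw [hp1, hR]; push_cast; ring
  have hnc1 : (wc1 : ℝ) ≤ (p.nc : ℝ) + 1 := by rw [hncR]; nlinarith
  have hKn : K * ((p.nc : ℝ) + 1)⁻¹ ≤ e1 / 4 := by
    refine le_trans ?_ hwq
    rw [← div_eq_mul_inv]
    exact div_le_div₀ (by positivity) (by nlinarith) hwc1p hnc1
  set Z : ℝ := Real.sqrt (CZ p Lam CV Am) with hZ
  have hZ0 : 0 ≤ Z := Real.sqrt_nonneg _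
  have hZ2 : Z ^ 2 = CZ p Lam CV Am := Real.sq_sqrt (CZ_nonneg p hLam hCV)
  set X3 : ℝ := (4 * K * Z + 1) * (3 / 2 * (K ^ 2 + 1)) with hX3
  have hX3p : 0 < X3 := by positivity
  refine ⟨min (1 / 2) (1 / (R * X3)), by positivity, ?_⟩
  intro β hβ hβm
  have hβ1 : 2 * β ≤ 1 := by
    have := hβm.trans (min_le_left _ _)
    linarith
  have hβX : β * X3 ≤ 1 / R := by
    have h : β ≤ 1 / (R * X3) := hβm.trans (min_le_right _ _)
    rw [le_div_iff₀ (by positivity)] at h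
    rw [le_div_iff₀ hR0]
    linarith
  set δ1 : ℝ := β * e1 / (16 * K * ((p.nc : ℝ) + 1)) with hδ1
  have hδ1p : 0 < δ1 := by positivity
  have hX4 : 0 < 1 / (κc * K * R) := by positivity
  refine ⟨min δ1 (min (wm / 2) (1 / (κc * K * R))), by positivity, ?_, max NP 1,
    fun N => ⌈(52 / δ1) ^ 2 * (N : ℝ) ^ 3⌉₊ + 64 * N + 1, ?_⟩
  · have h : min δ1 (min (wm / 2) (1 / (κc * K * R))) ≤ 1 / (κc * K * R) :=
      (min_le_right _ _).trans (min_le_right _ _)
    rw [le_div_iff₀ (by positivity)] at h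
    rw [le_div_iff₀ hR0]
    linarith
  intro N hN n hn A hA μ hμ1 hμ lab hlab t ht V hV a ha bk hbk hDC
  set δ : ℝ := min δ1 (min (wm / 2) (1 / (κc * K * R))) with hδ
  have hδa : δ ≤ δ1 := min_le_left _ _
  have hδb : δ ≤ wm / 2 := (min_le_right _ _).trans (min_le_left _ _)
  have hδc : κc * δ * K ≤ 1 / R := by
    have h : δ ≤ 1 / (κc * K * R) := (min_le_right _ _).trans (min_le_right _ _)
    rw [le_div_iff₀ (by positivity)] at h
    rw [le_div_iff₀ hR0]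
    linarith
  have hδp : 0 < δ := by rw [hδ]; positivity
  have hNpos : 0 < N := lt_of_lt_of_le one_pos ((le_max_right _ _).trans hN)
  have hN' : (0 : ℝ) < N := by exact_mod_cast hNpos
  have hn : ⌈(52 / δ1) ^ 2 * (N : ℝ) ^ 3⌉₊ + 64 * N + 1 ≤ n := hn
  have hnpos : 0 < n := by omega
  have hn1 : (52 / δ1) ^ 2 * (N : ℝ) ^ 3 ≤ n := by
    refine (Nat.le_ceil _).trans ?_
    exact_mod_cast (by omega : ⌈(52 / δ1) ^ 2 * (N : ℝ) ^ 3⌉₊ ≤ n)
  have hn2 : 64 * N ≤ n := by omega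
  -- blocks
  have hKc : ∀ k, (N : ℝ) ≤ K * (blk lab k).card := by
    intro k
    have h1 := (abs_le.1 (hlab k)).1
    have h2 := hwm k
    have h3 : wm / 2 ≤ ((blk lab k).card : ℝ) / N := by linarith
    rw [le_div_iff₀ hN'] at h3
    rw [hKdef, div_mul_eq_mul_div, le_div_iff₀ hwm0]
    linarith
  have hBc : ∀ k, 0 < (blk lab k).card := by
    intro k
    rcases Nat.eq_zero_or_pos (blk lab k).card with h | h
    · have := hKc k
      rw [h] at this
      simp at this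
      linarith
    · exact h
  -- purity
  obtain ⟨sel, hsel⟩ := hNP N ((le_max_left _ _).trans hN) (SY.base p n A hA)
    (Fin N → Fin N → ℝ) μ (fun U s => Hs n A (fun i => val (lab i)) t V a
      (fun i g => bk (lab i) g) U s)
    (fun s => meas_Hs n (fun i => val (lab i)) t V a (fun i g => bk (lab i) g) s)
  -- cells
  have hdd : ∀ (k : κ) (g : ℕ), ∃ dd : ℝ, g < p.nc → dav (dw p N) μ (fun d U =>
      eE (PQ n hA (fun i => val (lab i)) t V a (fun i g => bk (lab i) g) U d)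
        (fun ω => |OvC.OH n hA p (blk lab k) g U ω - dd|)) ≤ δ := by
    intro k g
    by_cases hg : g < p.nc
    · obtain ⟨dd, h⟩ := hDC k g hg
      exact ⟨dd, fun _ => h⟩
    · exact ⟨0, fun h => absurd h hg⟩
  choose dd hdd using hdd
  have hbk' : ∀ (k : κ) (g : ℕ), β ≤ (if h : g < p.nc then bk k ⟨g, h⟩ else β) ∧
      (if h : g < p.nc then bk k ⟨g, h⟩ else β) ≤ 2 * β := by
    intro k g
    split_ifs with h
    · exact hbk k ⟨g, h⟩
    · exact ⟨le_rfl, by linarith⟩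
  obtain ⟨c, hc1, hc2⟩ := cells (n := n) (hA := hA) (eig := fun i => val (lab i)) (t := t)
    (V := V) (a := a) (lam := fun i g => bk (lab i) g) (μ := μ) hμ.mem hNpos hnpos lab hBc hKc
    (fun k g => if h : g < p.nc then bk k ⟨g, h⟩ else β)
    (fun i g => by
      show bk (lab i) g = if h : (g : ℕ) < p.nc then bk (lab i) ⟨(g : ℕ), h⟩ else β
      rw [dif_pos g.2]) hβ (fun k g => (hbk' k g).1) (fun k g => (hbk' k g).2)
    (small_le hβ1 hn2) dd hδp.le (fun k g hg => hdd k g hg) (nw := M + 1) (wc := wc1 + 1)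
    (by omega) hp1 sel hK.le
  have herr : 52 * (2 * β) ^ 2 * Real.sqrt N ^ 3 / Real.sqrt n ≤ δ1 :=
    err_le hβ.le hβ1 hδ1p hn1 hnpos
  set err : ℝ := 52 * (2 * β) ^ 2 * Real.sqrt N ^ 3 / Real.sqrt n with herrd
  have herr0 : 0 ≤ err := by rw [herrd]; positivity
  have hE1 : OvC.errC (Fintype.card κ) p.nc (wc1 + 1 - 1) K β δ err +
      K * ((δ + err) / β + ((p.nc : ℝ) + 1)⁻¹) ≤ e1 := by
    have hnc0 : (0 : ℝ) < (p.nc : ℝ) + 1 := by positivity
    have h1 : (δ + err) / β ≤ e1 / (8 * K * ((p.nc : ℝ) + 1)) := by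
      rw [div_le_iff₀ hβ]
      have h2 : e1 / (8 * K * ((p.nc : ℝ) + 1)) * β = 2 * δ1 := by
        rw [hδ1]; field_simp; ring
      rw [h2]; linarith
    have h3 : (K * ((p.nc : ℝ) + 1)) * (2 * ((δ + err) / β)) ≤ e1 / 4 := by
      have h4 : (K * ((p.nc : ℝ) + 1)) * (2 * ((δ + err) / β)) ≤
          (K * ((p.nc : ℝ) + 1)) * (2 * (e1 / (8 * K * ((p.nc : ℝ) + 1)))) :=
        mul_le_mul_of_nonneg_left (mul_le_mul_of_nonneg_left h1 (by norm_num)) (by positivity)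
      refine h4.trans (le_of_eq ?_)
      field_simp
      norm_num
    have h5 : K * ((δ + err) / β) ≤ e1 / 4 := by
      have h6 : K * ((δ + err) / β) ≤ K * (e1 / (8 * K * ((p.nc : ℝ) + 1))) :=
        mul_le_mul_of_nonneg_left h1 hK.le
      refine h6.trans ?_
      have h7 : K * (e1 / (8 * K * ((p.nc : ℝ) + 1))) = e1 / (8 * ((p.nc : ℝ) + 1)) := by
        field_simp
      rw [h7]
      refine div_le_div_of_nonneg_left he1p.le (by norm_num) ?_
      have : (0 : ℝ) ≤ p.nc := Nat.cast_nonneg _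
      linarith
    have h8 : ((wc1 + 1 - 1 : ℕ) : ℝ) = wc1 := by
      rw [Nat.add_sub_cancel]
    unfold OvC.errC
    rw [h8, mul_add]
    have h9 : (Fintype.card κ : ℝ) * K / wc1 ≤ e1 / 4 := hwq
    linarith
  have hcc : ∀ k, ∀ b ≤ M + 1, ∃ c0, cnc n hA (fun i => val (lab i)) t V a
      (fun i g => bk (lab i) g) μ c sel (M + 1) (blk lab k) b c0 ≤ e1 := by
    intro k b hb
    obtain ⟨c0, h⟩ := hc2 k b hb
    exact ⟨c0, h.trans hE1⟩
  have hcc' : ∀ (k : κ) (b : ℕ), ∃ c0, b ≤ M + 1 → cnc n hA (fun i => val (lab i)) t V a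
      (fun i g => bk (lab i) g) μ c sel (M + 1) (blk lab k) b c0 ≤ e1 := by
    intro k b
    by_cases hb : b ≤ M + 1
    · obtain ⟨c0, h⟩ := hcc k b hb
      exact ⟨c0, fun _ => h⟩
    · exact ⟨0, fun h => absurd h hb⟩
  choose cc hcc' using hcc'
  have hwin : ∀ b < M + 1, b * (wc1 + 1) ≤ c b ∧ (c b : ℕ) < (b + 1) * (wc1 + 1) := hc1
  have hcm : ∀ b, b + 1 < M + 1 → (c b : ℕ) < c (b + 1) := by
    intro b hb
    have h1 := (hwin b (by omega)).2
    have h2 := (hwin (b + 1) hb).1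
    omega
  refine ⟨c, sel, fun b hb => hwin b (by omega), ?_, ?_, ?_, hKc⟩
  · -- the relations
    have hRc : ((M + 1 : ℕ) : ℝ) = R := by rw [hR]; push_cast; ring
    have hRi : (0 : ℝ) ≤ 1 / R := by positivity
    refine rel_congr_m (m := fun b => min 1 ((b : ℝ) / R)) ?_ ?_
    · intro b hb
      have h1 : (b : ℝ) / R ≤ 1 := by
        rw [div_le_one hR0, ← hRc]
        exact_mod_cast hb
      exact min_eq_right h1
    · refine rotSys_rel (K := K) (nn := M + 1) (mm := fun b => min 1 ((b : ℝ) / R)) hμ hNpos lab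
        (val := val) (fun i => rfl) hKc (Nat.succ_pos M) hcm (by simp) ?_ ?_ ?_ ?_ ?_
        (δ := 1 / R) hRi ?_ ?_ ?_ (ρ := ρ) (κ' := β * (4 * K * Z + 1)) hρp (by positivity)
        (fun b _ => hsel (c b)) ?_ (cc := cc) (e0 := e1) (fun k b hb => hcc' k b hb)
        (Cl := 2 * Lam) ?_ (by positivity) (eα := κc * δ) ?_ ?_ ?_
      · intro b hb1 _
        have : (0 : ℝ) < b := by exact_mod_cast hb1
        positivity
      · intro b _
        refine min_le_min le_rfl (div_le_div_of_nonneg_right ?_ hR0.le)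
        push_cast; linarith
      · show min 1 (((M + 1 : ℕ) : ℝ) / R) = 1
        rw [hRc, div_self hR0.ne', min_self]
      · intro b; positivity
      · intro b; exact min_le_left _ _
      · have h := xi_up p hp1 (b := 0) (g := c 0) (Nat.succ_pos M) (hwin 0 (Nat.succ_pos M)).2
        rw [hRc] at h
        simpa using h
      · intro b hb
        have h := xi_low p hp1 (b := b) (g := c b) hb.le (Nat.succ_pos M) (hwin b hb).1
        rw [hRc] at h
        have h2 : min 1 (((b + 1 : ℕ) : ℝ) / R) ≤ (b : ℝ) / R + 1 / R := by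
          refine (min_le_right _ _).trans (le_of_eq ?_)
          push_cast; ring
        show min 1 (((b + 1 : ℕ) : ℝ) / R) - 1 / R ≤ p.xi (c b)
        linarith
      · intro b hb
        have h := xi_up p hp1 (b := b + 1) (g := c (b + 1)) (Nat.succ_pos M) (hwin (b + 1) hb).2
        rw [hRc] at h
        have h2 : min 1 (((b + 1 : ℕ) : ℝ) / R) = ((b + 1 : ℕ) : ℝ) / R := by
          refine min_eq_right ?_
          rw [div_le_one hR0, ← hRc]
          exact_mod_cast hb.le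
        show p.xi (c (b + 1)) ≤ min 1 (((b + 1 : ℕ) : ℝ) / R) + 1 / R
        rw [h2]
        refine h.trans (le_of_eq ?_)
        push_cast; ring
      · -- small fields
        refine (small_fields (Lam := Lam) (CV := CV) (Am := Am) (Lm := 2 * β) hμ.mem hNpos hp2 hCV
          (fun i => hval (lab i)) ht hV ha (fun i g => ?_) hβ1 (by positivity) K).trans ?_
        · have h := hbk (lab i) g
          rw [abs_of_nonneg (hβ.le.trans h.1)]
          exact h.2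
        · rw [← hZ2]
          have h1 : 4 * K ^ 2 * ((2 * β) ^ 2 * Z ^ 2) = (β * (4 * K * Z)) ^ 2 := by ring
          rw [h1]
          refine pow_le_pow_left₀ (by positivity) ?_ 2
          refine mul_le_mul_of_nonneg_left ?_ hβ.le
          linarith
      · -- Cl
        intro k l
        have h1 : |t * val k - t * val l| ≤ |t| * |val k - val l| := by
          rw [← mul_sub, abs_mul]
        refine h1.trans ?_
        have h2 : |val k - val l| ≤ 2 * Lam := by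
          have a1 := abs_le.1 (hval k)
          have a2 := abs_le.1 (hval l)
          rw [abs_le]
          constructor <;> linarith [a1.1, a1.2, a2.1, a2.2]
        calc |t| * |val k - val l| ≤ 1 * (2 * Lam) :=
              mul_le_mul ht h2 (abs_nonneg _) zero_le_one
          _ = 2 * Lam := one_mul _
      · -- eα
        refine (Finset.sum_le_sum fun k _ => hlab k).trans (le_of_eq ?_)
        rw [Finset.sum_const, Finset.card_univ, nsmul_eq_mul]
      · -- ε1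
        unfold epsR
        rw [hRc]
        have t1 : 2 * ((R + 1) * (2 * e1)) +
            2 * Lam * (6 * R * (2 * K * ((R + 1) * (2 * e1)))) = e1 * X1 := by
          rw [hX1]; ring
        have t2 : 2 * Lam * (6 * R * ((2 * R + 3) * K ^ 2 * ρ)) ≤ ρ * X2 := by
          rw [hX2]
          have : 2 * Lam * (6 * R * ((2 * R + 3) * K ^ 2 * ρ)) =
            ρ * (2 * Lam * (6 * R * ((2 * R + 3) * K ^ 2))) := by ring
          rw [this]
          exact mul_le_mul_of_nonneg_left (by linarith) hρp.le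
        have t3 : 3 / 2 * (β * (4 * K * Z + 1)) * (K ^ 2 + 1) = β * X3 := by
          rw [hX3]; ring
        have t4 : 2 * Lam * (4 * (1 / R) * K ^ 2) = 8 * Lam * K ^ 2 / R := by ring
        have t5 : (8 * Lam * K ^ 2 + 3) / R = 8 * Lam * K ^ 2 / R + 3 * (1 / R) := by ring
        have t6 : 2 * ((R + 1) * (2 * e1)) + 2 * Lam * (4 * (1 / R) * K ^ 2 +
            6 * R * ((2 * R + 3) * K ^ 2 * ρ + 2 * K * ((R + 1) * (2 * e1)))) +
            3 / 2 * (β * (4 * K * Z + 1)) * (K ^ 2 + 1) =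
            (2 * ((R + 1) * (2 * e1)) +
            2 * Lam * (6 * R * (2 * K * ((R + 1) * (2 * e1))))) +
            2 * Lam * (4 * (1 / R) * K ^ 2) + 2 * Lam * (6 * R * ((2 * R + 3) * K ^ 2 * ρ)) +
            3 / 2 * (β * (4 * K * Z + 1)) * (K ^ 2 + 1) := by ring
        rw [t6, t1, t3, t4, t5]
        linarith
      · -- ε2
        refine hδc.trans ?_
        refine div_le_div_of_nonneg_right ?_ hR0.le
        nlinarith [mul_nonneg hLam (sq_nonneg K)]
  · intro k b hb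
    refine (cnc_Gam hμ.mem hNpos (blk lab k) b (cc k b)).trans ?_
    linarith [hcc' k b hb]
  · intro b _
    exact (hsel (c b)).trans hρe

/-- **LSTRUCT-1: the structure theorem**, constants and `p` before `CV`. -/
theorem lstr_main' {κ : Type} [Fintype κ] [DecidableEq κ] [Nonempty κ] {w val : κ → ℝ}
    (hw : ∀ k, 0 < w k) {Lam : ℝ} (hval : ∀ k, |val k| ≤ Lam) :
    ∃ C K : ℝ, 1 ≤ C ∧ 0 < K ∧ ∀ (M : ℕ) (e0 : ℝ), 0 < e0 → ∃ (wc : ℕ) (p : Par),
      2 ≤ wc ∧ p.nc = (M + 1) * wc ∧ p.nb = 0 ∧ ∀ CV : ℝ, 0 ≤ CV → ∀ Am : ℝ, ∃ βm : ℝ, 0 < βm ∧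
      ∀ β : ℝ, 0 < β → β ≤ βm → ∃ δ : ℝ, 0 < δ ∧ Fintype.card κ * (δ * K) ≤ 1 / ((M : ℝ) + 1) ∧
      ∃ (N0 : ℕ) (n0 : ℕ → ℕ), ∀ N, N0 ≤ N → ∀ n, n0 N ≤ n →
      ∀ (A : Finset (Fin N → Bool)) (hA : A.Nonempty) (μ : Measure (Fin N → Fin N → ℝ)),
      IsProbabilityMeasure μ → Haar.RHaar μ → ∀ lab : Fin N → κ,
      (∀ k, |((blk lab k).card : ℝ) / N - w k| ≤ δ) → ∀ t : ℝ, |t| ≤ 1 →
      ∀ V : (Fin N → Bool) → ℝ, (∀ σ, |V σ| ≤ CV * N) → ∀ a : Fin N → Fin p.nc → ℝ,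
      (∀ i g, |a i g| ≤ Am) → ∀ bk : κ → Fin p.nc → ℝ, (∀ k g, β ≤ bk k g ∧ bk k g ≤ 2 * β) →
      DC n hA μ lab (fun i => val (lab i)) t V a (fun i g => bk (lab i) g) δ →
      ∃ (c : ℕ → Fin p.nc) (sel : Fin p.nc → DD p N → Fin p.T),
        (∀ b ≤ M, b * wc ≤ c b ∧ (c b : ℕ) < (b + 1) * wc) ∧
        SDAlg.Rel w (fun k => t * val k) (M + 1) (fun b => (b : ℝ) / ((M : ℝ) + 1))
          (fun k => Gam n hA (fun i => val (lab i)) t V a (fun i g => bk (lab i) g) μ c sel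
            (M + 1) (blk lab k))
          (pb n hA (fun i => val (lab i)) t V a (fun i g => bk (lab i) g) μ c sel (M + 1))
          (C / ((M : ℝ) + 1)) ∧
        (∀ k, ∀ b ≤ M + 1, cnc n hA (fun i => val (lab i)) t V a (fun i g => bk (lab i) g) μ c
          sel (M + 1) (blk lab k) b (Gam n hA (fun i => val (lab i)) t V a
            (fun i g => bk (lab i) g) μ c sel (M + 1) (blk lab k) b) ≤ e0) ∧
        (∀ b ≤ M, Ed p N (fun d => ∫ U, G.purNum (SY.base p n A hA)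
          (Hs n A (fun i => val (lab i)) t V a (fun i g => bk (lab i) g) U)
          (c b, sel (c b) d) d ∂μ) ≤ e0) ∧
        (∀ k, (N : ℝ) ≤ K * (blk lab k).card) := by
  obtain ⟨wm, hwm0, hwm⟩ := exists_wm hw
  have hLam : 0 ≤ Lam := (abs_nonneg _).trans (hval (Classical.arbitrary κ))
  have hK : 0 < 2 / wm := by positivity
  exact ⟨8 * Lam * (2 / wm) ^ 2 + 3, 2 / wm, by nlinarith [mul_nonneg hLam (sq_nonneg (2 / wm))],
    hK, fun M e0 he0 => lstr_core hwm0 hwm hval M e0 he0⟩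

/-- **LSTRUCT-1: the structure theorem.** -/
theorem lstr_main {κ : Type} [Fintype κ] [DecidableEq κ] [Nonempty κ] {w val : κ → ℝ}
    (hw : ∀ k, 0 < w k) {Lam : ℝ} (hval : ∀ k, |val k| ≤ Lam) {CV : ℝ} (hCV : 0 ≤ CV) :
    ∃ C K : ℝ, 1 ≤ C ∧ 0 < K ∧ ∀ (M : ℕ) (e0 : ℝ), 0 < e0 → ∃ (wc : ℕ) (p : Par),
      2 ≤ wc ∧ p.nc = (M + 1) * wc ∧ p.nb = 0 ∧ ∀ Am : ℝ, ∃ βm : ℝ, 0 < βm ∧
      ∀ β : ℝ, 0 < β → β ≤ βm → ∃ δ : ℝ, 0 < δ ∧ Fintype.card κ * (δ * K) ≤ 1 / ((M : ℝ) + 1) ∧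
      ∃ (N0 : ℕ) (n0 : ℕ → ℕ), ∀ N, N0 ≤ N → ∀ n, n0 N ≤ n →
      ∀ (A : Finset (Fin N → Bool)) (hA : A.Nonempty) (μ : Measure (Fin N → Fin N → ℝ)),
      IsProbabilityMeasure μ → Haar.RHaar μ → ∀ lab : Fin N → κ,
      (∀ k, |((blk lab k).card : ℝ) / N - w k| ≤ δ) → ∀ t : ℝ, |t| ≤ 1 →
      ∀ V : (Fin N → Bool) → ℝ, (∀ σ, |V σ| ≤ CV * N) → ∀ a : Fin N → Fin p.nc → ℝ,
      (∀ i g, |a i g| ≤ Am) → ∀ bk : κ → Fin p.nc → ℝ, (∀ k g, β ≤ bk k g ∧ bk k g ≤ 2 * β) →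
      DC n hA μ lab (fun i => val (lab i)) t V a (fun i g => bk (lab i) g) δ →
      ∃ (c : ℕ → Fin p.nc) (sel : Fin p.nc → DD p N → Fin p.T),
        (∀ b ≤ M, b * wc ≤ c b ∧ (c b : ℕ) < (b + 1) * wc) ∧
        SDAlg.Rel w (fun k => t * val k) (M + 1) (fun b => (b : ℝ) / ((M : ℝ) + 1))
          (fun k => Gam n hA (fun i => val (lab i)) t V a (fun i g => bk (lab i) g) μ c sel
            (M + 1) (blk lab k))
          (pb n hA (fun i => val (lab i)) t V a (fun i g => bk (lab i) g) μ c sel (M + 1))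
          (C / ((M : ℝ) + 1)) ∧
        (∀ k, ∀ b ≤ M + 1, cnc n hA (fun i => val (lab i)) t V a (fun i g => bk (lab i) g) μ c
          sel (M + 1) (blk lab k) b (Gam n hA (fun i => val (lab i)) t V a
            (fun i g => bk (lab i) g) μ c sel (M + 1) (blk lab k) b) ≤ e0) ∧
        (∀ b ≤ M, Ed p N (fun d => ∫ U, G.purNum (SY.base p n A hA)
          (Hs n A (fun i => val (lab i)) t V a (fun i g => bk (lab i) g) U)
          (c b, sel (c b) d) d ∂μ) ≤ e0) ∧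
        (∀ k, (N : ℝ) ≤ K * (blk lab k).card) := by
  obtain ⟨C, K, hC, hK, main⟩ := lstr_main' hw hval
  refine ⟨C, K, hC, hK, fun M e0 he0 => ?_⟩
  obtain ⟨wc, p, h1, h2, h3, h4⟩ := main M e0 he0
  exact ⟨wc, p, h1, h2, h3, h4 CV hCV⟩

end

end Crest.Agent.R164.LStr
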