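import Crest.Agent.R164.LStruct2A

/-!
# Row 164, module LSTRUCT-2, part B

A family of Hamiltonians with finitely many linear parameters `θ : C → ℝ`.  On a finite grid of
parameters the averaged concentration errors of all the directions are small on average, and the
means of the directions of two families with close free energies are close on average.
-/

set_option autoImplicit false
set_option linter.unusedSectionVars false
set_option linter.unusedVariables false

namespace Crest.Agent.R164.LS2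

open Finset MeasureTheory Crest.Agent.R141 Crest.Agent.R164 Crest.Agent.R164.ObsConc
open Crest.Agent.R164.G (Base prior_isProb)
open Crest.Agent.R164.LGrid (gavg pt sh SD)

noncomputable section

variable {p : Par} {N : ℕ} (B : Base p N) {Θ : Type*} [MeasurableSpace Θ] (ν : Measure Θ)
  [IsProbabilityMeasure ν] {C : Type*} [Fintype C] [DecidableEq C]

/-- A family of Hamiltonians with linear parameters. -/
structure Fam (H : (C → ℝ) → Θ → B.S → ℝ) (V : C → Θ → B.S → ℝ) : Prop where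
  zero : B.SF 0 = ⊤
  shift : ∀ θ c u, H (sh θ c u) = hs B (H θ) (V c) u
  admH : ∀ θ, Adm B ν (H θ)
  admV : ∀ c, Adm B ν (V c)

/-- the normalised averaged free energy -/
def phi (H : (C → ℝ) → Θ → B.S → ℝ) (θ : C → ℝ) : ℝ := (N : ℝ)⁻¹ * FF B ν (H θ)

/-- the normalised mean of the direction `V`. -/
def mN (H V : Θ → B.S → ℝ) : ℝ := (N : ℝ)⁻¹ * mV ν H V

/-- the averaged concentration error of the direction `V`, normalised. -/
def cerr (H V : Θ → B.S → ℝ) : ℝ :=
  (N : ℝ)⁻¹ * dv ν (fun d U => eE (G.PP B (H U) d) (fun ω => |V U ω.1 - mV ν H V|))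

/-- The closed box of parameters. -/
def InBox (θ0 y : C → ℝ) (I : ℕ) (θ : C → ℝ) : Prop :=
  ∀ c, θ0 c ≤ θ c ∧ θ c ≤ θ0 c + ((I : ℝ) + 1) * y c

theorem pt_inBox {θ0 y : C → ℝ} (hy : ∀ c, 0 < y c) {I : ℕ} (i : C → Fin I) :
    InBox θ0 y I (pt θ0 y i) := by
  intro c
  have h1 := hy c
  have h2 : ((i c : ℕ) : ℝ) ≤ I := by exact_mod_cast (i c).2.le
  unfold pt
  constructor
  · have : 0 ≤ (((i c : ℕ) : ℝ) + 1) * y c := by positivity
    linarith
  · have : (((i c : ℕ) : ℝ) + 1) * y c ≤ ((I : ℝ) + 1) * y c :=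
      mul_le_mul_of_nonneg_right (by linarith) h1.le
    linarith

theorem update_inBox {θ0 y : C → ℝ} (hy : ∀ c, 0 < y c) {I : ℕ} {θ : C → ℝ}
    (hθ : InBox θ0 y I θ) (c : C) {r : ℝ} (h0 : 0 ≤ r) (h1 : r ≤ (I : ℝ) + 1) :
    InBox θ0 y I (Function.update θ c (θ0 c + r * y c)) := by
  intro d
  by_cases hd : d = c
  · subst hd
    rw [Function.update_self]
    have := hy d
    constructor
    · have : 0 ≤ r * y d := by positivity
      linarith
    · have : r * y d ≤ ((I : ℝ) + 1) * y d := mul_le_mul_of_nonneg_right h1 this.le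
      linarith
  · rw [Function.update_of_ne hd]; exact hθ d

theorem sh_pt_inBox {θ0 y : C → ℝ} (hy : ∀ c, 0 < y c) {I : ℕ} (i : C → Fin I) (c : C) :
    InBox θ0 y I (sh (pt θ0 y i) c (y c)) ∧ InBox θ0 y I (sh (pt θ0 y i) c (-y c)) := by
  have h2 : ((i c : ℕ) : ℝ) + 1 ≤ I := by exact_mod_cast (i c).2
  constructor
  · have e : sh (pt θ0 y i) c (y c) =
        Function.update (pt θ0 y i) c (θ0 c + (((i c : ℕ) : ℝ) + 2) * y c) := by
      unfold sh pt; congr 1; ring
    rw [e]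
    exact update_inBox hy (pt_inBox hy i) c (by positivity) (by linarith)
  · have e : sh (pt θ0 y i) c (-y c) =
        Function.update (pt θ0 y i) c (θ0 c + (((i c : ℕ) : ℝ)) * y c) := by
      unfold sh pt; congr 1; ring
    rw [e]
    exact update_inBox hy (pt_inBox hy i) c (by positivity) (by linarith)

variable {B ν} {H : (C → ℝ) → Θ → B.S → ℝ} {V : C → Θ → B.S → ℝ}

theorem SD_phi (h : Fam B ν H V) (θ : C → ℝ) (c : C) (u : ℝ) :
    SD (phi B ν H) θ c u = (N : ℝ)⁻¹ * (FF B ν (hs B (H θ) (V c) u) +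
      FF B ν (hs B (H θ) (V c) (-u)) - 2 * FF B ν (H θ)) := by
  unfold SD phi
  rw [h.shift, h.shift]; ring

/-- increments of the normalised free energy -/
theorem phi_incr (h : Fam B ν H V) {L : ℝ} {θ : C → ℝ} {c : C} {u : ℝ} (hu : 0 ≤ u)
    (h1 : |mN B ν (H θ) (V c)| ≤ L) (h2 : |mN B ν (H (sh θ c u)) (V c)| ≤ L) :
    |phi B ν H (sh θ c u) - phi B ν H θ| ≤ L * u := by
  have s1 := slope h.zero (h.admH θ) (h.admV c) u
  have s2 := slope h.zero (h.admH (sh θ c u)) (h.admV c) (-u)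
  have e : hs B (H (sh θ c u)) (V c) (-u) = H θ := by
    rw [h.shift]; funext U b; unfold hs; ring
  rw [e] at s2
  rw [← h.shift] at s1
  have hN : (0 : ℝ) ≤ (N : ℝ)⁻¹ := by positivity
  have t1 := mul_le_mul_of_nonneg_left s1 hN
  have t2 := mul_le_mul_of_nonneg_left s2 hN
  have b1 := (abs_le.1 h1).1
  have b2 := (abs_le.1 h2).2
  have b1' := mul_le_mul_of_nonneg_left b1 hu
  have b2' := mul_le_mul_of_nonneg_left b2 hu
  unfold phi
  unfold mN at b1' b2'
  rw [abs_le]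
  constructor
  · nlinarith
  · nlinarith

/-- averages of the second differences over the grid. -/
theorem gavg_SD (h : Fam B ν H V) {θ0 y : C → ℝ} (hy : ∀ c, 0 < y c) {I : ℕ} (hI : 0 < I)
    {L : ℝ} (hL : ∀ θ, InBox θ0 y I θ → ∀ c, |mN B ν (H θ) (V c)| ≤ L) (c : C) :
    gavg I (fun i => SD (phi B ν H) (pt θ0 y i) c (y c)) ≤ 2 * L * y c / I := by
  refine LGrid.gavg_SD_le hI _ θ0 y c (L := L) ?_
  intro i n hn
  have hn' : (n : ℝ) ≤ I := by exact_mod_cast hn
  set θ : C → ℝ := Function.update (pt θ0 y i) c (θ0 c + (n : ℝ) * y c) with hθ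
  have e : Function.update (pt θ0 y i) c (θ0 c + ((n : ℝ) + 1) * y c) = sh θ c (y c) := by
    rw [hθ]; unfold sh
    rw [Function.update_idem, Function.update_self]
    congr 1; ring
  have i1 : InBox θ0 y I θ := update_inBox hy (pt_inBox hy i) c (by positivity) (by linarith)
  have i2 : InBox θ0 y I (sh θ c (y c)) := by
    rw [← e]
    exact update_inBox hy (pt_inBox hy i) c (by positivity) (by linarith)
  rw [e]
  exact phi_incr h (hy c).le (hL _ i1 c) (hL _ i2 c)

/-- **Pointwise**: concentration error of the direction `c` from the second difference. -/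
theorem cerr_le (h : Fam B ν H V) (hN : 0 < N) {θ : C → ℝ} {c : C} {u : ℝ} (hu : 0 < u) {fl : ℝ}
    (f0 : fluc ν (H θ) ≤ fl) (fp : fluc ν (H (sh θ c u)) ≤ fl)
    (fm : fluc ν (H (sh θ c (-u))) ≤ fl) :
    cerr B ν (H θ) (V c) ≤ 2 * (SD (phi B ν H) θ c u / u) +
      (8 * fl + Real.log 2 * ((p.nc : ℝ) + 1)) / (N * u) := by
  have hN' : (0 : ℝ) < N := by exact_mod_cast hN
  have h1 := conc_dir h.zero hN (h.admH θ) (h.admV c) hu
  rw [h.shift] at fp fm
  have h2 : u * ((N : ℝ) * cerr B ν (H θ) (V c)) ≤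
      2 * ((N : ℝ) * SD (phi B ν H) θ c u) + (8 * fl + Real.log 2 * ((p.nc : ℝ) + 1)) := by
    rw [SD_phi h]
    unfold cerr
    rw [mul_inv_cancel_left₀ hN'.ne', mul_inv_cancel_left₀ hN'.ne']
    linarith
  have h3 : cerr B ν (H θ) (V c) = (u * ((N : ℝ) * cerr B ν (H θ) (V c))) / (N * u) := by
    field_simp
  rw [h3]
  refine (div_le_div_of_nonneg_right h2 (by positivity)).trans (le_of_eq ?_)
  field_simp

theorem cerr_nonneg (H V : Θ → B.S → ℝ) : 0 ≤ cerr B ν H V := by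
  unfold cerr
  refine mul_nonneg (by positivity) (dv_nonneg fun d U => ?_)
  exact eE_nonneg (G.PP_isProb B _ _) fun ω => abs_nonneg _

/-- **Averaged over the grid.** -/
theorem gavg_cerr (h : Fam B ν H V) (hN : 0 < N) {θ0 y : C → ℝ} (hy : ∀ c, 0 < y c) {I : ℕ}
    (hI : 0 < I) {L fl : ℝ} (hL : ∀ θ, InBox θ0 y I θ → ∀ c, |mN B ν (H θ) (V c)| ≤ L)
    (hfl : ∀ θ, InBox θ0 y I θ → fluc ν (H θ) ≤ fl) (c : C) :
    gavg I (fun i => cerr B ν (H (pt θ0 y i)) (V c)) ≤
      4 * L / I + (8 * fl + Real.log 2 * ((p.nc : ℝ) + 1)) / (N * y c) := by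
  have h1 : ∀ i : C → Fin I, cerr B ν (H (pt θ0 y i)) (V c) ≤
      (2 / y c) * SD (phi B ν H) (pt θ0 y i) c (y c) +
        (8 * fl + Real.log 2 * ((p.nc : ℝ) + 1)) / (N * y c) := by
    intro i
    have hb := sh_pt_inBox (θ0 := θ0) hy i c
    have := cerr_le h hN (hy c) (hfl _ (pt_inBox hy i)) (hfl _ hb.1) (hfl _ hb.2)
    refine this.trans (le_of_eq ?_)
    ring
  refine (LGrid.gavg_mono h1).trans ?_
  rw [LGrid.gavg_add, LGrid.gavg_mul, LGrid.gavg_const hI]
  have h2 := gavg_SD h hy hI hL c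
  have hyc := hy c
  have hI' : (0 : ℝ) < I := by exact_mod_cast hI
  have h3 := mul_le_mul_of_nonneg_left h2 (by positivity : (0 : ℝ) ≤ 2 / y c)
  have e : 2 / y c * (2 * L * y c / I) = 4 * L / I := by field_simp; ring
  rw [e] at h3
  linarith

/-! ### Comparison of two families -/

section two

variable {N' : ℕ} {B' : Base p N'} {Θ' : Type*} [MeasurableSpace Θ'] {ν' : Measure Θ'}
  [IsProbabilityMeasure ν'] {H' : (C → ℝ) → Θ' → B'.S → ℝ} {V' : C → Θ' → B'.S → ℝ}

/-- **Pointwise comparison of the normalised means.** -/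
theorem mN_compare (h : Fam B ν H V) (h' : Fam B' ν' H' V') {θ : C → ℝ} {c : C} {u : ℝ}
    (hu : 0 < u) {ε : ℝ} (e0 : |phi B ν H θ - phi B' ν' H' θ| ≤ ε)
    (ep : |phi B ν H (sh θ c u) - phi B' ν' H' (sh θ c u)| ≤ ε)
    (em : |phi B ν H (sh θ c (-u)) - phi B' ν' H' (sh θ c (-u))| ≤ ε) :
    |mN B ν (H θ) (V c) - mN B' ν' (H' θ) (V' c)| ≤ SD (phi B ν H) θ c u / u + 2 * ε / u := by
  have hN : (0 : ℝ) ≤ (N : ℝ)⁻¹ := by positivity
  have hN' : (0 : ℝ) ≤ (N' : ℝ)⁻¹ := by positivity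
  have s1 := mul_le_mul_of_nonneg_left (slope h.zero (h.admH θ) (h.admV c) u) hN
  have s2 := mul_le_mul_of_nonneg_left (slope h.zero (h.admH θ) (h.admV c) (-u)) hN
  have s3 := mul_le_mul_of_nonneg_left (slope h'.zero (h'.admH θ) (h'.admV c) u) hN'
  have s4 := mul_le_mul_of_nonneg_left (slope h'.zero (h'.admH θ) (h'.admV c) (-u)) hN'
  rw [← h.shift] at s1 s2
  rw [← h'.shift] at s3 s4
  refine LGrid.slope_compare hu (f' := mN B ν (H θ) (V c)) (g' := mN B' ν' (H' θ) (V' c))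
    (fm := phi B ν H (sh θ c (-u))) (f0 := phi B ν H θ) (fp := phi B ν H (sh θ c u))
    (gm := phi B' ν' H' (sh θ c (-u))) (g0 := phi B' ν' H' θ) (gp := phi B' ν' H' (sh θ c u))
    ?_ ?_ ?_ ?_ em e0 ep
  · unfold mN phi; linarith
  · unfold mN phi; linarith
  · unfold mN phi; linarith
  · unfold mN phi; linarith

/-- **Averaged comparison of the normalised means.** -/
theorem gavg_mN_compare (h : Fam B ν H V) (h' : Fam B' ν' H' V') {θ0 y : C → ℝ}
    (hy : ∀ c, 0 < y c) {I : ℕ} (hI : 0 < I) {L ε : ℝ}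
    (hL : ∀ θ, InBox θ0 y I θ → ∀ c, |mN B ν (H θ) (V c)| ≤ L)
    (hε : ∀ θ, InBox θ0 y I θ → |phi B ν H θ - phi B' ν' H' θ| ≤ ε) (c : C) :
    gavg I (fun i => |mN B ν (H (pt θ0 y i)) (V c) - mN B' ν' (H' (pt θ0 y i)) (V' c)|) ≤
      2 * L / I + 2 * ε / y c := by
  have h1 : ∀ i : C → Fin I, |mN B ν (H (pt θ0 y i)) (V c) - mN B' ν' (H' (pt θ0 y i)) (V' c)| ≤
      (1 / y c) * SD (phi B ν H) (pt θ0 y i) c (y c) + 2 * ε / y c := by
    intro i
    have hb := sh_pt_inBox (θ0 := θ0) hy i c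
    have := mN_compare h h' (hy c) (hε _ (pt_inBox hy i)) (hε _ hb.1) (hε _ hb.2)
    refine this.trans (le_of_eq ?_)
    ring
  refine (LGrid.gavg_mono h1).trans ?_
  rw [LGrid.gavg_add, LGrid.gavg_mul, LGrid.gavg_const hI]
  have h2 := gavg_SD h hy hI hL c
  have hyc := hy c
  have hI' : (0 : ℝ) < I := by exact_mod_cast hI
  have h3 := mul_le_mul_of_nonneg_left h2 (by positivity : (0 : ℝ) ≤ 1 / y c)
  have e : 1 / y c * (2 * L * y c / I) = 2 * L / I := by field_simp
  rw [e] at h3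
  linarith

end two

end

end Crest.Agent.R164.LS2
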