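import Mathlib

/-!
Row 164 (helper436): i.i.d. growth labels for the lower bound.

`F N lab` is the free energy of the `N`-system whose rows carry the labels `lab`.  From lower bounds
for the AVERAGED increments `∑ k, α k * (F (N+1) (snoc lab k) - F N lab)` at label vectors with the
right proportions, and a uniform crude lower bound of the increments, we get a lower bound for the
average `Psi` of `F N` over i.i.d. labels; then for `F N labE` for a given label vector `labE`.
-/

set_option autoImplicit false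

namespace Crest.Agent.R164.LabAvg

open Finset

noncomputable section

variable {κ : Type*} [Fintype κ] [DecidableEq κ]

/-- number of rows with label `k` -/
def cnt {N : ℕ} (lab : Fin N → κ) (k : κ) : ℕ := (univ.filter fun i => lab i = k).card

/-- weight of a label vector -/
def wt (α : κ → ℝ) {N : ℕ} (lab : Fin N → κ) : ℝ := ∏ i, α (lab i)

/-- average over i.i.d. labels -/
def Psi (α : κ → ℝ) {N : ℕ} (F : (Fin N → κ) → ℝ) : ℝ := ∑ lab, wt α lab * F lab

variable {α : κ → ℝ}

omit [Fintype κ] [DecidableEq κ] in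
theorem wt_nonneg (hα : ∀ k, 0 ≤ α k) {N : ℕ} (lab : Fin N → κ) : 0 ≤ wt α lab :=
  Finset.prod_nonneg fun _ _ => hα _

omit [Fintype κ] [DecidableEq κ] in
theorem wt_snoc {N : ℕ} (lab : Fin N → κ) (k : κ) :
    wt α (Fin.snoc lab k : Fin (N + 1) → κ) = wt α lab * α k := by
  unfold wt
  rw [Fin.prod_univ_castSucc]
  simp

/-- the average over the labels of `N + 1` rows -/
theorem Psi_succ {N : ℕ} (F : (Fin (N + 1) → κ) → ℝ) :
    Psi α F = ∑ lab : Fin N → κ, wt α lab * ∑ k, α k * F (Fin.snoc lab k) := by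
  classical
  unfold Psi
  have e := Fintype.sum_equiv (Fin.snocEquiv (fun _ : Fin (N + 1) => κ))
    (fun c => wt α (Fin.snoc c.2 c.1 : Fin (N + 1) → κ) * F (Fin.snoc c.2 c.1))
    (fun lab => wt α lab * F lab) (fun c => rfl)
  rw [← e, Fintype.sum_prod_type_right]
  refine Finset.sum_congr rfl fun lab _ => ?_
  rw [Finset.mul_sum]
  refine Finset.sum_congr rfl fun k _ => ?_
  rw [wt_snoc]; ring

theorem wt_sum (hs : ∑ k, α k = 1) (N : ℕ) : ∑ lab : Fin N → κ, wt α lab = 1 := by
  induction N with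
  | zero => simp [wt]
  | succ N ih =>
    have h := Psi_succ (α := α) (N := N) (fun _ => 1)
    unfold Psi at h
    simp only [mul_one] at h
    rw [h, hs]
    simpa using ih

theorem Psi_mono (hα : ∀ k, 0 ≤ α k) {N : ℕ} {F F' : (Fin N → κ) → ℝ} (h : ∀ l, F l ≤ F' l) :
    Psi α F ≤ Psi α F' :=
  Finset.sum_le_sum fun l _ => mul_le_mul_of_nonneg_left (h l) (wt_nonneg hα l)

theorem Psi_add {N : ℕ} (F F' : (Fin N → κ) → ℝ) :
    Psi α (fun l => F l + F' l) = Psi α F + Psi α F' := by
  unfold Psi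
  rw [← Finset.sum_add_distrib]
  exact Finset.sum_congr rfl fun l _ => by ring

theorem Psi_sub {N : ℕ} (F F' : (Fin N → κ) → ℝ) :
    Psi α (fun l => F l - F' l) = Psi α F - Psi α F' := by
  unfold Psi
  rw [← Finset.sum_sub_distrib]
  exact Finset.sum_congr rfl fun l _ => by ring

theorem Psi_smul {N : ℕ} (c : ℝ) (F : (Fin N → κ) → ℝ) :
    Psi α (fun l => c * F l) = c * Psi α F := by
  unfold Psi
  rw [Finset.mul_sum]
  exact Finset.sum_congr rfl fun l _ => by ring

theorem Psi_const (hs : ∑ k, α k = 1) (N : ℕ) (c : ℝ) :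
    Psi α (fun _ : Fin N → κ => c) = c := by
  unfold Psi
  rw [← Finset.sum_mul, wt_sum hs, one_mul]

/-! ### Counts -/

omit [Fintype κ] in
theorem cnt_snoc {N : ℕ} (lab : Fin N → κ) (j k : κ) :
    cnt (Fin.snoc lab j : Fin (N + 1) → κ) k = cnt lab k + if j = k then 1 else 0 := by
  unfold cnt
  rw [Finset.card_filter, Fin.sum_univ_castSucc, Finset.card_filter]
  simp

/-- second moment of the fluctuation of the counts -/
theorem cnt_var (hα : ∀ k, 0 ≤ α k) (hs : ∑ k, α k = 1) (k : κ) (N : ℕ) :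
    Psi α (fun lab : Fin N → κ => ((cnt lab k : ℝ) - N * α k) ^ 2) ≤ N := by
  induction N with
  | zero => simp [Psi, wt, cnt]
  | succ N ih =>
    rw [Psi_succ]
    have h1 : ∀ lab : Fin N → κ, ∑ j, α j * ((cnt (Fin.snoc lab j : Fin (N + 1) → κ) k : ℝ) -
        ((N + 1 : ℕ) : ℝ) * α k) ^ 2 ≤ ((cnt lab k : ℝ) - N * α k) ^ 2 + 1 := by
      intro lab
      have h2 : ∀ j, α j * ((cnt (Fin.snoc lab j : Fin (N + 1) → κ) k : ℝ) -
          ((N + 1 : ℕ) : ℝ) * α k) ^ 2 =
          α j * ((cnt lab k : ℝ) - N * α k) ^ 2 +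
          2 * ((cnt lab k : ℝ) - N * α k) * (α j * ((if j = k then 1 else 0) - α k)) +
          α j * ((if j = k then (1:ℝ) else 0) - α k) ^ 2 := by
        intro j
        rw [cnt_snoc]
        push_cast
        ring
      simp only [h2]
      rw [Finset.sum_add_distrib, Finset.sum_add_distrib, ← Finset.sum_mul, hs, one_mul,
        ← Finset.mul_sum]
      have h3 : ∑ j, α j * ((if j = k then (1:ℝ) else 0) - α k) = 0 := by
        simp only [mul_sub, Finset.sum_sub_distrib, mul_ite, mul_one, mul_zero]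
        rw [Finset.sum_ite_eq' univ k α, if_pos (Finset.mem_univ _), ← Finset.sum_mul, hs]
        ring
      rw [h3, mul_zero, add_zero]
      have hk1 : α k ≤ 1 := by
        rw [← hs]; exact Finset.single_le_sum (fun j _ => hα j) (Finset.mem_univ k)
      have h4 : ∑ j, α j * ((if j = k then (1:ℝ) else 0) - α k) ^ 2 ≤ ∑ j, α j := by
        refine Finset.sum_le_sum fun j _ => ?_
        have h5 : ((if j = k then (1:ℝ) else 0) - α k) ^ 2 ≤ 1 := by
          have h0 := hα k
          split_ifs <;> nlinarith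
        nlinarith [hα j]
      rw [hs] at h4
      linarith
    calc _ ≤ ∑ lab : Fin N → κ, wt α lab * (((cnt lab k : ℝ) - N * α k) ^ 2 + 1) :=
          Finset.sum_le_sum fun lab _ => mul_le_mul_of_nonneg_left (h1 lab) (wt_nonneg hα lab)
      _ = Psi α (fun lab : Fin N → κ => ((cnt lab k : ℝ) - N * α k) ^ 2) + 1 := by
          simp only [mul_add, mul_one]
          rw [Finset.sum_add_distrib, wt_sum hs]; rfl
      _ ≤ _ := by push_cast; linarith

/-- label vectors with the right proportions -/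
def Good (α : κ → ℝ) (δ : ℝ) {N : ℕ} (lab : Fin N → κ) : Prop :=
  ∀ k, |(cnt lab k : ℝ) - N * α k| ≤ δ * N

open scoped Classical in
/-- the mass of the label vectors with wrong proportions -/
theorem bad_mass (hα : ∀ k, 0 ≤ α k) (hs : ∑ k, α k = 1) {δ : ℝ} (hδ : 0 < δ) {N : ℕ}
    (hN : 0 < N) :
    Psi α (fun lab : Fin N → κ => if Good α δ lab then 0 else 1) ≤
      (Fintype.card κ : ℝ) / (δ ^ 2 * N) := by
  have hN' : (0 : ℝ) < N := by exact_mod_cast hN
  have h1 : ∀ lab : Fin N → κ, (if Good α δ lab then (0:ℝ) else 1) ≤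
      (δ * N)⁻¹ ^ 2 * ∑ k, ((cnt lab k : ℝ) - N * α k) ^ 2 := by
    intro lab
    split_ifs with h
    · positivity
    · unfold Good at h
      push Not at h
      obtain ⟨k, hk⟩ := h
      have h2 : ((cnt lab k : ℝ) - N * α k) ^ 2 ≤ ∑ k, ((cnt lab k : ℝ) - N * α k) ^ 2 :=
        Finset.single_le_sum (f := fun k => ((cnt lab k : ℝ) - N * α k) ^ 2)
          (fun j _ => sq_nonneg _) (Finset.mem_univ k)
      have h3 : (δ * N) ^ 2 ≤ ((cnt lab k : ℝ) - N * α k) ^ 2 := by
        rw [← sq_abs ((cnt lab k : ℝ) - N * α k)]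
        exact pow_le_pow_left₀ (by positivity) hk.le 2
      calc (1:ℝ) = (δ * N)⁻¹ ^ 2 * (δ * N) ^ 2 := by
            rw [← mul_pow, inv_mul_cancel₀ (by positivity), one_pow]
        _ ≤ _ := mul_le_mul_of_nonneg_left (h3.trans h2) (by positivity)
  refine (Psi_mono hα h1).trans ?_
  rw [Psi_smul]
  have h4 : Psi α (fun lab : Fin N → κ => ∑ k, ((cnt lab k : ℝ) - N * α k) ^ 2) ≤
      (Fintype.card κ : ℝ) * N := by
    have : Psi α (fun lab : Fin N → κ => ∑ k, ((cnt lab k : ℝ) - N * α k) ^ 2) =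
        ∑ k, Psi α (fun lab : Fin N → κ => ((cnt lab k : ℝ) - N * α k) ^ 2) := by
      unfold Psi
      simp only [Finset.mul_sum]
      rw [Finset.sum_comm]
    rw [this]
    calc _ ≤ ∑ _k : κ, (N : ℝ) := Finset.sum_le_sum fun k _ => cnt_var hα hs k N
      _ = _ := by rw [Finset.sum_const, Finset.card_univ, nsmul_eq_mul]
  calc _ ≤ (δ * N)⁻¹ ^ 2 * ((Fintype.card κ : ℝ) * N) :=
        mul_le_mul_of_nonneg_left h4 (by positivity)
    _ = _ := by field_simp

/-- **i.i.d. labels, one step.** -/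
theorem step (hα : ∀ k, 0 ≤ α k) (hs : ∑ k, α k = 1) {δ c C : ℝ} (hδ : 0 < δ) (hcC : -C ≤ c)
    {N : ℕ} (hN : 0 < N) {F : (Fin N → κ) → ℝ} {F' : (Fin (N + 1) → κ) → ℝ}
    (hinc : ∀ lab, Good α δ lab → c ≤ ∑ k, α k * (F' (Fin.snoc lab k) - F lab))
    (hlow : ∀ lab k, -C ≤ F' (Fin.snoc lab k) - F lab) :
    c - (c + C) * ((Fintype.card κ : ℝ) / (δ ^ 2 * N)) ≤ Psi α F' - Psi α F := by
  classical
  have h1 : Psi α F' - Psi α F =
      Psi α (fun lab : Fin N → κ => ∑ k, α k * (F' (Fin.snoc lab k) - F lab)) := by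
    rw [Psi_succ]
    unfold Psi
    rw [← Finset.sum_sub_distrib]
    refine Finset.sum_congr rfl fun lab _ => ?_
    simp only [mul_sub, Finset.sum_sub_distrib]
    rw [← Finset.sum_mul, hs]; ring
  rw [h1]
  have h2 : ∀ lab : Fin N → κ, c - (c + C) * (if Good α δ lab then 0 else 1) ≤
      ∑ k, α k * (F' (Fin.snoc lab k) - F lab) := by
    intro lab
    split_ifs with h
    · simpa using hinc lab h
    · have : ∑ k, α k * (-C) ≤ ∑ k, α k * (F' (Fin.snoc lab k) - F lab) :=
        Finset.sum_le_sum fun k _ => mul_le_mul_of_nonneg_left (hlow lab k) (hα k)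
      rw [← Finset.sum_mul, hs] at this
      linarith
  have h3 := Psi_mono hα h2
  have h4 : Psi α (fun lab : Fin N → κ => c - (c + C) * (if Good α δ lab then 0 else 1)) =
      c - (c + C) * Psi α (fun lab : Fin N → κ => if Good α δ lab then 0 else 1) := by
    rw [Psi_sub, Psi_const hs, Psi_smul]
  rw [h4] at h3
  have h5 := bad_mass hα hs hδ hN
  have h6 : (c + C) * Psi α (fun lab : Fin N → κ => if Good α δ lab then (0:ℝ) else 1) ≤
      (c + C) * ((Fintype.card κ : ℝ) / (δ ^ 2 * N)) :=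
    mul_le_mul_of_nonneg_left h5 (by linarith)
  linarith

/-- **i.i.d. labels, telescoped.** -/
theorem iterate (hα : ∀ k, 0 ≤ α k) (hs : ∑ k, α k = 1) {δ c C : ℝ} (hδ : 0 < δ) (hcC : -C ≤ c)
    (F : (N : ℕ) → (Fin N → κ) → ℝ) {N0 N1 : ℕ} (hN0 : 0 < N0) (h01 : N0 ≤ N1)
    (hinc : ∀ N, N0 ≤ N → N < N1 → ∀ lab : Fin N → κ, Good α δ lab →
      c ≤ ∑ k, α k * (F (N + 1) (Fin.snoc lab k) - F N lab))
    (hlow : ∀ N, N0 ≤ N → N < N1 → ∀ (lab : Fin N → κ) k,
      -C ≤ F (N + 1) (Fin.snoc lab k) - F N lab) :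
    ((N1 : ℝ) - N0) * (c - (c + C) * ((Fintype.card κ : ℝ) / (δ ^ 2 * N0))) ≤
      Psi α (F N1) - Psi α (F N0) := by
  induction N1, h01 using Nat.le_induction with
  | base => simp
  | succ N hN ih =>
    have h1 := ih (fun n h h' => hinc n h (by omega)) (fun n h h' => hlow n h (by omega))
    have h2 := step (N := N) hα hs hδ hcC (by omega) (hinc N hN (by omega))
      (hlow N hN (by omega))
    have hN0' : (0 : ℝ) < N0 := by exact_mod_cast hN0
    have hNN : (N0 : ℝ) ≤ N := by exact_mod_cast hN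
    have h3 : (Fintype.card κ : ℝ) / (δ ^ 2 * N) ≤ (Fintype.card κ : ℝ) / (δ ^ 2 * N0) := by
      apply div_le_div_of_nonneg_left (by positivity) (by positivity)
      exact mul_le_mul_of_nonneg_left hNN (by positivity)
    have h4 : (c + C) * ((Fintype.card κ : ℝ) / (δ ^ 2 * N)) ≤
        (c + C) * ((Fintype.card κ : ℝ) / (δ ^ 2 * N0)) :=
      mul_le_mul_of_nonneg_left h3 (by linarith)
    push_cast
    nlinarith

/-! ### Transfer to a given label vector -/

/-- Two label vectors agree up to a permutation outside a set of size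
`∑ (n_k - n'_k)^+`. -/
theorem exists_match {N : ℕ} (lab lab' : Fin N → κ) :
    ∃ σ : Equiv.Perm (Fin N),
      ((univ.filter fun i => lab (σ i) ≠ lab' i).card : ℝ) ≤
        ∑ k, |(cnt lab k : ℝ) - cnt lab' k| := by
  classical
  -- for every label an injection between the smaller class and the larger one
  have h1 : ∀ k, ∃ (A A' : Finset (Fin N)), (∀ i ∈ A, lab i = k) ∧ (∀ i ∈ A', lab' i = k) ∧
      A.card = min (cnt lab k) (cnt lab' k) ∧ A'.card = min (cnt lab k) (cnt lab' k) := by
    intro k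
    obtain ⟨A, hA, hA2⟩ := Finset.exists_subset_card_eq
      (s := univ.filter fun i => lab i = k) (n := min (cnt lab k) (cnt lab' k)) (min_le_left _ _)
    obtain ⟨A', hA', hA2'⟩ := Finset.exists_subset_card_eq
      (s := univ.filter fun i => lab' i = k) (n := min (cnt lab k) (cnt lab' k)) (min_le_right _ _)
    refine ⟨A, A', fun i hi => ?_, fun i hi => ?_, hA2, hA2'⟩
    · have := hA hi; simp only [mem_filter, mem_univ, true_and] at this; exact this
    · have := hA' hi; simp only [mem_filter, mem_univ, true_and] at this; exact this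
  choose A A' hA hA' hcA hcA' using h1
  have e : ∀ k, Nonempty (A' k ≃ A k) := by
    intro k
    refine ⟨Finset.equivOfCardEq ?_⟩
    rw [hcA, hcA']
  -- the union of the classes
  let B' : Finset (Fin N) := univ.filter fun i => i ∈ A' (lab' i)
  let B : Finset (Fin N) := univ.filter fun i => i ∈ A (lab i)
  have e0 : ∀ i : {i // i ∈ B'}, (i : Fin N) ∈ A' (lab' (i : Fin N)) := fun i => by
    have := i.2; simp only [B', mem_filter, mem_univ, true_and] at this; exact this
  -- the bijection between B' and B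
  let g : {i // i ∈ B'} → Fin N := fun i =>
    ((e (lab' (i : Fin N))).some ⟨(i : Fin N), e0 i⟩ : Fin N)
  have hg : ∀ i : {i // i ∈ B'}, g i ∈ A (lab' (i : Fin N)) := fun i =>
    ((e (lab' (i : Fin N))).some ⟨(i : Fin N), e0 i⟩).2
  have hglab : ∀ i : {i // i ∈ B'}, lab (g i) = lab' (i : Fin N) := fun i => hA _ _ (hg i)
  have hginj : Function.Injective g := by
    intro i j hij
    have hl : lab' (i : Fin N) = lab' (j : Fin N) := by rw [← hglab i, ← hglab j, hij]
    obtain ⟨i, hi⟩ := i
    obtain ⟨j, hj⟩ := j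
    have hi0 := e0 ⟨i, hi⟩
    have hj0 := e0 ⟨j, hj⟩
    simp only [g] at hij
    simp only at hl hi0 hj0
    have key : ∀ (k : κ) (h : i ∈ A' k), k = lab' i →
        (((e k).some ⟨i, h⟩ : A k) : Fin N) = ((e (lab' i)).some ⟨i, hi0⟩ : A (lab' i)) := by
      rintro k h rfl; rfl
    have h3 := key (lab' j) (by rw [← hl]; exact hi0) hl.symm
    rw [← h3] at hij
    have h4 := Subtype.ext hij
    have h5 := (e (lab' j)).some.injective h4
    exact Subtype.ext (Subtype.mk.inj h5)
  -- extend to a permutation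
  let T : Finset (Fin N) := univ.image g
  have hcard : Fintype.card {i // i ∈ B'} = T.card := by
    rw [Finset.card_image_of_injective _ hginj]; simp
  let f : {i // i ∈ B'} ≃ {i // i ∈ T} :=
    Equiv.ofBijective (fun i => ⟨g i, Finset.mem_image_of_mem _ (Finset.mem_univ _)⟩) (by
      constructor
      · intro i j hij
        exact hginj (congrArg Subtype.val hij)
      · rintro ⟨j, hj⟩
        obtain ⟨i, -, hi⟩ := Finset.mem_image.1 hj
        exact ⟨i, Subtype.ext hi⟩)
  let σ : Equiv.Perm (Fin N) := f.extendSubtype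
  have hσ : ∀ i (hi : i ∈ B'), σ i = g ⟨i, hi⟩ := by
    intro i hi
    show f.extendSubtype i = _
    rw [Equiv.extendSubtype_apply_of_mem f i hi]
    rfl
  refine ⟨σ, ?_⟩
  have hsub : (univ.filter fun i => lab (σ i) ≠ lab' i) ⊆ B'ᶜ := by
    intro i hi
    rw [Finset.mem_compl]
    intro hB
    simp only [mem_filter, mem_univ, true_and] at hi
    exact hi (by rw [hσ i hB, hglab])
  have hB'card : B'.card = ∑ k, min (cnt lab k) (cnt lab' k) := by
    have h2 : B' = univ.biUnion A' := by
      ext i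
      simp only [B', mem_filter, mem_univ, true_and, mem_biUnion]
      constructor
      · intro h; exact ⟨_, h⟩
      · rintro ⟨k, hk⟩; rw [hA' k i hk]; exact hk
    rw [h2, Finset.card_biUnion]
    · exact Finset.sum_congr rfl fun k _ => hcA' k
    · intro k _ l _ hkl
      rw [Function.onFun, Finset.disjoint_left]
      intro i hi hi'
      exact hkl ((hA' k i hi).symm.trans (hA' l i hi'))
  have hNsum : N = ∑ k, cnt lab' k := by
    have := Finset.card_eq_sum_card_fiberwise (f := lab') (s := univ) (t := univ)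
      (fun _ _ => Finset.mem_coe.2 (Finset.mem_univ _))
    simpa [cnt] using this
  have h6 : ((univ.filter fun i => lab (σ i) ≠ lab' i).card : ℝ) ≤ (B'ᶜ.card : ℝ) := by
    exact_mod_cast Finset.card_le_card hsub
  have h7 : ((B'ᶜ).card : ℝ) = N - B'.card := by
    rw [Finset.card_compl, Fintype.card_fin, Nat.cast_sub]
    have := Finset.card_le_univ B'
    simpa using this
  refine h6.trans ?_
  rw [h7, hB'card]
  have h8 : (N : ℝ) = ∑ k, (cnt lab' k : ℝ) := by exact_mod_cast hNsum
  rw [h8]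
  push_cast
  rw [← Finset.sum_sub_distrib]
  refine Finset.sum_le_sum fun k _ => ?_
  rcases le_total (cnt lab k : ℝ) (cnt lab' k : ℝ) with h | h
  · rw [min_eq_left h, abs_sub_comm]; exact le_abs_self _
  · rw [min_eq_right h, sub_self]; exact abs_nonneg _

/-- **transfer to a given label vector.** -/
theorem transfer (hα : ∀ k, 0 ≤ α k) (hs : ∑ k, α k = 1) {N : ℕ} (hN : 0 < N) {a δ Λ C : ℝ}
    (ha : ∀ k, a ≤ α k) (ha0 : 0 < a) (hδ : 0 < δ) (hδa : δ ≤ a / 2) (hΛ : 0 ≤ Λ) (hC : 0 ≤ C)
    {F : (Fin N → κ) → ℝ} (hperm : ∀ (σ : Equiv.Perm (Fin N)) lab, F (fun i => lab (σ i)) = F lab)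
    (hT : ∀ lab lab', F lab - Λ * ∑ i with lab i ≠ lab' i, (N : ℝ) / cnt lab (lab i) ≤ F lab')
    (hcr : ∀ lab lab', F lab - C * N ≤ F lab') {labE : Fin N → κ} (hE : Good α δ labE) :
    Psi α F - N * (Λ * (2 / a) * (2 * δ * Fintype.card κ)) -
      C * ((Fintype.card κ : ℝ) / δ ^ 2) ≤ F labE := by
  classical
  have hN' : (0 : ℝ) < N := by exact_mod_cast hN
  have h1 : ∀ lab : Fin N → κ, F lab - N * (Λ * (2 / a) * (2 * δ * Fintype.card κ)) -
      (C * N) * (if Good α δ lab then 0 else 1) ≤ F labE := by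
    intro lab
    split_ifs with h
    · obtain ⟨σ, hσ⟩ := exists_match lab labE
      have h2 := hT (fun i => lab (σ i)) labE
      rw [hperm σ lab] at h2
      have hcnt : ∀ k, cnt (fun i => lab (σ i)) k = cnt lab k := by
        intro k
        unfold cnt
        refine Finset.card_bij' (fun i _ => σ i) (fun i _ => σ.symm i) ?_ ?_ ?_ ?_ <;> simp
      have h3 : ∑ i with lab (σ i) ≠ labE i, (N : ℝ) / cnt (fun i => lab (σ i)) (lab (σ i)) ≤
          ((univ.filter fun i => lab (σ i) ≠ labE i).card : ℝ) * (2 / a) := by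
        rw [← nsmul_eq_mul]
        refine Finset.sum_le_card_nsmul _ _ _ fun i _ => ?_
        rw [hcnt]
        have h4 := (abs_le.1 (h (lab (σ i)))).1
        have h5 := ha (lab (σ i))
        have h6 : a / 2 * N ≤ (cnt lab (lab (σ i)) : ℝ) := by nlinarith
        have h7 : (0:ℝ) < cnt lab (lab (σ i)) := lt_of_lt_of_le (by positivity) h6
        rw [div_le_div_iff₀ h7 ha0]
        nlinarith
      have h8 : ∑ k, |(cnt lab k : ℝ) - cnt labE k| ≤ 2 * δ * N * Fintype.card κ := by
        calc _ ≤ ∑ _k : κ, 2 * δ * N := by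
              refine Finset.sum_le_sum fun k _ => ?_
              have e : (cnt lab k : ℝ) - cnt labE k =
                  ((cnt lab k : ℝ) - N * α k) - ((cnt labE k : ℝ) - N * α k) := by ring
              rw [e]
              refine (abs_sub _ _).trans ?_
              linarith [h k, hE k]
          _ = _ := by rw [Finset.sum_const, Finset.card_univ, nsmul_eq_mul]; ring
      have h9 : Λ * ∑ i with lab (σ i) ≠ labE i, (N : ℝ) / cnt (fun i => lab (σ i)) (lab (σ i)) ≤
          N * (Λ * (2 / a) * (2 * δ * Fintype.card κ)) := by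
        calc _ ≤ Λ * ((2 * δ * N * Fintype.card κ) * (2 / a)) := by
              refine mul_le_mul_of_nonneg_left (h3.trans ?_) hΛ
              exact mul_le_mul_of_nonneg_right (hσ.trans h8) (by positivity)
          _ = _ := by ring
      have h2' : F lab - Λ * ∑ i with lab (σ i) ≠ labE i,
          (N : ℝ) / cnt (fun i => lab (σ i)) (lab (σ i)) ≤ F labE := h2
      linarith
    · have h2 := hcr lab labE
      have h3 : 0 ≤ N * (Λ * (2 / a) * (2 * δ * Fintype.card κ)) := by positivity
      linarith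
  have h2 := Psi_mono hα h1
  rw [Psi_const hs, Psi_sub, Psi_sub, Psi_const hs, Psi_smul] at h2
  have h3 := mul_le_mul_of_nonneg_left (bad_mass hα hs hδ hN) (by positivity : 0 ≤ C * N)
  have e : C * N * ((Fintype.card κ : ℝ) / (δ ^ 2 * N)) = C * ((Fintype.card κ : ℝ) / δ ^ 2) := by
    field_simp
  rw [e] at h3
  linarith

end

end Crest.Agent.R164.LabAvg
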