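import Crest.Agent.R164.OvConc
import Crest.Agent.R164.RotRel2

/-!
Row 164, module OvConc, averaged version: good cells in windows and hypothesis (conc) of
`RotRel.rel_spin` (`eC`) from the concentration of the field observables.
-/

set_option autoImplicit false

namespace Crest.Agent.R164.OvC

open Finset MeasureTheory Crest.Agent.R141
open Crest.Agent.R164.RotRel (rr rr_nonneg eC dav dav_add dav_smul dav_const dav_mono)

noncomputable section

section gen

variable {N : ℕ} {D : Type*} [Fintype D]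

theorem dav_nonneg {q : D → ℝ} (hq0 : ∀ d, 0 ≤ q d) (ν : Measure (Fin N → Fin N → ℝ))
    {f : D → (Fin N → Fin N → ℝ) → ℝ} (h : ∀ d U, 0 ≤ f d U) : 0 ≤ dav q ν f :=
  Finset.sum_nonneg fun d _ => mul_nonneg (hq0 d) (integral_nonneg (h d))

theorem dav_sum {q : D → ℝ} {ν : Measure (Fin N → Fin N → ℝ)} {γ : Type*} (s : Finset γ)
    {f : γ → D → (Fin N → Fin N → ℝ) → ℝ} (hf : ∀ c ∈ s, ∀ d, Integrable (f c d) ν) :
    dav q ν (fun d U => ∑ c ∈ s, f c d U) = ∑ c ∈ s, dav q ν (f c) := by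
  unfold dav
  rw [Finset.sum_comm]
  refine Finset.sum_congr rfl fun d _ => ?_
  rw [integral_finsetSum _ fun c hc => hf c hc d, Finset.mul_sum]

theorem dav_sub {q : D → ℝ} {ν : Measure (Fin N → Fin N → ℝ)}
    {f g : D → (Fin N → Fin N → ℝ) → ℝ} (hf : ∀ d, Integrable (f d) ν)
    (hg : ∀ d, Integrable (g d) ν) :
    dav q ν (fun d U => f d U - g d U) = dav q ν f - dav q ν g := by
  unfold dav
  rw [← Finset.sum_sub_distrib]
  refine Finset.sum_congr rfl fun d _ => ?_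
  rw [integral_sub (hf d) (hg d), mul_sub]

theorem abs_dav_le {q : D → ℝ} (hq0 : ∀ d, 0 ≤ q d) {ν : Measure (Fin N → Fin N → ℝ)}
    (f : D → (Fin N → Fin N → ℝ) → ℝ) : |dav q ν f| ≤ dav q ν (fun d U => |f d U|) := by
  unfold dav
  refine (Finset.abs_sum_le_sum_abs _ _).trans (Finset.sum_le_sum fun d _ => ?_)
  rw [abs_mul, abs_of_nonneg (hq0 d)]
  refine mul_le_mul_of_nonneg_left ?_ (hq0 d)
  exact abs_integral_le_integral_abs

end gen

variable {Ω ι : Type*} [Fintype Ω] {𝓕 : Filt Ω} {N : ℕ} {D κ : Type*} [Fintype D] [Fintype κ]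

/-- from `c` to the mean value. -/
theorem dav_center {q : D → ℝ} (hq0 : ∀ d, 0 ≤ q d) (hq1 : ∑ d, q d = 1)
    {ν : Measure (Fin N → Fin N → ℝ)} [IsProbabilityMeasure ν]
    {Q : D → (Fin N → Fin N → ℝ) → Ω → ℝ} (hQ : ∀ d U, IsProb (Q d U))
    {R : D → (Fin N → Fin N → ℝ) → Ω → ℝ}
    (hR : ∀ d, Integrable (fun U => eE (Q d U) (R d U)) ν)
    (hRa : ∀ d (c : ℝ), Integrable (fun U => eE (Q d U) (fun ω => |R d U ω - c|)) ν)
    (c : ℝ) :
    dav q ν (fun d U => eE (Q d U) (fun ω => |R d U ω - dav q ν (fun d U => eE (Q d U) (R d U))|))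
      ≤ 2 * dav q ν (fun d U => eE (Q d U) (fun ω => |R d U ω - c|)) := by
  set Γ := dav q ν (fun d U => eE (Q d U) (R d U)) with hΓ
  have h1 : |Γ - c| ≤ dav q ν (fun d U => eE (Q d U) (fun ω => |R d U ω - c|)) := by
    have e1 : Γ - c = dav q ν (fun d U => eE (Q d U) (fun ω => R d U ω - c)) := by
      have e2 : (fun (d : D) (U : Fin N → Fin N → ℝ) => eE (Q d U) (fun ω => R d U ω - c)) =
          fun d U => eE (Q d U) (R d U) - c := by
        funext d U
        rw [eE_sub, eE_const (hQ d U)]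
      rw [e2, dav_sub hR (fun _ => integrable_const _), dav_const hq1]
    rw [e1]
    refine (abs_dav_le hq0 _).trans ?_
    refine dav_mono hq0 (fun d => ?_) (fun d => hRa d c) (fun d => ?_)
    · have e3 : (fun U => |eE (Q d U) (fun ω => R d U ω - c)|) =
          fun U => |eE (Q d U) (R d U) - c| := by
        funext U; rw [eE_sub, eE_const (hQ d U)]
      rw [e3]
      exact ((hR d).sub (integrable_const _)).abs
    · exact Filter.Eventually.of_forall fun U => Crest.Agent.R141.eE_abs_le (hQ d U) _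
  have h2 : dav q ν (fun d U => eE (Q d U) (fun ω => |R d U ω - Γ|)) ≤
      dav q ν (fun d U => eE (Q d U) (fun ω => |R d U ω - c|) + |Γ - c|) := by
    refine dav_mono hq0 (fun d => hRa d Γ) (fun d => (hRa d c).add (integrable_const _))
      (fun d => Filter.Eventually.of_forall fun U => ?_)
    have h3 : eE (Q d U) (fun ω => |R d U ω - Γ|) ≤
        eE (Q d U) (fun ω => |R d U ω - c| + |Γ - c|) := by
      refine eE_mono (hQ d U) fun ω => ?_
      have e : R d U ω - Γ = (R d U ω - c) - (Γ - c) := by ring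
      rw [e]
      exact abs_sub _ _
    rwa [eE_add, eE_const (hQ d U)] at h3
  rw [dav_add (fun d => hRa d c) (fun _ => integrable_const _), dav_const hq1] at h2
  linarith

/-- The data of the averaged statement. -/
structure Data (q : D → ℝ) (ν : Measure (Fin N → Fin N → ℝ))
    (Q : D → (Fin N → Fin N → ℝ) → Ω → ℝ) (𝓕 : Filt Ω) (X : (Fin N → Fin N → ℝ) → ι → Ω → ℝ)
    (B : κ → Finset ι) (nc : ℕ) (st : ℕ → ℕ) (O : κ → ℕ → (Fin N → Fin N → ℝ) → Ω → ℝ)
    (kap dd : κ → ℕ → ℝ) (nN K κ0 e err : ℝ) : Prop where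
  q0 : ∀ d, 0 ≤ q d
  q1 : ∑ d, q d = 1
  prob : ∀ d U, IsProb (Q d U)
  nc0 : 0 < nc
  nN0 : 0 < nN
  card0 : ∀ k, 0 < (B k).card
  hK : ∀ k, nN ≤ K * (B k).card
  sq : ∀ᵐ U ∂ν, ∀ k ω, ∑ i ∈ B k, X U i ω ^ 2 ≤ nN
  st_mono : Monotone st
  κ0pos : 0 < κ0
  hkap : ∀ k g, κ0 ≤ kap k g
  e0 : 0 ≤ e
  err0 : 0 ≤ err
  /-- integration by parts with `f = 1` -/
  ibp : ∀ d, ∀ᵐ U ∂ν, ∀ k g, g < nc → ∀ l, l < st (g + 1) → ∀ ω,
    |cE (Q d U) (𝓕.F l) (O k g U) ω - kap k g * cE (Q d U) (𝓕.F l)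
      (Tg (X U) (Q d U) 𝓕 (B k) nN ((nc : ℝ) + 1)⁻¹ (fun g => st (g + 1)) nc g) ω| ≤ err
  /-- integration by parts with the sign function, last cell, level `0` -/
  ibpL : ∀ d, ∀ᵐ U ∂ν, ∀ k ω,
    |cE (Q d U) (𝓕.F 0) (fun a => O k (nc - 1) U a *
        sg (dd k (nc - 1) / kap k (nc - 1)) (Sq (X U) (B k) nN) a) ω -
      kap k (nc - 1) * cE (Q d U) (𝓕.F 0) (fun a =>
        sg (dd k (nc - 1) / kap k (nc - 1)) (Sq (X U) (B k) nN) a *
        Tg (X U) (Q d U) 𝓕 (B k) nN ((nc : ℝ) + 1)⁻¹ (fun g => st (g + 1)) nc (nc - 1) a) ω| ≤ err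
  /-- concentration of the field observables -/
  conc : ∀ k g, g < nc → dav q ν (fun d U => eE (Q d U) (fun ω => |O k g U ω - dd k g|)) ≤ e
  intO : ∀ d k g, Integrable (fun U => eE (Q d U) (fun ω => |O k g U ω - dd k g|)) ν
  intR : ∀ d k l, Integrable (fun U => eE (Q d U) (rr (X U) (Q d U) 𝓕 (B k) l)) ν
  intRa : ∀ d k l (c : ℝ),
    Integrable (fun U => eE (Q d U) (fun ω => |rr (X U) (Q d U) 𝓕 (B k) l ω - c|)) ν

section main

variable {q : D → ℝ} {ν : Measure (Fin N → Fin N → ℝ)} [IsProbabilityMeasure ν]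
  {Q : D → (Fin N → Fin N → ℝ) → Ω → ℝ} {X : (Fin N → Fin N → ℝ) → ι → Ω → ℝ}
  {B : κ → Finset ι} {nc : ℕ} {st : ℕ → ℕ} {O : κ → ℕ → (Fin N → Fin N → ℝ) → Ω → ℝ}
  {kap dd : κ → ℕ → ℝ} {nN K κ0 e err : ℝ}

/-- mean of the overlap of block `k` at level `l`. -/
def Rm (q : D → ℝ) (ν : Measure (Fin N → Fin N → ℝ)) (Q : D → (Fin N → Fin N → ℝ) → Ω → ℝ)
    (𝓕 : Filt Ω) (X : (Fin N → Fin N → ℝ) → ι → Ω → ℝ) (B : κ → Finset ι) (k : κ)
    (l : D → ℕ) : ℝ :=
  dav q ν (fun d U => eE (Q d U) (rr (X U) (Q d U) 𝓕 (B k) (l d)))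

/-- mean concentration error of the overlap of block `k` at level `l`. -/
def Cm (q : D → ℝ) (ν : Measure (Fin N → Fin N → ℝ)) (Q : D → (Fin N → Fin N → ℝ) → Ω → ℝ)
    (𝓕 : Filt Ω) (X : (Fin N → Fin N → ℝ) → ι → Ω → ℝ) (B : κ → Finset ι) (k : κ)
    (l : D → ℕ) (c : ℝ) : ℝ :=
  dav q ν (fun d U => eE (Q d U) (fun ω => |rr (X U) (Q d U) 𝓕 (B k) (l d) ω - c|))

omit [Fintype κ] [IsProbabilityMeasure ν] in
theorem Data.K0 (h : Data q ν Q 𝓕 X B nc st O kap dd nN K κ0 e err) [Nonempty κ] : 0 < K := by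
  obtain ⟨k⟩ := ‹Nonempty κ›
  have h1 := h.hK k
  have h2 : (0 : ℝ) < (B k).card := by exact_mod_cast h.card0 k
  by_contra hc
  push Not at hc
  nlinarith [h.nN0]

omit [Fintype κ] [IsProbabilityMeasure ν] in
theorem Data.quot_le (h : Data q ν Q 𝓕 X B nc st O kap dd nN K κ0 e err) (k : κ) :
    nN / (B k).card ≤ K := by
  have h2 : (0 : ℝ) < (B k).card := by exact_mod_cast h.card0 k
  rw [div_le_iff₀ h2]
  exact h.hK k

omit [Fintype κ] in
theorem Rm_mono (h : Data q ν Q 𝓕 X B nc st O kap dd nN K κ0 e err) (k : κ) {l l' : D → ℕ}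
    (hl : ∀ d, l d ≤ l' d) : Rm q ν Q 𝓕 X B k l ≤ Rm q ν Q 𝓕 X B k l' :=
  dav_mono h.q0 (fun d => h.intR d k (l d)) (fun d => h.intR d k (l' d))
    (fun d => Filter.Eventually.of_forall fun U => eE_rr_mono (X U) (h.prob d U) _ (hl d))

omit [Fintype κ] [IsProbabilityMeasure ν] in
theorem Rm_nonneg (h : Data q ν Q 𝓕 X B nc st O kap dd nN K κ0 e err) (k : κ) (l : D → ℕ) :
    0 ≤ Rm q ν Q 𝓕 X B k l :=
  dav_nonneg h.q0 ν fun d U => eE_nonneg (h.prob d U) fun _ => rr_nonneg (X U) _ _ _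

omit [Fintype κ] in
theorem Rm_le (h : Data q ν Q 𝓕 X B nc st O kap dd nN K κ0 e err) (k : κ) (l : D → ℕ) :
    Rm q ν Q 𝓕 X B k l ≤ K := by
  have h1 : Rm q ν Q 𝓕 X B k l ≤ dav q ν (fun _ _ => K) := by
    refine dav_mono h.q0 (fun d => h.intR d k (l d)) (fun d => integrable_const _) (fun d => ?_)
    filter_upwards [h.sq] with U hU
    refine eE_le_of_le (h.prob d U) fun ω => ?_
    refine RotRel.rr_le (X U) (h.prob d U) (h.card0 k) (fun ω => ?_) _ ω
    exact (hU k ω).trans (h.hK k)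
  rwa [dav_const h.q1] at h1

omit [Fintype κ] in
/-- (O2)+(O3) averaged: one cell, one block. -/
theorem cell_conc (h : Data q ν Q 𝓕 X B nc st O kap dd nN K κ0 e err) (k : κ) {g : ℕ}
    (hg : g + 1 < nc) {lev : D → ℕ} (hlev : ∀ d, st g ≤ lev d ∧ lev d < st (g + 1)) :
    ∃ c : ℝ, Cm q ν Q 𝓕 X B k lev c ≤ (K * ((nc : ℝ) + 1)) * (2 * ((e + err) / κ0)) +
      (Rm q ν Q 𝓕 X B k (fun _ => st (g + 1)) - Rm q ν Q 𝓕 X B k (fun _ => st g)) := by
  have : Nonempty κ := ⟨k⟩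
  have hK0 := h.K0
  have hBc : (0 : ℝ) < (B k).card := by exact_mod_cast h.card0 k
  set w0 : ℝ := ((nc : ℝ) + 1)⁻¹ with hw0
  have hw0p : 0 < w0 := by rw [hw0]; positivity
  set c : ℝ := (nN / ((B k).card * w0)) * (dd k (g + 1) / kap k (g + 1) - dd k g / kap k g) with hc
  have hcf : nN / ((B k).card * w0) ≤ K * ((nc : ℝ) + 1) := by
    have e1 : nN / ((B k).card * w0) = (nN / (B k).card) * ((nc : ℝ) + 1) := by
      rw [hw0]; field_simp
    rw [e1]
    exact mul_le_mul_of_nonneg_right (h.quot_le k) (by positivity)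
  have hkg : 0 < kap k g := lt_of_lt_of_le h.κ0pos (h.hkap k g)
  have hkg' : 0 < kap k (g + 1) := lt_of_lt_of_le h.κ0pos (h.hkap k (g + 1))
  refine ⟨c, ?_⟩
  set E : D → (Fin N → Fin N → ℝ) → ℕ → ℝ := fun d U g =>
    eE (Q d U) (fun ω => |O k g U ω - dd k g|) with hE
  have hE0 : ∀ d U g, 0 ≤ E d U g := fun d U g => eE_nonneg (h.prob d U) fun _ => abs_nonneg _
  have key : ∀ d, ∀ᵐ U ∂ν,
      eE (Q d U) (fun ω => |rr (X U) (Q d U) 𝓕 (B k) (lev d) ω - c|) ≤
        (K * ((nc : ℝ) + 1)) * ((E d U g + err) / κ0 + (E d U (g + 1) + err) / κ0) +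
        (eE (Q d U) (rr (X U) (Q d U) 𝓕 (B k) (st (g + 1))) -
          eE (Q d U) (rr (X U) (Q d U) 𝓕 (B k) (st g))) := by
    intro d
    filter_upwards [h.ibp d] with U hU
    have hle : lev d ≤ st (g + 1) := (hlev d).2.le
    have h3 := O3 (𝓕 := 𝓕) (X U) (h.prob d U) (B k) hle c
    have h2 := O2 (𝓕 := 𝓕) (X U) (h.prob d U) (B k) (h.card0 k) h.nN0 hw0p
      (fun g => st (g + 1)) (nc := nc) (g := g) (l := lev d)
      (fun g' h1 _ => hle.trans (h.st_mono (by omega))) (by omega)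
      (D := O k g U) (D' := O k (g + 1) U) hkg hkg' (dd k g) (dd k (g + 1))
      (hU k g (by omega) (lev d) (hlev d).2)
      (hU k (g + 1) hg (lev d) (lt_of_lt_of_le (hlev d).2 (h.st_mono (by omega))))
    have h4 : (nN / ((B k).card * w0)) * ((E d U g + err) / kap k g +
        (E d U (g + 1) + err) / kap k (g + 1)) ≤
        (K * ((nc : ℝ) + 1)) * ((E d U g + err) / κ0 + (E d U (g + 1) + err) / κ0) := by
      have a1 : (E d U g + err) / kap k g ≤ (E d U g + err) / κ0 :=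
        div_le_div_of_nonneg_left (add_nonneg (hE0 d U g) h.err0) h.κ0pos (h.hkap k g)
      have a2 : (E d U (g + 1) + err) / kap k (g + 1) ≤ (E d U (g + 1) + err) / κ0 :=
        div_le_div_of_nonneg_left (add_nonneg (hE0 d U (g + 1)) h.err0) h.κ0pos
          (h.hkap k (g + 1))
      refine mul_le_mul hcf (add_le_add a1 a2) ?_ (by positivity)
      exact add_nonneg (div_nonneg (add_nonneg (hE0 d U g) h.err0) hkg.le)
        (div_nonneg (add_nonneg (hE0 d U (g + 1)) h.err0) hkg'.le)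
    have h5 := eE_rr_mono (𝓕 := 𝓕) (X U) (h.prob d U) (B k) (hlev d).1
    linarith
  have hEi : ∀ d g, Integrable (fun U => E d U g) ν := fun d g => h.intO d k g
  have h6 : Cm q ν Q 𝓕 X B k lev c ≤ dav q ν (fun d U =>
      (K * ((nc : ℝ) + 1)) * ((E d U g + err) / κ0 + (E d U (g + 1) + err) / κ0) +
        (eE (Q d U) (rr (X U) (Q d U) 𝓕 (B k) (st (g + 1))) -
          eE (Q d U) (rr (X U) (Q d U) 𝓕 (B k) (st g)))) := by
    refine dav_mono h.q0 (fun d => h.intRa d k (lev d) c) (fun d => ?_) key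
    exact (((((hEi d g).add (integrable_const _)).div_const _).add
      (((hEi d (g + 1)).add (integrable_const _)).div_const _)).const_mul _).add
      ((h.intR d k _).sub (h.intR d k _))
  refine h6.trans ?_
  have hi1 : ∀ d, Integrable (fun U => E d U g + err) ν := fun d =>
    (hEi d g).add (integrable_const _)
  have hi2 : ∀ d, Integrable (fun U => E d U (g + 1) + err) ν := fun d =>
    (hEi d (g + 1)).add (integrable_const _)
  have hi3 : ∀ d, Integrable (fun U => (K * ((nc : ℝ) + 1)) * ((E d U g + err) / κ0 +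
      (E d U (g + 1) + err) / κ0)) ν := fun d =>
    (((hi1 d).div_const _).add ((hi2 d).div_const _)).const_mul _
  have hi4 : ∀ d, Integrable (fun U => eE (Q d U) (rr (X U) (Q d U) 𝓕 (B k) (st (g + 1))) -
      eE (Q d U) (rr (X U) (Q d U) 𝓕 (B k) (st g))) ν := fun d =>
    (h.intR d k _).sub (h.intR d k _)
  rw [dav_add hi3 hi4, dav_smul, dav_sub (fun d => h.intR d k _) (fun d => h.intR d k _),
    dav_add (fun d => (hi1 d).div_const _) (fun d => (hi2 d).div_const _)]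
  have h7 : ∀ g, g < nc → dav q ν (fun d U => (E d U g + err) / κ0) ≤ (e + err) / κ0 := by
    intro g hg
    have e1 : (fun (d : D) (U : Fin N → Fin N → ℝ) => (E d U g + err) / κ0) =
        fun d U => κ0⁻¹ * (E d U g + err) := by funext d U; rw [div_eq_inv_mul]
    rw [e1, dav_smul, dav_add (fun d => hEi d g) (fun _ => integrable_const _),
      dav_const h.q1, div_eq_inv_mul]
    refine mul_le_mul_of_nonneg_left ?_ (inv_pos.2 h.κ0pos).le
    have := h.conc k g hg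
    linarith
  have h8 := h7 g (by omega)
  have h9 := h7 (g + 1) hg
  unfold Rm
  have h10 : (K * ((nc : ℝ) + 1)) * (dav q ν (fun d U => (E d U g + err) / κ0) +
      dav q ν (fun d U => (E d U (g + 1) + err) / κ0)) ≤
      (K * ((nc : ℝ) + 1)) * (2 * ((e + err) / κ0)) :=
    mul_le_mul_of_nonneg_left (by linarith) (by positivity)
  linarith

omit [Fintype κ] in
/-- (O4) averaged: the leaf. -/
theorem leaf_conc (h : Data q ν Q 𝓕 X B nc st O kap dd nN K κ0 e err) (k : κ) :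
    ∃ c : ℝ, Cm q ν Q 𝓕 X B k (fun _ => 𝓕.L) c ≤
      K * ((e + err) / κ0 + ((nc : ℝ) + 1)⁻¹) := by
  have : Nonempty κ := ⟨k⟩
  have hK0 := h.K0
  have hBc : (0 : ℝ) < (B k).card := by exact_mod_cast h.card0 k
  set w0 : ℝ := ((nc : ℝ) + 1)⁻¹ with hw0
  have hw0p : 0 < w0 := by rw [hw0]; positivity
  have hg : nc - 1 < nc := by have := h.nc0; omega
  have hkg : 0 < kap k (nc - 1) := lt_of_lt_of_le h.κ0pos (h.hkap k _)
  refine ⟨(nN / (B k).card) * (dd k (nc - 1) / kap k (nc - 1)), ?_⟩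
  set E : D → (Fin N → Fin N → ℝ) → ℝ := fun d U =>
    eE (Q d U) (fun ω => |O k (nc - 1) U ω - dd k (nc - 1)|) with hE
  have hE0 : ∀ d U, 0 ≤ E d U := fun d U => eE_nonneg (h.prob d U) fun _ => abs_nonneg _
  have key : ∀ d, ∀ᵐ U ∂ν,
      eE (Q d U) (fun ω => |rr (X U) (Q d U) 𝓕 (B k) 𝓕.L ω -
        (nN / (B k).card) * (dd k (nc - 1) / kap k (nc - 1))|) ≤
        K * ((E d U + err) / κ0 + w0) := by
    intro d
    filter_upwards [h.ibpL d, h.sq] with U hU hS
    have h4 := O4' (𝓕 := 𝓕) (X U) (h.prob d U) (B k) h.nN0 hw0p.le (fun g => st (g + 1))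
      (nc := nc) (g := nc - 1) (l := 0) (D := O k (nc - 1) U) hkg (dd k (nc - 1)) (hU k)
    refine h4.trans ?_
    have h5 : eE (Q d U) (Sq (X U) (B k) nN) ≤ 1 := by
      refine eE_le_of_le (h.prob d U) fun ω => ?_
      unfold Sq
      rw [inv_mul_le_iff₀ h.nN0, mul_one]
      exact hS k ω
    have h6 : ((nc - (nc - 1) : ℕ) : ℝ) = 1 := by
      have : nc - (nc - 1) = 1 := by have := h.nc0; omega
      rw [this]; norm_num
    rw [h6, mul_one]
    have a1 : (E d U + err) / kap k (nc - 1) ≤ (E d U + err) / κ0 :=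
      div_le_div_of_nonneg_left (add_nonneg (hE0 d U) h.err0) h.κ0pos (h.hkap k _)
    have a2 : 0 ≤ eE (Q d U) (Sq (X U) (B k) nN) := eE_Sq_nonneg (X U) (h.prob d U) _ h.nN0
    refine mul_le_mul (h.quot_le k) ?_ ?_ hK0.le
    · have : w0 * eE (Q d U) (Sq (X U) (B k) nN) ≤ w0 * 1 :=
        mul_le_mul_of_nonneg_left h5 hw0p.le
      linarith
    · exact add_nonneg (div_nonneg (add_nonneg (hE0 d U) h.err0) hkg.le)
        (mul_nonneg hw0p.le a2)
  have hEi : ∀ d, Integrable (fun U => E d U) ν := fun d => h.intO d k _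
  have h6 : Cm q ν Q 𝓕 X B k (fun _ => 𝓕.L)
      ((nN / (B k).card) * (dd k (nc - 1) / kap k (nc - 1))) ≤
      dav q ν (fun d U => K * ((E d U + err) / κ0 + w0)) := by
    refine dav_mono h.q0 (fun d => h.intRa d k _ _) (fun d => ?_) key
    exact ((((hEi d).add (integrable_const _)).div_const _).add (integrable_const _)).const_mul _
  refine h6.trans ?_
  have e1 : (fun (d : D) (U : Fin N → Fin N → ℝ) => K * ((E d U + err) / κ0 + w0)) =
      fun d U => (K / κ0) * E d U + K * (err / κ0 + w0) := by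
    funext d U
    have := h.κ0pos.ne'
    field_simp
    ring
  rw [e1, dav_add (fun d => (hEi d).const_mul _) (fun _ => integrable_const _), dav_smul,
    dav_const h.q1]
  have h7 := h.conc k (nc - 1) hg
  have h8 : (K / κ0) * dav q ν (fun d U => E d U) ≤ (K / κ0) * e :=
    mul_le_mul_of_nonneg_left h7 (div_nonneg hK0.le h.κ0pos.le)
  refine (add_le_add_left h8 _).trans (le_of_eq ?_)
  have := h.κ0pos.ne'
  field_simp
  ring

/-- the total error of `avg_conc` (for one level below the leaf). -/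
def errC (nκ nc w : ℕ) (K κ0 e err : ℝ) : ℝ :=
  (K * ((nc : ℝ) + 1)) * (2 * ((e + err) / κ0)) + nκ * K / w

/-- **Good cells**: in every window `a b ≤ g < a b + w` there is a cell, the same for all blocks,
such that for all levels inside the cell (depending on the outer randomness `d`, not on `U`) all
block overlaps concentrate. -/
theorem good_cells (h : Data q ν Q 𝓕 X B nc st O kap dd nN K κ0 e err) (a : ℕ → ℕ) {w : ℕ}
    (hw : 0 < w) {J : ℕ} (ha : ∀ b, b < J → a b + w < nc) :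
    ∃ cell : ℕ → ℕ, (∀ b, b < J → a b ≤ cell b ∧ cell b < a b + w) ∧
      ∀ b, b < J → ∀ (k : κ) (lev : D → ℕ),
        (∀ d, st (cell b) ≤ lev d ∧ lev d < st (cell b + 1)) →
        ∃ c, Cm q ν Q 𝓕 X B k lev c ≤ errC (Fintype.card κ) nc w K κ0 e err := by
  classical
  have hV := fun b => pigeon (Finset.univ : Finset κ)
    (fun k g => Rm q ν Q 𝓕 X B k (fun _ => st g)) (fun _ => K)
    (fun k _ g => Rm_nonneg h k _) (fun k _ g => Rm_le h k _) (a b) hw
  choose cell hc1 hc2 hc3 using hV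
  refine ⟨cell, fun b _ => ⟨hc1 b, hc2 b⟩, ?_⟩
  intro b hb k lev hlev
  obtain ⟨c, hc⟩ := cell_conc h k (g := cell b) (by have := ha b hb; have := hc2 b; omega) hlev
  refine ⟨c, hc.trans ?_⟩
  unfold errC
  have h1 : Rm q ν Q 𝓕 X B k (fun _ => st (cell b + 1)) - Rm q ν Q 𝓕 X B k (fun _ => st (cell b))
      ≤ ∑ k, (Rm q ν Q 𝓕 X B k (fun _ => st (cell b + 1)) -
        Rm q ν Q 𝓕 X B k (fun _ => st (cell b))) :=
    Finset.single_le_sum (f := fun k => Rm q ν Q 𝓕 X B k (fun _ => st (cell b + 1)) -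
        Rm q ν Q 𝓕 X B k (fun _ => st (cell b)))
      (fun k _ => sub_nonneg.mpr (Rm_mono h k fun _ => h.st_mono (Nat.le_succ _)))
      (Finset.mem_univ k)
  have h2 := hc3 b
  rw [Finset.sum_const, Finset.card_univ, nsmul_eq_mul] at h2
  linarith

/-- **(conc)**: hypothesis `eC` of `RotRel.rel_spin` with `Γ = ` the mean overlaps. -/
theorem avg_conc (h : Data q ν Q 𝓕 X B nc st O kap dd nN K κ0 e err) (a : ℕ → ℕ) {w : ℕ}
    (hw : 0 < w) {J : ℕ} (ha : ∀ b, b < J → a b + w < nc) (lev : ℕ → D → ℕ)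
    (hlev : ∀ g d, g < nc → st g ≤ lev g d ∧ lev g d < st (g + 1)) :
    ∃ cell : ℕ → ℕ, (∀ b, b < J → a b ≤ cell b ∧ cell b < a b + w) ∧
      ∀ τ : D → ℕ → ℕ, (∀ d b, b < J → τ d b = lev (cell b) d) → (∀ d, τ d J = 𝓕.L) → ∀ k,
        dav q ν (fun d U => eC (X U) (Q d U) 𝓕 (B k) (τ d) J
          (fun b => Rm q ν Q 𝓕 X B k (fun d => τ d b))) ≤
        2 * (J * errC (Fintype.card κ) nc w K κ0 e err +
          K * ((e + err) / κ0 + ((nc : ℝ) + 1)⁻¹)) := by
  obtain ⟨cell, hc1, hc2⟩ := good_cells h a hw ha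
  refine ⟨cell, hc1, ?_⟩
  intro τ hτ hτJ k
  unfold eC
  rw [dav_sum _ fun b _ d => h.intRa d k (τ d b) _]
  have hcen : ∀ b (c : ℝ), dav q ν (fun d U => eE (Q d U) (fun ω =>
      |rr (X U) (Q d U) 𝓕 (B k) (τ d b) ω - Rm q ν Q 𝓕 X B k (fun d => τ d b)|)) ≤
      2 * Cm q ν Q 𝓕 X B k (fun d => τ d b) c := fun b c =>
    dav_center h.q0 h.q1 h.prob (R := fun d U => rr (X U) (Q d U) 𝓕 (B k) (τ d b))
      (fun d => h.intR d k _) (fun d c => h.intRa d k _ c) c
  rw [Finset.sum_range_succ, mul_add]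
  refine add_le_add ?_ ?_
  · have h1 : ∀ b ∈ range J, dav q ν (fun d U => eE (Q d U) (fun ω =>
        |rr (X U) (Q d U) 𝓕 (B k) (τ d b) ω - Rm q ν Q 𝓕 X B k (fun d => τ d b)|)) ≤
        2 * errC (Fintype.card κ) nc w K κ0 e err := by
      intro b hb
      rw [Finset.mem_range] at hb
      obtain ⟨c, hc⟩ := hc2 b hb k (fun d => τ d b) (fun d => by
        rw [hτ d b hb]
        exact hlev _ d (by have := ha b hb; have := (hc1 b hb).2; omega))
      exact (hcen b c).trans (by linarith)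
    refine (Finset.sum_le_sum h1).trans (le_of_eq ?_)
    rw [Finset.sum_const, Finset.card_range, nsmul_eq_mul]
    ring
  · obtain ⟨c, hc⟩ := leaf_conc h k
    have e1 : (fun d => τ d J) = fun _ => 𝓕.L := funext hτJ
    refine (hcen J c).trans ?_
    rw [e1]
    linarith

end main

end

end Crest.Agent.R164.OvC
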