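import Crest.Agent.R164.Atomic2

/-!
Row 164: the Parisi algebra, analytic half: `b(x)`, `R(x)`, `Ψ(x)` for a finitely supported law.
-/

set_option autoImplicit false

namespace Crest.Agent.R164.PAlg

open MeasureTheory Crest.ProbabilityR.InvariantGlass Set Filter Topology
open Crest.Agent.R164.RTrans Crest.Agent.R164.Atomic

noncomputable section

variable {K : ℕ} (w val : Fin (K + 1) → ℝ)

/-- `b(x)` -/
def bb (x : ℝ) : ℝ := resolventPoint (atomic w val) (val (Fin.last K)) x

/-- `R(x)` -/
def RR (x : ℝ) : ℝ := rTransform (atomic w val) (val (Fin.last K)) x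

/-- `Σ w_k (b - λ_k)^{-2}` -/
def g2 (b : ℝ) : ℝ := ∑ k, w k * ((b - val k)⁻¹) ^ 2

/-- `R'(x)` for `x > 0`. -/
def RD (x : ℝ) : ℝ := (x ^ 2)⁻¹ - (g2 w val (bb w val x))⁻¹

/-- `Ψ(x) = -½ Σ w_k log (x (b(x) - λ_k))`. -/
def Psi (x : ℝ) : ℝ := -(1 / 2) * ∑ k, w k * Real.log (x * (bb w val x - val k))

variable {w val}

theorem atomic_G (hw : ∀ k, 0 < w k) (b : ℝ) :
    G (atomic w val) b = ∑ k, w k * (b - val k)⁻¹ := by
  unfold G
  exact atomic_integral val (fun k => (hw k).le) _

section

variable (hv : StrictMono val) (hw : ∀ k, 0 < w k) (hs : ∑ k, w k = 1)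
include hv hw hs

theorem supp : (atomic w val) (Icc (val 0) (val (Fin.last K))) = 1 :=
  atomic_supp (fun k => (hw k).le) hs
    (fun k => ⟨hv.monotone (Fin.zero_le _), hv.monotone (Fin.le_last _)⟩)

theorem bb_spec {x : ℝ} (hx : 0 < x) :
    val (Fin.last K) < bb w val x ∧ ∑ k, w k * (bb w val x - val k)⁻¹ = x := by
  have := atomic_prob (w := w) val (fun k => (hw k).le) hs
  rcases rp_cases (supp hv hw hs) hx with ⟨h1, h2⟩ | ⟨_, h2⟩
  · rw [atomic_G hw] at h2
    exact ⟨h1, h2⟩
  · exfalso
    have hwl := hw (Fin.last K)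
    have hlt : val (Fin.last K) < val (Fin.last K) + w (Fin.last K) / x := by
      have : 0 < w (Fin.last K) / x := by positivity
      linarith
    have h3 := h2 _ hlt
    rw [atomic_G hw] at h3
    have h4 : w (Fin.last K) * (val (Fin.last K) + w (Fin.last K) / x - val (Fin.last K))⁻¹ ≤
        ∑ k, w k * (val (Fin.last K) + w (Fin.last K) / x - val k)⁻¹ := by
      refine Finset.single_le_sum (f := fun k =>
        w k * (val (Fin.last K) + w (Fin.last K) / x - val k)⁻¹) (fun k _ => ?_)
        (Finset.mem_univ _)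
      have h5 : val k ≤ val (Fin.last K) := hv.monotone (Fin.le_last _)
      exact mul_nonneg (hw k).le (inv_nonneg.2 (by linarith))
    have h6 : w (Fin.last K) * (val (Fin.last K) + w (Fin.last K) / x - val (Fin.last K))⁻¹ = x := by
      have : val (Fin.last K) + w (Fin.last K) / x - val (Fin.last K) = w (Fin.last K) / x := by
        ring
      rw [this]
      field_simp
    linarith

theorem bb_gt {x : ℝ} (hx : 0 < x) (k : Fin (K + 1)) : val k < bb w val x :=
  lt_of_le_of_lt (hv.monotone (Fin.le_last _)) (bb_spec hv hw hs hx).1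

theorem bb_sum {x : ℝ} (hx : 0 < x) : ∑ k, w k * (bb w val x - val k)⁻¹ = x :=
  (bb_spec hv hw hs hx).2

omit hv hw hs in
theorem RR_eq {x : ℝ} (hx : 0 < x) : RR w val x = bb w val x - 1 / x := rT_pos hx

omit hv in
theorem RR_zero : RR w val 0 = ∑ k, w k * val k := by
  have := atomic_prob (w := w) val (fun k => (hw k).le) hs
  unfold RR
  rw [rT_zero, atomic_integral val (fun k => (hw k).le)]

theorem RR_mono {x y : ℝ} (hx : 0 ≤ x) (hxy : x ≤ y) : RR w val x ≤ RR w val y := by
  have := atomic_prob (w := w) val (fun k => (hw k).le) hs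
  exact rT_mono (supp hv hw hs) hx hxy

theorem RR_lip {x y : ℝ} (hx : 0 ≤ x) (hxy : x ≤ y) :
    RR w val y - RR w val x ≤
      (val (Fin.last K) - val 0) ^ 2 * (1 + (val (Fin.last K) - val 0) * y) * (y - x) := by
  have := atomic_prob (w := w) val (fun k => (hw k).le) hs
  exact (rT_sub (supp hv hw hs) hx hxy).2

theorem RR_mem {x : ℝ} (hx : 0 ≤ x) : val 0 ≤ RR w val x ∧ RR w val x ≤ val (Fin.last K) := by
  have := atomic_prob (w := w) val (fun k => (hw k).le) hs
  exact rT_mem (supp hv hw hs) hx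

theorem RR_cont : ContinuousOn (RR w val) (Ici 0) := by
  set Δ := val (Fin.last K) - val 0 with hΔ
  have hΔ0 : 0 ≤ Δ := by
    have := hv.monotone (Fin.zero_le (Fin.last K)); rw [hΔ]; linarith
  intro x hx
  have hx0 : (0:ℝ) ≤ x := hx
  rw [ContinuousWithinAt, tendsto_iff_dist_tendsto_zero]
  have hev : ∀ᶠ y in 𝓝[Ici 0] x, y ≤ x + 1 ∧ 0 ≤ y := by
    refine (Filter.Eventually.and ?_ self_mem_nhdsWithin)
    exact mem_nhdsWithin_of_mem_nhds (Iic_mem_nhds (by linarith))
  refine squeeze_zero' (Eventually.of_forall fun _ => dist_nonneg)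
    (g := fun y => Δ ^ 2 * (1 + Δ * (x + 1)) * |y - x|) ?_ ?_
  · filter_upwards [hev] with y hy
    rw [Real.dist_eq]
    rcases le_total x y with hxy | hxy
    · have h1 := RR_mono hv hw hs hx0 hxy
      have h2 := RR_lip hv hw hs hx0 hxy
      rw [abs_of_nonneg (by linarith), abs_of_nonneg (by linarith)]
      refine h2.trans ?_
      apply mul_le_mul_of_nonneg_right _ (by linarith)
      apply mul_le_mul_of_nonneg_left _ (sq_nonneg _)
      have := mul_le_mul_of_nonneg_left hy.1 hΔ0
      linarith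
    · have h1 := RR_mono hv hw hs hy.2 hxy
      have h2 := RR_lip hv hw hs hy.2 hxy
      rw [abs_of_nonpos (by linarith), abs_of_nonpos (by linarith)]
      have h3 : (val (Fin.last K) - val 0) ^ 2 * (1 + (val (Fin.last K) - val 0) * x) * (x - y) ≤
          Δ ^ 2 * (1 + Δ * (x + 1)) * (x - y) := by
        apply mul_le_mul_of_nonneg_right _ (by linarith)
        apply mul_le_mul_of_nonneg_left _ (sq_nonneg _)
        have := mul_le_mul_of_nonneg_left (by linarith : x ≤ x + 1) hΔ0
        linarith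
      have h4 : Δ ^ 2 * (1 + Δ * (x + 1)) * -(y - x) = Δ ^ 2 * (1 + Δ * (x + 1)) * (x - y) := by
        ring
      rw [h4]
      linarith
  · have : Tendsto (fun y => Δ ^ 2 * (1 + Δ * (x + 1)) * |y - x|) (𝓝 x)
        (𝓝 (Δ ^ 2 * (1 + Δ * (x + 1)) * |x - x|)) := by
      apply Continuous.tendsto; fun_prop
    simp only [sub_self, abs_zero, mul_zero] at this
    exact this.mono_left nhdsWithin_le_nhds

theorem bb_contAt {x : ℝ} (hx : 0 < x) : ContinuousAt (bb w val) x := by
  have h1 : ContinuousAt (RR w val) x :=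
    (RR_cont hv hw hs).continuousAt (Ici_mem_nhds hx)
  have h2 : ContinuousAt (fun y => RR w val y + 1 / y) x :=
    h1.add (continuousAt_const.div continuousAt_id hx.ne')
  refine h2.congr ?_
  filter_upwards [lt_mem_nhds hx] with y hy
  rw [RR_eq hy]; ring

omit hv hs in
theorem g2_pos {b : ℝ} (hb : ∀ k, val k < b) : 0 < g2 w val b := by
  unfold g2
  refine Finset.sum_pos (fun k _ => ?_) Finset.univ_nonempty
  have : 0 < b - val k := by linarith [hb k]
  exact mul_pos (hw k) (by positivity)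

theorem bb_deriv {x : ℝ} (hx : 0 < x) :
    HasDerivAt (bb w val) (-(g2 w val (bb w val x))⁻¹) x := by
  have hgt := bb_gt hv hw hs hx
  have hg2 := g2_pos hw hgt
  have hd : HasDerivAt (fun b => ∑ k, w k * (b - val k)⁻¹) (-(g2 w val (bb w val x)))
      (bb w val x) := by
    have h1 : HasDerivAt (fun b => ∑ k, w k * (b - val k)⁻¹)
        (∑ k, w k * (-(1 : ℝ) / (bb w val x - val k) ^ 2)) (bb w val x) := by
      refine HasDerivAt.fun_sum fun k _ => ?_
      refine HasDerivAt.const_mul _ ?_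
      have hne : bb w val x - val k ≠ 0 := by have := hgt k; intro h; linarith
      exact ((hasDerivAt_id _).sub_const (val k)).inv hne
    convert h1 using 1
    unfold g2
    rw [← Finset.sum_neg_distrib]
    refine Finset.sum_congr rfl fun k _ => ?_
    field_simp
  have h := HasDerivAt.of_local_left_inverse (bb_contAt hv hw hs hx) hd (by linarith [hg2] : -(g2 w val (bb w val x)) ≠ 0) ?_
  · rw [inv_neg] at h; exact h
  · filter_upwards [lt_mem_nhds hx] with y hy
    exact bb_sum hv hw hs hy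

theorem RR_deriv {x : ℝ} (hx : 0 < x) : HasDerivAt (RR w val) (RD w val x) x := by
  have h1 := bb_deriv hv hw hs hx
  have h2 : HasDerivAt (fun y : ℝ => bb w val y - y⁻¹)
      (-(g2 w val (bb w val x))⁻¹ - (-(x ^ 2)⁻¹)) x := h1.sub (hasDerivAt_inv hx.ne')
  have h3 : HasDerivAt (RR w val) (-(g2 w val (bb w val x))⁻¹ - (-(x ^ 2)⁻¹)) x := by
    refine h2.congr_of_eventuallyEq ?_
    filter_upwards [lt_mem_nhds hx] with y hy
    rw [RR_eq hy, one_div]
  convert h3 using 1
  unfold RD; ring

theorem RD_nonneg {x : ℝ} (hx : 0 < x) : 0 ≤ RD w val x := by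
  have hgt := bb_gt hv hw hs hx
  have hsum := bb_sum hv hw hs hx
  have hg2 := g2_pos hw hgt
  unfold RD
  rw [sub_nonneg]
  refine inv_anti₀ (by positivity) ?_
  -- Cauchy-Schwarz: x² ≤ g2
  have h1 : (∑ k, w k * (bb w val x - val k)⁻¹) ^ 2 ≤
      (∑ k, w k) * ∑ k, w k * ((bb w val x - val k)⁻¹) ^ 2 := by
    refine Finset.sum_sq_le_sum_mul_sum_of_sq_le_mul _ (fun k _ => (hw k).le)
      (fun k _ => mul_nonneg (hw k).le (sq_nonneg _)) (fun k _ => by
        have : (w k * (bb w val x - val k)⁻¹) ^ 2 = w k * (w k * ((bb w val x - val k)⁻¹) ^ 2) := by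
          ring
        exact this.le)
  rw [hsum, hs, one_mul] at h1
  exact h1

/-! ### the function `Ψ` -/

theorem Psi_deriv {x : ℝ} (hx : 0 < x) :
    HasDerivAt (Psi w val) (-(1 / 2) * (x * RD w val x)) x := by
  have hgt := bb_gt hv hw hs hx
  have hsum := bb_sum hv hw hs hx
  have hb := bb_deriv hv hw hs hx
  set b' := -(g2 w val (bb w val x))⁻¹ with hb'
  have h1 : HasDerivAt (fun y => ∑ k, w k * Real.log (y * (bb w val y - val k)))
      (∑ k, w k * ((1 * (bb w val x - val k) + x * b') / (x * (bb w val x - val k)))) x := by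
    refine HasDerivAt.fun_sum fun k _ => HasDerivAt.const_mul _ ?_
    have hne : x * (bb w val x - val k) ≠ 0 := by
      have : 0 < bb w val x - val k := by linarith [hgt k]
      positivity
    exact ((hasDerivAt_id x).mul (hb.sub_const (val k))).log hne
  have h2 : HasDerivAt (Psi w val)
      (-(1 / 2) * ∑ k, w k * ((1 * (bb w val x - val k) + x * b') / (x * (bb w val x - val k)))) x :=
    h1.const_mul _
  convert h2 using 1
  congr 1
  have h3 : ∀ k, w k * ((1 * (bb w val x - val k) + x * b') / (x * (bb w val x - val k))) =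
      w k * x⁻¹ + b' * (w k * (bb w val x - val k)⁻¹) := by
    intro k
    have : 0 < bb w val x - val k := by linarith [hgt k]
    field_simp
  simp only [h3]
  rw [Finset.sum_add_distrib, ← Finset.sum_mul, ← Finset.mul_sum, hs, hsum, hb']
  unfold RD
  field_simp
  ring

omit hv hw hs in
theorem Psi_zero : Psi w val 0 = 0 := by
  unfold Psi; simp

theorem Psi_tendsto_zero : Tendsto (Psi w val) (𝓝[>] 0) (𝓝 0) := by
  have hR : Tendsto (RR w val) (𝓝[>] 0) (𝓝 (RR w val 0)) :=
    ((RR_cont hv hw hs) 0 (mem_Ici.2 le_rfl)).mono_left (nhdsWithin_mono _ Ioi_subset_Ici_self)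
  have hx : Tendsto (fun x : ℝ => x) (𝓝[>] 0) (𝓝 0) := nhdsWithin_le_nhds
  have h1 : ∀ k, Tendsto (fun x => w k * Real.log (1 + x * (RR w val x - val k))) (𝓝[>] 0)
      (𝓝 (w k * Real.log (1 + 0 * (RR w val 0 - val k)))) := by
    intro k
    refine Tendsto.const_mul _ ?_
    refine Tendsto.log ?_ (by simp)
    exact tendsto_const_nhds.add (hx.mul (hR.sub_const _))
  have h2 : Tendsto (fun x => -(1 / 2) * ∑ k, w k * Real.log (1 + x * (RR w val x - val k)))
      (𝓝[>] 0) (𝓝 (-(1 / 2) * ∑ k, w k * Real.log (1 + 0 * (RR w val 0 - val k)))) :=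
    (tendsto_finsetSum _ fun k _ => h1 k).const_mul _
  simp only [zero_mul, add_zero, Real.log_one, mul_zero, Finset.sum_const_zero] at h2
  refine h2.congr' ?_
  filter_upwards [self_mem_nhdsWithin] with x hx0
  have hx0' : 0 < x := hx0
  unfold Psi
  congr 1
  refine Finset.sum_congr rfl fun k _ => ?_
  congr 2
  rw [RR_eq hx0']
  field_simp
  ring

/-- `Φ(x) = ½ ∫_0^x R`. -/
theorem Psi_eq {x : ℝ} (hx : 0 ≤ x) :
    Psi w val x = (1 / 2) * (∫ t in (0:ℝ)..x, RR w val t) - (1 / 2) * (x * RR w val x) := by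
  rcases hx.eq_or_lt with rfl | hx
  · rw [Psi_zero]; simp
  -- F := Φ - ½ x R - Ψ is constant on (0,∞)
  set F : ℝ → ℝ := fun x => (1 / 2) * (∫ t in (0:ℝ)..x, RR w val t) - (1 / 2) * (x * RR w val x) -
    Psi w val x with hF
  have hcont := RR_cont hv hw hs
  have hFd : ∀ y, 0 < y → HasDerivAt F 0 y := by
    intro y hy
    have hii : IntervalIntegrable (RR w val) volume 0 y := by
      refine ContinuousOn.intervalIntegrable ?_
      rw [uIcc_of_le hy.le]
      exact hcont.mono (fun z hz => hz.1)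
    have hca : ContinuousAt (RR w val) y := hcont.continuousAt (Ici_mem_nhds hy)
    have hsm : StronglyMeasurableAtFilter (RR w val) (𝓝 y) volume := by
      refine ⟨Ici 0, Ici_mem_nhds hy, ?_⟩
      exact hcont.aestronglyMeasurable measurableSet_Ici
    have h1 : HasDerivAt (fun x => ∫ t in (0:ℝ)..x, RR w val t) (RR w val y) y :=
      intervalIntegral.integral_hasDerivAt_right hii hsm hca
    have h2 : HasDerivAt (fun x => x * RR w val x) (1 * RR w val y + y * RD w val y) y :=
      (hasDerivAt_id y).mul (RR_deriv hv hw hs hy)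
    have h3 := ((h1.const_mul (1 / 2)).sub (h2.const_mul (1 / 2))).sub (Psi_deriv hv hw hs hy)
    exact h3.congr_deriv (by ring)
  have hconst : ∀ y z, 0 < y → 0 < z → F y = F z := by
    intro y z hy hz
    have hconv : Convex ℝ (Ioi (0:ℝ)) := convex_Ioi 0
    have hdiff : DifferentiableOn ℝ F (Ioi 0) := fun u hu =>
      (hFd u hu).differentiableAt.differentiableWithinAt
    refine hconv.is_const_of_fderivWithin_eq_zero (𝕜 := ℝ) hdiff (fun u hu => ?_) hy hz
    have h1 : fderivWithin ℝ F (Ioi 0) u = fderiv ℝ F u :=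
      fderivWithin_of_isOpen isOpen_Ioi hu
    rw [h1]
    ext
    simp [(hFd u hu).hasFDerivAt.fderiv]
  have hlim : Tendsto F (𝓝[>] 0) (𝓝 0) := by
    have hR : Tendsto (RR w val) (𝓝[>] 0) (𝓝 (RR w val 0)) :=
      (hcont 0 (mem_Ici.2 le_rfl)).mono_left (nhdsWithin_mono _ Ioi_subset_Ici_self)
    have hxx : Tendsto (fun x : ℝ => x) (𝓝[>] 0) (𝓝 0) := nhdsWithin_le_nhds
    have hint : Tendsto (fun x => ∫ t in (0:ℝ)..x, RR w val t) (𝓝[>] 0) (𝓝 0) := by
      set C := max |val 0| |val (Fin.last K)| with hC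
      refine squeeze_zero_norm' (a := fun x => C * |x|) ?_ ?_
      · filter_upwards [self_mem_nhdsWithin] with y hy
        have hy' : 0 < y := hy
        have := intervalIntegral.norm_integral_le_of_norm_le_const (a := 0) (b := y) (C := C)
          (f := RR w val) (fun t ht => by
            rw [uIoc_of_le hy'.le] at ht
            obtain ⟨h1, h2⟩ := RR_mem hv hw hs ht.1.le
            rw [Real.norm_eq_abs]
            exact abs_le_max_abs_abs h1 h2)
        rwa [sub_zero] at this
      · have : Tendsto (fun x : ℝ => C * |x|) (𝓝[>] 0) (𝓝 (C * |0|)) := (hxx.abs).const_mul C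
        simpa using this
    have h := ((hint.const_mul (1 / 2)).sub ((hxx.mul hR).const_mul (1 / 2))).sub
      (Psi_tendsto_zero hv hw hs)
    have h0 : (1 / 2 : ℝ) * 0 - 1 / 2 * (0 * RR w val 0) - 0 = 0 := by ring
    rw [h0] at h
    exact h
  have hFx : F x = 0 := by
    have h1 : Tendsto F (𝓝[>] 0) (𝓝 (F x)) := by
      refine tendsto_const_nhds.congr' ?_
      filter_upwards [self_mem_nhdsWithin] with y hy
      exact hconst x y hx hy
    exact tendsto_nhds_unique h1 hlim
  simp only [hF] at hFx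
  linarith

end

end

end Crest.Agent.R164.PAlg
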