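import Crest.Agent.R164.OvSys

/-!
Row 164: linear purity of the spins for the system `SY.HS` with the orthogonal matrix as disorder,
in the form used by `RotRel.rel_spin`.
-/

set_option autoImplicit false

namespace Crest.Agent.R164.OvC

open Finset MeasureTheory Crest.Agent.R141 Crest.Agent.R164 Crest.Agent.R164.SY
open Crest.Agent.R164.RotRel (dav dav_add dav_smul dav_const dav_mono avcS avcS_nonneg)
open Crest.Agent.R164.Rot (OK)

noncomputable section

section abs

variable {Ω : Type*} [Fintype Ω] {𝓕 : Filt Ω} {N : ℕ}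

theorem covR_of_meas {Q : Ω → ℝ} (hQ : IsProb Q) {r : Setoid Ω} {f : Ω → ℝ} (hf : RMeas r f)
    (g : Ω → ℝ) (ω : Ω) : covR Q r f g ω = 0 := by
  unfold covR
  rw [cE_mul_left hf, cE_of_meas hQ hf]
  ring

theorem avcS_of_le {Q : Ω → ℝ} (hQ : IsProb Q) (f : Fin N → Ω → ℝ) {k m : ℕ} (hmk : m ≤ k) :
    avcS Q 𝓕 f k m = 0 := by
  unfold avcS
  have h : ∀ i j ω, covR Q (𝓕.F k) (cE Q (𝓕.F m) (f i)) (cE Q (𝓕.F m) (f j)) ω = 0 := by
    intro i j ω
    exact covR_of_meas hQ ((cE_meas Q (𝓕.F m) (f i)).mono (𝓕.antitone hmk)) _ ω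
  simp only [h]
  simp [eE]

theorem avcS_leaf {Q : Ω → ℝ} (hQ : IsProb Q) (f : Fin N → Ω → ℝ) {k : ℕ} (hk : 𝓕.L ≤ k) (m : ℕ) :
    avcS Q 𝓕 f k m = 0 := by
  unfold avcS
  have h : ∀ i j ω, covR Q (𝓕.F k) (cE Q (𝓕.F m) (f i)) (cE Q (𝓕.F m) (f j)) ω = 0 := by
    intro i j ω
    refine covR_of_meas hQ ?_ _ ω
    rw [𝓕.bot k hk]
    intro a b hab
    have : a = b := hab
    rw [this]
  simp only [h]
  simp [eE]

end abs

variable {p : Par} {N : ℕ} (n : ℕ) {A : Finset (Fin N → Bool)} (hA : A.Nonempty)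
  (h0 : (Fin N → Fin N → ℝ) → (Fin N → Bool) → ℝ) (a lam : Fin N → Fin p.nc → ℝ)

/-- the spins as functions on the configuration space. -/
def sH (p : Par) (i : Fin N) (ω : G.Om (base p n A hA)) : ℝ := sv (ω.1.1.1 i)

theorem avc2_eq (P : G.Om (base p n A hA) → ℝ) (k m : ℕ) :
    G.avc2 (base p n A hA) P k m = avcS P (G.fil (base p n A hA)) (sH n hA p) k m := rfl

/-- **Linear purity of the spins** for the system with a random matrix: parameters without
gadgets; steps `sel g d` independent of the matrix. -/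
theorem pur_sys (nc : ℕ) (hnc : 0 < nc) {eta : ℝ} (heta : 0 < eta) :
    ∃ p : Par, p.nc = nc ∧ p.nb = 0 ∧ ∃ N0 : ℕ, 0 < N0 ∧ ∀ N, N0 ≤ N →
      ∀ (n : ℕ) (A : Finset (Fin N → Bool)) (hA : A.Nonempty)
        (ν : Measure (Fin N → Fin N → ℝ)) [IsProbabilityMeasure ν], (∀ᵐ U ∂ν, U ∈ OK N) →
        ∀ h0 : (Fin N → Fin N → ℝ) → (Fin N → Bool) → ℝ, (∀ σ, Continuous fun U => h0 U σ) →
        ∀ a lam : Fin N → Fin p.nc → ℝ,
        ∃ sel : Fin p.nc → DD p N → Fin p.T, ∀ (g : Fin p.nc) (m : DD p N → ℕ),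
          dav (dw p N) ν (fun d U => avcS (QH n hA h0 a lam d U) (G.fil (base p n A hA))
            (sH n hA p) (p.ct g (sel g d)) (m d)) ≤ eta := by
  obtain ⟨p, hp1, hp2, N0, hN0⟩ := G.spin_purity nc hnc heta
  refine ⟨p, hp1, hp2, N0 + 1, Nat.succ_pos _, ?_⟩
  intro N hN n A hA ν _ hν h0 hh0 a lam
  have hNpos : 0 < N := by omega
  obtain ⟨sel, hsel⟩ := hN0 N (by omega) (base p n A hA) (Fin N → Fin N → ℝ) ν
    (fun U s => HS (h0 U) a lam (xM U) s) (fun s => (continuous_HS n h0 a lam hh0 s).measurable)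
  refine ⟨sel, fun g m => le_trans ?_ (hsel g)⟩
  unfold dav Ed
  refine Finset.sum_le_sum fun d _ => mul_le_mul_of_nonneg_left ?_ (dw_nonneg p N d)
  have key : ∀ U, avcS (QH n hA h0 a lam d U) (G.fil (base p n A hA)) (sH n hA p)
      (p.ct g (sel g d)) (m d) ≤ G.purNum (base p n A hA) (HS (h0 U) a lam (xM U)) (g, sel g d) d := by
    intro U
    have hP := QH_isProb n hA h0 a lam d U
    have hge : p.ct g (sel g d) ≤ p.L := by
      have h1 := (ct_mem p (g := (g : ℕ)) (sel g d).2).2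
      have h2 : stp p (g + 1) < p.L := p.mt_lt_L g.2
      omega
    have hnn : 0 ≤ G.purNum (base p n A hA) (HS (h0 U) a lam (xM U)) (g, sel g d) d :=
      le_trans (G.avc2_nonneg (base p n A hA) (G.PP_isProb _ _ _) _ _)
        (G.avc2_le_purNum (base p n A hA) hNpos _ d (g, sel g d) (m := p.L) hge le_rfl)
    rcases le_or_gt (m d) (p.ct g (sel g d)) with h | h
    · rw [avcS_of_le hP _ h]
      exact hnn
    · rcases le_or_gt (m d) p.L with h2 | h2
      · exact G.avc2_le_purNum (base p n A hA) hNpos _ d (g, sel g d) h.le h2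
      · have e : avcS (QH n hA h0 a lam d U) (G.fil (base p n A hA)) (sH n hA p)
            (p.ct g (sel g d)) (m d) = avcS (QH n hA h0 a lam d U) (G.fil (base p n A hA))
            (sH n hA p) (p.ct g (sel g d)) p.L := by
          unfold avcS
          have e1 : (G.fil (base p n A hA)).F (m d) = (G.fil (base p n A hA)).F p.L := by
            rw [(G.fil (base p n A hA)).bot (m d) h2.le, (G.fil (base p n A hA)).bot p.L le_rfl]
          rw [e1]
        rw [e]
        exact G.avc2_le_purNum (base p n A hA) hNpos _ d (g, sel g d) hge le_rfl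
  refine integral_mono_of_nonneg (Filter.Eventually.of_forall fun U => avcS_nonneg
    (QH_isProb n hA h0 a lam d U) _ _ _) ?_ (Filter.Eventually.of_forall key)
  exact G.integrable_purNum (base p n A hA) ν hNpos
    (fun s => (continuous_HS n h0 a lam hh0 s).measurable) _ d

end

end Crest.Agent.R164.OvC
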