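import Crest.Agent.R164.KerG
import Crest.Agent.R141.Quiet

/-!
Row 164, sections 3.2: quiet cells with general leaves (port of `R141/Quiet.lean`).
-/

set_option autoImplicit false

namespace Crest.Agent.R164.QuietG

open Finset Crest.Agent.R141 Crest.Agent.R141.KerS Crest.Agent.R141.Quiet
open Crest.Agent.R141.Fact hiding Shape
open Crest.Agent.R141.Clo (Shape)

noncomputable section

variable {Ω I : Type} [Fintype Ω] [Fintype I] {P : Ω → ℝ}

/-- choice of all cells, going down -/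
theorem exists_cellsG (hP : IsProb P) (𝓕 : Filt Ω) {st : ℕ → ℕ} (hst : Monotone st)
    (ph : I → Ω → ℝ) (hph : ∀ i ω, |ph i ω| ≤ 1) (SS : (n : ℕ) → Finset (Shape n)) (J w : ℕ) (hw : 0 < w) :
    ∃ c : ℕ → ℕ, (∀ n, n ≤ J → (J - n) * w ≤ c n ∧ c n < (J - n + 1) * w) ∧
      ∀ n, n ≤ J → ∀ s ∈ SS n, qt P 𝓕 st (VG P (Rm 𝓕 st c) ph n s) (c n) ≤
        ((SS n).card : ℝ) / w := by
  have key : ∀ m, ∃ c : ℕ → ℕ, ∀ n, n < m → n ≤ J →
      ((J - n) * w ≤ c n ∧ c n < (J - n + 1) * w) ∧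
      ∀ s ∈ SS n, qt P 𝓕 st (VG P (Rm 𝓕 st c) ph n s) (c n) ≤ ((SS n).card : ℝ) / w := by
    intro m
    induction m with
    | zero => exact ⟨fun _ => 0, fun n hn => absurd hn (by omega)⟩
    | succ m ih =>
      obtain ⟨c, hc⟩ := ih
      obtain ⟨g, hg1, hg2, hg3⟩ := exists_cell hP 𝓕 hst (SS m)
        (fun s => VG P (Rm 𝓕 st c) ph m s)
        (fun s _ i ω => VG_abs_le hP _ hph s i ω) ((J - m) * w) w hw
      refine ⟨Function.update c m g, fun n hn hJ => ?_⟩
      have hcongr : ∀ n, n ≤ m → ∀ s : Shape n, VG P (Rm 𝓕 st (Function.update c m g)) ph n s =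
          VG P (Rm 𝓕 st c) ph n s := by
        intro n hn s
        funext i
        apply VG_congr
        intro k hk
        unfold Rm
        rw [Function.update_of_ne (by omega)]
      rcases Nat.lt_succ_iff_lt_or_eq.mp hn with h | h
      · rw [Function.update_of_ne (by omega)]
        refine ⟨(hc n h hJ).1, fun s hs => ?_⟩
        rw [hcongr n h.le]
        exact (hc n h hJ).2 s hs
      · subst h
        rw [Function.update_self]
        refine ⟨⟨hg1, ?_⟩, fun s hs => ?_⟩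
        · rw [add_mul, one_mul]; exact hg2
        · rw [hcongr n le_rfl]
          exact hg3 s hs
  obtain ⟨c, hc⟩ := key (J + 1)
  exact ⟨c, fun n hn => (hc n (by omega) hn).1, fun n hn => (hc n (by omega) hn).2⟩


variable {𝓕 : Filt Ω} {st t : ℕ → ℕ} {ph : I → Ω → ℝ} {SS : (n : ℕ) → Finset (Shape n)}
  {M J : ℕ} {c : ℕ → ℕ} {κ : ℝ}

/-- 3.2: t-version versus m-version of the shape functionals -/
theorem VG_close (hP : IsProb P) (hph : ∀ i ω, |ph i ω| ≤ 1)
    (ht1 : ∀ g, st g ≤ t g) (ht2 : ∀ g, t g < st (g + 1))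
    (hSS : ∀ n (s : Shape (n + 1)), s ∈ SS (n + 1) ↔
      s.toList.length ≤ M ∧ ∀ q ∈ s.toList, q ∈ SS n)
    (hq : ∀ n, n < J → ∀ s ∈ SS n, qt P 𝓕 st (VG P (Rm 𝓕 st c) ph n s) (c n) ≤ κ) :
    ∀ n, n ≤ J → ∀ s ∈ SS n, avg (fun i => eE P (fun ω =>
      |VG P (Rt 𝓕 t c) ph n s i ω - VG P (Rm 𝓕 st c) ph n s i ω|)) ≤ Bn M n * Real.sqrt κ := by
  intro n
  induction n with
  | zero =>
    intro _ s _
    have : ∀ i ω, VG P (Rt 𝓕 t c) ph 0 s i ω - VG P (Rm 𝓕 st c) ph 0 s i ω = 0 := by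
      intro i ω; rw [VG_zero, VG_zero, sub_self]
    simp only [this, abs_zero]
    rw [Bn, zero_mul]
    have : eE P (fun _ => (0 : ℝ)) = 0 := by simp [eE]
    simp only [this]
    simp [avg]
  | succ n ih =>
    intro hn s hs
    rw [hSS] at hs
    simp only [VG_succ]
    have hb : ∀ q ∈ s.toList, avg (fun i => eE P (fun ω =>
        |cE P (Rt 𝓕 t c n) (VG P (Rt 𝓕 t c) ph n q i) ω -
          cE P (Rm 𝓕 st c n) (VG P (Rm 𝓕 st c) ph n q i) ω|)) ≤ (Bn M n + 1) * Real.sqrt κ := by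
      intro q hqq
      have hqS := hs.2 q hqq
      have h1 := ih (by omega) q hqS
      have h2 : avg (fun i => eE P (fun ω =>
          |cE P (Rm 𝓕 st c n) (VG P (Rm 𝓕 st c) ph n q i) ω -
            cE P (Rt 𝓕 t c n) (VG P (Rm 𝓕 st c) ph n q i) ω|)) ≤ Real.sqrt κ := by
        refine (avg_abs_le_sqrt hP _).trans (Real.sqrt_le_sqrt ?_)
        refine le_trans (avg_mono fun i => ?_) (hq n (by omega) q hqS)
        exact l2_between hP (filt_anti 𝓕 (ht2 (c n)).le) (filt_anti 𝓕 (ht1 (c n))) _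
      calc _ ≤ avg (fun i => eE P (fun ω =>
              |VG P (Rt 𝓕 t c) ph n q i ω - VG P (Rm 𝓕 st c) ph n q i ω|) +
            eE P (fun ω => |cE P (Rm 𝓕 st c n) (VG P (Rm 𝓕 st c) ph n q i) ω -
            cE P (Rt 𝓕 t c n) (VG P (Rm 𝓕 st c) ph n q i) ω|)) := by
            apply avg_mono
            intro i
            have e1 := eE_abs_cE_le hP (Rt 𝓕 t c n)
              (fun ω => VG P (Rt 𝓕 t c) ph n q i ω - VG P (Rm 𝓕 st c) ph n q i ω)
            refine le_trans ?_ (add_le_add_left e1 _)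
            rw [← eE_add]
            apply eE_mono hP
            intro ω
            have e2 := cE_sub P (Rt 𝓕 t c n) (VG P (Rt 𝓕 t c) ph n q i)
              (VG P (Rm 𝓕 st c) ph n q i) ω
            rw [e2]
            have e3 := abs_sub_le (cE P (Rt 𝓕 t c n) (VG P (Rt 𝓕 t c) ph n q i) ω)
              (cE P (Rt 𝓕 t c n) (VG P (Rm 𝓕 st c) ph n q i) ω)
              (cE P (Rm 𝓕 st c n) (VG P (Rm 𝓕 st c) ph n q i) ω)
            rw [abs_sub_comm (cE P (Rm 𝓕 st c n) (VG P (Rm 𝓕 st c) ph n q i) ω)]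
            exact e3
        _ = _ := avg_add _ _
        _ ≤ Bn M n * Real.sqrt κ + Real.sqrt κ := add_le_add h1 h2
        _ = (Bn M n + 1) * Real.sqrt κ := by ring
    refine (avg_prod_sub_le hP s.toList _ _
      (fun q _ i ω => abs_cE_le_of_le hP (fun a => VG_abs_le hP _ hph q i a) ω)
      (fun q _ i ω => abs_cE_le_of_le hP (fun a => VG_abs_le hP _ hph q i a) ω) hb).trans ?_
    rw [Bn, mul_assoc]
    apply mul_le_mul_of_nonneg_right _
      (mul_nonneg (by linarith [Bn_nonneg M n]) (Real.sqrt_nonneg _))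
    exact_mod_cast hs.1

/-- 3.2 (second half): the m-version at depth `n+1` is almost measurable before the label step of
its cell. -/
theorem VG_pred (hP : IsProb P) (hph : ∀ i ω, |ph i ω| ≤ 1) (hst : StrictMono st)
    (hSS : ∀ n (s : Shape (n + 1)), s ∈ SS (n + 1) ↔
      s.toList.length ≤ M ∧ ∀ q ∈ s.toList, q ∈ SS n)
    (hq : ∀ n, n < J → ∀ s ∈ SS n, qt P 𝓕 st (VG P (Rm 𝓕 st c) ph n s) (c n) ≤ κ)
    {n : ℕ} (hn : n < J) {s : Shape (n + 1)} (hs : s ∈ SS (n + 1)) :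
    avg (fun i => eE P (fun ω => |VG P (Rm 𝓕 st c) ph (n + 1) s i ω -
      cE P (𝓕.F (st (c n + 1) - 1)) (VG P (Rm 𝓕 st c) ph (n + 1) s i) ω|)) ≤
      2 * M * Real.sqrt κ := by
  rw [hSS] at hs
  -- the comparison function
  set Y : I → Ω → ℝ := fun i ω =>
    (s.toList.map (fun q : Shape n => cE P (𝓕.F (st (c n))) (VG P (Rm 𝓕 st c) ph n q i) ω)).prod
    with hY
  have hYmeas : ∀ i, RMeas (𝓕.F (st (c n + 1) - 1)) (Y i) := by
    intro i a b hab
    simp only [hY]
    congr 1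
    apply List.map_congr_left
    intro q _
    have hle : st (c n) ≤ st (c n + 1) - 1 := by
      have : st (c n) < st (c n + 1) := hst (Nat.lt_succ_self (c n))
      omega
    exact (cE_meas P (𝓕.F (st (c n))) _).mono (filt_anti 𝓕 hle) a b hab
  have h1 : avg (fun i => eE P (fun ω => |VG P (Rm 𝓕 st c) ph (n + 1) s i ω - Y i ω|)) ≤
      M * Real.sqrt κ := by
    simp only [VG_succ, hY]
    refine (avg_prod_sub_le hP s.toList _ _
      (fun q _ i ω => abs_cE_le_of_le hP (fun a => VG_abs_le hP _ hph q i a) ω)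
      (fun q _ i ω => abs_cE_le_of_le hP (fun a => VG_abs_le hP _ hph q i a) ω)
      (b := Real.sqrt κ) ?_).trans ?_
    · intro q hqq
      refine (avg_abs_le_sqrt hP _).trans (Real.sqrt_le_sqrt ?_)
      exact hq n hn q (hs.2 q hqq)
    · apply mul_le_mul_of_nonneg_right _ (Real.sqrt_nonneg _)
      exact_mod_cast hs.1
  calc _ ≤ avg (fun i => 2 * eE P (fun ω => |VG P (Rm 𝓕 st c) ph (n + 1) s i ω - Y i ω|)) := by
        apply avg_mono
        intro i
        have e1 := eE_abs_cE_le hP (𝓕.F (st (c n + 1) - 1))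
          (fun ω => VG P (Rm 𝓕 st c) ph (n + 1) s i ω - Y i ω)
        have e2 : eE P (fun ω => |VG P (Rm 𝓕 st c) ph (n + 1) s i ω -
            cE P (𝓕.F (st (c n + 1) - 1)) (VG P (Rm 𝓕 st c) ph (n + 1) s i) ω|) ≤
            eE P (fun ω => |VG P (Rm 𝓕 st c) ph (n + 1) s i ω - Y i ω|) +
            eE P (fun ω => |cE P (𝓕.F (st (c n + 1) - 1))
              (fun ω => VG P (Rm 𝓕 st c) ph (n + 1) s i ω - Y i ω) ω|) := by
          rw [← eE_add]
          apply eE_mono hP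
          intro ω
          rw [cE_sub, cE_of_meas hP (hYmeas i)]
          have e3 := abs_sub_le (VG P (Rm 𝓕 st c) ph (n + 1) s i ω) (Y i ω)
            (cE P (𝓕.F (st (c n + 1) - 1)) (VG P (Rm 𝓕 st c) ph (n + 1) s i) ω)
          rw [abs_sub_comm (Y i ω)] at e3
          exact e3
        linarith
    _ = 2 * avg (fun i => eE P (fun ω => |VG P (Rm 𝓕 st c) ph (n + 1) s i ω - Y i ω|)) :=
        avg_smul _ _
    _ ≤ 2 * (M * Real.sqrt κ) := by linarith
    _ = _ := by ring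


end

end Crest.Agent.R164.QuietG
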