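import Crest.Agent.R164.RTrans2

/-!
Row 164: scaling of the edge-extended R-transform and the monotonicity lemma of helper893:
for `0 ≤ s ≤ t` the function `x ↦ t R(t x) - s R(s x)` is nondecreasing on `[0, ∞)`.
-/

set_option autoImplicit false

namespace Crest.Agent.R164.RScale

open MeasureTheory Crest.ProbabilityR.InvariantGlass Set Crest.Agent.R164.RTrans

variable {μ : Measure ℝ} [IsProbabilityMeasure μ] {lo hi : ℝ}

/-! ### Antitonicity of the resolvent point -/

lemma rp_anti (h : μ (Icc lo hi) = 1) {x y : ℝ} (hx : 0 < x) (hxy : x ≤ y) :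
    resolventPoint μ hi y ≤ resolventPoint μ hi x := by
  have hy : 0 < y := lt_of_lt_of_le hx hxy
  rcases rp_cases h hy with ⟨hy1, hy2⟩ | ⟨hy1, _⟩
  · rcases rp_cases h hx with ⟨hx1, hx2⟩ | ⟨_, hx2⟩
    · by_contra hlt
      push Not at hlt
      have := G_strictAnti h hx1 hlt
      linarith
    · exfalso
      have := hx2 _ hy1
      linarith
  · rw [hy1]; exact rp_ge h hx

/-! ### Single crossing -/

/-- If `f` changes sign once (from `≤ 0` to `≥ 0`, at `l0`), has mean zero, and `g` is monotone on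
the support, then `∫ f g ≥ 0`. -/
lemma single_cross (h : μ (Icc lo hi) = 1) {f g : ℝ → ℝ} (hf : Integrable f μ)
    (hfg : Integrable (fun l => f l * g l) μ) (l0 : ℝ)
    (h1 : ∀ l ∈ Icc lo hi, l0 ≤ l → 0 ≤ f l) (h2 : ∀ l ∈ Icc lo hi, l ≤ l0 → f l ≤ 0)
    (hg : MonotoneOn g (Icc lo hi)) (h0 : ∫ l, f l ∂μ = 0) : 0 ≤ ∫ l, f l * g l ∂μ := by
  have hlh := lo_le_hi h
  set k := max lo (min l0 hi) with hk
  have hkm : k ∈ Icc lo hi := ⟨le_max_left _ _, max_le hlh (min_le_right _ _)⟩
  have e : ∫ l, f l * g l ∂μ = ∫ l, f l * (g l - g k) ∂μ := by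
    have : ∫ l, f l * (g l - g k) ∂μ = ∫ l, (f l * g l - f l * g k) ∂μ := by
      congr 1; ext l; ring
    rw [this, integral_sub hfg (hf.mul_const _), integral_mul_const, h0]; ring
  rw [e]
  refine integral_nonneg_of_ae ?_
  filter_upwards [ae_mem h] with l hl
  rcases le_total l0 l with hle | hle
  · have hkl : k ≤ l := max_le hl.1 (le_trans (min_le_left _ _) hle)
    exact mul_nonneg (h1 l hl hle) (sub_nonneg.mpr (hg hkm hl hkl))
  · have hkl : l ≤ k := by
      have : l ≤ min l0 hi := le_min hle hl.2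
      exact le_trans this (le_max_right _ _)
    exact mul_nonneg_of_nonpos_of_nonpos (h2 l hl hle) (sub_nonpos.mpr (hg hl hkm hkl))

/-- Interior case of the comparison, in terms of the points `c' ≤ c` (temperature `t`) and
`d' ≤ d` (temperature `s`). -/
lemma interior_compare (h : μ (Icc lo hi) = 1) {s t x y c c' d d' : ℝ} (hs : 0 < s) (hst : s < t)
    (hc' : hi < c') (hcc : c' ≤ c) (hd' : hi < d') (hdd : d' ≤ d)
    (e1 : G μ c = t * x) (e2 : G μ c' = t * y) (e3 : G μ d = s * x) (e4 : G μ d' = s * y) :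
    t * (c - c') ≤ s * (d - d') := by
  have ht : 0 < t := hs.trans hst
  have hc : hi < c := lt_of_lt_of_le hc' hcc
  have hd : hi < d := lt_of_lt_of_le hd' hdd
  -- the four normalised resolvents
  set X : ℝ → ℝ := fun l => (c - l)⁻¹ / t with hX
  set X' : ℝ → ℝ := fun l => (c' - l)⁻¹ / t with hX'
  set Y : ℝ → ℝ := fun l => (d - l)⁻¹ / s with hY
  set Y' : ℝ → ℝ := fun l => (d' - l)⁻¹ / s with hY'
  have iX : Integrable X μ := (integrable_inv h hc).div_const _
  have iX' : Integrable X' μ := (integrable_inv h hc').div_const _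
  have iY : Integrable Y μ := (integrable_inv h hd).div_const _
  have iY' : Integrable Y' μ := (integrable_inv h hd').div_const _
  have eX : ∫ l, X l ∂μ = x := by
    have : ∫ l, X l ∂μ = G μ c / t := by rw [hX, integral_div]; rfl
    rw [this, e1]; field_simp
  have eX' : ∫ l, X' l ∂μ = y := by
    have : ∫ l, X' l ∂μ = G μ c' / t := by rw [hX', integral_div]; rfl
    rw [this, e2]; field_simp
  have eY : ∫ l, Y l ∂μ = x := by
    have : ∫ l, Y l ∂μ = G μ d / s := by rw [hY, integral_div]; rfl
    rw [this, e3]; field_simp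
  have eY' : ∫ l, Y' l ∂μ = y := by
    have : ∫ l, Y' l ∂μ = G μ d' / s := by rw [hY', integral_div]; rfl
    rw [this, e4]; field_simp
  have iXX : Integrable (fun l => X l * X' l) μ := by
    have := (integrable_inv_mul h hc hc').div_const (t * t)
    refine this.congr (Filter.Eventually.of_forall fun l => ?_)
    simp only [hX, hX']; field_simp
  have iYX : Integrable (fun l => Y l * X' l) μ := by
    have := (integrable_inv_mul h hd hc').div_const (s * t)
    refine this.congr (Filter.Eventually.of_forall fun l => ?_)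
    simp only [hY, hX']; field_simp
  have iYY : Integrable (fun l => Y l * Y' l) μ := by
    have := (integrable_inv_mul h hd hd').div_const (s * s)
    refine this.congr (Filter.Eventually.of_forall fun l => ?_)
    simp only [hY, hY']; field_simp
  -- sign of the differences
  have sign : ∀ (a b : ℝ), hi < a → hi < b → ∀ l ∈ Icc lo hi,
      (((t * a - s * b) / (t - s) ≤ l → 0 ≤ (a - l)⁻¹ / t - (b - l)⁻¹ / s) ∧
       (l ≤ (t * a - s * b) / (t - s) → (a - l)⁻¹ / t - (b - l)⁻¹ / s ≤ 0)) := by
    intro a b ha hb l hl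
    have h1 : 0 < a - l := by linarith [hl.2]
    have h2 : 0 < b - l := by linarith [hl.2]
    have hts : 0 < t - s := by linarith
    have key : (a - l)⁻¹ / t - (b - l)⁻¹ / s =
        (l * (t - s) - (t * a - s * b)) * ((a - l)⁻¹ * (b - l)⁻¹ / (t * s)) := by
      field_simp; ring
    have hp : 0 ≤ (a - l)⁻¹ * (b - l)⁻¹ / (t * s) := by positivity
    constructor
    · intro hle
      rw [div_le_iff₀ hts] at hle
      rw [key]; exact mul_nonneg (by linarith) hp
    · intro hle
      rw [le_div_iff₀ hts] at hle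
      rw [key]; exact mul_nonpos_of_nonpos_of_nonneg (by linarith) hp
  -- monotone multipliers
  have mono : ∀ (a r : ℝ), hi < a → 0 < r → MonotoneOn (fun l => (a - l)⁻¹ / r) (Icc lo hi) := by
    intro a r ha hr l hl m hm hlm
    simp only
    have h1 : 0 < a - m := by linarith [hm.2]
    have : (a - l)⁻¹ ≤ (a - m)⁻¹ := inv_anti₀ h1 (by linarith)
    exact div_le_div_of_nonneg_right this hr.le
  have k1 : 0 ≤ ∫ l, (X l - Y l) * X' l ∂μ := by
    refine single_cross h (iX.sub iY) ?_ ((t * c - s * d) / (t - s))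
      (fun l hl hle => (sign c d hc hd l hl).1 hle) (fun l hl hle => (sign c d hc hd l hl).2 hle)
      (mono c' t hc' ht) ?_
    · refine (iXX.sub iYX).congr (Filter.Eventually.of_forall fun l => ?_)
      simp only [Pi.sub_apply]; ring
    · have : ∫ l, (X l - Y l) ∂μ = x - x := by rw [integral_sub iX iY, eX, eY]
      simpa using this
  have k2 : 0 ≤ ∫ l, (X' l - Y' l) * Y l ∂μ := by
    refine single_cross h (iX'.sub iY') ?_ ((t * c' - s * d') / (t - s))
      (fun l hl hle => (sign c' d' hc' hd' l hl).1 hle)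
      (fun l hl hle => (sign c' d' hc' hd' l hl).2 hle)
      (mono d s hd hs) ?_
    · refine (iYX.sub iYY).congr (Filter.Eventually.of_forall fun l => ?_)
      simp only [Pi.sub_apply]; ring
    · have : ∫ l, (X' l - Y' l) ∂μ = y - y := by rw [integral_sub iX' iY', eX', eY']
      simpa using this
  have k3 : ∫ l, Y l * Y' l ∂μ ≤ ∫ l, X l * X' l ∂μ := by
    have e : ∫ l, X l * X' l ∂μ - ∫ l, Y l * Y' l ∂μ =
        ∫ l, (X l - Y l) * X' l ∂μ + ∫ l, (X' l - Y' l) * Y l ∂μ := by
      have e1' : ∫ l, (X l - Y l) * X' l ∂μ = ∫ l, X l * X' l ∂μ - ∫ l, Y l * X' l ∂μ := by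
        rw [← integral_sub iXX iYX]; congr 1; ext l; ring
      have e2' : ∫ l, (X' l - Y' l) * Y l ∂μ = ∫ l, Y l * X' l ∂μ - ∫ l, Y l * Y' l ∂μ := by
        rw [← integral_sub iYX iYY]; congr 1; ext l; ring
      rw [e1', e2']; ring
    linarith
  -- translate back
  have f1 : ∫ l, X l * X' l ∂μ = (∫ l, (c - l)⁻¹ * (c' - l)⁻¹ ∂μ) / (t * t) := by
    rw [← integral_div]; congr 1; ext l; simp only [hX, hX']; field_simp
  have f2 : ∫ l, Y l * Y' l ∂μ = (∫ l, (d - l)⁻¹ * (d' - l)⁻¹ ∂μ) / (s * s) := by
    rw [← integral_div]; congr 1; ext l; simp only [hY, hY']; field_simp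
  have g1 := G_sub h hc' hc
  have g2 := G_sub h hd' hd
  rw [e1, e2] at g1
  rw [e3, e4] at g2
  have c1 : ∫ lam, (c' - lam)⁻¹ * (c - lam)⁻¹ ∂μ = ∫ l, (c - l)⁻¹ * (c' - l)⁻¹ ∂μ := by
    congr 1; ext l; ring
  have c2 : ∫ lam, (d' - lam)⁻¹ * (d - lam)⁻¹ ∂μ = ∫ l, (d - l)⁻¹ * (d' - l)⁻¹ ∂μ := by
    congr 1; ext l; ring
  rw [c1] at g1
  rw [c2] at g2
  set A := ∫ l, X l * X' l ∂μ
  set B := ∫ l, Y l * Y' l ∂μ
  set I1 := ∫ l, (c - l)⁻¹ * (c' - l)⁻¹ ∂μ
  set I2 := ∫ l, (d - l)⁻¹ * (d' - l)⁻¹ ∂μ
  have hI1 : I1 = A * (t * t) := by rw [f1]; field_simp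
  have hI2 : I2 = B * (s * s) := by rw [f2]; field_simp
  rw [hI1] at g1
  rw [hI2] at g2
  have hB : 0 < B := by
    have : 0 < I2 := by
      have := I_pos h hd hd'
      refine lt_of_lt_of_le ?_ this
      have hlh := lo_le_hi h
      have a1 : 0 < d - lo := by linarith
      have a2 : 0 < d' - lo := by linarith
      positivity
    rw [hI2] at this
    exact pos_of_mul_pos_left this (by positivity)
  -- `y - x = t (c - c') A = s (d - d') B`
  have q1 : y - x = t * (c - c') * A := by
    have : t * (y - x) = t * (t * (c - c') * A) := by linarith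
    exact mul_left_cancel₀ ht.ne' this
  have q2 : y - x = s * (d - d') * B := by
    have : s * (y - x) = s * (s * (d - d') * B) := by linarith
    exact mul_left_cancel₀ hs.ne' this
  have q3 : 0 ≤ t * (c - c') := mul_nonneg ht.le (by linarith)
  by_contra hlt
  push Not at hlt
  have : s * (d - d') * B < t * (c - c') * B := mul_lt_mul_of_pos_right hlt hB
  have : t * (c - c') * B ≤ t * (c - c') * A := mul_le_mul_of_nonneg_left k3 q3
  linarith

/-- helper893's lemma in terms of the resolvent point: `x ↦ t b(t x) - s b(s x)` is nondecreasing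
on `(0, ∞)` for `0 < s ≤ t`. -/
lemma rp_compare (h : μ (Icc lo hi) = 1) {s t x y : ℝ} (hs : 0 < s) (hst : s ≤ t)
    (hx : 0 < x) (hxy : x ≤ y) :
    t * resolventPoint μ hi (t * x) - s * resolventPoint μ hi (s * x) ≤
      t * resolventPoint μ hi (t * y) - s * resolventPoint μ hi (s * y) := by
  have ht : 0 < t := lt_of_lt_of_le hs hst
  have hy : 0 < y := lt_of_lt_of_le hx hxy
  have htx : 0 < t * x := by positivity
  have hty : 0 < t * y := by positivity
  have hsx : 0 < s * x := by positivity
  have hsy : 0 < s * y := by positivity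
  rcases hst.eq_or_lt with rfl | hlt
  · simp
  have hstx : s * x ≤ t * x := mul_le_mul_of_nonneg_right hst hx.le
  have hsty : s * y ≤ t * y := mul_le_mul_of_nonneg_right hst hy.le
  have hsxy : s * x ≤ s * y := mul_le_mul_of_nonneg_left hxy hs.le
  have htxy : t * x ≤ t * y := mul_le_mul_of_nonneg_left hxy ht.le
  -- comparison when the point at `t z` is interior
  have main : ∀ z, x ≤ z → ∀ c', hi < c' → G μ c' = t * z →
      t * resolventPoint μ hi (t * x) - s * resolventPoint μ hi (s * x) ≤
        t * c' - s * resolventPoint μ hi (s * z) := by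
    intro z hxz c' hc' ec'
    have hz : 0 < z := lt_of_lt_of_le hx hxz
    have hc'eq : resolventPoint μ hi (t * z) = c' := resolventPoint_eq h hc' ec'
    have hcc : c' ≤ resolventPoint μ hi (t * x) := by
      rw [← hc'eq]
      exact rp_anti h htx (mul_le_mul_of_nonneg_left hxz ht.le)
    have hdc : c' ≤ resolventPoint μ hi (s * z) := by
      rw [← hc'eq]
      exact rp_anti h (by positivity) (mul_le_mul_of_nonneg_right hst hz.le)
    have hdd : resolventPoint μ hi (s * z) ≤ resolventPoint μ hi (s * x) :=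
      rp_anti h hsx (mul_le_mul_of_nonneg_left hxz hs.le)
    have solve : ∀ w, 0 < w → hi < resolventPoint μ hi w → G μ (resolventPoint μ hi w) = w := by
      intro w hw hlt
      rcases rp_cases h hw with ⟨_, h2⟩ | ⟨h1, _⟩
      · exact h2
      · rw [h1] at hlt; exact absurd hlt (lt_irrefl _)
    have := interior_compare h hs hlt hc' hcc (lt_of_lt_of_le hc' hdc) hdd
      (solve _ htx (lt_of_lt_of_le hc' hcc)) ec'
      (solve _ hsx (lt_of_lt_of_le hc' (hdc.trans hdd))) (solve _ (by positivity)
        (lt_of_lt_of_le hc' hdc))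
    linarith
  rcases rp_cases h hty with ⟨hy1, hy2⟩ | ⟨hy1, hy2⟩
  · exact main y hxy _ hy1 hy2
  · rw [hy1]
    rcases rp_cases h htx with ⟨hx1, hx2⟩ | ⟨hx1, _⟩
    · refine le_of_forall_pos_le_add ?_
      intro ε hε
      set c' := min (resolventPoint μ hi (t * x)) (hi + ε / t) with hc'def
      have hεt : 0 < ε / t := by positivity
      have hc' : hi < c' := lt_min hx1 (by linarith)
      have hc'le : c' ≤ resolventPoint μ hi (t * x) := min_le_left _ _
      have hGx : t * x ≤ G μ c' := by
        rw [← hx2]; exact G_anti h hc' hc'le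
      have hGy : G μ c' < t * y := hy2 _ hc'
      set z := G μ c' / t with hz
      have hzx : x ≤ z := by rw [hz, le_div_iff₀ ht]; linarith
      have hzy : z ≤ y := by rw [hz, div_le_iff₀ ht]; linarith
      have hGz : G μ c' = t * z := by rw [hz]; field_simp
      have h1 := main z hzx c' hc' hGz
      have hz0 : 0 < z := lt_of_lt_of_le hx hzx
      have h2 : resolventPoint μ hi (s * y) ≤ resolventPoint μ hi (s * z) :=
        rp_anti h (by positivity) (mul_le_mul_of_nonneg_left hzy hs.le)
      have h3 : s * resolventPoint μ hi (s * y) ≤ s * resolventPoint μ hi (s * z) :=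
        mul_le_mul_of_nonneg_left h2 hs.le
      have h4 : c' ≤ hi + ε / t := min_le_right _ _
      have h5 : t * c' ≤ t * (hi + ε / t) := mul_le_mul_of_nonneg_left h4 ht.le
      have h6 : t * (hi + ε / t) = t * hi + ε := by field_simp
      linarith
    · rw [hx1]
      have h3 : s * resolventPoint μ hi (s * y) ≤ s * resolventPoint μ hi (s * x) :=
        mul_le_mul_of_nonneg_left (rp_anti h hsx hsxy) hs.le
      linarith

/-- **helper893's lemma**: for `0 ≤ s ≤ t` the function `x ↦ t R(t x) - s R(s x)` is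
nondecreasing on `[0, ∞)`. -/
theorem rT_incr_mono (h : μ (Icc lo hi) = 1) {s t x y : ℝ} (hs : 0 ≤ s) (hst : s ≤ t)
    (hx : 0 ≤ x) (hxy : x ≤ y) :
    t * rTransform μ hi (t * x) - s * rTransform μ hi (s * x) ≤
      t * rTransform μ hi (t * y) - s * rTransform μ hi (s * y) := by
  have ht : 0 ≤ t := hs.trans hst
  have hy : 0 ≤ y := hx.trans hxy
  rcases hs.eq_or_lt with rfl | hs
  · have := rT_mono h (mul_nonneg ht hx) (mul_le_mul_of_nonneg_left hxy ht)
    have := mul_le_mul_of_nonneg_left this ht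
    simpa using this
  have ht : 0 < t := lt_of_lt_of_le hs hst
  rcases hx.eq_or_lt with rfl | hx
  · have h1 : rTransform μ hi (s * y) ≤ rTransform μ hi (t * y) :=
      rT_mono h (mul_nonneg hs.le hy) (mul_le_mul_of_nonneg_right hst hy)
    have h2 : (∫ l, l ∂μ) ≤ rTransform μ hi (s * y) := rT_ge_mean h (mul_nonneg hs.le hy)
    simp only [mul_zero, rT_zero]
    have h3 : s * (rTransform μ hi (s * y) - ∫ l, l ∂μ) ≤
        t * (rTransform μ hi (t * y) - ∫ l, l ∂μ) :=
      mul_le_mul hst (by linarith) (by linarith) ht.le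
    linarith
  have hy : 0 < y := lt_of_lt_of_le hx hxy
  have e : ∀ w r : ℝ, 0 < w → 0 < r → r * rTransform μ hi (r * w) =
      r * resolventPoint μ hi (r * w) - 1 / w := by
    intro w r hw hr
    rw [rT_pos (by positivity)]
    field_simp
  rw [e x t hx ht, e x s hx hs, e y t hy ht, e y s hy hs]
  have := rp_compare h hs hst hx hxy
  linarith

/-! ### Scaling -/

omit [IsProbabilityMeasure μ] in
lemma map_Icc (h : μ (Icc lo hi) = 1) {t : ℝ} (ht : 0 < t) :
    (μ.map (fun l => t * l)) (Icc (t * lo) (t * hi)) = 1 := by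
  rw [Measure.map_apply (by fun_prop) measurableSet_Icc]
  have : (fun l : ℝ => t * l) ⁻¹' Icc (t * lo) (t * hi) = Icc lo hi := by
    ext l
    simp only [mem_preimage, mem_Icc]
    constructor
    · rintro ⟨h1, h2⟩
      exact ⟨le_of_mul_le_mul_left h1 ht, le_of_mul_le_mul_left h2 ht⟩
    · rintro ⟨h1, h2⟩
      exact ⟨mul_le_mul_of_nonneg_left h1 ht.le, mul_le_mul_of_nonneg_left h2 ht.le⟩
  rw [this, h]

omit [IsProbabilityMeasure μ] in
lemma G_map {t : ℝ} (ht : 0 < t) (b : ℝ) : G (μ.map (fun l => t * l)) (t * b) = G μ b / t := by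
  unfold G
  rw [integral_map (by fun_prop) (by fun_prop), ← integral_div]
  congr 1; ext l
  rw [← mul_sub, mul_inv]
  field_simp

/-- `b_{tμ}(x) = t b_μ(t x)`. -/
theorem rp_map (h : μ (Icc lo hi) = 1) {t : ℝ} (ht : 0 < t) {x : ℝ} (hx : 0 < x) :
    resolventPoint (μ.map (fun l => t * l)) (t * hi) x = t * resolventPoint μ hi (t * x) := by
  have : IsProbabilityMeasure (μ.map (fun l => t * l)) :=
    Measure.isProbabilityMeasure_map (by fun_prop)
  have h' := map_Icc h ht
  rcases rp_cases h (mul_pos ht hx) with ⟨h1, h2⟩ | ⟨h1, h2⟩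
  · refine resolventPoint_eq h' (mul_lt_mul_of_pos_left h1 ht) ?_
    rw [G_map ht, h2]; field_simp
  · rw [h1]
    rcases rp_cases h' hx with ⟨h3, h4⟩ | ⟨h3, _⟩
    · exfalso
      set b := resolventPoint (μ.map (fun l => t * l)) (t * hi) x
      have hb : hi < b / t := by rw [lt_div_iff₀ ht]; linarith
      have e : t * (b / t) = b := by field_simp
      have := G_map (μ := μ) ht (b / t)
      rw [e, h4] at this
      have h5 := h2 _ hb
      rw [this] at h5
      have : t * (G μ (b / t) / t) = G μ (b / t) := by field_simp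
      linarith
    · exact h3

/-- `R_{tμ}(x) = t R_μ(t x)` for `x ≥ 0`. -/
theorem rT_map (h : μ (Icc lo hi) = 1) {t : ℝ} (ht : 0 < t) {x : ℝ} (hx : 0 ≤ x) :
    rTransform (μ.map (fun l => t * l)) (t * hi) x = t * rTransform μ hi (t * x) := by
  rcases hx.eq_or_lt with rfl | hx
  · rw [mul_zero, rT_zero, rT_zero, integral_map (by fun_prop) (by fun_prop), integral_const_mul]
  · rw [rT_pos hx, rT_pos (mul_pos ht hx), rp_map h ht hx]
    field_simp

/-! ### The dual-cone order on paths -/

/-- `q` dominates `p` in the dual-cone order: `∫ (q - p) y ≥ 0` for the indicators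
`y = 1_{p > r}` of upper sets (a consequence of `∫ (q-p) y ≥ 0` for all nonnegative nondecreasing
`y`). -/
def ConeLe (p q : ℝ → ℝ) : Prop :=
  ∀ y : ℝ → ℝ, MonotoneOn y (Ioo (0:ℝ) 1) → (∀ s ∈ Ioo (0:ℝ) 1, 0 ≤ y s ∧ y s ≤ 1) → Measurable y →
    0 ≤ ∫ s in Ioo (0:ℝ) 1, (q s - p s) * y s

/-- the dual-cone order implies the pointwise order of the deficits. -/
theorem deficit_le_of_coneLe {p q : ℝ → ℝ} (hp : IsTrialPath p) (hq : IsTrialPath q)
    (hpq : ConeLe p q) {r : ℝ} (hr : 0 ≤ r) : deficit q r ≤ deficit p r := by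
  unfold deficit
  set y : ℝ → ℝ := fun s => if r < p s then 1 else 0 with hy
  have hym : Measurable y := by
    refine Measurable.ite ?_ measurable_const measurable_const
    exact measurableSet_lt measurable_const hp.1
  have h1 := hpq y (by
    intro a ha b hb hab
    simp only [hy]
    have := hp.2.1 ha hb hab
    split_ifs with h1 h2 h2
    · exact le_rfl
    · exact absurd (lt_of_lt_of_le h1 this) h2
    · exact zero_le_one
    · exact le_rfl) (by
    intro s _
    simp only [hy]
    split_ifs <;> constructor <;> norm_num) hym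
  have hb : IntegrableOn (fun s => (q s - p s) * y s) (Ioo (0:ℝ) 1) := by
    refine Measure.integrableOn_of_bounded (M := 1) (by simp) ?_ ?_
    · exact ((hq.1.sub hp.1).mul hym).aestronglyMeasurable
    · filter_upwards [ae_restrict_mem measurableSet_Ioo] with s hs
      have a := hp.2.2 s hs
      have b := hq.2.2 s hs
      rw [Real.norm_eq_abs, abs_mul]
      have h1 : |q s - p s| ≤ 1 := by rw [abs_le]; constructor <;> linarith [a.1, a.2, b.1, b.2]
      have h2 : |y s| ≤ 1 := by simp only [hy]; split_ifs <;> simp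
      nlinarith [abs_nonneg (q s - p s), abs_nonneg (y s)]
  have h2 : ∫ s in Ioo (0:ℝ) 1, (max (p s - r) 0 + (q s - p s) * y s) ≤
      ∫ s in Ioo (0:ℝ) 1, max (q s - r) 0 := by
    refine setIntegral_mono_on ((pos_part_integrable hp r hr).add hb)
      (pos_part_integrable hq r hr) measurableSet_Ioo ?_
    intro s _
    simp only [hy]
    split_ifs with h
    · rw [max_eq_left (by linarith)]
      have := le_max_left (q s - r) 0
      linarith
    · rw [max_eq_right (by linarith)]
      have := le_max_right (q s - r) 0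
      linarith
  rw [integral_add (pos_part_integrable hp r hr) hb] at h2
  linarith

/-- `spectralPart` is antitone in the dual-cone order. -/
theorem spectralPart_anti (h : μ (Icc lo hi) = 1) {p q : ℝ → ℝ} (hp : IsTrialPath p)
    (hq : IsTrialPath q) (hpq : ConeLe p q) : spectralPart μ hi q ≤ spectralPart μ hi p := by
  unfold spectralPart
  refine mul_le_mul_of_nonneg_left ?_ (by norm_num)
  refine setIntegral_mono_on (integrand_integrable h hq) (integrand_integrable h hp)
    measurableSet_Ioo ?_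
  intro r hr
  exact rT_mono h (deficit_mem hq hr).1 (deficit_le_of_coneLe hp hq hpq hr.1.le)

/-- `G_t(p) = ½ ∫ t R(t D_p(r)) dr`: the spectral part at temperature `t`. -/
noncomputable def specT (μ : Measure ℝ) (hi t : ℝ) (p : ℝ → ℝ) : ℝ :=
  (1 / 2) * ∫ r in Ioo (0:ℝ) 1, t * rTransform μ hi (t * deficit p r)

omit [IsProbabilityMeasure μ] in
lemma specT_one (p : ℝ → ℝ) : specT μ hi 1 p = spectralPart μ hi p := by
  simp [specT, spectralPart]

omit [IsProbabilityMeasure μ] in
lemma specT_zero (p : ℝ → ℝ) : specT μ hi 0 p = 0 := by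
  simp [specT]

/-- `G_t` is the spectral part of the law of `t λ`. -/
theorem specT_eq_map (h : μ (Icc lo hi) = 1) {t : ℝ} (ht : 0 < t) {p : ℝ → ℝ}
    (hp : IsTrialPath p) :
    specT μ hi t p = spectralPart (μ.map (fun l => t * l)) (t * hi) p := by
  unfold specT spectralPart
  congr 1
  refine setIntegral_congr_fun measurableSet_Ioo ?_
  intro r hr
  exact (rT_map h ht (deficit_mem hp hr).1).symm

lemma specT_integrable (h : μ (Icc lo hi) = 1) {t : ℝ} (ht : 0 ≤ t) {p : ℝ → ℝ}
    (hp : IsTrialPath p) :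
    IntegrableOn (fun r => t * rTransform μ hi (t * deficit p r)) (Ioo (0:ℝ) 1) := by
  refine Integrable.const_mul ?_ _
  refine Integrable.mono' (integrable_const (max |lo| |hi|)) ?_ ?_
  · refine AEMeasurable.aestronglyMeasurable ?_
    refine aemeasurable_restrict_of_antitoneOn (μ := volume) (s := Ioo (0:ℝ) 1)
      (f := fun r => rTransform μ hi (t * deficit p r)) measurableSet_Ioo ?_
    intro r hr r' hr' hrr
    exact rT_mono h (mul_nonneg ht (deficit_mem hp hr').1)
      (mul_le_mul_of_nonneg_left (deficit_antitone hp hr hr' hrr) ht)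
  · filter_upwards [ae_restrict_mem measurableSet_Ioo] with r hr
    have := rT_mem h (mul_nonneg ht (deficit_mem hp hr).1)
    rw [Real.norm_eq_abs]
    exact abs_le_max_abs_abs this.1 this.2

/-- The increments of `t ↦ G_t(p)` are antitone in the dual-cone order: for `0 ≤ s ≤ t` and
`q` above `p`, `G_t(q) - G_s(q) ≤ G_t(p) - G_s(p)`. -/
theorem specT_incr_anti (h : μ (Icc lo hi) = 1) {s t : ℝ} (hs : 0 ≤ s) (hst : s ≤ t)
    {p q : ℝ → ℝ} (hp : IsTrialPath p) (hq : IsTrialPath q) (hpq : ConeLe p q) :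
    specT μ hi t q - specT μ hi s q ≤ specT μ hi t p - specT μ hi s p := by
  have ht := hs.trans hst
  unfold specT
  rw [← mul_sub, ← mul_sub, ← integral_sub (specT_integrable h ht hq) (specT_integrable h hs hq),
    ← integral_sub (specT_integrable h ht hp) (specT_integrable h hs hp)]
  refine mul_le_mul_of_nonneg_left ?_ (by norm_num)
  refine setIntegral_mono_on ((specT_integrable h ht hq).sub (specT_integrable h hs hq))
    ((specT_integrable h ht hp).sub (specT_integrable h hs hp)) measurableSet_Ioo ?_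
  intro r hr
  exact rT_incr_mono h hs hst (deficit_mem hq hr).1 (deficit_le_of_coneLe hp hq hpq hr.1.le)

end Crest.Agent.R164.RScale
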