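import Crest.Agent.R164.Rot

/-!
Row 164: the pair-averaged left-rotation relation, pointwise part (fixed matrix, fixed law `Q`).

`T a` (the average over `i ∈ Bk`, `j ∈ Bl` of the integrand of `Rot.sd_pair`) equals
`Γk_a - Γl_a - c {Γl_a D^k_a + Γk_a D^l_a + ∑_{1≤b≤a} m_b (Γk_b Γl_b - Γk_{b-1} Γl_{b-1})}`
up to errors linear in `E|r_b - Γ_b|`, `E Cov²` and `δ`.
-/

set_option autoImplicit false

namespace Crest.Agent.R164.RotRel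

open Finset Crest.Agent.R141 Crest.Agent.R164.Resp

noncomputable section

variable {Ω : Type*} [Fintype Ω] {Q : Ω → ℝ} {𝓕 : Filt Ω} {x : ℕ → ℝ}

/-- `Ψ_l(f,g) = E[E_l f · E_l g]`. -/
def Psi (Q : Ω → ℝ) (𝓕 : Filt Ω) (l : ℕ) (f g : Ω → ℝ) : ℝ :=
  eE Q (fun w => cE Q (𝓕.F l) f w * cE Q (𝓕.F l) g w)

theorem eE_DlDl (hQ : IsProb Q) {l : ℕ} (hl : 1 ≤ l) (f g : Ω → ℝ) :
    eE Q (fun w => Dl Q 𝓕.F l f w * Dl Q 𝓕.F l g w) = Psi Q 𝓕 l f g - Psi Q 𝓕 (l - 1) f g := by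
  rw [← eE_cE hQ (𝓕.F 0)]
  have e : cE Q (𝓕.F 0) (fun w => Dl Q 𝓕.F l f w * Dl Q 𝓕.F l g w) = fun w =>
      cE Q (𝓕.F 0) (fun a => cE Q (𝓕.F l) f a * cE Q (𝓕.F l) g a) w -
      cE Q (𝓕.F 0) (fun a => cE Q (𝓕.F (l - 1)) f a * cE Q (𝓕.F (l - 1)) g a) w :=
    funext fun w => cE_DlDl hQ 𝓕.antitone (by omega) f g w
  rw [e, eE_sub, eE_cE hQ, eE_cE hQ]
  rfl

theorem Psi_self_nonneg (hQ : IsProb Q) (l : ℕ) (f : Ω → ℝ) : 0 ≤ Psi Q 𝓕 l f f :=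
  eE_nonneg hQ fun _ => mul_self_nonneg _

theorem Psi_self_le (hQ : IsProb Q) (l : ℕ) (f : Ω → ℝ) :
    Psi Q 𝓕 l f f ≤ eE Q (fun w => f w ^ 2) := by
  unfold Psi
  rw [← eE_cE hQ (𝓕.F l) (fun w => f w ^ 2)]
  refine eE_mono hQ fun a => ?_
  have := cE_sq_le hQ (𝓕.F l) f a
  rw [← sq]; exact this

theorem sum_Ioc_tele (u : ℕ → ℝ) {p q : ℕ} (hpq : p ≤ q) :
    ∑ m ∈ Ioc p q, (u m - u (m - 1)) = u q - u p := sum_Ioc_telescope u hpq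

/-- total variation of `l ↦ Ψ_l(f,g)`. -/
theorem sum_abs_Psi (hQ : IsProb Q) (f g : Ω → ℝ) {p q : ℕ} (hpq : p ≤ q) :
    ∑ m ∈ Ioc p q, |Psi Q 𝓕 m f g - Psi Q 𝓕 (m - 1) f g| ≤
      (eE Q (fun w => f w ^ 2) + eE Q (fun w => g w ^ 2)) / 2 := by
  have h1 : ∀ m ∈ Ioc p q, |Psi Q 𝓕 m f g - Psi Q 𝓕 (m - 1) f g| ≤
      ((Psi Q 𝓕 m f f - Psi Q 𝓕 (m - 1) f f) + (Psi Q 𝓕 m g g - Psi Q 𝓕 (m - 1) g g)) / 2 := by
    intro m hm
    have hm1 : 1 ≤ m := by have := (Finset.mem_Ioc.mp hm).1; omega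
    rw [← eE_DlDl hQ hm1, ← eE_DlDl hQ hm1, ← eE_DlDl hQ hm1]
    refine (Crest.Agent.R141.eE_abs_le hQ _).trans ?_
    have h2 : (eE Q (fun w => Dl Q 𝓕.F m f w * Dl Q 𝓕.F m f w) +
        eE Q (fun w => Dl Q 𝓕.F m g w * Dl Q 𝓕.F m g w)) / 2 =
        eE Q (fun w => (1 / 2) * (Dl Q 𝓕.F m f w * Dl Q 𝓕.F m f w +
          Dl Q 𝓕.F m g w * Dl Q 𝓕.F m g w)) := by
      rw [eE_smul, eE_add]; ring
    rw [h2]
    refine eE_mono hQ fun a => ?_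
    rw [abs_mul]
    nlinarith [sq_nonneg (|Dl Q 𝓕.F m f a| - |Dl Q 𝓕.F m g a|), sq_abs (Dl Q 𝓕.F m f a),
      sq_abs (Dl Q 𝓕.F m g a)]
  refine (Finset.sum_le_sum h1).trans ?_
  rw [← Finset.sum_div, Finset.sum_add_distrib, sum_Ioc_tele (fun m => Psi Q 𝓕 m f f) hpq,
    sum_Ioc_tele (fun m => Psi Q 𝓕 m g g) hpq]
  have a1 := Psi_self_le (𝓕 := 𝓕) hQ q f
  have a2 := Psi_self_le (𝓕 := 𝓕) hQ q g
  have a3 := Psi_self_nonneg (𝓕 := 𝓕) hQ p f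
  have a4 := Psi_self_nonneg (𝓕 := 𝓕) hQ p g
  linarith

/-- coarse graining of a weighted telescoping sum -/
theorem coarse (x : ℕ → ℝ) {τ : ℕ → ℕ} (hτ : Monotone τ) (mm : ℕ → ℝ) (δ : ℝ) (u : ℕ → ℝ) {p q : ℕ}
    (hpq : p ≤ q)
    (hw : ∀ b, p ≤ b → b < q → ∀ m, τ b < m → m ≤ τ (b + 1) → |x m - mm (b + 1)| ≤ δ) :
    |∑ m ∈ Ioc (τ p) (τ q), x m * (u m - u (m - 1)) -
        ∑ b ∈ Ico p q, mm (b + 1) * (u (τ (b + 1)) - u (τ b))| ≤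
      δ * ∑ m ∈ Ioc (τ p) (τ q), |u m - u (m - 1)| := by
  induction q, hpq using Nat.le_induction with
  | base => simp
  | succ n hn ih =>
    have ih' := ih fun b h1 h2 => hw b h1 (h2.trans (Nat.lt_succ_self n))
    have hd : Disjoint (Ioc (τ p) (τ n)) (Ioc (τ n) (τ (n + 1))) := by
      rw [Finset.disjoint_left]
      intro m h1 h2
      rw [Finset.mem_Ioc] at h1 h2
      omega
    have hu : Ioc (τ p) (τ (n + 1)) = Ioc (τ p) (τ n) ∪ Ioc (τ n) (τ (n + 1)) := by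
      ext m
      rw [Finset.mem_union, Finset.mem_Ioc, Finset.mem_Ioc, Finset.mem_Ioc]
      have h1 := hτ hn
      have h2 := hτ (Nat.le_succ n)
      simp only [Nat.succ_eq_add_one] at h2
      omega
    rw [hu, Finset.sum_union hd, Finset.sum_union hd, Finset.sum_Ico_succ_top hn]
    have h3 : |∑ m ∈ Ioc (τ n) (τ (n + 1)), x m * (u m - u (m - 1)) -
        mm (n + 1) * (u (τ (n + 1)) - u (τ n))| ≤
        δ * ∑ m ∈ Ioc (τ n) (τ (n + 1)), |u m - u (m - 1)| := by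
      rw [← sum_Ioc_tele u (hτ (Nat.le_succ n)), Finset.mul_sum, ← Finset.sum_sub_distrib,
        Finset.mul_sum]
      refine (Finset.abs_sum_le_sum_abs _ _).trans (Finset.sum_le_sum fun m hm => ?_)
      rw [← sub_mul, abs_mul]
      rw [Finset.mem_Ioc] at hm
      exact mul_le_mul_of_nonneg_right (hw n hn (Nat.lt_succ_self n) m hm.1 hm.2) (abs_nonneg _)
    rw [mul_add]
    refine le_trans ?_ (add_le_add ih' h3)
    rw [show ∀ a b c d : ℝ, a + b - (c + d) = (a - c) + (b - d) by intros; ring]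
    exact abs_add_le _ _

/-- `E[Y_t(f,g) h]` for `h` known at time `t`. -/
theorem eE_Yf_mul (hQ : IsProb Q) (f g : Ω → ℝ) {h : Ω → ℝ} {t : ℕ} (hh : RMeas (𝓕.F t) h) :
    eE Q (fun w => Yf Q 𝓕.F x 𝓕.L t f g w * h w) =
      ∑ m ∈ Ioc t 𝓕.L, x m * (Psi Q 𝓕 m (fun a => f a * h a) g -
        Psi Q 𝓕 (m - 1) (fun a => f a * h a) g) := by
  have h1 : (fun w => Yf Q 𝓕.F x 𝓕.L t f g w * h w) = fun w => ∑ m ∈ Ioc t 𝓕.L,
      x m * (cE Q (𝓕.F t) (fun a => Dl Q 𝓕.F m (fun a => f a * h a) a * Dl Q 𝓕.F m g a) w) := by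
    funext w
    unfold Yf
    rw [Finset.sum_mul]
    refine Finset.sum_congr rfl fun m hm => ?_
    rw [mul_assoc]
    congr 1
    rw [← cE_mul_right hh]
    refine cE_congr w fun a _ => ?_
    have hm' := (Finset.mem_Ioc.mp hm).1
    have e1 : cE Q (𝓕.F m) (fun a => f a * h a) a = cE Q (𝓕.F m) f a * h a :=
      cE_mul_right (hh.mono (𝓕.antitone hm'.le)) f a
    have e2 : cE Q (𝓕.F (m - 1)) (fun a => f a * h a) a = cE Q (𝓕.F (m - 1)) f a * h a :=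
      cE_mul_right (hh.mono (𝓕.antitone (by omega))) f a
    unfold Dl
    rw [e1, e2]; ring
  rw [h1, eE_sum]
  refine Finset.sum_congr rfl fun m hm => ?_
  have hm' := (Finset.mem_Ioc.mp hm).1
  rw [eE_smul, eE_cE hQ, eE_DlDl hQ (by omega)]

/-- `E[G score_0(g)]` for `G` known at time `t`. -/
theorem eE_mul_score (hQ : IsProb Q) {G : Ω → ℝ} (g : Ω → ℝ) {t : ℕ} (hG : RMeas (𝓕.F t) G)
    (htL : t ≤ 𝓕.L) :
    eE Q (fun w => G w * score Q 𝓕 x 0 g w) =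
      ∑ m ∈ Ioc 0 t, x m * (Psi Q 𝓕 m G g - Psi Q 𝓕 (m - 1) G g) := by
  rw [eE_score_mul hQ]
  have h1 : eE Q (Yf Q 𝓕.F x 𝓕.L 0 G g) =
      ∑ m ∈ Ioc 0 𝓕.L, x m * (Psi Q 𝓕 m G g - Psi Q 𝓕 (m - 1) G g) := by
    have := eE_Yf_mul (𝓕 := 𝓕) (x := x) hQ G g (h := fun _ => 1) (t := 0) (fun _ _ _ => rfl)
    simpa using this
  rw [h1]
  have hd : Disjoint (Ioc 0 t) (Ioc t 𝓕.L) := by
    rw [Finset.disjoint_left]
    intro m h1 h2
    rw [Finset.mem_Ioc] at h1 h2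
    omega
  have hu : Ioc 0 𝓕.L = Ioc 0 t ∪ Ioc t 𝓕.L := by
    ext m
    rw [Finset.mem_union, Finset.mem_Ioc, Finset.mem_Ioc, Finset.mem_Ioc]
    omega
  rw [hu, Finset.sum_union hd]
  have h2 : ∑ m ∈ Ioc t 𝓕.L, x m * (Psi Q 𝓕 m G g - Psi Q 𝓕 (m - 1) G g) = 0 := by
    refine Finset.sum_eq_zero fun m hm => ?_
    have hm' := (Finset.mem_Ioc.mp hm).1
    rw [← eE_DlDl hQ (by omega)]
    have h3 : ∀ w, Dl Q 𝓕.F m G w = 0 := by
      intro w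
      unfold Dl
      rw [cE_of_meas hQ (hG.mono (𝓕.antitone hm'.le)),
        cE_of_meas hQ (hG.mono (𝓕.antitone (by omega)))]
      ring
    simp only [h3, zero_mul]
    rw [eE_const hQ, mul_zero]
  rw [h2, add_zero]

/-! ### Blocks -/

section blocks

variable {ι : Type*} (X : ι → Ω → ℝ)

/-- block overlap `r^B_l = |B|⁻¹ ∑_{i∈B} (E_l X_i)²`. -/
def rr (Q : Ω → ℝ) (𝓕 : Filt Ω) (B : Finset ι) (l : ℕ) (w : Ω) : ℝ :=
  (B.card : ℝ)⁻¹ * ∑ i ∈ B, (cE Q (𝓕.F l) (X i) w) ^ 2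

/-- average over pairs -/
def av (Bk Bl : Finset ι) (u : ι → ι → ℝ) : ℝ :=
  ((Bk.card : ℝ) * Bl.card)⁻¹ * ∑ i ∈ Bk, ∑ j ∈ Bl, u i j

theorem av_add (Bk Bl : Finset ι) (u v : ι → ι → ℝ) :
    av Bk Bl (fun i j => u i j + v i j) = av Bk Bl u + av Bk Bl v := by
  unfold av; simp only [Finset.sum_add_distrib]; ring

theorem av_sub (Bk Bl : Finset ι) (u v : ι → ι → ℝ) :
    av Bk Bl (fun i j => u i j - v i j) = av Bk Bl u - av Bk Bl v := by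
  unfold av; simp only [Finset.sum_sub_distrib]; ring

theorem av_smul (Bk Bl : Finset ι) (c : ℝ) (u : ι → ι → ℝ) :
    av Bk Bl (fun i j => c * u i j) = c * av Bk Bl u := by
  unfold av; simp only [← Finset.mul_sum]; ring

theorem av_mono (Bk Bl : Finset ι) {u v : ι → ι → ℝ} (h : ∀ i ∈ Bk, ∀ j ∈ Bl, u i j ≤ v i j) :
    av Bk Bl u ≤ av Bk Bl v := by
  unfold av
  refine mul_le_mul_of_nonneg_left ?_ (by positivity)
  exact Finset.sum_le_sum fun i hi => Finset.sum_le_sum fun j hj => h i hi j hj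

theorem av_abs_le (Bk Bl : Finset ι) (u : ι → ι → ℝ) :
    |av Bk Bl u| ≤ av Bk Bl (fun i j => |u i j|) := by
  unfold av
  rw [abs_mul, abs_of_nonneg (by positivity : (0:ℝ) ≤ ((Bk.card : ℝ) * Bl.card)⁻¹)]
  refine mul_le_mul_of_nonneg_left ?_ (by positivity)
  refine (Finset.abs_sum_le_sum_abs _ _).trans (Finset.sum_le_sum fun i _ => ?_)
  exact Finset.abs_sum_le_sum_abs _ _

theorem av_nonneg (Bk Bl : Finset ι) {u : ι → ι → ℝ} (h : ∀ i ∈ Bk, ∀ j ∈ Bl, 0 ≤ u i j) :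
    0 ≤ av Bk Bl u := by
  unfold av
  exact mul_nonneg (by positivity) (Finset.sum_nonneg fun i hi => Finset.sum_nonneg fun j hj =>
    h i hi j hj)

theorem av_sum {κ : Type*} (Bk Bl : Finset ι) (s : Finset κ) (u : κ → ι → ι → ℝ) :
    av Bk Bl (fun i j => ∑ m ∈ s, u m i j) = ∑ m ∈ s, av Bk Bl (u m) := by
  unfold av
  rw [← Finset.mul_sum]
  congr 1
  calc ∑ i ∈ Bk, ∑ j ∈ Bl, ∑ m ∈ s, u m i j = ∑ i ∈ Bk, ∑ m ∈ s, ∑ j ∈ Bl, u m i j :=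
        Finset.sum_congr rfl fun i _ => Finset.sum_comm
    _ = _ := Finset.sum_comm

theorem av_eE (Bk Bl : Finset ι) (u : ι → ι → Ω → ℝ) :
    av Bk Bl (fun i j => eE Q (u i j)) = eE Q (fun w => av Bk Bl (fun i j => u i j w)) := by
  unfold av
  rw [eE_smul, eE_sum]
  congr 1
  refine Finset.sum_congr rfl fun i _ => ?_
  rw [eE_sum]

theorem av_mul (Bk Bl : Finset ι) (f g : ι → ℝ) :
    av Bk Bl (fun i j => f i * g j) =
      ((Bk.card : ℝ)⁻¹ * ∑ i ∈ Bk, f i) * ((Bl.card : ℝ)⁻¹ * ∑ j ∈ Bl, g j) := by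
  unfold av
  rw [← Finset.sum_mul_sum, mul_inv]; ring

/-- bound of the block overlap -/
theorem rr_le (hQ : IsProb Q) {B : Finset ι} {K : ℝ} (hB : 0 < B.card)
    (hK : ∀ w, ∑ i ∈ B, X i w ^ 2 ≤ K * B.card) (l : ℕ) (w : Ω) : rr X Q 𝓕 B l w ≤ K := by
  unfold rr
  have hB' : (0:ℝ) < B.card := by exact_mod_cast hB
  rw [inv_mul_le_iff₀ hB', mul_comm]
  calc ∑ i ∈ B, (cE Q (𝓕.F l) (X i) w) ^ 2 ≤ ∑ i ∈ B, cE Q (𝓕.F l) (fun a => X i a ^ 2) w :=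
        Finset.sum_le_sum fun i _ => cE_sq_le hQ _ _ w
    _ = cE Q (𝓕.F l) (fun a => ∑ i ∈ B, X i a ^ 2) w := (cE_sum _ _ _ _ w).symm
    _ ≤ K * B.card := cE_le_of_le hQ hK w

theorem rr_nonneg (B : Finset ι) (l : ℕ) (w : Ω) : 0 ≤ rr X Q 𝓕 B l w :=
  mul_nonneg (by positivity) (Finset.sum_nonneg fun _ _ => sq_nonneg _)

omit [Fintype Ω] in
theorem K_nonneg {B : Finset ι} {K : ℝ} (hB : 0 < B.card) (w : Ω)
    (hK : ∀ w, ∑ i ∈ B, X i w ^ 2 ≤ K * B.card) : 0 ≤ K := by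
  have hB' : (0:ℝ) < B.card := by exact_mod_cast hB
  have h := hK w
  have h0 : 0 ≤ ∑ i ∈ B, X i w ^ 2 := Finset.sum_nonneg fun _ _ => sq_nonneg _
  by_contra hc
  push Not at hc
  nlinarith

omit [Fintype Ω] in
/-- block mean of squares -/
theorem bm_le {B : Finset ι} {K : ℝ} (hB : 0 < B.card)
    (hK : ∀ w, ∑ i ∈ B, X i w ^ 2 ≤ K * B.card) (w : Ω) :
    (B.card : ℝ)⁻¹ * ∑ i ∈ B, X i w ^ 2 ≤ K := by
  have hB' : (0:ℝ) < B.card := by exact_mod_cast hB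
  rw [inv_mul_le_iff₀ hB', mul_comm]; exact hK w

/-- `|∫ a b| ≤ θ/2 ∫ a² + 1/(2θ) ∫ b²`. -/
theorem eE_mul_le (hQ : IsProb Q) {θ : ℝ} (hθ : 0 < θ) (a b : Ω → ℝ) :
    |eE Q (fun w => a w * b w)| ≤
      θ / 2 * eE Q (fun w => a w ^ 2) + 1 / (2 * θ) * eE Q (fun w => b w ^ 2) := by
  refine (Crest.Agent.R141.eE_abs_le hQ _).trans ?_
  rw [← eE_smul, ← eE_smul, ← eE_add]
  refine eE_mono hQ fun w => ?_
  rw [abs_mul]
  have h1 : θ / 2 * a w ^ 2 + 1 / (2 * θ) * b w ^ 2 - |a w| * |b w| =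
      1 / (2 * θ) * (θ * |a w| - |b w|) ^ 2 := by
    rw [← sq_abs (a w), ← sq_abs (b w)]
    field_simp
    ring
  have h2 : 0 ≤ 1 / (2 * θ) * (θ * |a w| - |b w|) ^ 2 := by positivity
  linarith

variable {Bk Bl : Finset ι} {K θ : ℝ}

/-- evaluation of `Ψ_l(X_i E_t X_j, X_i X_j)` for `t ≤ l`. -/
theorem type2 (hQ : IsProb Q) (hθ : 0 < θ) (hBk : 0 < Bk.card) (hBl : 0 < Bl.card)
    (hk : ∀ w, ∑ i ∈ Bk, X i w ^ 2 ≤ K * Bk.card) (hl : ∀ w, ∑ i ∈ Bl, X i w ^ 2 ≤ K * Bl.card)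
    {t l : ℕ} (htl : t ≤ l) {gk gl : ℝ} (hgk : 0 ≤ gk) (hgk' : gk ≤ K) :
    |av Bk Bl (fun i j => Psi Q 𝓕 l (fun a => X i a * cE Q (𝓕.F t) (X j) a)
        (fun a => X i a * X j a)) - gk * gl| ≤
      θ * K ^ 2 + 1 / θ * av Bk Bl (fun i j => eE Q (fun w =>
        covR Q (𝓕.F l) (X i) (X j) w ^ 2)) +
      K * (eE Q (fun w => |rr X Q 𝓕 Bk l w - gk|) + eE Q (fun w => |rr X Q 𝓕 Bl t w - gl|)) := by
  rcases isEmpty_or_nonempty Ω with hΩ | ⟨⟨w0⟩⟩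
  · exfalso
    have := hQ.sum
    simp at this
  have hK : 0 ≤ K := K_nonneg X hBk w0 hk
  -- algebraic decomposition
  have e1 : ∀ i j, Psi Q 𝓕 l (fun a => X i a * cE Q (𝓕.F t) (X j) a) (fun a => X i a * X j a) =
      eE Q (fun w => (cE Q (𝓕.F l) (X i) w) ^ 2 * (cE Q (𝓕.F t) (X j) w * cE Q (𝓕.F l) (X j) w)) +
      eE Q (fun w => (cE Q (𝓕.F l) (X i) w * cE Q (𝓕.F t) (X j) w) *
        covR Q (𝓕.F l) (X i) (X j) w) := by
    intro i j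
    unfold Psi
    rw [← eE_add]
    congr 1
    funext w
    have : cE Q (𝓕.F l) (fun a => X i a * cE Q (𝓕.F t) (X j) a) w =
        cE Q (𝓕.F l) (X i) w * cE Q (𝓕.F t) (X j) w :=
      cE_mul_right ((cE_meas Q (𝓕.F t) (X j)).mono (𝓕.antitone htl)) _ w
    rw [this]
    unfold covR
    ring
  simp only [e1]
  rw [av_add]
  -- main part
  have e2 : av Bk Bl (fun i j => eE Q (fun w => (cE Q (𝓕.F l) (X i) w) ^ 2 *
      (cE Q (𝓕.F t) (X j) w * cE Q (𝓕.F l) (X j) w))) =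
      eE Q (fun w => rr X Q 𝓕 Bk l w *
        ((Bl.card : ℝ)⁻¹ * ∑ j ∈ Bl, cE Q (𝓕.F t) (X j) w * cE Q (𝓕.F l) (X j) w)) := by
    rw [av_eE]
    congr 1
    funext w
    rw [av_mul]; rfl
  set R : Ω → ℝ := fun w => (Bl.card : ℝ)⁻¹ *
    ∑ j ∈ Bl, cE Q (𝓕.F t) (X j) w * cE Q (𝓕.F l) (X j) w with hR
  have hRabs : ∀ w, |R w| ≤ K := by
    intro w
    have h1 : |R w| ≤ (rr X Q 𝓕 Bl t w + rr X Q 𝓕 Bl l w) / 2 := by
      simp only [hR, rr]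
      rw [abs_mul, abs_of_nonneg (by positivity : (0:ℝ) ≤ (Bl.card : ℝ)⁻¹), ← mul_add, mul_div_assoc]
      refine mul_le_mul_of_nonneg_left ?_ (by positivity)
      refine (Finset.abs_sum_le_sum_abs _ _).trans ?_
      rw [← Finset.sum_add_distrib, Finset.sum_div]
      refine Finset.sum_le_sum fun j _ => ?_
      rw [abs_mul]
      nlinarith [sq_nonneg (|cE Q (𝓕.F t) (X j) w| - |cE Q (𝓕.F l) (X j) w|),
        sq_abs (cE Q (𝓕.F t) (X j) w), sq_abs (cE Q (𝓕.F l) (X j) w)]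
    have h2 := rr_le (𝓕 := 𝓕) X hQ hBl hl t w
    have h3 := rr_le (𝓕 := 𝓕) X hQ hBl hl l w
    linarith
  have hRE : eE Q R = eE Q (rr X Q 𝓕 Bl t) := by
    simp only [hR]
    have e3 : eE Q (rr X Q 𝓕 Bl t) = eE Q (fun w => (Bl.card : ℝ)⁻¹ *
        ∑ j ∈ Bl, (cE Q (𝓕.F t) (X j) w) ^ 2) := rfl
    rw [e3, eE_smul, eE_smul, eE_sum, eE_sum]
    congr 1
    refine Finset.sum_congr rfl fun j _ => ?_
    rw [← eE_cE hQ (𝓕.F t)]
    congr 1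
    funext w
    rw [cE_mul_left (cE_meas Q (𝓕.F t) (X j)), cE_tower hQ (𝓕.antitone htl)]
    ring
  have m1 : |eE Q (fun w => rr X Q 𝓕 Bk l w * R w) - gk * gl| ≤
      K * (eE Q (fun w => |rr X Q 𝓕 Bk l w - gk|) + eE Q (fun w => |rr X Q 𝓕 Bl t w - gl|)) := by
    have e4 : eE Q (fun w => rr X Q 𝓕 Bk l w * R w) - gk * gl =
        eE Q (fun w => (rr X Q 𝓕 Bk l w - gk) * R w) +
          gk * eE Q (fun w => rr X Q 𝓕 Bl t w - gl) := by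
      have a1 : (fun w => (rr X Q 𝓕 Bk l w - gk) * R w) = fun w =>
          rr X Q 𝓕 Bk l w * R w - gk * R w := by funext w; ring
      rw [a1, eE_sub, eE_smul, hRE]
      have a2 : eE Q (fun w => rr X Q 𝓕 Bl t w - gl) = eE Q (rr X Q 𝓕 Bl t) - gl := by
        rw [eE_sub, eE_const hQ]
      rw [a2]; ring
    rw [e4]
    refine (abs_add_le _ _).trans ?_
    rw [mul_add]
    refine add_le_add ?_ ?_
    · refine (Crest.Agent.R141.eE_abs_le hQ _).trans ?_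
      rw [← eE_smul]
      refine eE_mono hQ fun w => ?_
      rw [abs_mul, mul_comm]
      exact mul_le_mul_of_nonneg_right (hRabs w) (abs_nonneg _)
    · rw [abs_mul, abs_of_nonneg hgk]
      exact mul_le_mul hgk' (Crest.Agent.R141.eE_abs_le hQ _) (abs_nonneg _) hK
  -- covariance part
  have m2 : |av Bk Bl (fun i j => eE Q (fun w => (cE Q (𝓕.F l) (X i) w * cE Q (𝓕.F t) (X j) w) *
        covR Q (𝓕.F l) (X i) (X j) w))| ≤ θ / 2 * K ^ 2 + 1 / (2 * θ) *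
        av Bk Bl (fun i j => eE Q (fun w => covR Q (𝓕.F l) (X i) (X j) w ^ 2)) := by
    refine (av_abs_le _ _ _).trans ?_
    refine (av_mono Bk Bl (v := fun i j => θ / 2 * eE Q (fun w =>
      (cE Q (𝓕.F l) (X i) w * cE Q (𝓕.F t) (X j) w) ^ 2) + 1 / (2 * θ) *
      eE Q (fun w => covR Q (𝓕.F l) (X i) (X j) w ^ 2)) fun i _ j _ => eE_mul_le hQ hθ _ _).trans ?_
    rw [av_add, av_smul, av_smul]
    refine add_le_add_left ?_ _
    refine mul_le_mul_of_nonneg_left ?_ (by positivity)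
    rw [av_eE]
    refine eE_le_of_le hQ fun w => ?_
    have e5 : av Bk Bl (fun i j => (cE Q (𝓕.F l) (X i) w * cE Q (𝓕.F t) (X j) w) ^ 2) =
        rr X Q 𝓕 Bk l w * rr X Q 𝓕 Bl t w := by
      have : (fun i j => (cE Q (𝓕.F l) (X i) w * cE Q (𝓕.F t) (X j) w) ^ 2) = fun i j =>
          (cE Q (𝓕.F l) (X i) w) ^ 2 * (cE Q (𝓕.F t) (X j) w) ^ 2 := by
        funext i j; ring
      rw [this, av_mul]; rfl
    rw [e5, sq]
    exact mul_le_mul (rr_le X hQ hBk hk l w) (rr_le X hQ hBl hl t w) (rr_nonneg X _ _ _) hK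
  rw [e2]
  have hcov : 0 ≤ av Bk Bl (fun i j => eE Q (fun w => covR Q (𝓕.F l) (X i) (X j) w ^ 2)) :=
    av_nonneg _ _ fun i _ j _ => eE_nonneg hQ fun _ => sq_nonneg _
  have h6 : θ / 2 * K ^ 2 ≤ θ * K ^ 2 := by nlinarith [sq_nonneg K]
  have h7 : 1 / (2 * θ) * av Bk Bl (fun i j => eE Q (fun w => covR Q (𝓕.F l) (X i) (X j) w ^ 2)) ≤
      1 / θ * av Bk Bl (fun i j => eE Q (fun w => covR Q (𝓕.F l) (X i) (X j) w ^ 2)) := by
    refine mul_le_mul_of_nonneg_right ?_ hcov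
    exact one_div_le_one_div_of_le hθ (by linarith)
  rw [abs_le] at m1 m2 ⊢
  constructor <;> linarith [m1.1, m1.2, m2.1, m2.2]

/-- evaluation of `Ψ_l(E_t X_i E_t X_j, X_i X_j)` for `l ≤ t`. -/
theorem type3 (hQ : IsProb Q) (hθ : 0 < θ) (hBk : 0 < Bk.card) (hBl : 0 < Bl.card)
    (hk : ∀ w, ∑ i ∈ Bk, X i w ^ 2 ≤ K * Bk.card) (hl : ∀ w, ∑ i ∈ Bl, X i w ^ 2 ≤ K * Bl.card)
    {t l : ℕ} (hlt : l ≤ t) {gk gl : ℝ} (hgk : 0 ≤ gk) (hgk' : gk ≤ K) :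
    |av Bk Bl (fun i j => Psi Q 𝓕 l (fun a => cE Q (𝓕.F t) (X i) a * cE Q (𝓕.F t) (X j) a)
        (fun a => X i a * X j a)) - gk * gl| ≤
      θ * K ^ 2 + 1 / θ * (av Bk Bl (fun i j => eE Q (fun w =>
        covR Q (𝓕.F l) (cE Q (𝓕.F t) (X i)) (cE Q (𝓕.F t) (X j)) w ^ 2)) +
        av Bk Bl (fun i j => eE Q (fun w => covR Q (𝓕.F l) (X i) (X j) w ^ 2))) +
      K * (eE Q (fun w => |rr X Q 𝓕 Bk l w - gk|) + eE Q (fun w => |rr X Q 𝓕 Bl l w - gl|)) := by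
  rcases isEmpty_or_nonempty Ω with hΩ | ⟨⟨w0⟩⟩
  · exfalso
    have := hQ.sum
    simp at this
  have hK : 0 ≤ K := K_nonneg X hBk w0 hk
  have e1 : ∀ i j, Psi Q 𝓕 l (fun a => cE Q (𝓕.F t) (X i) a * cE Q (𝓕.F t) (X j) a)
      (fun a => X i a * X j a) =
      eE Q (fun w => (cE Q (𝓕.F l) (X i) w) ^ 2 * (cE Q (𝓕.F l) (X j) w) ^ 2) +
      (eE Q (fun w => cE Q (𝓕.F l) (fun a => X i a * X j a) w *
        covR Q (𝓕.F l) (cE Q (𝓕.F t) (X i)) (cE Q (𝓕.F t) (X j)) w) +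
      eE Q (fun w => (cE Q (𝓕.F l) (X i) w * cE Q (𝓕.F l) (X j) w) *
        covR Q (𝓕.F l) (X i) (X j) w)) := by
    intro i j
    unfold Psi
    rw [← eE_add, ← eE_add]
    congr 1
    funext w
    unfold covR
    rw [cE_tower hQ (𝓕.antitone hlt), cE_tower hQ (𝓕.antitone hlt)]
    ring
  simp only [e1]
  rw [av_add, av_add]
  have e2 : av Bk Bl (fun i j => eE Q (fun w => (cE Q (𝓕.F l) (X i) w) ^ 2 *
      (cE Q (𝓕.F l) (X j) w) ^ 2)) = eE Q (fun w => rr X Q 𝓕 Bk l w * rr X Q 𝓕 Bl l w) := by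
    rw [av_eE]
    congr 1
    funext w
    rw [av_mul]; rfl
  have m1 : |eE Q (fun w => rr X Q 𝓕 Bk l w * rr X Q 𝓕 Bl l w) - gk * gl| ≤
      K * (eE Q (fun w => |rr X Q 𝓕 Bk l w - gk|) + eE Q (fun w => |rr X Q 𝓕 Bl l w - gl|)) := by
    have e4 : eE Q (fun w => rr X Q 𝓕 Bk l w * rr X Q 𝓕 Bl l w) - gk * gl =
        eE Q (fun w => (rr X Q 𝓕 Bk l w - gk) * rr X Q 𝓕 Bl l w) +
          gk * eE Q (fun w => rr X Q 𝓕 Bl l w - gl) := by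
      have a1 : (fun w => (rr X Q 𝓕 Bk l w - gk) * rr X Q 𝓕 Bl l w) = fun w =>
          rr X Q 𝓕 Bk l w * rr X Q 𝓕 Bl l w - gk * rr X Q 𝓕 Bl l w := by funext w; ring
      have a2 : eE Q (fun w => rr X Q 𝓕 Bl l w - gl) = eE Q (rr X Q 𝓕 Bl l) - gl := by
        rw [eE_sub, eE_const hQ]
      have a3 : eE Q (fun w => gk * rr X Q 𝓕 Bl l w) = gk * eE Q (rr X Q 𝓕 Bl l) := eE_smul _ _ _
      rw [a1, eE_sub, a2, a3]; ring
    rw [e4]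
    refine (abs_add_le _ _).trans ?_
    rw [mul_add]
    refine add_le_add ?_ ?_
    · refine (Crest.Agent.R141.eE_abs_le hQ _).trans ?_
      rw [← eE_smul]
      refine eE_mono hQ fun w => ?_
      rw [abs_mul, mul_comm, abs_of_nonneg (rr_nonneg X _ _ _)]
      exact mul_le_mul_of_nonneg_right (rr_le X hQ hBl hl l w) (abs_nonneg _)
    · rw [abs_mul, abs_of_nonneg hgk]
      exact mul_le_mul hgk' (Crest.Agent.R141.eE_abs_le hQ _) (abs_nonneg _) hK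
  have sqK : ∀ w, av Bk Bl (fun i j => (cE Q (𝓕.F l) (X i) w * cE Q (𝓕.F l) (X j) w) ^ 2) ≤
      K ^ 2 := by
    intro w
    have e5 : av Bk Bl (fun i j => (cE Q (𝓕.F l) (X i) w * cE Q (𝓕.F l) (X j) w) ^ 2) =
        rr X Q 𝓕 Bk l w * rr X Q 𝓕 Bl l w := by
      have : (fun i j => (cE Q (𝓕.F l) (X i) w * cE Q (𝓕.F l) (X j) w) ^ 2) = fun i j =>
          (cE Q (𝓕.F l) (X i) w) ^ 2 * (cE Q (𝓕.F l) (X j) w) ^ 2 := by
        funext i j; ring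
      rw [this, av_mul]; rfl
    rw [e5, sq]
    exact mul_le_mul (rr_le X hQ hBk hk l w) (rr_le X hQ hBl hl l w) (rr_nonneg X _ _ _) hK
  have m2 : |av Bk Bl (fun i j => eE Q (fun w => (cE Q (𝓕.F l) (X i) w * cE Q (𝓕.F l) (X j) w) *
        covR Q (𝓕.F l) (X i) (X j) w))| ≤ θ / 2 * K ^ 2 + 1 / (2 * θ) *
        av Bk Bl (fun i j => eE Q (fun w => covR Q (𝓕.F l) (X i) (X j) w ^ 2)) := by
    refine (av_abs_le _ _ _).trans ?_
    refine (av_mono Bk Bl (v := fun i j => θ / 2 * eE Q (fun w =>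
      (cE Q (𝓕.F l) (X i) w * cE Q (𝓕.F l) (X j) w) ^ 2) + 1 / (2 * θ) *
      eE Q (fun w => covR Q (𝓕.F l) (X i) (X j) w ^ 2)) fun i _ j _ => eE_mul_le hQ hθ _ _).trans ?_
    rw [av_add, av_smul, av_smul]
    refine add_le_add_left ?_ _
    refine mul_le_mul_of_nonneg_left ?_ (by positivity)
    rw [av_eE]
    exact eE_le_of_le hQ sqK
  have m3 : |av Bk Bl (fun i j => eE Q (fun w => cE Q (𝓕.F l) (fun a => X i a * X j a) w *
        covR Q (𝓕.F l) (cE Q (𝓕.F t) (X i)) (cE Q (𝓕.F t) (X j)) w))| ≤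
        θ / 2 * K ^ 2 + 1 / (2 * θ) * av Bk Bl (fun i j => eE Q (fun w =>
          covR Q (𝓕.F l) (cE Q (𝓕.F t) (X i)) (cE Q (𝓕.F t) (X j)) w ^ 2)) := by
    refine (av_abs_le _ _ _).trans ?_
    refine (av_mono Bk Bl (v := fun i j => θ / 2 * eE Q (fun w =>
      (cE Q (𝓕.F l) (fun a => X i a * X j a) w) ^ 2) + 1 / (2 * θ) *
      eE Q (fun w => covR Q (𝓕.F l) (cE Q (𝓕.F t) (X i)) (cE Q (𝓕.F t) (X j)) w ^ 2))
      fun i _ j _ => eE_mul_le hQ hθ _ _).trans ?_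
    rw [av_add, av_smul, av_smul]
    refine add_le_add_left ?_ _
    refine mul_le_mul_of_nonneg_left ?_ (by positivity)
    have h8 : av Bk Bl (fun i j => eE Q (fun w => (cE Q (𝓕.F l) (fun a => X i a * X j a) w) ^ 2)) ≤
        av Bk Bl (fun i j => eE Q (fun w => X i w ^ 2 * X j w ^ 2)) := by
      refine av_mono _ _ fun i _ j _ => ?_
      have e6 : (fun w => X i w ^ 2 * X j w ^ 2) = fun w => (X i w * X j w) ^ 2 := by
        funext w; ring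
      rw [e6, ← eE_cE hQ (𝓕.F l) (fun w => (X i w * X j w) ^ 2)]
      exact eE_mono hQ fun w => cE_sq_le hQ _ _ w
    refine h8.trans ?_
    rw [av_eE]
    refine eE_le_of_le hQ fun w => ?_
    rw [av_mul, sq]
    exact mul_le_mul (bm_le X hBk hk w) (bm_le X hBl hl w)
      (mul_nonneg (by positivity) (Finset.sum_nonneg fun _ _ => sq_nonneg _)) hK
  rw [e2]
  have hc1 : 0 ≤ av Bk Bl (fun i j => eE Q (fun w => covR Q (𝓕.F l) (X i) (X j) w ^ 2)) :=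
    av_nonneg _ _ fun i _ j _ => eE_nonneg hQ fun _ => sq_nonneg _
  have hc2 : 0 ≤ av Bk Bl (fun i j => eE Q (fun w =>
      covR Q (𝓕.F l) (cE Q (𝓕.F t) (X i)) (cE Q (𝓕.F t) (X j)) w ^ 2)) :=
    av_nonneg _ _ fun i _ j _ => eE_nonneg hQ fun _ => sq_nonneg _
  have hθ2 : 1 / (2 * θ) ≤ 1 / θ := one_div_le_one_div_of_le hθ (by linarith)
  have h7 := mul_le_mul_of_nonneg_right hθ2 hc1
  have h8 := mul_le_mul_of_nonneg_right hθ2 hc2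
  rw [mul_add]
  rw [abs_le] at m1 m2 m3 ⊢
  constructor <;> linarith [m1.1, m1.2, m2.1, m2.2, m3.1, m3.2]

theorem av_swap (Bk Bl : Finset ι) (u : ι → ι → ℝ) :
    av Bk Bl u = av Bl Bk (fun j i => u i j) := by
  unfold av
  rw [Finset.sum_comm, mul_comm (Bk.card : ℝ)]

theorem tv_av (hQ : IsProb Q) (f g : ι → ι → Ω → ℝ) {K2 : ℝ}
    (hf : av Bk Bl (fun i j => eE Q (fun w => f i j w ^ 2)) ≤ K2)
    (hg : av Bk Bl (fun i j => eE Q (fun w => g i j w ^ 2)) ≤ K2) {p q : ℕ} (hpq : p ≤ q) :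
    ∑ m ∈ Ioc p q, |av Bk Bl (fun i j => Psi Q 𝓕 m (f i j) (g i j)) -
      av Bk Bl (fun i j => Psi Q 𝓕 (m - 1) (f i j) (g i j))| ≤ K2 := by
  calc ∑ m ∈ Ioc p q, |av Bk Bl (fun i j => Psi Q 𝓕 m (f i j) (g i j)) -
      av Bk Bl (fun i j => Psi Q 𝓕 (m - 1) (f i j) (g i j))|
      ≤ ∑ m ∈ Ioc p q, av Bk Bl (fun i j =>
        |Psi Q 𝓕 m (f i j) (g i j) - Psi Q 𝓕 (m - 1) (f i j) (g i j)|) := by
        refine Finset.sum_le_sum fun m _ => ?_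
        rw [← av_sub]
        exact av_abs_le _ _ _
    _ = av Bk Bl (fun i j => ∑ m ∈ Ioc p q,
        |Psi Q 𝓕 m (f i j) (g i j) - Psi Q 𝓕 (m - 1) (f i j) (g i j)|) := (av_sum _ _ _ _).symm
    _ ≤ av Bk Bl (fun i j => (1 / 2) * (eE Q (fun w => f i j w ^ 2) +
        eE Q (fun w => g i j w ^ 2))) := by
        refine av_mono _ _ fun i _ j _ => ?_
        have := sum_abs_Psi (𝓕 := 𝓕) hQ (f i j) (g i j) hpq
        linarith
    _ = (1 / 2) * (av Bk Bl (fun i j => eE Q (fun w => f i j w ^ 2)) +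
        av Bk Bl (fun i j => eE Q (fun w => g i j w ^ 2))) := by rw [av_smul, av_add]
    _ ≤ K2 := by linarith

omit [Fintype Ω] in
/-- discrete comparison of weighted telescoping sums -/
theorem discrete {mm u v : ℕ → ℝ} {p q n : ℕ} {E : ℝ} (hqn : q ≤ n) (_hpq : p ≤ q)
    (hm0 : ∀ b, 0 ≤ mm b) (hm1 : ∀ b, mm b ≤ 1) (hE : 0 ≤ E)
    (huv : ∀ b, p ≤ b → b ≤ q → |u b - v b| ≤ E) :
    |∑ b ∈ Ico p q, mm (b + 1) * (u (b + 1) - u b) - ∑ b ∈ Ico p q, mm (b + 1) * (v (b + 1) - v b)|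
      ≤ 2 * n * E := by
  rw [← Finset.sum_sub_distrib]
  have h1 : ∀ b ∈ Ico p q, |mm (b + 1) * (u (b + 1) - u b) - mm (b + 1) * (v (b + 1) - v b)| ≤
      2 * E := by
    intro b hb
    rw [Finset.mem_Ico] at hb
    have e : mm (b + 1) * (u (b + 1) - u b) - mm (b + 1) * (v (b + 1) - v b) =
        mm (b + 1) * ((u (b + 1) - v (b + 1)) - (u b - v b)) := by ring
    rw [e, abs_mul, abs_of_nonneg (hm0 _)]
    have a1 := huv (b + 1) (by omega) (by omega)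
    have a2 := huv b hb.1 (by omega)
    have a3 : |(u (b + 1) - v (b + 1)) - (u b - v b)| ≤ 2 * E := by
      rw [abs_le] at a1 a2 ⊢
      constructor <;> linarith [a1.1, a1.2, a2.1, a2.2]
    calc mm (b + 1) * |(u (b + 1) - v (b + 1)) - (u b - v b)| ≤ 1 * (2 * E) :=
          mul_le_mul (hm1 _) a3 (abs_nonneg _) zero_le_one
      _ = 2 * E := one_mul _
  refine (Finset.abs_sum_le_sum_abs _ _).trans ((Finset.sum_le_sum h1).trans ?_)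
  rw [Finset.sum_const, Nat.card_Ico, nsmul_eq_mul]
  have : ((q - p : ℕ) : ℝ) ≤ n := by exact_mod_cast (Nat.sub_le q p).trans hqn
  nlinarith

/-- the averaged integrand of `Rot.sd_pair` (for one matrix). -/
def Tpw (Q : Ω → ℝ) (𝓕 : Filt Ω) (x : ℕ → ℝ) (Bk Bl : Finset ι) (c : ℝ) (t : ℕ) : ℝ :=
  eE Q (rr X Q 𝓕 Bk t) - eE Q (rr X Q 𝓕 Bl t) - c * av Bk Bl (fun i j =>
    eE Q (fun w => Yf Q 𝓕.F x 𝓕.L t (X i) (fun a => X i a * X j a) w * cE Q (𝓕.F t) (X j) w) +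
    eE Q (fun w => Yf Q 𝓕.F x 𝓕.L t (X j) (fun a => X i a * X j a) w * cE Q (𝓕.F t) (X i) w) +
    eE Q (fun w => (cE Q (𝓕.F t) (X i) w * cE Q (𝓕.F t) (X j) w) *
      score Q 𝓕 x 0 (fun a => X i a * X j a) w))

/-- `D_a = ∑_{b>a} m_b (Γ_b - Γ_{b-1})`. -/
def DD (mm : ℕ → ℝ) (n : ℕ) (g : ℕ → ℝ) (a : ℕ) : ℝ :=
  ∑ b ∈ Ico a n, mm (b + 1) * (g (b + 1) - g b)

/-- the left-rotation relation at level `a`. -/
def Rel (mm : ℕ → ℝ) (n : ℕ) (c : ℝ) (gk gl : ℕ → ℝ) (a : ℕ) : ℝ :=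
  gk a - gl a - c * (gl a * DD mm n gk a + gk a * DD mm n gl a +
    ∑ b ∈ Ico 0 a, mm (b + 1) * (gk (b + 1) * gl (b + 1) - gk b * gl b))

/-- concentration error `∑_b E|r_b - Γ_b|`. -/
def eC (Q : Ω → ℝ) (𝓕 : Filt Ω) (B : Finset ι) (τ : ℕ → ℕ) (n : ℕ) (g : ℕ → ℝ) : ℝ :=
  ∑ b ∈ range (n + 1), eE Q (fun w => |rr X Q 𝓕 B (τ b) w - g b|)

/-- purity error. -/
def eP (Q : Ω → ℝ) (𝓕 : Filt Ω) (Bk Bl : Finset ι) (τ : ℕ → ℕ) (n a : ℕ) : ℝ :=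
  ∑ b ∈ range (n + 1), (av Bk Bl (fun i j => eE Q (fun w =>
      covR Q (𝓕.F (τ b)) (cE Q (𝓕.F (τ a)) (X i)) (cE Q (𝓕.F (τ a)) (X j)) w ^ 2)) +
    av Bk Bl (fun i j => eE Q (fun w => covR Q (𝓕.F (τ b)) (X i) (X j) w ^ 2)))

theorem eC_nonneg (hQ : IsProb Q) (B : Finset ι) (τ : ℕ → ℕ) (n : ℕ) (g : ℕ → ℝ) :
    0 ≤ eC X Q 𝓕 B τ n g :=
  Finset.sum_nonneg fun _ _ => eE_nonneg hQ fun _ => abs_nonneg _

theorem le_eC (hQ : IsProb Q) (B : Finset ι) (τ : ℕ → ℕ) {n b : ℕ} (hb : b ≤ n) (g : ℕ → ℝ) :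
    eE Q (fun w => |rr X Q 𝓕 B (τ b) w - g b|) ≤ eC X Q 𝓕 B τ n g :=
  Finset.single_le_sum (f := fun b => eE Q (fun w => |rr X Q 𝓕 B (τ b) w - g b|))
    (fun _ _ => eE_nonneg hQ fun _ => abs_nonneg _) (Finset.mem_range.mpr (by omega))

theorem le_eP (hQ : IsProb Q) (Bk Bl : Finset ι) (τ : ℕ → ℕ) {n b : ℕ} (a : ℕ) (hb : b ≤ n) :
    av Bk Bl (fun i j => eE Q (fun w =>
      covR Q (𝓕.F (τ b)) (cE Q (𝓕.F (τ a)) (X i)) (cE Q (𝓕.F (τ a)) (X j)) w ^ 2)) +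
    av Bk Bl (fun i j => eE Q (fun w => covR Q (𝓕.F (τ b)) (X i) (X j) w ^ 2)) ≤
      eP X Q 𝓕 Bk Bl τ n a :=
  Finset.single_le_sum (f := fun b => av Bk Bl (fun i j => eE Q (fun w =>
      covR Q (𝓕.F (τ b)) (cE Q (𝓕.F (τ a)) (X i)) (cE Q (𝓕.F (τ a)) (X j)) w ^ 2)) +
    av Bk Bl (fun i j => eE Q (fun w => covR Q (𝓕.F (τ b)) (X i) (X j) w ^ 2)))
    (fun _ _ => add_nonneg (av_nonneg _ _ fun _ _ _ _ => eE_nonneg hQ fun _ => sq_nonneg _)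
      (av_nonneg _ _ fun _ _ _ _ => eE_nonneg hQ fun _ => sq_nonneg _))
    (Finset.mem_range.mpr (by omega))

/-- **Pointwise relation**: `T` is close to the left-rotation relation. -/
theorem pointwise (hQ : IsProb Q) (hx : IsExpo x) (hθ : 0 < θ) (hBk : 0 < Bk.card)
    (hBl : 0 < Bl.card)
    (hk : ∀ w, ∑ i ∈ Bk, X i w ^ 2 ≤ K * Bk.card) (hl : ∀ w, ∑ i ∈ Bl, X i w ^ 2 ≤ K * Bl.card)
    {τ : ℕ → ℕ} (hτ : Monotone τ) {n : ℕ} (hτL : τ n = 𝓕.L) {mm : ℕ → ℝ} (hm0 : ∀ b, 0 ≤ mm b)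
    (hm1 : ∀ b, mm b ≤ 1) {δ : ℝ} (hδ : 0 ≤ δ)
    (hlow : ∀ m, m ≤ τ 0 → x m ≤ δ)
    (hw : ∀ b, b < n → ∀ m, τ b < m → m ≤ τ (b + 1) → |x m - mm (b + 1)| ≤ δ)
    {gk gl : ℕ → ℝ} (hgk : ∀ b, 0 ≤ gk b ∧ gk b ≤ K) (hgl : ∀ b, 0 ≤ gl b ∧ gl b ≤ K)
    (c : ℝ) {a : ℕ} (ha : a ≤ n) :
    |Tpw X Q 𝓕 x Bk Bl c (τ a) - Rel mm n c gk gl a| ≤
      (eC X Q 𝓕 Bk τ n gk + eC X Q 𝓕 Bl τ n gl) +
      |c| * (4 * δ * K ^ 2 + 6 * n * (θ * K ^ 2 + 1 / θ * eP X Q 𝓕 Bk Bl τ n a +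
        K * (eC X Q 𝓕 Bk τ n gk + eC X Q 𝓕 Bl τ n gl))) := by
  rcases isEmpty_or_nonempty Ω with hΩ | ⟨⟨w0⟩⟩
  · exfalso
    have := hQ.sum
    simp at this
  have hK : 0 ≤ K := K_nonneg X hBk w0 hk
  set ek := eC X Q 𝓕 Bk τ n gk with hek
  set el := eC X Q 𝓕 Bl τ n gl with hel
  set pe := eP X Q 𝓕 Bk Bl τ n a with hpe
  have hek0 : 0 ≤ ek := eC_nonneg X hQ _ _ _ _
  have hel0 : 0 ≤ el := eC_nonneg X hQ _ _ _ _
  have hpe0 : 0 ≤ pe := Finset.sum_nonneg fun b _ =>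
    add_nonneg (av_nonneg _ _ fun _ _ _ _ => eE_nonneg hQ fun _ => sq_nonneg _)
      (av_nonneg _ _ fun _ _ _ _ => eE_nonneg hQ fun _ => sq_nonneg _)
  set E := θ * K ^ 2 + 1 / θ * pe + K * (ek + el) with hE
  have hE0 : 0 ≤ E := by positivity
  have hta : τ a ≤ 𝓕.L := hτL ▸ hτ ha
  -- the three profile functions
  set f1 : ι → ι → Ω → ℝ := fun i j a' => X i a' * cE Q (𝓕.F (τ a)) (X j) a' with hf1
  set f2 : ι → ι → Ω → ℝ := fun i j a' => X j a' * cE Q (𝓕.F (τ a)) (X i) a' with hf2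
  set f3 : ι → ι → Ω → ℝ := fun i j a' => cE Q (𝓕.F (τ a)) (X i) a' * cE Q (𝓕.F (τ a)) (X j) a'
    with hf3
  set g : ι → ι → Ω → ℝ := fun i j a' => X i a' * X j a' with hg
  -- second moments
  have sqs : ∀ (u v : ι → Ω → ℝ), (∀ w, (Bk.card : ℝ)⁻¹ * ∑ i ∈ Bk, u i w ^ 2 ≤ K) →
      (∀ w, (Bl.card : ℝ)⁻¹ * ∑ j ∈ Bl, v j w ^ 2 ≤ K) →
      av Bk Bl (fun i j => eE Q (fun w => (u i w * v j w) ^ 2)) ≤ K ^ 2 := by
    intro u v hu hv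
    rw [av_eE]
    refine eE_le_of_le hQ fun w => ?_
    have : (fun i j => (u i w * v j w) ^ 2) = fun i j => u i w ^ 2 * v j w ^ 2 := by
      funext i j; ring
    rw [this, av_mul, sq]
    exact mul_le_mul (hu w) (hv w)
      (mul_nonneg (by positivity) (Finset.sum_nonneg fun _ _ => sq_nonneg _)) hK
  have sg : av Bk Bl (fun i j => eE Q (fun w => g i j w ^ 2)) ≤ K ^ 2 :=
    sqs X X (fun w => bm_le X hBk hk w) (fun w => bm_le X hBl hl w)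
  have s1 : av Bk Bl (fun i j => eE Q (fun w => f1 i j w ^ 2)) ≤ K ^ 2 :=
    sqs X (fun j => cE Q (𝓕.F (τ a)) (X j)) (fun w => bm_le X hBk hk w)
      (fun w => rr_le X hQ hBl hl _ w)
  have s2 : av Bk Bl (fun i j => eE Q (fun w => f2 i j w ^ 2)) ≤ K ^ 2 := by
    have := sqs (fun j => cE Q (𝓕.F (τ a)) (X j)) X (fun w => rr_le X hQ hBk hk _ w)
      (fun w => bm_le X hBl hl w)
    have e : (fun i j => eE Q (fun w => f2 i j w ^ 2)) = fun i j => eE Q (fun w =>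
        (cE Q (𝓕.F (τ a)) (X i) w * X j w) ^ 2) := by
      funext i j; congr 1; funext w; simp only [hf2]; ring
    rw [e]; exact this
  have s3 : av Bk Bl (fun i j => eE Q (fun w => f3 i j w ^ 2)) ≤ K ^ 2 :=
    sqs (fun j => cE Q (𝓕.F (τ a)) (X j)) (fun j => cE Q (𝓕.F (τ a)) (X j))
      (fun w => rr_le X hQ hBk hk _ w) (fun w => rr_le X hQ hBl hl _ w)
  -- generic coarse graining
  have CG : ∀ (f : ι → ι → Ω → ℝ), av Bk Bl (fun i j => eE Q (fun w => f i j w ^ 2)) ≤ K ^ 2 →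
      ∀ p q, p ≤ q → q ≤ n →
      |∑ m ∈ Ioc (τ p) (τ q), x m * (av Bk Bl (fun i j => Psi Q 𝓕 m (f i j) (g i j)) -
          av Bk Bl (fun i j => Psi Q 𝓕 (m - 1) (f i j) (g i j))) -
        ∑ b ∈ Ico p q, mm (b + 1) * (av Bk Bl (fun i j => Psi Q 𝓕 (τ (b + 1)) (f i j) (g i j)) -
          av Bk Bl (fun i j => Psi Q 𝓕 (τ b) (f i j) (g i j)))| ≤ δ * K ^ 2 := by
    intro f hf p q hpq hqn
    refine (coarse x hτ mm δ (fun m => av Bk Bl (fun i j => Psi Q 𝓕 m (f i j) (g i j))) hpq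
      (fun b _ h2 => hw b (lt_of_lt_of_le h2 hqn))).trans ?_
    exact mul_le_mul_of_nonneg_left (tv_av hQ f g hf sg (hτ hpq)) hδ
  -- S1
  have eS1 : av Bk Bl (fun i j => eE Q (fun w => Yf Q 𝓕.F x 𝓕.L (τ a) (X i)
      (fun a => X i a * X j a) w * cE Q (𝓕.F (τ a)) (X j) w)) =
      ∑ m ∈ Ioc (τ a) (τ n), x m * (av Bk Bl (fun i j => Psi Q 𝓕 m (f1 i j) (g i j)) -
        av Bk Bl (fun i j => Psi Q 𝓕 (m - 1) (f1 i j) (g i j))) := by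
    rw [hτL]
    have : (fun i j => eE Q (fun w => Yf Q 𝓕.F x 𝓕.L (τ a) (X i)
      (fun a => X i a * X j a) w * cE Q (𝓕.F (τ a)) (X j) w)) = fun i j =>
        ∑ m ∈ Ioc (τ a) 𝓕.L, x m * (Psi Q 𝓕 m (f1 i j) (g i j) -
          Psi Q 𝓕 (m - 1) (f1 i j) (g i j)) := by
      funext i j
      exact eE_Yf_mul hQ (X i) (g i j) (cE_meas Q (𝓕.F (τ a)) (X j))
    rw [this, av_sum]
    refine Finset.sum_congr rfl fun m _ => ?_
    rw [av_smul, av_sub]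
  have eS2 : av Bk Bl (fun i j => eE Q (fun w => Yf Q 𝓕.F x 𝓕.L (τ a) (X j)
      (fun a => X i a * X j a) w * cE Q (𝓕.F (τ a)) (X i) w)) =
      ∑ m ∈ Ioc (τ a) (τ n), x m * (av Bk Bl (fun i j => Psi Q 𝓕 m (f2 i j) (g i j)) -
        av Bk Bl (fun i j => Psi Q 𝓕 (m - 1) (f2 i j) (g i j))) := by
    rw [hτL]
    have : (fun i j => eE Q (fun w => Yf Q 𝓕.F x 𝓕.L (τ a) (X j)
      (fun a => X i a * X j a) w * cE Q (𝓕.F (τ a)) (X i) w)) = fun i j =>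
        ∑ m ∈ Ioc (τ a) 𝓕.L, x m * (Psi Q 𝓕 m (f2 i j) (g i j) -
          Psi Q 𝓕 (m - 1) (f2 i j) (g i j)) := by
      funext i j
      exact eE_Yf_mul hQ (X j) (g i j) (cE_meas Q (𝓕.F (τ a)) (X i))
    rw [this, av_sum]
    refine Finset.sum_congr rfl fun m _ => ?_
    rw [av_smul, av_sub]
  have eS3 : av Bk Bl (fun i j => eE Q (fun w => (cE Q (𝓕.F (τ a)) (X i) w *
      cE Q (𝓕.F (τ a)) (X j) w) * score Q 𝓕 x 0 (fun a => X i a * X j a) w)) =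
      ∑ m ∈ Ioc 0 (τ a), x m * (av Bk Bl (fun i j => Psi Q 𝓕 m (f3 i j) (g i j)) -
        av Bk Bl (fun i j => Psi Q 𝓕 (m - 1) (f3 i j) (g i j))) := by
    have : (fun i j => eE Q (fun w => (cE Q (𝓕.F (τ a)) (X i) w *
      cE Q (𝓕.F (τ a)) (X j) w) * score Q 𝓕 x 0 (fun a => X i a * X j a) w)) = fun i j =>
        ∑ m ∈ Ioc 0 (τ a), x m * (Psi Q 𝓕 m (f3 i j) (g i j) -
          Psi Q 𝓕 (m - 1) (f3 i j) (g i j)) := by
      funext i j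
      refine eE_mul_score hQ (g i j) (t := τ a) (G := f3 i j) ?_ hta
      intro b c hbc
      simp only [hf3, cE_meas Q (𝓕.F (τ a)) (X i) b c hbc, cE_meas Q (𝓕.F (τ a)) (X j) b c hbc]
    rw [this, av_sum]
    refine Finset.sum_congr rfl fun m _ => ?_
    rw [av_smul, av_sub]
  -- profile values
  have v1 : ∀ b, a ≤ b → b ≤ n →
      |av Bk Bl (fun i j => Psi Q 𝓕 (τ b) (f1 i j) (g i j)) - gl a * gk b| ≤ E := by
    intro b hab hbn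
    have h := type2 (𝓕 := 𝓕) X hQ hθ hBk hBl hk hl (hτ hab) (gk := gk b) (gl := gl a)
      (hgk b).1 (hgk b).2
    rw [mul_comm (gl a)]
    refine h.trans ?_
    have h1 := le_eC X hQ Bk τ hbn gk (𝓕 := 𝓕)
    have h2 := le_eC X hQ Bl τ ha gl (𝓕 := 𝓕)
    have h3 := le_eP X hQ Bk Bl τ a hbn (𝓕 := 𝓕)
    have h4 : 0 ≤ av Bk Bl (fun i j => eE Q (fun w =>
      covR Q (𝓕.F (τ b)) (cE Q (𝓕.F (τ a)) (X i)) (cE Q (𝓕.F (τ a)) (X j)) w ^ 2)) :=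
      av_nonneg _ _ fun _ _ _ _ => eE_nonneg hQ fun _ => sq_nonneg _
    rw [hE]
    refine add_le_add (add_le_add le_rfl (mul_le_mul_of_nonneg_left ?_ (by positivity)))
      (mul_le_mul_of_nonneg_left (by linarith) hK)
    linarith
  have v2 : ∀ b, a ≤ b → b ≤ n →
      |av Bk Bl (fun i j => Psi Q 𝓕 (τ b) (f2 i j) (g i j)) - gk a * gl b| ≤ E := by
    intro b hab hbn
    have h := type2 (𝓕 := 𝓕) X hQ hθ hBl hBk hl hk (hτ hab) (gk := gl b) (gl := gk a)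
      (hgl b).1 (hgl b).2
    rw [mul_comm (gk a), av_swap]
    have e : (fun j i => Psi Q 𝓕 (τ b) (f2 i j) (g i j)) = fun i j =>
        Psi Q 𝓕 (τ b) (fun a' => X i a' * cE Q (𝓕.F (τ a)) (X j) a') (fun a => X i a * X j a) := by
      funext j i
      simp only [hf2, hg]
      congr 1
      funext a'; ring
    rw [e]
    refine h.trans ?_
    have h1 := le_eC X hQ Bl τ hbn gl (𝓕 := 𝓕)
    have h2 := le_eC X hQ Bk τ ha gk (𝓕 := 𝓕)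
    have h3 := le_eP X hQ Bk Bl τ a hbn (𝓕 := 𝓕)
    have h4 : 0 ≤ av Bk Bl (fun i j => eE Q (fun w =>
      covR Q (𝓕.F (τ b)) (cE Q (𝓕.F (τ a)) (X i)) (cE Q (𝓕.F (τ a)) (X j)) w ^ 2)) :=
      av_nonneg _ _ fun _ _ _ _ => eE_nonneg hQ fun _ => sq_nonneg _
    have h5 : av Bl Bk (fun i j => eE Q (fun w => covR Q (𝓕.F (τ b)) (X i) (X j) w ^ 2)) =
        av Bk Bl (fun i j => eE Q (fun w => covR Q (𝓕.F (τ b)) (X i) (X j) w ^ 2)) := by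
      rw [av_swap]
      congr 1
      funext i j
      congr 1
      funext w
      rw [covR_comm]
    rw [hE, h5]
    refine add_le_add (add_le_add le_rfl (mul_le_mul_of_nonneg_left ?_ (by positivity)))
      (mul_le_mul_of_nonneg_left (by linarith) hK)
    linarith
  have v3 : ∀ b, 0 ≤ b → b ≤ a →
      |av Bk Bl (fun i j => Psi Q 𝓕 (τ b) (f3 i j) (g i j)) - gk b * gl b| ≤ E := by
    intro b _ hba
    have h := type3 (𝓕 := 𝓕) X hQ hθ hBk hBl hk hl (hτ hba) (gk := gk b) (gl := gl b)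
      (hgk b).1 (hgk b).2
    refine h.trans ?_
    have h1 := le_eC X hQ Bk τ (hba.trans ha) gk (𝓕 := 𝓕)
    have h2 := le_eC X hQ Bl τ (hba.trans ha) gl (𝓕 := 𝓕)
    have h3 := le_eP X hQ Bk Bl τ a (hba.trans ha) (𝓕 := 𝓕)
    rw [hE]
    exact add_le_add (add_le_add le_rfl (mul_le_mul_of_nonneg_left h3 (by positivity)))
      (mul_le_mul_of_nonneg_left (by linarith) hK)
  -- assemble the three terms
  have r1 : |av Bk Bl (fun i j => eE Q (fun w => Yf Q 𝓕.F x 𝓕.L (τ a) (X i)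
      (fun a => X i a * X j a) w * cE Q (𝓕.F (τ a)) (X j) w)) - gl a * DD mm n gk a| ≤
      δ * K ^ 2 + 2 * n * E := by
    rw [eS1]
    have h1 := CG f1 s1 a n ha le_rfl
    have h2 := discrete (mm := mm) (u := fun b => av Bk Bl (fun i j => Psi Q 𝓕 (τ b) (f1 i j)
      (g i j))) (v := fun b => gl a * gk b) (le_refl n) ha hm0 hm1 hE0 v1
    have e : gl a * DD mm n gk a = ∑ b ∈ Ico a n, mm (b + 1) * (gl a * gk (b + 1) - gl a * gk b) := by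
      unfold DD
      rw [Finset.mul_sum]
      exact Finset.sum_congr rfl fun b _ => by ring
    rw [e]
    refine (abs_sub_le _ _ _).trans (add_le_add h1 h2)
  have r2 : |av Bk Bl (fun i j => eE Q (fun w => Yf Q 𝓕.F x 𝓕.L (τ a) (X j)
      (fun a => X i a * X j a) w * cE Q (𝓕.F (τ a)) (X i) w)) - gk a * DD mm n gl a| ≤
      δ * K ^ 2 + 2 * n * E := by
    rw [eS2]
    have h1 := CG f2 s2 a n ha le_rfl
    have h2 := discrete (mm := mm) (u := fun b => av Bk Bl (fun i j => Psi Q 𝓕 (τ b) (f2 i j)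
      (g i j))) (v := fun b => gk a * gl b) (le_refl n) ha hm0 hm1 hE0 v2
    have e : gk a * DD mm n gl a = ∑ b ∈ Ico a n, mm (b + 1) * (gk a * gl (b + 1) - gk a * gl b) := by
      unfold DD
      rw [Finset.mul_sum]
      exact Finset.sum_congr rfl fun b _ => by ring
    rw [e]
    refine (abs_sub_le _ _ _).trans (add_le_add h1 h2)
  have r3 : |av Bk Bl (fun i j => eE Q (fun w => (cE Q (𝓕.F (τ a)) (X i) w *
      cE Q (𝓕.F (τ a)) (X j) w) * score Q 𝓕 x 0 (fun a => X i a * X j a) w)) -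
      ∑ b ∈ Ico 0 a, mm (b + 1) * (gk (b + 1) * gl (b + 1) - gk b * gl b)| ≤
      2 * (δ * K ^ 2) + 2 * n * E := by
    rw [eS3]
    have hd : Disjoint (Ioc 0 (τ 0)) (Ioc (τ 0) (τ a)) := by
      rw [Finset.disjoint_left]
      intro m h1 h2
      rw [Finset.mem_Ioc] at h1 h2
      omega
    have hu : Ioc 0 (τ a) = Ioc 0 (τ 0) ∪ Ioc (τ 0) (τ a) := by
      ext m
      rw [Finset.mem_union, Finset.mem_Ioc, Finset.mem_Ioc, Finset.mem_Ioc]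
      have h1 := hτ (Nat.zero_le a)
      omega
    rw [hu, Finset.sum_union hd]
    have h0 : |∑ m ∈ Ioc 0 (τ 0), x m * (av Bk Bl (fun i j => Psi Q 𝓕 m (f3 i j) (g i j)) -
        av Bk Bl (fun i j => Psi Q 𝓕 (m - 1) (f3 i j) (g i j)))| ≤ δ * K ^ 2 := by
      refine (Finset.abs_sum_le_sum_abs _ _).trans ?_
      have h1 : ∀ m ∈ Ioc 0 (τ 0), |x m * (av Bk Bl (fun i j => Psi Q 𝓕 m (f3 i j) (g i j)) -
          av Bk Bl (fun i j => Psi Q 𝓕 (m - 1) (f3 i j) (g i j)))| ≤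
          δ * |av Bk Bl (fun i j => Psi Q 𝓕 m (f3 i j) (g i j)) -
          av Bk Bl (fun i j => Psi Q 𝓕 (m - 1) (f3 i j) (g i j))| := by
        intro m hm
        rw [abs_mul, abs_of_pos (hx.pos m)]
        exact mul_le_mul_of_nonneg_right (hlow m (Finset.mem_Ioc.mp hm).2) (abs_nonneg _)
      refine (Finset.sum_le_sum h1).trans ?_
      rw [← Finset.mul_sum]
      exact mul_le_mul_of_nonneg_left (tv_av hQ f3 g s3 sg (Nat.zero_le _)) hδ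
    have h1 := CG f3 s3 0 a (Nat.zero_le a) ha
    have h2 := discrete (mm := mm) (u := fun b => av Bk Bl (fun i j => Psi Q 𝓕 (τ b) (f3 i j)
      (g i j))) (v := fun b => gk b * gl b) ha (Nat.zero_le a) hm0 hm1 hE0 v3
    rw [abs_le] at h0 h1 h2 ⊢
    constructor <;> linarith [h0.1, h0.2, h1.1, h1.2, h2.1, h2.2]
  have rk : |eE Q (rr X Q 𝓕 Bk (τ a)) - gk a| ≤ ek := by
    refine le_trans ?_ (le_eC X hQ Bk τ ha gk)
    have : eE Q (rr X Q 𝓕 Bk (τ a)) - gk a = eE Q (fun w => rr X Q 𝓕 Bk (τ a) w - gk a) := by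
      rw [eE_sub, eE_const hQ]
    rw [this]
    exact Crest.Agent.R141.eE_abs_le hQ _
  have rl : |eE Q (rr X Q 𝓕 Bl (τ a)) - gl a| ≤ el := by
    refine le_trans ?_ (le_eC X hQ Bl τ ha gl)
    have : eE Q (rr X Q 𝓕 Bl (τ a)) - gl a = eE Q (fun w => rr X Q 𝓕 Bl (τ a) w - gl a) := by
      rw [eE_sub, eE_const hQ]
    rw [this]
    exact Crest.Agent.R141.eE_abs_le hQ _
  unfold Tpw Rel
  rw [av_add, av_add]
  set A1 := av Bk Bl (fun i j => eE Q (fun w => Yf Q 𝓕.F x 𝓕.L (τ a) (X i)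
      (fun a => X i a * X j a) w * cE Q (𝓕.F (τ a)) (X j) w))
  set A2 := av Bk Bl (fun i j => eE Q (fun w => Yf Q 𝓕.F x 𝓕.L (τ a) (X j)
      (fun a => X i a * X j a) w * cE Q (𝓕.F (τ a)) (X i) w))
  set A3 := av Bk Bl (fun i j => eE Q (fun w => (cE Q (𝓕.F (τ a)) (X i) w *
      cE Q (𝓕.F (τ a)) (X j) w) * score Q 𝓕 x 0 (fun a => X i a * X j a) w))
  set B3 := ∑ b ∈ Ico 0 a, mm (b + 1) * (gk (b + 1) * gl (b + 1) - gk b * gl b)
  have key : eE Q (rr X Q 𝓕 Bk (τ a)) - eE Q (rr X Q 𝓕 Bl (τ a)) - c * (A1 + A2 + A3) -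
      (gk a - gl a - c * (gl a * DD mm n gk a + gk a * DD mm n gl a + B3)) =
      (eE Q (rr X Q 𝓕 Bk (τ a)) - gk a) - (eE Q (rr X Q 𝓕 Bl (τ a)) - gl a) -
        c * ((A1 - gl a * DD mm n gk a) + (A2 - gk a * DD mm n gl a) + (A3 - B3)) := by ring
  rw [key]
  have t1 : |(A1 - gl a * DD mm n gk a) + (A2 - gk a * DD mm n gl a) + (A3 - B3)| ≤
      4 * δ * K ^ 2 + 6 * n * E := by
    rw [abs_le] at r1 r2 r3 ⊢
    constructor <;> linarith [r1.1, r1.2, r2.1, r2.2, r3.1, r3.2]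
  have t2 : |c * ((A1 - gl a * DD mm n gk a) + (A2 - gk a * DD mm n gl a) + (A3 - B3))| ≤
      |c| * (4 * δ * K ^ 2 + 6 * n * E) := by
    rw [abs_mul]; exact mul_le_mul_of_nonneg_left t1 (abs_nonneg _)
  rw [abs_le] at rk rl t2 ⊢
  constructor <;> linarith [rk.1, rk.2, rl.1, rl.2, t2.1, t2.2]

end blocks

end

end Crest.Agent.R164.RotRel
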