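import Crest.Agent.R164.RotRel2

/-!
Row 164: the left-rotation relation with a matrix-dependent extra log-weight.

`H_U = ½ ∑ λ_i (U s)_i² + h(U, ω)`, `h` differentiable along the row rotations (`IsField h dh`).
`rel_spinG`: the relation `Rel`, extra error `(3/2) κ (K² + 1)` when the pair average of
`E (dh i j)²` is at most `κ²`. `isField_lin`, `lin_bound`: linear fields `∑ z_i (U s)_i`.
-/

set_option autoImplicit false

namespace Crest.Agent.R164.RotRel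

open Finset MeasureTheory Crest.Agent.R141 Crest.Agent.R164.Resp Crest.Agent.R164.Rot

noncomputable section

variable {Ω : Type*} [Fintype Ω] {P : Ω → ℝ} {𝓕 : Filt Ω} {x : ℕ → ℝ} {N : ℕ}

/-- log-weight with a matrix-dependent extra term. -/
def HG (lam : Fin N → ℝ) (s : Ω → Fin N → ℝ) (h : (Fin N → Fin N → ℝ) → Ω → ℝ)
    (U : Fin N → Fin N → ℝ) (w : Ω) : ℝ := quad lam (s w) U + h U w

/-- the tilted law. -/
def QG (P : Ω → ℝ) (𝓕 : Filt Ω) (x : ℕ → ℝ) (lam : Fin N → ℝ) (s : Ω → Fin N → ℝ)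
    (h : (Fin N → Fin N → ℝ) → Ω → ℝ) (U : Fin N → Fin N → ℝ) : Ω → ℝ :=
  tl P 𝓕 x (HG lam s h U)

/-- derivative of the log-weight along the rotation of rows `i, j`. -/
def VG (lam : Fin N → ℝ) (s : Ω → Fin N → ℝ)
    (dh : Fin N → Fin N → (Fin N → Fin N → ℝ) → Ω → ℝ) (i j : Fin N) (U : Fin N → Fin N → ℝ)
    (w : Ω) : ℝ := (lam j - lam i) * (xc (s w) i U * xc (s w) j U) + dh i j U w

omit [Fintype Ω] in
/-- `h` is continuous and differentiable along the row rotations, with derivatives `dh`. -/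
structure IsField (h : (Fin N → Fin N → ℝ) → Ω → ℝ)
    (dh : Fin N → Fin N → (Fin N → Fin N → ℝ) → Ω → ℝ) : Prop where
  cont : ∀ w, Continuous fun U => h U w
  dcont : ∀ i j w, Continuous fun U => dh i j U w
  der : ∀ i j, i ≠ j → ∀ U w φ, HasDerivAt (fun φ => h (rot i j φ U) w)
    (dh i j (rot i j φ U) w) φ

theorem QG_isProb (hP : IsProb P) (hx : IsExpo x) (lam : Fin N → ℝ) (s : Ω → Fin N → ℝ)
    (h : (Fin N → Fin N → ℝ) → Ω → ℝ) (U : Fin N → Fin N → ℝ) :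
    IsProb (QG P 𝓕 x lam s h U) := tl_isProb hP hx.pos _

omit [Fintype Ω] in
theorem continuous_HG (lam : Fin N → ℝ) (s : Ω → Fin N → ℝ) {h : (Fin N → Fin N → ℝ) → Ω → ℝ}
    (hh : ∀ w, Continuous fun U => h U w) (a : Ω) : Continuous fun U => HG lam s h U a :=
  (continuous_quad lam (s a)).add (hh a)

omit [Fintype Ω] in
theorem continuous_VG (lam : Fin N → ℝ) (s : Ω → Fin N → ℝ) {h : (Fin N → Fin N → ℝ) → Ω → ℝ}
    {dh : Fin N → Fin N → (Fin N → Fin N → ℝ) → Ω → ℝ} (hh : IsField h dh) (i j : Fin N) (a : Ω) :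
    Continuous fun U => VG lam s dh i j U a :=
  (continuous_const.mul ((continuous_xc (s a) i).mul (continuous_xc (s a) j))).add
    (hh.dcont i j a)

omit [Fintype Ω] in
theorem hasDerivAt_HG {i j : Fin N} (hij : i ≠ j) (lam : Fin N → ℝ) (s : Ω → Fin N → ℝ)
    {h : (Fin N → Fin N → ℝ) → Ω → ℝ} {dh : Fin N → Fin N → (Fin N → Fin N → ℝ) → Ω → ℝ}
    (hh : IsField h dh) (U : Fin N → Fin N → ℝ) (φ : ℝ) (a : Ω) :
    HasDerivAt (fun φ => HG lam s h (rot i j φ U) a) (VG lam s dh i j (rot i j φ U) a) φ := by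
  unfold HG VG
  exact (hasDerivAt_quad hij lam (s a) U φ).add (hh.der i j hij U a φ)

/-! ### Linearity in the variation -/

theorem Dl_add (Q : Ω → ℝ) (F : ℕ → Setoid Ω) (l : ℕ) (g g' : Ω → ℝ) (w : Ω) :
    Dl Q F l (fun a => g a + g' a) w = Dl Q F l g w + Dl Q F l g' w := by
  unfold Dl; rw [cE_add, cE_add]; ring

theorem Yf_add_right (Q : Ω → ℝ) (F : ℕ → Setoid Ω) (x : ℕ → ℝ) (L t : ℕ) (f : Ω → ℝ)
    (g g' : Ω → ℝ) (w : Ω) :
    Yf Q F x L t f (fun a => g a + g' a) w = Yf Q F x L t f g w + Yf Q F x L t f g' w := by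
  unfold Yf
  rw [← Finset.sum_add_distrib]
  refine Finset.sum_congr rfl fun l _ => ?_
  have : (fun a => Dl Q F l f a * Dl Q F l (fun a => g a + g' a) a) =
      fun a => Dl Q F l f a * Dl Q F l g a + Dl Q F l f a * Dl Q F l g' a := by
    funext a; rw [Dl_add]; ring
  rw [this, cE_add]; ring

theorem score_add (Q : Ω → ℝ) (𝓕 : Filt Ω) (x : ℕ → ℝ) (t : ℕ) (g g' : Ω → ℝ) (w : Ω) :
    score Q 𝓕 x t (fun a => g a + g' a) w = score Q 𝓕 x t g w + score Q 𝓕 x t g' w := by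
  unfold score
  rw [← Finset.sum_add_distrib]
  refine Finset.sum_congr rfl fun l _ => ?_
  rw [Dl_add]; ring

/-- the part of the Schwinger–Dyson integrand which is linear in the variation `V`. -/
def Bil (Q : Ω → ℝ) (𝓕 : Filt Ω) (x : ℕ → ℝ) (f g : Ω → ℝ) (t : ℕ) (V : Ω → ℝ) : ℝ :=
  eE Q (fun w => Yf Q 𝓕.F x 𝓕.L t f V w * cE Q (𝓕.F t) g w) +
    eE Q (fun w => Yf Q 𝓕.F x 𝓕.L t g V w * cE Q (𝓕.F t) f w) +
    eE Q (fun w => (cE Q (𝓕.F t) f w * cE Q (𝓕.F t) g w) * score Q 𝓕 x 0 V w)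

theorem Bil_add (Q : Ω → ℝ) (𝓕 : Filt Ω) (x : ℕ → ℝ) (f g : Ω → ℝ) (t : ℕ) (V V' : Ω → ℝ) :
    Bil Q 𝓕 x f g t (fun a => V a + V' a) = Bil Q 𝓕 x f g t V + Bil Q 𝓕 x f g t V' := by
  unfold Bil
  simp only [Yf_add_right, score_add, add_mul, mul_add, eE_add]
  ring

theorem Bil_smul (Q : Ω → ℝ) (𝓕 : Filt Ω) (x : ℕ → ℝ) (f g : Ω → ℝ) (t : ℕ) (c : ℝ) (V : Ω → ℝ) :
    Bil Q 𝓕 x f g t (fun a => c * V a) = c * Bil Q 𝓕 x f g t V := by
  unfold Bil
  simp only [Yf_smul_right, score_smul]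
  have e1 : (fun w => c * Yf Q 𝓕.F x 𝓕.L t f V w * cE Q (𝓕.F t) g w) = fun w =>
      c * (Yf Q 𝓕.F x 𝓕.L t f V w * cE Q (𝓕.F t) g w) := by funext w; ring
  have e2 : (fun w => c * Yf Q 𝓕.F x 𝓕.L t g V w * cE Q (𝓕.F t) f w) = fun w =>
      c * (Yf Q 𝓕.F x 𝓕.L t g V w * cE Q (𝓕.F t) f w) := by funext w; ring
  have e3 : (fun w => cE Q (𝓕.F t) f w * cE Q (𝓕.F t) g w * (c * score Q 𝓕 x 0 V w)) = fun w =>
      c * (cE Q (𝓕.F t) f w * cE Q (𝓕.F t) g w * score Q 𝓕 x 0 V w) := by funext w; ring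
  rw [e1, e2, e3, eE_smul, eE_smul, eE_smul]
  ring

/-! ### The Schwinger–Dyson identity -/

/-- the integrand for the pair `(i,j)` -/
def GG (Q : Ω → ℝ) (𝓕 : Filt Ω) (x : ℕ → ℝ) (f g : Ω → ℝ) (t : ℕ) (V : Ω → ℝ) : ℝ :=
  eE Q (fun w => (cE Q (𝓕.F t) f w) ^ 2) - eE Q (fun w => (cE Q (𝓕.F t) g w) ^ 2) +
    Bil Q 𝓕 x f g t V

theorem continuous_GG (hP : IsProb P) (hx : IsExpo x) {H f g V : (Fin N → Fin N → ℝ) → Ω → ℝ}
    (hH : ∀ a, Continuous fun U => H U a) (hf : ∀ a, Continuous fun U => f U a)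
    (hg : ∀ a, Continuous fun U => g U a) (hV : ∀ a, Continuous fun U => V U a) (t : ℕ) :
    Continuous fun U => GG (tl P 𝓕 x (H U)) 𝓕 x (f U) (g U) t (V U) := by
  have cf : ∀ a, Continuous fun U => cE (tl P 𝓕 x (H U)) (𝓕.F t) (f U) a := fun a =>
    continuous_cE_tl hP hx.pos hH hf t a
  have cg : ∀ a, Continuous fun U => cE (tl P 𝓕 x (H U)) (𝓕.F t) (g U) a := fun a =>
    continuous_cE_tl hP hx.pos hH hg t a
  unfold GG Bil
  refine (((continuous_eE_tl hP hx.pos hH (f := fun U w =>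
    (cE (tl P 𝓕 x (H U)) (𝓕.F t) (f U) w) ^ 2) fun a => (cf a).pow 2)).sub
    (continuous_eE_tl hP hx.pos hH (f := fun U w =>
    (cE (tl P 𝓕 x (H U)) (𝓕.F t) (g U) w) ^ 2) fun a => (cg a).pow 2)).add
    (((continuous_eE_tl hP hx.pos hH (f := fun U w =>
      Yf (tl P 𝓕 x (H U)) 𝓕.F x 𝓕.L t (f U) (V U) w * cE (tl P 𝓕 x (H U)) (𝓕.F t) (g U) w)
      fun a => (continuous_Yf_tl hP hx.pos hH hf hV t a).mul (cg a)).add
    (continuous_eE_tl hP hx.pos hH (f := fun U w =>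
      Yf (tl P 𝓕 x (H U)) 𝓕.F x 𝓕.L t (g U) (V U) w * cE (tl P 𝓕 x (H U)) (𝓕.F t) (f U) w)
      fun a => (continuous_Yf_tl hP hx.pos hH hg hV t a).mul (cf a))).add
    (continuous_eE_tl hP hx.pos hH (f := fun U w => (cE (tl P 𝓕 x (H U)) (𝓕.F t) (f U) w *
      cE (tl P 𝓕 x (H U)) (𝓕.F t) (g U) w) * score (tl P 𝓕 x (H U)) 𝓕 x 0 (V U) w)
      fun a => ((cf a).mul (cg a)).mul (continuous_score hP hx.pos hH hV 0 a)))

/-- **Schwinger–Dyson identity, matrix-dependent log-weight.** -/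
theorem sd_GG (ν : Measure (Fin N → Fin N → ℝ)) [IsProbabilityMeasure ν]
    (hν : ∀ᵐ U ∂ν, U ∈ OK N) (hleft : LeftInv ν) {i j : Fin N} (hij : i ≠ j)
    (hP : IsProb P) (hx : IsExpo x) (lam : Fin N → ℝ) (s : Ω → Fin N → ℝ)
    {h : (Fin N → Fin N → ℝ) → Ω → ℝ} {dh : Fin N → Fin N → (Fin N → Fin N → ℝ) → Ω → ℝ}
    (hh : IsField h dh) (t : ℕ) :
    Integrable (fun U => GG (QG P 𝓕 x lam s h U) 𝓕 x (XU s U i) (XU s U j) t
      (VG lam s dh i j U)) ν ∧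
    ∫ U, GG (QG P 𝓕 x lam s h U) 𝓕 x (XU s U i) (XU s U j) t (VG lam s dh i j U) ∂ν = 0 := by
  have cx : ∀ p : Fin N, ∀ a : Ω, Continuous fun U => XU s U p a := fun p a => cont_XU s p a
  have cH : ∀ a : Ω, Continuous fun U => HG lam s h U a := continuous_HG lam s hh.cont
  have cV : ∀ a : Ω, Continuous fun U => VG lam s dh i j U a := continuous_VG lam s hh i j
  refine ⟨integrable_cont hν (continuous_GG hP hx cH (f := fun U => XU s U i)
    (g := fun U => XU s U j) (fun a => cx i a) (fun a => cx j a) cV t), ?_⟩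
  have cE1 : ∀ p : Fin N, ∀ a : Ω, Continuous fun U =>
      cE (tl P 𝓕 x (HG lam s h U)) (𝓕.F t) (XU s U p) a := fun p a =>
    continuous_cE_tl hP hx.pos cH (f := fun U => XU s U p) (fun a => cx p a) t a
  have cY : ∀ p : Fin N, ∀ a : Ω, Continuous fun U =>
      Yf (tl P 𝓕 x (HG lam s h U)) 𝓕.F x 𝓕.L t (XU s U p) (VG lam s dh i j U) a :=
    fun p a => continuous_Yf_tl hP hx.pos cH (f := fun U => XU s U p)
      (V := fun U => VG lam s dh i j U) (fun a => cx p a) cV t a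
  -- observable
  set F : (Fin N → Fin N → ℝ) → Ω → ℝ := fun U w =>
    cE (tl P 𝓕 x (HG lam s h U)) (𝓕.F t) (XU s U i) w *
      cE (tl P 𝓕 x (HG lam s h U)) (𝓕.F t) (XU s U j) w with hF
  set F' : (Fin N → Fin N → ℝ) → Ω → ℝ := fun U w =>
    (cE (tl P 𝓕 x (HG lam s h U)) (𝓕.F t) (XU s U i) w) ^ 2 -
      (cE (tl P 𝓕 x (HG lam s h U)) (𝓕.F t) (XU s U j) w) ^ 2 +
      (Yf (tl P 𝓕 x (HG lam s h U)) 𝓕.F x 𝓕.L t (XU s U i) (VG lam s dh i j U) w *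
        cE (tl P 𝓕 x (HG lam s h U)) (𝓕.F t) (XU s U j) w +
      Yf (tl P 𝓕 x (HG lam s h U)) 𝓕.F x 𝓕.L t (XU s U j) (VG lam s dh i j U) w *
        cE (tl P 𝓕 x (HG lam s h U)) (𝓕.F t) (XU s U i) w) with hF'
  have cF : ∀ a, Continuous fun U => F U a := fun a => (cE1 i a).mul (cE1 j a)
  have cF' : ∀ a, Continuous fun U => F' U a := fun a =>
    (((cE1 i a).pow 2).sub ((cE1 j a).pow 2)).add
      (((cY i a).mul (cE1 j a)).add ((cY j a).mul (cE1 i a)))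
  obtain ⟨C1, h1, hC1⟩ := exists_bound (VG lam s dh i j) cV
  obtain ⟨C2, h2, hC2⟩ := exists_bound F cF
  obtain ⟨C3, h3, hC3⟩ := exists_bound F' cF'
  have hd : ∀ u ∈ OK N, ∀ a φ, HasDerivAt (fun φ => F (rot i j φ u) a) (F' (rot i j φ u) a) φ := by
    intro u _ a φ
    have hcE : ∀ (p : Fin N), HasDerivAt (fun φ => cE (tl P 𝓕 x (HG lam s h (rot i j φ u)))
        (𝓕.F t) (XU s (rot i j φ u) p) a)
        (cE (tl P 𝓕 x (HG lam s h (rot i j φ u))) (𝓕.F t)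
          (fun b => dxc i j (s b) p (rot i j φ u)) a +
          Yf (tl P 𝓕 x (HG lam s h (rot i j φ u))) 𝓕.F x 𝓕.L t (XU s (rot i j φ u) p)
            (VG lam s dh i j (rot i j φ u)) a) φ := fun p =>
      hasDerivAt_cE_tl' hP hx.pos (U := fun φ => HG lam s h (rot i j φ u))
        (f := fun φ => XU s (rot i j φ u) p) (fun b => hasDerivAt_HG hij lam s hh u φ b)
        (fun b => hasDerivAt_xc hij (s b) p u φ) t a
    refine ((hcE i).mul (hcE j)).congr_deriv ?_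
    have e1 : (fun b => dxc i j (s b) i (rot i j φ u)) =
        fun b => (-1) * XU s (rot i j φ u) j b := by
      funext b; unfold dxc XU; rw [if_pos rfl]; ring
    have e2 : (fun b => dxc i j (s b) j (rot i j φ u)) = fun b => XU s (rot i j φ u) i b := by
      funext b; unfold dxc XU; rw [if_neg hij.symm, if_pos rfl]
    simp only [hF']
    rw [e1, e2, cE_smul]
    ring
  have main := sd_flow (𝓕 := 𝓕) ν (rot i j) (measurable_rot i j) (rot_zero i j)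
    (hleft.rot hij) (OK N) hν
    (fun φ u hu => rot_mem_OK hij φ hu) hP hx (HG lam s h) (VG lam s dh i j) F F' cH cV cF cF'
    (C1 + C2 + C3) (fun u hu a => (hC1 u hu a).trans (by linarith))
    (fun u hu a => (hC2 u hu a).trans (by linarith))
    (fun u hu a => (hC3 u hu a).trans (by linarith))
    (fun u _ a φ => hasDerivAt_HG hij lam s hh u φ a) hd
  rw [← main]
  refine integral_congr_ae (Filter.Eventually.of_forall fun U => ?_)
  simp only [hF, hF']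
  unfold GG Bil QG
  rw [eE_add, eE_add, eE_sub]
  ring

theorem GG_split {Q : Ω → ℝ} (f g : Ω → ℝ) (t : ℕ) (c : ℝ) (V : Ω → ℝ) :
    GG Q 𝓕 x f g t (fun a => -c * (f a * g a) + V a) =
      (eE Q (fun w => (cE Q (𝓕.F t) f w) ^ 2) - eE Q (fun w => (cE Q (𝓕.F t) g w) ^ 2) -
        c * Bil Q 𝓕 x f g t (fun a => f a * g a)) + Bil Q 𝓕 x f g t V := by
  unfold GG
  rw [Bil_add, Bil_smul]
  ring

/-! ### Bound of the extra term -/

theorem Psi_scale {Q : Ω → ℝ} {r : ℝ} (hr : r ≠ 0) (l : ℕ) (f g : Ω → ℝ) :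
    Psi Q 𝓕 l (fun a => r * f a) (fun a => r⁻¹ * g a) = Psi Q 𝓕 l f g := by
  unfold Psi
  congr 1
  funext w
  rw [cE_smul, cE_smul]
  field_simp

/-- total variation of `l ↦ Ψ_l(f,g)`, weighted version. -/
theorem sum_abs_Psi' {Q : Ω → ℝ} (hQ : IsProb Q) {θ : ℝ} (hθ : 0 < θ) (f g : Ω → ℝ) {p q : ℕ}
    (hpq : p ≤ q) :
    ∑ m ∈ Ioc p q, |Psi Q 𝓕 m f g - Psi Q 𝓕 (m - 1) f g| ≤
      θ / 2 * eE Q (fun w => f w ^ 2) + 1 / (2 * θ) * eE Q (fun w => g w ^ 2) := by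
  have hr : Real.sqrt θ ≠ 0 := (Real.sqrt_pos.mpr hθ).ne'
  have h := sum_abs_Psi (𝓕 := 𝓕) hQ (fun a => Real.sqrt θ * f a) (fun a => (Real.sqrt θ)⁻¹ * g a)
    hpq
  simp only [Psi_scale hr] at h
  refine h.trans (le_of_eq ?_)
  have e1 : (fun w => (Real.sqrt θ * f w) ^ 2) = fun w => θ * f w ^ 2 := by
    funext w; rw [mul_pow, Real.sq_sqrt hθ.le]
  have e2 : (fun w => ((Real.sqrt θ)⁻¹ * g w) ^ 2) = fun w => θ⁻¹ * g w ^ 2 := by
    funext w; rw [mul_pow, inv_pow, Real.sq_sqrt hθ.le]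
  rw [e1, e2, eE_smul, eE_smul]
  field_simp

theorem wsum_le {u : ℕ → ℝ} (hx : IsExpo x) (p q : ℕ) :
    |∑ m ∈ Ioc p q, x m * (u m - u (m - 1))| ≤ ∑ m ∈ Ioc p q, |u m - u (m - 1)| := by
  refine (Finset.abs_sum_le_sum_abs _ _).trans (Finset.sum_le_sum fun m _ => ?_)
  rw [abs_mul, abs_of_pos (hx.pos m)]
  exact (mul_le_mul_of_nonneg_right (hx.le_one m) (abs_nonneg _)).trans (le_of_eq (one_mul _))

/-- bound of `Bil` -/
theorem Bil_le {Q : Ω → ℝ} (hQ : IsProb Q) (hx : IsExpo x) {θ : ℝ} (hθ : 0 < θ) (f g : Ω → ℝ)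
    {t : ℕ} (htL : t ≤ 𝓕.L) (V : Ω → ℝ) :
    |Bil Q 𝓕 x f g t V| ≤
      θ / 2 * (eE Q (fun w => (f w * cE Q (𝓕.F t) g w) ^ 2) +
        eE Q (fun w => (g w * cE Q (𝓕.F t) f w) ^ 2) +
        eE Q (fun w => (cE Q (𝓕.F t) f w * cE Q (𝓕.F t) g w) ^ 2)) +
      3 * (1 / (2 * θ) * eE Q (fun w => V w ^ 2)) := by
  unfold Bil
  have h1 : |eE Q (fun w => Yf Q 𝓕.F x 𝓕.L t f V w * cE Q (𝓕.F t) g w)| ≤
      θ / 2 * eE Q (fun w => (f w * cE Q (𝓕.F t) g w) ^ 2) +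
        1 / (2 * θ) * eE Q (fun w => V w ^ 2) := by
    rw [eE_Yf_mul hQ f V (cE_meas Q (𝓕.F t) g)]
    refine (wsum_le hx (u := fun m => Psi Q 𝓕 m (fun a => f a * cE Q (𝓕.F t) g a) V) t 𝓕.L).trans ?_
    exact sum_abs_Psi' hQ hθ (fun a => f a * cE Q (𝓕.F t) g a) V htL
  have h2 : |eE Q (fun w => Yf Q 𝓕.F x 𝓕.L t g V w * cE Q (𝓕.F t) f w)| ≤
      θ / 2 * eE Q (fun w => (g w * cE Q (𝓕.F t) f w) ^ 2) +
        1 / (2 * θ) * eE Q (fun w => V w ^ 2) := by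
    rw [eE_Yf_mul hQ g V (cE_meas Q (𝓕.F t) f)]
    refine (wsum_le hx (u := fun m => Psi Q 𝓕 m (fun a => g a * cE Q (𝓕.F t) f a) V) t 𝓕.L).trans ?_
    exact sum_abs_Psi' hQ hθ (fun a => g a * cE Q (𝓕.F t) f a) V htL
  have h3 : |eE Q (fun w => (cE Q (𝓕.F t) f w * cE Q (𝓕.F t) g w) * score Q 𝓕 x 0 V w)| ≤
      θ / 2 * eE Q (fun w => (cE Q (𝓕.F t) f w * cE Q (𝓕.F t) g w) ^ 2) +
        1 / (2 * θ) * eE Q (fun w => V w ^ 2) := by
    have hm : RMeas (𝓕.F t) (fun w => cE Q (𝓕.F t) f w * cE Q (𝓕.F t) g w) := by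
      intro b c hbc
      simp only [cE_meas Q (𝓕.F t) f b c hbc, cE_meas Q (𝓕.F t) g b c hbc]
    rw [eE_mul_score hQ V hm htL]
    refine (wsum_le hx (u := fun m => Psi Q 𝓕 m
      (fun w => cE Q (𝓕.F t) f w * cE Q (𝓕.F t) g w) V) 0 t).trans ?_
    exact sum_abs_Psi' hQ hθ (fun w => cE Q (𝓕.F t) f w * cE Q (𝓕.F t) g w) V (Nat.zero_le _)
  rw [abs_le] at h1 h2 h3 ⊢
  constructor <;> linarith [h1.1, h1.2, h2.1, h2.2, h3.1, h3.2]

section blocks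

variable {ι : Type*} {Q : Ω → ℝ} (X : ι → Ω → ℝ) {Bk Bl : Finset ι} {K : ℝ}

theorem av_sq_le (hQ : IsProb Q) (hK : 0 ≤ K) (u v : ι → Ω → ℝ)
    (hu : ∀ w, (Bk.card : ℝ)⁻¹ * ∑ i ∈ Bk, u i w ^ 2 ≤ K)
    (hv : ∀ w, (Bl.card : ℝ)⁻¹ * ∑ j ∈ Bl, v j w ^ 2 ≤ K) :
    av Bk Bl (fun i j => eE Q (fun w => (u i w * v j w) ^ 2)) ≤ K ^ 2 := by
  rw [av_eE]
  refine eE_le_of_le hQ fun w => ?_
  have : (fun i j => (u i w * v j w) ^ 2) = fun i j => u i w ^ 2 * v j w ^ 2 := by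
    funext i j; ring
  rw [this, av_mul, sq]
  exact mul_le_mul (hu w) (hv w)
    (mul_nonneg (by positivity) (Finset.sum_nonneg fun _ _ => sq_nonneg _)) hK

/-- bound of the averaged extra term -/
theorem av_Bil_le (hQ : IsProb Q) (hx : IsExpo x) {θ : ℝ} (hθ : 0 < θ) (hBk : 0 < Bk.card)
    (hBl : 0 < Bl.card) (hK : 0 ≤ K)
    (hk : ∀ w, ∑ i ∈ Bk, X i w ^ 2 ≤ K * Bk.card) (hl : ∀ w, ∑ i ∈ Bl, X i w ^ 2 ≤ K * Bl.card)
    {t : ℕ} (htL : t ≤ 𝓕.L) (V : ι → ι → Ω → ℝ) :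
    |av Bk Bl (fun i j => Bil Q 𝓕 x (X i) (X j) t (V i j))| ≤
      3 / 2 * (θ * K ^ 2 + 1 / θ * av Bk Bl (fun i j => eE Q (fun w => V i j w ^ 2))) := by
  have s1 : av Bk Bl (fun i j => eE Q (fun w => (X i w * cE Q (𝓕.F t) (X j) w) ^ 2)) ≤ K ^ 2 :=
    av_sq_le hQ hK X (fun j => cE Q (𝓕.F t) (X j)) (fun w => bm_le X hBk hk w)
      (fun w => rr_le X hQ hBl hl _ w)
  have s2 : av Bk Bl (fun i j => eE Q (fun w => (X j w * cE Q (𝓕.F t) (X i) w) ^ 2)) ≤ K ^ 2 := by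
    have := av_sq_le hQ hK (fun j => cE Q (𝓕.F t) (X j)) X (fun w => rr_le X hQ hBk hk _ w)
      (fun w => bm_le X hBl hl w)
    have e : (fun i j => eE Q (fun w => (X j w * cE Q (𝓕.F t) (X i) w) ^ 2)) = fun i j =>
        eE Q (fun w => (cE Q (𝓕.F t) (X i) w * X j w) ^ 2) := by
      funext i j; congr 1; funext w; ring
    rw [e]; exact this
  have s3 : av Bk Bl (fun i j => eE Q (fun w =>
      (cE Q (𝓕.F t) (X i) w * cE Q (𝓕.F t) (X j) w) ^ 2)) ≤ K ^ 2 :=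
    av_sq_le hQ hK (fun j => cE Q (𝓕.F t) (X j)) (fun j => cE Q (𝓕.F t) (X j))
      (fun w => rr_le X hQ hBk hk _ w) (fun w => rr_le X hQ hBl hl _ w)
  refine (av_abs_le _ _ _).trans ?_
  refine (av_mono _ _ fun i _ j _ => Bil_le hQ hx hθ (X i) (X j) htL (V i j)).trans ?_
  rw [av_add, av_smul, av_add, av_add, av_smul, av_smul]
  have hθ2 : 0 ≤ θ / 2 := by positivity
  have h1 := mul_le_mul_of_nonneg_left (add_le_add (add_le_add s1 s2) s3) hθ2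
  refine (add_le_add h1 le_rfl).trans (le_of_eq ?_)
  field_simp
  ring

end blocks

/-! ### The integrated relation -/

section contG

variable (hP : IsProb P) (hx : IsExpo x) (lam : Fin N → ℝ) (s : Ω → Fin N → ℝ)
  {h : (Fin N → Fin N → ℝ) → Ω → ℝ} (hh : ∀ w, Continuous fun U => h U w)
include hP hx hh

theorem contG_cE {f : (Fin N → Fin N → ℝ) → Ω → ℝ} (hf : ∀ a, Continuous fun U => f U a) (k : ℕ)
    (w : Ω) : Continuous fun U => cE (QG P 𝓕 x lam s h U) (𝓕.F k) (f U) w :=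
  continuous_cE_tl hP hx.pos (continuous_HG lam s hh) hf k w

theorem contG_eE {f : (Fin N → Fin N → ℝ) → Ω → ℝ} (hf : ∀ a, Continuous fun U => f U a) :
    Continuous fun U => eE (QG P 𝓕 x lam s h U) (f U) :=
  continuous_eE_tl hP hx.pos (continuous_HG lam s hh) hf

theorem contG_covR {f g : (Fin N → Fin N → ℝ) → Ω → ℝ} (hf : ∀ a, Continuous fun U => f U a)
    (hg : ∀ a, Continuous fun U => g U a) (k : ℕ) (w : Ω) :
    Continuous fun U => covR (QG P 𝓕 x lam s h U) (𝓕.F k) (f U) (g U) w := by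
  unfold covR
  exact (contG_cE hP hx lam s hh (fun a => (hf a).mul (hg a)) k w).sub
    ((contG_cE hP hx lam s hh hf k w).mul (contG_cE hP hx lam s hh hg k w))

theorem contG_eC (B : Finset (Fin N)) (τ : ℕ → ℕ) (n : ℕ) (g : ℕ → ℝ) :
    Continuous fun U => eC (XU s U) (QG P 𝓕 x lam s h U) 𝓕 B τ n g := by
  unfold eC rr
  exact continuous_finsetSum _ fun b _ => contG_eE hP hx lam s hh
    (f := fun U w => |(B.card : ℝ)⁻¹ * ∑ i ∈ B,
      (cE (QG P 𝓕 x lam s h U) (𝓕.F (τ b)) (XU s U i) w) ^ 2 - g b|) fun a =>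
      ((continuous_const.mul (continuous_finsetSum _ fun i _ =>
        (contG_cE hP hx lam s hh (fun a => cont_XU s i a) (τ b) a).pow 2)).sub
        continuous_const).abs

theorem contG_eP (Bk Bl : Finset (Fin N)) (τ : ℕ → ℕ) (n a : ℕ) :
    Continuous fun U => eP (XU s U) (QG P 𝓕 x lam s h U) 𝓕 Bk Bl τ n a := by
  unfold eP av
  refine continuous_finsetSum _ fun b _ => Continuous.add ?_ ?_
  · refine continuous_const.mul (continuous_finsetSum _ fun i _ => continuous_finsetSum _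
      fun j _ => ?_)
    exact contG_eE hP hx lam s hh (f := fun U w => covR (QG P 𝓕 x lam s h U) (𝓕.F (τ b))
      (cE (QG P 𝓕 x lam s h U) (𝓕.F (τ a)) (XU s U i))
      (cE (QG P 𝓕 x lam s h U) (𝓕.F (τ a)) (XU s U j)) w ^ 2) fun w =>
        (contG_covR hP hx lam s hh (fun c => contG_cE hP hx lam s hh (fun d => cont_XU s i d) _ c)
          (fun c => contG_cE hP hx lam s hh (fun d => cont_XU s j d) _ c) _ w).pow 2
  · refine continuous_const.mul (continuous_finsetSum _ fun i _ => continuous_finsetSum _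
      fun j _ => ?_)
    exact contG_eE hP hx lam s hh (f := fun U w => covR (QG P 𝓕 x lam s h U) (𝓕.F (τ b))
      (XU s U i) (XU s U j) w ^ 2) fun w =>
        (contG_covR hP hx lam s hh (fun d => cont_XU s i d) (fun d => cont_XU s j d) _ w).pow 2

theorem contG_avcS (k m : ℕ) :
    Continuous fun U => avcS (QG P 𝓕 x lam s h U) 𝓕 (fun i w => s w i) k m := by
  unfold avcS
  refine continuous_const.mul (continuous_finsetSum _ fun i _ => continuous_finsetSum _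
    fun j _ => ?_)
  exact contG_eE hP hx lam s hh (f := fun U w => (covR (QG P 𝓕 x lam s h U) (𝓕.F k)
    (cE (QG P 𝓕 x lam s h U) (𝓕.F m) (fun w => s w i))
    (cE (QG P 𝓕 x lam s h U) (𝓕.F m) (fun w => s w j)) w) ^ 2) fun w =>
      (contG_covR hP hx lam s hh
        (fun c => contG_cE hP hx lam s hh (f := fun _ w => s w i) (fun _ => continuous_const) _ c)
        (fun c => contG_cE hP hx lam s hh (f := fun _ w => s w j) (fun _ => continuous_const) _ c)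
        _ w).pow 2

theorem contG_dh (Bk Bl : Finset (Fin N)) {V : Fin N → Fin N → (Fin N → Fin N → ℝ) → Ω → ℝ}
    (hV : ∀ i j a, Continuous fun U => V i j U a) :
    Continuous fun U => av Bk Bl (fun i j => eE (QG P 𝓕 x lam s h U) (fun w => V i j U w ^ 2)) := by
  unfold av
  refine continuous_const.mul (continuous_finsetSum _ fun i _ => continuous_finsetSum _
    fun j _ => ?_)
  exact contG_eE hP hx lam s hh (f := fun U w => V i j U w ^ 2) fun a => (hV i j a).pow 2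

end contG

theorem GG_av {Q : Ω → ℝ} (X : Fin N → Ω → ℝ) {Bk Bl : Finset (Fin N)} (hBk : 0 < Bk.card)
    (hBl : 0 < Bl.card) (c : ℝ) (t : ℕ) (V : Fin N → Fin N → Ω → ℝ) :
    av Bk Bl (fun i j => GG Q 𝓕 x (X i) (X j) t (fun a => -c * (X i a * X j a) + V i j a)) =
      Tpw X Q 𝓕 x Bk Bl c t + av Bk Bl (fun i j => Bil Q 𝓕 x (X i) (X j) t (V i j)) := by
  rw [Tpw_eq X hBk hBl c t, ← av_add]
  congr 1
  funext i j
  rw [GG_split]
  rfl

/-- **the averaged Schwinger–Dyson identity, matrix-dependent log-weight** -/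
theorem integral_TpwG (ν : Measure (Fin N → Fin N → ℝ)) [IsProbabilityMeasure ν]
    (hν : ∀ᵐ U ∂ν, U ∈ OK N) (hleft : LeftInv ν) {Bk Bl : Finset (Fin N)}
    (hd : Disjoint Bk Bl) (hBk : 0 < Bk.card) (hBl : 0 < Bl.card)
    (hP : IsProb P) (hx : IsExpo x) (lam : Fin N → ℝ) {lk ll : ℝ} (hlk : ∀ i ∈ Bk, lam i = lk)
    (hll : ∀ i ∈ Bl, lam i = ll) (s : Ω → Fin N → ℝ)
    {h : (Fin N → Fin N → ℝ) → Ω → ℝ} {dh : Fin N → Fin N → (Fin N → Fin N → ℝ) → Ω → ℝ}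
    (hh : IsField h dh) (t : ℕ) :
    Integrable (fun U => Tpw (XU s U) (QG P 𝓕 x lam s h U) 𝓕 x Bk Bl (lk - ll) t +
      av Bk Bl (fun i j => Bil (QG P 𝓕 x lam s h U) 𝓕 x (XU s U i) (XU s U j) t
        (dh i j U))) ν ∧
    ∫ U, (Tpw (XU s U) (QG P 𝓕 x lam s h U) 𝓕 x Bk Bl (lk - ll) t +
      av Bk Bl (fun i j => Bil (QG P 𝓕 x lam s h U) 𝓕 x (XU s U i) (XU s U j) t
        (dh i j U))) ∂ν = 0 := by
  simp only [← GG_av _ hBk hBl]
  have key : ∀ i ∈ Bk, ∀ j ∈ Bl,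
      Integrable (fun U => GG (QG P 𝓕 x lam s h U) 𝓕 x (XU s U i) (XU s U j) t
        (fun a => -(lk - ll) * (XU s U i a * XU s U j a) + dh i j U a)) ν ∧
      ∫ U, GG (QG P 𝓕 x lam s h U) 𝓕 x (XU s U i) (XU s U j) t
        (fun a => -(lk - ll) * (XU s U i a * XU s U j a) + dh i j U a) ∂ν = 0 := by
    intro i hi j hj
    have hij : i ≠ j := fun h => (Finset.disjoint_left.mp hd) hi (h ▸ hj)
    have h1 := sd_GG (𝓕 := 𝓕) ν hν hleft hij hP hx lam s hh t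
    have e : ∀ U, VG lam s dh i j U = fun a => -(lk - ll) * (XU s U i a * XU s U j a) +
        dh i j U a := by
      intro U
      funext a
      unfold VG XU
      rw [hlk i hi, hll j hj]
      ring
    simp only [e] at h1
    exact h1
  unfold av
  have hint : ∀ i ∈ Bk, Integrable (fun U => ∑ j ∈ Bl,
      GG (QG P 𝓕 x lam s h U) 𝓕 x (XU s U i) (XU s U j) t
        (fun a => -(lk - ll) * (XU s U i a * XU s U j a) + dh i j U a)) ν := fun i hi =>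
    integrable_finsetSum _ fun j hj => (key i hi j hj).1
  refine ⟨(integrable_finsetSum _ hint).const_mul _, ?_⟩
  rw [integral_const_mul, integral_finsetSum _ hint]
  have : ∀ i ∈ Bk, ∫ U, ∑ j ∈ Bl, GG (QG P 𝓕 x lam s h U) 𝓕 x (XU s U i) (XU s U j) t
        (fun a => -(lk - ll) * (XU s U i a * XU s U j a) + dh i j U a) ∂ν = 0 := by
    intro i hi
    rw [integral_finsetSum _ fun j hj => (key i hi j hj).1]
    exact Finset.sum_eq_zero fun j hj => (key i hi j hj).2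
  rw [Finset.sum_eq_zero this, mul_zero]

section main

variable {D : Type*} [Fintype D]

/-- **Integrated left-rotation relation, matrix-dependent log-weight.** -/
theorem rel_leG (ν : Measure (Fin N → Fin N → ℝ)) [IsProbabilityMeasure ν]
    (hν : ∀ᵐ U ∂ν, U ∈ OK N) (hleft : LeftInv ν) {Bk Bl : Finset (Fin N)}
    (hd : Disjoint Bk Bl) (hBk : 0 < Bk.card) (hBl : 0 < Bl.card)
    (hP : IsProb P) (hx : IsExpo x) (lam : Fin N → ℝ) {lk ll : ℝ} (hlk : ∀ i ∈ Bk, lam i = lk)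
    (hll : ∀ i ∈ Bl, lam i = ll) (s : Ω → Fin N → ℝ) (hs : ∀ w, ∑ i, s w i ^ 2 ≤ N)
    {K : ℝ} (hKk : (N : ℝ) ≤ K * Bk.card) (hKl : (N : ℝ) ≤ K * Bl.card)
    {q : D → ℝ} (hq0 : ∀ d, 0 ≤ q d) (hq1 : ∑ d, q d = 1)
    {h : D → (Fin N → Fin N → ℝ) → Ω → ℝ}
    {dh : D → Fin N → Fin N → (Fin N → Fin N → ℝ) → Ω → ℝ} (hh : ∀ d, IsField (h d) (dh d))
    {τ : D → ℕ → ℕ} (hτ : ∀ d, Monotone (τ d)) {n : ℕ} (hτL : ∀ d, τ d n = 𝓕.L)
    {mm : ℕ → ℝ} (hm0 : ∀ b, 0 ≤ mm b) (hm1 : ∀ b, mm b ≤ 1) {δ : ℝ} (hδ : 0 ≤ δ)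
    (hlow : ∀ d m, m ≤ τ d 0 → x m ≤ δ)
    (hw : ∀ d b, b < n → ∀ m, τ d b < m → m ≤ τ d (b + 1) → |x m - mm (b + 1)| ≤ δ)
    {gk gl : ℕ → ℝ} (hgk : ∀ b, 0 ≤ gk b ∧ gk b ≤ K) (hgl : ∀ b, 0 ≤ gl b ∧ gl b ≤ K)
    {θ θ' : ℝ} (hθ : 0 < θ) (hθ' : 0 < θ') {a : ℕ} (ha : a ≤ n) {e π η : ℝ}
    (hek : dav q ν (fun d U => eC (XU s U) (QG P 𝓕 x lam s (h d) U) 𝓕 Bk (τ d) n gk) ≤ e)
    (hel : dav q ν (fun d U => eC (XU s U) (QG P 𝓕 x lam s (h d) U) 𝓕 Bl (τ d) n gl) ≤ e)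
    (hπ : dav q ν (fun d U => eP (XU s U) (QG P 𝓕 x lam s (h d) U) 𝓕 Bk Bl (τ d) n a) ≤ π)
    (hη : dav q ν (fun d U => av Bk Bl (fun i j =>
      eE (QG P 𝓕 x lam s (h d) U) (fun w => dh d i j U w ^ 2))) ≤ η) :
    |Rel mm n (lk - ll) gk gl a| ≤
      2 * e + |lk - ll| * (4 * δ * K ^ 2 + 6 * n * (θ * K ^ 2 + 1 / θ * π + 2 * K * e)) +
        3 / 2 * (θ' * K ^ 2 + 1 / θ' * η) := by
  have hK0 : 0 ≤ K := (hgk 0).1.trans (hgk 0).2
  set c := lk - ll with hc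
  set ek := fun (d : D) U => eC (XU s U) (QG P 𝓕 x lam s (h d) U) 𝓕 Bk (τ d) n gk
  set el := fun (d : D) U => eC (XU s U) (QG P 𝓕 x lam s (h d) U) 𝓕 Bl (τ d) n gl
  set pe := fun (d : D) U => eP (XU s U) (QG P 𝓕 x lam s (h d) U) 𝓕 Bk Bl (τ d) n a
  set de := fun (d : D) U => av Bk Bl (fun i j =>
      eE (QG P 𝓕 x lam s (h d) U) (fun w => dh d i j U w ^ 2))
  have ik : ∀ d, Integrable (ek d) ν := fun d =>
    integrable_cont hν (contG_eC hP hx lam s (hh d).cont Bk (τ d) n gk)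
  have il : ∀ d, Integrable (el d) ν := fun d =>
    integrable_cont hν (contG_eC hP hx lam s (hh d).cont Bl (τ d) n gl)
  have ip : ∀ d, Integrable (pe d) ν := fun d =>
    integrable_cont hν (contG_eP hP hx lam s (hh d).cont Bk Bl (τ d) n a)
  have ide : ∀ d, Integrable (de d) ν := fun d =>
    integrable_cont hν (contG_dh hP hx lam s (hh d).cont Bk Bl (hh d).dcont)
  set c1 := 1 + |c| * (6 * n * K) with hc1
  set c2 := |c| * (6 * n * (1 / θ)) with hc2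
  set c4 := 3 / 2 * (1 / θ') with hc4
  set c3 := |c| * (4 * δ * K ^ 2 + 6 * n * (θ * K ^ 2)) + 3 / 2 * (θ' * K ^ 2) with hc3
  have i1 : ∀ d, Integrable (fun U => c1 * (ek d U + el d U)) ν := fun d =>
    ((ik d).add (il d)).const_mul c1
  have i2 : ∀ d, Integrable (fun U => c2 * pe d U) ν := fun d => (ip d).const_mul c2
  have i4 : ∀ d, Integrable (fun U => c4 * de d U) ν := fun d => (ide d).const_mul c4
  have i12 : ∀ d, Integrable (fun U => c1 * (ek d U + el d U) + c2 * pe d U) ν := fun d =>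
    (i1 d).add (i2 d)
  have i124 : ∀ d, Integrable (fun U => c1 * (ek d U + el d U) + c2 * pe d U + c4 * de d U) ν :=
    fun d => (i12 d).add (i4 d)
  have ierr : ∀ d, Integrable (fun U => c1 * (ek d U + el d U) + c2 * pe d U + c4 * de d U + c3)
      ν := fun d => (i124 d).add (integrable_const c3)
  -- single `d`
  have h1 : ∀ d, |Rel mm n c gk gl a| ≤
      ∫ U, (c1 * (ek d U + el d U) + c2 * pe d U + c4 * de d U + c3) ∂ν := by
    intro d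
    obtain ⟨iT, hT⟩ := integral_TpwG (𝓕 := 𝓕) ν hν hleft hd hBk hBl hP hx lam hlk hll s (hh d)
      (τ d a)
    have e0 : Rel mm n c gk gl a = ∫ U, (Rel mm n c gk gl a -
        (Tpw (XU s U) (QG P 𝓕 x lam s (h d) U) 𝓕 x Bk Bl (lk - ll) (τ d a) +
          av Bk Bl (fun i j => Bil (QG P 𝓕 x lam s (h d) U) 𝓕 x (XU s U i) (XU s U j) (τ d a)
        (dh d i j U)))) ∂ν := by
      rw [integral_sub (integrable_const _) iT, hT]
      simp
    rw [e0]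
    refine (abs_integral_le_integral_abs).trans ?_
    refine integral_mono_ae ((integrable_const _).sub iT).abs (ierr d) ?_
    filter_upwards [hν] with U hU
    have hQ := QG_isProb (𝓕 := 𝓕) hP hx lam s (h d) U
    have hpw := pointwise (𝓕 := 𝓕) (XU s U) hQ hx hθ hBk hBl
      (block_XU_sq hU s hs hKk) (block_XU_sq hU s hs hKl) (hτ d) (hτL d) hm0 hm1 hδ (hlow d)
      (hw d) hgk hgl (lk - ll) ha
    have hex := av_Bil_le (𝓕 := 𝓕) (XU s U) hQ hx hθ' hBk hBl hK0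
      (block_XU_sq hU s hs hKk) (block_XU_sq hU s hs hKl) (t := τ d a)
      ((hτL d) ▸ (hτ d) ha) (fun i j => dh d i j U)
    have e1 : |Rel mm n c gk gl a -
        (Tpw (XU s U) (QG P 𝓕 x lam s (h d) U) 𝓕 x Bk Bl (lk - ll) (τ d a) +
          av Bk Bl (fun i j => Bil (QG P 𝓕 x lam s (h d) U) 𝓕 x (XU s U i) (XU s U j) (τ d a)
        (dh d i j U)))| ≤
        |Tpw (XU s U) (QG P 𝓕 x lam s (h d) U) 𝓕 x Bk Bl (lk - ll) (τ d a) -
          Rel mm n c gk gl a| +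
        |av Bk Bl (fun i j => Bil (QG P 𝓕 x lam s (h d) U) 𝓕 x (XU s U i) (XU s U j) (τ d a)
        (dh d i j U))| := by
      rw [← abs_neg]
      refine le_trans (le_of_eq ?_) (abs_add_le _ _)
      congr 1
      ring
    refine e1.trans ((add_le_add hpw hex).trans (le_of_eq ?_))
    simp only [hc1, hc2, hc3, hc4, ek, el, pe, de]
    ring
  have h2 : |Rel mm n c gk gl a| ≤
      dav q ν (fun d U => c1 * (ek d U + el d U) + c2 * pe d U + c4 * de d U + c3) := by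
    have e0 : |Rel mm n c gk gl a| = ∑ d, q d * |Rel mm n c gk gl a| := by
      rw [← Finset.sum_mul, hq1, one_mul]
    rw [e0]
    exact Finset.sum_le_sum fun d _ => mul_le_mul_of_nonneg_left (h1 d) (hq0 d)
  have h3 : dav q ν (fun d U => c1 * (ek d U + el d U) + c2 * pe d U + c4 * de d U + c3) =
      c1 * (dav q ν ek + dav q ν el) + c2 * dav q ν pe + c4 * dav q ν de + c3 := by
    rw [dav_add (f := fun d U => c1 * (ek d U + el d U) + c2 * pe d U + c4 * de d U)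
      (g := fun _ _ => c3) i124 (fun d => integrable_const c3), dav_const hq1,
      dav_add (f := fun d U => c1 * (ek d U + el d U) + c2 * pe d U)
        (g := fun d U => c4 * de d U) i12 i4,
      dav_add (f := fun d U => c1 * (ek d U + el d U)) (g := fun d U => c2 * pe d U) i1 i2,
      dav_smul, dav_smul, dav_smul, dav_add ik il]
  rw [h3] at h2
  refine h2.trans ?_
  have hc1' : 0 ≤ c1 := by positivity
  have hc2' : 0 ≤ c2 := by positivity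
  have hc4' : 0 ≤ c4 := by positivity
  have h4 : c1 * (dav q ν ek + dav q ν el) ≤ c1 * (e + e) :=
    mul_le_mul_of_nonneg_left (add_le_add hek hel) hc1'
  have h5 : c2 * dav q ν pe ≤ c2 * π := mul_le_mul_of_nonneg_left hπ hc2'
  have h7 : c4 * dav q ν de ≤ c4 * η := mul_le_mul_of_nonneg_left hη hc4'
  have h6 : c1 * (e + e) + c2 * π + c4 * η + c3 =
      2 * e + |c| * (4 * δ * K ^ 2 + 6 * n * (θ * K ^ 2 + 1 / θ * π + 2 * K * e)) +
        3 / 2 * (θ' * K ^ 2 + 1 / θ' * η) := by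
    simp only [hc1, hc2, hc3, hc4]; ring
  linarith

/-- **Integrated left-rotation relation, spin purity, matrix-dependent log-weight.** -/
theorem rel_spinG (ν : Measure (Fin N → Fin N → ℝ)) [IsProbabilityMeasure ν]
    (hν : ∀ᵐ U ∂ν, U ∈ OK N) (hleft : LeftInv ν) (hN : 0 < N) {Bk Bl : Finset (Fin N)}
    (hd : Disjoint Bk Bl)
    (hP : IsProb P) (hx : IsExpo x) (lam : Fin N → ℝ) {lk ll : ℝ} (hlk : ∀ i ∈ Bk, lam i = lk)
    (hll : ∀ i ∈ Bl, lam i = ll) (s : Ω → Fin N → ℝ) (hs : ∀ w, ∑ i, s w i ^ 2 ≤ N)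
    {K : ℝ} (hKk : (N : ℝ) ≤ K * Bk.card) (hKl : (N : ℝ) ≤ K * Bl.card)
    {q : D → ℝ} (hq0 : ∀ d, 0 ≤ q d) (hq1 : ∑ d, q d = 1)
    {h : D → (Fin N → Fin N → ℝ) → Ω → ℝ}
    {dh : D → Fin N → Fin N → (Fin N → Fin N → ℝ) → Ω → ℝ} (hh : ∀ d, IsField (h d) (dh d))
    {τ : D → ℕ → ℕ} (hτ : ∀ d, Monotone (τ d)) {n : ℕ} (hτL : ∀ d, τ d n = 𝓕.L)
    {mm : ℕ → ℝ} (hm0 : ∀ b, 0 ≤ mm b) (hm1 : ∀ b, mm b ≤ 1) {δ : ℝ} (hδ : 0 ≤ δ)
    (hlow : ∀ d m, m ≤ τ d 0 → x m ≤ δ)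
    (hw : ∀ d b, b < n → ∀ m, τ d b < m → m ≤ τ d (b + 1) → |x m - mm (b + 1)| ≤ δ)
    {gk gl : ℕ → ℝ} (hgk : ∀ b, 0 ≤ gk b ∧ gk b ≤ K) (hgl : ∀ b, 0 ≤ gl b ∧ gl b ≤ K)
    {ρ κ : ℝ} (hρ : 0 < ρ) (hκ : 0 < κ) {a : ℕ} (ha : a ≤ n) {e : ℝ}
    (hek : dav q ν (fun d U => eC (XU s U) (QG P 𝓕 x lam s (h d) U) 𝓕 Bk (τ d) n gk) ≤ e)
    (hel : dav q ν (fun d U => eC (XU s U) (QG P 𝓕 x lam s (h d) U) 𝓕 Bl (τ d) n gl) ≤ e)
    (hpa : ∀ b ≤ n, dav q ν (fun d U => avcS (QG P 𝓕 x lam s (h d) U) 𝓕 (fun i w => s w i)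
      (τ d b) (τ d a)) ≤ ρ ^ 2)
    (hpn : ∀ b ≤ n, dav q ν (fun d U => avcS (QG P 𝓕 x lam s (h d) U) 𝓕 (fun i w => s w i)
      (τ d b) (τ d n)) ≤ ρ ^ 2)
    (hη : dav q ν (fun d U => av Bk Bl (fun i j =>
      eE (QG P 𝓕 x lam s (h d) U) (fun w => dh d i j U w ^ 2))) ≤ κ ^ 2) :
    |Rel mm n (lk - ll) gk gl a| ≤
      2 * e + |lk - ll| * (4 * δ * K ^ 2 + 6 * n * ((2 * n + 3) * K ^ 2 * ρ + 2 * K * e)) +
        3 / 2 * κ * (K ^ 2 + 1) := by
  have hK0 : 0 ≤ K := (hgk 0).1.trans (hgk 0).2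
  have hN' : (0:ℝ) < N := by exact_mod_cast hN
  have hBk : 0 < Bk.card := by
    rcases Nat.eq_zero_or_pos Bk.card with h | h
    · rw [h] at hKk; simp at hKk; linarith
    · exact h
  have hBl : 0 < Bl.card := by
    rcases Nat.eq_zero_or_pos Bl.card with h | h
    · rw [h] at hKl; simp at hKl; linarith
    · exact h
  have icS : ∀ k m d, Integrable (fun U => avcS (QG P 𝓕 x lam s (h d) U) 𝓕 (fun i w => s w i)
      k m) ν := fun k m d => integrable_cont hν (contG_avcS hP hx lam s (hh d).cont k m)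
  have hπ : dav q ν (fun d U => eP (XU s U) (QG P 𝓕 x lam s (h d) U) 𝓕 Bk Bl (τ d) n a) ≤
      K ^ 2 * ((n + 1) * (2 * ρ ^ 2)) := by
    have h1 : dav q ν (fun d U => eP (XU s U) (QG P 𝓕 x lam s (h d) U) 𝓕 Bk Bl (τ d) n a) ≤
        dav q ν (fun d U => K ^ 2 * ∑ b ∈ range (n + 1),
          (avcS (QG P 𝓕 x lam s (h d) U) 𝓕 (fun i w => s w i) (τ d b) (τ d a) +
          avcS (QG P 𝓕 x lam s (h d) U) 𝓕 (fun i w => s w i) (τ d b) (τ d n))) := by
      refine dav_mono hq0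
        (fun d => integrable_cont hν (contG_eP hP hx lam s (hh d).cont Bk Bl (τ d) n a))
        (fun d => (integrable_finsetSum _ fun b _ => (icS _ _ d).add (icS _ _ d)).const_mul _)
        fun d => ?_
      filter_upwards [hν] with U hU
      exact eP_le (QG_isProb hP hx lam s (h d) U) hU s hN hK0 hKk hKl (hτL d) a
    refine h1.trans ?_
    rw [dav_smul]
    refine mul_le_mul_of_nonneg_left ?_ (by positivity)
    have h2 : dav q ν (fun d U => ∑ b ∈ range (n + 1),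
          (avcS (QG P 𝓕 x lam s (h d) U) 𝓕 (fun i w => s w i) (τ d b) (τ d a) +
          avcS (QG P 𝓕 x lam s (h d) U) 𝓕 (fun i w => s w i) (τ d b) (τ d n))) =
        ∑ b ∈ range (n + 1), (dav q ν (fun d U => avcS (QG P 𝓕 x lam s (h d) U) 𝓕
            (fun i w => s w i) (τ d b) (τ d a)) +
          dav q ν (fun d U => avcS (QG P 𝓕 x lam s (h d) U) 𝓕 (fun i w => s w i)
            (τ d b) (τ d n))) := by
      unfold dav
      simp only [← Finset.sum_add_distrib]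
      rw [Finset.sum_comm]
      refine Finset.sum_congr rfl fun d _ => ?_
      have iS2 : ∀ b ∈ range (n + 1), Integrable (fun U =>
          avcS (QG P 𝓕 x lam s (h d) U) 𝓕 (fun i w => s w i) (τ d b) (τ d a) +
          avcS (QG P 𝓕 x lam s (h d) U) 𝓕 (fun i w => s w i) (τ d b) (τ d n)) ν :=
        fun b _ => (icS _ _ d).add (icS _ _ d)
      rw [integral_finsetSum _ iS2, Finset.mul_sum]
      refine Finset.sum_congr rfl fun b _ => ?_
      rw [integral_add (icS _ _ d) (icS _ _ d), mul_add]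
    rw [h2]
    have h3 : ∀ b ∈ range (n + 1), dav q ν (fun d U => avcS (QG P 𝓕 x lam s (h d) U) 𝓕
            (fun i w => s w i) (τ d b) (τ d a)) +
          dav q ν (fun d U => avcS (QG P 𝓕 x lam s (h d) U) 𝓕 (fun i w => s w i)
            (τ d b) (τ d n)) ≤ 2 * ρ ^ 2 := by
      intro b hb
      have hb' : b ≤ n := by have := Finset.mem_range.mp hb; omega
      linarith [hpa b hb', hpn b hb']
    refine (Finset.sum_le_sum h3).trans (le_of_eq ?_)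
    rw [Finset.sum_const, Finset.card_range, nsmul_eq_mul]
    push_cast
    ring
  refine (rel_leG ν hν hleft hd hBk hBl hP hx lam hlk hll s hs hKk hKl hq0 hq1 hh hτ hτL hm0 hm1
    hδ hlow hw hgk hgl hρ hκ ha hek hel hπ hη).trans (le_of_eq ?_)
  have h1 : 1 / ρ * (K ^ 2 * ((n + 1) * (2 * ρ ^ 2))) = K ^ 2 * ((n + 1) * 2) * ρ := by
    field_simp
  have h2 : 1 / κ * κ ^ 2 = κ := by field_simp
  rw [h1, h2]
  ring

end main

/-! ### Linear fields -/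

/-- log-weight `H0 + ∑_i z_i (U s)_i`. -/
def hlin (s : Ω → Fin N → ℝ) (H0 : Ω → ℝ) (z : Fin N → Ω → ℝ) (U : Fin N → Fin N → ℝ) (w : Ω) :
    ℝ := H0 w + ∑ i, z i w * xc (s w) i U

/-- its derivative along the rotation of rows `i, j`. -/
def dlin (s : Ω → Fin N → ℝ) (z : Fin N → Ω → ℝ) (i j : Fin N) (U : Fin N → Fin N → ℝ) (w : Ω) :
    ℝ := z j w * xc (s w) i U - z i w * xc (s w) j U

omit [Fintype Ω] in
theorem isField_lin (s : Ω → Fin N → ℝ) (H0 : Ω → ℝ) (z : Fin N → Ω → ℝ) :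
    IsField (hlin s H0 z) (dlin s z) where
  cont w := by
    unfold hlin
    exact continuous_const.add (continuous_finsetSum _ fun i _ =>
      continuous_const.mul (continuous_xc (s w) i))
  dcont i j w := by
    unfold dlin
    exact (continuous_const.mul (continuous_xc (s w) i)).sub
      (continuous_const.mul (continuous_xc (s w) j))
  der i j hij U w φ := by
    unfold hlin
    have h1 : HasDerivAt (fun φ => ∑ k, z k w * xc (s w) k (rot i j φ U))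
        (∑ k, z k w * dxc i j (s w) k (rot i j φ U)) φ :=
      HasDerivAt.fun_sum fun k _ => (hasDerivAt_xc hij (s w) k U φ).const_mul _
    refine (h1.const_add (H0 w)).congr_deriv ?_
    have h2 : ∑ k, z k w * dxc i j (s w) k (rot i j φ U) =
        ∑ k ∈ ({i, j} : Finset (Fin N)), z k w * dxc i j (s w) k (rot i j φ U) := by
      symm
      refine Finset.sum_subset (Finset.subset_univ _) fun k _ hk => ?_
      simp only [Finset.mem_insert, Finset.mem_singleton, not_or] at hk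
      unfold dxc
      rw [if_neg hk.1, if_neg hk.2]; ring
    rw [h2, Finset.sum_pair hij]
    unfold dxc dlin
    rw [if_pos rfl, if_neg hij.symm, if_pos rfl]
    ring

/-- bound of the derivatives of a linear field -/
theorem lin_bound {Q : Ω → ℝ} (hQ : IsProb Q) {U : Fin N → Fin N → ℝ} (hU : U ∈ OK N)
    (s : Ω → Fin N → ℝ) (hs : ∀ w, ∑ i, s w i ^ 2 ≤ N) {Bk Bl : Finset (Fin N)} {K : ℝ}
    (hN : 0 < N) (hK0 : 0 ≤ K) (hBk : (N : ℝ) ≤ K * Bk.card) (hBl : (N : ℝ) ≤ K * Bl.card)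
    (z : Fin N → Ω → ℝ) :
    av Bk Bl (fun i j => eE Q (fun w => dlin s z i j U w ^ 2)) ≤
      4 * K ^ 2 * ((N : ℝ)⁻¹ * eE Q (fun w => ∑ i, z i w ^ 2)) := by
  have hN' : (0:ℝ) < N := by exact_mod_cast hN
  have hk0 : (0:ℝ) < Bk.card := by
    rcases Nat.eq_zero_or_pos Bk.card with h | h
    · rw [h] at hBk; simp at hBk; linarith
    · exact_mod_cast h
  have hl0 : (0:ℝ) < Bl.card := by
    rcases Nat.eq_zero_or_pos Bl.card with h | h
    · rw [h] at hBl; simp at hBl; linarith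
    · exact_mod_cast h
  have hk0' : 0 < Bk.card := by exact_mod_cast hk0
  have hl0' : 0 < Bl.card := by exact_mod_cast hl0
  rw [av_eE, ← eE_smul, ← eE_smul]
  refine eE_mono hQ fun w => ?_
  have h1 : av Bk Bl (fun i j => dlin s z i j U w ^ 2) ≤
      av Bk Bl (fun i j => 2 * (xc (s w) i U ^ 2 * z j w ^ 2) +
        2 * (z i w ^ 2 * xc (s w) j U ^ 2)) := by
    refine av_mono _ _ fun i _ j _ => ?_
    unfold dlin
    nlinarith [sq_nonneg (z j w * xc (s w) i U + z i w * xc (s w) j U)]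
  refine h1.trans ?_
  rw [av_add, av_smul, av_smul, av_mul, av_mul]
  have hz0 : 0 ≤ ∑ i, z i w ^ 2 := Finset.sum_nonneg fun _ _ => sq_nonneg _
  have hinv : ∀ {B : Finset (Fin N)}, (0:ℝ) < B.card → (N : ℝ) ≤ K * B.card →
      (B.card : ℝ)⁻¹ ≤ K * (N : ℝ)⁻¹ := by
    intro B hB hKB
    rw [← div_eq_mul_inv, le_div_iff₀ hN', inv_mul_le_iff₀ hB]
    linarith
  have hz : ∀ {B : Finset (Fin N)}, (0:ℝ) < B.card → (N : ℝ) ≤ K * B.card →
      (B.card : ℝ)⁻¹ * ∑ i ∈ B, z i w ^ 2 ≤ K * ((N : ℝ)⁻¹ * ∑ i, z i w ^ 2) := by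
    intro B hB hKB
    have h2 : ∑ i ∈ B, z i w ^ 2 ≤ ∑ i, z i w ^ 2 :=
      Finset.sum_le_sum_of_subset_of_nonneg (Finset.subset_univ _) fun _ _ _ => sq_nonneg _
    calc (B.card : ℝ)⁻¹ * ∑ i ∈ B, z i w ^ 2 ≤ (K * (N : ℝ)⁻¹) * ∑ i, z i w ^ 2 :=
          mul_le_mul (hinv hB hKB) h2 (Finset.sum_nonneg fun _ _ => sq_nonneg _) (by positivity)
      _ = _ := by ring
  have hxk : (Bk.card : ℝ)⁻¹ * ∑ i ∈ Bk, xc (s w) i U ^ 2 ≤ K :=
    bm_le (XU s U) hk0' (block_XU_sq hU s hs hBk) w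
  have hxl : (Bl.card : ℝ)⁻¹ * ∑ i ∈ Bl, xc (s w) i U ^ 2 ≤ K :=
    bm_le (XU s U) hl0' (block_XU_sq hU s hs hBl) w
  have a1 : ((Bk.card : ℝ)⁻¹ * ∑ i ∈ Bk, xc (s w) i U ^ 2) *
      ((Bl.card : ℝ)⁻¹ * ∑ j ∈ Bl, z j w ^ 2) ≤ K * (K * ((N : ℝ)⁻¹ * ∑ i, z i w ^ 2)) :=
    mul_le_mul hxk (hz hl0 hBl)
      (mul_nonneg (by positivity) (Finset.sum_nonneg fun _ _ => sq_nonneg _)) hK0
  have a2 : ((Bk.card : ℝ)⁻¹ * ∑ i ∈ Bk, z i w ^ 2) *
      ((Bl.card : ℝ)⁻¹ * ∑ j ∈ Bl, xc (s w) j U ^ 2) ≤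
        (K * ((N : ℝ)⁻¹ * ∑ i, z i w ^ 2)) * K :=
    mul_le_mul (hz hk0 hBk) hxl
      (mul_nonneg (by positivity) (Finset.sum_nonneg fun _ _ => sq_nonneg _)) (by positivity)
  nlinarith [a1, a2]

end

end Crest.Agent.R164.RotRel
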