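import Mathlib

/-!
Row 164: deterministic consequences of the approximate left-rotation (Schwinger-Dyson) relations,
part 1: the atomic resolvent in the coordinate `τ = 1/(b - θ_max)`.

For atoms with masses `α k > 0`, `∑ α = 1`, and gaps `d k = θ_max - θ k ≥ 0` put
`e_k(τ) = 1/(1 + τ d_k)`, `F_k(τ) = τ e_k(τ) = 1/(b - θ_k)`, `s(τ) = ∑ α_k F_k(τ)`.
-/

set_option autoImplicit false

namespace Crest.Agent.R164.SDAlg

open Finset

noncomputable section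

variable {κ : Type} [Fintype κ]

/-- `e_k(τ) = 1/(1 + τ d_k)`. -/
def ee (d : κ → ℝ) (τ : ℝ) (k : κ) : ℝ := (1 + τ * d k)⁻¹

/-- `F_k(τ) = τ e_k(τ)`. -/
def FF (d : κ → ℝ) (τ : ℝ) (k : κ) : ℝ := τ * ee d τ k

/-- `s(τ) = ∑ α_k F_k(τ)`. -/
def ss (α d : κ → ℝ) (τ : ℝ) : ℝ := ∑ k, α k * FF d τ k

/-- `q(τ, τ') = ∑ α_k e_k(τ) e_k(τ')`. -/
def qq (α d : κ → ℝ) (τ τ' : ℝ) : ℝ := ∑ k, α k * (ee d τ k * ee d τ' k)

variable {α d : κ → ℝ} {τ τ' : ℝ}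

omit [Fintype κ] in
theorem one_add_pos (hd : ∀ k, 0 ≤ d k) (hτ : 0 ≤ τ) (k : κ) : 0 < 1 + τ * d k := by
  have := mul_nonneg hτ (hd k); linarith

omit [Fintype κ] in
theorem ee_pos (hd : ∀ k, 0 ≤ d k) (hτ : 0 ≤ τ) (k : κ) : 0 < ee d τ k :=
  inv_pos.2 (one_add_pos hd hτ k)

omit [Fintype κ] in
theorem ee_le_one (hd : ∀ k, 0 ≤ d k) (hτ : 0 ≤ τ) (k : κ) : ee d τ k ≤ 1 := by
  unfold ee
  apply inv_le_one_of_one_le₀
  have := mul_nonneg hτ (hd k); linarith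

omit [Fintype κ] in
theorem ee_ge (hd : ∀ k, 0 ≤ d k) (hτ : 0 ≤ τ) {T Δ : ℝ} (hT : τ ≤ T) (hΔ : ∀ k, d k ≤ Δ) (k : κ) :
    (1 + T * Δ)⁻¹ ≤ ee d τ k := by
  unfold ee
  apply inv_anti₀ (one_add_pos hd hτ k)
  have := mul_le_mul hT (hΔ k) (hd k) (hτ.trans hT)
  linarith

omit [Fintype κ] in
theorem ee_mul (hd : ∀ k, 0 ≤ d k) (hτ : 0 ≤ τ) (k : κ) : ee d τ k * (1 + τ * d k) = 1 :=
  inv_mul_cancel₀ (one_add_pos hd hτ k).ne'

omit [Fintype κ] in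
/-- `e_k = 1 - d_k F_k`. -/
theorem ee_eq (hd : ∀ k, 0 ≤ d k) (hτ : 0 ≤ τ) (k : κ) : ee d τ k = 1 - d k * FF d τ k := by
  have := ee_mul hd hτ k
  unfold FF
  linarith

omit [Fintype κ] in
/-- exact difference. -/
theorem FF_sub (hd : ∀ k, 0 ≤ d k) (hτ : 0 ≤ τ) (hτ' : 0 ≤ τ') (k : κ) :
    FF d τ' k - FF d τ k = (τ' - τ) * (ee d τ k * ee d τ' k) := by
  unfold FF
  have h1 := ee_mul hd hτ k
  have h2 := ee_mul hd hτ' k
  linear_combination (-(τ' * ee d τ' k)) * h1 + (τ * ee d τ k) * h2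

omit [Fintype κ] in
theorem ee_sub (hd : ∀ k, 0 ≤ d k) (hτ : 0 ≤ τ) (hτ' : 0 ≤ τ') (k : κ) :
    ee d τ k - ee d τ' k = (τ' - τ) * d k * (ee d τ k * ee d τ' k) := by
  have h1 := ee_mul hd hτ k
  have h2 := ee_mul hd hτ' k
  linear_combination (ee d τ' k) * h1 - (ee d τ k) * h2

theorem ss_sub (hd : ∀ k, 0 ≤ d k) (hτ : 0 ≤ τ) (hτ' : 0 ≤ τ') :
    ss α d τ' - ss α d τ = (τ' - τ) * qq α d τ τ' := by
  unfold ss qq
  rw [← Finset.sum_sub_distrib, Finset.mul_sum]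
  apply Finset.sum_congr rfl
  intro k _
  rw [← mul_sub, FF_sub hd hτ hτ' k]
  ring

theorem qq_pos (hα : ∀ k, 0 < α k) (hne : Nonempty κ) (hd : ∀ k, 0 ≤ d k) (hτ : 0 ≤ τ)
    (hτ' : 0 ≤ τ') : 0 < qq α d τ τ' := by
  unfold qq
  apply Finset.sum_pos
  · intro k _
    exact mul_pos (hα k) (mul_pos (ee_pos hd hτ k) (ee_pos hd hτ' k))
  · exact Finset.univ_nonempty

theorem qq_le_one (hα : ∀ k, 0 < α k) (hsum : ∑ k, α k = 1) (hd : ∀ k, 0 ≤ d k) (hτ : 0 ≤ τ)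
    (hτ' : 0 ≤ τ') : qq α d τ τ' ≤ 1 := by
  unfold qq
  rw [← hsum]
  apply Finset.sum_le_sum
  intro k _
  have h1 : ee d τ k * ee d τ' k ≤ 1 * 1 :=
    mul_le_mul (ee_le_one hd hτ k) (ee_le_one hd hτ' k) (ee_pos hd hτ' k).le zero_le_one
  rw [one_mul] at h1
  calc α k * (ee d τ k * ee d τ' k) ≤ α k * 1 := mul_le_mul_of_nonneg_left h1 (hα k).le
    _ = α k := mul_one _

theorem qq_ge (hα : ∀ k, 0 < α k) (hsum : ∑ k, α k = 1) (hd : ∀ k, 0 ≤ d k) (hτ : 0 ≤ τ)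
    (hτ' : 0 ≤ τ') {T Δ : ℝ} (hT : τ ≤ T) (hT' : τ' ≤ T) (hΔ : ∀ k, d k ≤ Δ) (hΔ0 : 0 ≤ Δ) :
    ((1 + T * Δ)⁻¹) ^ 2 ≤ qq α d τ τ' := by
  unfold qq
  have hc : 0 < (1 + T * Δ)⁻¹ := by
    apply inv_pos.2
    have := mul_nonneg (hτ.trans hT) hΔ0
    linarith
  calc ((1 + T * Δ)⁻¹) ^ 2 = ∑ k, α k * ((1 + T * Δ)⁻¹ * (1 + T * Δ)⁻¹) := by
        rw [← Finset.sum_mul, hsum]; ring
    _ ≤ _ := by
        apply Finset.sum_le_sum
        intro k _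
        apply mul_le_mul_of_nonneg_left _ (hα k).le
        exact mul_le_mul (ee_ge hd hτ hT hΔ k) (ee_ge hd hτ' hT' hΔ k) hc.le (ee_pos hd hτ k).le

theorem ss_zero : ss α d 0 = 0 := by
  unfold ss FF
  simp

theorem ss_continuousOn (hd : ∀ k, 0 ≤ d k) : ContinuousOn (ss α d) (Set.Ici 0) := by
  unfold ss
  apply continuousOn_finset_sum
  intro k _
  apply ContinuousOn.mul continuousOn_const
  unfold FF ee
  apply ContinuousOn.mul continuousOn_id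
  apply ContinuousOn.inv₀
  · fun_prop
  · intro τ hτ
    exact (one_add_pos hd hτ k).ne'

theorem ss_strictMono (hα : ∀ k, 0 < α k) (hne : Nonempty κ) (hd : ∀ k, 0 ≤ d k)
    (hτ : 0 ≤ τ) (h : τ < τ') : ss α d τ < ss α d τ' := by
  have h1 := ss_sub (α := α) hd hτ (hτ.trans h.le)
  have h2 := mul_pos (sub_pos.2 h) (qq_pos hα hne hd hτ (hτ.trans h.le))
  linarith

/-- lower bound by the top atom. -/
theorem le_ss (hα : ∀ k, 0 < α k) (hd : ∀ k, 0 ≤ d k) {k0 : κ} (h0 : d k0 = 0) (hτ : 0 ≤ τ) :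
    α k0 * τ ≤ ss α d τ := by
  unfold ss
  have h1 : α k0 * FF d τ k0 = α k0 * τ := by
    unfold FF ee; rw [h0]; simp
  rw [← h1]
  apply Finset.single_le_sum (f := fun k => α k * FF d τ k) _ (Finset.mem_univ k0)
  intro k _
  exact mul_nonneg (hα k).le (mul_nonneg hτ (ee_pos hd hτ k).le)

theorem exists_tau (hα : ∀ k, 0 < α k) (hd : ∀ k, 0 ≤ d k) {k0 : κ}
    (h0 : d k0 = 0) {x : ℝ} (hx : 0 ≤ x) : ∃ τ, 0 ≤ τ ∧ ss α d τ = x := by
  have hT : 0 ≤ x / α k0 := div_nonneg hx (hα k0).le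
  have h1 : x ≤ ss α d (x / α k0) := by
    have := le_ss hα hd h0 hT
    rwa [mul_div_cancel₀ _ (hα k0).ne'] at this
  have h2 := intermediate_value_Icc hT ((ss_continuousOn (α := α) hd).mono
    (fun y hy => hy.1))
  rw [ss_zero] at h2
  obtain ⟨τ, hτ, h3⟩ := h2 ⟨hx, h1⟩
  exact ⟨τ, hτ.1, h3⟩

/-- `τ(x)`: the inverse of `s`. -/
def tau (α d : κ → ℝ) (x : ℝ) : ℝ :=
  open scoped Classical in
  if h : ∃ τ, 0 ≤ τ ∧ ss α d τ = x then h.choose else 0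

theorem tau_nonneg (α d : κ → ℝ) (x : ℝ) : 0 ≤ tau α d x := by
  unfold tau
  split_ifs with h
  · exact h.choose_spec.1
  · exact le_rfl

theorem ss_tau (hα : ∀ k, 0 < α k) (hd : ∀ k, 0 ≤ d k) {k0 : κ}
    (h0 : d k0 = 0) {x : ℝ} (hx : 0 ≤ x) : ss α d (tau α d x) = x := by
  unfold tau
  rw [dif_pos (exists_tau hα hd h0 hx)]
  exact (exists_tau hα hd h0 hx).choose_spec.2

theorem tau_unique (hα : ∀ k, 0 < α k) (hd : ∀ k, 0 ≤ d k) {k0 : κ}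
    (h0 : d k0 = 0) (hτ : 0 ≤ τ) {x : ℝ} (h : ss α d τ = x) : tau α d x = τ := by
  have hne : Nonempty κ := ⟨k0⟩
  have hx : 0 ≤ x := by
    rw [← h]
    exact (mul_nonneg (hα k0).le hτ).trans (le_ss hα hd h0 hτ)
  have h1 := ss_tau hα hd h0 hx
  rcases lt_trichotomy (tau α d x) τ with h2 | h2 | h2
  · have := ss_strictMono hα hne hd (tau_nonneg α d x) h2
    linarith
  · exact h2
  · have := ss_strictMono hα hne hd hτ h2
    linarith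

theorem tau_zero (hα : ∀ k, 0 < α k) (hd : ∀ k, 0 ≤ d k) {k0 : κ}
    (h0 : d k0 = 0) : tau α d 0 = 0 := tau_unique hα hd h0 le_rfl ss_zero

theorem tau_le (hα : ∀ k, 0 < α k) (hd : ∀ k, 0 ≤ d k) {k0 : κ}
    (h0 : d k0 = 0) {x : ℝ} (hx : 0 ≤ x) : tau α d x ≤ x / α k0 := by
  have h1 := le_ss hα hd h0 (tau_nonneg α d x)
  rw [ss_tau hα hd h0 hx] at h1
  rw [le_div_iff₀ (hα k0)]
  linarith

theorem tau_mono (hα : ∀ k, 0 < α k) (hd : ∀ k, 0 ≤ d k) {k0 : κ}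
    (h0 : d k0 = 0) {x y : ℝ} (hx : 0 ≤ x) (hxy : x ≤ y) : tau α d x ≤ tau α d y := by
  have hne : Nonempty κ := ⟨k0⟩
  by_contra h
  push Not at h
  have := ss_strictMono hα hne hd (tau_nonneg α d y) h
  rw [ss_tau hα hd h0 hx, ss_tau hα hd h0 (hx.trans hxy)] at this
  linarith

/-- the lower constant `c0`. -/
def c0 (T Δ : ℝ) : ℝ := ((1 + T * Δ)⁻¹) ^ 2

theorem c0_pos {T Δ : ℝ} (hT : 0 ≤ T) (hΔ : 0 ≤ Δ) : 0 < c0 T Δ := by
  unfold c0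
  have := mul_nonneg hT hΔ
  positivity

theorem c0_le_one {T Δ : ℝ} (hT : 0 ≤ T) (hΔ : 0 ≤ Δ) : c0 T Δ ≤ 1 := by
  unfold c0
  have := mul_nonneg hT hΔ
  have h1 : (1 + T * Δ)⁻¹ ≤ 1 := inv_le_one_of_one_le₀ (by linarith)
  have h2 : 0 ≤ (1 + T * Δ)⁻¹ := by positivity
  nlinarith

/-- Inverse Lipschitz bound. -/
theorem abs_sub_le_of_ss (hα : ∀ k, 0 < α k) (hsum : ∑ k, α k = 1) (hd : ∀ k, 0 ≤ d k)
    (hτ : 0 ≤ τ) (hτ' : 0 ≤ τ') {T Δ : ℝ} (hT : τ ≤ T) (hT' : τ' ≤ T) (hΔ : ∀ k, d k ≤ Δ)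
    (hΔ0 : 0 ≤ Δ) : c0 T Δ * |τ' - τ| ≤ |ss α d τ' - ss α d τ| := by
  rw [ss_sub hd hτ hτ', abs_mul, mul_comm]
  apply mul_le_mul_of_nonneg_left _ (abs_nonneg _)
  have h := qq_ge hα hsum hd hτ hτ' hT hT' hΔ hΔ0
  exact h.trans (le_abs_self _)

theorem FF_lip (hd : ∀ k, 0 ≤ d k) (hτ : 0 ≤ τ) (hτ' : 0 ≤ τ') (k : κ) :
    |FF d τ' k - FF d τ k| ≤ |τ' - τ| := by
  rw [FF_sub hd hτ hτ' k, abs_mul]
  have h1 : |ee d τ k * ee d τ' k| ≤ 1 := by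
    rw [abs_of_pos (mul_pos (ee_pos hd hτ k) (ee_pos hd hτ' k))]
    calc _ ≤ 1 * (1 : ℝ) :=
          mul_le_mul (ee_le_one hd hτ k) (ee_le_one hd hτ' k) (ee_pos hd hτ' k).le zero_le_one
      _ = 1 := one_mul 1
  calc _ ≤ |τ' - τ| * 1 := mul_le_mul_of_nonneg_left h1 (abs_nonneg _)
    _ = _ := mul_one _

/-- normalised weights `w_k(τ,τ') = e_k(τ) e_k(τ') / q(τ,τ')`. -/
def ww (α d : κ → ℝ) (τ τ' : ℝ) (k : κ) : ℝ := ee d τ k * ee d τ' k / qq α d τ τ'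

theorem ww_pos (hα : ∀ k, 0 < α k) (hd : ∀ k, 0 ≤ d k) (hτ : 0 ≤ τ)
    (hτ' : 0 ≤ τ') (k : κ) : 0 < ww α d τ τ' k :=
  div_pos (mul_pos (ee_pos hd hτ k) (ee_pos hd hτ' k)) (qq_pos hα ⟨k⟩ hd hτ hτ')

theorem sum_ww (hα : ∀ k, 0 < α k) (hne : Nonempty κ) (hd : ∀ k, 0 ≤ d k) (hτ : 0 ≤ τ)
    (hτ' : 0 ≤ τ') : ∑ k, α k * ww α d τ τ' k = 1 := by
  unfold ww
  simp only [← mul_div_assoc]
  rw [← Finset.sum_div]
  exact div_self (qq_pos hα hne hd hτ hτ').ne'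

theorem ww_le (hα : ∀ k, 0 < α k) (hd : ∀ k, 0 ≤ d k) (hτ : 0 ≤ τ)
    (hτ' : 0 ≤ τ') (k : κ) : ww α d τ τ' k ≤ 1 / α k := by
  have h1 := sum_ww hα ⟨k⟩ hd hτ hτ'
  have h2 : α k * ww α d τ τ' k ≤ 1 := by
    rw [← h1]
    exact Finset.single_le_sum (f := fun k => α k * ww α d τ τ' k)
      (fun l _ => (mul_pos (hα l) (ww_pos hα hd hτ hτ' l)).le) (Finset.mem_univ k)
  rw [le_div_iff₀ (hα k)]
  linarith

/-- increments of `F_k` in terms of increments of `s`. -/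
theorem FF_sub_eq (hα : ∀ k, 0 < α k) (hd : ∀ k, 0 ≤ d k) (hτ : 0 ≤ τ) (hτ' : 0 ≤ τ') (k : κ) :
    FF d τ' k - FF d τ k = (ss α d τ' - ss α d τ) * ww α d τ τ' k := by
  rw [FF_sub hd hτ hτ' k, ss_sub hd hτ hτ']
  unfold ww
  have h := (qq_pos hα ⟨k⟩ hd hτ hτ').ne'
  field_simp

/-- Lipschitz bound for the weights: both arguments move. -/
theorem ww_lip (hα : ∀ k, 0 < α k) (hsum : ∑ k, α k = 1) (hd : ∀ k, 0 ≤ d k)
    {T Δ : ℝ} (hΔ : ∀ k, d k ≤ Δ) (hΔ0 : 0 ≤ Δ) {a a' b b' : ℝ} (ha : 0 ≤ a) (ha' : 0 ≤ a')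
    (hb : 0 ≤ b) (hb' : 0 ≤ b') (haT : a ≤ T) (haT' : a' ≤ T) (hbT : b ≤ T) (hbT' : b' ≤ T)
    (k : κ) :
    |ww α d a a' k - ww α d b b' k| ≤ 2 * Δ / (c0 T Δ) ^ 2 * (|a - b| + |a' - b'|) := by
  have hT : 0 ≤ T := ha.trans haT
  have hc := c0_pos hT hΔ0
  -- products
  have hprod : ∀ l, |ee d a l * ee d a' l - ee d b l * ee d b' l| ≤
      Δ * (|a - b| + |a' - b'|) := by
    intro l
    have e1 : |ee d a l - ee d b l| ≤ Δ * |a - b| := by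
      rw [ee_sub hd ha hb l, abs_mul, abs_mul, abs_of_nonneg (hd l), abs_sub_comm b a]
      have h1 : |ee d a l * ee d b l| ≤ 1 := by
        rw [abs_of_pos (mul_pos (ee_pos hd ha l) (ee_pos hd hb l))]
        calc _ ≤ 1 * (1 : ℝ) :=
              mul_le_mul (ee_le_one hd ha l) (ee_le_one hd hb l) (ee_pos hd hb l).le zero_le_one
          _ = 1 := one_mul 1
      calc |a - b| * d l * |ee d a l * ee d b l| ≤ |a - b| * Δ * 1 :=
            mul_le_mul (mul_le_mul_of_nonneg_left (hΔ l) (abs_nonneg _)) h1 (abs_nonneg _)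
              (mul_nonneg (abs_nonneg _) hΔ0)
        _ = _ := by ring
    have e2 : |ee d a' l - ee d b' l| ≤ Δ * |a' - b'| := by
      rw [ee_sub hd ha' hb' l, abs_mul, abs_mul, abs_of_nonneg (hd l), abs_sub_comm b' a']
      have h1 : |ee d a' l * ee d b' l| ≤ 1 := by
        rw [abs_of_pos (mul_pos (ee_pos hd ha' l) (ee_pos hd hb' l))]
        calc _ ≤ 1 * (1 : ℝ) :=
              mul_le_mul (ee_le_one hd ha' l) (ee_le_one hd hb' l) (ee_pos hd hb' l).le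
                zero_le_one
          _ = 1 := one_mul 1
      calc |a' - b'| * d l * |ee d a' l * ee d b' l| ≤ |a' - b'| * Δ * 1 :=
            mul_le_mul (mul_le_mul_of_nonneg_left (hΔ l) (abs_nonneg _)) h1 (abs_nonneg _)
              (mul_nonneg (abs_nonneg _) hΔ0)
        _ = _ := by ring
    have e3 : ee d a l * ee d a' l - ee d b l * ee d b' l =
        (ee d a l - ee d b l) * ee d a' l + ee d b l * (ee d a' l - ee d b' l) := by ring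
    rw [e3]
    refine (abs_add_le _ _).trans ?_
    rw [abs_mul, abs_mul, abs_of_pos (ee_pos hd ha' l), abs_of_pos (ee_pos hd hb l)]
    have h1 : |ee d a l - ee d b l| * ee d a' l ≤ Δ * |a - b| * 1 :=
      mul_le_mul e1 (ee_le_one hd ha' l) (ee_pos hd ha' l).le (mul_nonneg hΔ0 (abs_nonneg _))
    have h2 : ee d b l * |ee d a' l - ee d b' l| ≤ 1 * (Δ * |a' - b'|) :=
      mul_le_mul (ee_le_one hd hb l) e2 (abs_nonneg _) zero_le_one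
    linarith
  set X := Δ * (|a - b| + |a' - b'|) with hX
  have hX0 : 0 ≤ X := mul_nonneg hΔ0 (add_nonneg (abs_nonneg _) (abs_nonneg _))
  have hq : |qq α d a a' - qq α d b b'| ≤ X := by
    unfold qq
    rw [← Finset.sum_sub_distrib]
    refine (Finset.abs_sum_le_sum_abs _ _).trans ?_
    calc ∑ l, |α l * (ee d a l * ee d a' l) - α l * (ee d b l * ee d b' l)|
        ≤ ∑ l, α l * X := by
          apply Finset.sum_le_sum
          intro l _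
          rw [← mul_sub, abs_mul, abs_of_pos (hα l)]
          exact mul_le_mul_of_nonneg_left (hprod l) (hα l).le
      _ = X := by rw [← Finset.sum_mul, hsum, one_mul]
  have hqa : c0 T Δ ≤ qq α d a a' := qq_ge hα hsum hd ha ha' haT haT' hΔ hΔ0
  have hqb : c0 T Δ ≤ qq α d b b' := qq_ge hα hsum hd hb hb' hbT hbT' hΔ hΔ0
  have hqa0 : 0 < qq α d a a' := hc.trans_le hqa
  have hqb0 : 0 < qq α d b b' := hc.trans_le hqb
  have hpb : 0 < ee d b k * ee d b' k := mul_pos (ee_pos hd hb k) (ee_pos hd hb' k)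
  have hpb1 : ee d b k * ee d b' k ≤ 1 := by
    calc _ ≤ 1 * (1 : ℝ) :=
          mul_le_mul (ee_le_one hd hb k) (ee_le_one hd hb' k) (ee_pos hd hb' k).le zero_le_one
      _ = 1 := one_mul 1
  have e : ww α d a a' k - ww α d b b' k =
      (ee d a k * ee d a' k - ee d b k * ee d b' k) / qq α d a a' +
      (ee d b k * ee d b' k) * (qq α d b b' - qq α d a a') / (qq α d a a' * qq α d b b') := by
    unfold ww
    field_simp
    ring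
  rw [e]
  refine (abs_add_le _ _).trans ?_
  rw [abs_div, abs_div, abs_mul, abs_of_pos hqa0, abs_of_pos (mul_pos hqa0 hqb0),
    abs_of_pos hpb]
  have hc1 := c0_le_one hT hΔ0
  have hcc : (c0 T Δ) ^ 2 ≤ c0 T Δ := by nlinarith
  have h1 : |ee d a k * ee d a' k - ee d b k * ee d b' k| / qq α d a a' ≤ X / (c0 T Δ) ^ 2 := by
    apply div_le_div₀ hX0 (hprod k) (by positivity) (hcc.trans hqa)
  have h2 : ee d b k * ee d b' k * |qq α d b b' - qq α d a a'| / (qq α d a a' * qq α d b b') ≤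
      X / (c0 T Δ) ^ 2 := by
    apply div_le_div₀ hX0 _ (by positivity)
    · rw [sq]; exact mul_le_mul hqa hqb hc.le hqa0.le
    · rw [abs_sub_comm]
      calc _ ≤ 1 * X := mul_le_mul hpb1 hq (abs_nonneg _) zero_le_one
        _ = X := one_mul X
  have h3 : 2 * Δ / (c0 T Δ) ^ 2 * (|a - b| + |a' - b'|) = X / (c0 T Δ) ^ 2 + X / (c0 T Δ) ^ 2 := by
    rw [hX]; ring
  rw [h3]
  exact add_le_add h1 h2

end

end Crest.Agent.R164.SDAlg
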