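import Crest.Agent.R164.SDAlg3
import Crest.Agent.R164.PAlg2
import Crest.Agent.R164.RScale

/-!
Row 164: deterministic consequences of the approximate left-rotation relations, part 4: calculus
of `τ(x)`, the integral representation of `Γhat` and the `t`-derivative of `G_t(p)`.
-/

set_option autoImplicit false

namespace Crest.Agent.R164.SDAlg

open Finset

noncomputable section

variable {κ : Type} [Fintype κ]

section calculus

variable {α d : κ → ℝ} {k0 : κ} {Δ : ℝ} (hα : ∀ k, 0 < α k) (hsum : ∑ k, α k = 1)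
  (hd : ∀ k, 0 ≤ d k) (h0 : d k0 = 0) (hΔ : ∀ k, d k ≤ Δ)

include hα hsum hd h0 hΔ

theorem delta_nonneg : 0 ≤ Δ := by
  have := hΔ k0
  rw [h0] at this
  exact this

theorem tau_lip {X x y : ℝ} (hx : 0 ≤ x) (hy : 0 ≤ y) (hxX : x ≤ X) (hyX : y ≤ X) :
    |tau α d y - tau α d x| ≤ |y - x| / c0 (X / α k0) Δ := by
  have hΔ0 := delta_nonneg hα hsum hd h0 hΔ
  have hX : 0 ≤ X / α k0 := div_nonneg (hx.trans hxX) (hα k0).le
  have hc := c0_pos hX hΔ0
  have hb : ∀ z, 0 ≤ z → z ≤ X → tau α d z ≤ X / α k0 := fun z hz hzX =>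
    (tau_le hα hd h0 hz).trans (div_le_div_of_nonneg_right hzX (hα k0).le)
  have h1 := abs_sub_le_of_ss hα hsum hd (tau_nonneg α d x) (tau_nonneg α d y)
    (hb x hx hxX) (hb y hy hyX) hΔ hΔ0
  rw [ss_tau hα hd h0 hx, ss_tau hα hd h0 hy] at h1
  rw [le_div_iff₀ hc]
  linarith

theorem tau_continuousOn : ContinuousOn (tau α d) (Set.Ici 0) := by
  have hΔ0 := delta_nonneg hα hsum hd h0 hΔ
  intro x hx
  have hx : 0 ≤ x := hx
  rw [Metric.continuousWithinAt_iff]
  intro ε hε
  have hX : 0 ≤ (x + 1) / α k0 := div_nonneg (by linarith) (hα k0).le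
  have hc := c0_pos hX hΔ0
  refine ⟨min 1 (ε * c0 ((x + 1) / α k0) Δ), by positivity, fun y hy hyx => ?_⟩
  have hy : 0 ≤ y := hy
  rw [Real.dist_eq] at hyx ⊢
  have h1 : |y - x| < 1 := lt_of_lt_of_le hyx (min_le_left _ _)
  have h2 : |y - x| < ε * c0 ((x + 1) / α k0) Δ := lt_of_lt_of_le hyx (min_le_right _ _)
  have h3 := tau_lip hα hsum hd h0 hΔ (X := x + 1) hx hy (by linarith)
    (by linarith [(abs_lt.1 h1).2])
  refine lt_of_le_of_lt h3 ?_
  rw [div_lt_iff₀ hc]
  exact h2

theorem ww_continuousOn (x0 : ℝ) (hx0 : 0 ≤ x0) (k : κ) :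
    ContinuousOn (fun x => ww α d (tau α d x0) (tau α d x) k) (Set.Ici 0) := by
  have h1 := tau_continuousOn hα hsum hd h0 hΔ
  have h2 : ∀ l, ContinuousOn (fun x => ee d (tau α d x) l) (Set.Ici 0) := by
    intro l
    unfold ee
    apply ContinuousOn.inv₀
    · exact continuousOn_const.add (h1.mul continuousOn_const)
    · intro x _
      exact (one_add_pos hd (tau_nonneg α d x) l).ne'
  unfold ww qq
  apply ContinuousOn.div
  · exact continuousOn_const.mul (h2 k)
  · apply continuousOn_finset_sum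
    intro l _
    exact continuousOn_const.mul (continuousOn_const.mul (h2 l))
  · intro x _
    exact (qq_pos hα ⟨k0⟩ hd (tau_nonneg α d x0) (tau_nonneg α d x)).ne'

theorem ww_diag_continuousOn (k : κ) :
    ContinuousOn (fun x => ww α d (tau α d x) (tau α d x) k) (Set.Ici 0) := by
  have h1 := tau_continuousOn hα hsum hd h0 hΔ
  have h2 : ∀ l, ContinuousOn (fun x => ee d (tau α d x) l) (Set.Ici 0) := by
    intro l
    unfold ee
    apply ContinuousOn.inv₀
    · exact continuousOn_const.add (h1.mul continuousOn_const)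
    · intro x _
      exact (one_add_pos hd (tau_nonneg α d x) l).ne'
  unfold ww qq
  apply ContinuousOn.div
  · exact (h2 k).mul (h2 k)
  · apply continuousOn_finset_sum
    intro l _
    exact continuousOn_const.mul ((h2 l).mul (h2 l))
  · intro x _
    exact (qq_pos hα ⟨k0⟩ hd (tau_nonneg α d x) (tau_nonneg α d x)).ne'

theorem FF_tau_continuousOn (k : κ) :
    ContinuousOn (fun x => FF d (tau α d x) k) (Set.Ici 0) := by
  have h1 := tau_continuousOn hα hsum hd h0 hΔ
  unfold FF ee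
  apply h1.mul
  apply ContinuousOn.inv₀
  · exact continuousOn_const.add (h1.mul continuousOn_const)
  · intro x _
    exact (one_add_pos hd (tau_nonneg α d x) k).ne'

theorem FF_tau_hasDerivAt {x : ℝ} (hx : 0 < x) (k : κ) :
    HasDerivAt (fun x => FF d (tau α d x) k) (ww α d (tau α d x) (tau α d x) k) x := by
  rw [hasDerivAt_iff_tendsto_slope]
  have h1 : ContinuousAt (fun y => ww α d (tau α d x) (tau α d y) k) x :=
    (ww_continuousOn hα hsum hd h0 hΔ x hx.le k).continuousAt (Ici_mem_nhds hx)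
  have h2 : Filter.Tendsto (fun y => ww α d (tau α d x) (tau α d y) k) (nhdsWithin x {x}ᶜ)
      (nhds (ww α d (tau α d x) (tau α d x) k)) := h1.tendsto.mono_left nhdsWithin_le_nhds
  refine h2.congr' ?_
  have h3 : ∀ᶠ y in nhdsWithin x {x}ᶜ, 0 < y :=
    nhdsWithin_le_nhds (Ioi_mem_nhds hx)
  filter_upwards [h3, self_mem_nhdsWithin] with y hy hne
  have hne : y ≠ x := hne
  rw [slope_def_field, FF_sub_eq hα hd (tau_nonneg α d x) (tau_nonneg α d y) k,
    ss_tau hα hd h0 hx.le, ss_tau hα hd h0 hy.le]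
  have : y - x ≠ 0 := sub_ne_zero.2 hne
  field_simp

end calculus

/-! ### integrals over the deficit of a step path -/

section deficit

open MeasureTheory Set Crest.ProbabilityR.InvariantGlass Crest.Agent.R164.PAlg

variable {M : ℕ} {wd p : Fin (M + 1) → ℝ}

theorem integral_deficit {ψ Ψ : ℝ → ℝ} (hψ : ContinuousOn ψ (Ici 0))
    (hΨ : ContinuousOn Ψ (Ici 0)) (hder : ∀ x, 0 < x → HasDerivAt Ψ (ψ x) x)
    (hwd : ∀ i, 0 < wd i) (hwds : ∑ i, wd i = 1) (hp : Monotone p) (hp0 : ∀ i, 0 ≤ p i)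
    (hp1 : ∀ i, p i ≤ 1) :
    ∫ r in Ioo (0 : ℝ) 1, ψ (deficit (stepFn wd p) r) =
      (Ψ (Dd wd p (Fin.last M)) - Ψ 0) +
        ∑ j : Fin M, (leftEnd wd j.succ)⁻¹ *
          (Ψ (Dd wd p j.castSucc) - Ψ (Dd wd p j.succ)) +
        p 0 * ψ (Dd wd p 0) := by
  set f : ℝ → ℝ := fun r => ψ (deficit (stepFn wd p) r) with hf
  have hfc : ContinuousOn f (Iic 1) := by
    refine hψ.comp (deficit_cont_step hwd hwds).continuousOn fun r hr => ?_
    exact deficit_nonneg_step hwd hwds hp1 hr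
  have hii : ∀ a b, a ≤ 1 → b ≤ 1 → IntervalIntegrable f volume a b := by
    intro a b ha hb
    refine ContinuousOn.intervalIntegrable (hfc.mono fun z hz => ?_)
    exact hz.2.trans (max_le ha hb)
  have hψi : ∀ a b, 0 ≤ a → 0 ≤ b → IntervalIntegrable ψ volume a b := by
    intro a b ha hb
    refine ContinuousOn.intervalIntegrable (hψ.mono fun z hz => ?_)
    exact (le_min ha hb).trans hz.1
  have hftc : ∀ a b, 0 ≤ a → a ≤ b → ∫ t in a..b, ψ t = Ψ b - Ψ a := by
    intro a b ha hab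
    apply intervalIntegral.integral_eq_sub_of_hasDerivAt_of_le hab
    · exact hΨ.mono fun z hz => ha.trans hz.1
    · intro z hz
      exact hder z (lt_of_le_of_lt ha hz.1)
    · exact hψi a b ha (ha.trans hab)
  have h1 : ∫ r in Ioo (0 : ℝ) 1, ψ (deficit (stepFn wd p) r) = ∫ r in (0:ℝ)..1, f r := by
    rw [intervalIntegral.integral_of_le zero_le_one, integral_Ioc_eq_integral_Ioo]
  have h2 : ∫ r in (0:ℝ)..1, f r = (∫ r in (0:ℝ)..(p 0), f r) +
      (∑ j : Fin M, ∫ r in (p j.castSucc)..(p j.succ), f r) + ∫ r in (p (Fin.last M))..1, f r := by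
    have ht := PAlg.tele (fun i : Fin (M + 1) => ∫ r in (0:ℝ)..(p i), f r)
    have h3 : ∀ j : Fin M, (∫ r in (0:ℝ)..(p j.succ), f r) - (∫ r in (0:ℝ)..(p j.castSucc), f r) =
        ∫ r in (p j.castSucc)..(p j.succ), f r := fun j =>
      intervalIntegral.integral_interval_sub_left (hii _ _ zero_le_one (hp1 _))
        (hii _ _ zero_le_one (hp1 _))
    rw [Finset.sum_congr rfl fun j _ => h3 j] at ht
    rw [ht]
    have h4 := intervalIntegral.integral_add_adjacent_intervals
      (hii 0 (p (Fin.last M)) zero_le_one (hp1 _)) (hii (p (Fin.last M)) 1 (hp1 _) le_rfl)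
    linarith
  have h3 : ∫ r in (0:ℝ)..(p 0), f r = p 0 * ψ (Dd wd p 0) := by
    have : ∫ r in (0:ℝ)..(p 0), f r = ∫ r in (0:ℝ)..(p 0), ψ (Dd wd p 0) := by
      refine intervalIntegral.integral_congr fun r hr => ?_
      rw [uIcc_of_le (hp0 0)] at hr
      simp only [hf]
      rw [deficit_bot hwd hwds hp hr.2]
    rw [this, intervalIntegral.integral_const, smul_eq_mul, sub_zero]
  have h4 : ∀ j : Fin M, ∫ r in (p j.castSucc)..(p j.succ), f r =
      (leftEnd wd j.succ)⁻¹ * (Ψ (Dd wd p j.castSucc) - Ψ (Dd wd p j.succ)) := by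
    intro j
    have hz := ze_pos hwd j
    have e1 : ∫ r in (p j.castSucc)..(p j.succ), f r = ∫ r in (p j.castSucc)..(p j.succ),
        ψ ((Dd wd p j.succ + leftEnd wd j.succ * p j.succ) - leftEnd wd j.succ * r) := by
      refine intervalIntegral.integral_congr fun r hr => ?_
      rw [uIcc_of_le (hp Fin.castSucc_lt_succ.le)] at hr
      simp only [hf]
      rw [deficit_mid hwd hwds hp j hr.1 hr.2]
      congr 1; ring
    rw [e1, intervalIntegral.integral_comp_sub_mul (fun y => ψ y) hz.ne', smul_eq_mul,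
      ← hftc (Dd wd p j.succ) (Dd wd p j.castSucc) (Dd_nonneg hwd hwds hp1 _)
        (Dd_anti hwd hwds hp j)]
    congr 2
    · ring
    · rw [Dd_castSucc hwd hwds hp]; ring
  have h5 : ∫ r in (p (Fin.last M))..1, f r = Ψ (Dd wd p (Fin.last M)) - Ψ 0 := by
    have e1 : ∫ r in (p (Fin.last M))..1, f r = ∫ r in (p (Fin.last M))..1, ψ (1 - r) := by
      refine intervalIntegral.integral_congr fun r hr => ?_
      rw [uIcc_of_le (hp1 _)] at hr
      simp only [hf]
      rw [deficit_top hwd hwds hp hr.1]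
    rw [e1, intervalIntegral.integral_comp_sub_left (fun y => ψ y), sub_self,
      Dd_last hwd hwds hp, hftc 0 _ le_rfl (sub_nonneg.2 (hp1 _))]
  rw [h1, h2, h3, h5, Finset.sum_congr rfl fun j _ => h4 j]
  ring

end deficit

end

end Crest.Agent.R164.SDAlg
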