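import Crest.Agent.R164.SDAlg5

/-!
Row 164: deterministic consequences of the approximate left-rotation relations, part 6: final
statements (`specT_quad`, `ET_step`, `energy_close`).
-/

set_option autoImplicit false

namespace Crest.Agent.R164.SDAlg

open Finset

noncomputable section

open MeasureTheory Set Crest.ProbabilityR.InvariantGlass Crest.Agent.R164.PAlg
open Crest.Agent.R164.RTrans Crest.Agent.R164.Atomic Crest.Agent.R164.RScale

variable {K : ℕ} {w val : Fin (K + 1) → ℝ}

section one

variable (hv : StrictMono val) (hw : ∀ k, 0 < w k) (hs : ∑ k, w k = 1)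

include hv hw hs

theorem phiT_continuousOn {t : ℝ} (ht : 0 ≤ t) (ht1 : t ≤ 1) :
    ContinuousOn (phiT w val t) (Ici 0) := by
  unfold phiT
  apply continuousOn_finset_sum
  intro k _
  exact continuousOn_const.mul (continuousOn_const.mul
    (ww_diag_continuousOn hw hs (gap_nonneg hv ht) (gap_last t) (gap_le hv ht ht1) k))

theorem phiT_abs_le {V : ℝ} (hV : ∀ k, |val k| ≤ V) {t : ℝ} (ht : 0 ≤ t) (x : ℝ) :
    |phiT w val t x| ≤ V := by
  unfold phiT
  have hτ := tau_nonneg w (gap val t) x
  have h1 := sum_ww hw ⟨0⟩ (gap_nonneg hv ht) hτ hτ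
  calc |∑ k, w k * (val k * ww w (gap val t) (tau w (gap val t) x) (tau w (gap val t) x) k)|
      ≤ ∑ k, V * (w k * ww w (gap val t) (tau w (gap val t) x) (tau w (gap val t) x) k) := by
        refine (Finset.abs_sum_le_sum_abs _ _).trans (Finset.sum_le_sum fun k _ => ?_)
        have h2 := ww_pos hw (gap_nonneg hv ht) hτ hτ k
        rw [abs_mul, abs_mul, abs_of_pos (hw k), abs_of_pos h2]
        have := mul_le_mul_of_nonneg_right (hV k) (mul_pos (hw k) h2).le
        linarith
    _ = V := by rw [← Finset.mul_sum, h1, mul_one]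

theorem phiT_deficit_integrable {t : ℝ} (ht : 0 ≤ t) (ht1 : t ≤ 1) {q : ℝ → ℝ}
    (hq : IsTrialPath q) : IntegrableOn (fun r => phiT w val t (deficit q r)) (Ioo (0:ℝ) 1) := by
  obtain ⟨V, hV⟩ : ∃ V : ℝ, ∀ k, |val k| ≤ V :=
    ⟨∑ k, |val k|, fun k => Finset.single_le_sum (f := fun k => |val k|)
      (fun _ _ => abs_nonneg _) (Finset.mem_univ k)⟩
  refine Integrable.mono' (integrable_const V) ?_ ?_
  · have hc : Continuous (fun x => phiT w val t (max x 0)) := by
      have h1 := phiT_continuousOn hv hw hs ht ht1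
      exact h1.comp_continuous (by fun_prop) (fun x => mem_Ici.2 (le_max_right x 0))
    have hm : AEMeasurable (deficit q) (volume.restrict (Ioo (0:ℝ) 1)) := by
      refine aemeasurable_restrict_of_antitoneOn measurableSet_Ioo ?_
      intro r hr r' hr' hrr
      exact deficit_antitone hq hr hr' hrr
    have h2 := (hc.measurable.comp_aemeasurable hm).aestronglyMeasurable
    refine h2.congr ?_
    filter_upwards [ae_restrict_mem measurableSet_Ioo] with r hr
    simp only [Function.comp]
    rw [max_eq_left (deficit_mem hq hr).1]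
  · filter_upwards with r
    rw [Real.norm_eq_abs]
    exact phiT_abs_le hv hw hs hV ht _

/-- **Time increments of `G_t(q)`.** -/
theorem specT_quad {V : ℝ} (hV : ∀ k, |val k| ≤ V) {t t' : ℝ} (ht : 0 ≤ t) (ht1 : t ≤ 1)
    (ht' : 0 ≤ t') {q : ℝ → ℝ} (hq : IsTrialPath q) :
    |(specT (atomic w val) (val (Fin.last K)) t' q - specT (atomic w val) (val (Fin.last K)) t q) -
      (t' - t) * ET w val t q| ≤
      4 * V * (val (Fin.last K) - val 0) / w (Fin.last K) * (t' - t) ^ 2 := by
  have := atomic_prob (w := w) val (fun k => (hw k).le) hs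
  have hsupp := supp hv hw hs
  have i1 := specT_integrable hsupp ht hq
  have i2 := specT_integrable hsupp ht' hq
  have i3 := phiT_deficit_integrable hv hw hs ht ht1 hq
  unfold specT ET
  set C := 8 * V * (val (Fin.last K) - val 0) / w (Fin.last K) * (t' - t) ^ 2 with hC
  have e1 : ((1 / 2) * ∫ r in Ioo (0:ℝ) 1, t' * rTransform (atomic w val) (val (Fin.last K))
        (t' * deficit q r)) - ((1 / 2) * ∫ r in Ioo (0:ℝ) 1,
          t * rTransform (atomic w val) (val (Fin.last K)) (t * deficit q r)) -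
      (t' - t) * ((1 / 2) * ∫ r in Ioo (0:ℝ) 1, phiT w val t (deficit q r)) =
      (1 / 2) * ∫ r in Ioo (0:ℝ) 1, ((t' * RR w val (t' * deficit q r) -
        t * RR w val (t * deficit q r)) - (t' - t) * phiT w val t (deficit q r)) := by
    have e2 : ∫ r in Ioo (0:ℝ) 1, ((t' * RR w val (t' * deficit q r) -
        t * RR w val (t * deficit q r)) - (t' - t) * phiT w val t (deficit q r)) =
        (∫ r in Ioo (0:ℝ) 1, (t' * RR w val (t' * deficit q r) -
        t * RR w val (t * deficit q r))) - ∫ r in Ioo (0:ℝ) 1,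
          (t' - t) * phiT w val t (deficit q r) :=
      integral_sub (i2.sub i1) (i3.const_mul _)
    have e3 : ∫ r in Ioo (0:ℝ) 1, (t' * RR w val (t' * deficit q r) -
        t * RR w val (t * deficit q r)) = (∫ r in Ioo (0:ℝ) 1, t' * RR w val (t' * deficit q r)) -
        ∫ r in Ioo (0:ℝ) 1, t * RR w val (t * deficit q r) := integral_sub i2 i1
    rw [e2, e3, integral_const_mul (t' - t) (fun r => phiT w val t (deficit q r))]
    unfold RR
    ring
  rw [e1, abs_mul, abs_of_pos (by norm_num : (0:ℝ) < 1 / 2)]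
  have h2 : ‖∫ r in Ioo (0:ℝ) 1, ((t' * RR w val (t' * deficit q r) -
        t * RR w val (t * deficit q r)) - (t' - t) * phiT w val t (deficit q r))‖ ≤
      C * (volume (Ioo (0:ℝ) 1)).toReal := by
    apply norm_setIntegral_le_of_norm_le_const_ae' (by simp)
    filter_upwards with r hr
    rw [Real.norm_eq_abs]
    have hd := deficit_mem hq hr
    exact tR_quad hv hw hs hV ht ht' hd.1 (hd.2.trans (by linarith [hr.1]))
  rw [Real.norm_eq_abs, Real.volume_Ioo] at h2
  simp only [sub_zero, ENNReal.toReal_ofReal zero_le_one, mul_one] at h2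
  rw [hC] at h2
  calc 1 / 2 * _ ≤ 1 / 2 * (8 * V * (val (Fin.last K) - val 0) / w (Fin.last K) *
        (t' - t) ^ 2) := mul_le_mul_of_nonneg_left h2 (by norm_num)
    _ = _ := by ring

/-- `E_t` of a step path in terms of `Γhat`. -/
theorem ET_step {t : ℝ} (ht : 0 ≤ t) (ht1 : t ≤ 1) {M : ℕ} {m p : ℕ → ℝ}
    (h : StepD (M + 1) m p) :
    ET w val t (pathOf M m p) =
      (1 / 2) * ∑ k, w k * (val k * Ghat w (gap val t) (M + 1) m p k (M + 1)) := by
  unfold ET phiT
  congr 1
  have hint : ∀ k, IntegrableOn (fun r => ww w (gap val t)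
      (tau w (gap val t) (deficit (pathOf M m p) r))
      (tau w (gap val t) (deficit (pathOf M m p) r)) k) (Ioo (0:ℝ) 1) := by
    intro k
    have hc : ContinuousOn (fun r => ww w (gap val t)
      (tau w (gap val t) (deficit (pathOf M m p) r))
      (tau w (gap val t) (deficit (pathOf M m p) r)) k) (Iic 1) := by
      refine (ww_diag_continuousOn hw hs (gap_nonneg hv ht) (gap_last t)
        (gap_le hv ht ht1) k).comp
        (deficit_cont_step (wdOf_pos h) (wdOf_sum h)).continuousOn fun r hr => ?_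
      exact deficit_nonneg_step (wdOf_pos h) (wdOf_sum h) (pOf_le_one h) hr
    have h1 : IntegrableOn (fun r => ww w (gap val t)
      (tau w (gap val t) (deficit (pathOf M m p) r))
      (tau w (gap val t) (deficit (pathOf M m p) r)) k) (Icc (0:ℝ) 1) :=
      (hc.mono (fun z hz => hz.2)).integrableOn_compact isCompact_Icc
    exact h1.mono_set Ioo_subset_Icc_self
  rw [integral_finset_sum]
  · apply Finset.sum_congr rfl
    intro k _
    rw [integral_const_mul, integral_const_mul]
    congr 2
    exact (ghat_integral (k0 := Fin.last K) h hw hs (gap_nonneg hv ht) (gap_last t)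
      (gap_le hv ht ht1) k).symm
  · intro k _
    exact ((hint k).const_mul _).const_mul _

end one

/-- **Energy identity** from the approximate relations: `½ ∑ w_k λ_k Γ^k_n ≈ ∂_t G_t(p)`. -/
theorem energy_close (hv : StrictMono val) (hw : ∀ k, 0 < w k) (hs : ∑ k, w k = 1)
    {V : ℝ} (hV : ∀ k, |val k| ≤ V) {A : ℝ} (hA : ∀ k, 2 / w k ≤ A)
    {t : ℝ} (ht : 0 ≤ t) (ht1 : t ≤ 1) {M : ℕ} {m p : ℕ → ℝ} (h : StepD (M + 1) m p)
    {G : Fin (K + 1) → ℕ → ℝ} {ε : ℝ} (hε0 : 0 < ε) (hε : ε ≤ 1)
    (hR : Rel w (fun k => t * val k) (M + 1) m G p ε) :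
    |(1 / 2) * ∑ k, w k * (val k * G k (M + 1)) - ET w val t (pathOf M m p)| ≤
      V * Rel.CC A (val (Fin.last K) - val 0) * Real.sqrt ε := by
  have hΔ0 : 0 ≤ val (Fin.last K) - val 0 := sub_nonneg.2 (hv.monotone (Fin.zero_le _))
  have hA' : Rel.Atoms w (fun k => t * val k) (Fin.last K) A (val (Fin.last K) - val 0) := by
    refine ⟨hw, hs, fun k => mul_le_mul_of_nonneg_left (hv.monotone (Fin.le_last k)) ht, ?_, hA,
      hΔ0⟩
    intro k
    have := gap_le hv ht ht1 k
    unfold gap at this
    linarith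
  have hgap : (fun k => (fun k => t * val k) (Fin.last K) - (fun k => t * val k) k) =
      gap val t := by
    funext k
    unfold gap
    ring
  have hclose := fun k => Rel.gamma_close hA' hR hε0 hε (le_refl (M + 1)) k
  simp only [hgap] at hclose
  rw [ET_step hv hw hs ht ht1 h, ← mul_sub, ← Finset.sum_sub_distrib, abs_mul,
    abs_of_pos (by norm_num : (0:ℝ) < 1 / 2)]
  have hV0 : 0 ≤ V := (abs_nonneg _).trans (hV 0)
  set C := Rel.CC A (val (Fin.last K) - val 0) * Real.sqrt ε with hC
  have hC0 : 0 ≤ C := mul_nonneg (Rel.CC_nonneg hA'.A_nonneg hΔ0) (Real.sqrt_nonneg _)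
  have h1 : |∑ k, (w k * (val k * G k (M + 1)) -
      w k * (val k * Ghat w (gap val t) (M + 1) m p k (M + 1)))| ≤ V * C := by
    refine (Finset.abs_sum_le_sum_abs _ _).trans ?_
    calc ∑ k, |w k * (val k * G k (M + 1)) -
          w k * (val k * Ghat w (gap val t) (M + 1) m p k (M + 1))|
        ≤ ∑ k, w k * (V * C) := by
          apply Finset.sum_le_sum
          intro k _
          rw [← mul_sub, ← mul_sub, abs_mul, abs_mul, abs_of_pos (hw k)]
          apply mul_le_mul_of_nonneg_left _ (hw k).le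
          exact mul_le_mul (hV k) (hclose k) (abs_nonneg _) hV0
      _ = V * C := by rw [← Finset.sum_mul, hs, one_mul]
  rw [mul_assoc]
  have h2 : 0 ≤ V * C := mul_nonneg hV0 hC0
  linarith

end

end Crest.Agent.R164.SDAlg
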