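import Mathlib
import Crest.Prelude.Def_InvariantGlass

/-!
Row 164 (S0249 from S0248), part 1: the `L¹` distance of distribution functions, its comparison
with the transport cost and with the sorted matching of two vectors (helper639).
-/

set_option autoImplicit false

namespace Crest.Agent.R164

open MeasureTheory Set
open Crest.ProbabilityR.InvariantGlass
open scoped ENNReal

/-- indicator of `x ≤ t` as a real number -/
noncomputable def ile (x t : ℝ) : ℝ := if x ≤ t then 1 else 0

theorem ile_nonneg (x t : ℝ) : 0 ≤ ile x t := by unfold ile; split_ifs <;> norm_num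

theorem ile_le_one (x t : ℝ) : ile x t ≤ 1 := by unfold ile; split_ifs <;> norm_num

theorem measurable_ile₂ : Measurable (fun z : ℝ × ℝ => ile z.1 z.2) := by
  unfold ile
  exact Measurable.ite (measurableSet_le measurable_fst measurable_snd) measurable_const
    measurable_const

theorem measurable_ile_right (x : ℝ) : Measurable (fun t : ℝ => ile x t) :=
  measurable_ile₂.comp (measurable_const.prodMk measurable_id)

theorem measurable_ile_left (t : ℝ) : Measurable (fun x : ℝ => ile x t) :=
  measurable_ile₂.comp (measurable_id.prodMk measurable_const)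

/-- layer-cake formula for `|x - y|` -/
theorem lintegral_ile (x y : ℝ) : ∫⁻ t, ‖ile x t - ile y t‖ₑ = ‖x - y‖ₑ := by
  wlog h : x ≤ y generalizing x y
  · have := this y x (le_of_not_ge h)
    rw [← enorm_neg (x - y), neg_sub, ← this]
    congr 1
    funext t
    rw [← enorm_neg (ile y t - ile x t), neg_sub]
  have h1 : (fun t => ‖ile x t - ile y t‖ₑ) = (Ico x y).indicator (fun _ => (1 : ℝ≥0∞)) := by
    funext t
    unfold ile
    by_cases h1 : x ≤ t
    · by_cases h2 : y ≤ t
      · rw [if_pos h1, if_pos h2, sub_self, enorm_zero, indicator_of_notMem]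
        exact fun h3 => absurd h3.2 (not_lt.2 h2)
      · rw [if_pos h1, if_neg h2, sub_zero, indicator_of_mem (show t ∈ Ico x y from
          ⟨h1, not_le.1 h2⟩)]
        simp
    · have h2 : ¬ y ≤ t := fun h2 => h1 (h.trans h2)
      rw [if_neg h1, if_neg h2, sub_self, enorm_zero, indicator_of_notMem]
      exact fun h3 => h1 h3.1
  rw [h1, lintegral_indicator measurableSet_Ico, lintegral_const, one_mul,
    Measure.restrict_apply MeasurableSet.univ, univ_inter, Real.volume_Ico, ← enorm_neg, neg_sub,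
    Real.enorm_eq_ofReal (by linarith)]

/-- distribution function -/
noncomputable def cdfR (ν : Measure ℝ) (t : ℝ) : ℝ := ν.real (Iic t)

theorem cdfR_mono (ν : Measure ℝ) [IsFiniteMeasure ν] : Monotone (cdfR ν) := fun _ _ h =>
  measureReal_mono (Iic_subset_Iic.2 h)

theorem measurable_cdfR (ν : Measure ℝ) [IsFiniteMeasure ν] : Measurable (cdfR ν) :=
  (cdfR_mono ν).measurable

/-- `L¹` distance of distribution functions -/
noncomputable def Dc (ν ν' : Measure ℝ) : ℝ≥0∞ := ∫⁻ t, ‖cdfR ν t - cdfR ν' t‖ₑ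

theorem Dc_comm (ν ν' : Measure ℝ) : Dc ν ν' = Dc ν' ν := by
  unfold Dc
  congr 1
  funext t
  rw [← enorm_neg, neg_sub]

theorem Dc_triangle (a b c : Measure ℝ) [IsFiniteMeasure a] [IsFiniteMeasure b] :
    Dc a c ≤ Dc a b + Dc b c := by
  unfold Dc
  have hm : Measurable (fun t => ‖cdfR a t - cdfR b t‖ₑ) :=
    ((measurable_cdfR a).sub (measurable_cdfR b)).enorm
  rw [← lintegral_add_left hm]
  refine lintegral_mono fun t => ?_
  have : cdfR a t - cdfR c t = (cdfR a t - cdfR b t) + (cdfR b t - cdfR c t) := by ring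
  rw [this]
  exact enorm_add_le _ _

theorem integral_ile (ν : Measure ℝ) (t : ℝ) : ∫ x, ile x t ∂ν = cdfR ν t := by
  have : (fun x => ile x t) = (Iic t).indicator (fun _ => (1 : ℝ)) := by
    funext x
    unfold ile
    by_cases h : x ≤ t
    · rw [if_pos h, indicator_of_mem (show x ∈ Iic t from h)]
    · rw [if_neg h, indicator_of_notMem (show x ∉ Iic t from h)]
  rw [this, integral_indicator measurableSet_Iic, integral_const]
  simp [cdfR]

/-- the `L¹` distance of the distribution functions is at most the cost of any coupling -/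
theorem Dc_le_coupling (ν ν' : Measure ℝ) [IsFiniteMeasure ν] (π : Measure (ℝ × ℝ))
    (h1 : π.map Prod.fst = ν) (h2 : π.map Prod.snd = ν') :
    Dc ν ν' ≤ ∫⁻ z, ‖z.1 - z.2‖ₑ ∂π := by
  have hfin : IsFiniteMeasure π := by
    constructor
    have := measure_lt_top ν univ
    rwa [← h1, Measure.map_apply measurable_fst MeasurableSet.univ, preimage_univ] at this
  have hint1 : ∀ t, Integrable (fun z : ℝ × ℝ => ile z.1 t) π := fun t =>
    Integrable.of_bound ((measurable_ile_left t).comp measurable_fst).aestronglyMeasurable 1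
      (Filter.Eventually.of_forall fun z => by
        rw [Real.norm_of_nonneg (ile_nonneg _ _)]; exact ile_le_one _ _)
  have hint2 : ∀ t, Integrable (fun z : ℝ × ℝ => ile z.2 t) π := fun t =>
    Integrable.of_bound ((measurable_ile_left t).comp measurable_snd).aestronglyMeasurable 1
      (Filter.Eventually.of_forall fun z => by
        rw [Real.norm_of_nonneg (ile_nonneg _ _)]; exact ile_le_one _ _)
  have hpt : ∀ t, ‖cdfR ν t - cdfR ν' t‖ₑ ≤ ∫⁻ z, ‖ile z.1 t - ile z.2 t‖ₑ ∂π := by
    intro t
    have e1 : cdfR ν t = ∫ z, ile z.1 t ∂π := by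
      rw [← integral_ile, ← h1, integral_map measurable_fst.aemeasurable
        (measurable_ile_left t).aestronglyMeasurable]
    have e2 : cdfR ν' t = ∫ z, ile z.2 t ∂π := by
      rw [← integral_ile, ← h2, integral_map measurable_snd.aemeasurable
        (measurable_ile_left t).aestronglyMeasurable]
    rw [e1, e2, ← integral_sub (hint1 t) (hint2 t)]
    exact enorm_integral_le_lintegral_enorm _
  calc Dc ν ν' ≤ ∫⁻ t, ∫⁻ z, ‖ile z.1 t - ile z.2 t‖ₑ ∂π := lintegral_mono hpt
    _ = ∫⁻ z, ∫⁻ t, ‖ile z.1 t - ile z.2 t‖ₑ ∂volume ∂π := by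
        refine lintegral_lintegral_swap (Measurable.aemeasurable ?_)
        have m1 : Measurable (fun p : ℝ × (ℝ × ℝ) => ile p.2.1 p.1) :=
          measurable_ile₂.comp ((measurable_fst.comp measurable_snd).prodMk measurable_fst)
        have m2 : Measurable (fun p : ℝ × (ℝ × ℝ) => ile p.2.2 p.1) :=
          measurable_ile₂.comp ((measurable_snd.comp measurable_snd).prodMk measurable_fst)
        exact (m1.sub m2).enorm
    _ = ∫⁻ z, ‖z.1 - z.2‖ₑ ∂π := by
        congr 1
        funext z
        exact lintegral_ile z.1 z.2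

theorem Dc_le_transportCost (ν ν' : Measure ℝ) [IsFiniteMeasure ν] :
    Dc ν ν' ≤ transportCost ν ν' := by
  unfold transportCost
  refine le_iInf₂ fun π h => Dc_le_coupling ν ν' π h.1 h.2

/-! ### empirical laws -/

instance empiricalLaw_finite {N : ℕ} (c : Fin N → ℝ) : IsFiniteMeasure (empiricalLaw c) := by
  constructor
  unfold empiricalLaw
  rcases Nat.eq_zero_or_pos N with h | h
  · subst h; simp
  · rw [Measure.smul_apply, smul_eq_mul]
    refine ENNReal.mul_lt_top ?_ (measure_lt_top _ _)
    exact ENNReal.inv_lt_top.2 (by exact_mod_cast h)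

theorem dirac_Iic (x t : ℝ) : (Measure.dirac x : Measure ℝ).real (Iic t) = ile x t := by
  rw [Measure.real, Measure.dirac_apply' _ measurableSet_Iic]
  unfold ile
  by_cases h : x ≤ t
  · rw [if_pos h, indicator_of_mem (show x ∈ Iic t from h)]; simp
  · rw [if_neg h, indicator_of_notMem (show x ∉ Iic t from h)]; simp

theorem real_sum {ι : Type*} (s : Finset ι) (m : ι → Measure ℝ) (hm : ∀ i, IsFiniteMeasure (m i))
    (A : Set ℝ) : (∑ i ∈ s, m i).real A = ∑ i ∈ s, (m i).real A := by
  unfold Measure.real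
  rw [Measure.finsetSum_apply, ENNReal.toReal_sum]
  intro i _
  have := hm i
  exact measure_ne_top _ _

theorem cdfR_empiricalLaw {N : ℕ} (c : Fin N → ℝ) (t : ℝ) :
    cdfR (empiricalLaw c) t = (1 / (N : ℝ)) * ∑ r, ile (c r) t := by
  unfold cdfR empiricalLaw
  rw [measureReal_ennreal_smul_apply, real_sum _ _ (fun _ => inferInstance)]
  simp only [dirac_Iic]
  rw [ENNReal.toReal_inv, ENNReal.toReal_natCast, one_div]

/-- finite law with given weights -/
theorem cdfR_finite {J : ℕ} (c : Fin J → ℝ) (γ : Fin J → ℝ) (hγ : ∀ j, 0 ≤ γ j) (t : ℝ) :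
    cdfR (∑ j : Fin J, ENNReal.ofReal (γ j) • Measure.dirac (c j)) t = ∑ j, γ j * ile (c j) t := by
  unfold cdfR
  rw [real_sum _ _ (fun j => Measure.smul_finite _ ENNReal.ofReal_ne_top)]
  refine Finset.sum_congr rfl fun j _ => ?_
  rw [measureReal_ennreal_smul_apply, dirac_Iic, ENNReal.toReal_ofReal (hγ j)]

/-- sorted vectors: matching cost at a fixed level -/
theorem sum_abs_ile_sorted {N : ℕ} {x y : Fin N → ℝ} (hx : Monotone x) (hy : Monotone y) (t : ℝ) :
    ∑ i, |ile (x i) t - ile (y i) t| = |∑ i, (ile (x i) t - ile (y i) t)| := by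
  have hanti : ∀ {z : Fin N → ℝ}, Monotone z → ∀ i j, i ≤ j → ile (z j) t ≤ ile (z i) t := by
    intro z hz i j hij
    unfold ile
    by_cases h : z j ≤ t
    · rw [if_pos h, if_pos ((hz hij).trans h)]
    · rw [if_neg h]; split_ifs <;> norm_num
  have h01 : ∀ a, ile a t = 0 ∨ ile a t = 1 := by intro a; unfold ile; split_ifs <;> simp
  by_cases h : ∀ i, ile (x i) t ≤ ile (y i) t
  · have e1 : ∀ i, |ile (x i) t - ile (y i) t| = -(ile (x i) t - ile (y i) t) := fun i =>
      abs_of_nonpos (by linarith [h i])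
    rw [Finset.sum_congr rfl fun i _ => e1 i, Finset.sum_neg_distrib, abs_of_nonpos]
    exact Finset.sum_nonpos fun i _ => by linarith [h i]
  · push Not at h
    obtain ⟨i0, hi0⟩ := h
    have hx0 : ile (x i0) t = 1 := by
      rcases h01 (x i0) with h | h
      · rw [h] at hi0; linarith [ile_nonneg (y i0) t]
      · exact h
    have hy0 : ile (y i0) t = 0 := by
      rcases h01 (y i0) with h | h
      · exact h
      · rw [h] at hi0; linarith [ile_le_one (x i0) t]
    have hall : ∀ i, ile (y i) t ≤ ile (x i) t := by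
      intro i
      rcases le_total i i0 with hi | hi
      · have := hanti hx i i0 hi
        linarith [ile_le_one (y i) t]
      · have := hanti hy i0 i hi
        linarith [ile_nonneg (x i) t]
    have e1 : ∀ i, |ile (x i) t - ile (y i) t| = ile (x i) t - ile (y i) t := fun i =>
      abs_of_nonneg (by linarith [hall i])
    rw [Finset.sum_congr rfl fun i _ => e1 i, abs_of_nonneg]
    exact Finset.sum_nonneg fun i _ => by linarith [hall i]

/-- sorted matching -/
theorem sorted_le_Dc {N : ℕ} {x y : Fin N → ℝ} (hx : Monotone x) (hy : Monotone y) :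
    ENNReal.ofReal ((1 / (N : ℝ)) * ∑ i, |x i - y i|) ≤ Dc (empiricalLaw x) (empiricalLaw y) := by
  have e0 : ENNReal.ofReal (∑ i, |x i - y i|) = ∫⁻ t, ∑ i, ‖ile (x i) t - ile (y i) t‖ₑ := by
    have hm : ∀ i : Fin N, Measurable (fun t => ‖ile (x i) t - ile (y i) t‖ₑ) := fun i =>
      ((measurable_ile_right (x i)).sub (measurable_ile_right (y i))).enorm
    rw [lintegral_finsetSum _ fun i _ => hm i,
      ENNReal.ofReal_sum_of_nonneg fun i _ => abs_nonneg _]
    refine Finset.sum_congr rfl fun i _ => ?_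
    rw [lintegral_ile, Real.enorm_eq_ofReal_abs]
  rw [ENNReal.ofReal_mul (by positivity), e0]
  unfold Dc
  rw [← lintegral_const_mul' _ _ ENNReal.ofReal_ne_top]
  refine lintegral_mono fun t => ?_
  rw [cdfR_empiricalLaw, cdfR_empiricalLaw, ← mul_sub, ← Finset.sum_sub_distrib, enorm_mul,
    Real.enorm_eq_ofReal_abs (∑ i, (ile (x i) t - ile (y i) t)), ← sum_abs_ile_sorted hx hy,
    ENNReal.ofReal_sum_of_nonneg fun i _ => abs_nonneg _,
    Real.enorm_eq_ofReal (by positivity : (0 : ℝ) ≤ 1 / (N : ℝ))]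
  refine le_of_eq ?_
  congr 1
  exact Finset.sum_congr rfl fun i _ => Real.enorm_eq_ofReal_abs _

theorem Dc_empirical_perm {N : ℕ} (c : Fin N → ℝ) (e : Equiv.Perm (Fin N)) (ν : Measure ℝ) :
    Dc (empiricalLaw (fun i => c (e i))) ν = Dc (empiricalLaw c) ν := by
  unfold Dc
  congr 1
  funext t
  rw [cdfR_empiricalLaw, cdfR_empiricalLaw, Equiv.sum_comp e (fun r => ile (c r) t)]

/-- matching of labels: a permutation of the labels `ℓ` brings `cq ∘ ℓ` close to `c` -/
theorem exists_matching {N J : ℕ} (c : Fin N → ℝ) (cq : Fin J → ℝ) (l : Fin N → Fin J) :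
    ∃ e : Equiv.Perm (Fin N),
      ENNReal.ofReal ((1 / (N : ℝ)) * ∑ r, |c r - cq (l (e r))|) ≤
        Dc (empiricalLaw c) (empiricalLaw (fun r => cq (l r))) := by
  set s := Tuple.sort c with hs
  set s' := Tuple.sort (fun r => cq (l r)) with hs'
  have h1 : Monotone (fun i => c (s i)) := Tuple.monotone_sort c
  have h2 : Monotone (fun i => cq (l (s' i))) := Tuple.monotone_sort (fun r => cq (l r))
  refine ⟨s.symm.trans s', ?_⟩
  have h3 := sorted_le_Dc h1 h2
  rw [Dc_empirical_perm c s, Dc_comm, Dc_empirical_perm (fun r => cq (l r)) s', Dc_comm] at h3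
  have e : ∑ r, |c r - cq (l ((s.symm.trans s') r))| = ∑ i, |c (s i) - cq (l (s' i))| := by
    rw [← Equiv.sum_comp s]
    refine Finset.sum_congr rfl fun i _ => ?_
    simp
  rw [e]
  exact h3

end Crest.Agent.R164
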