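import Crest.Agent.R164.TransCdf

/-!
Row 164 (S0249 from S0248), part 2: labels with prescribed proportions, finite alphabets from
vectors, continuity and integrability of the pressure (helper639).
-/

set_option autoImplicit false

namespace Crest.Agent.R164

open MeasureTheory Set
open Crest.ProbabilityR.InvariantGlass
open scoped ENNReal

/-! ### labels with prescribed proportions -/

/-- labels with prescribed counts -/
theorem exists_labels_of_counts {J N : ℕ} (n : Fin J → ℕ) (hn : ∑ j, n j = N) :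
    ∃ l : Fin N → Fin J, ∀ j, (Finset.univ.filter fun r => l r = j).card = n j := by
  subst hn
  refine ⟨fun r => (finSigmaFinEquiv.symm r).1, fun j => ?_⟩
  have h1 : (Finset.univ.filter fun r : Fin (∑ j, n j) => (finSigmaFinEquiv.symm r).1 = j).card =
      (Finset.univ.filter fun x : (i : Fin J) × Fin (n i) => x.1 = j).card := by
    refine Finset.card_bij' (fun r _ => finSigmaFinEquiv.symm r) (fun x _ => finSigmaFinEquiv x)
      ?_ ?_ ?_ ?_
    · intro r hr; simpa using hr
    · intro x hx; simpa using hx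
    · intro r _; simp
    · intro x _; simp
  rw [h1]
  have h2 : (Finset.univ.filter fun x : (i : Fin J) × Fin (n i) => x.1 = j) =
      (Finset.univ : Finset (Fin (n j))).map ⟨fun a => (⟨j, a⟩ : (i : Fin J) × Fin (n i)), by
        intro a b hab; simpa using hab⟩ := by
    ext ⟨i, a⟩
    simp only [Finset.mem_filter, Finset.mem_univ, true_and, Finset.mem_map,
      ]
    constructor
    · rintro rfl; exact ⟨a, rfl⟩
    · rintro ⟨b, hb⟩; exact (congrArg Sigma.fst hb).symm
  rw [h2, Finset.card_map, Finset.card_univ, Fintype.card_fin]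

/-- labels with prescribed asymptotic proportions -/
theorem exists_labels {J : ℕ} (γ : Fin J → ℚ) (hγ : ∀ j, 0 < γ j) (hs : ∑ j, γ j = 1) :
    ∃ l : (N : ℕ) → Fin N → Fin J, ∀ j : Fin J, Filter.Tendsto
      (fun N : ℕ => ((Finset.univ.filter fun r : Fin N => l N r = j).card : ℝ) / (N : ℝ))
      Filter.atTop (nhds ((γ j : ℚ) : ℝ)) := by
  have hJ : 0 < J := by
    rcases Nat.eq_zero_or_pos J with h | h
    · subst h; simp at hs
    · exact h
  set j0 : Fin J := ⟨0, hJ⟩ with hj0
  have hsR : ∑ j, ((γ j : ℚ) : ℝ) = 1 := by exact_mod_cast hs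
  have hγR : ∀ j, (0 : ℝ) < ((γ j : ℚ) : ℝ) := fun j => by exact_mod_cast hγ j
  -- counts
  set m : ℕ → Fin J → ℕ := fun N j => ⌊((γ j : ℚ) : ℝ) * (N : ℝ)⌋₊ with hm
  have hmle : ∀ N j, ((m N j : ℕ) : ℝ) ≤ ((γ j : ℚ) : ℝ) * N := fun N j =>
    Nat.floor_le (mul_nonneg (hγR j).le (Nat.cast_nonneg _))
  have hsum : ∀ N, ∑ j ∈ Finset.univ.erase j0, m N j ≤ N := by
    intro N
    have h1 : ((∑ j ∈ Finset.univ.erase j0, m N j : ℕ) : ℝ) ≤ N := by
      push_cast
      calc ∑ j ∈ Finset.univ.erase j0, ((m N j : ℕ) : ℝ)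
          ≤ ∑ j ∈ Finset.univ.erase j0, ((γ j : ℚ) : ℝ) * N := Finset.sum_le_sum fun j _ => hmle N j
        _ ≤ ∑ j, ((γ j : ℚ) : ℝ) * N := Finset.sum_le_sum_of_subset_of_nonneg
            (Finset.erase_subset _ _) fun j _ _ => mul_nonneg (hγR j).le (Nat.cast_nonneg _)
        _ = N := by rw [← Finset.sum_mul, hsR, one_mul]
    exact_mod_cast h1
  set n : ℕ → Fin J → ℕ := fun N j =>
    if j = j0 then N - ∑ i ∈ Finset.univ.erase j0, m N i else m N j with hn
  have hnsum : ∀ N, ∑ j, n N j = N := by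
    intro N
    rw [← Finset.add_sum_erase Finset.univ (n N) (Finset.mem_univ j0)]
    have e1 : ∑ j ∈ Finset.univ.erase j0, n N j = ∑ j ∈ Finset.univ.erase j0, m N j := by
      refine Finset.sum_congr rfl fun j hj => ?_
      simp only [hn, if_neg (Finset.ne_of_mem_erase hj)]
    rw [e1]
    simp only [hn, if_true]
    exact Nat.sub_add_cancel (hsum N)
  choose l hl using fun N => exists_labels_of_counts (n N) (hnsum N)
  refine ⟨l, fun j => ?_⟩
  simp only [hl]
  have hmlim : ∀ j, Filter.Tendsto (fun N : ℕ => ((m N j : ℕ) : ℝ) / (N : ℝ)) Filter.atTop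
      (nhds ((γ j : ℚ) : ℝ)) := fun j =>
    (tendsto_nat_floor_mul_div_atTop (hγR j).le).comp tendsto_natCast_atTop_atTop
  by_cases hj : j = j0
  · have e1 : ∀ᶠ N : ℕ in Filter.atTop, ((n N j : ℕ) : ℝ) / (N : ℝ) =
        1 - ∑ i ∈ Finset.univ.erase j0, ((m N i : ℕ) : ℝ) / (N : ℝ) := by
      filter_upwards [Filter.eventually_gt_atTop 0] with N hN
      have hN' : (N : ℝ) ≠ 0 := by exact_mod_cast hN.ne'
      simp only [hn, if_pos hj]
      rw [Nat.cast_sub (hsum N), sub_div, div_self hN']
      push_cast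
      rw [Finset.sum_div]
    refine Filter.Tendsto.congr' (Filter.EventuallyEq.symm e1) ?_
    have h2 : ((γ j : ℚ) : ℝ) = 1 - ∑ i ∈ Finset.univ.erase j0, ((γ i : ℚ) : ℝ) := by
      rw [← hsR, ← Finset.add_sum_erase Finset.univ (fun j => ((γ j : ℚ) : ℝ))
        (Finset.mem_univ j0), hj]
      ring
    rw [h2]
    exact tendsto_const_nhds.sub (tendsto_finsetSum _ fun i _ => hmlim i)
  · have e1 : (fun N : ℕ => ((n N j : ℕ) : ℝ) / (N : ℝ)) = fun N => ((m N j : ℕ) : ℝ) / (N : ℝ) := by
      funext N; simp only [hn, if_neg hj]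
    rw [e1]; exact hmlim j

/-- distance between a finite law and the empirical law of labels -/
theorem Dc_labels_le {J N : ℕ} (hN : 0 < N) (cq : Fin J → ℝ) (γ : Fin J → ℝ) (hγ : ∀ j, 0 ≤ γ j)
    (hs : ∑ j, γ j = 1) (l : Fin N → Fin J) (K : ℝ) (hK : ∀ j, |cq j| ≤ K) :
    Dc (∑ j : Fin J, ENNReal.ofReal (γ j) • Measure.dirac (cq j))
      (empiricalLaw (fun r => cq (l r))) ≤
      ENNReal.ofReal ((2 * K) * ∑ j, |γ j -
        ((Finset.univ.filter fun r => l r = j).card : ℝ) / (N : ℝ)|) := by
  have hN' : (N : ℝ) ≠ 0 := by exact_mod_cast hN.ne'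
  set w : Fin J → ℝ := fun j => ((Finset.univ.filter fun r => l r = j).card : ℝ) / (N : ℝ) with hw
  have hemp : ∀ t, cdfR (empiricalLaw (fun r => cq (l r))) t = ∑ j, w j * ile (cq j) t := by
    intro t
    rw [cdfR_empiricalLaw, ← Finset.sum_fiberwise Finset.univ l (fun r => ile (cq (l r)) t),
      Finset.mul_sum]
    refine Finset.sum_congr rfl fun j _ => ?_
    have : ∑ r ∈ Finset.univ.filter (fun r => l r = j), ile (cq (l r)) t =
        ((Finset.univ.filter fun r => l r = j).card : ℝ) * ile (cq j) t := by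
      rw [Finset.sum_congr rfl (g := fun _ => ile (cq j) t) fun r hr => by
        rw [(Finset.mem_filter.1 hr).2], Finset.sum_const, nsmul_eq_mul]
    rw [this, hw]
    ring
  have hwsum : ∑ j, w j = 1 := by
    rw [hw]
    simp only
    rw [← Finset.sum_div, ← Nat.cast_sum, Finset.card_eq_sum_card_fiberwise
      (f := l) (s := Finset.univ) (t := Finset.univ) (fun _ _ => Finset.mem_univ _) |>.symm]
    simp [hN']
  have hpt : ∀ t, ‖cdfR (∑ j : Fin J, ENNReal.ofReal (γ j) • Measure.dirac (cq j)) t -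
      cdfR (empiricalLaw (fun r => cq (l r))) t‖ₑ ≤
      (Icc (-K) K).indicator (fun _ => ENNReal.ofReal (∑ j, |γ j - w j|)) t := by
    intro t
    rw [cdfR_finite _ _ hγ, hemp, ← Finset.sum_sub_distrib]
    have e1 : ∀ j, γ j * ile (cq j) t - w j * ile (cq j) t = (γ j - w j) * ile (cq j) t :=
      fun j => by ring
    rw [Finset.sum_congr rfl fun j _ => e1 j]
    by_cases h1 : t < -K
    · have : ∑ j, (γ j - w j) * ile (cq j) t = 0 := by
        refine Finset.sum_eq_zero fun j _ => ?_
        have h2 : ¬ cq j ≤ t := by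
          have := (abs_le.1 (hK j)).1; linarith
        unfold ile; rw [if_neg h2, mul_zero]
      rw [this, enorm_zero]; exact zero_le
    · by_cases h2 : K < t
      · have : ∑ j, (γ j - w j) * ile (cq j) t = 0 := by
          have e2 : ∀ j, (γ j - w j) * ile (cq j) t = γ j - w j := by
            intro j
            have h3 : cq j ≤ t := by
              have := (abs_le.1 (hK j)).2; linarith
            unfold ile; rw [if_pos h3, mul_one]
          rw [Finset.sum_congr rfl fun j _ => e2 j, Finset.sum_sub_distrib, hs, hwsum, sub_self]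
        rw [this, enorm_zero]; exact zero_le
      · rw [indicator_of_mem (show t ∈ Icc (-K) K from ⟨not_lt.1 h1, not_lt.1 h2⟩),
          Real.enorm_eq_ofReal_abs]
        refine ENNReal.ofReal_le_ofReal ?_
        refine (Finset.abs_sum_le_sum_abs _ _).trans (Finset.sum_le_sum fun j _ => ?_)
        rw [abs_mul, abs_of_nonneg (ile_nonneg _ _)]
        exact mul_le_of_le_one_right (abs_nonneg _) (ile_le_one _ _)
  refine (lintegral_mono hpt).trans ?_
  rw [lintegral_indicator measurableSet_Icc, lintegral_const, Measure.restrict_apply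
    MeasurableSet.univ, univ_inter, Real.volume_Icc, ← ENNReal.ofReal_mul
      (Finset.sum_nonneg fun j _ => abs_nonneg _)]
  refine ENNReal.ofReal_le_ofReal (le_of_eq ?_)
  ring

/-! ### finite alphabets from vectors -/

/-- the empirical law of a vector is a finite-alphabet law with rational proportions -/
theorem exists_alphabet {N : ℕ} (hN : 0 < N) (c : Fin N → ℝ) :
    ∃ (J : ℕ) (cq : Fin J → ℝ) (γ : Fin J → ℚ), Function.Injective cq ∧ (∀ j, 0 < γ j) ∧
      ∑ j, γ j = 1 ∧
      ∀ t, cdfR (∑ j : Fin J, ENNReal.ofReal ((γ j : ℚ) : ℝ) • Measure.dirac (cq j)) t =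
        cdfR (empiricalLaw c) t := by
  classical
  have hNQ : (N : ℚ) ≠ 0 := by exact_mod_cast hN.ne'
  set S : Finset ℝ := Finset.univ.image c with hS
  set e : Fin S.card ≃ S := S.equivFin.symm with he
  set γ : Fin S.card → ℚ := fun j =>
    ((Finset.univ.filter fun r => c r = (e j : ℝ)).card : ℚ) / N with hγ
  have hpos : ∀ j, 0 < γ j := by
    intro j
    obtain ⟨r, _, hr⟩ := Finset.mem_image.1
      (show ((e j : ℝ)) ∈ Finset.univ.image c from (e j).2)
    have : 0 < (Finset.univ.filter fun r => c r = (e j : ℝ)).card :=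
      Finset.card_pos.2 ⟨r, by simp [hr]⟩
    rw [hγ]
    simp only
    have h1 : (0 : ℚ) < N := by exact_mod_cast hN
    have h2 : (0 : ℚ) < ((Finset.univ.filter fun r => c r = (e j : ℝ)).card : ℚ) := by
      exact_mod_cast this
    positivity
  -- sums over the alphabet
  have hfib : ∀ f : ℝ → ℝ, ∑ j : Fin S.card, ((γ j : ℚ) : ℝ) * f (e j) =
      (1 / (N : ℝ)) * ∑ r, f (c r) := by
    intro f
    have h1 : ∑ r, f (c r) = ∑ x ∈ S, ((Finset.univ.filter fun r => c r = x).card : ℝ) * f x := by
      rw [← Finset.sum_fiberwise_of_maps_to (s := Finset.univ) (t := S) (g := c)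
        (fun r _ => Finset.mem_image_of_mem c (Finset.mem_univ r))]
      refine Finset.sum_congr rfl fun x _ => ?_
      rw [Finset.sum_congr rfl (g := fun _ => f x) fun r hr => by
        rw [(Finset.mem_filter.1 hr).2], Finset.sum_const, nsmul_eq_mul]
    rw [h1, ← Finset.sum_coe_sort S (fun x => ((Finset.univ.filter fun r => c r = x).card : ℝ) * f x),
      ← Equiv.sum_comp e, Finset.mul_sum]
    refine Finset.sum_congr rfl fun j _ => ?_
    rw [hγ]
    push_cast
    ring
  refine ⟨S.card, fun j => (e j : ℝ), γ, ?_, hpos, ?_, ?_⟩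
  · intro a b hab
    exact e.injective (Subtype.ext hab)
  · have h1 := hfib (fun _ => 1)
    simp only [mul_one, Finset.sum_const, Finset.card_univ, Fintype.card_fin, nsmul_eq_mul] at h1
    have h2 : (N : ℝ) ≠ 0 := by exact_mod_cast hN.ne'
    rw [one_div, inv_mul_cancel₀ h2] at h1
    exact_mod_cast h1
  · intro t
    rw [cdfR_finite (fun j => (e j : ℝ)) (fun j => ((γ j : ℚ) : ℝ))
      (fun j => by exact_mod_cast (hpos j).le), cdfR_empiricalLaw, ← hfib (fun x => ile x t)]

/-! ### the pressure as a function of the field -/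

theorem abs_spinVec {N : ℕ} (σ : Fin N → Bool) (r : Fin N) : |spinVec σ r| = 1 := by
  unfold spinVec; split_ifs <;> simp

/-- Lipschitz dependence of the pressure on the field -/
theorem pressureFieldN_lip {N : ℕ} (eig : Fin N → ℝ) (U : Matrix (Fin N) (Fin N) ℝ)
    (c c' : Fin N → ℝ) : |pressureFieldN eig U c - pressureFieldN eig U c'| ≤
      (1 / (N : ℝ)) * ∑ r, |c r - c' r| := by
  have key : ∀ c c' : Fin N → ℝ, pressureFieldN eig U c ≤ pressureFieldN eig U c' +
      (1 / (N : ℝ)) * ∑ r, |c r - c' r| := by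
    intro c c'
    unfold pressureFieldN
    rw [← mul_add]
    refine mul_le_mul_of_nonneg_left ?_ (by positivity)
    have hpos : ∀ c : Fin N → ℝ, 0 < (1 / 2 : ℝ) ^ N * ∑ σ : Fin N → Bool,
        Real.exp ((1 / 2) * (∑ i : Fin N, eig i * (U.mulVec (spinVec σ) i) ^ 2) +
          ∑ r : Fin N, c r * spinVec σ r) := by
      intro c
      exact mul_pos (by positivity) (Finset.sum_pos (fun σ _ => Real.exp_pos _)
        Finset.univ_nonempty)
    rw [← Real.log_exp (∑ r, |c r - c' r|), ← Real.log_mul (hpos c').ne' (Real.exp_pos _).ne']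
    refine Real.log_le_log (hpos c) ?_
    rw [mul_assoc, Finset.sum_mul]
    refine mul_le_mul_of_nonneg_left (Finset.sum_le_sum fun σ _ => ?_) (by positivity)
    rw [← Real.exp_add]
    refine Real.exp_le_exp.2 ?_
    have h1 : ∑ r, c r * spinVec σ r ≤ ∑ r, c' r * spinVec σ r + ∑ r, |c r - c' r| := by
      rw [← Finset.sum_add_distrib]
      refine Finset.sum_le_sum fun r _ => ?_
      have h2 : (c r - c' r) * spinVec σ r ≤ |c r - c' r| := by
        refine (le_abs_self _).trans ?_
        rw [abs_mul, abs_spinVec, mul_one]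
      linarith
    linarith
  rw [abs_le]
  have h1 := key c c'
  have h2 := key c' c
  have h3 : ∑ r, |c' r - c r| = ∑ r, |c r - c' r| :=
    Finset.sum_congr rfl fun r _ => abs_sub_comm _ _
  rw [h3] at h2
  constructor <;> linarith

theorem sq_sum_mulVec {N : ℕ} {U : Matrix (Fin N) (Fin N) ℝ}
    (hU : U ∈ Matrix.orthogonalGroup (Fin N) ℝ) (x : Fin N → ℝ) :
    ∑ i, (U.mulVec x i) ^ 2 = ∑ i, x i ^ 2 := by
  have h1 : U.transpose * U = 1 := by
    have := (Matrix.mem_orthogonalGroup_iff' (Fin N) ℝ).1 hU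
    simpa [Matrix.star_eq_conjTranspose] using this
  have h2 : ∑ i, (U.mulVec x i) ^ 2 = dotProduct (U.mulVec x) (U.mulVec x) := by
    unfold dotProduct; exact Finset.sum_congr rfl fun i _ => by ring
  rw [h2, Matrix.dotProduct_mulVec, Matrix.vecMul_mulVec, h1, Matrix.vecMul_one]
  unfold dotProduct; exact Finset.sum_congr rfl fun i _ => by ring

end Crest.Agent.R164
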