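import Crest.Agent.R164.RScale
import Crest.Agent.R164.SDPath
import Crest.Agent.R164.FieldGroup

/-!
Row 164: comparison of trial paths through their tail integrals (module M1 of the U-side
assembly).
-/

set_option autoImplicit false

namespace Crest.Agent.R164.UPath

open MeasureTheory Set Crest.ProbabilityR.InvariantGlass Crest.Agent.R164.SDAlg
open Crest.Agent.R164.RTrans

noncomputable section

/-! ### tails of trial paths -/

theorem trial_int {p : ℝ → ℝ} (hp : IsTrialPath p) {a b : ℝ} (ha : 0 ≤ a) (hb : b ≤ 1) :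
    IntegrableOn p (Ioo a b) := by
  refine Measure.integrableOn_of_bounded (M := 1) (by simp) hp.1.aestronglyMeasurable ?_
  filter_upwards [ae_restrict_mem measurableSet_Ioo] with s hs
  have h := hp.2.2 s ⟨ha.trans_lt hs.1, hs.2.trans_le hb⟩
  rw [Real.norm_eq_abs, abs_of_nonneg h.1]
  exact h.2

theorem tail_split {f : ℝ → ℝ} {a b c : ℝ} (hf : IntegrableOn f (Ioo a c)) (hab : a ≤ b)
    (hb : b ≤ c) :
    ∫ s in Ioo a c, f s = (∫ s in Ioo a b, f s) + ∫ s in Ioo b c, f s := by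
  have h1 : IntervalIntegrable f volume a b :=
    (intervalIntegrable_iff_integrableOn_Ioo_of_le hab).2
      (hf.mono_set (Ioo_subset_Ioo_right hb))
  have h2 : IntervalIntegrable f volume b c :=
    (intervalIntegrable_iff_integrableOn_Ioo_of_le hb).2
      (hf.mono_set (Ioo_subset_Ioo_left hab))
  rw [← integral_Ioc_eq_integral_Ioo, ← integral_Ioc_eq_integral_Ioo,
    ← integral_Ioc_eq_integral_Ioo, ← intervalIntegral.integral_of_le (hab.trans hb),
    ← intervalIntegral.integral_of_le hab, ← intervalIntegral.integral_of_le hb]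
  exact (intervalIntegral.integral_add_adjacent_intervals h1 h2).symm

/-- the tail integral is antitone and `1`-Lipschitz. -/
theorem tail_le {p : ℝ → ℝ} (hp : IsTrialPath p) {a b : ℝ} (ha : 0 ≤ a) (hab : a ≤ b)
    (hb : b ≤ 1) : ∫ s in Ioo b 1, p s ≤ ∫ s in Ioo a 1, p s := by
  rw [tail_split (trial_int hp ha le_rfl) hab hb]
  have : 0 ≤ ∫ s in Ioo a b, p s := by
    refine setIntegral_nonneg measurableSet_Ioo fun s hs => ?_
    exact (hp.2.2 s ⟨ha.trans_lt hs.1, hs.2.trans_le hb⟩).1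
  linarith

theorem tail_le_add {p : ℝ → ℝ} (hp : IsTrialPath p) {a b : ℝ} (ha : 0 ≤ a) (hab : a ≤ b)
    (hb : b ≤ 1) : ∫ s in Ioo a 1, p s ≤ (∫ s in Ioo b 1, p s) + (b - a) := by
  rw [tail_split (trial_int hp ha le_rfl) hab hb]
  have h1 : ∫ s in Ioo a b, p s ≤ ∫ _s in Ioo a b, (1:ℝ) := by
    refine setIntegral_mono_on (trial_int hp ha hb) (integrable_const _) measurableSet_Ioo ?_
    intro s hs
    exact (hp.2.2 s ⟨ha.trans_lt hs.1, hs.2.trans_le hb⟩).2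
  have h2 : ∫ _s in Ioo a b, (1:ℝ) = b - a := by
    rw [setIntegral_const, smul_eq_mul, mul_one, Measure.real, Real.volume_Ioo,
      ENNReal.toReal_ofReal (by linarith)]
  linarith

theorem tail_nonneg {p : ℝ → ℝ} (hp : IsTrialPath p) {a : ℝ} (ha : 0 ≤ a) :
    0 ≤ ∫ s in Ioo a 1, p s :=
  setIntegral_nonneg measurableSet_Ioo fun s hs => (hp.2.2 s ⟨ha.trans_lt hs.1, hs.2⟩).1

/-- domination of all tail integrals (up to `δ`) gives domination of the deficits. -/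
theorem deficit_le_of_tail {p q : ℝ → ℝ} (hp : IsTrialPath p) (hq : IsTrialPath q) {δ : ℝ}
    (hδ : 0 ≤ δ)
    (h : ∀ u ∈ Icc (0:ℝ) 1, ∫ s in Ioo u 1, p s ≤ (∫ s in Ioo u 1, q s) + δ) {r : ℝ}
    (hr : r ∈ Ioo (0:ℝ) 1) : deficit q r ≤ deficit p r + δ := by
  unfold deficit
  suffices hs : ∫ s in Ioo (0:ℝ) 1, max (p s - r) 0 ≤
      (∫ s in Ioo (0:ℝ) 1, max (q s - r) 0) + δ by linarith
  have hp' := pos_part_integrable hp r hr.1.le
  have hq' := pos_part_integrable hq r hr.1.le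
  by_cases hne : ∃ s ∈ Ioo (0:ℝ) 1, r < p s
  · set A : Set ℝ := {s | s ∈ Ioo (0:ℝ) 1 ∧ r < p s} with hA
    have hAne : A.Nonempty := by
      obtain ⟨s, hs, hs'⟩ := hne
      exact ⟨s, hs, hs'⟩
    have hbdd : BddBelow A := ⟨0, fun s hs => hs.1.1.le⟩
    set u := sInf A with hu
    have hu0 : 0 ≤ u := le_csInf hAne fun s hs => hs.1.1.le
    have hu1 : u ≤ 1 := by
      obtain ⟨s, hs⟩ := hAne
      exact (csInf_le hbdd hs).trans hs.1.2.le
    have hlow : ∀ s ∈ Ioo (0:ℝ) u, max (p s - r) 0 = 0 := by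
      intro s hs
      refine max_eq_right ?_
      by_contra hc
      push Not at hc
      have : s ∈ A := ⟨⟨hs.1, hs.2.trans_le hu1⟩, by linarith⟩
      exact absurd (csInf_le hbdd this) (not_le.2 hs.2)
    have hhigh : ∀ s ∈ Ioo u 1, max (p s - r) 0 = p s - r := by
      intro s hs
      obtain ⟨t, ht, hts⟩ := exists_lt_of_csInf_lt hAne hs.1
      have hs01 : s ∈ Ioo (0:ℝ) 1 := ⟨hu0.trans_lt hs.1, hs.2⟩
      have := hp.2.1 ht.1 hs01 hts.le
      exact max_eq_left (by linarith [ht.2])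
    have hpu := trial_int hp hu0 (le_refl (1:ℝ))
    have hqu := trial_int hq hu0 (le_refl (1:ℝ))
    have hc : IntegrableOn (fun _ : ℝ => r) (Ioo u 1) := integrable_const _
    have e1 : ∫ s in Ioo (0:ℝ) 1, max (p s - r) 0 = ∫ s in Ioo u 1, (p s - r) := by
      rw [tail_split hp' hu0 hu1, setIntegral_congr_fun measurableSet_Ioo hlow,
        setIntegral_congr_fun measurableSet_Ioo hhigh]
      simp
    have e2 : ∫ s in Ioo u 1, (q s - r) ≤ ∫ s in Ioo u 1, max (q s - r) 0 := by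
      refine setIntegral_mono_on (hqu.sub hc) (hq'.mono_set (Ioo_subset_Ioo_left hu0))
        measurableSet_Ioo fun s _ => le_max_left _ _
    have e3 : ∫ s in Ioo u 1, max (q s - r) 0 ≤ ∫ s in Ioo (0:ℝ) 1, max (q s - r) 0 := by
      rw [tail_split hq' hu0 hu1]
      have : 0 ≤ ∫ s in Ioo (0:ℝ) u, max (q s - r) 0 :=
        setIntegral_nonneg measurableSet_Ioo fun s _ => le_max_right _ _
      linarith
    have e4 := h u ⟨hu0, hu1⟩
    rw [e1]
    rw [integral_sub hqu hc] at e2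
    rw [integral_sub hpu hc]
    linarith
  · push Not at hne
    have e1 : ∫ s in Ioo (0:ℝ) 1, max (p s - r) 0 = 0 := by
      rw [setIntegral_congr_fun (g := fun _ => (0:ℝ)) measurableSet_Ioo
        (fun s hs => max_eq_right (by linarith [hne s hs]))]
      simp
    rw [e1]
    have : 0 ≤ ∫ s in Ioo (0:ℝ) 1, max (q s - r) 0 :=
      setIntegral_nonneg measurableSet_Ioo fun s _ => le_max_right _ _
    linarith

/-! ### the coarse path -/

/-- equidistant nodes `b / (M+1)`. -/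
def eqm (M : ℕ) (b : ℕ) : ℝ := (b:ℝ) / ((M:ℝ) + 1)

theorem stepD_eqm (M : ℕ) : StepD (M + 1) (eqm M) (fun _ => 1) where
  m0 := by simp [eqm]
  mlt b _ := by
    unfold eqm
    have : (0:ℝ) < (M:ℝ) + 1 := by positivity
    push_cast
    gcongr
    linarith
  mn := by
    unfold eqm
    push_cast
    exact div_self (by positivity)
  p0 := zero_le_one
  pmono _ _ := le_rfl
  pn := rfl

theorem leftEnd_eqm (M : ℕ) (i : Fin (M + 1)) : leftEnd (wdOf M (eqm M)) i = eqm M i :=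
  leftEnd_of (stepD_eqm M) i

theorem wd_eqm (M : ℕ) (i : Fin (M + 1)) : wdOf M (eqm M) i = 1 / ((M:ℝ) + 1) := by
  unfold wdOf eqm
  push_cast
  rw [← sub_div]
  congr 1
  ring

theorem isTrialPath_pathOf {M : ℕ} {Pb : ℕ → ℝ} (hPm : ∀ b < M, Pb b ≤ Pb (b + 1))
    (hP : ∀ b ≤ M, 0 ≤ Pb b ∧ Pb b ≤ 1) :
    IsTrialPath (pathOf M (fun b => (b:ℝ) / ((M:ℝ) + 1)) Pb) := by
  have h := stepD_eqm M
  refine Crest.Agent.R164.GC.isTrialPath_stepFn (wdOf_pos h) (wdOf_sum h) ?_ ?_ ?_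
  · rw [Fin.monotone_iff_le_succ]
    intro i
    exact hPm i i.2
  · intro i
    exact (hP i (by omega)).1
  · intro i
    exact (hP i (by omega)).2

/-- the value of the coarse path on a fine cell. -/
theorem pathOf_fine {M wc : ℕ} (hw : 0 < wc) (Pb : ℕ → ℝ) {j : ℕ} (hj : j < (M + 1) * wc)
    {s : ℝ} (hs : s ∈ Ioo ((j:ℝ) / (((M:ℝ) + 1) * wc)) (((j:ℝ) + 1) / (((M:ℝ) + 1) * wc))) :
    pathOf M (fun b => (b:ℝ) / ((M:ℝ) + 1)) Pb s = Pb (j / wc) := by
  have hjw : j / wc < M + 1 := Nat.div_lt_of_lt_mul (by rw [mul_comm]; exact hj)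
  have hM : (0:ℝ) < (M:ℝ) + 1 := by positivity
  have hwr : (0:ℝ) < wc := by exact_mod_cast hw
  have h := stepD_eqm M
  have hcell := Crest.Agent.R164.PAlg.stepFn_cell (wd := wdOf M (eqm M)) (wdOf_pos h)
    (pOf M Pb) (s := s) (i := ⟨j / wc, hjw⟩) ?_
  · exact hcell
  · rw [leftEnd_eqm, wd_eqm]
    unfold eqm
    show ((j / wc : ℕ) : ℝ) / ((M:ℝ) + 1) < s ∧
      s ≤ ((j / wc : ℕ) : ℝ) / ((M:ℝ) + 1) + 1 / ((M:ℝ) + 1)
    have hlo : ((j / wc : ℕ) : ℝ) * wc ≤ j := by exact_mod_cast Nat.div_mul_le_self j wc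
    have hhi : (j : ℝ) + 1 ≤ (((j / wc : ℕ) : ℝ) + 1) * wc := by
      have : j + 1 ≤ (j / wc + 1) * wc := by
        have := Nat.lt_div_mul_add (a := j) hw
        rw [Nat.add_mul, one_mul]
        omega
      exact_mod_cast this
    constructor
    · refine lt_of_le_of_lt ?_ hs.1
      rw [div_le_div_iff₀ hM (by positivity)]
      nlinarith
    · refine hs.2.le.trans ?_
      rw [← add_div, div_le_div_iff₀ (by positivity) hM]
      nlinarith

/-- tail integrals of the coarse path at the fine grid points. -/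
theorem tail_pathOf {M wc : ℕ} (hw : 0 < wc) {Pb : ℕ → ℝ} (hPm : ∀ b < M, Pb b ≤ Pb (b + 1))
    (hP : ∀ b ≤ M, 0 ≤ Pb b ∧ Pb b ≤ 1) (i : ℕ) (hi : i ≤ (M + 1) * wc) :
    ∫ s in Ioo ((((M + 1) * wc - i : ℕ) : ℝ) / (((M:ℝ) + 1) * wc)) 1,
      pathOf M (fun b => (b:ℝ) / ((M:ℝ) + 1)) Pb s =
    (((M:ℝ) + 1) * wc)⁻¹ * ∑ j ∈ Finset.Ico ((M + 1) * wc - i) ((M + 1) * wc), Pb (j / wc) := by
  have hM : (0:ℝ) < (M:ℝ) + 1 := by positivity
  have hwr : (0:ℝ) < wc := by exact_mod_cast hw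
  have hnc : (0:ℝ) < ((M:ℝ) + 1) * wc := by positivity
  induction i with
  | zero =>
    have e : ((((M + 1) * wc - 0 : ℕ) : ℝ) / (((M:ℝ) + 1) * wc)) = 1 := by
      rw [Nat.sub_zero]
      push_cast
      exact div_self hnc.ne'
    rw [e]
    simp
  | succ i ih =>
    have ih' := ih (by omega)
    set j : ℕ := (M + 1) * wc - (i + 1) with hj
    have hj1 : (M + 1) * wc - i = j + 1 := by omega
    rw [hj1] at ih'
    have hjlt : j < (M + 1) * wc := by omega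
    have hjr : (j:ℝ) + 1 ≤ ((M:ℝ) + 1) * wc := by
      have : j + 1 ≤ (M + 1) * wc := hjlt
      exact_mod_cast this
    have hT := isTrialPath_pathOf hPm hP
    have h0 : (0:ℝ) ≤ (j:ℝ) / (((M:ℝ) + 1) * wc) := by positivity
    have h1 : (j:ℝ) / (((M:ℝ) + 1) * wc) ≤ ((j:ℝ) + 1) / (((M:ℝ) + 1) * wc) := by
      gcongr
      linarith
    have h2 : ((j:ℝ) + 1) / (((M:ℝ) + 1) * wc) ≤ 1 := (div_le_one hnc).2 hjr
    rw [tail_split (trial_int hT h0 le_rfl) h1 h2,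
      setIntegral_congr_fun measurableSet_Ioo (fun s hs => pathOf_fine hw Pb hjlt hs),
      setIntegral_const, Finset.sum_eq_sum_Ico_succ_bot hjlt]
    push_cast at ih'
    rw [ih', Measure.real, Real.volume_Ioo, ENNReal.toReal_ofReal (by linarith), smul_eq_mul]
    rw [← sub_div]
    have : ((j:ℝ) + 1 - j) / (((M:ℝ) + 1) * wc) = (((M:ℝ) + 1) * wc)⁻¹ := by
      rw [add_sub_cancel_left, one_div]
    rw [this]
    ring

theorem tail_pathOf' {M wc : ℕ} (hw : 0 < wc) {Pb : ℕ → ℝ} (hPm : ∀ b < M, Pb b ≤ Pb (b + 1))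
    (hP : ∀ b ≤ M, 0 ≤ Pb b ∧ Pb b ≤ 1) {j : ℕ} (hj : j ≤ (M + 1) * wc) :
    ∫ s in Ioo ((j : ℝ) / (((M:ℝ) + 1) * wc)) 1,
      pathOf M (fun b => (b:ℝ) / ((M:ℝ) + 1)) Pb s =
    (((M:ℝ) + 1) * wc)⁻¹ * ∑ j ∈ Finset.Ico j ((M + 1) * wc), Pb (j / wc) := by
  have h := tail_pathOf hw hPm hP ((M + 1) * wc - j) (Nat.sub_le _ _)
  have e : (M + 1) * wc - ((M + 1) * wc - j) = j := by omega
  rw [e] at h
  exact h

/-- the sum of the cell overlaps is bounded by the shifted coarse sum. -/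
theorem sum_R_le {M wc : ℕ} (R Pb : ℕ → ℝ) (hR : ∀ g, R g ≤ 1)
    (hP : ∀ b ≤ M, 0 ≤ Pb b) (cell : ℕ → ℕ) (hcell : ∀ b ≤ M, b * wc ≤ cell b)
    (h1 : ∀ b ≤ M, ∀ g < cell b, R g ≤ Pb b) (hw : 0 < wc) (g : ℕ) :
    ∑ g' ∈ Finset.Ico g ((M + 1) * wc), R g' ≤
      (∑ j ∈ Finset.Ico (g + wc) ((M + 1) * wc), Pb (j / wc)) + wc := by
  have hlast : ∀ a, (M * wc ≤ a) → ∑ g' ∈ Finset.Ico a ((M + 1) * wc), R g' ≤ wc := by
    intro a ha
    calc ∑ g' ∈ Finset.Ico a ((M + 1) * wc), R g' ≤ ∑ _g' ∈ Finset.Ico a ((M + 1) * wc), (1:ℝ) :=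
          Finset.sum_le_sum fun g' _ => hR g'
      _ = (((M + 1) * wc - a : ℕ) : ℝ) := by simp
      _ ≤ wc := by
          have : (M + 1) * wc - a ≤ wc := by
            rw [Nat.add_mul, one_mul]
            omega
          exact_mod_cast this
  by_cases hg : g ≤ M * wc
  · have hle : M * wc ≤ (M + 1) * wc := Nat.mul_le_mul_right _ (Nat.le_succ M)
    rw [← Finset.sum_Ico_consecutive R hg hle]
    have e1 : ∑ j ∈ Finset.Ico (g + wc) ((M + 1) * wc), Pb (j / wc) =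
        ∑ g' ∈ Finset.Ico g (M * wc), Pb ((g' + wc) / wc) := by
      rw [Nat.add_mul, one_mul]
      exact (Finset.sum_Ico_add' (fun j => Pb (j / wc)) g (M * wc) wc).symm
    rw [e1]
    refine add_le_add (Finset.sum_le_sum fun g' hg' => ?_) (hlast _ le_rfl)
    rw [Finset.mem_Ico] at hg'
    have hdiv : (g' + wc) / wc = g' / wc + 1 := Nat.add_div_right g' hw
    have hb : g' / wc + 1 ≤ M := Nat.div_lt_of_lt_mul (by rw [mul_comm]; exact hg'.2)
    rw [hdiv]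
    refine h1 _ hb g' (lt_of_lt_of_le ?_ (hcell _ hb))
    have := Nat.lt_div_mul_add (a := g') hw
    rw [Nat.add_mul, one_mul]
    omega
  · push Not at hg
    have h2 := hlast g hg.le
    have h3 : 0 ≤ ∑ j ∈ Finset.Ico (g + wc) ((M + 1) * wc), Pb (j / wc) := by
      refine Finset.sum_nonneg fun j hj => hP _ ?_
      rw [Finset.mem_Ico] at hj
      exact Nat.lt_succ_iff.1 (Nat.div_lt_of_lt_mul (by rw [mul_comm]; exact hj.2))
    linarith

/-- tail domination passes from the cells to the coarse path. -/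
theorem coarse_tail {M wc : ℕ} (hw : 0 < wc) (R Pb : ℕ → ℝ) (hR : ∀ g, 0 ≤ R g ∧ R g ≤ 1)
    (hPm : ∀ b < M, Pb b ≤ Pb (b + 1)) (hP : ∀ b ≤ M, 0 ≤ Pb b ∧ Pb b ≤ 1) (cell : ℕ → ℕ)
    (hcell : ∀ b ≤ M, b * wc ≤ cell b ∧ cell b < (b + 1) * wc)
    (h1 : ∀ b ≤ M, ∀ g < cell b, R g ≤ Pb b) {p : ℝ → ℝ} (hp : IsTrialPath p) {δ : ℝ}
    (hδ : 0 ≤ δ)
    (hcone : ∀ g < (M + 1) * wc,
      ∫ s in Ioo (((g:ℝ) + 1) / (((M:ℝ) + 1) * wc + 1)) 1, p s ≤
        (((M:ℝ) + 1) * wc + 1)⁻¹ * ∑ g' ∈ Finset.Ico g ((M + 1) * wc), R g' + δ) :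
    ∀ u ∈ Icc (0:ℝ) 1, ∫ s in Ioo u 1, p s ≤
      (∫ s in Ioo u 1, pathOf M (fun b => (b:ℝ) / ((M:ℝ) + 1)) Pb s) +
        (δ + 1 / ((M:ℝ) + 1) + 1 / (((M:ℝ) + 1) * wc + 1)) := by
  intro u hu
  have hM : (0:ℝ) < (M:ℝ) + 1 := by positivity
  have hwr : (0:ℝ) < wc := by exact_mod_cast hw
  have hw1 : (1:ℝ) ≤ wc := by exact_mod_cast hw
  have hnc : (0:ℝ) < ((M:ℝ) + 1) * wc := by positivity
  set n : ℝ := ((M:ℝ) + 1) * wc with hn
  have hn1 : (0:ℝ) < n + 1 := by linarith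
  have hT := isTrialPath_pathOf hPm hP
  have hT0 := tail_nonneg hT hu.1
  have hwle : (wc:ℝ) / n = 1 / ((M:ℝ) + 1) := by
    rw [hn]
    field_simp
  -- the bound at the cells
  have hbound : ∀ g < (M + 1) * wc, ∫ s in Ioo (((g:ℝ) + 1) / (n + 1)) 1, p s ≤
      n⁻¹ * (∑ j ∈ Finset.Ico (g + wc) ((M + 1) * wc), Pb (j / wc)) + (δ + 1 / ((M:ℝ) + 1)) := by
    intro g hg
    have h2 := hcone g hg
    have h3 := sum_R_le R Pb (fun g => (hR g).2) (fun b hb => (hP b hb).1) cell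
      (fun b hb => (hcell b hb).1) h1 hw g
    have h4 : 0 ≤ ∑ j ∈ Finset.Ico (g + wc) ((M + 1) * wc), Pb (j / wc) := by
      refine Finset.sum_nonneg fun j hj => (hP _ ?_).1
      rw [Finset.mem_Ico] at hj
      exact Nat.lt_succ_iff.1 (Nat.div_lt_of_lt_mul (by rw [mul_comm]; exact hj.2))
    have h5 : (n + 1)⁻¹ ≤ n⁻¹ := inv_anti₀ hnc (by linarith)
    have h6 : (n + 1)⁻¹ * ∑ g' ∈ Finset.Ico g ((M + 1) * wc), R g' ≤
        n⁻¹ * ((∑ j ∈ Finset.Ico (g + wc) ((M + 1) * wc), Pb (j / wc)) + wc) :=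
      mul_le_mul h5 h3 (Finset.sum_nonneg fun g _ => (hR g).1) (by positivity)
    have h7 : n⁻¹ * (wc:ℝ) = 1 / ((M:ℝ) + 1) := by rw [← hwle]; ring
    rw [mul_add, h7] at h6
    linarith
  by_cases hu1 : u = 1
  · rw [hu1]
    simp only [Ioo_self, setIntegral_empty]
    positivity
  have hult : u < 1 := lt_of_le_of_ne hu.2 hu1
  by_cases hu0 : u < 1 / (n + 1)
  · -- below the first node
    have hpos : 0 < (M + 1) * wc := by positivity
    have h2 := hbound 0 hpos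
    have h3 := tail_le_add hp hu.1 hu0.le ((div_le_one hn1).2 (by linarith))
    have hle : 0 + wc ≤ (M + 1) * wc := by
      rw [zero_add, Nat.add_mul, one_mul]
      exact Nat.le_add_left _ _
    have h4 := tail_pathOf' hw hPm hP hle
    rw [← hn] at h4
    rw [← h4] at h2
    have h5 : u ≤ ((0 + wc : ℕ) : ℝ) / n := by
      rw [zero_add, hwle]
      refine hu0.le.trans ?_
      have : (M:ℝ) + 1 ≤ n := by rw [hn]; nlinarith
      exact one_div_le_one_div_of_le hM (by linarith)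
    have h6 : ((0 + wc : ℕ) : ℝ) / n ≤ 1 := by
      rw [zero_add, hwle]
      exact (div_le_one hM).2 (by linarith [(Nat.cast_nonneg M : (0:ℝ) ≤ M)])
    have h7 := tail_le hT hu.1 h5 h6
    simp only [Nat.cast_zero, zero_add] at h2 h3 h7
    linarith [hu.1]
  · push Not at hu0
    have hk0 : 0 ≤ u * (n + 1) := mul_nonneg hu.1 hn1.le
    obtain ⟨k, hk⟩ : ∃ k : ℕ, k = ⌊u * (n + 1)⌋₊ := ⟨_, rfl⟩
    have hk1 : (k:ℝ) ≤ u * (n + 1) := hk ▸ Nat.floor_le hk0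
    have hk2 : u * (n + 1) < (k:ℝ) + 1 := hk ▸ Nat.lt_floor_add_one _
    have hk3 : 1 ≤ k := by
      rw [hk, Nat.one_le_floor_iff]
      rw [div_le_iff₀ hn1] at hu0
      exact hu0
    obtain ⟨g, hg⟩ : ∃ g, k = g + 1 := ⟨k - 1, by omega⟩
    rw [hg] at hk1 hk2
    push_cast at hk1 hk2
    have hgr : (g:ℝ) < n := by
      have : u * (n + 1) < n + 1 := by nlinarith
      linarith
    have hglt : g < (M + 1) * wc := by
      have : (g:ℝ) < (((M + 1) * wc : ℕ) : ℝ) := by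
        push_cast
        exact hgr
      exact_mod_cast this
    have hlow : ((g:ℝ) + 1) / (n + 1) ≤ u := (div_le_iff₀ hn1).2 hk1
    have hupp : u < ((g:ℝ) + 2) / (n + 1) := by
      rw [lt_div_iff₀ hn1]
      linarith
    have h2 := hbound g hglt
    have h3 := tail_le hp (by positivity) hlow hu.2
    have hpos : 0 < 1 / (n + 1) := by positivity
    by_cases hgw : g + wc ≤ (M + 1) * wc
    · have h4 := tail_pathOf' hw hPm hP hgw
      rw [← hn] at h4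
      rw [← h4] at h2
      have hgw' : ((g + wc : ℕ) : ℝ) / n ≤ 1 := by
        rw [div_le_one hnc, hn]
        exact_mod_cast hgw
      have hgw0 : 0 ≤ ((g + wc : ℕ) : ℝ) / n := by positivity
      have hgw1 : ((g:ℝ) + 1) / (n + 1) ≤ ((g + wc : ℕ) : ℝ) / n := by
        rw [div_le_div_iff₀ hn1 hnc]
        push_cast
        nlinarith [(Nat.cast_nonneg g : (0:ℝ) ≤ g)]
      rcases le_total u (((g + wc : ℕ) : ℝ) / n) with hle | hle
      · have h5 := tail_le hT hu.1 hle hgw'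
        linarith
      · have h5 := tail_le_add hT hgw0 hle hu.2
        have h6 : ((g:ℝ) + 2) / (n + 1) = ((g:ℝ) + 1) / (n + 1) + 1 / (n + 1) := by
          rw [← add_div]
          ring_nf
        linarith
    · push Not at hgw
      rw [Finset.Ico_eq_empty_of_le hgw.le, Finset.sum_empty, mul_zero, zero_add] at h2
      linarith

/-- combination of `coarse_tail` and `deficit_le_of_tail`. -/
theorem deficit_coarse_le {M wc : ℕ} (hw : 0 < wc) (R Pb : ℕ → ℝ) (hR : ∀ g, 0 ≤ R g ∧ R g ≤ 1)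
    (hPm : ∀ b < M, Pb b ≤ Pb (b + 1)) (hP : ∀ b ≤ M, 0 ≤ Pb b ∧ Pb b ≤ 1) (cell : ℕ → ℕ)
    (hcell : ∀ b ≤ M, b * wc ≤ cell b ∧ cell b < (b + 1) * wc)
    (h1 : ∀ b ≤ M, ∀ g < cell b, R g ≤ Pb b) {p : ℝ → ℝ} (hp : IsTrialPath p) {δ : ℝ}
    (hδ : 0 ≤ δ)
    (hcone : ∀ g < (M + 1) * wc,
      ∫ s in Ioo (((g:ℝ) + 1) / (((M:ℝ) + 1) * wc + 1)) 1, p s ≤
        (((M:ℝ) + 1) * wc + 1)⁻¹ * ∑ g' ∈ Finset.Ico g ((M + 1) * wc), R g' + δ)
    {r : ℝ} (hr : r ∈ Ioo (0:ℝ) 1) :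
    deficit (pathOf M (fun b => (b:ℝ) / ((M:ℝ) + 1)) Pb) r ≤
      deficit p r + (δ + 1 / ((M:ℝ) + 1) + 1 / (((M:ℝ) + 1) * wc + 1)) :=
  deficit_le_of_tail hp (isTrialPath_pathOf hPm hP) (by positivity)
    (coarse_tail hw R Pb hR hPm hP cell hcell h1 hp hδ hcone) hr

end

end Crest.Agent.R164.UPath
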