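import Crest.Agent.R164.UShift
import Crest.Agent.R164.UPath
import Crest.Agent.R164.UField
import Crest.Agent.R164.UPress
import Crest.Agent.R164.Contact

/-!
Row 164, upper bound assembly (helper466), part 1: comparison of the energy at a contact point.
-/

set_option autoImplicit false
set_option linter.unusedSectionVars false

namespace Crest.Agent.R164.US

open Finset MeasureTheory Crest.Agent.R141 Crest.Agent.R164
open Crest.ProbabilityR.InvariantGlass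

noncomputable section

/-- derivative in `t` of the spectral part of the path `q` -/
def Dp {K : ℕ} (w val : Fin (K + 1) → ℝ) (q : ℝ → ℝ) (t : ℝ) : ℝ :=
  (1 / 2) * ∫ r in Set.Ioo (0:ℝ) 1, SDPath.th w val (t * deficit q r)

theorem stepD_of_rel {K : ℕ} {w θ : Fin (K + 1) → ℝ} {M : ℕ} {G : Fin (K + 1) → ℕ → ℝ}
    {Pb : ℕ → ℝ} {ε : ℝ}
    (h : SDAlg.Rel w θ (M + 1) (fun b => (b : ℝ) / ((M : ℝ) + 1)) G Pb ε) :
    SDAlg.StepD (M + 1) (fun b => (b : ℝ) / ((M : ℝ) + 1)) Pb where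
  m0 := h.m0
  mlt b _ := by
    have : (0:ℝ) < (M : ℝ) + 1 := by positivity
    exact div_lt_div_of_pos_right (by push_cast; linarith) this
  mn := h.mn
  p0 := h.p0
  pmono := h.pmono
  pn := h.pn

theorem rel_p_le_one {K : ℕ} {w θ : Fin (K + 1) → ℝ} {M : ℕ} {G : Fin (K + 1) → ℕ → ℝ}
    {Pb : ℕ → ℝ} {ε : ℝ} {m : ℕ → ℝ} (h : SDAlg.Rel w θ (M + 1) m G Pb ε) :
    ∀ b ≤ M, 0 ≤ Pb b ∧ Pb b ≤ 1 := by
  intro b hb
  have h1 : Pb 0 ≤ Pb b := SDAlg.mono_of_succ h.pmono (Nat.zero_le b) (by omega)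
  have h2 : Pb b ≤ Pb (M + 1) := SDAlg.mono_of_succ h.pmono (by omega) le_rfl
  rw [h.pn] at h2
  exact ⟨h.p0.trans h1, h2⟩

variable {K : ℕ} {w val : Fin (K + 1) → ℝ} (hv : StrictMono val) (hw : ∀ k, 0 < w k)
  (hs : ∑ k, w k = 1)

include hv hw hs

/-- comparison of the energy of the system with `∂_t G_t(q)` when the overlaps dominate `q` in the
dual-cone order. -/
theorem energy_compare {Cth : ℝ} (hC0 : 0 ≤ Cth)
    (hC : ∀ x y : ℝ, 0 ≤ x → x ≤ 1 → 0 ≤ y → y ≤ 1 →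
      |SDPath.th w val x - SDPath.th w val y| ≤ Cth * |x - y|)
    {V : ℝ} (hV : ∀ k, |val k| ≤ V) {A' : ℝ} (hA' : ∀ k, 2 / w k ≤ A')
    {q : ℝ → ℝ} (hq : IsTrialPath q) {M wc : ℕ} (hwc : 0 < wc) {C : ℝ} (hCp : 0 < C)
    (hCM : C / ((M : ℝ) + 1) ≤ 1) {t : ℝ} (ht : t ∈ Set.Icc (0:ℝ) 1)
    {cell : ℕ → ℕ} {Γ : Fin (K + 1) → ℕ → ℝ} {Pb : ℕ → ℝ}
    (hcell : ∀ b ≤ M, b * wc ≤ cell b ∧ cell b < (b + 1) * wc)
    (hRel : SDAlg.Rel w (fun k => t * val k) (M + 1) (fun b => (b : ℝ) / ((M : ℝ) + 1)) Γ Pb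
          (C / ((M : ℝ) + 1)))
    {R : ℕ → ℝ} (hR : ∀ g, 0 ≤ R g ∧ R g ≤ 1) (hcR : ∀ b ≤ M, ∀ g < cell b, R g ≤ Pb b)
    {δ1 : ℝ} (hδ1 : 0 ≤ δ1)
    (hcone : ∀ g < (M + 1) * wc, ∫ s in Set.Ioo (((g:ℝ) + 1) / (((M:ℝ) + 1) * wc + 1)) 1, q s ≤
      (((M:ℝ) + 1) * wc + 1)⁻¹ * ∑ g' ∈ Ico g ((M + 1) * wc), R g' + δ1)
    {E : ℝ} (hE : |E - 1 / 2 * ∑ k, w k * (val k * Γ k (M + 1))| ≤ C / ((M : ℝ) + 1)) :
    E ≤ Dp w val q t + (C / ((M : ℝ) + 1) +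
      V * SDAlg.Rel.CC A' (val (Fin.last K) - val 0) * Real.sqrt (C / ((M : ℝ) + 1)) +
      Cth * (δ1 + 1 / ((M:ℝ) + 1) + 1 / (((M:ℝ) + 1) * wc + 1))) := by
  have hM : (0:ℝ) < (M : ℝ) + 1 := by positivity
  have hst := stepD_of_rel hRel
  have hpath := UPath.isTrialPath_pathOf (fun b hb => hRel.pmono b (by omega))
    (rel_p_le_one hRel)
  have h1 := SDPath.energy_path hv hw hs hV hA' ht.1 ht.2 hst (by positivity) hCM hRel
  have htail := UPath.coarse_tail hwc R Pb hR (fun b hb => hRel.pmono b (by omega))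
    (rel_p_le_one hRel) cell hcell hcR hq hδ1 hcone
  have hδ' : 0 ≤ δ1 + 1 / ((M:ℝ) + 1) + 1 / (((M:ℝ) + 1) * wc + 1) := by positivity
  have hdef : ∀ r ∈ Set.Ioo (0:ℝ) 1,
      deficit (SDAlg.pathOf M (fun b => (b:ℝ) / ((M:ℝ) + 1)) Pb) r ≤
        deficit q r + (δ1 + 1 / ((M:ℝ) + 1) + 1 / (((M:ℝ) + 1) * wc + 1)) := fun r hr =>
    UPath.deficit_le_of_tail hq hpath hδ' htail hr
  have h2 := SDPath.th_int_mono hv hw hs hC0 hC ht.1 ht.2 hq hpath hδ' hdef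
  have h5 : ∫ r in Set.Ioo (0:ℝ) 1, (SDPath.th w val (t * deficit q r) +
      Cth * (δ1 + 1 / ((M:ℝ) + 1) + 1 / (((M:ℝ) + 1) * wc + 1))) =
      (∫ r in Set.Ioo (0:ℝ) 1, SDPath.th w val (t * deficit q r)) +
      Cth * (δ1 + 1 / ((M:ℝ) + 1) + 1 / (((M:ℝ) + 1) * wc + 1)) := by
    rw [integral_add (SDPath.th_deficit_integrable hv hw hs ht.1 ht.2 hq)
      (integrable_const _)]
    simp
  rw [h5] at h2
  have h6 : 0 ≤ Cth * (δ1 + 1 / ((M:ℝ) + 1) + 1 / (((M:ℝ) + 1) * wc + 1)) :=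
    mul_nonneg hC0 hδ'
  unfold Dp
  have h3 := (abs_le.1 h1).2
  have h4 := (abs_le.1 hE).2
  linarith

end

end Crest.Agent.R164.US
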