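import Crest.Agent.R164.UAsm1

/-!
Row 164, upper bound assembly (helper466), part 2: the contact point.
-/

set_option autoImplicit false
set_option linter.unusedSectionVars false

namespace Crest.Agent.R164.US

open Finset MeasureTheory Crest.Agent.R141 Crest.Agent.R164
open Crest.ProbabilityR.InvariantGlass

noncomputable section

section cone

variable {p : Par} {N n : ℕ} {A : Finset (Fin N → Bool)} (hA : A.Nonempty)
variable {κ : Type} [Fintype κ] [DecidableEq κ] (lab : Fin N → κ) (th : κ → ℝ)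
    (η t : ℝ) (a : Fin p.nc → ℝ) (l : κ × Fin p.nc → ℝ)
variable {ν : Measure (Fin N → Fin N → ℝ)} [IsProbabilityMeasure ν]
variable (hν : ∀ᵐ U ∂ν, U ∈ Rot.OK N)

include hν in
/-- the cone inequality from the contact in the main strengths -/
theorem cone_of_contact (hN : 0 < N) (hn : 0 < n) {q : ℝ → ℝ} {Amax : ℝ}
    (ha : ∀ g, 0 < a g ∧ a g ≤ Amax) (hc : Amax ≤ Real.sqrt n / 8)
    (hFa : ∀ g : Fin p.nc, (N : ℝ)⁻¹ * Eo n hA ν lab th η t a l (fun _ => Va A n g) - a g ≤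
      - (a g * ∫ s in Set.Ioo (((g:ℝ) + 1) / ((p.nc:ℝ) + 1)) 1, q s)) (g : Fin p.nc) :
    ∫ s in Set.Ioo (((g:ℝ) + 1) / ((p.nc:ℝ) + 1)) 1, q s ≤
      ((p.nc : ℝ) + 1)⁻¹ * ∑ g' ∈ Ico (g : ℕ) p.nc, Rb hA lab th η t a l ν n (p.mt g') +
        52 * Amax / Real.sqrt n := by
  have hsn : 0 < Real.sqrt n := Real.sqrt_pos.2 (by exact_mod_cast hn)
  have hg := ha g
  have h1 := Fa_close hA lab th η t a l hν hN hn g (by
    rw [abs_of_pos hg.1]; exact hg.2.trans hc)
  have h2 := hFa g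
  have h3 := (abs_le.1 h1).1
  set W := ((p.nc : ℝ) + 1)⁻¹ * ∑ g' ∈ Ico (g : ℕ) p.nc, Rb hA lab th η t a l ν n (p.mt g')
    with hW
  set P := ∫ s in Set.Ioo (((g:ℝ) + 1) / ((p.nc:ℝ) + 1)) 1, q s with hP
  have h4 : a g * P ≤ a g * (W + 52 * a g / Real.sqrt n) := by
    have : a g * (W + 52 * a g / Real.sqrt n) = a g * W + 52 * (a g) ^ 2 / Real.sqrt n := by
      ring
    rw [this]
    linarith
  have h5 := le_of_mul_le_mul_left h4 hg.1
  refine h5.trans ?_
  have h6 : 52 * a g / Real.sqrt n ≤ 52 * Amax / Real.sqrt n :=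
    div_le_div_of_nonneg_right (by linarith [hg.2]) hsn.le
  linarith

include hν in
/-- bound of the derivatives in the auxiliary strengths -/
theorem Fl_le (hN : 0 < N) (hn : 0 < n) (hη : 0 ≤ η) (j : κ × Fin p.nc)
    (hl : ∀ j, 0 ≤ l j ∧ l j ≤ 2)
    (hc : 2 * Real.sqrt η * Real.sqrt N ≤ Real.sqrt n / 8)
    (hc2 : 208 * Real.sqrt η * Real.sqrt N ^ 3 ≤ Real.sqrt n) :
    |(N : ℝ)⁻¹ * Eo n hA ν lab th η t a l (Vl A n lab η j)| ≤ 3 * η := by
  have hsn : 0 < Real.sqrt n := Real.sqrt_pos.2 (by exact_mod_cast hn)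
  refine (Fl_bound hA lab th η t a l hν hN hn hη j hl hc).trans ?_
  have hs := Real.mul_self_sqrt hη
  have h1 : Real.sqrt η * (52 * (2 * Real.sqrt η) ^ 2 * Real.sqrt N ^ 3 / Real.sqrt n) ≤ η := by
    have e : Real.sqrt η * (52 * (2 * Real.sqrt η) ^ 2 * Real.sqrt N ^ 3 / Real.sqrt n) =
        (Real.sqrt η * Real.sqrt η) * ((208 * Real.sqrt η * Real.sqrt N ^ 3) / Real.sqrt n) := by
      ring
    rw [e, hs]
    have h2 : (208 * Real.sqrt η * Real.sqrt N ^ 3) / Real.sqrt n ≤ 1 := by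
      rw [div_le_one hsn]; exact hc2
    calc η * ((208 * Real.sqrt η * Real.sqrt N ^ 3) / Real.sqrt n) ≤ η * 1 :=
          mul_le_mul_of_nonneg_left h2 hη
      _ = η := mul_one η
  linarith

include hν in
/-- removal of the small fields -/
theorem FN_le_zero (hN : 0 < N) (hn : 0 < n) (hη : 0 ≤ η)
    (hl : ∀ j, 0 ≤ l j ∧ l j ≤ 2)
    (hc : 2 * Real.sqrt η * Real.sqrt N ≤ Real.sqrt n / 8)
    (hc2 : 208 * Real.sqrt η * Real.sqrt N ^ 3 ≤ Real.sqrt n) :
    FN n hA ν lab th η t a l ≤ FN n hA ν lab th η t a (fun _ => 0) +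
      6 * η * (Fintype.card (κ × Fin p.nc) : ℝ) := by
  refine (FN_shift hA lab th η t a l hν hN).trans (add_le_add le_rfl ?_)
  calc ∑ j, l j * ((N : ℝ)⁻¹ * Eo n hA ν lab th η t a l (Vl A n lab η j))
      ≤ ∑ _j : κ × Fin p.nc, 6 * η := by
        refine Finset.sum_le_sum fun j _ => ?_
        have h1 := Fl_le hA lab th η t a l hν hN hn hη j hl hc hc2
        have h2 := (hl j)
        have h3 := (abs_le.1 h1).2
        calc l j * ((N : ℝ)⁻¹ * Eo n hA ν lab th η t a l (Vl A n lab η j))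
            ≤ l j * (3 * η) := mul_le_mul_of_nonneg_left h3 h2.1
          _ ≤ 2 * (3 * η) := mul_le_mul_of_nonneg_right h2.2 (by linarith)
          _ = 6 * η := by ring
    _ = _ := by
        rw [Finset.sum_const, Finset.card_univ, nsmul_eq_mul]
        ring

end cone

end

end Crest.Agent.R164.US
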