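import Crest.Agent.R164.UAsm2

/-!
Row 164, upper bound assembly (helper466), part 3: the contact argument for one system.
-/

set_option autoImplicit false
set_option linter.unusedSectionVars false

namespace Crest.Agent.R164.US

open Finset MeasureTheory Crest.Agent.R141 Crest.Agent.R164
open Crest.ProbabilityR.InvariantGlass

noncomputable section

variable {K : ℕ} {w val : Fin (K + 1) → ℝ} (hv : StrictMono val) (hw : ∀ k, 0 < w k)
  (hs : ∑ k, w k = 1)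

/-- grid point of the cell `g` -/
def xg (p : Par) (g : Fin p.nc) : ℝ := ((g:ℝ) + 1) / ((p.nc:ℝ) + 1)

theorem one_sub_xg (p : Par) (g : Fin p.nc) : 1 / ((p.nc:ℝ) + 1) ≤ 1 - xg p g := by
  unfold xg
  have h1 : ((g : ℕ) : ℝ) + 1 ≤ p.nc := by exact_mod_cast g.2
  have h2 : (0:ℝ) < (p.nc : ℝ) + 1 := by positivity
  rw [div_le_iff₀ h2, sub_mul, div_mul_cancel₀ _ h2.ne']
  linarith

include hv hw hs in
/-- the contact argument for one system. -/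
theorem finite_bound {q : ℝ → ℝ} (hq : IsTrialPath q) (hq0 : ∀ x ∈ Set.Icc (0:ℝ) 1,
      0 ≤ ∫ s in Set.Ioo x 1, q s)
    {κ : ℝ} (hκ : 0 < κ)
    (hqκ : ∀ x ∈ Set.Icc (0:ℝ) 1, ∫ s in Set.Ioo x 1, q s ≤ (1 - κ) * (1 - x))
    {Cth : ℝ} (hC0 : 0 ≤ Cth)
    (hCth : ∀ x y : ℝ, 0 ≤ x → x ≤ 1 → 0 ≤ y → y ≤ 1 →
      |SDPath.th w val x - SDPath.th w val y| ≤ Cth * |x - y|)
    {V : ℝ} (hV : ∀ k, |val k| ≤ V) {A' : ℝ} (hA' : ∀ k, 2 / w k ≤ A')
    {M wc : ℕ} {C : ℝ} (hCp : 0 < C) (hCM : C / ((M : ℝ) + 1) ≤ 1) {ε1 : ℝ} (hε1 : 0 < ε1)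
    (hM : C / ((M : ℝ) + 1) +
      V * SDAlg.Rel.CC A' (val (Fin.last K) - val 0) * Real.sqrt (C / ((M : ℝ) + 1)) +
      Cth * (1 / ((M:ℝ) + 1) + 1 / ((M:ℝ) + 1) + 1 / ((M:ℝ) + 1)) < ε1)
    {p : Par} (hwc : 0 < wc) (hnc : p.nc = (M + 1) * wc)
    {η Amax δ a0 S C1 : ℝ} (hη : 0 < η) (ha0 : 0 < a0) (ha0A : a0 < Amax)
    (hη1 : 6 * η * (Fintype.card (Fin (K + 1) × Fin p.nc) : ℝ) ≤ ε1)
    {N n : ℕ} (hN : 0 < N) (hn : 0 < n) {A : Finset (Fin N → Bool)} (hA : A.Nonempty)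
    {ν : Measure (Fin N → Fin N → ℝ)} [IsProbabilityMeasure ν] (hν : ∀ᵐ U ∂ν, U ∈ Rot.OK N)
    (lab : Fin N → Fin (K + 1))
    (hn1 : 2 * Real.sqrt η * Real.sqrt N ≤ Real.sqrt n / 8)
    (hn2 : 208 * Real.sqrt η * Real.sqrt N ^ 3 ≤ Real.sqrt n)
    (hn3 : Amax ≤ Real.sqrt n / 8) (hn4 : 52 * Amax / Real.sqrt n ≤ 1 / ((M:ℝ) + 1))
    (hinit : ∀ a : Fin p.nc → ℝ, (∀ g, 0 ≤ a g ∧ a g ≤ Amax) →
      FN n hA ν lab val η 0 a (fun _ => 0) ≤
        S - 1 / 2 * ∑ g, a g ^ 2 * (∫ s in Set.Ioo (xg p g) 1, q s) + ε1)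
    (hcoer : ∀ t ∈ Set.Icc (0:ℝ) 1, ∀ a : Fin p.nc → ℝ, FN n hA ν lab val η t a (fun _ => 0) ≤
        C1 - 1 / 2 * ∑ g : Fin p.nc, a g ^ 2 * (1 - xg p g))
    (hface : ∀ t ∈ Set.Icc (0:ℝ) 1, C1 + ε1 ≤ S + RScale.specT (Atomic.atomic w val)
      (val (Fin.last K)) t q + 1 / 2 * (κ * (Amax ^ 2 * (1 / ((p.nc:ℝ) + 1)))))
    (hconc : ∀ t ∈ Set.Icc (0:ℝ) 1, ∀ a : Fin p.nc → ℝ,
      (∀ g, 0 ≤ a g ∧ a g ≤ Amax) → ∀ l : Fin (K + 1) × Fin p.nc → ℝ,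
      (∀ j, l j ∈ Set.Icc (5 / 4 : ℝ) (7 / 4)) → ∀ (j : Fin (K + 1) × Fin p.nc) (F' : ℝ),
      (∀ y ∈ Set.Icc (1:ℝ) 2, FN n hA ν lab val η t a (Function.update l j y) ≤
        FN n hA ν lab val η t a l + F' * (y - l j) + 8 * η * (y - l j) ^ 2) →
      Dconc n hA ν lab val η t a l j δ)
    (hstr : ∀ t ∈ Set.Icc (0:ℝ) 1, ∀ a : Fin p.nc → ℝ,
      (∀ g, 0 ≤ a g ∧ a g ≤ Amax) → ∀ l : Fin (K + 1) × Fin p.nc → ℝ,
      (∀ j, l j ∈ Set.Icc (1 : ℝ) 2) → (∀ j, Dconc n hA ν lab val η t a l j δ) →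
      ∃ (cell : ℕ → ℕ) (Γ : Fin (K + 1) → ℕ → ℝ) (Pb : ℕ → ℝ),
        (∀ b ≤ M, b * wc ≤ cell b ∧ cell b < (b + 1) * wc) ∧
        SDAlg.Rel w (fun k => t * val k) (M + 1) (fun b => (b : ℝ) / ((M : ℝ) + 1)) Γ Pb
          (C / ((M : ℝ) + 1)) ∧
        (∀ b ≤ M, ∀ g < cell b, Rb hA lab val η t a l ν n (p.mt g) ≤ Pb b) ∧
        |(N : ℝ)⁻¹ * Eo n hA ν lab val η t a l (Vt A n p lab val) -
          1 / 2 * ∑ k, w k * (val k * Γ k (M + 1))| ≤ C / ((M : ℝ) + 1)) :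
    FN (p := p) n hA ν lab val η 1 (fun _ => a0) (fun _ => 3 / 2) ≤
      S + RScale.specT (Atomic.atomic w val) (val (Fin.last K)) 1 q + 4 * ε1 := by
  have hM1 : (0:ℝ) < (M : ℝ) + 1 := by positivity
  have hxg : ∀ g : Fin p.nc, xg p g ∈ Set.Icc (0:ℝ) 1 := by
    intro g
    have h1 := one_sub_xg p g
    have h2 : (0:ℝ) ≤ 1 / ((p.nc:ℝ) + 1) := by positivity
    refine ⟨?_, by linarith⟩
    unfold xg; positivity
  have hη0 := hη.le
  have key := Contact.contact (α := Fin p.nc) (β := Fin (K + 1) × Fin p.nc)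
    (fun t a l => FN n hA ν lab val η t a l)
    (fun t a l => (N : ℝ)⁻¹ * Eo n hA ν lab val η t a l (Vt A n p lab val))
    (fun g t a l => (N : ℝ)⁻¹ * Eo n hA ν lab val η t a l (fun _ => Va A n g) - a g)
    (fun j t a l => (N : ℝ)⁻¹ * Eo n hA ν lab val η t a l (Vl A n lab η j))
    (continuous_FN hA hν hN lab val η)
    (fun t a l => hasDerivAt_FN_t hA hν lab val η t a l)
    (fun t a l g => hasDerivAt_FN_a hA hν lab val η t a l g)
    (fun t a l j => hasDerivAt_FN_l hA hν lab val η t a l j)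
    (S := S) (a0 := a0) (A := Amax) (c := 8 * η) (ε := ε1) (ε0 := 2 * ε1) ha0A (by positivity)
    hε1 (by positivity) (fun g => ∫ s in Set.Ioo (xg p g) 1, q s)
    (fun t => RScale.specT (Atomic.atomic w val) (val (Fin.last K)) t q) (Dp w val q)
    (RScale.specT_zero q)
    (fun t ht => SDPath.specT_hasDerivAt hv hw hs ht.1 ht.2 hq)
    (SDPath.specT_continuousOn hv hw hs hq)
    ?_ ?_ ?_ ?_ 1 (fun _ => a0) (fun _ => 3 / 2) ⟨zero_le_one, le_rfl⟩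
    (fun _ => ⟨le_rfl, ha0A.le⟩) (fun _ => ⟨by norm_num, by norm_num⟩)
  · -- conclusion
    have h1 : 0 ≤ ∑ g : Fin p.nc, (fun _ : Fin p.nc => a0) g ^ 2 *
        (∫ s in Set.Ioo (xg p g) 1, q s) :=
      Finset.sum_nonneg fun g _ => mul_nonneg (sq_nonneg _) (hq0 _ (hxg g))
    have h2 : 8 * η * ((Fintype.card (Fin (K + 1) × Fin p.nc) : ℝ) / 4) ≤ ε1 := by
      have h3 : 0 ≤ η * (Fintype.card (Fin (K + 1) × Fin p.nc) : ℝ) := by positivity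
      linarith
    linarith
  · -- initial values
    intro a l ha hl
    have h1 := FN_le_zero hA lab val η 0 a l hν hN hn hη0
      (fun j => ⟨zero_le_one.trans (hl j).1, (hl j).2⟩) hn1 hn2
    have h2 := hinit a fun g => ⟨ha0.le.trans (ha g).1, (ha g).2⟩
    show FN n hA ν lab val η 0 a l ≤ _
    linarith
  · -- faces
    intro t a l ht ha hl hex
    obtain ⟨g0, hg0⟩ := hex
    have h1 := FN_le_zero hA lab val η t a l hν hN hn hη0
      (fun j => ⟨zero_le_one.trans (hl j).1, (hl j).2⟩) hn1 hn2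
    have h2 := hcoer t ht a
    have h3 := hface t ht
    have h4 : ∑ g : Fin p.nc, a g ^ 2 * (∫ s in Set.Ioo (xg p g) 1, q s) +
        κ * (Amax ^ 2 * (1 / ((p.nc:ℝ) + 1))) ≤ ∑ g : Fin p.nc, a g ^ 2 * (1 - xg p g) := by
      have h5 : ∑ g : Fin p.nc, a g ^ 2 * (∫ s in Set.Ioo (xg p g) 1, q s) ≤
          ∑ g : Fin p.nc, a g ^ 2 * ((1 - κ) * (1 - xg p g)) :=
        Finset.sum_le_sum fun g _ => mul_le_mul_of_nonneg_left (hqκ _ (hxg g)) (sq_nonneg _)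
      have h6 : Amax ^ 2 * (1 / ((p.nc:ℝ) + 1)) ≤ ∑ g : Fin p.nc, a g ^ 2 * (1 - xg p g) := by
        have h7 : a g0 ^ 2 * (1 - xg p g0) ≤ ∑ g : Fin p.nc, a g ^ 2 * (1 - xg p g) :=
          Finset.single_le_sum (f := fun g : Fin p.nc => a g ^ 2 * (1 - xg p g))
            (fun g _ => mul_nonneg (sq_nonneg _) (by have := (hxg g).2; linarith))
            (Finset.mem_univ g0)
        have h8 : Amax ^ 2 * (1 / ((p.nc:ℝ) + 1)) ≤ a g0 ^ 2 * (1 - xg p g0) := by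
          rw [hg0]
          exact mul_le_mul_of_nonneg_left (one_sub_xg p g0) (sq_nonneg _)
        exact h8.trans h7
      have h9 : ∑ g : Fin p.nc, a g ^ 2 * ((1 - κ) * (1 - xg p g)) =
          ∑ g : Fin p.nc, a g ^ 2 * (1 - xg p g) - κ * ∑ g : Fin p.nc, a g ^ 2 * (1 - xg p g) := by
        rw [Finset.mul_sum, ← Finset.sum_sub_distrib]
        exact Finset.sum_congr rfl fun g _ => by ring
      have h10 := mul_le_mul_of_nonneg_left h6 hκ.le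
      linarith
    show FN n hA ν lab val η t a l ≤ _
    linarith
  · -- small dependence
    intro j t a l ht ha hl
    have h1 := Fl_le hA lab val η t a l hν hN hn hη0 j
      (fun j => ⟨zero_le_one.trans (hl j).1, (hl j).2⟩) hn1 hn2
    exact lt_of_le_of_lt h1 (by linarith)
  · -- structure
    intro t a l ht ha hl hfl hcon hFa
    have ht' : t ∈ Set.Icc (0:ℝ) 1 := ⟨ht.1.le, ht.2⟩
    have ha' : ∀ g, 0 ≤ a g ∧ a g ≤ Amax := fun g => ⟨ha0.le.trans (ha g).1, (ha g).2.le⟩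
    have hl' : ∀ j, l j ∈ Set.Icc (1:ℝ) 2 := fun j => ⟨(hl j).1.le, (hl j).2.le⟩
    have hl54 : ∀ j, l j ∈ Set.Icc (5 / 4 : ℝ) (7 / 4) := by
      intro j
      have h1 := Fl_le hA lab val η t a l hν hN hn hη0 j
        (fun j => ⟨zero_le_one.trans (hl' j).1, (hl' j).2⟩) hn1 hn2
      have h2 : (N : ℝ)⁻¹ * Eo n hA ν lab val η t a l (Vl A n lab η j) =
        2 * (8 * η) * (l j - 3 / 2) := hfl j
      rw [h2, abs_le] at h1
      constructor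
      · have h3 : η * (-3) ≤ η * (16 * (l j - 3 / 2)) := by linarith [h1.1]
        have h4 := le_of_mul_le_mul_left h3 hη
        linarith
      · have h3 : η * (16 * (l j - 3 / 2)) ≤ η * 3 := by linarith [h1.2]
        have h4 := le_of_mul_le_mul_left h3 hη
        linarith
    have hD : ∀ j, Dconc n hA ν lab val η t a l j δ := fun j =>
      hconc t ht' a ha' l hl54 j _ (hcon j)
    obtain ⟨cell, Γ, Pb, h1, h2, h3, h4⟩ := hstr t ht' a ha' l hl' hD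
    have hcone := cone_of_contact hA lab val η t a l hν hN hn (q := q) (Amax := Amax)
      (fun g => ⟨lt_of_lt_of_le ha0 (ha g).1, (ha g).2.le⟩) hn3 hFa
    have hncR : (p.nc : ℝ) = ((M:ℝ) + 1) * wc := by rw [hnc]; push_cast; ring
    have h5 := energy_compare hv hw hs hC0 hCth hV hA' hq hwc hCp hCM ht' h1 h2
      (R := fun g => Rb hA lab val η t a l ν n (p.mt g))
      (fun g => ⟨Rb_nonneg hA lab val η t a l ν _, Rb_le_one hA lab val η t a l ν hN _⟩) h3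
      (δ1 := 1 / ((M:ℝ) + 1)) (by positivity) (by
        intro g hg
        have h6 := hcone ⟨g, by rw [hnc]; exact hg⟩
        have e6 : Ico g p.nc = Ico g ((M + 1) * wc) := by rw [hnc]
        have h6' : ∫ s in Set.Ioo (((g:ℝ) + 1) / ((p.nc:ℝ) + 1)) 1, q s ≤
            ((p.nc : ℝ) + 1)⁻¹ * ∑ g' ∈ Ico g p.nc, Rb hA lab val η t a l ν n (p.mt g') +
              52 * Amax / Real.sqrt n := h6
        rw [e6, hncR] at h6'
        linarith) h4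
    have h7 : 1 / (((M:ℝ) + 1) * wc + 1) ≤ 1 / ((M:ℝ) + 1) := by
      apply one_div_le_one_div_of_le hM1
      have : (1:ℝ) ≤ wc := by exact_mod_cast hwc
      nlinarith
    have h8 := mul_le_mul_of_nonneg_left h7 hC0
    show (N : ℝ)⁻¹ * Eo n hA ν lab val η t a l (Vt A n p lab val) < Dp w val q t + ε1
    have h9 : Cth * (1 / ((M:ℝ) + 1) + 1 / ((M:ℝ) + 1) + 1 / (((M:ℝ) + 1) * wc + 1)) ≤
        Cth * (1 / ((M:ℝ) + 1) + 1 / ((M:ℝ) + 1) + 1 / ((M:ℝ) + 1)) :=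
      mul_le_mul_of_nonneg_left (by linarith) hC0
    linarith

end

end Crest.Agent.R164.US
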