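import Crest.Agent.R164.UAsm3

/-!
Row 164, upper bound assembly (helper466), part 4: the upper bound from the four inputs.
-/

set_option autoImplicit false
set_option linter.unusedSectionVars false

namespace Crest.Agent.R164.US

open Finset MeasureTheory Crest.Agent.R141 Crest.Agent.R164
open Crest.ProbabilityR.InvariantGlass

noncomputable section

/-- choice of the number of levels -/
theorem exists_M {C C2 Cth ε1 : ℝ} (hC : 0 < C) (hε1 : 0 < ε1) :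
    ∃ M : ℕ, C / ((M : ℝ) + 1) ≤ 1 ∧ C / ((M : ℝ) + 1) + C2 * Real.sqrt (C / ((M : ℝ) + 1)) +
      Cth * (1 / ((M:ℝ) + 1) + 1 / ((M:ℝ) + 1) + 1 / ((M:ℝ) + 1)) < ε1 := by
  have h1 : Filter.Tendsto (fun M : ℕ => 1 / ((M : ℝ) + 1)) Filter.atTop (nhds 0) :=
    tendsto_one_div_add_atTop_nhds_zero_nat
  have h2 : Filter.Tendsto (fun x : ℝ => C * x + C2 * Real.sqrt (C * x) + Cth * (x + x + x))
      (nhds 0) (nhds (C * 0 + C2 * Real.sqrt (C * 0) + Cth * (0 + 0 + 0))) := by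
    have : Continuous fun x : ℝ => C * x + C2 * Real.sqrt (C * x) + Cth * (x + x + x) := by
      fun_prop
    exact this.tendsto 0
  have h3 := h2.comp h1
  simp only [mul_zero, Real.sqrt_zero, add_zero] at h3
  have h4 : Filter.Tendsto (fun M : ℕ => C * (1 / ((M : ℝ) + 1))) Filter.atTop (nhds 0) := by
    simpa using h1.const_mul C
  have e1 := (tendsto_order.1 h3).2 ε1 hε1
  have e2 := (tendsto_order.1 h4).2 1 zero_lt_one
  obtain ⟨M, hM1, hM2⟩ := (e1.and e2).exists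
  refine ⟨M, ?_, ?_⟩
  · rw [div_eq_mul_one_div]; exact hM2.le
  · rw [div_eq_mul_one_div C]
    exact hM1

/-- choice of the number of coins -/
theorem exists_n (n0 : ℕ) (X : ℝ) : ∃ n : ℕ, n0 ≤ n ∧ 0 < n ∧ X ≤ Real.sqrt n := by
  refine ⟨max (max n0 1) ⌈X ^ 2⌉₊, (le_max_left _ _).trans (le_max_left _ _),
    lt_of_lt_of_le Nat.one_pos ((le_max_right n0 1).trans (le_max_left _ _)), ?_⟩
  apply Real.le_sqrt_of_sq_le
  calc X ^ 2 ≤ (⌈X ^ 2⌉₊ : ℝ) := Nat.le_ceil _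
    _ ≤ ((max (max n0 1) ⌈X ^ 2⌉₊ : ℕ) : ℝ) := by exact_mod_cast le_max_right _ _

variable {K : ℕ} {w val : Fin (K + 1) → ℝ}

/-- **The upper bound** from the four inputs. -/
theorem upper_bound (hv : StrictMono val) (hw : ∀ k, 0 < w k) (hs : ∑ k, w k = 1)
    (hStr : HStr K w val) (hConc : HConc K val) (hInit : HInit K val) (hCoer : HCoer K val)
    (labE : (N : ℕ) → Fin N → Fin (K + 1))
    (hlabE : ∀ k, Filter.Tendsto (fun N : ℕ =>
      ((Finset.univ.filter fun i : Fin N => labE N i = k).card : ℝ) / (N : ℝ)) Filter.atTop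
        (nhds (w k)))
    (ν : (N : ℕ) → Measure (Fin N → Fin N → ℝ)) (hνp : ∀ N, IsProbabilityMeasure (ν N))
    (hνR : ∀ N, Haar.RHaar (ν N))
    {J : ℕ} {γ : Fin J → ℚ} (hγ : ∀ j, 0 < γ j) (hγs : ∑ j, γ j = 1)
    (lab : (N : ℕ) → Fin N → Fin J)
    (hlab : ∀ j : Fin J, Filter.Tendsto
      (fun N : ℕ => ((Finset.univ.filter fun r : Fin N => lab N r = j).card : ℝ) / (N : ℝ))
      Filter.atTop (nhds ((γ j : ℚ) : ℝ)))
    {l u : Fin J → ℝ} (hlu : ∀ j, l j < u j) (hlu1 : ∀ j, -1 ≤ l j ∧ u j ≤ 1)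
    {m : Fin J → ℚ} (hm : ∀ j, (-1 : ℚ) < m j ∧ m j < 1)
    (hbox : ∀ j, ∀ x ∈ Set.Icc (l j) (u j), |((m j : ℚ) : ℝ)| ≤ |x| ∧ 0 ≤ ((m j : ℚ) : ℝ) * x)
    {q0 : ℝ → ℝ} (hq0 : IsTrialPath q0) {r : ℝ}
    (hr : constrainedEntropyPart γ m q0 +
      ((spectralPart (Atomic.atomic w val) (val (Fin.last K)) q0 : ℝ) : EReal) ≤ (r : EReal))
    {ε : ℝ} (hε : 0 < ε) :
    ∀ᶠ N : ℕ in Filter.atTop,
      ∫ U, Mag.pressG (fun i => val (labE N i)) (Matrix.of U) (Mag.boxSet (lab N) l u)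
        (fun _ => 0) ∂(ν N) ≤ r + ε := by
  obtain ⟨ε1, hε1def⟩ : ∃ ε1 : ℝ, ε1 = ε / 16 := ⟨_, rfl⟩
  have hε1 : 0 < ε1 := by rw [hε1def]; positivity
  obtain ⟨Cth, hC0, hCth⟩ := SDPath.th_lip hv hw hs
  obtain ⟨V, hV⟩ : ∃ V : ℝ, ∀ k, |val k| ≤ V :=
    ⟨∑ k, |val k|, fun k => Finset.single_le_sum (f := fun k => |val k|)
      (fun _ _ => abs_nonneg _) (Finset.mem_univ k)⟩
  obtain ⟨A', hA'⟩ : ∃ A' : ℝ, ∀ k, 2 / w k ≤ A' :=
    ⟨∑ k, 2 / w k, fun k => Finset.single_le_sum (f := fun k => 2 / w k)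
      (fun k _ => (div_pos two_pos (hw k)).le) (Finset.mem_univ k)⟩
  obtain ⟨C, hCp, hStr⟩ := hStr
  obtain ⟨Ctr, hCtr0, hCtr⟩ := spectralPart_trc hv hw hs
  -- truncation
  obtain ⟨κ, hκdef⟩ : ∃ κ : ℝ, κ = min (1 / 2) (ε1 / (Ctr + 1)) := ⟨_, rfl⟩
  have hκ : 0 < κ := by rw [hκdef]; positivity
  have hκ1 : κ < 1 := by rw [hκdef]; exact lt_of_le_of_lt (min_le_left _ _) (by norm_num)
  have hκC : Ctr * κ ≤ ε1 := by
    have h1 : κ ≤ ε1 / (Ctr + 1) := by rw [hκdef]; exact min_le_right _ _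
    rw [le_div_iff₀ (by positivity)] at h1
    nlinarith
  obtain ⟨q, hqdef⟩ : ∃ q : ℝ → ℝ, q = trc κ q0 := ⟨_, rfl⟩
  have hq : IsTrialPath q := by rw [hqdef]; exact isTrialPath_trc hq0 hκ1
  have hqnn : ∀ x ∈ Set.Icc (0:ℝ) 1, 0 ≤ ∫ s in Set.Ioo x 1, q s := fun x hx =>
    setIntegral_nonneg measurableSet_Ioo fun s hs' =>
      (hq.2.2 s ⟨lt_of_le_of_lt hx.1 hs'.1, hs'.2⟩).1
  have hqκ : ∀ x ∈ Set.Icc (0:ℝ) 1, ∫ s in Set.Ioo x 1, q s ≤ (1 - κ) * (1 - x) := fun x hx => by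
    rw [hqdef]; exact integral_trc_le hq0 hκ1 hx.1 hx.2
  -- levels
  obtain ⟨M, hM1, hM2⟩ := exists_M (C := C)
    (C2 := V * SDAlg.Rel.CC A' (val (Fin.last K) - val 0)) (Cth := Cth) hCp hε1
  obtain ⟨wc, p, hwc, hnc, hnb, hS⟩ := hStr M
  obtain ⟨C1, hC1⟩ := hCoer p hnb
  -- the entropy bound
  obtain ⟨S, hSdef⟩ : ∃ S : ℝ, S = r - spectralPart (Atomic.atomic w val) (val (Fin.last K)) q0 :=
    ⟨_, rfl⟩
  have hSE : constrainedEntropyPart γ m q ≤ (S : EReal) := by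
    have h1 : constrainedEntropyPart γ m q0 ≤ (S : EReal) := by
      have h2 := add_le_add hr (le_refl
        (((-spectralPart (Atomic.atomic w val) (val (Fin.last K)) q0 : ℝ)) : EReal))
      rw [add_assoc, ← EReal.coe_add, ← EReal.coe_add, add_neg_cancel, EReal.coe_zero,
        add_zero] at h2
      rw [hSdef, sub_eq_add_neg]
      exact h2
    rw [hqdef]
    exact (constrainedEntropyPart_trc γ m hq0 hκ1).trans h1
  obtain ⟨Gm, hGm⟩ := isCompact_Icc.exists_bound_of_continuousOn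
    (SDPath.specT_continuousOn hv hw hs hq)
  -- the box of the strengths
  obtain ⟨Bd, hBd⟩ : ∃ Bd : ℝ, Bd = |C1| + |S| + |Gm| + ε1 := ⟨_, rfl⟩
  have hBd0 : 0 < Bd := by rw [hBd]; positivity
  have hnc1 : (0:ℝ) < (p.nc : ℝ) + 1 := by positivity
  obtain ⟨Amax, hAmax⟩ : ∃ Amax : ℝ, Amax = 2 * ((p.nc : ℝ) + 1) * Bd / κ + 1 := ⟨_, rfl⟩
  have hAx : 0 < 2 * ((p.nc : ℝ) + 1) * Bd / κ := by positivity
  have hA1 : 1 ≤ Amax := by rw [hAmax]; linarith
  have hface : ∀ t ∈ Set.Icc (0:ℝ) 1, C1 + ε1 ≤ S + RScale.specT (Atomic.atomic w val)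
      (val (Fin.last K)) t q + 1 / 2 * (κ * (Amax ^ 2 * (1 / ((p.nc:ℝ) + 1)))) := by
    intro t ht
    have h1 := hGm t ht
    rw [Real.norm_eq_abs] at h1
    have h2 : 2 * ((p.nc : ℝ) + 1) * Bd / κ ≤ Amax ^ 2 := by
      have h3 : 2 * ((p.nc : ℝ) + 1) * Bd / κ ≤ Amax := by rw [hAmax]; linarith
      nlinarith
    have h4 : Bd ≤ 1 / 2 * (κ * (Amax ^ 2 * (1 / ((p.nc:ℝ) + 1)))) := by
      have h5 : 1 / 2 * (κ * ((2 * ((p.nc : ℝ) + 1) * Bd / κ) * (1 / ((p.nc:ℝ) + 1)))) = Bd := by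
        field_simp
      rw [← h5]
      gcongr
    have h6 := (abs_le.1 h1).1
    have h7 := le_abs_self C1
    have h8 := neg_abs_le S
    have h9 := le_abs_self Gm
    linarith
  obtain ⟨a0, ha0def⟩ : ∃ a0 : ℝ, a0 = min (1 / 2) (ε1 / ((p.nc : ℝ) + 1)) := ⟨_, rfl⟩
  have ha0 : 0 < a0 := by rw [ha0def]; positivity
  have ha0h : a0 ≤ 1 / 2 := by rw [ha0def]; exact min_le_left _ _
  have ha0A : a0 < Amax := by linarith
  have ha0s : 1 / 2 * ∑ _g : Fin p.nc, a0 ^ 2 ≤ ε1 := by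
    rw [Finset.sum_const, Finset.card_univ, Fintype.card_fin, nsmul_eq_mul]
    have h1 : a0 ≤ ε1 / ((p.nc : ℝ) + 1) := by rw [ha0def]; exact min_le_right _ _
    rw [le_div_iff₀ hnc1] at h1
    have h2 : a0 ^ 2 ≤ a0 := by nlinarith
    have h3 : (p.nc : ℝ) * a0 ^ 2 ≤ (p.nc : ℝ) * a0 :=
      mul_le_mul_of_nonneg_left h2 (Nat.cast_nonneg _)
    nlinarith
  -- auxiliary strength
  obtain ⟨ηmax, hηmax, hS2⟩ := hS Amax
  obtain ⟨cd, hcd⟩ : ∃ cd : ℝ, cd = (Fintype.card (Fin (K + 1) × Fin p.nc) : ℝ) := ⟨_, rfl⟩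
  have hcd0 : 0 ≤ cd := by rw [hcd]; positivity
  obtain ⟨η, hηdef⟩ : ∃ η : ℝ, η = min ηmax (ε1 / (6 * cd + 1)) := ⟨_, rfl⟩
  have hη : 0 < η := by rw [hηdef]; positivity
  have hηm : η ≤ ηmax := by rw [hηdef]; exact min_le_left _ _
  have hη1 : 6 * η * (Fintype.card (Fin (K + 1) × Fin p.nc) : ℝ) ≤ ε1 := by
    rw [← hcd]
    have h1 : η ≤ ε1 / (6 * cd + 1) := by rw [hηdef]; exact min_le_right _ _
    rw [le_div_iff₀ (by positivity)] at h1
    nlinarith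
  obtain ⟨δ, hδ, N1, n1, hS3⟩ := hS2 η hη hηm
  obtain ⟨N2, n2, hCo⟩ := hConc p hnb η hη Amax δ hδ
  obtain ⟨N3, n3, hIn⟩ := hInit J γ hγ hγs lab hlab l u hlu hlu1 m hm hbox p hnb Amax ε1 hε1
  -- large N
  have hprop : ∀ᶠ N : ℕ in Filter.atTop, ∀ k, |prop (labE N) k - w k| ≤ δ := by
    rw [Filter.eventually_all]
    intro k
    have h1 := (hlabE k).sub_const (w k)
    rw [sub_self] at h1
    have h2 := h1.abs
    rw [abs_zero] at h2
    filter_upwards [(tendsto_order.1 h2).2 δ hδ] with N hN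
    exact hN.le
  filter_upwards [hprop, boxSet_nonempty hγ hlab hlu hlu1, Filter.eventually_ge_atTop N1,
    Filter.eventually_ge_atTop N2, Filter.eventually_ge_atTop N3,
    Filter.eventually_ge_atTop 1] with N hNp hA hN1 hN2 hN3 hN0
  haveI := hνp N
  have hν : ∀ᵐ U ∂(ν N), U ∈ Rot.OK N := (hνR N).mem
  obtain ⟨n, hn123, hn0, hnX⟩ := exists_n (max (n1 N) (max (n2 N) (n3 N)))
    (max (16 * Real.sqrt η * Real.sqrt N) (max (208 * Real.sqrt η * Real.sqrt N ^ 3)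
      (max (8 * Amax) (52 * Amax * ((M:ℝ) + 1)))))
  have hn1 : n1 N ≤ n := (le_max_left _ _).trans hn123
  have hn2 : n2 N ≤ n := ((le_max_left _ _).trans (le_max_right _ _)).trans hn123
  have hn3 : n3 N ≤ n := ((le_max_right _ _).trans (le_max_right _ _)).trans hn123
  have hX1 : 16 * Real.sqrt η * Real.sqrt N ≤ Real.sqrt n := (le_max_left _ _).trans hnX
  have hX2 : 208 * Real.sqrt η * Real.sqrt N ^ 3 ≤ Real.sqrt n :=
    ((le_max_left _ _).trans (le_max_right _ _)).trans hnX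
  have hX3 : 8 * Amax ≤ Real.sqrt n :=
    ((le_max_left _ _).trans ((le_max_right _ _).trans (le_max_right _ _))).trans hnX
  have hX4 : 52 * Amax * ((M:ℝ) + 1) ≤ Real.sqrt n :=
    ((le_max_right _ _).trans ((le_max_right _ _).trans (le_max_right _ _))).trans hnX
  have hsn : 0 < Real.sqrt n := Real.sqrt_pos.2 (by exact_mod_cast hn0)
  have hfin := finite_bound (p := p) (M := M) (wc := wc) (n := n) (N := N) (δ := δ)
    (a0 := a0) (S := S) (C1 := C1) hv hw hs hq hqnn hκ hqκ hC0 hCth hV hA' hCp hM1 hε1 hM2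
    hwc hnc hη ha0 ha0A hη1 hN0 hn0 hA hν (labE N) (by linarith) hX2 (by linarith)
    (by
      rw [div_le_div_iff₀ hsn (by positivity)]
      linarith)
    (by
      intro a ha
      have h1 := hIn N hN3 n hn3 hA (ν N) inferInstance hν (labE N) η a ha
      have h2 : groupFieldValue γ m (wU p.nc) (hvA a) +
          (((1 / 2) * ∫ s in Set.Ioo (0 : ℝ) 1, q s * stepFn (wU p.nc) (hvA a) s : ℝ) : EReal) ≤
          (S : EReal) := by
        refine le_trans ?_ hSE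
        unfold constrainedEntropyPart
        exact le_iSup_of_le (p.nc + 1) (le_iSup_of_le (wU p.nc) (le_iSup_of_le (hvA a)
          (le_iSup_of_le (isStepField_hvA a) le_rfl)))
      have h3 : ((FN n hA (ν N) (labE N) val η 0 a (fun _ => 0) : ℝ) : EReal) +
          (((1 / 2) * ∫ s in Set.Ioo (0 : ℝ) 1, q s * stepFn (wU p.nc) (hvA a) s : ℝ) : EReal) ≤
          ((S + ε1 : ℝ) : EReal) := by
        refine (add_le_add h1 le_rfl).trans ?_
        rw [add_right_comm, EReal.coe_add]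
        exact add_le_add h2 le_rfl
      rw [← EReal.coe_add, EReal.coe_le_coe_iff, integral_stepFn_hvA a hq] at h3
      have h4 : ∑ g : Fin p.nc, a g ^ 2 * (∫ s in Set.Ioo (xg p g) 1, q s) =
          ∑ g : Fin p.nc, a g ^ 2 *
            ∫ s in Set.Ioo (((g.val : ℝ) + 1) / ((p.nc : ℝ) + 1)) 1, q s := rfl
      rw [h4]
      linarith)
    (fun t ht a => hC1 N hN0 n hn0 _ hA (ν N) inferInstance hν (labE N) η t ht a)
    hface
    (fun t ht a ha l hl j F' hF' => hCo N hN2 n hn2 _ hA (ν N) inferInstance (hνR N) (labE N) t ht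
      a ha l hl j F' hF')
    (fun t ht a ha l hl hD => hS3 N hN1 n hn1 _ hA (ν N) inferInstance (hνR N) (labE N) hNp t ht
      a ha l hl hD)
  have hpr := press_le_FN (p := p) (n := n) hA hν hN0 hnb (labE N) val η (fun _ => a0)
    (fun _ => 3 / 2)
  have hsp : RScale.specT (Atomic.atomic w val) (val (Fin.last K)) 1 q ≤
      spectralPart (Atomic.atomic w val) (val (Fin.last K)) q0 + ε1 := by
    rw [RScale.specT_one, hqdef]
    exact (hCtr q0 hq0 κ hκ.le hκ1).trans (by linarith)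
  linarith

end

end Crest.Agent.R164.US
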