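import Crest.Agent.R164.USys2
import Crest.Agent.R164.ZSys
import Crest.Agent.R164.UDef

/-!
Row 164, upper bound (helper362): coercivity (Z2) of the function `FN` in the strengths `a`.
-/

set_option autoImplicit false

namespace Crest.Agent.R164.US

open Finset MeasureTheory Crest.Agent.R141 Crest.Agent.R141.SysF Crest.Agent.R141.SysIC Crest.Agent.R164 Crest.Agent.R164.CoinG
open Crest.ProbabilityR.InvariantGlass

noncomputable section

/-! ### nested coin recursion started at `|y|` -/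

theorem bavg_pos' (n : ℕ) (φ : ℝ → ℝ) : 0 < bavg n (fun s => Real.exp (φ s)) :=
  bavg_pos n fun _ => Real.exp_pos _

theorem coinOp_abs_le (n : ℕ) {x : ℝ} (hx : 0 < x) (a c z : ℝ) :
    coinOp n x a (fun y => |y| + c) z ≤ |z| + (c + (Real.log 2 / x + x * a ^ 2 / 2)) := by
  unfold coinOp
  have h1 : bavg n (fun s => Real.exp (x * (|z + a * s| + c))) ≤
      Real.exp (x * (|z| + c)) * (2 * Real.exp ((x * |a|) ^ 2 / 2)) := by
    calc bavg n (fun s => Real.exp (x * (|z + a * s| + c)))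
        ≤ bavg n (fun s => Real.exp (x * (|z| + c)) * Real.exp (x * |a| * |s|)) := by
          apply bavg_mono
          intro s
          rw [← Real.exp_add]
          apply Real.exp_le_exp.2
          have h2 := abs_add_le z (a * s)
          rw [abs_mul] at h2
          nlinarith
      _ = Real.exp (x * (|z| + c)) * bavg n (fun s => Real.exp (x * |a| * |s|)) :=
          bavg_const_mul n _ _
      _ ≤ _ := mul_le_mul_of_nonneg_left (bavg_exp_abs_le n _) (Real.exp_pos _).le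
  have h3 := Real.log_le_log (bavg_pos' n _) h1
  rw [Real.log_mul (Real.exp_pos _).ne' (by positivity), Real.log_exp,
    Real.log_mul (by norm_num) (Real.exp_pos _).ne', Real.log_exp, mul_pow, sq_abs] at h3
  have h4 := mul_le_mul_of_nonneg_left h3 (by positivity : 0 ≤ 1 / x)
  refine h4.trans (le_of_eq ?_)
  field_simp
  ring

theorem cRec_abs_le {κ : Type*} {x : κ → ℝ} (hx : ∀ g, 0 < x g) (n : ℕ) (a : κ → ℝ) (L : List κ)
    (z : ℝ) : cRec n x a L (fun y => |y|) z ≤
      |z| + (L.map fun g => Real.log 2 / x g + x g * a g ^ 2 / 2).sum := by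
  induction L generalizing z with
  | nil => simp [cRec]
  | cons g L ih =>
    show coinOp n (x g) (a g) (cRec n x a L fun y => |y|) z ≤ _
    refine (coinOp_mono n (hx g) (a g) ih z).trans ?_
    refine (coinOp_abs_le n (hx g) (a g) _ z).trans (le_of_eq ?_)
    rw [List.map_cons, List.sum_cons]
    ring

/-! ### the bound -/

theorem exp_avg_abs {N : ℕ} {K : Finset (Fin N → Bool)} (hK : K.Nonempty) (y : Fin N → ℝ) :
    eE (unif {σ : Fin N → Bool // σ ∈ K}) (fun σ => Real.exp (∑ i, sv (σ.1 i) * y i)) ≤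
      Real.exp (0 + ∑ i, |y i|) := by
  haveI := Z.spin_nonempty hK
  refine eE_le_of_le (unif_isProb _) fun σ => ?_
  apply Real.exp_le_exp.2
  rw [zero_add]
  refine Finset.sum_le_sum fun i _ => ?_
  refine (le_abs_self _).trans ?_
  rw [abs_mul, sv_abs, one_mul]

theorem Phi_coer (p : Par) (hb : p.nb = 0) {N n : ℕ} {A : Finset (Fin N → Bool)}
    (hA : A.Nonempty) (h0 : (Fin N → Bool) → ℝ) {C0 : ℝ} (hh0 : ∀ σ ∈ A, h0 σ ≤ C0)
    (a : Fin p.nc → ℝ) (x : (Fin N → Bool) → Fin N → ℝ) (d : DD p N) :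
    G.Phi (SY.base p n A hA) (SY.HH h0 a (fun _ _ => 0) x) d ≤
      C0 + N * ∑ g : Fin p.nc, (Real.log 2 / p.xi g + p.xi g * a g ^ 2 / 2) +
        p.τ * Fintype.card (Stp p) := by
  have h := Z.Phi_le (p := p) (n := n) hA h0 hh0 a (fun _ _ => 0) x (κ := 0)
    (fun σ _ => by simp) (ρ := fun _ y => |y|) (c0 := 0) (fun y => exp_avg_abs hA y) d
  refine h.trans ?_
  have h1 : ∑ _i : Fin N, cRec n (fun g : Fin p.nc => p.xi g) a (List.finRange p.nc)
      (fun y => |y|) 0 ≤ N * ∑ g : Fin p.nc, (Real.log 2 / p.xi g + p.xi g * a g ^ 2 / 2) := by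
    rw [Finset.sum_const, Finset.card_univ, Fintype.card_fin, nsmul_eq_mul]
    refine mul_le_mul_of_nonneg_left ?_ (Nat.cast_nonneg _)
    refine (cRec_abs_le (fun g => by unfold Par.xi; positivity) n a _ 0).trans (le_of_eq ?_)
    rw [abs_zero, zero_add, ← List.ofFn_eq_map, List.sum_ofFn]
  rw [hb]
  push_cast
  linarith

variable {κ : Type} [Fintype κ] [DecidableEq κ]

/-- **(Z2)** coercivity of `FN` in the strengths of the main fields. -/
theorem FN_coer (p : Par) (hb : p.nb = 0) (Λ : ℝ) : ∃ C1 : ℝ, ∀ (N n : ℕ), 0 < N →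
    ∀ (A : Finset (Fin N → Bool)) (hA : A.Nonempty) (ν : Measure (Fin N → Fin N → ℝ)),
    IsProbabilityMeasure ν → (∀ᵐ U ∂ν, U ∈ Rot.OK N) → ∀ (lab : Fin N → κ) (th : κ → ℝ),
    (∀ k, |th k| ≤ Λ) → ∀ (η t : ℝ), 0 ≤ t → t ≤ 1 → ∀ a : Fin p.nc → ℝ,
    FN n hA ν lab th η t a (fun _ => 0) ≤
      C1 - 1 / 2 * ∑ g : Fin p.nc, a g ^ 2 * (1 - ((g : ℝ) + 1) / ((p.nc : ℝ) + 1)) := by
  refine ⟨Λ / 2 + ∑ g : Fin p.nc, Real.log 2 / p.xi g + p.τ * Fintype.card (Stp p), ?_⟩
  intro N n hN A hA ν hνp hν lab th hth η t ht0 ht1 a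
  have hN' : (0:ℝ) < N := by exact_mod_cast hN
  have hN1 : (1:ℝ) ≤ N := by exact_mod_cast hN
  have hΛ : 0 ≤ Λ := (abs_nonneg _).trans (hth (lab ⟨0, hN⟩))
  have hτ : 0 ≤ p.τ * Fintype.card (Stp p) := mul_nonneg p.hτ0.le (Nat.cast_nonneg _)
  set B : ℝ := Λ / 2 * N + N * ∑ g : Fin p.nc, (Real.log 2 / p.xi g + p.xi g * a g ^ 2 / 2) +
        p.τ * Fintype.card (Stp p) with hB
  -- pointwise bound
  have hpt : ∀ U ∈ Rot.OK N, ∀ d : DD p N,
      G.Phi (SY.base p n A hA) (HF A n lab th η t a (fun _ => 0) U) d ≤ B := by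
    intro U hU d
    have e : HF A n lab th η t a (fun _ => 0) U =
        SY.HH (SY.h0q (fun i => th (lab i)) (Matrix.of U) t (fun _ => 0)) a (fun _ _ => 0)
          (SY.xU (Matrix.of U)) := by
      rw [SY.HH_eq_HS]
      funext s
      unfold HF lamF
      simp only [mul_zero]
    rw [e]
    refine Phi_coer p hb hA _ (C0 := Λ / 2 * N) (fun σ _ => ?_) a _ d
    unfold SY.h0q
    rw [add_zero]
    have h1 := Mag.abs_qd_le (eig := fun i => th (lab i)) (fun i => hth (lab i))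
      (U := Matrix.of U) hU σ
    have h2 := (abs_le.1 h1).2
    have h3 := (abs_le.1 h1).1
    have h4 : 0 ≤ Λ / 2 * N := by positivity
    calc t * Mag.qd (fun i => th (lab i)) (Matrix.of U) σ ≤ t * (Λ / 2 * N) :=
          mul_le_mul_of_nonneg_left h2 ht0
      _ ≤ 1 * (Λ / 2 * N) := mul_le_mul_of_nonneg_right ht1 h4
      _ = _ := one_mul _
  have hFP : FP n hA ν lab th η t a (fun _ => 0) ≤ B := by
    unfold FP EP Ed
    obtain ⟨c, _, hc⟩ := ae_bound hν
      (continuous_HF (A := A) (n := n) lab th η t a (fun _ => 0))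
    have h1 : ∀ d : DD p N, ∫ U, G.Phi (SY.base p n A hA)
        (HF A n lab th η t a (fun _ => 0) U) d ∂ν ≤ B := by
      intro d
      calc ∫ U, G.Phi (SY.base p n A hA) (HF A n lab th η t a (fun _ => 0) U) d ∂ν
          ≤ ∫ _U, B ∂ν := by
            refine integral_mono_ae (integrable_Phi (SY.base p n A hA) ν
              (fun s => (continuous_HF lab th η t a (fun _ => 0) s).measurable) hc d)
              (integrable_const _) ?_
            filter_upwards [hν] with U hU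
            exact hpt U hU d
        _ = B := by simp
    calc _ ≤ ∑ d, dw p N d * B :=
          Finset.sum_le_sum fun d _ => mul_le_mul_of_nonneg_left (h1 d) (dw_nonneg p N d)
      _ = B := by rw [← Finset.sum_mul, dw_sum p hN, one_mul]
  have hlog : Real.log ((1 / 2 : ℝ) ^ N * (A.card : ℝ)) ≤ 0 := by
    refine Real.log_nonpos (by positivity) ?_
    have h1 : (A.card : ℝ) ≤ 2 ^ N := by
      have := Finset.card_le_univ A
      rw [Fintype.card_fun, Fintype.card_bool, Fintype.card_fin] at this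
      exact_mod_cast this
    calc (1 / 2 : ℝ) ^ N * (A.card : ℝ) ≤ (1 / 2) ^ N * 2 ^ N :=
          mul_le_mul_of_nonneg_left h1 (by positivity)
      _ = 1 := by rw [← mul_pow]; norm_num
  unfold FN
  have h1 := mul_le_mul_of_nonneg_left hFP (by positivity : 0 ≤ (N:ℝ)⁻¹)
  have h2 := mul_le_mul_of_nonneg_left hlog (by positivity : 0 ≤ (N:ℝ)⁻¹)
  rw [mul_zero] at h2
  have h3 : (N:ℝ)⁻¹ * B ≤ Λ / 2 + ∑ g : Fin p.nc, (Real.log 2 / p.xi g + p.xi g * a g ^ 2 / 2) +
      p.τ * Fintype.card (Stp p) := by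
    rw [hB]
    have : (N:ℝ)⁻¹ * (Λ / 2 * N + N * ∑ g : Fin p.nc,
        (Real.log 2 / p.xi g + p.xi g * a g ^ 2 / 2) + p.τ * Fintype.card (Stp p)) =
        Λ / 2 + ∑ g : Fin p.nc, (Real.log 2 / p.xi g + p.xi g * a g ^ 2 / 2) +
        (N:ℝ)⁻¹ * (p.τ * Fintype.card (Stp p)) := by
      field_simp
    rw [this]
    have h5 : (N:ℝ)⁻¹ * (p.τ * Fintype.card (Stp p)) ≤ 1 * (p.τ * Fintype.card (Stp p)) :=
      mul_le_mul_of_nonneg_right (inv_le_one_of_one_le₀ hN1) hτ
    linarith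
  have h4 : ∑ g : Fin p.nc, (Real.log 2 / p.xi g + p.xi g * a g ^ 2 / 2) - 1 / 2 * ∑ g, a g ^ 2 =
      ∑ g : Fin p.nc, Real.log 2 / p.xi g -
        1 / 2 * ∑ g : Fin p.nc, a g ^ 2 * (1 - ((g : ℝ) + 1) / ((p.nc : ℝ) + 1)) := by
    rw [Finset.mul_sum, Finset.mul_sum, ← Finset.sum_sub_distrib, ← Finset.sum_sub_distrib]
    refine Finset.sum_congr rfl fun g _ => ?_
    unfold Par.xi
    ring
  linarith

/-- **(Z2)** in the form consumed by the assembly. -/
theorem hCoer (K : ℕ) (val : Fin (K + 1) → ℝ) : HCoer K val := by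
  intro p hb
  obtain ⟨C1, h⟩ := FN_coer (κ := Fin (K + 1)) p hb (∑ k, |val k|)
  refine ⟨C1, fun N hN n _ A hA ν hνp hν lab η t ht a => ?_⟩
  exact h N n hN A hA ν hνp hν lab val (fun k => Finset.single_le_sum
    (f := fun k => |val k|) (fun k _ => abs_nonneg _) (Finset.mem_univ k)) η t ht.1 ht.2 a

end

end Crest.Agent.R164.US
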