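import Mathlib
import Crest.Agent.R164.ConcSys4
import Crest.Agent.R141.SysA3

set_option autoImplicit false

/-!
Row 164, module (Conc): concentration of observables under the `(U, d, P)`-averaged law of
`Sys164` from one-sided increments of the mean free energy.
-/

namespace Crest.Agent.R164.CSys

open Finset MeasureTheory
open Crest.Agent.R141
open Crest.Agent.R164 SY
open Crest.Agent.Lib.OrthPoinc

noncomputable section

/-! ### pointwise inequality -/

section Pt

variable {Ω : Type*} [Fintype Ω] {P : Ω → ℝ} {𝓕 : Filt Ω} {x : ℕ → ℝ}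

theorem pos_part_le (hP : IsProb P) (hx : ∀ k, 0 < x k) (hF0 : 𝓕.F 0 = ⊤) {xm : ℝ}
    (hxm0 : 0 < xm) (hxm : ∀ l, xm ≤ x l) (V : Ω → ℝ) (c : ℝ) :
    eE P (fun w => |V w - c|) ≤
      2 * Real.log 2 / xm + 2 * max (eE P (R141.A P 𝓕 x V 0) - c) 0 - (eE P V - c) := by
  set a := eE P (R141.A P 𝓕 x V 0) with ha
  have h1 := ObsConc.eE_exp_le (𝓕 := 𝓕) hP hx hF0 hxm0 hxm V
  rw [← ha] at h1
  have hne : Nonempty Ω := by
    by_contra h
    rw [not_nonempty_iff] at h
    have := hP.sum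
    simp at this
  obtain ⟨ω⟩ := hne
  have h2 : Real.exp (xm * eE P (fun w => max (V w - c) 0)) ≤
      2 * Real.exp (xm * max (a - c) 0) := by
    have h3 := exp_cE_le hP (⊤ : Setoid Ω) (fun w => xm * max (V w - c) 0) ω
    rw [eE_top hP, eE_top hP, eE_smul] at h3
    refine h3.trans ?_
    have e : ∀ w, Real.exp (xm * max (V w - c) 0) ≤
        1 + Real.exp (-(xm * c)) * Real.exp (xm * V w) := by
      intro w
      rw [← Real.exp_add]
      rcases max_cases (V w - c) 0 with h | h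
      · rw [h.1]
        have : xm * (V w - c) = -(xm * c) + xm * V w := by ring
        rw [this]; linarith
      · rw [h.1, mul_zero, Real.exp_zero]
        linarith [Real.exp_pos (-(xm * c) + xm * V w)]
    refine (eE_mono hP e).trans ?_
    rw [eE_add, eE_const hP, eE_smul]
    have h4 : Real.exp (-(xm * c)) * eE P (fun w => Real.exp (xm * V w)) ≤
        Real.exp (xm * max (a - c) 0) := by
      refine (mul_le_mul_of_nonneg_left h1 (Real.exp_pos _).le).trans ?_
      rw [← Real.exp_add]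
      apply Real.exp_le_exp.mpr
      have : xm * (a - c) ≤ xm * max (a - c) 0 :=
        mul_le_mul_of_nonneg_left (le_max_left _ _) hxm0.le
      linarith
    have h5 : (1 : ℝ) ≤ Real.exp (xm * max (a - c) 0) :=
      Real.one_le_exp (mul_nonneg hxm0.le (le_max_right _ _))
    linarith
  have h6 : xm * eE P (fun w => max (V w - c) 0) ≤ Real.log 2 + xm * max (a - c) 0 := by
    have := Real.log_le_log (Real.exp_pos _) h2
    rwa [Real.log_exp, Real.log_mul (by norm_num) (Real.exp_pos _).ne', Real.log_exp] at this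
  have h7 : eE P (fun w => max (V w - c) 0) ≤ Real.log 2 / xm + max (a - c) 0 := by
    have h8 : eE P (fun w => max (V w - c) 0) ≤ (Real.log 2 + xm * max (a - c) 0) / xm := by
      rw [le_div_iff₀ hxm0]; linarith
    refine h8.trans (le_of_eq ?_)
    field_simp
  have h9 : (fun w => |V w - c|) = fun w => 2 * max (V w - c) 0 - (V w - c) := by
    funext w
    rcases max_cases (V w - c) 0 with h | h
    · rw [h.1, abs_of_nonneg h.2]; ring
    · rw [h.1, abs_of_neg h.2]; ring
  rw [h9, eE_sub, eE_smul, eE_sub, eE_const hP]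
  have e3 : 2 * Real.log 2 / xm = 2 * (Real.log 2 / xm) := by ring
  rw [e3]
  linarith

/-- pointwise inequality in the tilted law; `s` of any sign. -/
theorem obs_one (hP : IsProb P) (hx : ∀ k, 0 < x k) (hF0 : 𝓕.F 0 = ⊤) {xm : ℝ}
    (hxm0 : 0 < xm) (hxm : ∀ l, xm ≤ x l) (H O : Ω → ℝ) {s : ℝ} (f0 fs c : ℝ) :
    |s| * eE (tl P 𝓕 x H) (fun w => |O w - c|) ≤
      2 * Real.log 2 / xm + 2 * (|eE P (R141.A P 𝓕 x (fun w => H w + s * O w) 0) - fs| +
        |eE P (R141.A P 𝓕 x H 0) - f0|) + 2 * max (fs - f0 - s * c) 0 -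
        s * (eE (tl P 𝓕 x H) O - c) := by
  have hQ := tl_isProb (𝓕 := 𝓕) hP hx H
  have h := pos_part_le (𝓕 := 𝓕) hQ hx hF0 hxm0 hxm (fun w => s * O w) (s * c)
  have e1 : eE (tl P 𝓕 x H) (fun w => |s * O w - s * c|) =
      |s| * eE (tl P 𝓕 x H) (fun w => |O w - c|) := by
    rw [← eE_smul]
    congr 1; funext w
    rw [← mul_sub, abs_mul]
  rw [e1, ObsConc.gA_diff hP hx hF0, eE_smul] at h
  have e2 : ObsConc.gA P 𝓕 x H O s = eE P (R141.A P 𝓕 x (fun w => H w + s * O w) 0) := rfl
  rw [e2] at h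
  set as := eE P (R141.A P 𝓕 x (fun w => H w + s * O w) 0)
  set a0 := eE P (R141.A P 𝓕 x H 0)
  have h1 : max (as - a0 - s * c) 0 ≤ |as - fs| + |a0 - f0| + max (fs - f0 - s * c) 0 := by
    apply max_le
    · have := le_max_left (fs - f0 - s * c) 0
      have h2 := le_abs_self (as - fs)
      have h3 := neg_abs_le (a0 - f0)
      linarith
    · have := le_max_right (fs - f0 - s * c) 0
      have h2 := abs_nonneg (as - fs)
      have h3 := abs_nonneg (a0 - f0)
      linarith
  have e3 : s * eE (tl P 𝓕 x H) O - s * c = s * (eE (tl P 𝓕 x H) O - c) := by ring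
  linarith

end Pt

/-! ### the system -/

variable {p : Par} {N n : ℕ} {A : Finset (Fin N → Bool)} (hA : A.Nonempty)
  (eig : Fin N → ℝ) (t : ℝ) (ν : Measure (Mat N))

/-- mean free energy -/
def Fm (n : ℕ) (V : (Fin N → Bool) → ℝ) (a lam : Fin N → Fin p.nc → ℝ) : ℝ :=
  Ed p N (fun d => ∫ U, PhU hA eig t V a lam d n U ∂ν)

/-- mean of an observable -/
def mO (V : (Fin N → Bool) → ℝ) (a lam : Fin N → Fin p.nc → ℝ)
    (O : Mat N → SS p n A → ℝ) : ℝ :=
  Ed p N (fun d => ∫ U, eE (G.PP (base p n A hA) (HU eig t V a lam U) d)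
    (fun ω => O U ω.1) ∂ν)

theorem abs_PhU_sub_le (hnb : p.nb = 0) (V : (Fin N → Bool) → ℝ) (a lam : Fin N → Fin p.nc → ℝ)
    (d d' : DD p N) (U : Mat N) :
    |PhU hA eig t V a lam d n U - PhU hA eig t V a lam d' n U| ≤ p.nc * p.T * p.τ := by
  unfold PhU G.Phi
  rw [← eE_sub]
  have hP := G.prior_isProb (base p n A hA)
  have h1 : ∀ ω, |R141.A (G.prior (base p n A hA)) (G.fil (base p n A hA)) p.xs
      (G.UU (base p n A hA) (HU eig t V a lam U) d) 0 ω -
      R141.A (G.prior (base p n A hA)) (G.fil (base p n A hA)) p.xs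
      (G.UU (base p n A hA) (HU eig t V a lam U) d') 0 ω| ≤ p.nc * p.T * p.τ := by
    refine A_sub_abs_le hP p.xs_expo.pos (fun ω => ?_) 0
    have h2 := WW_bounds hA hnb d ω
    have h3 := WW_bounds hA hnb d' ω
    unfold G.UU
    rw [abs_le]
    constructor <;> linarith [h2.1, h2.2, h3.1, h3.2]
  refine (eE_abs_le hP _).trans ?_
  exact eE_le_of_le hP h1

theorem xs_ge (p : Par) (l : ℕ) : ((p.nc : ℝ) + 1)⁻¹ ≤ p.xs l := by
  unfold Par.xs
  apply le_min
  · apply inv_le_one_of_one_le₀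
    have : (0 : ℝ) ≤ p.nc := Nat.cast_nonneg _
    linarith
  · rw [← one_div]
    apply div_le_div_of_nonneg_right _ (by positivity)
    have : (0 : ℝ) ≤ (((l - 1) / (p.T + 1) : ℕ) : ℝ) := Nat.cast_nonneg _
    linarith

variable [IsProbabilityMeasure ν]

/-- `|x_d - Ed x| ≤ w` if all differences are at most `w` -/
theorem abs_sub_Ed_le (hN : 0 < N) {x : DD p N → ℝ} {w : ℝ} (h : ∀ d d', |x d - x d'| ≤ w)
    (d : DD p N) : |x d - Ed p N x| ≤ w := by
  have h1 : x d - Ed p N x = Ed p N (fun d' => x d - x d') := by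
    have h2 := Ed_sub p N (fun _ => x d) x
    rw [Ed_const p hN] at h2
    exact h2.symm
  rw [h1]
  exact abs_Ed_le p hN (fun d' => h d d')

theorem mean_dev (hnb : p.nb = 0) (hN : 2 < N) (V : (Fin N → Bool) → ℝ)
    (a lam : Fin N → Fin p.nc → ℝ) {Λ0 Λ Λa BV : ℝ} (hΛ0 : ∀ i, |eig i| ≤ Λ0)
    (ht : |t| ≤ 1) (hΛ : ∀ i g, |lam i g| ≤ Λ) (ha : ∀ i g, |a i g| ≤ Λa)
    (hV : ∀ σ, |V σ| ≤ BV * N) (hν : OInv ν) (d : DD p N) :
    ∫ U, |PhU hA eig t V a lam d n U - Fm hA eig t ν n V a lam| ∂ν ≤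
      Real.sqrt (CV p Λ0 Λ Λa BV * N) + p.nc * p.T * p.τ := by
  have h1 := dev_O (n := n) hA eig t V a lam d hnb hN hΛ0 ht hΛ ha hV hν
  set m := ∫ V', PhU hA eig t V a lam d n V' ∂ν with hm
  have hint := integrable_PhU (n := n) hA eig t V a lam d hν.mem
  have h2 : |m - Fm hA eig t ν n V a lam| ≤ p.nc * p.T * p.τ := by
    refine abs_sub_Ed_le (x := fun d => ∫ U, PhU hA eig t V a lam d n U ∂ν) (by omega)
      (fun d d' => ?_) d
    have hint1 := integrable_PhU (n := n) hA eig t V a lam d hν.mem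
    have hint2 := integrable_PhU (n := n) hA eig t V a lam d' hν.mem
    show |(∫ U, PhU hA eig t V a lam d n U ∂ν) - ∫ U, PhU hA eig t V a lam d' n U ∂ν| ≤ _
    rw [← integral_sub hint1 hint2]
    refine (abs_integral_le_integral_abs).trans ?_
    calc ∫ U, |PhU hA eig t V a lam d n U - PhU hA eig t V a lam d' n U| ∂ν ≤
        ∫ _U, (p.nc * p.T * p.τ : ℝ) ∂ν :=
          integral_mono (hint1.sub hint2).abs (integrable_const _)
            (fun U => abs_PhU_sub_le hA eig t hnb V a lam d d' U)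
      _ = _ := by rw [integral_const]; simp
  calc ∫ U, |PhU hA eig t V a lam d n U - Fm hA eig t ν n V a lam| ∂ν ≤
      ∫ U, (|PhU hA eig t V a lam d n U - m| + |m - Fm hA eig t ν n V a lam|) ∂ν :=
        integral_mono (hint.sub (integrable_const _)).abs
          ((hint.sub (integrable_const _)).abs.add (integrable_const _))
          (fun U => abs_sub_le _ _ _)
    _ = ∫ U, |PhU hA eig t V a lam d n U - m| ∂ν + |m - Fm hA eig t ν n V a lam| := by
        have j1 : Integrable (fun U => |PhU hA eig t V a lam d n U - m|) ν :=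
          (hint.sub (integrable_const _)).abs
        rw [integral_add j1 (integrable_const _), integral_const]
        simp
    _ ≤ _ := add_le_add h1 h2

variable {ν}

/-- integrability of means of bounded observables -/
theorem integrable_eE_PP (hν : ∀ᵐ U ∂ν, Matrix.of U ∈ Matrix.orthogonalGroup (Fin N) ℝ)
    (V : (Fin N → Bool) → ℝ) (a lam : Fin N → Fin p.nc → ℝ) (d : DD p N)
    {O : Mat N → SS p n A → ℝ} (hOm : ∀ s, Measurable fun U => O U s) {K : ℝ}
    (hOb : ∀ U, Matrix.of U ∈ Matrix.orthogonalGroup (Fin N) ℝ → ∀ s, |O U s| ≤ K) :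
    Integrable (fun U => eE (G.PP (base p n A hA) (HU eig t V a lam U) d)
      (fun ω => O U ω.1)) ν := by
  refine Integrable.mono' (integrable_const K) ?_ ?_
  · exact (G.meas_eE (fun ω => G.meas_PP (base p n A hA) (H := fun U => HU eig t V a lam U)
      (fun s => measurable_HU eig t V a lam s) d ω) (fun ω => hOm ω.1)).aestronglyMeasurable
  · filter_upwards [hν] with U hU
    rw [Real.norm_eq_abs]
    have hQ := G.PP_isProb (base p n A hA) (HU eig t V a lam U) d
    exact (eE_abs_le hQ _).trans (eE_le_of_le hQ (fun ω => hOb U hU ω.1))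

/-- **Concentration of a general observable.** If `HU' = HU + s O`, then the `(U,d,P)`-averaged
deviation of `O` from its mean is controlled by the one-sided increment of the mean free energy. -/
theorem conc_gen (hnb : p.nb = 0) (hN : 2 < N) (V V' : (Fin N → Bool) → ℝ)
    (a lam a' lam' : Fin N → Fin p.nc → ℝ) {Λ0 Λ Λa BV : ℝ} (hΛ0 : ∀ i, |eig i| ≤ Λ0)
    (ht : |t| ≤ 1) (hΛ : ∀ i g, |lam i g| ≤ Λ) (ha : ∀ i g, |a i g| ≤ Λa)
    (hV : ∀ σ, |V σ| ≤ BV * N) (hΛ' : ∀ i g, |lam' i g| ≤ Λ) (ha' : ∀ i g, |a' i g| ≤ Λa)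
    (hV' : ∀ σ, |V' σ| ≤ BV * N) (hν : OInv ν) {O : Mat N → SS p n A → ℝ}
    (hOm : ∀ s, Measurable fun U => O U s) {s : ℝ} (hs : s ≠ 0)
    (hO : ∀ U σ, HU eig t V' a' lam' U σ = HU eig t V a lam U σ + s * O U σ) :
    |s| * Ed p N (fun d => ∫ U, eE (G.PP (base p n A hA) (HU eig t V a lam U) d)
        (fun ω => |O U ω.1 - mO hA eig t ν V a lam O|) ∂ν) ≤
      2 * Real.log 2 * (p.nc + 1) + 4 * (Real.sqrt (CV p Λ0 Λ Λa BV * N) + p.nc * p.T * p.τ) +
      2 * max (Fm hA eig t ν n V' a' lam' - Fm hA eig t ν n V a lam -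
        s * mO hA eig t ν V a lam O) 0 := by
  set c := mO hA eig t ν V a lam O with hc
  set fs := Fm hA eig t ν n V' a' lam' with hfs
  set f0 := Fm hA eig t ν n V a lam with hf0
  have hF0 : (G.fil (base p n A hA)).F 0 = ⊤ := SY.fil_zero hA
  have hN0 : 0 < N := by omega
  -- boundedness of the observable
  obtain ⟨KT, hKT⟩ : ∃ KT : ℝ, ∀ σ : SS p n A, Ts σ ≤ KT := by
    obtain ⟨KT, hKT⟩ := (Set.finite_range (fun σ : SS p n A => Ts σ)).bddAbove
    exact ⟨KT, fun σ => hKT ⟨σ, rfl⟩⟩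
  set B := (Λ0 / 2 + BV + 2 * p.nc * Λa ^ 2 + 2 * p.nc * Λ ^ 2) * N with hB
  have hOb : ∀ U, Matrix.of U ∈ Matrix.orthogonalGroup (Fin N) ℝ → ∀ σ,
      |O U σ| ≤ (2 * B + 1 / 4 * KT) / |s| := by
    intro U hU σ
    have h1 := abs_HU_le eig t V a lam hΛ0 ht hΛ ha hV hU σ
    have h2 := abs_HU_le eig t V' a' lam' hΛ0 ht hΛ' ha' hV' hU σ
    have h3 := hO U σ
    have h4 := hKT σ
    rw [le_div_iff₀ (abs_pos.mpr hs), ← abs_mul, mul_comm]
    have h5 : s * O U σ = HU eig t V' a' lam' U σ - HU eig t V a lam U σ := by rw [h3]; ring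
    rw [h5]
    refine (abs_sub _ _).trans ?_
    linarith
  have hOb' : ∀ U, Matrix.of U ∈ Matrix.orthogonalGroup (Fin N) ℝ → ∀ σ,
      |(|O U σ - c|)| ≤ (2 * B + 1 / 4 * KT) / |s| + |c| := by
    intro U hU σ
    rw [abs_abs]
    exact (abs_sub _ _).trans (by linarith [hOb U hU σ])
  have hint1 : ∀ d, Integrable (fun U => eE (G.PP (base p n A hA) (HU eig t V a lam U) d)
      (fun ω => O U ω.1)) ν := fun d =>
    integrable_eE_PP hA eig t hν.mem V a lam d hOm hOb
  have hint2 : ∀ d, Integrable (fun U => eE (G.PP (base p n A hA) (HU eig t V a lam U) d)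
      (fun ω => |O U ω.1 - c|)) ν := fun d =>
    integrable_eE_PP hA eig t hν.mem V a lam d (O := fun U σ => |O U σ - c|)
      (fun σ => ((hOm σ).sub_const c).abs) hOb'
  have hintP := fun d => integrable_PhU (n := n) hA eig t V a lam d hν.mem
  have hintP' := fun d => integrable_PhU (n := n) hA eig t V' a' lam' d hν.mem
  -- pointwise
  have hpt : ∀ d U, |s| * eE (G.PP (base p n A hA) (HU eig t V a lam U) d)
        (fun ω => |O U ω.1 - c|) ≤
      (2 * Real.log 2 * (p.nc + 1) + 2 * max (fs - f0 - s * c) 0) +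
        2 * (|PhU hA eig t V' a' lam' d n U - fs| + |PhU hA eig t V a lam d n U - f0|) -
        s * (eE (G.PP (base p n A hA) (HU eig t V a lam U) d) (fun ω => O U ω.1) - c) := by
    intro d U
    have h1 := obs_one (𝓕 := G.fil (base p n A hA)) (G.prior_isProb (base p n A hA))
      p.xs_expo.pos hF0 (xm := ((p.nc : ℝ) + 1)⁻¹) (by positivity) (xs_ge p)
      (G.UU (base p n A hA) (HU eig t V a lam U) d) (fun ω => O U ω.1) (s := s) f0 fs c
    have e1 : (fun w => G.UU (base p n A hA) (HU eig t V a lam U) d w + s * O U w.1) =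
        G.UU (base p n A hA) (HU eig t V' a' lam' U) d := by
      funext w
      show HU eig t V a lam U w.1 + G.WW (base p n A hA) d w + s * O U w.1 =
        HU eig t V' a' lam' U w.1 + G.WW (base p n A hA) d w
      have := hO U w.1
      linarith
    rw [e1] at h1
    have e2 : tl (G.prior (base p n A hA)) (G.fil (base p n A hA)) p.xs
      (G.UU (base p n A hA) (HU eig t V a lam U) d) =
      G.PP (base p n A hA) (HU eig t V a lam U) d := rfl
    rw [e2] at h1
    have e3 : 2 * Real.log 2 / ((p.nc : ℝ) + 1)⁻¹ = 2 * Real.log 2 * (p.nc + 1) := by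
      rw [div_inv_eq_mul]
    rw [e3] at h1
    unfold PhU G.Phi
    linarith
  -- integrate over `U`
  have hU : ∀ d, |s| * ∫ U, eE (G.PP (base p n A hA) (HU eig t V a lam U) d)
        (fun ω => |O U ω.1 - c|) ∂ν ≤
      (2 * Real.log 2 * (p.nc + 1) + 2 * max (fs - f0 - s * c) 0) +
        4 * (Real.sqrt (CV p Λ0 Λ Λa BV * N) + p.nc * p.T * p.τ) -
        s * (∫ U, eE (G.PP (base p n A hA) (HU eig t V a lam U) d) (fun ω => O U ω.1) ∂ν - c) := by
    intro d
    have j4 : Integrable (fun U => |PhU hA eig t V' a' lam' d n U - fs|) ν :=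
      ((hintP' d).sub (integrable_const fs)).abs
    have j5 : Integrable (fun U => |PhU hA eig t V a lam d n U - f0|) ν :=
      ((hintP d).sub (integrable_const f0)).abs
    have j1 : Integrable (fun U => 2 * (|PhU hA eig t V' a' lam' d n U - fs| +
        |PhU hA eig t V a lam d n U - f0|)) ν := (j4.add j5).const_mul 2
    have j2 : Integrable (fun U => s * (eE (G.PP (base p n A hA) (HU eig t V a lam U) d)
        (fun ω => O U ω.1) - c)) ν := ((hint1 d).sub (integrable_const c)).const_mul s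
    have j3 : Integrable (fun U => (2 * Real.log 2 * (p.nc + 1) + 2 * max (fs - f0 - s * c) 0) +
      2 * (|PhU hA eig t V' a' lam' d n U - fs| + |PhU hA eig t V a lam d n U - f0|)) ν :=
      (integrable_const _).add j1
    have j6 : Integrable (fun U => |s| * eE (G.PP (base p n A hA) (HU eig t V a lam U) d)
        (fun ω => |O U ω.1 - c|)) ν := (hint2 d).const_mul |s|
    have h1 : ∫ U, |s| * eE (G.PP (base p n A hA) (HU eig t V a lam U) d)
        (fun ω => |O U ω.1 - c|) ∂ν ≤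
        ∫ U, ((2 * Real.log 2 * (p.nc + 1) + 2 * max (fs - f0 - s * c) 0) +
        2 * (|PhU hA eig t V' a' lam' d n U - fs| + |PhU hA eig t V a lam d n U - f0|) -
        s * (eE (G.PP (base p n A hA) (HU eig t V a lam U) d) (fun ω => O U ω.1) - c)) ∂ν :=
      integral_mono j6 (j3.sub j2) (hpt d)
    have e : ∫ U, ((2 * Real.log 2 * (p.nc + 1) + 2 * max (fs - f0 - s * c) 0) +
        2 * (|PhU hA eig t V' a' lam' d n U - fs| + |PhU hA eig t V a lam d n U - f0|) -
        s * (eE (G.PP (base p n A hA) (HU eig t V a lam U) d) (fun ω => O U ω.1) - c)) ∂ν =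
        (2 * Real.log 2 * (p.nc + 1) + 2 * max (fs - f0 - s * c) 0) +
        2 * (∫ U, |PhU hA eig t V' a' lam' d n U - fs| ∂ν +
          ∫ U, |PhU hA eig t V a lam d n U - f0| ∂ν) -
        s * (∫ U, eE (G.PP (base p n A hA) (HU eig t V a lam U) d) (fun ω => O U ω.1) ∂ν - c) := by
      rw [integral_sub j3 j2, integral_add (integrable_const _) j1, integral_const_mul,
        integral_const_mul, integral_sub (hint1 d) (integrable_const c),
        integral_add j4 j5, integral_const, integral_const]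
      simp
    rw [integral_const_mul, e] at h1
    have h2 := mean_dev (n := n) hA eig t ν hnb hN V a lam hΛ0 ht hΛ ha hV hν d
    have h3 := mean_dev (n := n) hA eig t ν hnb hN V' a' lam' hΛ0 ht hΛ' ha' hV' hν d
    rw [← hf0] at h2
    rw [← hfs] at h3
    linarith
  -- average over `d`
  have hd := Ed_mono p N hU
  rw [Ed_smul] at hd
  refine hd.trans (le_of_eq ?_)
  have e1 : Ed p N (fun d => (2 * Real.log 2 * (p.nc + 1) + 2 * max (fs - f0 - s * c) 0) +
        4 * (Real.sqrt (CV p Λ0 Λ Λa BV * N) + p.nc * p.T * p.τ) -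
        s * (∫ U, eE (G.PP (base p n A hA) (HU eig t V a lam U) d) (fun ω => O U ω.1) ∂ν - c)) =
      ((2 * Real.log 2 * (p.nc + 1) + 2 * max (fs - f0 - s * c) 0) +
        4 * (Real.sqrt (CV p Λ0 Λ Λa BV * N) + p.nc * p.T * p.τ)) - s * (c - c) := by
    rw [Ed_sub p N, Ed_const p hN0, Ed_smul, Ed_sub p N, Ed_const p hN0]
    rfl
  rw [e1]
  ring

end

end Crest.Agent.R164.CSys
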