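import Crest.Agent.R164.USys

/-!
Row 164, upper bound assembly (helper466): the function `FN` of the contact argument on the finite
system of `Sys164`, its continuity and its partial derivatives.
-/

set_option autoImplicit false
set_option linter.unusedSectionVars false

namespace Crest.Agent.R164.US

open Finset MeasureTheory Crest.Agent.R141 Crest.Agent.R164
open Crest.ProbabilityR.InvariantGlass

noncomputable section

variable {p : Par} {N n : ℕ} {A : Finset (Fin N → Bool)}
variable {κ : Type} [Fintype κ] [DecidableEq κ]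

/-- strengths of the small fields -/
def lamF (lab : Fin N → κ) (η : ℝ) (l : κ × Fin p.nc → ℝ) (i : Fin N) (g : Fin p.nc) : ℝ :=
  Real.sqrt η * l (lab i, g)

/-- the Hamiltonian -/
def HF (A : Finset (Fin N → Bool)) (n : ℕ) (lab : Fin N → κ) (th : κ → ℝ) (η : ℝ) (t : ℝ)
    (a : Fin p.nc → ℝ) (l : κ × Fin p.nc → ℝ) (U : Fin N → Fin N → ℝ) (s : SY.SS p n A) : ℝ :=
  SY.HS (SY.h0q (fun i => th (lab i)) (Matrix.of U) t (fun _ => 0)) (fun _ => a) (lamF lab η l)
    (SY.xU (Matrix.of U)) s

/-- direction of `t` -/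
def Vt (A : Finset (Fin N → Bool)) (n : ℕ) (p : Par) (lab : Fin N → κ) (th : κ → ℝ)
    (U : Fin N → Fin N → ℝ) (s : SY.SS p n A) : ℝ :=
  Mag.qd (fun i => th (lab i)) (Matrix.of U) s.1.1

/-- direction of `a g` -/
def Va (A : Finset (Fin N → Bool)) (n : ℕ) (g : Fin p.nc) (s : SY.SS p n A) : ℝ :=
  ∑ i, SY.zf s.2.1 g i * sv (s.1.1 i)

/-- direction of `l (k, g)` -/
def Vl (A : Finset (Fin N → Bool)) (n : ℕ) (lab : Fin N → κ) (η : ℝ) (j : κ × Fin p.nc)
    (U : Fin N → Fin N → ℝ) (s : SY.SS p n A) : ℝ :=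
  Real.sqrt η * ∑ i, if lab i = j.1 then SY.zf s.2.2 j.2 i * SY.xU (Matrix.of U) s.1.1 i else 0

theorem HF_eq (lab : Fin N → κ) (th : κ → ℝ) (η t : ℝ) (a : Fin p.nc → ℝ)
    (l : κ × Fin p.nc → ℝ) (U : Fin N → Fin N → ℝ) (s : SY.SS p n A) :
    HF A n lab th η t a l U s = t * Vt A n p lab th U s + ∑ g, a g * Va A n g s +
      ∑ j, l j * Vl A n lab η j U s := by
  unfold HF SY.HS SY.h0q Vt Va Vl lamF
  rw [add_zero]
  congr 1
  · congr 1
    simp only [Finset.mul_sum]
  rw [Fintype.sum_prod_type_right]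
  refine Finset.sum_congr rfl fun g _ => ?_
  have e : ∀ k : κ, l (k, g) * (Real.sqrt η * ∑ i, if lab i = k then
      SY.zf s.2.2 g i * SY.xU (Matrix.of U) s.1.1 i else 0) =
      ∑ i, if lab i = k then Real.sqrt η * l (k, g) * (SY.zf s.2.2 g i *
        SY.xU (Matrix.of U) s.1.1 i) else 0 := by
    intro k
    rw [← mul_assoc, mul_comm (l (k, g)), Finset.mul_sum]
    refine Finset.sum_congr rfl fun i _ => ?_
    split_ifs <;> simp
  simp only [e]
  rw [Finset.sum_comm]
  refine Finset.sum_congr rfl fun i _ => ?_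
  rw [Finset.sum_ite_eq]
  simp

theorem continuous_xU (σ : Fin N → Bool) (i : Fin N) :
    Continuous fun U : Fin N → Fin N → ℝ => SY.xU (Matrix.of U) σ i := by
  unfold SY.xU Matrix.mulVec dotProduct
  simp only [Matrix.of_apply]
  fun_prop

theorem continuous_Vt (lab : Fin N → κ) (th : κ → ℝ) (s : SY.SS p n A) :
    Continuous fun U => Vt A n p lab th U s := by
  unfold Vt Mag.qd
  refine Continuous.mul continuous_const (continuous_finsetSum _ fun i _ => ?_)
  exact continuous_const.mul ((continuous_xU s.1.1 i).pow 2)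

theorem continuous_Vl (lab : Fin N → κ) (η : ℝ) (j : κ × Fin p.nc) (s : SY.SS p n A) :
    Continuous fun U => Vl A n lab η j U s := by
  unfold Vl
  refine Continuous.mul continuous_const (continuous_finsetSum _ fun i _ => ?_)
  split_ifs
  · exact continuous_const.mul (continuous_xU s.1.1 i)
  · exact continuous_const

theorem continuous_HF (lab : Fin N → κ) (th : κ → ℝ) (η t : ℝ) (a : Fin p.nc → ℝ)
    (l : κ × Fin p.nc → ℝ) (s : SY.SS p n A) : Continuous fun U => HF A n lab th η t a l U s := by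
  simp only [HF_eq]
  exact ((continuous_const.mul (continuous_Vt lab th s)).add continuous_const).add
    (continuous_finsetSum _ fun j _ => continuous_const.mul (continuous_Vl lab η j s))

section measure

variable (hA : A.Nonempty) {ν : Measure (Fin N → Fin N → ℝ)} [IsProbabilityMeasure ν]
variable (hν : ∀ᵐ U ∂ν, U ∈ Rot.OK N)

include hν in
theorem ae_bound {f : (Fin N → Fin N → ℝ) → SY.SS p n A → ℝ}
    (hf : ∀ s, Continuous fun U => f U s) : ∃ c, 0 ≤ c ∧ ∀ᵐ U ∂ν, ∀ s, |f U s| ≤ c := by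
  obtain ⟨c, hc0, hc⟩ := Rot.exists_bound f hf
  refine ⟨c, hc0, ?_⟩
  filter_upwards [hν] with U hU s
  exact hc U hU s

theorem comp_shift {f : ℝ → ℝ} {f' x : ℝ} (h : HasDerivAt f f' 0) :
    HasDerivAt (fun y => f (y - x)) f' x := by
  have h2 : HasDerivAt f f' (x - x) := by rwa [sub_self]
  exact h2.comp_sub_const x x

/-- the averaged free energy of the contact argument, without normalisation -/
def FP (n : ℕ) (hA : A.Nonempty) (ν : Measure (Fin N → Fin N → ℝ)) (lab : Fin N → κ)
    (th : κ → ℝ) (η : ℝ) (t : ℝ) (a : Fin p.nc → ℝ) (l : κ × Fin p.nc → ℝ) : ℝ :=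
  EP (SY.base p n A hA) ν (HF A n lab th η t a l)

/-- the averaged observable -/
def Eo (n : ℕ) (hA : A.Nonempty) (ν : Measure (Fin N → Fin N → ℝ)) (lab : Fin N → κ)
    (th : κ → ℝ) (η : ℝ) (t : ℝ) (a : Fin p.nc → ℝ) (l : κ × Fin p.nc → ℝ)
    (V : (Fin N → Fin N → ℝ) → SY.SS p n A → ℝ) : ℝ :=
  Ed p N (fun d => ∫ U, eE (G.PP (SY.base p n A hA) (HF A n lab th η t a l U) d)
    (fun ω => V U ω.1) ∂ν)

include hν in
theorem hasDerivAt_line (lab : Fin N → κ) (th : κ → ℝ) (η t : ℝ) (a : Fin p.nc → ℝ)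
    (l : κ × Fin p.nc → ℝ) {V : (Fin N → Fin N → ℝ) → SY.SS p n A → ℝ}
    (hV : ∀ s, Continuous fun U => V U s) :
    HasDerivAt (fun y : ℝ => EP (SY.base p n A hA) ν
      (fun U s => HF A n lab th η t a l U s + y * V U s))
      (Eo n hA ν lab th η t a l V) 0 := by
  obtain ⟨c1, _, h1⟩ := ae_bound hν (continuous_HF (A := A) (n := n) lab th η t a l)
  obtain ⟨c2, _, h2⟩ := ae_bound hν hV
  have h := hasDerivAt_EP (SY.base p n A hA) ν (SY.base_SF_zero hA)
    (H := HF A n lab th η t a l) (V := V)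
    (fun s => (continuous_HF lab th η t a l s).measurable) (fun s => (hV s).measurable)
    h1 h2 0
  refine h.congr_deriv ?_
  unfold Eo
  simp only [zero_mul, add_zero]

include hν in
/-- derivative in `t` -/
theorem hasDerivAt_FP_t (lab : Fin N → κ) (th : κ → ℝ) (η t : ℝ) (a : Fin p.nc → ℝ)
    (l : κ × Fin p.nc → ℝ) :
    HasDerivAt (fun t => FP n hA ν lab th η t a l)
      (Eo n hA ν lab th η t a l (Vt A n p lab th)) t := by
  have h := hasDerivAt_line hA hν lab th η t a l (continuous_Vt (A := A) (n := n) (p := p) lab th)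
  have e : (fun t' => FP n hA ν lab th η t' a l) = fun t' => EP (SY.base p n A hA) ν
      (fun U s => HF A n lab th η t a l U s + (t' - t) * Vt A n p lab th U s) := by
    funext t'
    unfold FP
    congr 1
    funext U s
    rw [HF_eq, HF_eq]
    ring
  rw [e]
  exact comp_shift h

include hν in
/-- derivative in `a g` -/
theorem hasDerivAt_FP_a (lab : Fin N → κ) (th : κ → ℝ) (η t : ℝ) (a : Fin p.nc → ℝ)
    (l : κ × Fin p.nc → ℝ) (g : Fin p.nc) :
    HasDerivAt (fun y => FP n hA ν lab th η t (Function.update a g y) l)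
      (Eo n hA ν lab th η t a l (fun _ => Va A n g)) (a g) := by
  have h := hasDerivAt_line hA hν lab th η t a l (V := fun _ => Va A n g)
    (fun s => continuous_const)
  have e : (fun y => FP n hA ν lab th η t (Function.update a g y) l) =
      fun y => EP (SY.base p n A hA) ν
      (fun U s => HF A n lab th η t a l U s + (y - a g) * Va A n g s) := by
    funext y
    unfold FP
    congr 1
    funext U s
    rw [HF_eq, HF_eq]
    have : ∑ g', Function.update a g y g' * Va A n g' s =
        ∑ g', a g' * Va A n g' s + (y - a g) * Va A n g s := by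
      rw [← Finset.add_sum_erase univ (fun g' => Function.update a g y g' * Va A n g' s)
        (mem_univ g), ← Finset.add_sum_erase univ (fun g' => a g' * Va A n g' s) (mem_univ g)]
      have h1 : ∑ j ∈ univ.erase g, Function.update a g y j * Va A n j s =
          ∑ j ∈ univ.erase g, a j * Va A n j s :=
        Finset.sum_congr rfl fun j hj => by rw [Function.update_of_ne (Finset.ne_of_mem_erase hj)]
      rw [h1, Function.update_self]
      ring
    rw [this]
    ring
  rw [e]
  exact comp_shift h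

include hν in
/-- derivative in `l j` -/
theorem hasDerivAt_FP_l (lab : Fin N → κ) (th : κ → ℝ) (η t : ℝ) (a : Fin p.nc → ℝ)
    (l : κ × Fin p.nc → ℝ) (j : κ × Fin p.nc) :
    HasDerivAt (fun y => FP n hA ν lab th η t a (Function.update l j y))
      (Eo n hA ν lab th η t a l (Vl A n lab η j)) (l j) := by
  have h := hasDerivAt_line hA hν lab th η t a l (V := Vl A n lab η j)
    (continuous_Vl lab η j)
  have e : (fun y => FP n hA ν lab th η t a (Function.update l j y)) =
      fun y => EP (SY.base p n A hA) ν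
      (fun U s => HF A n lab th η t a l U s + (y - l j) * Vl A n lab η j U s) := by
    funext y
    unfold FP
    congr 1
    funext U s
    rw [HF_eq, HF_eq]
    have : ∑ j', Function.update l j y j' * Vl A n lab η j' U s =
        ∑ j', l j' * Vl A n lab η j' U s + (y - l j) * Vl A n lab η j U s := by
      rw [← Finset.add_sum_erase univ (fun j' => Function.update l j y j' * Vl A n lab η j' U s)
        (mem_univ j), ← Finset.add_sum_erase univ (fun j' => l j' * Vl A n lab η j' U s)
        (mem_univ j)]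
      have h1 : ∑ j' ∈ univ.erase j, Function.update l j y j' * Vl A n lab η j' U s =
          ∑ j' ∈ univ.erase j, l j' * Vl A n lab η j' U s :=
        Finset.sum_congr rfl fun j' hj => by rw [Function.update_of_ne (Finset.ne_of_mem_erase hj)]
      rw [h1, Function.update_self]
      ring
    rw [this]
    ring
  rw [e]
  exact comp_shift h

include hν in
/-- joint continuity -/
theorem continuous_FP (hN : 0 < N) (lab : Fin N → κ) (th : κ → ℝ) (η : ℝ) :
    Continuous fun q : ℝ × (Fin p.nc → ℝ) × (κ × Fin p.nc → ℝ) =>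
      FP n hA ν lab th η q.1 q.2.1 q.2.2 := by
  obtain ⟨ct, _, ht⟩ := ae_bound hν (continuous_Vt (A := A) (n := n) (p := p) lab th)
  have ha : ∀ g, ∃ c, 0 ≤ c ∧ ∀ᵐ U ∂ν, ∀ s : SY.SS p n A, |Va A n g s| ≤ c := fun g =>
    ae_bound hν (f := fun _ => Va A n g) (fun s => continuous_const)
  have hl : ∀ j, ∃ c, 0 ≤ c ∧ ∀ᵐ U ∂ν, ∀ s : SY.SS p n A, |Vl A n lab η j U s| ≤ c := fun j =>
    ae_bound hν (continuous_Vl lab η j)
  choose ca _ ha using ha
  choose cl _ hl using hl
  rw [continuous_iff_continuousAt]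
  intro q0
  unfold ContinuousAt
  rw [tendsto_iff_norm_sub_tendsto_zero]
  let b : ℝ × (Fin p.nc → ℝ) × (κ × Fin p.nc → ℝ) → ℝ := fun q =>
    |q.1 - q0.1| * ct + ∑ g, |q.2.1 g - q0.2.1 g| * ca g + ∑ j, |q.2.2 j - q0.2.2 j| * cl j
  have hb : Filter.Tendsto b (nhds q0) (nhds 0) := by
    have h1 : Continuous b := by fun_prop
    have h2 := h1.tendsto q0
    have h3 : b q0 = 0 := by simp [b]
    rwa [h3] at h2
  refine squeeze_zero (fun _ => norm_nonneg _) (fun q => ?_) hb
  rw [Real.norm_eq_abs]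
  obtain ⟨c1, _, h1⟩ := ae_bound hν (continuous_HF (A := A) (n := n) lab th η q.1 q.2.1 q.2.2)
  obtain ⟨c2, _, h2⟩ := ae_bound hν (continuous_HF (A := A) (n := n) lab th η q0.1 q0.2.1 q0.2.2)
  refine abs_EP_sub_le (SY.base p n A hA) ν hN
    (fun s => (continuous_HF lab th η _ _ _ s).measurable)
    (fun s => (continuous_HF lab th η _ _ _ s).measurable) h1 h2 ?_
  filter_upwards [ht, ae_all_iff.2 ha, ae_all_iff.2 hl] with U h3 h4 h5 s
  change SY.SS p n A at s
  rw [HF_eq, HF_eq]
  have e : q.1 * Vt A n p lab th U s + ∑ g, q.2.1 g * Va A n g s +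
      ∑ j, q.2.2 j * Vl A n lab η j U s - (q0.1 * Vt A n p lab th U s +
      ∑ g, q0.2.1 g * Va A n g s + ∑ j, q0.2.2 j * Vl A n lab η j U s) =
      (q.1 - q0.1) * Vt A n p lab th U s + ∑ g, (q.2.1 g - q0.2.1 g) * Va A n g s +
      ∑ j, (q.2.2 j - q0.2.2 j) * Vl A n lab η j U s := by
    simp only [sub_mul, Finset.sum_sub_distrib]
    ring
  rw [e]
  refine (abs_add_le _ _).trans (add_le_add ((abs_add_le _ _).trans (add_le_add ?_ ?_)) ?_)
  · rw [abs_mul]; exact mul_le_mul_of_nonneg_left (h3 s) (abs_nonneg _)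
  · refine (Finset.abs_sum_le_sum_abs _ _).trans (Finset.sum_le_sum fun g _ => ?_)
    rw [abs_mul]; exact mul_le_mul_of_nonneg_left (h4 g s) (abs_nonneg _)
  · refine (Finset.abs_sum_le_sum_abs _ _).trans (Finset.sum_le_sum fun j _ => ?_)
    rw [abs_mul]; exact mul_le_mul_of_nonneg_left (h5 j s) (abs_nonneg _)

/-- the normalised function of the contact argument -/
def FN (n : ℕ) (hA : A.Nonempty) (ν : Measure (Fin N → Fin N → ℝ)) (lab : Fin N → κ)
    (th : κ → ℝ) (η : ℝ) (t : ℝ) (a : Fin p.nc → ℝ) (l : κ × Fin p.nc → ℝ) : ℝ :=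
  (N : ℝ)⁻¹ * FP n hA ν lab th η t a l + (N : ℝ)⁻¹ * Real.log ((1 / 2) ^ N * (A.card : ℝ)) -
    1 / 2 * ∑ g, a g ^ 2

include hν in
theorem continuous_FN (hN : 0 < N) (lab : Fin N → κ) (th : κ → ℝ) (η : ℝ) :
    Continuous fun q : ℝ × (Fin p.nc → ℝ) × (κ × Fin p.nc → ℝ) =>
      FN n hA ν lab th η q.1 q.2.1 q.2.2 := by
  unfold FN
  exact ((continuous_const.mul (continuous_FP hA hν hN lab th η)).add continuous_const).sub
    (by fun_prop)

include hν in
theorem hasDerivAt_FN_t (lab : Fin N → κ) (th : κ → ℝ) (η t : ℝ) (a : Fin p.nc → ℝ)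
    (l : κ × Fin p.nc → ℝ) :
    HasDerivAt (fun t => FN n hA ν lab th η t a l)
      ((N : ℝ)⁻¹ * Eo n hA ν lab th η t a l (Vt A n p lab th)) t := by
  unfold FN
  exact (((hasDerivAt_FP_t hA hν lab th η t a l).const_mul _).add_const _).sub_const _

include hν in
theorem hasDerivAt_FN_a (lab : Fin N → κ) (th : κ → ℝ) (η t : ℝ) (a : Fin p.nc → ℝ)
    (l : κ × Fin p.nc → ℝ) (g : Fin p.nc) :
    HasDerivAt (fun y => FN n hA ν lab th η t (Function.update a g y) l)
      ((N : ℝ)⁻¹ * Eo n hA ν lab th η t a l (fun _ => Va A n g) - a g) (a g) := by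
  unfold FN
  refine (((hasDerivAt_FP_a hA hν lab th η t a l g).const_mul _).add_const _).sub ?_
  have e : (fun y : ℝ => 1 / 2 * ∑ g', Function.update a g y g' ^ 2) =
      fun y => 1 / 2 * (y ^ 2 + ∑ j ∈ univ.erase g, a j ^ 2) := by
    funext y
    rw [← Finset.add_sum_erase univ (fun g' => Function.update a g y g' ^ 2) (mem_univ g)]
    congr 2
    · simp
    · exact Finset.sum_congr rfl fun j hj => by rw [Function.update_of_ne (Finset.ne_of_mem_erase hj)]
  rw [e]
  have h := (((hasDerivAt_pow 2 (a g)).add_const (∑ j ∈ univ.erase g, a j ^ 2)).const_mul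
    (1 / 2 : ℝ))
  refine h.congr_deriv ?_
  push_cast
  ring

include hν in
theorem hasDerivAt_FN_l (lab : Fin N → κ) (th : κ → ℝ) (η t : ℝ) (a : Fin p.nc → ℝ)
    (l : κ × Fin p.nc → ℝ) (j : κ × Fin p.nc) :
    HasDerivAt (fun y => FN n hA ν lab th η t a (Function.update l j y))
      ((N : ℝ)⁻¹ * Eo n hA ν lab th η t a l (Vl A n lab η j)) (l j) := by
  unfold FN
  exact (((hasDerivAt_FP_l hA hν lab th η t a l j).const_mul _).add_const _).sub_const _

end measure

end

end Crest.Agent.R164.US
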