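import Mathlib
import Crest.Agent.R164.UConc
import Crest.Agent.R164.USys2

set_option autoImplicit false

/-!
Row 164, module (Conc): slope inequality, second-difference form and the final form for the
upper-bound assembly (`US.FN`).
-/

namespace Crest.Agent.R164.CSys

open Finset MeasureTheory
open Crest.Agent.R141
open Crest.Agent.R164 SY
open Crest.Agent.Lib.OrthPoinc

noncomputable section

variable {p : Par} {N n : ℕ} {A : Finset (Fin N → Bool)} (hA : A.Nonempty)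
  (eig : Fin N → ℝ) (t : ℝ) {ν : Measure (Mat N)} [IsProbabilityMeasure ν]

/-- an observable which is a difference of Hamiltonians is bounded on orthogonal matrices -/
theorem obs_bounded (V V' : (Fin N → Bool) → ℝ)
    (a lam a' lam' : Fin N → Fin p.nc → ℝ) {Λ0 Λ Λa BV : ℝ} (hΛ0 : ∀ i, |eig i| ≤ Λ0)
    (ht : |t| ≤ 1) (hΛ : ∀ i g, |lam i g| ≤ Λ) (ha : ∀ i g, |a i g| ≤ Λa)
    (hV : ∀ σ, |V σ| ≤ BV * N) (hΛ' : ∀ i g, |lam' i g| ≤ Λ) (ha' : ∀ i g, |a' i g| ≤ Λa)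
    (hV' : ∀ σ, |V' σ| ≤ BV * N) {O : Mat N → SS p n A → ℝ} {s : ℝ} (hs : s ≠ 0)
    (hO : ∀ U σ, HU eig t V' a' lam' U σ = HU eig t V a lam U σ + s * O U σ) :
    ∃ K, ∀ U, Matrix.of U ∈ Matrix.orthogonalGroup (Fin N) ℝ → ∀ σ, |O U σ| ≤ K := by
  obtain ⟨KT, hKT⟩ : ∃ KT : ℝ, ∀ σ : SS p n A, Ts σ ≤ KT := by
    obtain ⟨KT, hKT⟩ := (Set.finite_range (fun σ : SS p n A => Ts σ)).bddAbove
    exact ⟨KT, fun σ => hKT ⟨σ, rfl⟩⟩
  set B := (Λ0 / 2 + BV + 2 * p.nc * Λa ^ 2 + 2 * p.nc * Λ ^ 2) * N with hB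
  refine ⟨(2 * B + 1 / 4 * KT) / |s|, fun U hU σ => ?_⟩
  have h1 := abs_HU_le eig t V a lam hΛ0 ht hΛ ha hV hU σ
  have h2 := abs_HU_le eig t V' a' lam' hΛ0 ht hΛ' ha' hV' hU σ
  have h3 := hO U σ
  have h4 := hKT σ
  rw [le_div_iff₀ (abs_pos.mpr hs), ← abs_mul, mul_comm]
  have h5 : s * O U σ = HU eig t V' a' lam' U σ - HU eig t V a lam U σ := by rw [h3]; ring
  rw [h5]
  refine (abs_sub _ _).trans ?_
  linarith

/-- **slope inequality**: `s E O ≤ F(H + s O) - F(H)`. -/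
theorem slope_le (hN : 0 < N) (V V' : (Fin N → Bool) → ℝ)
    (a lam a' lam' : Fin N → Fin p.nc → ℝ) {Λ0 Λ Λa BV : ℝ} (hΛ0 : ∀ i, |eig i| ≤ Λ0)
    (ht : |t| ≤ 1) (hΛ : ∀ i g, |lam i g| ≤ Λ) (ha : ∀ i g, |a i g| ≤ Λa)
    (hV : ∀ σ, |V σ| ≤ BV * N) (hΛ' : ∀ i g, |lam' i g| ≤ Λ) (ha' : ∀ i g, |a' i g| ≤ Λa)
    (hV' : ∀ σ, |V' σ| ≤ BV * N) (hν : OInv ν) {O : Mat N → SS p n A → ℝ}
    (hOm : ∀ s, Measurable fun U => O U s) {s : ℝ} (hs : s ≠ 0)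
    (hO : ∀ U σ, HU eig t V' a' lam' U σ = HU eig t V a lam U σ + s * O U σ) :
    s * mO hA eig t ν V a lam O ≤ Fm hA eig t ν n V' a' lam' - Fm hA eig t ν n V a lam := by
  obtain ⟨K, hK⟩ := obs_bounded (n := n) (A := A) eig t V V' a lam a' lam' hΛ0 ht hΛ ha hV hΛ' ha'
    hV' hs hO
  have hF0 : (G.fil (base p n A hA)).F 0 = ⊤ := SY.fil_zero hA
  have hint1 : ∀ d, Integrable (fun U => eE (G.PP (base p n A hA) (HU eig t V a lam U) d)
      (fun ω => O U ω.1)) ν := fun d =>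
    integrable_eE_PP hA eig t hν.mem V a lam d hOm hK
  have hintP := fun d => integrable_PhU (n := n) hA eig t V a lam d hν.mem
  have hintP' := fun d => integrable_PhU (n := n) hA eig t V' a' lam' d hν.mem
  have hpt : ∀ d U, s * eE (G.PP (base p n A hA) (HU eig t V a lam U) d) (fun ω => O U ω.1) ≤
      PhU hA eig t V' a' lam' d n U - PhU hA eig t V a lam d n U := by
    intro d U
    have h1 := ObsConc.gA_sub_pt (𝓕 := G.fil (base p n A hA)) (G.prior_isProb (base p n A hA))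
      p.xs_expo.pos hF0 (G.UU (base p n A hA) (HU eig t V a lam U) d) (fun ω => O U ω.1) s
    have e1 : (fun w => G.UU (base p n A hA) (HU eig t V a lam U) d w + s * O U w.1) =
        G.UU (base p n A hA) (HU eig t V' a' lam' U) d := by
      funext w
      show HU eig t V a lam U w.1 + G.WW (base p n A hA) d w + s * O U w.1 =
        HU eig t V' a' lam' U w.1 + G.WW (base p n A hA) d w
      have := hO U w.1
      linarith
    unfold ObsConc.gA at h1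
    rw [e1] at h1
    exact h1
  have hU : ∀ d, s * ∫ U, eE (G.PP (base p n A hA) (HU eig t V a lam U) d)
      (fun ω => O U ω.1) ∂ν ≤
      ∫ U, PhU hA eig t V' a' lam' d n U ∂ν - ∫ U, PhU hA eig t V a lam d n U ∂ν := by
    intro d
    rw [← integral_const_mul, ← integral_sub (hintP' d) (hintP d)]
    exact integral_mono ((hint1 d).const_mul s) ((hintP' d).sub (hintP d)) (hpt d)
  have hd := Ed_mono p N hU
  rw [Ed_smul, Ed_sub p N] at hd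
  exact hd

/-- **Concentration of a general observable, second-difference form.** -/
theorem conc_sd (hnb : p.nb = 0) (hN : 2 < N) (V V₁ V₂ : (Fin N → Bool) → ℝ)
    (a lam a₁ lam₁ a₂ lam₂ : Fin N → Fin p.nc → ℝ) {Λ0 Λ Λa BV : ℝ} (hΛ0 : ∀ i, |eig i| ≤ Λ0)
    (ht : |t| ≤ 1) (hΛ : ∀ i g, |lam i g| ≤ Λ) (ha : ∀ i g, |a i g| ≤ Λa)
    (hV : ∀ σ, |V σ| ≤ BV * N) (hΛ₁ : ∀ i g, |lam₁ i g| ≤ Λ) (ha₁ : ∀ i g, |a₁ i g| ≤ Λa)
    (hV₁ : ∀ σ, |V₁ σ| ≤ BV * N) (hΛ₂ : ∀ i g, |lam₂ i g| ≤ Λ) (ha₂ : ∀ i g, |a₂ i g| ≤ Λa)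
    (hV₂ : ∀ σ, |V₂ σ| ≤ BV * N) (hν : OInv ν) {O : Mat N → SS p n A → ℝ}
    (hOm : ∀ s, Measurable fun U => O U s) {s : ℝ} (hs : s ≠ 0)
    (hO₁ : ∀ U σ, HU eig t V₁ a₁ lam₁ U σ = HU eig t V a lam U σ + s * O U σ)
    (hO₂ : ∀ U σ, HU eig t V₂ a₂ lam₂ U σ = HU eig t V a lam U σ + (-s) * O U σ) :
    |s| * Ed p N (fun d => ∫ U, eE (G.PP (base p n A hA) (HU eig t V a lam U) d)
        (fun ω => |O U ω.1 - mO hA eig t ν V a lam O|) ∂ν) ≤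
      2 * Real.log 2 * (p.nc + 1) + 4 * (Real.sqrt (CV p Λ0 Λ Λa BV * N) + p.nc * p.T * p.τ) +
      2 * (Fm hA eig t ν n V₁ a₁ lam₁ + Fm hA eig t ν n V₂ a₂ lam₂ -
        2 * Fm hA eig t ν n V a lam) := by
  have h := conc_gen (n := n) hA eig t hnb hN V V₁ a lam a₁ lam₁ hΛ0 ht hΛ ha hV hΛ₁ ha₁ hV₁ hν hOm
    hs hO₁
  have h1 := slope_le (n := n) hA eig t (by omega) V V₁ a lam a₁ lam₁ hΛ0 ht hΛ ha hV hΛ₁ ha₁ hV₁
    hν hOm hs hO₁
  have h2 := slope_le (n := n) hA eig t (by omega) V V₂ a lam a₂ lam₂ hΛ0 ht hΛ ha hV hΛ₂ ha₂ hV₂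
    hν hOm (neg_ne_zero.mpr hs) hO₂
  refine h.trans ?_
  have h3 : max (Fm hA eig t ν n V₁ a₁ lam₁ - Fm hA eig t ν n V a lam -
      s * mO hA eig t ν V a lam O) 0 ≤ Fm hA eig t ν n V₁ a₁ lam₁ + Fm hA eig t ν n V₂ a₂ lam₂ -
        2 * Fm hA eig t ν n V a lam := by
    apply max_le <;> linarith
  linarith

end

end Crest.Agent.R164.CSys
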