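import Mathlib
import Crest.Agent.R164.UConc2
import Crest.Agent.R164.USys2

set_option autoImplicit false

/-!
Row 164, module (Conc): final form for the upper-bound assembly (`US.FN`).
-/

namespace Crest.Agent.R164.CSys

open Finset MeasureTheory Filter Topology
open Crest.Agent.R141
open Crest.Agent.R164 SY
open Crest.Agent.Lib.OrthPoinc

noncomputable section

variable {κ : Type} [Fintype κ] [DecidableEq κ]

theorem oInv_of_rHaar {N : ℕ} {ν : Measure (Fin N → Fin N → ℝ)} (h : Haar.RHaar ν) : OInv ν where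
  mem := h.mem
  inv := h.inv

theorem HF_eq_HU {p : Par} {N n : ℕ} (A : Finset (Fin N → Bool)) (lab : Fin N → κ) (th : κ → ℝ)
    (η t : ℝ) (a : Fin p.nc → ℝ) (l : κ × Fin p.nc → ℝ) (U : Fin N → Fin N → ℝ) (s : SS p n A) :
    US.HF A n lab th η t a l U s =
      HU (fun i => th (lab i)) t (fun _ => 0) (fun _ => a) (US.lamF lab η l) U s := rfl

/-- the observable of the class `k` in the cell `g`, not normalised -/
def Ok {p : Par} {N : ℕ} (n : ℕ) (A : Finset (Fin N → Bool)) (lab : Fin N → κ) (k : κ)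
    (g : Fin p.nc) (U : Fin N → Fin N → ℝ) (s : SS p n A) : ℝ :=
  ∑ i, if lab i = k then zf s.2.2 g i * xU (Matrix.of U) s.1.1 i else 0

theorem measurable_Ok {p : Par} {N : ℕ} (n : ℕ) (A : Finset (Fin N → Bool)) (lab : Fin N → κ)
    (k : κ) (g : Fin p.nc) (s : SS p n A) : Measurable fun U => Ok n A lab k g U s := by
  unfold Ok xU
  simp only [Matrix.mulVec, dotProduct, Matrix.of_apply]
  refine Finset.measurable_sum _ fun i _ => ?_
  split_ifs
  · fun_prop
  · exact measurable_const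

theorem HF_update {p : Par} {N n : ℕ} (A : Finset (Fin N → Bool)) (lab : Fin N → κ) (th : κ → ℝ)
    (η t : ℝ) (a : Fin p.nc → ℝ) (l : κ × Fin p.nc → ℝ) (k : κ) (g : Fin p.nc) (y : ℝ)
    (U : Fin N → Fin N → ℝ) (s : SS p n A) :
    US.HF A n lab th η t a (Function.update l (k, g) y) U s =
      US.HF A n lab th η t a l U s + (Real.sqrt η * (y - l (k, g))) * Ok n A lab k g U s := by
  rw [US.HF_eq, US.HF_eq]
  have h1 : ∑ j, Function.update l (k, g) y j * US.Vl A n lab η j U s =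
      ∑ j, l j * US.Vl A n lab η j U s + (y - l (k, g)) * US.Vl A n lab η (k, g) U s := by
    rw [← Finset.add_sum_erase _ _ (Finset.mem_univ (k, g)),
      ← Finset.add_sum_erase _ (fun j => l j * US.Vl A n lab η j U s) (Finset.mem_univ (k, g))]
    have h2 : ∑ j ∈ univ.erase (k, g), Function.update l (k, g) y j * US.Vl A n lab η j U s =
        ∑ j ∈ univ.erase (k, g), l j * US.Vl A n lab η j U s := by
      refine Finset.sum_congr rfl fun j hj => ?_
      rw [Function.update_of_ne (Finset.ne_of_mem_erase hj)]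
    rw [h2, Function.update_self]
    ring
  rw [h1]
  have h3 : US.Vl A n lab η (k, g) U s = Real.sqrt η * Ok n A lab k g U s := rfl
  rw [h3]
  ring

theorem FP_eq_Fm {p : Par} {N : ℕ} (n : ℕ) {A : Finset (Fin N → Bool)} (hA : A.Nonempty)
    (ν : Measure (Fin N → Fin N → ℝ)) (lab : Fin N → κ) (th : κ → ℝ)
    (η t : ℝ) (a : Fin p.nc → ℝ) (l : κ × Fin p.nc → ℝ) :
    US.FP n hA ν lab th η t a l =
      Fm hA (fun i => th (lab i)) t ν n (fun _ => 0) (fun _ => a) (US.lamF lab η l) := by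
  unfold US.FP US.EP Fm PhU
  have h : ∀ U : Mat N, (US.HF A n lab th η t a l U : SS p n A → ℝ) =
      HU (fun i => th (lab i)) t (fun _ => 0) (fun _ => a) (US.lamF lab η l) U := by
    intro U; funext s; exact HF_eq_HU A lab th η t a l U s
  simp only [h]

/-- the error constants -/
theorem exists_N0 (C1 C2 h ε : ℝ) (hh : 0 < h) (hε : 0 < ε) :
    ∃ N0 : ℕ, ∀ N : ℕ, N0 ≤ N → (C1 + C2 * Real.sqrt N) / (h * N) ≤ ε := by
  have h1 : Tendsto (fun N : ℕ => C1 / h * ((N : ℝ))⁻¹ + C2 / h * (Real.sqrt N)⁻¹) atTop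
      (𝓝 (C1 / h * 0 + C2 / h * 0)) := by
    refine Tendsto.add ?_ ?_
    · exact tendsto_const_nhds.mul (tendsto_inv_atTop_zero.comp tendsto_natCast_atTop_atTop)
    · exact tendsto_const_nhds.mul (tendsto_inv_atTop_zero.comp
        (Real.tendsto_sqrt_atTop.comp tendsto_natCast_atTop_atTop))
  simp only [mul_zero, add_zero] at h1
  obtain ⟨N0, hN0⟩ := eventually_atTop.mp ((h1.eventually (gt_mem_nhds hε)))
  refine ⟨max N0 1, fun N hN => ?_⟩
  have h2 := hN0 N ((le_max_left _ _).trans hN)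
  have hN1 : 1 ≤ N := (le_max_right _ _).trans hN
  have hNpos : (0 : ℝ) < N := by exact_mod_cast hN1
  have hs : 0 < Real.sqrt N := Real.sqrt_pos.mpr hNpos
  have e : (C1 + C2 * Real.sqrt N) / (h * N) = C1 / h * ((N : ℝ))⁻¹ + C2 / h * (Real.sqrt N)⁻¹ := by
    have h3 : (N : ℝ) = Real.sqrt N * Real.sqrt N := (Real.mul_self_sqrt hNpos.le).symm
    field_simp
    have h4 : Real.sqrt N ^ 2 = N := Real.sq_sqrt hNpos.le
    linear_combination C2 * h4
  rw [e]
  exact h2.le

/-- **Final form of (Conc) for the contact argument.** -/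
theorem uconc {p : Par} (hnb : p.nb = 0) {Λ0 η Am δ : ℝ} (hη : 0 < η) (hδ : 0 < δ) :
    ∃ N0 : ℕ, ∀ N : ℕ, N0 ≤ N → ∀ (n : ℕ) (A : Finset (Fin N → Bool)) (hA : A.Nonempty)
      (ν : Measure (Fin N → Fin N → ℝ)), IsProbabilityMeasure ν → Haar.RHaar ν →
      ∀ (lab : Fin N → κ) (th : κ → ℝ), (∀ k, |th k| ≤ Λ0) → ∀ t ∈ Set.Icc (0 : ℝ) 1,
      ∀ a : Fin p.nc → ℝ, (∀ g, |a g| ≤ Am) →
      ∀ l : κ × Fin p.nc → ℝ, (∀ j, l j ∈ Set.Icc (1 : ℝ) 2) → ∀ (k : κ) (g : Fin p.nc),
      l (k, g) ∈ Set.Icc (5 / 4 : ℝ) (7 / 4) → ∀ Fl : ℝ,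
      (∀ y ∈ Set.Icc (1 : ℝ) 2, US.FN n hA ν lab th η t a (Function.update l (k, g) y) ≤
        US.FN n hA ν lab th η t a l + Fl * (y - l (k, g)) + 8 * η * (y - l (k, g)) ^ 2) →
      ∃ dd : ℝ, Ed p N (fun d => ∫ U, eE (G.PP (base p n A hA) (US.HF A n lab th η t a l U) d)
        (fun w => |(N : ℝ)⁻¹ * (∑ i, if lab i = k then
          zf w.1.2.2 g i * xU (Matrix.of U) w.1.1.1 i else 0) - dd|) ∂ν) ≤ δ := by
  set Λ := Real.sqrt η * 2 with hΛ
  have hsη : 0 < Real.sqrt η := Real.sqrt_pos.mpr hη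
  set h := min (1 / 4 : ℝ) (δ / (64 * Real.sqrt η)) with hh
  have hhpos : 0 < h := lt_min (by norm_num) (by positivity)
  have hh1 : h ≤ 1 / 4 := min_le_left _ _
  have hh2 : 32 * Real.sqrt η * h ≤ δ / 2 := by
    have : h ≤ δ / (64 * Real.sqrt η) := min_le_right _ _
    calc 32 * Real.sqrt η * h ≤ 32 * Real.sqrt η * (δ / (64 * Real.sqrt η)) := by gcongr
      _ = δ / 2 := by field_simp; norm_num
  obtain ⟨N0, hN0⟩ := exists_N0 (2 * Real.log 2 * (p.nc + 1) + 4 * (p.nc * p.T * p.τ))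
    (4 * Real.sqrt (CV p Λ0 Λ Am 0)) (Real.sqrt η * h) (δ / 2) (by positivity) (by linarith)
  refine ⟨max N0 3, ?_⟩
  intro N hN n A hA ν hνp hν lab th hth t ht a ha l hl k g hlk Fl hFl
  have hN3 : 3 ≤ N := (le_max_right _ _).trans hN
  have hNr : (0 : ℝ) < N := by exact_mod_cast (by omega : 0 < N)
  have hO := oInv_of_rHaar hν
  set eig : Fin N → ℝ := fun i => th (lab i) with heig
  -- the three parameter sets
  set lp := Function.update l (k, g) (l (k, g) + h) with hlp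
  set lm := Function.update l (k, g) (l (k, g) - h) with hlm
  have hb : ∀ l' : κ × Fin p.nc → ℝ, (∀ j, l' j ∈ Set.Icc (1 : ℝ) 2) → ∀ i g',
      |US.lamF lab η l' i g'| ≤ Λ := by
    intro l' hl' i g'
    unfold US.lamF
    have := hl' (lab i, g')
    rw [abs_mul, abs_of_pos hsη, abs_of_nonneg (by linarith [this.1])]
    exact mul_le_mul_of_nonneg_left this.2 hsη.le
  have hlpb : ∀ j, lp j ∈ Set.Icc (1 : ℝ) 2 := by
    intro j
    rw [hlp]
    by_cases hj : j = (k, g)
    · subst hj; rw [Function.update_self]; exact ⟨by linarith [hlk.1], by linarith [hlk.2]⟩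
    · rw [Function.update_of_ne hj]; exact hl j
  have hlmb : ∀ j, lm j ∈ Set.Icc (1 : ℝ) 2 := by
    intro j
    rw [hlm]
    by_cases hj : j = (k, g)
    · subst hj; rw [Function.update_self]; exact ⟨by linarith [hlk.1], by linarith [hlk.2]⟩
    · rw [Function.update_of_ne hj]; exact hl j
  have hO1 : ∀ (U : Mat N) (σ : SS p n A), HU eig t (fun _ => 0) (fun _ => a) (US.lamF lab η lp) U σ =
      HU eig t (fun _ => 0) (fun _ => a) (US.lamF lab η l) U σ +
        (Real.sqrt η * h) * Ok n A lab k g U σ := by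
    intro U σ
    have h1 := HF_update A lab th η t a l k g (l (k, g) + h) U σ
    rw [← hlp, HF_eq_HU, HF_eq_HU] at h1
    rw [h1]; ring
  have hO2 : ∀ (U : Mat N) (σ : SS p n A), HU eig t (fun _ => 0) (fun _ => a) (US.lamF lab η lm) U σ =
      HU eig t (fun _ => 0) (fun _ => a) (US.lamF lab η l) U σ +
        (-(Real.sqrt η * h)) * Ok n A lab k g U σ := by
    intro U σ
    have h1 := HF_update A lab th η t a l k g (l (k, g) - h) U σ
    rw [← hlm, HF_eq_HU, HF_eq_HU] at h1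
    rw [h1]; ring
  have hs0 : Real.sqrt η * h ≠ 0 := (mul_pos hsη hhpos).ne'
  have hmain := conc_sd (n := n) hA eig t hnb (by omega) (fun _ => 0) (fun _ => 0) (fun _ => 0)
    (fun _ => a) (US.lamF lab η l) (fun _ => a) (US.lamF lab η lp) (fun _ => a)
    (US.lamF lab η lm) (Λ0 := Λ0) (Λ := Λ) (Λa := Am) (BV := 0) (fun i => hth _)
    (by rw [abs_of_nonneg ht.1]; exact ht.2) (hb l hl) (fun _ g => ha g) (by simp)
    (hb lp hlpb) (fun _ g => ha g) (by simp) (hb lm hlmb) (fun _ g => ha g) (by simp) hO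
    (measurable_Ok n A lab k g) hs0 hO1 hO2
  rw [← FP_eq_Fm, ← FP_eq_Fm, ← FP_eq_Fm] at hmain
  -- second difference
  have hsd : US.FP n hA ν lab th η t a lp + US.FP n hA ν lab th η t a lm -
      2 * US.FP n hA ν lab th η t a l ≤ N * (16 * η * h ^ 2) := by
    have h1 := hFl (l (k, g) + h) ⟨by linarith [hlk.1], by linarith [hlk.2]⟩
    have h2 := hFl (l (k, g) - h) ⟨by linarith [hlk.1], by linarith [hlk.2]⟩
    rw [← hlp] at h1
    rw [← hlm] at h2
    unfold US.FN at h1 h2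
    have h3 : (N : ℝ)⁻¹ * (US.FP n hA ν lab th η t a lp + US.FP n hA ν lab th η t a lm -
      2 * US.FP n hA ν lab th η t a l) ≤ 16 * η * h ^ 2 := by
      nlinarith [h1, h2]
    rwa [inv_mul_le_iff₀ hNr] at h3
  set mo := mO hA eig t ν (fun _ => 0) (fun _ => a) (US.lamF lab η l) (Ok n A lab k g) with hmo
  refine ⟨(N : ℝ)⁻¹ * mo, ?_⟩
  have e1 : Ed p N (fun d => ∫ U, eE (G.PP (base p n A hA) (US.HF A n lab th η t a l U) d)
        (fun w => |(N : ℝ)⁻¹ * (∑ i, if lab i = k then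
          zf w.1.2.2 g i * xU (Matrix.of U) w.1.1.1 i else 0) - (N : ℝ)⁻¹ * mo|) ∂ν) =
      (N : ℝ)⁻¹ * Ed p N (fun d => ∫ U, eE (G.PP (base p n A hA)
        (HU eig t (fun _ => 0) (fun _ => a) (US.lamF lab η l) U) d)
        (fun ω => |Ok n A lab k g U ω.1 - mo|) ∂ν) := by
    rw [← Ed_smul]
    congr 1
    funext d
    rw [← integral_const_mul]
    congr 1
    funext U
    have h1 : (US.HF A n lab th η t a l U : SS p n A → ℝ) =
        HU eig t (fun _ => 0) (fun _ => a) (US.lamF lab η l) U := by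
      funext s; exact HF_eq_HU A lab th η t a l U s
    rw [← eE_smul]
    have h2 : (G.PP (base p n A hA) (US.HF A n lab th η t a l U) d) =
      G.PP (base p n A hA) (HU eig t (fun _ => 0) (fun _ => a) (US.lamF lab η l) U) d :=
      congrArg (fun H => G.PP (base p n A hA) H d) h1
    rw [h2]
    congr 1
    funext w
    rw [← mul_sub, abs_mul, abs_of_pos (inv_pos.mpr hNr)]
    rfl
  rw [e1]
  set X := Ed p N (fun d => ∫ U, eE (G.PP (base p n A hA)
        (HU eig t (fun _ => 0) (fun _ => a) (US.lamF lab η l) U) d)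
        (fun ω => |Ok n A lab k g U ω.1 - mo|) ∂ν) with hX
  rw [abs_of_pos (mul_pos hsη hhpos)] at hmain
  have hrate := hN0 N ((le_max_left _ _).trans hN)
  have hsq : Real.sqrt (CV p Λ0 Λ Am 0 * N) = Real.sqrt (CV p Λ0 Λ Am 0) * Real.sqrt N := by
    have hΛ00 : 0 ≤ Λ0 := (abs_nonneg _).trans (hth (lab ⟨0, by omega⟩))
    exact Real.sqrt_mul (CV_pos (p := p) (Λ := Λ) (Λa := Am) hΛ00 le_rfl).le _
  rw [hsq] at hmain
  have hden : 0 < Real.sqrt η * h * N := by positivity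
  rw [div_le_iff₀ hden] at hrate
  have hηs : Real.sqrt η * Real.sqrt η = η := Real.mul_self_sqrt hη.le
  have hfin : (Real.sqrt η * h) * X ≤ (Real.sqrt η * h) * (N * δ) := by
    have h1 : 2 * (US.FP n hA ν lab th η t a lp + US.FP n hA ν lab th η t a lm -
      2 * US.FP n hA ν lab th η t a l) ≤ Real.sqrt η * h * N * (32 * Real.sqrt η * h) := by
      have : Real.sqrt η * h * N * (32 * Real.sqrt η * h) = 2 * (N * (16 * (Real.sqrt η *
        Real.sqrt η) * h ^ 2)) := by ring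
      rw [this, hηs]
      linarith
    have h2 : Real.sqrt η * h * N * (32 * Real.sqrt η * h) ≤ Real.sqrt η * h * N * (δ / 2) :=
      mul_le_mul_of_nonneg_left hh2 hden.le
    nlinarith
  have hX2 : X ≤ N * δ := le_of_mul_le_mul_left hfin (mul_pos hsη hhpos)
  rw [inv_mul_le_iff₀ hNr]
  exact hX2

end

end Crest.Agent.R164.CSys
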