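import Crest.Agent.R164.UConc3
import Crest.Agent.R164.UDef

set_option autoImplicit false

/-!
Row 164, module (Conc): the Prop `US.HConc` of the upper-bound assembly.
-/

namespace Crest.Agent.R164.CSys

open Finset MeasureTheory Filter Topology
open Crest.Agent.R141
open Crest.Agent.R164 SY

noncomputable section

/-- **(Conc)** in the form consumed by the upper-bound assembly. -/
theorem hConc (K : ℕ) (val : Fin (K + 1) → ℝ) : US.HConc K val := by
  intro p hnb η hη Amax δ hδ
  obtain ⟨N0, hN0⟩ := uconc (κ := Fin (K + 1)) (p := p) hnb (Λ0 := ∑ k, |val k|) (η := η)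
    (Am := Amax) hη hδ
  refine ⟨N0, fun _ => 0, ?_⟩
  intro N hN n _ A hA ν hνp hν lab t ht a ha l hl j F' hF'
  obtain ⟨k, g⟩ := j
  exact hN0 N hN n A hA ν hνp hν lab val
    (fun k => Finset.single_le_sum (f := fun k => |val k|) (fun i _ => abs_nonneg _)
      (Finset.mem_univ k)) t ht a
    (fun g => by rw [abs_of_nonneg (ha g).1]; exact (ha g).2) l
    (fun j => ⟨by linarith [(hl j).1], by linarith [(hl j).2]⟩) k g (hl (k, g)) F' hF'

end

end Crest.Agent.R164.CSys
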