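import Crest.Agent.R164.ZU
import Crest.Agent.R164.UDef

/-!
Row 164 (helper399): the input `US.HInit` of the U assembly.
-/

set_option autoImplicit false

namespace Crest.Agent.R164.US

theorem hInit (K : ℕ) (val : Fin (K + 1) → ℝ) : HInit K val := by
  intro J γ hγ hγs lab hlab l u hlu hb m hm hbox p hnb Amax ε hε
  obtain ⟨N0, n0, h⟩ := Z.FN_zero_le (γ := γ) hnb Amax hm lab hlab hbox hε
  refine ⟨N0, fun _ => n0, fun N hN n hn hA ν hν _ labE η a ha => ?_⟩
  exact h N hN n hn hA ν hν labE val η a ha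

end Crest.Agent.R164.US
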