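import Crest.Agent.R164.USys2
import Crest.Agent.R164.ConcSys1

/-!
Row 164, upper bound assembly (helper466): the first derivatives of `FN` in the field strengths.

* main fields: `|E^P[∑ z_{g,i} s_i] - a_g (N - w ∑_{g' ≥ g} ∑_i E^P (E_{mt g'} s_i)²)| ≤ 52 N a_g²/√n`,
* small fields: `|∂_{l_j} FN| ≤ 3 η` for `l ∈ [0,2]`.
-/

set_option autoImplicit false
set_option linter.unusedSectionVars false

namespace Crest.Agent.R164.US

open Finset MeasureTheory Crest.Agent.R141 Crest.Agent.R164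
open Crest.ProbabilityR.InvariantGlass

noncomputable section

variable {p : Par} {N n : ℕ} {A : Finset (Fin N → Bool)} (hA : A.Nonempty)

/-- `∑_i E^P (E_l s_i)²` -/
def Rs (P : G.Om (SY.base p n A hA) → ℝ) (l : ℕ) : ℝ :=
  ∑ i, eE P (fun ω => (cE P ((G.fil (SY.base p n A hA)).F l)
    (fun w => sv (w.1.1.1 i)) ω) ^ 2)

theorem eE_mul_scr {P : G.Om (SY.base p n A hA) → ℝ} (hP : IsProb P) (g : Fin p.nc)
    (v : G.Om (SY.base p n A hA) → ℝ) :
    eE P (fun w => v w * CSys.scr hA P g v w) =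
      eE P (fun w => v w ^ 2) - ((p.nc : ℝ) + 1)⁻¹ * ∑ g' ∈ Ico (g : ℕ) p.nc,
        eE P (fun w => (cE P ((G.fil (SY.base p n A hA)).F (p.mt g')) v w) ^ 2) := by
  have h1 : ∀ g', eE P (fun w => v w * cE P ((G.fil (SY.base p n A hA)).F (p.mt g')) v w) =
      eE P (fun w => (cE P ((G.fil (SY.base p n A hA)).F (p.mt g')) v w) ^ 2) := by
    intro g'
    set r := (G.fil (SY.base p n A hA)).F (p.mt g')
    rw [← eE_cE hP r (fun w => v w * cE P r v w)]
    congr 1
    funext w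
    have := cE_mul_left (P := P) (r := r) (g := cE P r v) (f := v) (cE_meas P r v) w
    have e : (fun w => v w * cE P r v w) = fun a => cE P r v a * v a := by funext a; ring
    rw [e, this, sq]
  have e : (fun w => v w * CSys.scr hA P g v w) = fun w => v w ^ 2 - ((p.nc : ℝ) + 1)⁻¹ *
      ∑ g' ∈ Ico (g : ℕ) p.nc,
        v w * cE P ((G.fil (SY.base p n A hA)).F (p.mt g')) v w := by
    funext w
    unfold CSys.scr
    rw [← Finset.mul_sum]
    ring
  rw [e, eE_sub, eE_smul, eE_sum]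
  simp only [h1]

/-- the law of the system -/
abbrev PU (hA : A.Nonempty) {κ : Type} [Fintype κ] [DecidableEq κ] (lab : Fin N → κ) (th : κ → ℝ)
    (η t : ℝ) (a : Fin p.nc → ℝ) (l : κ × Fin p.nc → ℝ) (U : Fin N → Fin N → ℝ) (d : DD p N) :
    G.Om (SY.base p n A hA) → ℝ :=
  G.PP (SY.base p n A hA) (HF A n lab th η t a l U) d

section obs

variable {κ : Type} [Fintype κ] [DecidableEq κ] (lab : Fin N → κ) (th : κ → ℝ)
    (η t : ℝ) (a : Fin p.nc → ℝ) (l : κ × Fin p.nc → ℝ) (U : Fin N → Fin N → ℝ) (d : DD p N)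

theorem PU_eq : PU (n := n) hA lab th η t a l U d = CSys.PS hA
    (SY.h0q (fun i => th (lab i)) (Matrix.of U) t (fun _ => 0)) (fun _ => a) (lamF lab η l)
    (SY.xU (Matrix.of U)) d := rfl

theorem PU_isProb : IsProb (PU (n := n) hA lab th η t a l U d) :=
  G.PP_isProb (SY.base p n A hA) _ d

theorem main_field (hn : 0 < n) (g : Fin p.nc) (hc : |a g| ≤ Real.sqrt n / 8) :
    |eE (PU (n := n) hA lab th η t a l U d) (fun ω => Va A n g ω.1) -
      a g * (N - ((p.nc : ℝ) + 1)⁻¹ * ∑ g' ∈ Ico (g : ℕ) p.nc,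
        Rs hA (PU (n := n) hA lab th η t a l U d) (p.mt g'))| ≤
      N * (52 * (a g) ^ 2 / Real.sqrt n) := by
  set P := PU (n := n) hA lab th η t a l U d with hPdef
  have hP : IsProb P := PU_isProb hA lab th η t a l U d
  obtain ⟨ω0⟩ := G.omNonempty (SY.base p n A hA)
  have h := CSys.ibp_main_sum hA
    (SY.h0q (fun i => th (lab i)) (Matrix.of U) t (fun _ => 0)) (fun _ => a) (lamF lab η l)
    (SY.xU (Matrix.of U)) d hn g Finset.univ (f := fun _ => 1) (fun _ _ _ => rfl) (Λ := |a g|)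
    (fun _ => by simp) (fun _ _ => le_rfl) hc (l := 0) (SY.mt_pos (p := p) (g : ℕ)) ω0
  rw [← PU_eq, ← hPdef, ObsConc.cE_top (SY.fil_zero hA) hP, ObsConc.cE_top (SY.fil_zero hA) hP] at h
  simp only [mul_one, one_mul] at h
  have e1 : eE P (fun w => ∑ i, a g * (sv (w.1.1.1 i) *
      CSys.scr hA P g (fun w => sv (w.1.1.1 i)) w)) =
      a g * (N - ((p.nc : ℝ) + 1)⁻¹ * ∑ g' ∈ Ico (g : ℕ) p.nc, Rs hA P (p.mt g')) := by
    rw [eE_sum]
    have e2 : ∀ i : Fin N, eE P (fun w => a g * (sv (w.1.1.1 i) *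
        CSys.scr hA P g (fun w => sv (w.1.1.1 i)) w)) =
        a g * (1 - ((p.nc : ℝ) + 1)⁻¹ * ∑ g' ∈ Ico (g : ℕ) p.nc,
          eE P (fun w => (cE P ((G.fil (SY.base p n A hA)).F (p.mt g'))
            (fun w => sv (w.1.1.1 i)) w) ^ 2)) := by
      intro i
      rw [eE_smul, eE_mul_scr hA hP g (fun w => sv (w.1.1.1 i))]
      have e3 : eE P (fun w => sv (w.1.1.1 i) ^ 2) = 1 := by
        have : (fun w : G.Om (SY.base p n A hA) => sv (w.1.1.1 i) ^ 2) = fun _ => 1 := by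
          funext w
          rw [← sq_abs, sv_abs, one_pow]
        rw [this, eE_const hP]
      rw [e3]
    simp only [e2]
    rw [← Finset.mul_sum, Finset.sum_sub_distrib, ← Finset.mul_sum, Finset.sum_comm]
    simp only [Finset.sum_const, Finset.card_univ, Fintype.card_fin, nsmul_eq_mul, mul_one]
    rfl
  rw [e1] at h
  have e4 : (fun ω : G.Om (SY.base p n A hA) => Va A n g ω.1) =
      fun w => ∑ i, SY.zf w.1.2.1 g i * sv (w.1.1.1 i) := rfl
  rw [e4]
  refine h.trans (le_of_eq ?_)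
  simp [sq_abs]

theorem sum_xU_sq {U : Fin N → Fin N → ℝ} (hU : U ∈ Rot.OK N) (σ : Fin N → Bool) :
    ∑ i, (SY.xU (Matrix.of U) σ i) ^ 2 = N := by
  have h : Matrix.of U ∈ Matrix.orthogonalGroup (Fin N) ℝ := hU
  unfold SY.xU
  rw [sq_sum_mulVec h, Mag.spin_sq_sum]

/-- the coordinates of `x = U σ` are bounded by `√N` -/
theorem abs_xU_le {U : Fin N → Fin N → ℝ} (hU : U ∈ Rot.OK N) (σ : Fin N → Bool) (i : Fin N) :
    |SY.xU (Matrix.of U) σ i| ≤ Real.sqrt N := by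
  have h1 := sum_xU_sq hU σ
  apply Real.abs_le_sqrt
  rw [← h1]
  exact Finset.single_le_sum (f := fun j => (SY.xU (Matrix.of U) σ j) ^ 2)
    (fun _ _ => sq_nonneg _) (Finset.mem_univ i)

theorem small_field {U : Fin N → Fin N → ℝ} (hU : U ∈ Rot.OK N) (hn : 0 < n) (hη : 0 ≤ η)
    (j : κ × Fin p.nc) (hl : ∀ j, 0 ≤ l j ∧ l j ≤ 2)
    (hc : 2 * Real.sqrt η * Real.sqrt N ≤ Real.sqrt n / 8) :
    |eE (PU (n := n) hA lab th η t a l U d) (fun ω => Vl A n lab η j U ω.1)| ≤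
      2 * η * N + Real.sqrt η * (N * (52 * (2 * Real.sqrt η) ^ 2 * Real.sqrt N ^ 3 /
        Real.sqrt n)) := by
  classical
  set P := PU (n := n) hA lab th η t a l U d with hPdef
  have hP : IsProb P := PU_isProb hA lab th η t a l U d
  obtain ⟨ω0⟩ := G.omNonempty (SY.base p n A hA)
  set I : Finset (Fin N) := Finset.univ.filter fun i => lab i = j.1 with hI
  have hse := Real.sqrt_nonneg η
  have h := CSys.ibp_small_sum hA
    (SY.h0q (fun i => th (lab i)) (Matrix.of U) t (fun _ => 0)) (fun _ => a) (lamF lab η l)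
    (SY.xU (Matrix.of U)) d hn j.2 I (f := fun _ => 1) (fun _ _ _ => rfl)
    (K := Real.sqrt N) (Λ := 2 * Real.sqrt η) (fun σ i => abs_xU_le hU σ i)
    (fun _ => by simp) (fun i _ => by
      unfold lamF
      rw [abs_mul, abs_of_nonneg hse, abs_of_nonneg (hl _).1]
      have := mul_le_mul_of_nonneg_left (hl (lab i, j.2)).2 hse
      linarith) hc (l := 0) (SY.mt_pos (p := p) (j.2 : ℕ)) ω0
  rw [← PU_eq, ← hPdef, ObsConc.cE_top (SY.fil_zero hA) hP, ObsConc.cE_top (SY.fil_zero hA) hP] at h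
  simp only [mul_one, one_mul] at h
  set X : Fin N → G.Om (SY.base p n A hA) → ℝ := fun i w => SY.xU (Matrix.of U) w.1.1.1 i with hX
  -- size of the main term
  have e1 : eE P (fun w => ∑ i ∈ I, lamF lab η l i j.2 * (X i w * CSys.scr hA P j.2 (X i) w)) =
      Real.sqrt η * l j * ∑ i ∈ I, (eE P (fun w => X i w ^ 2) - ((p.nc : ℝ) + 1)⁻¹ *
        ∑ g' ∈ Ico (j.2 : ℕ) p.nc, eE P (fun w =>
          (cE P ((G.fil (SY.base p n A hA)).F (p.mt g')) (X i) w) ^ 2)) := by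
    rw [eE_sum, Finset.mul_sum]
    refine Finset.sum_congr rfl fun i hi => ?_
    rw [eE_smul, eE_mul_scr hA hP]
    have : lab i = j.1 := (Finset.mem_filter.1 hi).2
    unfold lamF
    rw [this]
  have hw : 0 ≤ ((p.nc : ℝ) + 1)⁻¹ := by positivity
  have b1 : ∀ i, 0 ≤ eE P (fun w => X i w ^ 2) - ((p.nc : ℝ) + 1)⁻¹ *
        ∑ g' ∈ Ico (j.2 : ℕ) p.nc, eE P (fun w =>
          (cE P ((G.fil (SY.base p n A hA)).F (p.mt g')) (X i) w) ^ 2) := by
    intro i
    have h1 : ∀ g', eE P (fun w => (cE P ((G.fil (SY.base p n A hA)).F (p.mt g')) (X i) w) ^ 2) ≤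
        eE P (fun w => X i w ^ 2) := by
      intro g'
      rw [← eE_cE hP ((G.fil (SY.base p n A hA)).F (p.mt g')) (fun w => X i w ^ 2)]
      exact eE_mono hP fun w => cE_sq_le hP _ _ _
    have h2 : ∑ g' ∈ Ico (j.2 : ℕ) p.nc, eE P (fun w =>
        (cE P ((G.fil (SY.base p n A hA)).F (p.mt g')) (X i) w) ^ 2) ≤
        (p.nc : ℝ) * eE P (fun w => X i w ^ 2) := by
      refine (Finset.sum_le_sum fun g' _ => h1 g').trans ?_
      rw [Finset.sum_const, Nat.card_Ico, nsmul_eq_mul]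
      refine mul_le_mul_of_nonneg_right ?_ (eE_nonneg hP fun _ => sq_nonneg _)
      exact_mod_cast Nat.sub_le _ _
    have h3 : 0 ≤ eE P (fun w => X i w ^ 2) := eE_nonneg hP fun _ => sq_nonneg _
    have h4 := mul_le_mul_of_nonneg_left h2 hw
    have h5 : ((p.nc : ℝ) + 1)⁻¹ * ((p.nc : ℝ) * eE P (fun w => X i w ^ 2)) ≤
        eE P (fun w => X i w ^ 2) := by
      rw [← mul_assoc]
      have : ((p.nc : ℝ) + 1)⁻¹ * (p.nc : ℝ) ≤ 1 := by
        rw [inv_mul_le_iff₀ (by positivity)]; linarith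
      nlinarith
    linarith
  have b2 : ∀ i, eE P (fun w => X i w ^ 2) - ((p.nc : ℝ) + 1)⁻¹ *
        ∑ g' ∈ Ico (j.2 : ℕ) p.nc, eE P (fun w =>
          (cE P ((G.fil (SY.base p n A hA)).F (p.mt g')) (X i) w) ^ 2) ≤
        eE P (fun w => X i w ^ 2) := by
    intro i
    have : 0 ≤ ((p.nc : ℝ) + 1)⁻¹ * ∑ g' ∈ Ico (j.2 : ℕ) p.nc, eE P (fun w =>
          (cE P ((G.fil (SY.base p n A hA)).F (p.mt g')) (X i) w) ^ 2) :=
      mul_nonneg hw (Finset.sum_nonneg fun _ _ => eE_nonneg hP fun _ => sq_nonneg _)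
    linarith
  have b3 : ∑ i ∈ I, eE P (fun w => X i w ^ 2) ≤ N := by
    have h1 : ∑ i ∈ I, eE P (fun w => X i w ^ 2) ≤ ∑ i, eE P (fun w => X i w ^ 2) :=
      Finset.sum_le_sum_of_subset_of_nonneg (Finset.filter_subset _ _)
        (fun _ _ _ => eE_nonneg hP fun _ => sq_nonneg _)
    refine h1.trans ?_
    rw [← eE_sum]
    refine eE_le_of_le hP fun w => ?_
    exact (sum_xU_sq hU w.1.1.1).le
  have b4 : |eE P (fun w => ∑ i ∈ I, lamF lab η l i j.2 * (X i w *
      CSys.scr hA P j.2 (X i) w))| ≤ Real.sqrt η * 2 * N := by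
    rw [e1, abs_mul, abs_of_nonneg (mul_nonneg hse (hl j).1),
      abs_of_nonneg (Finset.sum_nonneg fun i _ => b1 i)]
    exact mul_le_mul (mul_le_mul_of_nonneg_left (hl j).2 hse)
      ((Finset.sum_le_sum fun i _ => b2 i).trans b3)
      (Finset.sum_nonneg fun i _ => b1 i) (by positivity)
  have e5 : eE P (fun ω => Vl A n lab η j U ω.1) =
      Real.sqrt η * eE P (fun w => ∑ i ∈ I, SY.zf w.1.2.2 j.2 i * X i w) := by
    rw [← eE_smul]
    congr 1
    funext w
    unfold Vl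
    rw [hI, Finset.sum_filter]
  rw [e5, abs_mul, abs_of_nonneg hse]
  have b6 : |eE P (fun w => ∑ i ∈ I, SY.zf w.1.2.2 j.2 i * X i w)| ≤
      Real.sqrt η * 2 * N + N * (52 * (2 * Real.sqrt η) ^ 2 * Real.sqrt N ^ 3 / Real.sqrt n) := by
    have h1 := abs_sub_abs_le_abs_sub (eE P (fun w => ∑ i ∈ I, SY.zf w.1.2.2 j.2 i * X i w))
      (eE P (fun w => ∑ i ∈ I, lamF lab η l i j.2 * (X i w * CSys.scr hA P j.2 (X i) w)))
    have h2 : (I.card : ℝ) * (52 * (2 * Real.sqrt η) ^ 2 * Real.sqrt N ^ 3 / Real.sqrt n) ≤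
        N * (52 * (2 * Real.sqrt η) ^ 2 * Real.sqrt N ^ 3 / Real.sqrt n) := by
      refine mul_le_mul_of_nonneg_right ?_ (by positivity)
      have : I.card ≤ N := by
        have := Finset.card_le_univ I
        simpa using this
      exact_mod_cast this
    have h3 := h
    linarith
  calc Real.sqrt η * |eE P (fun w => ∑ i ∈ I, SY.zf w.1.2.2 j.2 i * X i w)|
      ≤ Real.sqrt η * (Real.sqrt η * 2 * N + N * (52 * (2 * Real.sqrt η) ^ 2 *
        Real.sqrt N ^ 3 / Real.sqrt n)) := mul_le_mul_of_nonneg_left b6 hse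
    _ = _ := by
      have hs := Real.mul_self_sqrt hη
      rw [mul_add]
      congr 1
      calc Real.sqrt η * (Real.sqrt η * 2 * N) = (Real.sqrt η * Real.sqrt η) * 2 * N := by ring
        _ = _ := by rw [hs]; ring

end obs

end

end Crest.Agent.R164.US
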