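import Crest.Agent.R164.UObs

/-!
Row 164, upper bound assembly (helper466): averaged forms of the first derivatives.
-/

set_option autoImplicit false
set_option linter.unusedSectionVars false

namespace Crest.Agent.R164.US

open Finset MeasureTheory Crest.Agent.R141 Crest.Agent.R164
open Crest.ProbabilityR.InvariantGlass

noncomputable section

/-! ### averages -/

section av

variable {p : Par} {N : ℕ} {Θ : Type} [MeasurableSpace Θ] {ν : Measure Θ} [IsProbabilityMeasure ν]

theorem Ed_const' (hN : 0 < N) (c : ℝ) : Ed p N (fun _ => c) = c := by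
  unfold Ed
  rw [← Finset.sum_mul, dw_sum p hN, one_mul]

theorem Ed_le {f g : DD p N → ℝ} (h : ∀ d, f d ≤ g d) : Ed p N f ≤ Ed p N g := by
  unfold Ed
  exact Finset.sum_le_sum fun d _ => mul_le_mul_of_nonneg_left (h d) (dw_nonneg p N d)

theorem Ed_sub' (f g : DD p N → ℝ) : Ed p N (fun d => f d - g d) = Ed p N f - Ed p N g := by
  unfold Ed
  rw [← Finset.sum_sub_distrib]
  exact Finset.sum_congr rfl fun d _ => by ring

theorem Ed_smul' (c : ℝ) (f : DD p N → ℝ) : Ed p N (fun d => c * f d) = c * Ed p N f := by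
  unfold Ed
  rw [Finset.mul_sum]
  exact Finset.sum_congr rfl fun d _ => by ring

theorem abs_Ed_le {f : DD p N → ℝ} (hN : 0 < N) {c : ℝ} (h : ∀ d, |f d| ≤ c) : |Ed p N f| ≤ c := by
  rw [abs_le]
  constructor
  · have := Ed_le (p := p) (N := N) (f := fun _ => -c) (g := f) fun d => (abs_le.1 (h d)).1
    rwa [Ed_const' hN] at this
  · have := Ed_le (p := p) (N := N) (f := f) (g := fun _ => c) fun d => (abs_le.1 (h d)).2
    rwa [Ed_const' hN] at this

theorem abs_dav_sub_le (hN : 0 < N) {f g : DD p N → Θ → ℝ} (hf : ∀ d, Integrable (f d) ν)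
    (hg : ∀ d, Integrable (g d) ν) {c : ℝ} (h : ∀ d, ∀ᵐ θ ∂ν, |f d θ - g d θ| ≤ c) :
    |Ed p N (fun d => ∫ θ, f d θ ∂ν) - Ed p N (fun d => ∫ θ, g d θ ∂ν)| ≤ c := by
  rw [← Ed_sub']
  refine abs_Ed_le hN fun d => ?_
  rw [← integral_sub (hf d) (hg d), ← Real.norm_eq_abs]
  refine (norm_integral_le_of_norm_le_const (C := c) ?_).trans ?_
  · filter_upwards [h d] with θ hθ
    rwa [Real.norm_eq_abs]
  · simp

theorem abs_dav_le (hN : 0 < N) {f : DD p N → Θ → ℝ} {c : ℝ} (hc : 0 ≤ c)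
    (h : ∀ d, ∀ᵐ θ ∂ν, |f d θ| ≤ c) :
    |Ed p N (fun d => ∫ θ, f d θ ∂ν)| ≤ c := by
  refine abs_Ed_le hN fun d => ?_
  rw [← Real.norm_eq_abs]
  refine (norm_integral_le_of_norm_le_const (C := c) ?_).trans ?_
  · filter_upwards [h d] with θ hθ
    rwa [Real.norm_eq_abs]
  · simp

end av

variable {p : Par} {N n : ℕ} {A : Finset (Fin N → Bool)} (hA : A.Nonempty)
variable {κ : Type} [Fintype κ] [DecidableEq κ] (lab : Fin N → κ) (th : κ → ℝ)
    (η t : ℝ) (a : Fin p.nc → ℝ) (l : κ × Fin p.nc → ℝ)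
variable (ν : Measure (Fin N → Fin N → ℝ)) [IsProbabilityMeasure ν]

theorem meas_PU (d : DD p N) (ω : G.Om (SY.base p n A hA)) :
    Measurable fun U => PU (n := n) hA lab th η t a l U d ω :=
  G.meas_PP (SY.base p n A hA) (H := HF A n lab th η t a l)
    (fun s => (continuous_HF lab th η t a l s).measurable) d ω

theorem Rs_nonneg {P : G.Om (SY.base p n A hA) → ℝ} (hP : IsProb P) (k : ℕ) : 0 ≤ Rs hA P k :=
  Finset.sum_nonneg fun _ _ => eE_nonneg hP fun _ => sq_nonneg _

theorem Rs_le {P : G.Om (SY.base p n A hA) → ℝ} (hP : IsProb P) (k : ℕ) : Rs hA P k ≤ N := by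
  unfold Rs
  calc ∑ i, eE P (fun ω => (cE P ((G.fil (SY.base p n A hA)).F k)
        (fun w => sv (w.1.1.1 i)) ω) ^ 2) ≤ ∑ _i : Fin N, (1:ℝ) := by
        refine Finset.sum_le_sum fun i _ => eE_le_of_le hP fun w => ?_
        have h := cE_sq_le hP ((G.fil (SY.base p n A hA)).F k)
          (fun w : G.Om (SY.base p n A hA) => sv (w.1.1.1 i)) w
        have e : (fun a : G.Om (SY.base p n A hA) => sv (a.1.1.1 i) ^ 2) = fun _ => 1 := by
          funext w
          rw [← sq_abs, sv_abs, one_pow]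
        rw [e, cE_const hP] at h
        exact h
    _ = N := by simp

theorem Rs_mono {P : G.Om (SY.base p n A hA) → ℝ} (hP : IsProb P) {k k' : ℕ} (h : k ≤ k') :
    Rs hA P k ≤ Rs hA P k' := by
  unfold Rs
  refine Finset.sum_le_sum fun i _ => ?_
  have hr : (G.fil (SY.base p n A hA)).F k' ≤ (G.fil (SY.base p n A hA)).F k :=
    (G.fil (SY.base p n A hA)).anti' h
  rw [← eE_cE hP ((G.fil (SY.base p n A hA)).F k) (fun ω => (cE P
    ((G.fil (SY.base p n A hA)).F k') (fun w => sv (w.1.1.1 i)) ω) ^ 2)]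
  refine eE_mono hP fun w => ?_
  have h1 := cE_sq_le hP ((G.fil (SY.base p n A hA)).F k)
    (cE P ((G.fil (SY.base p n A hA)).F k') (fun w => sv (w.1.1.1 i))) w
  rwa [cE_tower hP hr] at h1

theorem meas_Rs (d : DD p N) (k : ℕ) :
    Measurable fun U => Rs hA (PU (n := n) hA lab th η t a l U d) k := by
  unfold Rs
  refine Finset.measurable_sum _ fun i _ => ?_
  exact G.meas_eE (fun ω => meas_PU hA lab th η t a l d ω) (fun ω =>
    (G.meas_cE (P := fun U => PU (n := n) hA lab th η t a l U d)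
      (f := fun _ w => sv (w.1.1.1 i)) (fun ω => meas_PU hA lab th η t a l d ω)
      (fun _ => measurable_const) _ ω).pow_const 2)

theorem integrable_Rs (d : DD p N) (k : ℕ) :
    Integrable (fun U => Rs hA (PU (n := n) hA lab th η t a l U d) k) ν := by
  refine Integrable.of_bound (meas_Rs hA lab th η t a l d k).aestronglyMeasurable N ?_
  filter_upwards with U
  rw [Real.norm_eq_abs, abs_of_nonneg (Rs_nonneg hA (PU_isProb hA lab th η t a l U d) k)]
  exact Rs_le hA (PU_isProb hA lab th η t a l U d) k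

/-- the averaged overlap at level `k` -/
def Rb (n : ℕ) (k : ℕ) : ℝ :=
  (N : ℝ)⁻¹ * Ed p N (fun d => ∫ U, Rs hA (PU (n := n) hA lab th η t a l U d) k ∂ν)

theorem Rb_nonneg (k : ℕ) : 0 ≤ Rb hA lab th η t a l ν n k := by
  unfold Rb
  refine mul_nonneg (by positivity) ?_
  unfold Ed
  exact Finset.sum_nonneg fun d _ => mul_nonneg (dw_nonneg p N d)
    (integral_nonneg fun U => Rs_nonneg hA (PU_isProb hA lab th η t a l U d) k)

theorem Rb_le_one (hN : 0 < N) (k : ℕ) : Rb hA lab th η t a l ν n k ≤ 1 := by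
  unfold Rb
  have hN' : (0:ℝ) < N := by exact_mod_cast hN
  rw [inv_mul_le_iff₀ hN', mul_one]
  have h := abs_dav_le (p := p) (N := N) (ν := ν) hN
    (f := fun d U => Rs hA (PU (n := n) hA lab th η t a l U d) k) (c := N) hN'.le (fun d => by
      filter_upwards with U
      rw [abs_of_nonneg (Rs_nonneg hA (PU_isProb hA lab th η t a l U d) k)]
      exact Rs_le hA (PU_isProb hA lab th η t a l U d) k)
  exact (le_abs_self _).trans h

theorem Rb_mono {k k' : ℕ} (h : k ≤ k') :
    Rb hA lab th η t a l ν n k ≤ Rb hA lab th η t a l ν n k' := by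
  unfold Rb
  refine mul_le_mul_of_nonneg_left (Ed_le fun d => ?_) (by positivity)
  exact integral_mono (integrable_Rs hA lab th η t a l ν d k)
    (integrable_Rs hA lab th η t a l ν d k')
    (fun U => Rs_mono hA (PU_isProb hA lab th η t a l U d) h)

variable {ν}
variable (hν : ∀ᵐ U ∂ν, U ∈ Rot.OK N)

include hν in
/-- derivative in the main strengths -/
theorem Fa_close (hN : 0 < N) (hn : 0 < n) (g : Fin p.nc) (hc : |a g| ≤ Real.sqrt n / 8) :
    |((N : ℝ)⁻¹ * Eo n hA ν lab th η t a l (fun _ => Va A n g) - a g) -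
      (- (a g * (((p.nc : ℝ) + 1)⁻¹ * ∑ g' ∈ Ico (g : ℕ) p.nc,
        Rb hA lab th η t a l ν n (p.mt g'))))| ≤ 52 * (a g) ^ 2 / Real.sqrt n := by
  have hN' : (0:ℝ) < N := by exact_mod_cast hN
  obtain ⟨cV, _, hcV⟩ := ae_bound hν (f := fun _ => Va A n g) (fun s => continuous_const)
  have h1 : ∀ d : DD p N, Integrable (fun U => eE (PU (n := n) hA lab th η t a l U d)
      (fun ω => Va A n g ω.1)) ν := fun d =>
    integrable_eE_PP (SY.base p n A hA) ν (H := HF A n lab th η t a l) (V := fun _ => Va A n g)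
      (fun s => (continuous_HF lab th η t a l s).measurable) (fun s => measurable_const) hcV d
  have h2 : ∀ d : DD p N, Integrable (fun U => a g * (N - ((p.nc : ℝ) + 1)⁻¹ *
      ∑ g' ∈ Ico (g : ℕ) p.nc, Rs hA (PU (n := n) hA lab th η t a l U d) (p.mt g'))) ν := by
    intro d
    refine Integrable.const_mul ?_ _
    refine (integrable_const _).sub (Integrable.const_mul ?_ _)
    exact integrable_finsetSum _ fun g' _ => integrable_Rs hA lab th η t a l ν d _
  have h3 := abs_dav_sub_le (p := p) (ν := ν) hN h1 h2 (c := N * (52 * (a g) ^ 2 / Real.sqrt n))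
    (fun d => Filter.Eventually.of_forall fun U => main_field hA lab th η t a l U d hn g hc)
  have e1 : Ed p N (fun d => ∫ U, a g * (N - ((p.nc : ℝ) + 1)⁻¹ *
      ∑ g' ∈ Ico (g : ℕ) p.nc, Rs hA (PU (n := n) hA lab th η t a l U d) (p.mt g')) ∂ν) =
      a g * (N - ((p.nc : ℝ) + 1)⁻¹ * ∑ g' ∈ Ico (g : ℕ) p.nc,
        (N * Rb hA lab th η t a l ν n (p.mt g'))) := by
    have e2 : ∀ d : DD p N, ∫ U, a g * (N - ((p.nc : ℝ) + 1)⁻¹ *
      ∑ g' ∈ Ico (g : ℕ) p.nc, Rs hA (PU (n := n) hA lab th η t a l U d) (p.mt g')) ∂ν =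
        a g * (N - ((p.nc : ℝ) + 1)⁻¹ * ∑ g' ∈ Ico (g : ℕ) p.nc,
          ∫ U, Rs hA (PU (n := n) hA lab th η t a l U d) (p.mt g') ∂ν) := by
      intro d
      rw [integral_const_mul, integral_sub (integrable_const _) (Integrable.const_mul
        (integrable_finsetSum _ fun g' _ => integrable_Rs hA lab th η t a l ν d _) _),
        integral_const_mul, integral_finsetSum _ fun g' _ =>
          integrable_Rs hA lab th η t a l ν d _]
      simp
    simp only [e2]
    rw [Ed_smul', Ed_sub', Ed_const' hN, Ed_smul']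
    congr 3
    unfold Rb
    have e3 : ∀ g', (N : ℝ) * ((N : ℝ)⁻¹ * Ed p N (fun d => ∫ U, Rs hA
        (PU (n := n) hA lab th η t a l U d) (p.mt g') ∂ν)) = Ed p N (fun d => ∫ U, Rs hA
        (PU (n := n) hA lab th η t a l U d) (p.mt g') ∂ν) := by
      intro g'
      field_simp
    simp only [e3]
    unfold Ed
    simp only [Finset.mul_sum]
    rw [Finset.sum_comm]
  rw [e1] at h3
  have e4 : Eo n hA ν lab th η t a l (fun _ => Va A n g) = Ed p N (fun d => ∫ U,
      eE (PU (n := n) hA lab th η t a l U d) (fun ω => Va A n g ω.1) ∂ν) := rfl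
  rw [← e4] at h3
  have e5 : ((N : ℝ)⁻¹ * Eo n hA ν lab th η t a l (fun _ => Va A n g) - a g) -
      (- (a g * (((p.nc : ℝ) + 1)⁻¹ * ∑ g' ∈ Ico (g : ℕ) p.nc,
        Rb hA lab th η t a l ν n (p.mt g')))) =
      (N : ℝ)⁻¹ * (Eo n hA ν lab th η t a l (fun _ => Va A n g) -
        a g * (N - ((p.nc : ℝ) + 1)⁻¹ * ∑ g' ∈ Ico (g : ℕ) p.nc,
          (N * Rb hA lab th η t a l ν n (p.mt g')))) := by
    rw [← Finset.mul_sum]
    field_simp
    ring
  rw [e5, abs_mul, abs_of_pos (inv_pos.2 hN'), inv_mul_le_iff₀ hN']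
  exact h3

include hν in
/-- derivative in the auxiliary strengths -/
theorem Fl_bound (hN : 0 < N) (hn : 0 < n) (hη : 0 ≤ η) (j : κ × Fin p.nc)
    (hl : ∀ j, 0 ≤ l j ∧ l j ≤ 2)
    (hc : 2 * Real.sqrt η * Real.sqrt N ≤ Real.sqrt n / 8) :
    |(N : ℝ)⁻¹ * Eo n hA ν lab th η t a l (Vl A n lab η j)| ≤
      2 * η + Real.sqrt η * (52 * (2 * Real.sqrt η) ^ 2 * Real.sqrt N ^ 3 / Real.sqrt n) := by
  have hN' : (0:ℝ) < N := by exact_mod_cast hN
  rw [abs_mul, abs_of_pos (inv_pos.2 hN'), inv_mul_le_iff₀ hN']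
  have h := abs_dav_le (p := p) (N := N) (ν := ν) hN
    (f := fun d U => eE (PU (n := n) hA lab th η t a l U d) (fun ω => Vl A n lab η j U ω.1))
    (c := 2 * η * N + Real.sqrt η * (N * (52 * (2 * Real.sqrt η) ^ 2 * Real.sqrt N ^ 3 /
        Real.sqrt n))) (by positivity) (fun d => by
      filter_upwards [hν] with U hU
      exact small_field hA lab th η t a l d hU hn hη j hl hc)
  refine h.trans (le_of_eq ?_)
  ring

end

end Crest.Agent.R164.US
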