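import Crest.Agent.R164.UDef

/-!
Row 164, upper bound assembly (helper466): removal of the small fields.
-/

set_option autoImplicit false
set_option linter.unusedSectionVars false

namespace Crest.Agent.R164.US

open Finset MeasureTheory Crest.Agent.R141 Crest.Agent.R164
open Crest.ProbabilityR.InvariantGlass

noncomputable section

variable {p : Par} {N n : ℕ} {A : Finset (Fin N → Bool)} (hA : A.Nonempty)
variable {κ : Type} [Fintype κ] [DecidableEq κ] (lab : Fin N → κ) (th : κ → ℝ)
    (η t : ℝ) (a : Fin p.nc → ℝ) (l : κ × Fin p.nc → ℝ)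
variable {ν : Measure (Fin N → Fin N → ℝ)} [IsProbabilityMeasure ν]
variable (hν : ∀ᵐ U ∂ν, U ∈ Rot.OK N)

include hν in
/-- the small fields can be removed at the cost of the derivatives at `l`. -/
theorem FN_shift (hN : 0 < N) :
    FN n hA ν lab th η t a l ≤ FN n hA ν lab th η t a (fun _ => 0) +
      ∑ j, l j * ((N : ℝ)⁻¹ * Eo n hA ν lab th η t a l (Vl A n lab η j)) := by
  have hN' : (0:ℝ) < N := by exact_mod_cast hN
  obtain ⟨c1, _, h1⟩ := ae_bound hν (continuous_HF (A := A) (n := n) lab th η t a l)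
  obtain ⟨c2, _, h2⟩ := ae_bound hν (continuous_HF (A := A) (n := n) (p := p) lab th η t a
    (fun _ => 0))
  have hl : ∀ j : κ × Fin p.nc, ∃ c, 0 ≤ c ∧ ∀ᵐ U ∂ν, ∀ s : SY.SS p n A,
      |Vl A n lab η j U s| ≤ c := fun j => ae_bound hν (continuous_Vl lab η j)
  choose cl _ hcl using hl
  have hHm : ∀ l : κ × Fin p.nc → ℝ, ∀ s : SY.SS p n A,
      Measurable fun U => HF A n lab th η t a l U s := fun l s =>
    (continuous_HF lab th η t a l s).measurable
  have hVm : ∀ j : κ × Fin p.nc, ∀ s : SY.SS p n A, Measurable fun U => Vl A n lab η j U s :=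
    fun j s => (continuous_Vl lab η j s).measurable
  have hIV : ∀ (j : κ × Fin p.nc) (d : DD p N), Integrable (fun U =>
      eE (PU (n := n) hA lab th η t a l U d) (fun ω => Vl A n lab η j U ω.1)) ν := fun j d =>
    integrable_eE_PP (SY.base p n A hA) ν (H := HF A n lab th η t a l) (V := Vl A n lab η j)
      (hHm l) (hVm j) (hcl j) d
  have key : ∀ d : DD p N, ∫ U, G.Phi (SY.base p n A hA) (HF A n lab th η t a l U) d ∂ν ≤
      ∫ U, G.Phi (SY.base p n A hA) (HF A n lab th η t a (fun _ => 0) U) d ∂ν +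
      ∑ j, l j * ∫ U, eE (PU (n := n) hA lab th η t a l U d)
        (fun ω => Vl A n lab η j U ω.1) ∂ν := by
    intro d
    have e1 : ∑ j, l j * ∫ U, eE (PU (n := n) hA lab th η t a l U d)
        (fun ω => Vl A n lab η j U ω.1) ∂ν = ∫ U, ∑ j, l j * eE (PU (n := n) hA lab th η t a l U d)
        (fun ω => Vl A n lab η j U ω.1) ∂ν := by
      rw [integral_finsetSum _ fun j _ => (hIV j d).const_mul _]
      exact Finset.sum_congr rfl fun j _ => (integral_const_mul _ _).symm
    rw [e1, ← integral_add (integrable_Phi (SY.base p n A hA) ν (hHm _) h2 d)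
      (integrable_finsetSum _ fun j _ => (hIV j d).const_mul _)]
    refine integral_mono (integrable_Phi (SY.base p n A hA) ν (hHm _) h1 d)
      ((integrable_Phi (SY.base p n A hA) ν (hHm _) h2 d).add
      (integrable_finsetSum _ fun j _ => (hIV j d).const_mul _)) fun U => ?_
    have h3 := Phi_add_ge (SY.base p n A hA) (SY.base_SF_zero hA) (HF A n lab th η t a l U)
      (fun s => - ∑ j, l j * Vl A n lab η j U s) d
    have e2 : (fun s : SY.SS p n A => HF A n lab th η t a l U s + - ∑ j, l j * Vl A n lab η j U s) =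
        HF A n lab th η t a (fun _ => 0) U := by
      funext s
      rw [HF_eq, HF_eq]
      simp
    have e3 : eE (G.PP (SY.base p n A hA) (HF A n lab th η t a l U) d)
        (fun ω => - ∑ j, l j * Vl A n lab η j U ω.1) =
        - ∑ j, l j * eE (PU (n := n) hA lab th η t a l U d) (fun ω => Vl A n lab η j U ω.1) := by
      have : (fun ω : G.Om (SY.base p n A hA) => - ∑ j, l j * Vl A n lab η j U ω.1) =
          fun ω => (-1) * ∑ j, l j * Vl A n lab η j U ω.1 := by funext ω; ring
      rw [this, eE_smul, eE_sum]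
      simp only [eE_smul]
      ring
    have h4 : G.Phi (SY.base p n A hA) (fun s : SY.SS p n A => HF A n lab th η t a l U s +
        - ∑ j, l j * Vl A n lab η j U s) d =
        G.Phi (SY.base p n A hA) (HF A n lab th η t a (fun _ => 0) U) d := by rw [e2]
    rw [e3] at h3
    have h5 := h3.trans (le_of_eq h4)
    show G.Phi (SY.base p n A hA) (HF A n lab th η t a l U) d ≤
      G.Phi (SY.base p n A hA) (HF A n lab th η t a (fun _ => 0) U) d +
      ∑ j, l j * eE (PU (n := n) hA lab th η t a l U d) (fun ω => Vl A n lab η j U ω.1)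
    linarith
  have h6 : FP n hA ν lab th η t a l ≤ FP n hA ν lab th η t a (fun _ => 0) +
      ∑ j, l j * Eo n hA ν lab th η t a l (Vl A n lab η j) := by
    have h7 := Ed_le (p := p) (N := N) key
    refine h7.trans (le_of_eq ?_)
    unfold FP EP Eo Ed
    simp only [mul_add, Finset.sum_add_distrib, Finset.mul_sum]
    congr 1
    rw [Finset.sum_comm]
    refine Finset.sum_congr rfl fun j _ => Finset.sum_congr rfl fun d _ => ?_
    ring
  have h8 := mul_le_mul_of_nonneg_left h6 (inv_nonneg.2 hN'.le)
  unfold FN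
  rw [mul_add, Finset.mul_sum] at h8
  have e9 : ∑ j, (N : ℝ)⁻¹ * (l j * Eo n hA ν lab th η t a l (Vl A n lab η j)) =
      ∑ j, l j * ((N : ℝ)⁻¹ * Eo n hA ν lab th η t a l (Vl A n lab η j)) :=
    Finset.sum_congr rfl fun j _ => by ring
  rw [e9] at h8
  linarith

end

end Crest.Agent.R164.US
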