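import Crest.Agent.R164.Sys164
import Crest.Agent.R164.GSpin
import Crest.Agent.R164.ObsConc
import Crest.Agent.R164.Haar

/-!
Row 164, upper bound assembly (helper466): the averaged enriched free energy as a function of the
parameters, its derivatives and continuity.
-/

set_option autoImplicit false

namespace Crest.Agent.R164.US

open Finset MeasureTheory Crest.Agent.R141 Crest.Agent.R164

noncomputable section

/-! ### General base system -/

section gen

variable {p : Par} {N : ℕ} (B : G.Base p N)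

/-- Lipschitz continuity of the free energy in the Hamiltonian. -/
theorem Phi_le_add {H H' : B.S → ℝ} {c : ℝ} (h : ∀ s, H s ≤ H' s + c) (d : DD p N) :
    G.Phi B H d ≤ G.Phi B H' d + c := by
  have hP := G.prior_isProb B
  have h1 : ∀ ω, A (G.prior B) (G.fil B) p.xs (G.UU B H d) 0 ω ≤
      A (G.prior B) (G.fil B) p.xs (G.UU B H' d) 0 ω + c := by
    intro ω
    rw [← A_add_const hP p.xs_expo.pos]
    refine A_mono hP p.xs_expo.pos (fun w => ?_) 0 ω
    unfold G.UU
    have := h w.1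
    linarith
  unfold G.Phi
  calc eE (G.prior B) (A (G.prior B) (G.fil B) p.xs (G.UU B H d) 0)
      ≤ eE (G.prior B) (fun ω => A (G.prior B) (G.fil B) p.xs (G.UU B H' d) 0 ω + c) :=
        eE_mono hP h1
    _ = _ := by rw [eE_add, eE_const hP]

theorem abs_Phi_sub_le {H H' : B.S → ℝ} {c : ℝ} (h : ∀ s, |H s - H' s| ≤ c) (d : DD p N) :
    |G.Phi B H d - G.Phi B H' d| ≤ c := by
  rw [abs_le]
  constructor
  · have := Phi_le_add B (H := H') (H' := H) (c := c)
      (fun s => by have := (abs_le.1 (h s)).1; linarith) d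
    linarith
  · have := Phi_le_add B (H := H) (H' := H') (c := c)
      (fun s => by have := (abs_le.1 (h s)).2; linarith) d
    linarith

theorem abs_Phi_le {H : B.S → ℝ} {c : ℝ} (h : ∀ s, |H s| ≤ c) (d : DD p N) :
    |G.Phi B H d| ≤ c + |G.Phi B (fun _ => 0) d| := by
  have h1 := abs_Phi_sub_le B (H := H) (H' := fun _ => 0) (c := c)
    (fun s => by simpa using h s) d
  have h2 := abs_sub_abs_le_abs_sub (G.Phi B H d) (G.Phi B (fun _ => 0) d)
  linarith

/-- derivative of the free energy along a line. -/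
theorem hasDerivAt_Phi (h0 : B.SF 0 = ⊤) (H V : B.S → ℝ) (d : DD p N) (e : ℝ) :
    HasDerivAt (fun y : ℝ => G.Phi B (fun s => H s + y * V s) d)
      (eE (G.PP B (fun s => H s + e * V s) d) (fun ω => V ω.1)) e := by
  have h := ObsConc.hasDerivAt_gA (𝓕 := G.fil B) (G.prior_isProb B) p.xs_expo.pos
    (G.fil_zero B h0) (G.UU B H d) (fun ω => V ω.1) e
  have e1 : ∀ y : ℝ, (fun w : G.Om B => G.UU B H d w + y * V w.1) =
      G.UU B (fun s => H s + y * V s) d := by
    intro y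
    funext w
    unfold G.UU
    ring
  have e2 : (fun y : ℝ => G.Phi B (fun s => H s + y * V s) d) =
      ObsConc.gA (G.prior B) (G.fil B) p.xs (G.UU B H d) (fun ω => V ω.1) := by
    funext y
    unfold ObsConc.gA G.Phi
    rw [e1]
  have e3 : G.PP B (fun s => H s + e * V s) d =
      ObsConc.tQ (G.prior B) (G.fil B) p.xs (G.UU B H d) (fun ω => V ω.1) e := by
    unfold ObsConc.tQ G.PP
    rw [e1]
  rw [e2, e3]
  exact h

/-- supporting line inequality: `Phi(H) + E^{P_H} V ≤ Phi(H + V)`. -/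
theorem Phi_add_ge (h0 : B.SF 0 = ⊤) (H V : B.S → ℝ) (d : DD p N) :
    G.Phi B H d + eE (G.PP B H d) (fun ω => V ω.1) ≤ G.Phi B (fun s => H s + V s) d := by
  have hP := G.prior_isProb B
  have hQ := G.PP_isProb B H d
  have h := G.Phi_add B H V d
  have h1 : eE (G.PP B H d) (fun ω => V ω.1) ≤
      eE (G.prior B) (A (G.PP B H d) (G.fil B) p.xs (fun ω => V ω.1) 0) := by
    have h2 : ∀ ω, eE (G.PP B H d) (fun ω => V ω.1) ≤
        A (G.PP B H d) (G.fil B) p.xs (fun ω => V ω.1) 0 ω := by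
      intro ω
      rw [← ObsConc.cE_top (G.fil_zero B h0) hQ (fun ω => V ω.1) ω]
      exact cE_le_A (𝓕 := G.fil B) hQ p.xs_expo.pos (fun ω => V ω.1) 0 ω
    calc eE (G.PP B H d) (fun ω => V ω.1)
        = eE (G.prior B) (fun _ => eE (G.PP B H d) (fun ω => V ω.1)) := (eE_const hP _).symm
      _ ≤ _ := eE_mono hP h2
  linarith

variable {Θ : Type} [MeasurableSpace Θ] (ν : Measure Θ) [IsProbabilityMeasure ν]

theorem meas_Phi {H : Θ → B.S → ℝ} (hH : ∀ s, Measurable fun θ => H θ s) (d : DD p N) :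
    Measurable fun θ => G.Phi B (H θ) d := by
  unfold G.Phi
  exact G.meas_eE (fun _ => measurable_const)
    (fun ω => G.meas_A (G.prior_isProb B) p.xs_expo.pos (fun ω => G.meas_UU B hH d ω) 0 ω)

theorem integrable_Phi {H : Θ → B.S → ℝ} (hH : ∀ s, Measurable fun θ => H θ s) {c : ℝ}
    (hc : ∀ᵐ θ ∂ν, ∀ s, |H θ s| ≤ c) (d : DD p N) :
    Integrable (fun θ => G.Phi B (H θ) d) ν := by
  refine Integrable.of_bound (meas_Phi B hH d).aestronglyMeasurable
    (c + |G.Phi B (fun _ => 0) d|) ?_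
  filter_upwards [hc] with θ hθ
  exact abs_Phi_le B hθ d

theorem integrable_eE_PP {H V : Θ → B.S → ℝ} (hH : ∀ s, Measurable fun θ => H θ s)
    (hV : ∀ s, Measurable fun θ => V θ s) {c : ℝ}
    (hc : ∀ᵐ θ ∂ν, ∀ s, |V θ s| ≤ c) (d : DD p N) :
    Integrable (fun θ => eE (G.PP B (H θ) d) (fun ω => V θ ω.1)) ν := by
  refine Integrable.of_bound (G.meas_eE (fun ω => G.meas_PP B hH d ω)
    (fun ω => hV ω.1)).aestronglyMeasurable c ?_
  filter_upwards [hc] with θ hθ
  rw [Real.norm_eq_abs]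
  refine (Crest.Agent.R141.eE_abs_le (G.PP_isProb B _ d) _).trans ?_
  exact eE_le_of_le (G.PP_isProb B _ d) fun a => hθ a.1

/-- averaged free energy -/
def EP (H : Θ → B.S → ℝ) : ℝ := Ed p N (fun d => ∫ θ, G.Phi B (H θ) d ∂ν)

/-- derivative of the averaged free energy along a line. -/
theorem hasDerivAt_EP (h0 : B.SF 0 = ⊤) {H V : Θ → B.S → ℝ}
    (hH : ∀ s, Measurable fun θ => H θ s) (hV : ∀ s, Measurable fun θ => V θ s) {cH cV : ℝ}
    (hcH : ∀ᵐ θ ∂ν, ∀ s, |H θ s| ≤ cH) (hcV : ∀ᵐ θ ∂ν, ∀ s, |V θ s| ≤ cV) (e : ℝ) :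
    HasDerivAt (fun y : ℝ => EP B ν (fun θ s => H θ s + y * V θ s))
      (Ed p N (fun d => ∫ θ, eE (G.PP B (fun s => H θ s + e * V θ s) d)
        (fun ω => V θ ω.1) ∂ν)) e := by
  unfold EP Ed
  refine HasDerivAt.fun_sum fun d _ => HasDerivAt.const_mul _ ?_
  have hHy : ∀ y : ℝ, ∀ s, Measurable fun θ => H θ s + y * V θ s := fun y s =>
    (hH s).add ((hV s).const_mul y)
  refine (hasDerivAt_integral_of_dominated_loc_of_deriv_le (bound := fun _ => cV)
    (F := fun y θ => G.Phi B (fun s => H θ s + y * V θ s) d)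
    (F' := fun y θ => eE (G.PP B (fun s => H θ s + y * V θ s) d) (fun ω => V θ ω.1))
    (s := Set.univ) Filter.univ_mem ?_ ?_ ?_ ?_ ?_ ?_).2
  · exact Filter.Eventually.of_forall fun y =>
      (meas_Phi B (hHy y) d).aestronglyMeasurable
  · refine integrable_Phi B ν (hHy e) (c := cH + |e| * cV) ?_ d
    filter_upwards [hcH, hcV] with θ h1 h2 s
    refine (abs_add_le _ _).trans ?_
    rw [abs_mul]
    exact add_le_add (h1 s) (mul_le_mul_of_nonneg_left (h2 s) (abs_nonneg _))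
  · exact (integrable_eE_PP B ν (hHy e) hV hcV d).aestronglyMeasurable
  · filter_upwards [hcV] with θ h2 y _
    rw [Real.norm_eq_abs]
    refine (Crest.Agent.R141.eE_abs_le (G.PP_isProb B _ d) _).trans ?_
    exact eE_le_of_le (G.PP_isProb B _ d) fun a => h2 a.1
  · exact integrable_const _
  · filter_upwards with θ y _
    exact hasDerivAt_Phi B h0 (H θ) (V θ) d y

theorem EP_le_add (hN : 0 < N) {H H' : Θ → B.S → ℝ} (hH : ∀ s, Measurable fun θ => H θ s)
    (hH' : ∀ s, Measurable fun θ => H' θ s) {c cH cH' : ℝ}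
    (hcH : ∀ᵐ θ ∂ν, ∀ s, |H θ s| ≤ cH) (hcH' : ∀ᵐ θ ∂ν, ∀ s, |H' θ s| ≤ cH')
    (h : ∀ᵐ θ ∂ν, ∀ s, H θ s ≤ H' θ s + c) : EP B ν H ≤ EP B ν H' + c := by
  unfold EP Ed
  have h1 : ∑ d, dw p N d * ∫ θ, G.Phi B (H θ) d ∂ν ≤
      ∑ d, dw p N d * (∫ θ, G.Phi B (H' θ) d ∂ν + c) := by
    refine Finset.sum_le_sum fun d _ => mul_le_mul_of_nonneg_left ?_ (dw_nonneg p N d)
    calc ∫ θ, G.Phi B (H θ) d ∂ν ≤ ∫ θ, (G.Phi B (H' θ) d + c) ∂ν := by
          refine integral_mono_ae (integrable_Phi B ν hH hcH d)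
            ((integrable_Phi B ν hH' hcH' d).add (integrable_const _)) ?_
          filter_upwards [h] with θ hθ
          exact Phi_le_add B hθ d
      _ = _ := by
          rw [integral_add (integrable_Phi B ν hH' hcH' d) (integrable_const _)]
          simp
  refine h1.trans (le_of_eq ?_)
  simp only [mul_add, Finset.sum_add_distrib, ← Finset.sum_mul]
  rw [dw_sum p hN, one_mul]

theorem abs_EP_sub_le (hN : 0 < N) {H H' : Θ → B.S → ℝ} (hH : ∀ s, Measurable fun θ => H θ s)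
    (hH' : ∀ s, Measurable fun θ => H' θ s) {c cH cH' : ℝ}
    (hcH : ∀ᵐ θ ∂ν, ∀ s, |H θ s| ≤ cH) (hcH' : ∀ᵐ θ ∂ν, ∀ s, |H' θ s| ≤ cH')
    (h : ∀ᵐ θ ∂ν, ∀ s, |H θ s - H' θ s| ≤ c) : |EP B ν H - EP B ν H'| ≤ c := by
  rw [abs_le]
  constructor
  · have := EP_le_add B ν hN hH' hH hcH' hcH (c := c) (by
      filter_upwards [h] with θ hθ s
      have := (abs_le.1 (hθ s)).1; linarith)
    linarith
  · have := EP_le_add B ν hN hH hH' hcH hcH' (c := c) (by
      filter_upwards [h] with θ hθ s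
      have := (abs_le.1 (hθ s)).2; linarith)
    linarith

end gen

end

end Crest.Agent.R164.US
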