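import Crest.Agent.R164.UAsm4
import Crest.Agent.R164.UHConc
import Crest.Agent.R164.UInit
import Crest.Agent.R164.UCoer
import Crest.Agent.R164.LPen2

/-!
Row 164, upper bound assembly (helper466): `Mag.UB` for finite spectra from `HStr`.
-/

set_option autoImplicit false

namespace Crest.Agent.R164.US

open MeasureTheory Crest.Agent.R141 Crest.Agent.R164
open Crest.ProbabilityR.InvariantGlass

/-- **(UB)** for finite spectra from the structure input `HStr`. -/
theorem ub_of {K : ℕ} {w val : Fin (K + 1) → ℝ} (hStr : HStr K w val)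
    {Ω : Type} [MeasurableSpace Ω] {P : Measure Ω} [IsProbabilityMeasure P]
    {Us : (N : ℕ) → Ω → (Fin N → Fin N → ℝ)} (hmeas : ∀ N, Measurable (Us N))
    (horth : ∀ N, ∀ᵐ ω ∂P, Matrix.of (Us N ω) ∈ Matrix.orthogonalGroup (Fin N) ℝ)
    (hHaar : ∀ (N : ℕ) (O : Matrix (Fin N) (Fin N) ℝ), O ∈ Matrix.orthogonalGroup (Fin N) ℝ →
      P.map (fun ω => fun i j => (Matrix.of (Us N ω) * O) i j) = P.map (Us N))
    (hv : StrictMono val) (hw : ∀ k, 0 < w k) (hs : ∑ k, w k = 1)
    (labE : (N : ℕ) → Fin N → Fin (K + 1))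
    (hlabE : ∀ k, Filter.Tendsto (fun N : ℕ =>
      ((Finset.univ.filter fun i : Fin N => labE N i = k).card : ℝ) / (N : ℝ)) Filter.atTop
        (nhds (w k))) :
    Mag.UB (Atomic.atomic w val) (val (Fin.last K)) (fun N i => val (labE N i)) P Us := by
  intro J γ hγ hγs lab hlab l u hlu hlu1 m hm hbox q hq r hr ε hε
  have h := upper_bound hv hw hs hStr (CSys.hConc K val) (hInit K val) (hCoer K val) labE hlabE
    (fun N => P.map (Us N)) (fun N => Measure.isProbabilityMeasure_map (hmeas N).aemeasurable)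
    (fun N => Mag.rHaar_map (hmeas N) (horth N) (hHaar N)) hγ hγs lab hlab hlu hlu1 hm hbox hq hr hε
  filter_upwards [h] with N hN
  rw [Mag.int_pressG_map (hmeas N)]
  exact hN

end Crest.Agent.R164.US
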