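import Crest.Agent.R164.ZUp
import Crest.Agent.R164.Mag1
import Crest.Agent.R164.FieldCrit
import Crest.Agent.R164.PAlg2

/-!
Row 164 (helper399): (Z1), the initial value `F(0, a, lam)` of the comparison.
-/

set_option autoImplicit false

namespace Crest.Agent.R164.Z

open Finset Crest.Agent.R141 Crest.Agent.R141.SysF Crest.Agent.R141.SysIC Crest.Agent.R164
  Crest.Agent.R164.SY Crest.Agent.R164.CoinG
open Crest.ProbabilityR.InvariantGlass

noncomputable section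

/-! ### the constrained one-site value as a real number -/

/-- one-site value of the cell field -/
def lb (nc : ℕ) (a : Fin nc → ℝ) (b : ℝ) : ℝ := fieldValueAt b (wc nc) (hc nc a)

/-- constrained one-site value -/
def cst (nc : ℕ) (a : Fin nc → ℝ) (s : ℝ) : ℝ := ⨅ b : ℝ, (lb nc a b - b * s)

/-- upper bound for the recursion at zero -/
def cU (nc : ℕ) (a : Fin nc → ℝ) : ℝ := ∑ g : Fin nc, (Real.log 2 / xc nc g + xc nc g * a g ^ 2 / 2)

theorem lb_eq (nc : ℕ) (a : Fin nc → ℝ) (b : ℝ) :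
    lb nc a b = gRec (xc nc) a (List.finRange nc) lc b - (∑ g, a g ^ 2) / 2 :=
  fieldValueAt_hc nc a b

theorem lb_ge {nc : ℕ} {a : Fin nc → ℝ} (ha : ∀ g, 0 ≤ a g) (b : ℝ) :
    |b| - Real.log 2 - (∑ g, a g ^ 2) / 2 ≤ lb nc a b := by
  rw [lb_eq]
  have := gRec_ge (x := xc nc) xc_pos a ha (List.finRange nc) b
  linarith

theorem lb_zero_le {nc : ℕ} {a : Fin nc → ℝ} (ha : ∀ g, 0 ≤ a g) :
    lb nc a 0 ≤ cU nc a - (∑ g, a g ^ 2) / 2 := by
  rw [lb_eq]
  have := gRec_le (x := xc nc) xc_pos a ha (List.finRange nc) 0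
  rw [sum_finRange, abs_zero, zero_add] at this
  unfold cU
  linarith

theorem lb_neg (nc : ℕ) (a : Fin nc → ℝ) (b : ℝ) : lb nc a (-b) = lb nc a b :=
  Mag.fieldValueAt_neg b _ _

theorem lb_min (nc : ℕ) (a : Fin nc → ℝ) (b : ℝ) : lb nc a 0 ≤ lb nc a b := by
  have h1 := GC.fieldValueAt_tangent (isStep nc a) 0 b
  have h2 := GC.fieldValueAt_tangent (isStep nc a) 0 (-b)
  rw [Mag.fieldValueAt_neg] at h2
  unfold lb
  linarith

theorem lb_bdd {nc : ℕ} {a : Fin nc → ℝ} (ha : ∀ g, 0 ≤ a g) (s : ℝ) (b : ℝ) :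
    (1 - |s|) * |b| - Real.log 2 - (∑ g, a g ^ 2) / 2 ≤ lb nc a b - b * s := by
  have h1 := lb_ge ha b
  have h2 : b * s ≤ |b| * |s| := by
    rw [← abs_mul]; exact le_abs_self _
  nlinarith [abs_nonneg b]

theorem bddBelow_lb {nc : ℕ} {a : Fin nc → ℝ} (ha : ∀ g, 0 ≤ a g) {s : ℝ} (hs : |s| ≤ 1) :
    BddBelow (Set.range fun b : ℝ => lb nc a b - b * s) := by
  refine ⟨- Real.log 2 - (∑ g, a g ^ 2) / 2, ?_⟩
  rintro _ ⟨b, rfl⟩
  have h1 := lb_bdd ha s b
  have h2 : 0 ≤ (1 - |s|) * |b| := mul_nonneg (by linarith) (abs_nonneg b)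
  simp only
  linarith

theorem cst_le {nc : ℕ} {a : Fin nc → ℝ} (ha : ∀ g, 0 ≤ a g) {s : ℝ} (hs : |s| ≤ 1) (b : ℝ) :
    cst nc a s ≤ lb nc a b - b * s := ciInf_le (bddBelow_lb ha hs) b

theorem cst_le_cU {nc : ℕ} {a : Fin nc → ℝ} (ha : ∀ g, 0 ≤ a g) {s : ℝ} (hs : |s| ≤ 1) :
    cst nc a s ≤ cU nc a := by
  have h1 := cst_le ha hs 0
  have h2 := lb_zero_le ha
  have h3 : 0 ≤ ∑ g, a g ^ 2 := Finset.sum_nonneg fun g _ => sq_nonneg _
  linarith

theorem cst_ge {nc : ℕ} {a : Fin nc → ℝ} (ha : ∀ g, 0 ≤ a g) {s : ℝ} (hs1 : |s| ≤ 1) :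
    - Real.log 2 - (∑ g, a g ^ 2) / 2 ≤ cst nc a s := by
  refine le_ciInf fun b => ?_
  have h1 := lb_bdd ha s b
  have h2 : 0 ≤ (1 - |s|) * |b| := mul_nonneg (sub_nonneg.2 hs1) (abs_nonneg b)
  linarith

theorem constrained_eq {nc : ℕ} {a : Fin nc → ℝ} (ha : ∀ g, 0 ≤ a g) {s : ℝ} (hs : |s| ≤ 1) :
    constrainedFieldValue s (wc nc) (hc nc a) = ((cst nc a s : ℝ) : EReal) := by
  unfold constrainedFieldValue
  have hle : ∀ b : ℝ, (⨅ b : ℝ, ((fieldValueAt b (wc nc) (hc nc a) - b * s : ℝ) : EReal)) ≤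
      ((lb nc a b - b * s : ℝ) : EReal) := fun b => iInf_le _ b
  have hge : ((cst nc a s : ℝ) : EReal) ≤
      ⨅ b : ℝ, ((fieldValueAt b (wc nc) (hc nc a) - b * s : ℝ) : EReal) :=
    le_iInf fun b => EReal.coe_le_coe_iff.2 (cst_le ha hs b)
  refine le_antisymm ?_ hge
  generalize (⨅ b : ℝ, ((fieldValueAt b (wc nc) (hc nc a) - b * s : ℝ) : EReal)) = X at hle hge
  have hX1 : X ≠ ⊤ := ne_top_of_le_ne_top (EReal.coe_ne_top _) (hle 0)
  have hX2 : X ≠ ⊥ := ne_bot_of_le_ne_bot (EReal.coe_ne_bot _) hge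
  lift X to ℝ using ⟨hX1, hX2⟩
  exact EReal.coe_le_coe_iff.2 (le_ciInf fun b => EReal.coe_le_coe_iff.1 (hle b))

/-- near-minimisers of the right sign in a bounded interval -/
theorem exists_near {nc : ℕ} {a : Fin nc → ℝ} (ha : ∀ g, 0 ≤ a g) {s : ℝ} (_hs : |s| < 1)
    {ε : ℝ} (hε : 0 < ε) : ∃ b : ℝ, (1 - |s|) * |b| ≤ Real.log 2 + cU nc a ∧ 0 ≤ b * s ∧
      (s = 0 → b = 0) ∧ lb nc a b - b * s ≤ cst nc a s + ε := by
  by_cases hs0 : s = 0
  · refine ⟨0, ?_, by simp, fun _ => rfl, ?_⟩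
    · have h1 : 0 ≤ cU nc a := Finset.sum_nonneg fun g _ => by
        have := xc_pos g
        have h2 : 0 ≤ Real.log 2 := Real.log_nonneg (by norm_num)
        positivity
      have h2 : 0 ≤ Real.log 2 := Real.log_nonneg (by norm_num)
      simp; linarith
    · have h1 : lb nc a 0 ≤ cst nc a s := by
        refine le_ciInf fun b => ?_
        have := lb_min nc a b
        rw [hs0]; linarith
      linarith
  · obtain ⟨b0, hb0⟩ := exists_lt_of_ciInf_lt (show (⨅ b : ℝ, (lb nc a b - b * s)) < cst nc a s + ε by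
      show cst nc a s < cst nc a s + ε
      linarith)
    -- the sign
    have h1 : ∃ b, 0 ≤ b * s ∧ lb nc a b - b * s < cst nc a s + ε := by
      rcases le_total 0 (b0 * s) with h | h
      · exact ⟨b0, h, hb0⟩
      · refine ⟨-b0, by linarith, ?_⟩
        rw [lb_neg]; linarith
    obtain ⟨b, hb, hb'⟩ := h1
    by_cases hc : lb nc a b - b * s ≤ lb nc a 0
    · refine ⟨b, ?_, hb, fun h => absurd h hs0, hb'.le⟩
      have h2 := lb_bdd ha s b
      have h3 := lb_zero_le ha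
      linarith
    · push Not at hc
      refine ⟨0, ?_, by simp, fun _ => rfl, ?_⟩
      · have h1 : 0 ≤ cU nc a := Finset.sum_nonneg fun g _ => by
          have := xc_pos g
          have h2 : 0 ≤ Real.log 2 := Real.log_nonneg (by norm_num)
          positivity
        have h2 : 0 ≤ Real.log 2 := Real.log_nonneg (by norm_num)
        simp; linarith
      · rw [zero_mul, sub_zero]; linarith

/-! ### the initial value -/

theorem cU_mono {nc : ℕ} {a : Fin nc → ℝ} {Amax : ℝ} (ha : ∀ g, 0 ≤ a g ∧ a g ≤ Amax) :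
    cU nc a ≤ cU nc (fun _ => Amax) := by
  unfold cU
  refine Finset.sum_le_sum fun g _ => ?_
  have h1 := xc_pos g
  have h2 : a g ^ 2 ≤ Amax ^ 2 := pow_le_pow_left₀ (ha g).1 (ha g).2 2
  have h3 := mul_le_mul_of_nonneg_left h2 h1.le
  linarith

theorem cU_nonneg (nc : ℕ) (a : Fin nc → ℝ) : 0 ≤ cU nc a :=
  Finset.sum_nonneg fun g _ => by
    have := xc_pos g
    have h2 : 0 ≤ Real.log 2 := Real.log_nonneg (by norm_num)
    positivity

/-- **(Z1)** upper bound at `t = 0`, uniform in the strengths of the main fields. -/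
theorem Phi_upper (p : Par) (Amax : ℝ) {J : ℕ} (m : Fin J → ℝ) (hm : ∀ j, |m j| < 1) {ε : ℝ}
    (hε : 0 < ε) : ∃ n0 : ℕ, ∀ n, n0 ≤ n → ∀ {N : ℕ} {K : Finset (Fin N → Bool)}
      (hK : K.Nonempty) (lab : Fin N → Fin J),
      (∀ b : Fin J → ℝ, (∀ j, 0 ≤ b j * m j) → (∀ j, m j = 0 → b j = 0) → ∀ σ ∈ K,
        0 ≤ ∑ i, b (lab i) * (sv (σ i) - m (lab i))) →
      ∀ a : Fin p.nc → ℝ, (∀ g, 0 ≤ a g ∧ a g ≤ Amax) →
      ∀ (h0 : (Fin N → Bool) → ℝ) (C0 : ℝ), (∀ σ ∈ K, h0 σ ≤ C0) →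
      ∀ (lam : Fin N → Fin p.nc → ℝ) (x : (Fin N → Bool) → Fin N → ℝ) (κ : ℝ),
      (∀ σ ∈ K, ∑ g, ∑ i, (lam i g * x σ i) ^ 2 ≤ κ) → ∀ d : DD p N,
      Real.log ((K.card : ℝ) * (1 / 2) ^ N) + G.Phi (base p n K hK) (HH h0 a lam x) d ≤
        C0 + ∑ i, cst p.nc a (m (lab i)) + N * ((∑ g, a g ^ 2) / 2) + N * ε + κ / 2 +
        (N * (p.nb * (p.Q : ℝ)⁻¹) + p.τ * Fintype.card (Stp p)) := by
  have hlog2 : 0 ≤ Real.log 2 := Real.log_nonneg (by norm_num)
  set M : ℝ := Real.log 2 + cU p.nc (fun _ => Amax) with hM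
  have hM0 : 0 ≤ M := add_nonneg hlog2 (cU_nonneg _ _)
  set Bm : ℝ := ∑ j, M / (1 - |m j|) with hBm
  have hpos : ∀ j, 0 < 1 - |m j| := fun j => by linarith [hm j]
  have hBj : ∀ j, M / (1 - |m j|) ≤ Bm := fun j =>
    Finset.single_le_sum (f := fun j => M / (1 - |m j|))
      (fun j _ => div_nonneg hM0 (hpos j).le) (Finset.mem_univ j)
  have hcomp : IsCompact ((Set.pi Set.univ fun _ : Fin p.nc => Set.Icc (0:ℝ) Amax) ×ˢ
      Set.Icc (-Bm) Bm) := (isCompact_univ_pi fun _ => isCompact_Icc).prod isCompact_Icc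
  obtain ⟨n0, hn0⟩ := cRec_unif (x := xc p.nc) xc_pos (List.finRange p.nc) lc_lip hcomp
    (fun q hq g => (hq.1 g trivial).1) (half_pos hε)
  refine ⟨n0, fun n hn N K hK lab hbox a ha h0 C0 hh0 lam x κ hκ d => ?_⟩
  have ha0 : ∀ g, 0 ≤ a g := fun g => (ha g).1
  choose b hb1 hb2 hb3 hb4 using fun j => exists_near ha0 (hm j) (half_pos hε)
  have hbB : ∀ j, |b j| ≤ Bm := by
    intro j
    refine le_trans ?_ (hBj j)
    rw [le_div_iff₀ (hpos j), mul_comm]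
    refine (hb1 j).trans ?_
    have := cU_mono ha
    rw [hM]; linarith
  have hlast := hlast_box hK (b := fun i => b (lab i)) (m := fun i => m (lab i))
    (hbox b hb2 hb3)
  have h1 := Phi_le hK h0 hh0 a lam x hκ (ρ := fun i y => lc (b (lab i) + y)) hlast d (n := n)
  have h2 : ∀ i, cRec n (fun g : Fin p.nc => p.xi g) a (List.finRange p.nc)
      (fun y => lc (b (lab i) + y)) 0 ≤ cst p.nc a (m (lab i)) + b (lab i) * m (lab i) +
        (∑ g, a g ^ 2) / 2 + ε := by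
    intro i
    rw [cRec_shift, add_zero]
    have h3 := hn0 n hn (a, b (lab i)) ⟨fun g _ => ha g, abs_le.1 (hbB (lab i))⟩
    have h4 := (abs_lt.1 h3).2
    have h5 := lb_eq p.nc a (b (lab i))
    have h6 := hb4 (lab i)
    have h7 : cRec n (fun g : Fin p.nc => p.xi g) a (List.finRange p.nc) lc (b (lab i)) =
        cRec n (xc p.nc) a (List.finRange p.nc) lc (b (lab i)) := rfl
    rw [h7]
    simp only at h4
    linarith
  have h8 := Finset.sum_le_sum fun i (_ : i ∈ Finset.univ) => h2 i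
  have h9 : ∑ i : Fin N, (cst p.nc a (m (lab i)) + b (lab i) * m (lab i) +
        (∑ g, a g ^ 2) / 2 + ε) = ∑ i, cst p.nc a (m (lab i)) + ∑ i, b (lab i) * m (lab i) +
        N * ((∑ g, a g ^ 2) / 2) + N * ε := by
    rw [Finset.sum_add_distrib, Finset.sum_add_distrib, Finset.sum_add_distrib]
    simp
  rw [h9] at h8
  linarith

/-- the box property -/
theorem box_ineq {N J : ℕ} (lab : Fin N → Fin J) {l u m : Fin J → ℝ}
    (hm : ∀ j, ∀ x ∈ Set.Icc (l j) (u j), |m j| ≤ |x| ∧ 0 ≤ m j * x) (b : Fin J → ℝ)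
    (hb : ∀ j, 0 ≤ b j * m j) (hb0 : ∀ j, m j = 0 → b j = 0) :
    ∀ σ ∈ Mag.boxSet lab l u, 0 ≤ ∑ i, b (lab i) * (sv (σ i) - m (lab i)) := by
  intro σ hσ
  rw [Mag.mem_boxSet] at hσ
  have h1 := Mag.field_eq lab b σ
  have h2 : ∑ i, b (lab i) * m (lab i) =
      ∑ j, b j * (((Finset.univ.filter fun r => lab r = j).card : ℝ) * m j) := by
    rw [← Finset.sum_fiberwise Finset.univ lab (fun r => b (lab r) * m (lab r))]
    refine Finset.sum_congr rfl fun j _ => ?_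
    rw [Finset.sum_congr rfl fun r hr => by
      rw [(Finset.mem_filter.1 hr).2], Finset.sum_const, nsmul_eq_mul]
    ring
  have h3 : ∑ i, b (lab i) * (sv (σ i) - m (lab i)) =
      ∑ r : Fin N, b (lab r) * spinVec σ r - ∑ i, b (lab i) * m (lab i) := by
    rw [← Finset.sum_sub_distrib]
    refine Finset.sum_congr rfl fun i _ => ?_
    rw [mul_sub, sv_eq_spinVec]
  rw [h3, h1, h2, ← Finset.sum_sub_distrib]
  refine Finset.sum_nonneg fun j _ => ?_
  have h4 : b j * (((Finset.univ.filter fun r => lab r = j).card : ℝ) * Mag.mag lab σ j) -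
      b j * (((Finset.univ.filter fun r => lab r = j).card : ℝ) * m j) =
      ((Finset.univ.filter fun r => lab r = j).card : ℝ) * (b j * (Mag.mag lab σ j - m j)) := by
    ring
  rw [h4]
  refine mul_nonneg (Nat.cast_nonneg _) ?_
  obtain ⟨h5, h6⟩ := hm j _ (hσ j)
  rcases lt_trichotomy (m j) 0 with h | h | h
  · have hb' : b j ≤ 0 := by
      by_contra hc
      push Not at hc
      have := mul_neg_of_pos_of_neg hc h
      linarith [hb j]
    have hx : Mag.mag lab σ j ≤ 0 := by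
      by_contra hc
      push Not at hc
      have := mul_neg_of_neg_of_pos h hc
      linarith
    rw [abs_of_neg h, abs_of_nonpos hx] at h5
    exact mul_nonneg_of_nonpos_of_nonpos hb' (by linarith)
  · rw [hb0 j h, zero_mul]
  · have hb' : 0 ≤ b j := by
      by_contra hc
      push Not at hc
      have := mul_neg_of_neg_of_pos hc h
      linarith [hb j]
    have hx : 0 ≤ Mag.mag lab σ j := by
      by_contra hc
      push Not at hc
      have := mul_neg_of_pos_of_neg h hc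
      linarith
    rw [abs_of_pos h, abs_of_nonneg hx] at h5
    exact mul_nonneg hb' (by linarith)

/-! ### the initial value in terms of `S_m(p)` -/

theorem stepFn_hc {nc : ℕ} (a : Fin nc → ℝ) {s : ℝ} (h0 : 0 < s) (h1 : s < 1) :
    stepFn (wc nc) (hc nc a) s = ∑ g : Fin nc, if xc nc g < s then a g ^ 2 else 0 := by
  obtain ⟨i, hi1, hi2⟩ := PAlg.exists_cell (wc_sum nc) h0 h1.le
  rw [PAlg.stepFn_cell (wc_pos nc) (hc nc a) ⟨hi1, hi2⟩]
  unfold hc
  refine Finset.sum_congr rfl fun g _ => ?_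
  have hn : (0:ℝ) < (nc:ℝ) + 1 := by positivity
  have e1 : leftEnd (wc nc) i = (i : ℝ) / ((nc : ℝ) + 1) := leftEnd_wc nc i
  have e2 : leftEnd (wc nc) i + wc nc i = ((i : ℝ) + 1) / ((nc : ℝ) + 1) := by
    rw [e1, wc]; ring
  rw [e2] at hi2
  rw [e1] at hi1
  by_cases hg : (g : ℕ) < (i : ℕ)
  · rw [if_pos hg, if_pos]
    refine lt_of_le_of_lt ?_ hi1
    unfold xc
    apply div_le_div_of_nonneg_right _ hn.le
    exact_mod_cast hg
  · rw [if_neg hg, if_neg]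
    rw [not_lt]
    refine hi2.trans ?_
    unfold xc
    apply div_le_div_of_nonneg_right _ hn.le
    have : ((i : ℕ) : ℝ) ≤ ((g : ℕ) : ℝ) := by exact_mod_cast not_lt.1 hg
    linarith

open MeasureTheory in
theorem integral_hc {nc : ℕ} {pp : ℝ → ℝ} (hpp : IsTrialPath pp) (a : Fin nc → ℝ) :
    ∫ s in Set.Ioo (0 : ℝ) 1, pp s * stepFn (wc nc) (hc nc a) s =
      ∑ g, a g ^ 2 * ∫ s in Set.Ioo (xc nc g) 1, pp s := by
  have hint : IntegrableOn pp (Set.Ioo (0:ℝ) 1) := by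
    refine Measure.integrableOn_of_bounded (M := 1) (by simp) hpp.1.aestronglyMeasurable ?_
    refine (ae_restrict_iff' measurableSet_Ioo).2 (Filter.Eventually.of_forall fun s hs => ?_)
    have := hpp.2.2 s hs
    rw [Real.norm_eq_abs, abs_of_nonneg this.1]
    exact this.2
  have h1 : ∫ s in Set.Ioo (0 : ℝ) 1, pp s * stepFn (wc nc) (hc nc a) s =
      ∫ s in Set.Ioo (0 : ℝ) 1, ∑ g : Fin nc, a g ^ 2 * (Set.Ioi (xc nc g)).indicator pp s := by
    refine setIntegral_congr_fun measurableSet_Ioo fun s hs => ?_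
    rw [stepFn_hc a hs.1 hs.2, Finset.mul_sum]
    refine Finset.sum_congr rfl fun g _ => ?_
    by_cases hg : xc nc g < s
    · rw [if_pos hg, Set.indicator_of_mem (by exact hg)]; ring
    · rw [if_neg hg, Set.indicator_of_notMem (by exact hg)]; ring
  rw [h1, integral_finsetSum _ fun g _ => ?_]
  · refine Finset.sum_congr rfl fun g _ => ?_
    rw [integral_const_mul]
    congr 1
    rw [setIntegral_indicator measurableSet_Ioi]
    congr 2
    ext s
    simp only [Set.mem_inter_iff, Set.mem_Ioo, Set.mem_Ioi]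
    constructor
    · rintro ⟨⟨_, h2⟩, h3⟩; exact ⟨h3, h2⟩
    · rintro ⟨h2, h3⟩; exact ⟨⟨(xc_pos g).trans h2, h3⟩, h2⟩
  · exact (hint.indicator measurableSet_Ioi).const_mul _

theorem coe_sum' {ι : Type*} (s : Finset ι) (f : ι → ℝ) :
    ((∑ i ∈ s, f i : ℝ) : EReal) = ∑ i ∈ s, (f i : EReal) := by
  classical
  induction s using Finset.induction_on with
  | empty => simp
  | insert i s hi ih => rw [Finset.sum_insert hi, Finset.sum_insert hi, EReal.coe_add, ih]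

/-- `S_m(p)` bounds the group value plus the pairing with the path -/
theorem group_le {J nc : ℕ} {γ m : Fin J → ℚ} (hm : ∀ j, |((m j : ℚ) : ℝ)| ≤ 1)
    {pp : ℝ → ℝ} (hpp : IsTrialPath pp) {S : ℝ}
    (hS : constrainedEntropyPart γ m pp ≤ (S : EReal)) {a : Fin nc → ℝ} (ha : ∀ g, 0 ≤ a g) :
    ∑ j, ((γ j : ℚ) : ℝ) * cst nc a ((m j : ℚ) : ℝ) +
      (1 / 2) * ∑ g, a g ^ 2 * ∫ s in Set.Ioo (xc nc g) 1, pp s ≤ S := by
  have h1 : groupFieldValue γ m (wc nc) (hc nc a) +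
      (((1 / 2) * ∫ s in Set.Ioo (0 : ℝ) 1, pp s * stepFn (wc nc) (hc nc a) s : ℝ) : EReal) ≤
      (S : EReal) := by
    refine le_trans ?_ hS
    unfold constrainedEntropyPart
    exact le_iSup_of_le (nc + 1) (le_iSup_of_le (wc nc) (le_iSup_of_le (hc nc a)
      (le_iSup_of_le (isStep nc a) le_rfl)))
  have h2 : groupFieldValue γ m (wc nc) (hc nc a) =
      ((∑ j, ((γ j : ℚ) : ℝ) * cst nc a ((m j : ℚ) : ℝ) : ℝ) : EReal) := by
    unfold groupFieldValue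
    rw [coe_sum']
    refine Finset.sum_congr rfl fun j _ => ?_
    rw [constrained_eq ha (hm j), EReal.coe_mul]
  rw [h2, ← EReal.coe_add, EReal.coe_le_coe_iff, integral_hc hpp] at h1
  exact h1

theorem abs_cst_le {nc : ℕ} {a : Fin nc → ℝ} {Amax : ℝ} (ha : ∀ g, 0 ≤ a g ∧ a g ≤ Amax)
    {s : ℝ} (hs : |s| ≤ 1) : |cst nc a s| ≤
      Real.log 2 + (nc * Amax ^ 2) / 2 + cU nc (fun _ => Amax) := by
  have ha0 : ∀ g, 0 ≤ a g := fun g => (ha g).1
  have h1 := cst_le_cU ha0 hs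
  have h2 := cst_ge ha0 hs
  have h3 := cU_mono ha
  have h4 : ∑ g, a g ^ 2 ≤ nc * Amax ^ 2 := by
    have := Finset.sum_le_sum fun g (_ : g ∈ Finset.univ) =>
      pow_le_pow_left₀ (ha g).1 (ha g).2 2
    simpa using this
  have h5 : 0 ≤ Real.log 2 := Real.log_nonneg (by norm_num)
  have h6 := cU_nonneg nc (fun _ => Amax)
  have h7 : 0 ≤ (nc:ℝ) * Amax ^ 2 := by positivity
  rw [abs_le]
  constructor <;> linarith

open Filter in
/-- **(Z1)**, normalised: the initial value is at most `S - 1/2 ∑ a_g² ∫_{x_g}^1 p + ε`. -/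
theorem F0_le (p : Par) (Amax : ℝ) {J : ℕ} {γ m : Fin J → ℚ}
    (hm : ∀ j, (-1 : ℚ) < m j ∧ m j < 1) (lab : (N : ℕ) → Fin N → Fin J)
    (hlab : ∀ j : Fin J, Tendsto
      (fun N : ℕ => ((Finset.univ.filter fun r : Fin N => lab N r = j).card : ℝ) / (N : ℝ))
      atTop (nhds ((γ j : ℚ) : ℝ))) {l u : Fin J → ℝ}
    (hbox : ∀ j, ∀ x ∈ Set.Icc (l j) (u j),
      |((m j : ℚ) : ℝ)| ≤ |x| ∧ 0 ≤ ((m j : ℚ) : ℝ) * x)
    {pp : ℝ → ℝ} (hpp : IsTrialPath pp) {S : ℝ}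
    (hS : constrainedEntropyPart γ m pp ≤ (S : EReal)) {ε : ℝ} (hε : 0 < ε) :
    ∃ n0 : ℕ, ∀ᶠ N : ℕ in atTop, ∀ n, n0 ≤ n →
      ∀ (hK : (Mag.boxSet (lab N) l u).Nonempty),
      ∀ a : Fin p.nc → ℝ, (∀ g, 0 ≤ a g ∧ a g ≤ Amax) →
      ∀ (h0 : (Fin N → Bool) → ℝ) (C0 : ℝ), (∀ σ ∈ Mag.boxSet (lab N) l u, h0 σ ≤ C0) →
      ∀ (lam : Fin N → Fin p.nc → ℝ) (x : (Fin N → Bool) → Fin N → ℝ) (κ : ℝ),
      (∀ σ ∈ Mag.boxSet (lab N) l u, ∑ g, ∑ i, (lam i g * x σ i) ^ 2 ≤ κ) → ∀ d : DD p N,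
      (1 / (N : ℝ)) * (Real.log (((Mag.boxSet (lab N) l u).card : ℝ) * (1 / 2) ^ N) +
        G.Phi (base p n (Mag.boxSet (lab N) l u) hK) (HH h0 a lam x) d) - (∑ g, a g ^ 2) / 2 ≤
      S - (1 / 2) * (∑ g : Fin p.nc, a g ^ 2 * ∫ s in Set.Ioo (p.xi g) 1, pp s) + ε +
        (1 / (N : ℝ)) * (C0 + κ / 2 + p.τ * Fintype.card (Stp p)) + p.nb * (p.Q : ℝ)⁻¹ := by
  have hm1 : ∀ j, |((m j : ℚ) : ℝ)| < 1 := fun j => by
    rw [abs_lt]; constructor <;> [exact_mod_cast (hm j).1; exact_mod_cast (hm j).2]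
  obtain ⟨n0, hn0⟩ := Phi_upper p Amax (fun j => ((m j : ℚ) : ℝ)) hm1 (half_pos hε)
  refine ⟨n0, ?_⟩
  set C : ℝ := Real.log 2 + (p.nc * Amax ^ 2) / 2 + cU p.nc (fun _ => Amax) with hC
  have hC0 : 0 ≤ C := by
    have h5 : 0 ≤ Real.log 2 := Real.log_nonneg (by norm_num)
    have h6 := cU_nonneg p.nc (fun _ => Amax)
    positivity
  have hlim : Tendsto (fun N : ℕ => ∑ j : Fin J,
      |((Finset.univ.filter fun r : Fin N => lab N r = j).card : ℝ) / (N : ℝ) -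
        ((γ j : ℚ) : ℝ)| * C) atTop (nhds 0) := by
    have h1 : Tendsto (fun N : ℕ => ∑ j : Fin J,
      |((Finset.univ.filter fun r : Fin N => lab N r = j).card : ℝ) / (N : ℝ) -
        ((γ j : ℚ) : ℝ)| * C) atTop (nhds (∑ _j : Fin J, 0)) := by
      refine tendsto_finsetSum _ fun j _ => ?_
      have h2 := (((hlab j).sub_const ((γ j : ℚ) : ℝ)).abs).mul_const C
      simpa using h2
    simpa using h1
  filter_upwards [hlim.eventually (gt_mem_nhds (half_pos hε)), eventually_gt_atTop 0]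
    with N hN hNpos n hn hK a ha h0 C0 hh0 lam x κ hκ d
  have hN' : (0:ℝ) < N := by exact_mod_cast hNpos
  have h1 := hn0 n hn hK (lab N) (box_ineq (lab N) hbox) a ha h0 C0 hh0 lam x κ hκ d
  have ha0 : ∀ g, 0 ≤ a g := fun g => (ha g).1
  have h2 := group_le (nc := p.nc) (fun j => (hm1 j).le) hpp hS ha0
  have hxi : ∀ g : Fin p.nc, xc p.nc g = p.xi g := fun g => rfl
  simp only [hxi] at h2
  -- the sites
  have h3 : (1 / (N : ℝ)) * ∑ i, cst p.nc a ((m (lab N i) : ℚ) : ℝ) ≤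
      ∑ j, ((γ j : ℚ) : ℝ) * cst p.nc a ((m j : ℚ) : ℝ) + ε / 2 := by
    have e1 : ∑ i, cst p.nc a ((m (lab N i) : ℚ) : ℝ) =
        ∑ j, ((Finset.univ.filter fun r => lab N r = j).card : ℝ) *
          cst p.nc a ((m j : ℚ) : ℝ) := by
      rw [← Finset.sum_fiberwise Finset.univ (lab N) (fun i => cst p.nc a ((m (lab N i) : ℚ) : ℝ))]
      refine Finset.sum_congr rfl fun j _ => ?_
      rw [Finset.sum_congr rfl fun r hr => by
        rw [(Finset.mem_filter.1 hr).2], Finset.sum_const, nsmul_eq_mul]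
    rw [e1, Finset.mul_sum]
    have e2 : ∀ j, (1 / (N : ℝ)) * (((Finset.univ.filter fun r => lab N r = j).card : ℝ) *
        cst p.nc a ((m j : ℚ) : ℝ)) ≤ ((γ j : ℚ) : ℝ) * cst p.nc a ((m j : ℚ) : ℝ) +
        |((Finset.univ.filter fun r : Fin N => lab N r = j).card : ℝ) / (N : ℝ) -
        ((γ j : ℚ) : ℝ)| * C := by
      intro j
      have e3 : (((Finset.univ.filter fun r : Fin N => lab N r = j).card : ℝ) / (N : ℝ) -
        ((γ j : ℚ) : ℝ)) * cst p.nc a ((m j : ℚ) : ℝ) ≤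
        |((Finset.univ.filter fun r : Fin N => lab N r = j).card : ℝ) / (N : ℝ) -
        ((γ j : ℚ) : ℝ)| * C := by
        refine (le_abs_self _).trans ?_
        rw [abs_mul]
        exact mul_le_mul_of_nonneg_left (abs_cst_le ha (hm1 j).le) (abs_nonneg _)
      have e4 : (1 / (N : ℝ)) * (((Finset.univ.filter fun r => lab N r = j).card : ℝ) *
        cst p.nc a ((m j : ℚ) : ℝ)) =
        (((Finset.univ.filter fun r : Fin N => lab N r = j).card : ℝ) / (N : ℝ)) *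
          cst p.nc a ((m j : ℚ) : ℝ) := by ring
      rw [e4]
      linarith
    refine (Finset.sum_le_sum fun j _ => e2 j).trans ?_
    rw [Finset.sum_add_distrib]
    linarith
  have h4 := mul_le_mul_of_nonneg_left h1 (by positivity : 0 ≤ 1 / (N : ℝ))
  have h5 : (1 / (N : ℝ)) * (C0 + ∑ i, cst p.nc a ((m (lab N i) : ℚ) : ℝ) +
      N * ((∑ g, a g ^ 2) / 2) + N * (ε / 2) + κ / 2 +
      (N * (p.nb * (p.Q : ℝ)⁻¹) + p.τ * Fintype.card (Stp p))) =
      (1 / (N : ℝ)) * ∑ i, cst p.nc a ((m (lab N i) : ℚ) : ℝ) + (∑ g, a g ^ 2) / 2 + ε / 2 +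
      (1 / (N : ℝ)) * (C0 + κ / 2 + p.τ * Fintype.card (Stp p)) + p.nb * (p.Q : ℝ)⁻¹ := by
    field_simp
    ring
  rw [h5] at h4
  linarith

end

end Crest.Agent.R164.Z
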