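import Crest.Agent.R164.ZFin
import Crest.Agent.R164.USys2
import Crest.Agent.R164.UField

/-!
Row 164 (helper399): (Z1) in terms of `US.FN`.
-/

set_option autoImplicit false

namespace Crest.Agent.R164.Z

open Finset Filter MeasureTheory Crest.Agent.R141 Crest.Agent.R164 Crest.Agent.R164.SY
  Crest.Agent.R164.CoinG
open Crest.ProbabilityR.InvariantGlass

noncomputable section

/-- averages over the sites converge to the group value, uniformly in the strengths -/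
theorem avg_cst_le (nc : ℕ) (Amax : ℝ) {J : ℕ} {γ : Fin J → ℝ} {m : Fin J → ℝ}
    (hm : ∀ j, |m j| ≤ 1) (lab : (N : ℕ) → Fin N → Fin J)
    (hlab : ∀ j : Fin J, Tendsto
      (fun N : ℕ => ((Finset.univ.filter fun r : Fin N => lab N r = j).card : ℝ) / (N : ℝ))
      atTop (nhds (γ j))) {ε : ℝ} (hε : 0 < ε) :
    ∀ᶠ N : ℕ in atTop, ∀ a : Fin nc → ℝ, (∀ g, 0 ≤ a g ∧ a g ≤ Amax) →
      (N : ℝ)⁻¹ * ∑ i, cst nc a (m (lab N i)) ≤ ∑ j, γ j * cst nc a (m j) + ε := by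
  set C : ℝ := Real.log 2 + (nc * Amax ^ 2) / 2 + cU nc (fun _ => Amax) with hC
  have hlim : Tendsto (fun N : ℕ => ∑ j : Fin J,
      |((Finset.univ.filter fun r : Fin N => lab N r = j).card : ℝ) / (N : ℝ) - γ j| * C)
      atTop (nhds 0) := by
    have h1 : Tendsto (fun N : ℕ => ∑ j : Fin J,
      |((Finset.univ.filter fun r : Fin N => lab N r = j).card : ℝ) / (N : ℝ) - γ j| * C)
      atTop (nhds (∑ _j : Fin J, 0)) := by
      refine tendsto_finsetSum _ fun j _ => ?_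
      have h2 := (((hlab j).sub_const (γ j)).abs).mul_const C
      simpa using h2
    simpa using h1
  filter_upwards [hlim.eventually (gt_mem_nhds hε)] with N hN a ha
  have e1 : ∑ i, cst nc a (m (lab N i)) =
      ∑ j, ((Finset.univ.filter fun r => lab N r = j).card : ℝ) * cst nc a (m j) := by
    rw [← Finset.sum_fiberwise Finset.univ (lab N) (fun i => cst nc a (m (lab N i)))]
    refine Finset.sum_congr rfl fun j _ => ?_
    rw [Finset.sum_congr rfl fun r hr => by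
      rw [(Finset.mem_filter.1 hr).2], Finset.sum_const, nsmul_eq_mul]
  rw [e1, Finset.mul_sum]
  have e2 : ∀ j, (N : ℝ)⁻¹ * (((Finset.univ.filter fun r => lab N r = j).card : ℝ) *
      cst nc a (m j)) ≤ γ j * cst nc a (m j) +
      |((Finset.univ.filter fun r : Fin N => lab N r = j).card : ℝ) / (N : ℝ) - γ j| * C := by
    intro j
    have e3 : (((Finset.univ.filter fun r : Fin N => lab N r = j).card : ℝ) / (N : ℝ) -
      γ j) * cst nc a (m j) ≤
      |((Finset.univ.filter fun r : Fin N => lab N r = j).card : ℝ) / (N : ℝ) - γ j| * C := by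
      refine (le_abs_self _).trans ?_
      rw [abs_mul]
      exact mul_le_mul_of_nonneg_left (abs_cst_le ha (hm j)) (abs_nonneg _)
    have e4 : (N : ℝ)⁻¹ * (((Finset.univ.filter fun r => lab N r = j).card : ℝ) *
      cst nc a (m j)) =
      (((Finset.univ.filter fun r : Fin N => lab N r = j).card : ℝ) / (N : ℝ)) *
        cst nc a (m j) := by ring
    rw [e4]
    linarith
  refine (Finset.sum_le_sum fun j _ => e2 j).trans ?_
  rw [Finset.sum_add_distrib]
  linarith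

theorem groupFieldValue_hc {J nc : ℕ} {γ m : Fin J → ℚ} (hm : ∀ j, |((m j : ℚ) : ℝ)| ≤ 1)
    {a : Fin nc → ℝ} (ha : ∀ g, 0 ≤ a g) :
    groupFieldValue γ m (US.wU nc) (US.hvA a) =
      ((∑ j, ((γ j : ℚ) : ℝ) * cst nc a ((m j : ℚ) : ℝ) : ℝ) : EReal) := by
  show groupFieldValue γ m (wc nc) (hc nc a) = _
  unfold groupFieldValue
  rw [coe_sum']
  refine Finset.sum_congr rfl fun j _ => ?_
  rw [constrained_eq ha (hm j), EReal.coe_mul]

/-- **(Z1)** for the U side. -/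
theorem FN_zero_le {p : Par} (hb : p.nb = 0) (Amax : ℝ) {J : ℕ} {γ m : Fin J → ℚ}
    (hm : ∀ j, (-1 : ℚ) < m j ∧ m j < 1) (lab : (N : ℕ) → Fin N → Fin J)
    (hlab : ∀ j : Fin J, Tendsto
      (fun N : ℕ => ((Finset.univ.filter fun r : Fin N => lab N r = j).card : ℝ) / (N : ℝ))
      atTop (nhds ((γ j : ℚ) : ℝ))) {l u : Fin J → ℝ}
    (hbox : ∀ j, ∀ x ∈ Set.Icc (l j) (u j),
      |((m j : ℚ) : ℝ)| ≤ |x| ∧ 0 ≤ ((m j : ℚ) : ℝ) * x) {ε : ℝ} (hε : 0 < ε) :
    ∃ N0 n0 : ℕ, ∀ N, N0 ≤ N → ∀ n, n0 ≤ n → ∀ (hA : (Mag.boxSet (lab N) l u).Nonempty)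
      (ν : Measure (Fin N → Fin N → ℝ)), IsProbabilityMeasure ν →
      ∀ {κ : Type} (labE : Fin N → κ) (th : κ → ℝ) (η : ℝ) (a : Fin p.nc → ℝ),
      (∀ g, 0 ≤ a g ∧ a g ≤ Amax) →
      ((US.FN n hA ν labE th η 0 a 0 : ℝ) : EReal) ≤
        groupFieldValue γ m (US.wU p.nc) (US.hvA a) + ((ε : ℝ) : EReal) := by
  have hm1 : ∀ j, |((m j : ℚ) : ℝ)| < 1 := fun j => by
    rw [abs_lt]; constructor <;> [exact_mod_cast (hm j).1; exact_mod_cast (hm j).2]
  obtain ⟨n0, hn0⟩ := Phi_upper p Amax (fun j => ((m j : ℚ) : ℝ)) hm1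
    (show 0 < ε / 3 by linarith)
  have h3 := avg_cst_le p.nc Amax (fun j => (hm1 j).le) lab hlab (show 0 < ε / 3 by linarith)
  have h4 : ∀ᶠ N : ℕ in atTop, (N : ℝ)⁻¹ * (p.τ * Fintype.card (Stp p)) < ε / 3 := by
    have h5 : Tendsto (fun N : ℕ => (N : ℝ)⁻¹ * (p.τ * Fintype.card (Stp p))) atTop
        (nhds (0 * (p.τ * Fintype.card (Stp p)))) :=
      tendsto_inv_atTop_nhds_zero_nat.mul_const _
    rw [zero_mul] at h5
    exact h5.eventually (gt_mem_nhds (by linarith))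
  obtain ⟨N0, hN0⟩ := eventually_atTop.1 (h3.and (h4.and (eventually_gt_atTop 0)))
  refine ⟨N0, n0, fun N hN n hn hA ν hν κ labE th η a ha => ?_⟩
  obtain ⟨h3, h4, hNpos⟩ := hN0 N hN
  have hN' : (0:ℝ) < N := by exact_mod_cast hNpos
  have ha0 : ∀ g, 0 ≤ a g := fun g => (ha g).1
  rw [groupFieldValue_hc (fun j => (hm1 j).le) ha0, ← EReal.coe_add, EReal.coe_le_coe_iff]
  have hU : ∀ (U : Fin N → Fin N → ℝ) (d : DD p N),
      Real.log (((Mag.boxSet (lab N) l u).card : ℝ) * (1 / 2) ^ N) +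
        G.Phi (SY.base p n (Mag.boxSet (lab N) l u) hA)
          (US.HF (Mag.boxSet (lab N) l u) n labE th η 0 a 0 U) d ≤
      ∑ i, cst p.nc a ((m (lab N i) : ℚ) : ℝ) + N * ((∑ g, a g ^ 2) / 2) + N * (ε / 3) +
        p.τ * Fintype.card (Stp p) := by
    intro U d
    have h1 := hn0 n hn hA (lab N) (box_ineq (lab N) hbox) a ha
      (SY.h0q (fun i => th (labE i)) (Matrix.of U) 0 (fun _ => 0)) 0
      (fun σ _ => by unfold SY.h0q; simp)
      (US.lamF labE η 0) (SY.xU (Matrix.of U)) 0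
      (fun σ _ => by unfold US.lamF; simp) d
    rw [hb] at h1
    simp only [Nat.cast_zero, zero_mul, mul_zero, zero_add, zero_div, add_zero] at h1
    have h2 : (US.HF (Mag.boxSet (lab N) l u) n labE th η 0 a 0 U : SY.SS p n _ → ℝ) =
        SY.HH (SY.h0q (fun i => th (labE i)) (Matrix.of U) 0 (fun _ => 0)) a
          (US.lamF labE η 0) (SY.xU (Matrix.of U)) := by
      rw [SY.HH_eq_HS]; rfl
    have h3 : G.Phi (SY.base p n (Mag.boxSet (lab N) l u) hA)
        (US.HF (Mag.boxSet (lab N) l u) n labE th η 0 a 0 U) d =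
        G.Phi (SY.base p n (Mag.boxSet (lab N) l u) hA)
        (SY.HH (SY.h0q (fun i => th (labE i)) (Matrix.of U) 0 (fun _ => 0)) a
          (US.lamF labE η 0) (SY.xU (Matrix.of U))) d :=
      congrArg (fun H => G.Phi (SY.base p n (Mag.boxSet (lab N) l u) hA) H d) h2
    rw [h3]
    exact h1
  -- the Hamiltonian does not depend on `U`
  have hc : ∀ U : Fin N → Fin N → ℝ,
      (US.HF (Mag.boxSet (lab N) l u) n labE th η 0 a 0 U : SY.SS p n _ → ℝ) =
        US.HF (Mag.boxSet (lab N) l u) n labE th η 0 a 0 (fun _ _ => 0) := by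
    intro U
    funext s
    unfold US.HF SY.HS SY.h0q US.lamF
    simp
  have hFP : US.FP n hA ν labE th η 0 a 0 ≤
      (∑ i, cst p.nc a ((m (lab N i) : ℚ) : ℝ) + N * ((∑ g, a g ^ 2) / 2) + N * (ε / 3) +
        p.τ * Fintype.card (Stp p)) -
      Real.log (((Mag.boxSet (lab N) l u).card : ℝ) * (1 / 2) ^ N) := by
    unfold US.FP US.EP
    rw [← Ed_const p hNpos ((∑ i, cst p.nc a ((m (lab N i) : ℚ) : ℝ) +
      N * ((∑ g, a g ^ 2) / 2) + N * (ε / 3) + p.τ * Fintype.card (Stp p)) -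
      Real.log (((Mag.boxSet (lab N) l u).card : ℝ) * (1 / 2) ^ N))]
    refine Ed_mono p N fun d => ?_
    have h6 : (fun U : Fin N → Fin N → ℝ => G.Phi (SY.base p n (Mag.boxSet (lab N) l u) hA)
        (US.HF (Mag.boxSet (lab N) l u) n labE th η 0 a 0 U) d) =
        fun _ => G.Phi (SY.base p n (Mag.boxSet (lab N) l u) hA)
        (US.HF (Mag.boxSet (lab N) l u) n labE th η 0 a 0 (fun _ _ => 0)) d := by
      funext U
      exact congrArg (fun H => G.Phi (SY.base p n (Mag.boxSet (lab N) l u) hA) H d) (hc U)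
    rw [h6, integral_const, probReal_univ, one_smul]
    have := hU (fun _ _ => 0) d
    linarith
  unfold US.FN
  have h7 := mul_le_mul_of_nonneg_left hFP (inv_pos.2 hN').le
  have h8 := h3 a ha
  have h9 : (N : ℝ)⁻¹ * ((∑ i, cst p.nc a ((m (lab N i) : ℚ) : ℝ) +
      N * ((∑ g, a g ^ 2) / 2) + N * (ε / 3) + p.τ * Fintype.card (Stp p)) -
      Real.log (((Mag.boxSet (lab N) l u).card : ℝ) * (1 / 2) ^ N)) =
      (N : ℝ)⁻¹ * ∑ i, cst p.nc a ((m (lab N i) : ℚ) : ℝ) + (∑ g, a g ^ 2) / 2 + ε / 3 +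
      (N : ℝ)⁻¹ * (p.τ * Fintype.card (Stp p)) -
      (N : ℝ)⁻¹ * Real.log ((1 / 2) ^ N * ((Mag.boxSet (lab N) l u).card : ℝ)) := by
    rw [mul_comm ((1 / 2 : ℝ) ^ N)]
    field_simp
  rw [h9] at h7
  linarith

end

end Crest.Agent.R164.Z
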