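import Crest.Agent.R164.CoinZ
import Crest.Agent.R164.ZSys

/-!
Row 164 (helper399): bounds for the nested coin recursion, the box inequality and the coercivity
bound (Z2).
-/

set_option autoImplicit false

namespace Crest.Agent.R164.CoinG

open MeasureTheory ProbabilityTheory Filter Topology
open Crest.ProbabilityR.InvariantGlass
open Crest.Agent.R164.GC

noncomputable section

/-! ### two-sided bounds of the recursion -/

theorem one_le_bavg_exp (n : ℕ) (t : ℝ) : 1 ≤ bavg n (fun s => Real.exp (t * s)) := by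
  rw [bavg_exp]
  exact one_le_pow₀ (Real.one_le_cosh _)

theorem coinOp_ge (n : ℕ) {x : ℝ} (hx : 0 < x) (a : ℝ) {f : ℝ → ℝ} {c : ℝ}
    (h : ∀ y, |y| - c ≤ f y) (z : ℝ) : |z| - c ≤ coinOp n x a f z := by
  have key : ∀ e : ℝ, |e| = 1 → e * z - c ≤ coinOp n x a f z := by
    intro e he
    unfold coinOp
    have h1 : Real.exp (x * (e * z - c)) * bavg n (fun s => Real.exp ((x * e * a) * s)) ≤
        bavg n (fun s => Real.exp (x * f (z + a * s))) := by
      rw [← bavg_const_mul]
      refine bavg_mono n fun s => ?_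
      rw [← Real.exp_add]
      apply Real.exp_le_exp.2
      have h2 := h (z + a * s)
      have h3 : e * (z + a * s) ≤ |z + a * s| := by
        refine (le_abs_self _).trans ?_
        rw [abs_mul, he, one_mul]
      have h4 : e * (z + a * s) - c ≤ f (z + a * s) := by linarith
      calc x * (e * z - c) + x * e * a * s = x * (e * (z + a * s) - c) := by ring
        _ ≤ _ := mul_le_mul_of_nonneg_left h4 hx.le
    have h5 : Real.exp (x * (e * z - c)) ≤ bavg n (fun s => Real.exp (x * f (z + a * s))) := by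
      refine le_trans ?_ h1
      have := mul_le_mul_of_nonneg_left (one_le_bavg_exp n (x * e * a))
        (Real.exp_pos (x * (e * z - c))).le
      linarith
    have h6 := Real.log_le_log (Real.exp_pos _) h5
    rw [Real.log_exp] at h6
    have h7 := mul_le_mul_of_nonneg_left h6 (by positivity : 0 ≤ 1 / x)
    calc e * z - c = 1 / x * (x * (e * z - c)) := by field_simp
      _ ≤ _ := h7
  rcases abs_cases z with ⟨h1, _⟩ | ⟨h1, _⟩
  · rw [h1]; have := key 1 (by simp); linarith
  · rw [h1]; have := key (-1) (by simp); linarith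

theorem coinOp_le (n : ℕ) {x : ℝ} (hx : 0 < x) (a : ℝ) {f : ℝ → ℝ} {c : ℝ}
    (h : ∀ y, f y ≤ |y| + c) (z : ℝ) :
    coinOp n x a f z ≤ |z| + (c + (Real.log 2 / x + x * a ^ 2 / 2)) := by
  unfold coinOp
  have h1 : bavg n (fun s => Real.exp (x * f (z + a * s))) ≤
      Real.exp (Real.log 2 + x * |z| + x * c + (x * a) ^ 2 / 2) := by
    have h2 : ∀ s, Real.exp (x * f (z + a * s)) ≤
        Real.exp (x * |z| + x * c) * Real.exp ((x * a) * s) +
        Real.exp (x * |z| + x * c) * Real.exp ((-(x * a)) * s) := by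
      intro s
      have h3 := mul_le_mul_of_nonneg_left (h (z + a * s)) hx.le
      have hz := neg_abs_le z
      have hz' := le_abs_self z
      rw [← Real.exp_add, ← Real.exp_add]
      rcases abs_cases (z + a * s) with ⟨h4, _⟩ | ⟨h4, _⟩
      · have h5 : x * f (z + a * s) ≤ x * |z| + x * c + x * a * s := by
          rw [h4] at h3
          nlinarith
        have := Real.exp_le_exp.2 h5
        have := Real.exp_pos (x * |z| + x * c + -(x * a) * s)
        linarith
      · have h5 : x * f (z + a * s) ≤ x * |z| + x * c + -(x * a) * s := by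
          rw [h4] at h3
          nlinarith
        have := Real.exp_le_exp.2 h5
        have := Real.exp_pos (x * |z| + x * c + (x * a) * s)
        linarith
    refine (bavg_mono n h2).trans ?_
    rw [bavg_add, bavg_const_mul, bavg_const_mul]
    have e1 := bavg_exp_le n (x * a)
    have e2 := bavg_exp_le n (-(x * a))
    rw [neg_sq] at e2
    have e3 := mul_le_mul_of_nonneg_left (add_le_add e1 e2) (Real.exp_pos (x * |z| + x * c)).le
    have e4 : Real.exp (Real.log 2 + x * |z| + x * c + (x * a) ^ 2 / 2) =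
        Real.exp (x * |z| + x * c) *
          (Real.exp ((x * a) ^ 2 / 2) + Real.exp ((x * a) ^ 2 / 2)) := by
      rw [show Real.log 2 + x * |z| + x * c + (x * a) ^ 2 / 2 =
        Real.log 2 + ((x * |z| + x * c) + (x * a) ^ 2 / 2) by ring, Real.exp_add,
        Real.exp_log two_pos, Real.exp_add]
      ring
    rw [e4]
    linarith
  have h6 := Real.log_le_log (bavg_pos n fun s => Real.exp_pos _) h1
  rw [Real.log_exp] at h6
  have h7 := mul_le_mul_of_nonneg_left h6 (by positivity : 0 ≤ 1 / x)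
  refine h7.trans (le_of_eq ?_)
  field_simp
  ring

theorem cRec_ge {κ : Type*} {x : κ → ℝ} (hx : ∀ g, 0 < x g) (n : ℕ) (a : κ → ℝ) (L : List κ)
    {f : ℝ → ℝ} {c : ℝ} (h : ∀ y, |y| - c ≤ f y) (z : ℝ) : |z| - c ≤ cRec n x a L f z := by
  induction L generalizing z with
  | nil => exact h z
  | cons g L ih => exact coinOp_ge n (hx g) (a g) ih z

theorem cRec_le {κ : Type*} {x : κ → ℝ} (hx : ∀ g, 0 < x g) (n : ℕ) (a : κ → ℝ) (L : List κ)
    {f : ℝ → ℝ} {c : ℝ} (h : ∀ y, f y ≤ |y| + c) (z : ℝ) :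
    cRec n x a L f z ≤
      |z| + (c + (L.map fun g => Real.log 2 / x g + x g * a g ^ 2 / 2).sum) := by
  induction L generalizing z with
  | nil =>
    rw [List.map_nil, List.sum_nil, add_zero]
    exact h z
  | cons g L ih =>
    have := coinOp_le n (hx g) (a g) ih z
    refine this.trans (le_of_eq ?_)
    rw [List.map_cons, List.sum_cons]
    ring

theorem lc_le (y : ℝ) : lc y ≤ |y| := by
  have h := lc_lip y 0
  have h0 : lc 0 = 0 := by unfold lc; simp
  rw [h0, sub_zero] at h
  linarith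

theorem lc_ge (y : ℝ) : |y| - Real.log 2 ≤ lc y := by
  unfold lc
  have h1 : Real.exp |y| / 2 ≤ Real.cosh y := by
    rw [← Real.cosh_abs, Real.cosh_eq]
    have := Real.exp_pos (-|y|)
    linarith
  have h2 := Real.log_le_log (by positivity) h1
  rwa [Real.log_div (Real.exp_pos _).ne' two_ne_zero, Real.log_exp] at h2

/-- bounds for the Gaussian recursion -/
theorem gRec_ge {κ : Type*} {x : κ → ℝ} (hx : ∀ g, 0 < x g) (a : κ → ℝ) (ha : ∀ g, 0 ≤ a g)
    (L : List κ) (z : ℝ) : |z| - Real.log 2 ≤ gRec x a L lc z := by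
  have h : Tendsto (fun n : ℕ => cRec n x a L lc z) atTop (𝓝 (gRec x a L lc z)) :=
    cRec_tendsto tendsto_id hx L lc_lip ha (fun g => tendsto_const_nhds) tendsto_const_nhds
  exact ge_of_tendsto' h fun n => cRec_ge hx n a L lc_ge z

theorem gRec_le {κ : Type*} {x : κ → ℝ} (hx : ∀ g, 0 < x g) (a : κ → ℝ) (ha : ∀ g, 0 ≤ a g)
    (L : List κ) (z : ℝ) : gRec x a L lc z ≤
      |z| + (L.map fun g => Real.log 2 / x g + x g * a g ^ 2 / 2).sum := by
  have h : Tendsto (fun n : ℕ => cRec n x a L lc z) atTop (𝓝 (gRec x a L lc z)) :=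
    cRec_tendsto tendsto_id hx L lc_lip ha (fun g => tendsto_const_nhds) tendsto_const_nhds
  refine le_of_tendsto' h fun n => ?_
  have := cRec_le hx n a L (c := 0) (fun y => by simpa using lc_le y) z
  simpa using this

theorem sum_finRange {nc : ℕ} (f : Fin nc → ℝ) : ((List.finRange nc).map f).sum = ∑ g, f g := by
  rw [Fin.sum_univ_def]

/-! ### the last step -/

theorem avg_spin_prod {N : ℕ} (u : Fin N → ℝ) :
    ∑ σ : Fin N → Bool, Real.exp (∑ i, Crest.Agent.R141.sv (σ i) * u i) =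
      2 ^ N * ∏ i, Real.cosh (u i) := by
  have h : ∀ σ : Fin N → Bool, Real.exp (∑ i, Crest.Agent.R141.sv (σ i) * u i) =
      ∏ i, (fun i b => Real.exp (Crest.Agent.R141.sv b * u i)) i (σ i) := by
    intro σ; rw [Real.exp_sum]
  simp only [h]
  rw [← Fintype.prod_sum (fun i b => Real.exp (Crest.Agent.R141.sv b * u i))]
  rw [show (2:ℝ) ^ N * ∏ i, Real.cosh (u i) = ∏ i : Fin N, (2 * Real.cosh (u i)) by
    rw [Finset.prod_mul_distrib]; simp]
  refine Finset.prod_congr rfl fun i _ => ?_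
  rw [Fintype.sum_bool, Real.cosh_eq]
  simp [Crest.Agent.R141.sv]
  ring

end

end Crest.Agent.R164.CoinG

namespace Crest.Agent.R164.Z

open Finset Crest.Agent.R141 Crest.Agent.R141.SysF Crest.Agent.R141.SysIC Crest.Agent.R164
  Crest.Agent.R164.SY Crest.Agent.R164.CoinG

noncomputable section

variable {p : Par} {N n : ℕ} {K : Finset (Fin N → Bool)} (hK : K.Nonempty)

theorem unif_sum (f : {σ : Fin N → Bool // σ ∈ K} → ℝ) :
    eE (unif {σ : Fin N → Bool // σ ∈ K}) f = (K.card : ℝ)⁻¹ * ∑ σ, f σ := by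
  unfold eE unif
  rw [Finset.mul_sum, Fintype.card_coe]

include hK in
/-- the last step for a restricted set of spins -/
theorem hlast_box {b m : Fin N → ℝ} (h : ∀ σ ∈ K, 0 ≤ ∑ i, b i * (sv (σ i) - m i))
    (y : Fin N → ℝ) : eE (unif {σ : Fin N → Bool // σ ∈ K})
      (fun σ => Real.exp (∑ i, sv (σ.1 i) * y i)) ≤
      Real.exp ((-Real.log ((K.card : ℝ) * (1 / 2) ^ N) - ∑ i, b i * m i) +
        ∑ i, lc (b i + y i)) := by
  have hc : (0:ℝ) < K.card := by exact_mod_cast hK.card_pos
  rw [unif_sum, Finset.sum_coe_sort K (fun σ => Real.exp (∑ i, sv (σ i) * y i))]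
  have h1 : ∑ σ ∈ K, Real.exp (∑ i, sv (σ i) * y i) ≤
      Real.exp (-∑ i, b i * m i) * (2 ^ N * ∏ i, Real.cosh (b i + y i)) := by
    rw [← avg_spin_prod, Finset.mul_sum]
    refine (Finset.sum_le_sum (f := fun σ : Fin N → Bool => Real.exp (∑ i, sv (σ i) * y i))
      (g := fun σ => Real.exp (-∑ i, b i * m i) *
      Real.exp (∑ i, sv (σ i) * (b i + y i))) fun σ hσ => ?_).trans
      (Finset.sum_le_sum_of_subset_of_nonneg (Finset.subset_univ K) fun σ _ _ => by positivity)
    rw [← Real.exp_add]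
    apply Real.exp_le_exp.2
    have h2 := h σ hσ
    have h3 : ∑ i, b i * (sv (σ i) - m i) = ∑ i, sv (σ i) * b i - ∑ i, b i * m i := by
      rw [← Finset.sum_sub_distrib]
      exact Finset.sum_congr rfl fun i _ => by ring
    have h4 : ∑ i, sv (σ i) * (b i + y i) = ∑ i, sv (σ i) * b i + ∑ i, sv (σ i) * y i := by
      rw [← Finset.sum_add_distrib]
      exact Finset.sum_congr rfl fun i _ => by ring
    linarith
  refine (mul_le_mul_of_nonneg_left h1 (inv_pos.2 hc).le).trans (le_of_eq ?_)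
  have h5 : Real.exp (-Real.log ((K.card : ℝ) * (1 / 2) ^ N)) = (K.card : ℝ)⁻¹ * 2 ^ N := by
    rw [Real.exp_neg, Real.exp_log (by positivity), mul_inv, ← inv_pow]
    norm_num
  have h6 : Real.exp (∑ i, lc (b i + y i)) = ∏ i, Real.cosh (b i + y i) := by
    rw [Real.exp_sum]
    exact Finset.prod_congr rfl fun i _ => Real.exp_log (Real.cosh_pos _)
  rw [Real.exp_add, sub_eq_add_neg, Real.exp_add, h5, h6]
  ring

include hK in
/-- the last step, crude bound -/
theorem hlast_abs (y : Fin N → ℝ) : eE (unif {σ : Fin N → Bool // σ ∈ K})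
      (fun σ => Real.exp (∑ i, sv (σ.1 i) * y i)) ≤ Real.exp (0 + ∑ i, |y i|) := by
  have := spin_nonempty hK
  refine eE_le_of_le (unif_isProb _) fun σ => Real.exp_le_exp.2 ?_
  rw [zero_add]
  refine Finset.sum_le_sum fun i _ => (le_abs_self _).trans ?_
  rw [abs_mul, sv_abs, one_mul]

/-- log-cardinality of the restricted set -/
theorem log_card_nonpos (hK : K.Nonempty) : Real.log ((K.card : ℝ) * (1 / 2) ^ N) ≤ 0 := by
  have hc : (0:ℝ) < K.card := by exact_mod_cast hK.card_pos
  apply Real.log_nonpos (by positivity)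
  have h1 : K.card ≤ 2 ^ N := by
    have := Finset.card_le_univ K
    simpa using this
  have h2 : (K.card : ℝ) ≤ 2 ^ N := by exact_mod_cast h1
  calc (K.card : ℝ) * (1 / 2) ^ N ≤ 2 ^ N * (1 / 2) ^ N :=
        mul_le_mul_of_nonneg_right h2 (by positivity)
    _ = 1 := by rw [← mul_pow]; norm_num

/-- **(Z2)** COERCIVITY. -/
theorem Phi_coercive (h0 : (Fin N → Bool) → ℝ) {C0 : ℝ} (hh0 : ∀ σ ∈ K, h0 σ ≤ C0)
    (a : Fin p.nc → ℝ) (lam : Fin N → Fin p.nc → ℝ)
    (x : (Fin N → Bool) → Fin N → ℝ) {κ : ℝ}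
    (hκ : ∀ σ ∈ K, ∑ g, ∑ i, (lam i g * x σ i) ^ 2 ≤ κ) (d : DD p N) :
    Real.log ((K.card : ℝ) * (1 / 2) ^ N) + G.Phi (base p n K hK) (HH h0 a lam x) d ≤
      C0 + N * (∑ g : Fin p.nc, (Real.log 2 / p.xi g + p.xi g * a g ^ 2 / 2)) + κ / 2 +
        (N * (p.nb * (p.Q : ℝ)⁻¹) + p.τ * Fintype.card (Stp p)) := by
  have hxi : ∀ g : Fin p.nc, 0 < p.xi g := fun g => by unfold Par.xi; positivity
  have h1 := Phi_le hK h0 hh0 a lam x hκ (ρ := fun _ y => |y|) (hlast_abs hK) d (n := n)
  have h3 := cRec_le (x := fun g : Fin p.nc => p.xi g) hxi n a (List.finRange p.nc)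
    (f := fun y => |y|) (c := 0) (fun y => by simp) 0
  rw [sum_finRange, abs_zero, zero_add, zero_add] at h3
  have h4 : ∑ _i : Fin N, cRec n (fun g : Fin p.nc => p.xi g) a (List.finRange p.nc)
      (fun y => |y|) 0 ≤
      N * ∑ g : Fin p.nc, (Real.log 2 / p.xi g + p.xi g * a g ^ 2 / 2) := by
    rw [Finset.sum_const, Finset.card_univ, Fintype.card_fin, nsmul_eq_mul]
    exact mul_le_mul_of_nonneg_left h3 (Nat.cast_nonneg N)
  have h5 := log_card_nonpos hK
  linarith

end

end Crest.Agent.R164.Z
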